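import Vale.Agent.Lib.P154.PChain.BI.L

set_option linter.all false

namespace Vale.Agent.Lib.P154.PChain.BI.S0

open Vale.Agent.Lib.P154.Chain

noncomputable def pc0 : PT := (PT.nd (nat_lit 4927650) (PT.nd (nat_lit 4724772) (PT.nd (nat_lit 4643574) (PT.nd (nat_lit 4602936) (PT.nd (nat_lit 4602858) (PT.nd (nat_lit 4562298) PT.nil (PT.lf (nat_lit 76) (nat_lit 3) (nat_lit 1) (nat_lit 1) (nat_lit 139) (nat_lit 112) (nat_lit 139))) (PT.lf (nat_lit 152) (nat_lit 6) (nat_lit 2) (nat_lit 3) (nat_lit 138) (nat_lit 113) (nat_lit 139))) (PT.nd (nat_lit 40482) (PT.lf (nat_lit 152) (nat_lit 6) (nat_lit 2) (nat_lit 1) (nat_lit 139) (nat_lit 113) (nat_lit 138)) (PT.nd (nat_lit 78) (PT.lf (nat_lit 228) (nat_lit 6) (nat_lit 3) (nat_lit 3) (nat_lit 137) (nat_lit 114) (nat_lit 139)) (PT.lf (nat_lit 304) (nat_lit 3) (nat_lit 4) (nat_lit 1) (nat_lit 138) (nat_lit 114) (nat_lit 138))))) (PT.nd (nat_lit 40560)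 (PT.nd (nat_lit 40482) (PT.lf (nat_lit 228) (nat_lit 6) (nat_lit 3) (nat_lit 1) (nat_lit 139) (nat_lit 114) (nat_lit 137)) (PT.lf (nat_lit 380) (nat_lit 6) (nat_lit 5) (nat_lit 3) (nat_lit 137) (nat_lit 115) (nat_lit 138))) (PT.nd (nat_lit 40482) (PT.lf (nat_lit 380) (nat_lit 6) (nat_lit 5) (nat_lit 1) (nat_lit 138) (nat_lit 115) (nat_lit 137)) (PT.nd (nat_lit 78) (PT.lf (nat_lit 456) (nat_lit 6) (nat_lit 6) (nat_lit 3) (nat_lit 136) (nat_lit 116) (nat_lit 138)) (PT.lf (nat_lit 532) (nat_lit 3) (nat_lit 7) (nat_lit 1) (nat_lit 137) (nat_lit 116) (nat_lit 137)))))) (PT.nd (nat_lit 81198) (PT.nd (nat_lit 40560) (PT.nd (nat_lit 40482) (PT.lf (nat_lit 456) (nat_lit 6) (nat_lit 6) (nat_lit 1) (nat_lit 138) (nat_lit 116) (nat_lit 136)) (PT.lf (nat_lit 608) (nat_lit 6) (nat_lit 8) (nat_lit 3) (nat_lit 136) (nat_lit 117) (nat_lit 137))) (PT.nd (nat_lit 40482) (PT.lf (nat_lit 608) (nat_lit 6)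 (nat_lit 8) (nat_lit 1) (nat_lit 137) (nat_lit 117) (nat_lit 136)) (PT.nd (nat_lit 78) (PT.lf (nat_lit 684) (nat_lit 6) (nat_lit 9) (nat_lit 3) (nat_lit 135) (nat_lit 118) (nat_lit 137)) (PT.lf (nat_lit 760) (nat_lit 3) (nat_lit 10) (nat_lit 1) (nat_lit 136) (nat_lit 118) (nat_lit 136))))) (PT.nd (nat_lit 81042) (PT.nd (nat_lit 40482) (PT.lf (nat_lit 684) (nat_lit 6) (nat_lit 9) (nat_lit 1) (nat_lit 137) (nat_lit 118) (nat_lit 135)) (PT.nd (nat_lit 78) (PT.lf (nat_lit 836) (nat_lit 6) (nat_lit 11) (nat_lit 3) (nat_lit 135) (nat_lit 119) (nat_lit 136)) (PT.lf (nat_lit 836) (nat_lit 6) (nat_lit 11) (nat_lit 1) (nat_lit 136) (nat_lit 119) (nat_lit 135)))) (PT.nd (nat_lit 78) (PT.lf (nat_lit 912) (nat_lit 6) (nat_lit 12) (nat_lit 3) (nat_lit 134) (nat_lit 120) (nat_lit 136)) (PT.nd (nat_lit 78) (PT.lf (nat_lit 988) (nat_lit 3) (nat_lit 13) (nat_lit 1) (nat_lit 135) (nat_lit 120) (nat_lit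 135)) (PT.lf (nat_lit 912) (nat_lit 6) (nat_lit 12) (nat_lit 1) (nat_lit 136) (nat_lit 120) (nat_lit 134))))))) (PT.nd (nat_lit 121914) (PT.nd (nat_lit 81120) (PT.nd (nat_lit 40560) (PT.nd (nat_lit 78) (PT.lf (nat_lit 1064) (nat_lit 6) (nat_lit 14) (nat_lit 3) (nat_lit 134) (nat_lit 121) (nat_lit 135)) (PT.lf (nat_lit 1064) (nat_lit 6) (nat_lit 14) (nat_lit 1) (nat_lit 135) (nat_lit 121) (nat_lit 134))) (PT.nd (nat_lit 78) (PT.lf (nat_lit 1140) (nat_lit 6) (nat_lit 15) (nat_lit 3) (nat_lit 133) (nat_lit 122) (nat_lit 135)) (PT.nd (nat_lit 78) (PT.lf (nat_lit 1216) (nat_lit 3) (nat_lit 16) (nat_lit 1) (nat_lit 134) (nat_lit 122) (nat_lit 134)) (PT.lf (nat_lit 1140) (nat_lit 6) (nat_lit 15) (nat_lit 1) (nat_lit 135) (nat_lit 122) (nat_lit 133))))) (PT.nd (nat_lit 234) (PT.nd (nat_lit 78) (PT.lf (nat_lit 1292) (nat_lit 6) (nat_lit 17) (nat_lit 3) (nat_lit 132) (nat_lit 123) (nat_lit 135))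 (PT.nd (nat_lit 78) (PT.lf (nat_lit 1368) (nat_lit 6) (nat_lit 18) (nat_lit 3) (nat_lit 133) (nat_lit 123) (nat_lit 134)) (PT.lf (nat_lit 1368) (nat_lit 6) (nat_lit 18) (nat_lit 1) (nat_lit 134) (nat_lit 123) (nat_lit 133)))) (PT.nd (nat_lit 40404) (PT.lf (nat_lit 1292) (nat_lit 6) (nat_lit 17) (nat_lit 1) (nat_lit 135) (nat_lit 123) (nat_lit 132)) (PT.nd (nat_lit 78) (PT.lf (nat_lit 1444) (nat_lit 6) (nat_lit 19) (nat_lit 3) (nat_lit 132) (nat_lit 124) (nat_lit 134)) (PT.lf (nat_lit 1520) (nat_lit 3) (nat_lit 20) (nat_lit 1) (nat_lit 133) (nat_lit 124) (nat_lit 133)))))) (PT.nd (nat_lit 80964) (PT.nd (nat_lit 40482) (PT.nd (nat_lit 40404) (PT.lf (nat_lit 1444) (nat_lit 6) (nat_lit 19) (nat_lit 1) (nat_lit 134) (nat_lit 124) (nat_lit 132)) (PT.lf (nat_lit 1596) (nat_lit 6) (nat_lit 21) (nat_lit 3) (nat_lit 131) (nat_lit 125) (nat_lit 134))) (PT.nd (nat_lit 78) (PT.lf (nat_lit 1672) (nat_lit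 6) (nat_lit 22) (nat_lit 3) (nat_lit 132) (nat_lit 125) (nat_lit 133)) (PT.nd (nat_lit 78) (PT.lf (nat_lit 1672) (nat_lit 6) (nat_lit 22) (nat_lit 1) (nat_lit 133) (nat_lit 125) (nat_lit 132)) (PT.lf (nat_lit 1596) (nat_lit 6) (nat_lit 21) (nat_lit 1) (nat_lit 134) (nat_lit 125) (nat_lit 131))))) (PT.nd (nat_lit 234) (PT.nd (nat_lit 78) (PT.lf (nat_lit 1900) (nat_lit 6) (nat_lit 25) (nat_lit 3) (nat_lit 130) (nat_lit 126) (nat_lit 134)) (PT.nd (nat_lit 78) (PT.lf (nat_lit 1976) (nat_lit 6) (nat_lit 26) (nat_lit 3) (nat_lit 131) (nat_lit 126) (nat_lit 133)) (PT.lf (nat_lit 2052) (nat_lit 3) (nat_lit 27) (nat_lit 1) (nat_lit 132) (nat_lit 126) (nat_lit 132)))) (PT.nd (nat_lit 78) (PT.lf (nat_lit 1976) (nat_lit 6) (nat_lit 26) (nat_lit 1) (nat_lit 133) (nat_lit 126) (nat_lit 131)) (PT.nd (nat_lit 40248) (PT.lf (nat_lit 1900) (nat_lit 6) (nat_lit 25) (nat_lit 1) (nat_lit 134) (nat_lit 126)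 (nat_lit 130)) (PT.lf (nat_lit 1824) (nat_lit 6) (nat_lit 24) (nat_lit 3) (nat_lit 129) (nat_lit 127) (nat_lit 134))))))))
noncomputable def pc1 : PT := (PT.nd (nat_lit 121680) (PT.nd (nat_lit 40872) (PT.nd (nat_lit 40482) (PT.nd (nat_lit 156) (PT.nd (nat_lit 78) (PT.lf (nat_lit 2204) (nat_lit 6) (nat_lit 29) (nat_lit 3) (nat_lit 130) (nat_lit 127) (nat_lit 133)) (PT.lf (nat_lit 2280) (nat_lit 6) (nat_lit 30) (nat_lit 3) (nat_lit 131) (nat_lit 127) (nat_lit 132))) (PT.nd (nat_lit 78) (PT.lf (nat_lit 2280) (nat_lit 6) (nat_lit 30) (nat_lit 1) (nat_lit 132) (nat_lit 127) (nat_lit 131)) (PT.nd (nat_lit 78) (PT.lf (nat_lit 2204) (nat_lit 6) (nat_lit 29) (nat_lit 1) (nat_lit 133) (nat_lit 127) (nat_lit 130)) (PT.lf (nat_lit 1824) (nat_lit 6) (nat_lit 24) (nat_lit 1) (nat_lit 134) (nat_lit 127) (nat_lit 129))))) (PT.nd (nat_lit 156) (PT.nd (nat_lit 78) (PT.lf (nat_lit 1748) (nat_lit 3) (nat_lit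 23) (nat_lit 3) (nat_lit 128) (nat_lit 128) (nat_lit 134)) (PT.lf (nat_lit 2128) (nat_lit 6) (nat_lit 28) (nat_lit 3) (nat_lit 129) (nat_lit 128) (nat_lit 133))) (PT.nd (nat_lit 78) (PT.lf (nat_lit 2432) (nat_lit 6) (nat_lit 32) (nat_lit 3) (nat_lit 130) (nat_lit 128) (nat_lit 132)) (PT.nd (nat_lit 78) (PT.lf (nat_lit 2508) (nat_lit 3) (nat_lit 33) (nat_lit 1) (nat_lit 131) (nat_lit 128) (nat_lit 131)) (PT.lf (nat_lit 2432) (nat_lit 6) (nat_lit 32) (nat_lit 1) (nat_lit 132) (nat_lit 128) (nat_lit 130)))))) (PT.nd (nat_lit 40404) (PT.nd (nat_lit 40170) (PT.nd (nat_lit 78) (PT.lf (nat_lit 2128) (nat_lit 6) (nat_lit 28) (nat_lit 1) (nat_lit 133) (nat_lit 128) (nat_lit 129)) (PT.lf (nat_lit 1748) (nat_lit 3) (nat_lit 23) (nat_lit 0) (nat_lit 134) (nat_lit 128) (nat_lit 128))) (PT.nd (nat_lit 78) (PT.lf (nat_lit 1824) (nat_lit 6) (nat_lit 24) (nat_lit 5) (nat_lit 127) (nat_lit 129) (nat_lit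 134)) (PT.nd (nat_lit 78) (PT.lf (nat_lit 2128) (nat_lit 6) (nat_lit 28) (nat_lit 5) (nat_lit 128) (nat_lit 129) (nat_lit 133)) (PT.lf (nat_lit 2356) (nat_lit 3) (nat_lit 31) (nat_lit 3) (nat_lit 129) (nat_lit 129) (nat_lit 132))))) (PT.nd (nat_lit 234) (PT.nd (nat_lit 78) (PT.lf (nat_lit 2584) (nat_lit 6) (nat_lit 34) (nat_lit 3) (nat_lit 130) (nat_lit 129) (nat_lit 131)) (PT.nd (nat_lit 78) (PT.lf (nat_lit 2584) (nat_lit 6) (nat_lit 34) (nat_lit 1) (nat_lit 131) (nat_lit 129) (nat_lit 130)) (PT.lf (nat_lit 2356) (nat_lit 3) (nat_lit 31) (nat_lit 0) (nat_lit 132) (nat_lit 129) (nat_lit 129)))) (PT.nd (nat_lit 78) (PT.lf (nat_lit 2128) (nat_lit 6) (nat_lit 28) (nat_lit 0) (nat_lit 133) (nat_lit 129) (nat_lit 128)) (PT.nd (nat_lit 40014) (PT.lf (nat_lit 1824) (nat_lit 6) (nat_lit 24) (nat_lit 0) (nat_lit 134) (nat_lit 129) (nat_lit 127)) (PT.lf (nat_lit 1900) (nat_lit 6) (nat_lit 25) (nat_lit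 5) (nat_lit 126) (nat_lit 130) (nat_lit 134))))))) (PT.nd (nat_lit 40716) (PT.nd (nat_lit 390) (PT.nd (nat_lit 156) (PT.nd (nat_lit 78) (PT.lf (nat_lit 2204) (nat_lit 6) (nat_lit 29) (nat_lit 5) (nat_lit 127) (nat_lit 130) (nat_lit 133)) (PT.lf (nat_lit 2432) (nat_lit 6) (nat_lit 32) (nat_lit 5) (nat_lit 128) (nat_lit 130) (nat_lit 132))) (PT.nd (nat_lit 78) (PT.lf (nat_lit 2584) (nat_lit 6) (nat_lit 34) (nat_lit 5) (nat_lit 129) (nat_lit 130) (nat_lit 131)) (PT.nd (nat_lit 78) (PT.lf (nat_lit 2660) (nat_lit 1) (nat_lit 35) (nat_lit 0) (nat_lit 130) (nat_lit 130) (nat_lit 130)) (PT.lf (nat_lit 2584) (nat_lit 6) (nat_lit 34) (nat_lit 0) (nat_lit 131) (nat_lit 130) (nat_lit 129))))) (PT.nd (nat_lit 40092) (PT.nd (nat_lit 78) (PT.lf (nat_lit 2432) (nat_lit 6) (nat_lit 32) (nat_lit 0) (nat_lit 132) (nat_lit 130) (nat_lit 128)) (PT.nd (nat_lit 78) (PT.lf (nat_lit 2204) (nat_lit 6) (nat_lit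 29) (nat_lit 0) (nat_lit 133) (nat_lit 130) (nat_lit 127)) (PT.lf (nat_lit 1900) (nat_lit 6) (nat_lit 25) (nat_lit 0) (nat_lit 134) (nat_lit 130) (nat_lit 126)))) (PT.nd (nat_lit 78) (PT.lf (nat_lit 1596) (nat_lit 6) (nat_lit 21) (nat_lit 5) (nat_lit 125) (nat_lit 131) (nat_lit 134)) (PT.nd (nat_lit 78) (PT.lf (nat_lit 1976) (nat_lit 6) (nat_lit 26) (nat_lit 5) (nat_lit 126) (nat_lit 131) (nat_lit 133)) (PT.lf (nat_lit 2280) (nat_lit 6) (nat_lit 30) (nat_lit 5) (nat_lit 127) (nat_lit 131) (nat_lit 132)))))) (PT.nd (nat_lit 390) (PT.nd (nat_lit 156) (PT.nd (nat_lit 78) (PT.lf (nat_lit 2508) (nat_lit 3) (nat_lit 33) (nat_lit 4) (nat_lit 128) (nat_lit 131) (nat_lit 131)) (PT.lf (nat_lit 2584) (nat_lit 6) (nat_lit 34) (nat_lit 4) (nat_lit 129) (nat_lit 131) (nat_lit 130))) (PT.nd (nat_lit 78) (PT.lf (nat_lit 2584) (nat_lit 6) (nat_lit 34) (nat_lit 2) (nat_lit 130) (nat_lit 131) (nat_lit 129))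 (PT.nd (nat_lit 78) (PT.lf (nat_lit 2508) (nat_lit 3) (nat_lit 33) (nat_lit 0) (nat_lit 131) (nat_lit 131) (nat_lit 128)) (PT.lf (nat_lit 2280) (nat_lit 6) (nat_lit 30) (nat_lit 0) (nat_lit 132) (nat_lit 131) (nat_lit 127))))) (PT.nd (nat_lit 39936) (PT.nd (nat_lit 78) (PT.lf (nat_lit 1976) (nat_lit 6) (nat_lit 26) (nat_lit 0) (nat_lit 133) (nat_lit 131) (nat_lit 126)) (PT.nd (nat_lit 39780) (PT.lf (nat_lit 1596) (nat_lit 6) (nat_lit 21) (nat_lit 0) (nat_lit 134) (nat_lit 131) (nat_lit 125)) (PT.lf (nat_lit 1292) (nat_lit 6) (nat_lit 17) (nat_lit 5) (nat_lit 123) (nat_lit 132) (nat_lit 135)))) (PT.nd (nat_lit 78) (PT.lf (nat_lit 1444) (nat_lit 6) (nat_lit 19) (nat_lit 5) (nat_lit 124) (nat_lit 132) (nat_lit 134)) (PT.nd (nat_lit 78) (PT.lf (nat_lit 1672) (nat_lit 6) (nat_lit 22) (nat_lit 5) (nat_lit 125) (nat_lit 132) (nat_lit 133)) (PT.lf (nat_lit 2052) (nat_lit 3) (nat_lit 27) (nat_lit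 4) (nat_lit 126) (nat_lit 132) (nat_lit 132))))))))
noncomputable def pc2 : PT := (PT.nd (nat_lit 41184) (PT.nd (nat_lit 40326) (PT.nd (nat_lit 390) (PT.nd (nat_lit 156) (PT.nd (nat_lit 78) (PT.lf (nat_lit 2280) (nat_lit 6) (nat_lit 30) (nat_lit 4) (nat_lit 127) (nat_lit 132) (nat_lit 131)) (PT.lf (nat_lit 2432) (nat_lit 6) (nat_lit 32) (nat_lit 4) (nat_lit 128) (nat_lit 132) (nat_lit 130))) (PT.nd (nat_lit 78) (PT.lf (nat_lit 2356) (nat_lit 3) (nat_lit 31) (nat_lit 2) (nat_lit 129) (nat_lit 132) (nat_lit 129)) (PT.nd (nat_lit 78) (PT.lf (nat_lit 2432) (nat_lit 6) (nat_lit 32) (nat_lit 2) (nat_lit 130) (nat_lit 132) (nat_lit 128)) (PT.lf (nat_lit 2280) (nat_lit 6) (nat_lit 30) (nat_lit 2) (nat_lit 131) (nat_lit 132) (nat_lit 127))))) (PT.nd (nat_lit 156) (PT.nd (nat_lit 78) (PT.lf (nat_lit 2052) (nat_lit 3) (nat_lit 27) (nat_lit 0) (nat_lit 132) (nat_lit 132) (nat_lit 126)) (PT.lf (nat_lit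 1672) (nat_lit 6) (nat_lit 22) (nat_lit 0) (nat_lit 133) (nat_lit 132) (nat_lit 125))) (PT.nd (nat_lit 78) (PT.lf (nat_lit 1444) (nat_lit 6) (nat_lit 19) (nat_lit 0) (nat_lit 134) (nat_lit 132) (nat_lit 124)) (PT.nd (nat_lit 39624) (PT.lf (nat_lit 1292) (nat_lit 6) (nat_lit 17) (nat_lit 0) (nat_lit 135) (nat_lit 132) (nat_lit 123)) (PT.lf (nat_lit 1140) (nat_lit 6) (nat_lit 15) (nat_lit 5) (nat_lit 122) (nat_lit 133) (nat_lit 135)))))) (PT.nd (nat_lit 390) (PT.nd (nat_lit 156) (PT.nd (nat_lit 78) (PT.lf (nat_lit 1368) (nat_lit 6) (nat_lit 18) (nat_lit 5) (nat_lit 123) (nat_lit 133) (nat_lit 134)) (PT.lf (nat_lit 1520) (nat_lit 3) (nat_lit 20) (nat_lit 4) (nat_lit 124) (nat_lit 133) (nat_lit 133))) (PT.nd (nat_lit 78) (PT.lf (nat_lit 1672) (nat_lit 6) (nat_lit 22) (nat_lit 4) (nat_lit 125) (nat_lit 133) (nat_lit 132)) (PT.nd (nat_lit 78) (PT.lf (nat_lit 1976) (nat_lit 6) (nat_lit 26) (nat_lit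 4) (nat_lit 126) (nat_lit 133) (nat_lit 131)) (PT.lf (nat_lit 2204) (nat_lit 6) (nat_lit 29) (nat_lit 4) (nat_lit 127) (nat_lit 133) (nat_lit 130))))) (PT.nd (nat_lit 234) (PT.nd (nat_lit 78) (PT.lf (nat_lit 2128) (nat_lit 6) (nat_lit 28) (nat_lit 4) (nat_lit 128) (nat_lit 133) (nat_lit 129)) (PT.nd (nat_lit 78) (PT.lf (nat_lit 2128) (nat_lit 6) (nat_lit 28) (nat_lit 2) (nat_lit 129) (nat_lit 133) (nat_lit 128)) (PT.lf (nat_lit 2204) (nat_lit 6) (nat_lit 29) (nat_lit 2) (nat_lit 130) (nat_lit 133) (nat_lit 127)))) (PT.nd (nat_lit 78) (PT.lf (nat_lit 1976) (nat_lit 6) (nat_lit 26) (nat_lit 2) (nat_lit 131) (nat_lit 133) (nat_lit 126)) (PT.nd (nat_lit 78) (PT.lf (nat_lit 1672) (nat_lit 6) (nat_lit 22) (nat_lit 2) (nat_lit 132) (nat_lit 133) (nat_lit 125)) (PT.lf (nat_lit 1520) (nat_lit 3) (nat_lit 20) (nat_lit 0) (nat_lit 133) (nat_lit 133) (nat_lit 124))))))) (PT.nd (nat_lit 40248) (PT.nd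 (nat_lit 39780) (PT.nd (nat_lit 39546) (PT.nd (nat_lit 78) (PT.lf (nat_lit 1368) (nat_lit 6) (nat_lit 18) (nat_lit 0) (nat_lit 134) (nat_lit 133) (nat_lit 123)) (PT.lf (nat_lit 1140) (nat_lit 6) (nat_lit 15) (nat_lit 0) (nat_lit 135) (nat_lit 133) (nat_lit 122))) (PT.nd (nat_lit 78) (PT.lf (nat_lit 912) (nat_lit 6) (nat_lit 12) (nat_lit 5) (nat_lit 120) (nat_lit 134) (nat_lit 136)) (PT.nd (nat_lit 78) (PT.lf (nat_lit 1064) (nat_lit 6) (nat_lit 14) (nat_lit 5) (nat_lit 121) (nat_lit 134) (nat_lit 135)) (PT.lf (nat_lit 1216) (nat_lit 3) (nat_lit 16) (nat_lit 4) (nat_lit 122) (nat_lit 134) (nat_lit 134))))) (PT.nd (nat_lit 234) (PT.nd (nat_lit 78) (PT.lf (nat_lit 1368) (nat_lit 6) (nat_lit 18) (nat_lit 4) (nat_lit 123) (nat_lit 134) (nat_lit 133)) (PT.nd (nat_lit 78) (PT.lf (nat_lit 1444) (nat_lit 6) (nat_lit 19) (nat_lit 4) (nat_lit 124) (nat_lit 134) (nat_lit 132)) (PT.lf (nat_lit 1596)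 (nat_lit 6) (nat_lit 21) (nat_lit 4) (nat_lit 125) (nat_lit 134) (nat_lit 131)))) (PT.nd (nat_lit 78) (PT.lf (nat_lit 1900) (nat_lit 6) (nat_lit 25) (nat_lit 4) (nat_lit 126) (nat_lit 134) (nat_lit 130)) (PT.nd (nat_lit 78) (PT.lf (nat_lit 1824) (nat_lit 6) (nat_lit 24) (nat_lit 4) (nat_lit 127) (nat_lit 134) (nat_lit 129)) (PT.lf (nat_lit 1748) (nat_lit 3) (nat_lit 23) (nat_lit 2) (nat_lit 128) (nat_lit 134) (nat_lit 128)))))) (PT.nd (nat_lit 390) (PT.nd (nat_lit 156) (PT.nd (nat_lit 78) (PT.lf (nat_lit 1824) (nat_lit 6) (nat_lit 24) (nat_lit 2) (nat_lit 129) (nat_lit 134) (nat_lit 127)) (PT.lf (nat_lit 1900) (nat_lit 6) (nat_lit 25) (nat_lit 2) (nat_lit 130) (nat_lit 134) (nat_lit 126))) (PT.nd (nat_lit 78) (PT.lf (nat_lit 1596) (nat_lit 6) (nat_lit 21) (nat_lit 2) (nat_lit 131) (nat_lit 134) (nat_lit 125)) (PT.nd (nat_lit 78) (PT.lf (nat_lit 1444) (nat_lit 6) (nat_lit 19) (nat_lit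 2) (nat_lit 132) (nat_lit 134) (nat_lit 124)) (PT.lf (nat_lit 1368) (nat_lit 6) (nat_lit 18) (nat_lit 2) (nat_lit 133) (nat_lit 134) (nat_lit 123))))) (PT.nd (nat_lit 39390) (PT.nd (nat_lit 78) (PT.lf (nat_lit 1216) (nat_lit 3) (nat_lit 16) (nat_lit 0) (nat_lit 134) (nat_lit 134) (nat_lit 122)) (PT.nd (nat_lit 78) (PT.lf (nat_lit 1064) (nat_lit 6) (nat_lit 14) (nat_lit 0) (nat_lit 135) (nat_lit 134) (nat_lit 121)) (PT.lf (nat_lit 912) (nat_lit 6) (nat_lit 12) (nat_lit 0) (nat_lit 136) (nat_lit 134) (nat_lit 120)))) (PT.nd (nat_lit 78) (PT.lf (nat_lit 684) (nat_lit 6) (nat_lit 9) (nat_lit 5) (nat_lit 118) (nat_lit 135) (nat_lit 137)) (PT.nd (nat_lit 78) (PT.lf (nat_lit 836) (nat_lit 6) (nat_lit 11) (nat_lit 5) (nat_lit 119) (nat_lit 135) (nat_lit 136)) (PT.lf (nat_lit 988) (nat_lit 3) (nat_lit 13) (nat_lit 4) (nat_lit 120) (nat_lit 135) (nat_lit 135))))))))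
noncomputable def pc3 : PT := (PT.nd (nat_lit 80886) (PT.nd (nat_lit 40326) (PT.nd (nat_lit 1014) (PT.nd (nat_lit 156) (PT.nd (nat_lit 78) (PT.lf (nat_lit 1064) (nat_lit 6) (nat_lit 14) (nat_lit 4) (nat_lit 121) (nat_lit 135) (nat_lit 134)) (PT.lf (nat_lit 1140) (nat_lit 6) (nat_lit 15) (nat_lit 4) (nat_lit 122) (nat_lit 135) (nat_lit 133))) (PT.nd (nat_lit 702) (PT.lf (nat_lit 1292) (nat_lit 6) (nat_lit 17) (nat_lit 4) (nat_lit 123) (nat_lit 135) (nat_lit 132)) (PT.nd (nat_lit 78) (PT.lf (nat_lit 1292) (nat_lit 6) (nat_lit 17) (nat_lit 2) (nat_lit 132) (nat_lit 135) (nat_lit 123)) (PT.lf (nat_lit 1140) (nat_lit 6) (nat_lit 15) (nat_lit 2) (nat_lit 133) (nat_lit 135) (nat_lit 122))))) (PT.nd (nat_lit 156) (PT.nd (nat_lit 78) (PT.lf (nat_lit 1064) (nat_lit 6) (nat_lit 14) (nat_lit 2) (nat_lit 134) (nat_lit 135) (nat_lit 121)) (PT.lf (nat_lit 988) (nat_lit 3) (nat_lit 13) (nat_lit 0) (nat_lit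 135) (nat_lit 135) (nat_lit 120))) (PT.nd (nat_lit 78) (PT.lf (nat_lit 836) (nat_lit 6) (nat_lit 11) (nat_lit 0) (nat_lit 136) (nat_lit 135) (nat_lit 119)) (PT.nd (nat_lit 39000) (PT.lf (nat_lit 684) (nat_lit 6) (nat_lit 9) (nat_lit 0) (nat_lit 137) (nat_lit 135) (nat_lit 118)) (PT.lf (nat_lit 456) (nat_lit 6) (nat_lit 6) (nat_lit 5) (nat_lit 116) (nat_lit 136) (nat_lit 138)))))) (PT.nd (nat_lit 1404) (PT.nd (nat_lit 156) (PT.nd (nat_lit 78) (PT.lf (nat_lit 608) (nat_lit 6) (nat_lit 8) (nat_lit 5) (nat_lit 117) (nat_lit 136) (nat_lit 137)) (PT.lf (nat_lit 760) (nat_lit 3) (nat_lit 10) (nat_lit 4) (nat_lit 118) (nat_lit 136) (nat_lit 136))) (PT.nd (nat_lit 78) (PT.lf (nat_lit 836) (nat_lit 6) (nat_lit 11) (nat_lit 4) (nat_lit 119) (nat_lit 136) (nat_lit 135)) (PT.nd (nat_lit 1092) (PT.lf (nat_lit 912) (nat_lit 6) (nat_lit 12) (nat_lit 4) (nat_lit 120) (nat_lit 136) (nat_lit 134)) (PT.lf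 (nat_lit 912) (nat_lit 6) (nat_lit 12) (nat_lit 2) (nat_lit 134) (nat_lit 136) (nat_lit 120))))) (PT.nd (nat_lit 234) (PT.nd (nat_lit 78) (PT.lf (nat_lit 836) (nat_lit 6) (nat_lit 11) (nat_lit 2) (nat_lit 135) (nat_lit 136) (nat_lit 119)) (PT.nd (nat_lit 78) (PT.lf (nat_lit 760) (nat_lit 3) (nat_lit 10) (nat_lit 0) (nat_lit 136) (nat_lit 136) (nat_lit 118)) (PT.lf (nat_lit 608) (nat_lit 6) (nat_lit 8) (nat_lit 0) (nat_lit 137) (nat_lit 136) (nat_lit 117)))) (PT.nd (nat_lit 38766) (PT.lf (nat_lit 456) (nat_lit 6) (nat_lit 6) (nat_lit 0) (nat_lit 138) (nat_lit 136) (nat_lit 116)) (PT.nd (nat_lit 78) (PT.lf (nat_lit 228) (nat_lit 6) (nat_lit 3) (nat_lit 5) (nat_lit 114) (nat_lit 137) (nat_lit 139)) (PT.lf (nat_lit 380) (nat_lit 6) (nat_lit 5) (nat_lit 5) (nat_lit 115) (nat_lit 137) (nat_lit 138))))))) (PT.nd (nat_lit 40638) (PT.nd (nat_lit 1638) (PT.nd (nat_lit 156) (PT.nd (nat_lit 78) (PT.lf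 (nat_lit 532) (nat_lit 3) (nat_lit 7) (nat_lit 4) (nat_lit 116) (nat_lit 137) (nat_lit 137)) (PT.lf (nat_lit 608) (nat_lit 6) (nat_lit 8) (nat_lit 4) (nat_lit 117) (nat_lit 137) (nat_lit 136))) (PT.nd (nat_lit 1326) (PT.lf (nat_lit 684) (nat_lit 6) (nat_lit 9) (nat_lit 4) (nat_lit 118) (nat_lit 137) (nat_lit 135)) (PT.nd (nat_lit 78) (PT.lf (nat_lit 684) (nat_lit 6) (nat_lit 9) (nat_lit 2) (nat_lit 135) (nat_lit 137) (nat_lit 118)) (PT.lf (nat_lit 608) (nat_lit 6) (nat_lit 8) (nat_lit 2) (nat_lit 136) (nat_lit 137) (nat_lit 117))))) (PT.nd (nat_lit 38766) (PT.nd (nat_lit 78) (PT.lf (nat_lit 532) (nat_lit 3) (nat_lit 7) (nat_lit 0) (nat_lit 137) (nat_lit 137) (nat_lit 116)) (PT.nd (nat_lit 78) (PT.lf (nat_lit 380) (nat_lit 6) (nat_lit 5) (nat_lit 0) (nat_lit 138) (nat_lit 137) (nat_lit 115)) (PT.lf (nat_lit 228) (nat_lit 6) (nat_lit 3) (nat_lit 0) (nat_lit 139) (nat_lit 137) (nat_lit 114))))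 (PT.nd (nat_lit 78) (PT.lf (nat_lit 152) (nat_lit 6) (nat_lit 2) (nat_lit 5) (nat_lit 113) (nat_lit 138) (nat_lit 139)) (PT.nd (nat_lit 78) (PT.lf (nat_lit 304) (nat_lit 3) (nat_lit 4) (nat_lit 4) (nat_lit 114) (nat_lit 138) (nat_lit 138)) (PT.lf (nat_lit 380) (nat_lit 6) (nat_lit 5) (nat_lit 4) (nat_lit 115) (nat_lit 138) (nat_lit 137)))))) (PT.nd (nat_lit 40326) (PT.nd (nat_lit 1638) (PT.nd (nat_lit 1560) (PT.lf (nat_lit 456) (nat_lit 6) (nat_lit 6) (nat_lit 4) (nat_lit 116) (nat_lit 138) (nat_lit 136)) (PT.lf (nat_lit 456) (nat_lit 6) (nat_lit 6) (nat_lit 2) (nat_lit 136) (nat_lit 138) (nat_lit 116))) (PT.nd (nat_lit 78) (PT.lf (nat_lit 380) (nat_lit 6) (nat_lit 5) (nat_lit 2) (nat_lit 137) (nat_lit 138) (nat_lit 115)) (PT.nd (nat_lit 78) (PT.lf (nat_lit 304) (nat_lit 3) (nat_lit 4) (nat_lit 0) (nat_lit 138) (nat_lit 138) (nat_lit 114)) (PT.lf (nat_lit 152) (nat_lit 6) (nat_lit 2)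 (nat_lit 0) (nat_lit 139) (nat_lit 138) (nat_lit 113))))) (PT.nd (nat_lit 1950) (PT.nd (nat_lit 78) (PT.lf (nat_lit 76) (nat_lit 3) (nat_lit 1) (nat_lit 4) (nat_lit 112) (nat_lit 139) (nat_lit 139)) (PT.nd (nat_lit 78) (PT.lf (nat_lit 152) (nat_lit 6) (nat_lit 2) (nat_lit 4) (nat_lit 113) (nat_lit 139) (nat_lit 138)) (PT.lf (nat_lit 228) (nat_lit 6) (nat_lit 3) (nat_lit 4) (nat_lit 114) (nat_lit 139) (nat_lit 137)))) (PT.nd (nat_lit 78) (PT.lf (nat_lit 228) (nat_lit 6) (nat_lit 3) (nat_lit 2) (nat_lit 137) (nat_lit 139) (nat_lit 114)) (PT.nd (nat_lit 78) (PT.lf (nat_lit 152) (nat_lit 6) (nat_lit 2) (nat_lit 2) (nat_lit 138) (nat_lit 139) (nat_lit 113)) (PT.lf (nat_lit 76) (nat_lit 3) (nat_lit 1) (nat_lit 0) (nat_lit 139) (nat_lit 139) (nat_lit 112))))))))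
noncomputable def xc0 : XT := (XT.nd (nat_lit 405132) (nat_lit 0) (nat_lit 0) (XT.nd (nat_lit 324012) (nat_lit 0) (nat_lit 0) (XT.nd (nat_lit 81120) (nat_lit 0) (nat_lit 0) (XT.nd (nat_lit 40482) (nat_lit 0) (nat_lit 0) (XT.nd (nat_lit 78) (nat_lit 0) (nat_lit 0) (XT.lf (nat_lit 0) (nat_lit 216010021664154) (nat_lit 76) (nat_lit 380727215654980) (nat_lit 76) (nat_lit 380727215654980) (nat_lit 1) (nat_lit 4) (nat_lit 2) (nat_lit 5) (nat_lit 2) (nat_lit 4) (nat_lit 364) (nat_lit 208) (nat_lit 208)) (XT.lf (nat_lit 0) (nat_lit 496823100393416) (nat_lit 76) (nat_lit 875672569191749) (nat_lit 76) (nat_lit 875672568578379) (nat_lit 1) (nat_lit 4) (nat_lit 2) (nat_lit 5) (nat_lit 2) (nat_lit 4) (nat_lit 365) (nat_lit 208) (nat_lit 207))) (XT.nd (nat_lit 78) (nat_lit 0) (nat_lit 0) (XT.lf (nat_lit 0) (nat_lit 163334563685229) (nat_lit 76) (nat_lit 287884497901656) (nat_lit 76) (nat_lit 287884497901656)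 (nat_lit 1) (nat_lit 4) (nat_lit 2) (nat_lit 5) (nat_lit 2) (nat_lit 4) (nat_lit 362) (nat_lit 209) (nat_lit 209)) (XT.nd (nat_lit 78) (nat_lit 0) (nat_lit 0) (XT.lf (nat_lit 0) (nat_lit 375669554626767) (nat_lit 76) (nat_lit 662134314336904) (nat_lit 76) (nat_lit 662134313631524) (nat_lit 1) (nat_lit 4) (nat_lit 2) (nat_lit 5) (nat_lit 2) (nat_lit 4) (nat_lit 363) (nat_lit 209) (nat_lit 208)) (XT.lf (nat_lit 0) (nat_lit 432020041029859) (nat_lit 76) (nat_lit 761454433202126) (nat_lit 76) (nat_lit 761454431883375) (nat_lit 1) (nat_lit 4) (nat_lit 2) (nat_lit 5) (nat_lit 2) (nat_lit 4) (nat_lit 364) (nat_lit 209) (nat_lit 207))))) (XT.nd (nat_lit 202254) (nat_lit 0) (nat_lit 0) (XT.nd (nat_lit 78) (nat_lit 0) (nat_lit 0) (XT.lf (nat_lit 0) (nat_lit 326669124727242) (nat_lit 76) (nat_lit 575768997979304) (nat_lit 76) (nat_lit 575768996462741) (nat_lit 1) (nat_lit 4) (nat_lit 2) (nat_lit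 5) (nat_lit 2) (nat_lit 4) (nat_lit 362) (nat_lit 210) (nat_lit 208)) (XT.lf (nat_lit 0) (nat_lit 375669549685105) (nat_lit 76) (nat_lit 662134317699681) (nat_lit 76) (nat_lit 662134315569745) (nat_lit 1) (nat_lit 4) (nat_lit 2) (nat_lit 5) (nat_lit 2) (nat_lit 4) (nat_lit 363) (nat_lit 210) (nat_lit 207))) (XT.nd (nat_lit 40482) (nat_lit 0) (nat_lit 0) (XT.lf (nat_lit 0) (nat_lit 30528110586968) (nat_lit 76) (nat_lit 53807825148249) (nat_lit 76) (nat_lit 53807825148249) (nat_lit 1) (nat_lit 4) (nat_lit 2) (nat_lit 5) (nat_lit 2) (nat_lit 4) (nat_lit 350) (nat_lit 215) (nat_lit 215)) (XT.nd (nat_lit 78) (nat_lit 0) (nat_lit 0) (XT.lf (nat_lit 0) (nat_lit 23083514419044) (nat_lit 76) (nat_lit 40686512249526) (nat_lit 76) (nat_lit 40686512249526) (nat_lit 1) (nat_lit 4) (nat_lit 2) (nat_lit 5) (nat_lit 2) (nat_lit 4) (nat_lit 348) (nat_lit 216) (nat_lit 216)) (XT.lf (nat_lit 0) (nat_lit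 53092237845927) (nat_lit 76) (nat_lit 93578896147126) (nat_lit 76) (nat_lit 93578894270806) (nat_lit 1) (nat_lit 4) (nat_lit 2) (nat_lit 5) (nat_lit 2) (nat_lit 4) (nat_lit 349) (nat_lit 216) (nat_lit 215)))))) (XT.nd (nat_lit 40638) (nat_lit 0) (nat_lit 0) (XT.nd (nat_lit 40404) (nat_lit 0) (nat_lit 0) (XT.nd (nat_lit 40326) (nat_lit 0) (nat_lit 0) (XT.lf (nat_lit 0) (nat_lit 61056215060018) (nat_lit 76) (nat_lit 107615655329697) (nat_lit 76) (nat_lit 107615651821795) (nat_lit 1) (nat_lit 4) (nat_lit 2) (nat_lit 5) (nat_lit 2) (nat_lit 4) (nat_lit 350) (nat_lit 216) (nat_lit 214)) (XT.lf (nat_lit 0) (nat_lit 17454311709712) (nat_lit 76) (nat_lit 30764924496437) (nat_lit 76) (nat_lit 30764924496437) (nat_lit 1) (nat_lit 4) (nat_lit 2) (nat_lit 5) (nat_lit 2) (nat_lit 4) (nat_lit 346) (nat_lit 217) (nat_lit 217))) (XT.nd (nat_lit 78) (nat_lit 0) (nat_lit 0) (XT.lf (nat_lit 0) (nat_lit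 40145094816783) (nat_lit 76) (nat_lit 70759232011003) (nat_lit 76) (nat_lit 70759229853235) (nat_lit 1) (nat_lit 4) (nat_lit 2) (nat_lit 5) (nat_lit 2) (nat_lit 4) (nat_lit 347) (nat_lit 217) (nat_lit 216)) (XT.nd (nat_lit 78) (nat_lit 0) (nat_lit 0) (XT.lf (nat_lit 0) (nat_lit 46167021807083) (nat_lit 76) (nat_lit 81373030287231) (nat_lit 76) (nat_lit 81373026253144) (nat_lit 1) (nat_lit 4) (nat_lit 2) (nat_lit 5) (nat_lit 2) (nat_lit 4) (nat_lit 348) (nat_lit 217) (nat_lit 215)) (XT.lf (nat_lit 0) (nat_lit 53092224701003) (nat_lit 76) (nat_lit 93578905092181) (nat_lit 76) (nat_lit 93578899426512) (nat_lit 1) (nat_lit 4) (nat_lit 2) (nat_lit 5) (nat_lit 2) (nat_lit 4) (nat_lit 349) (nat_lit 217) (nat_lit 214))))) (XT.nd (nat_lit 40248) (nat_lit 0) (nat_lit 0) (XT.nd (nat_lit 40170) (nat_lit 0) (nat_lit 0) (XT.lf (nat_lit 0) (nat_lit 61056196598644) (nat_lit 76) (nat_lit 107615667019864)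 (nat_lit 76) (nat_lit 107615659935427) (nat_lit 1) (nat_lit 4) (nat_lit 2) (nat_lit 5) (nat_lit 2) (nat_lit 4) (nat_lit 350) (nat_lit 217) (nat_lit 213)) (XT.lf (nat_lit 0) (nat_lit 13197804498541) (nat_lit 76) (nat_lit 23262790134594) (nat_lit 76) (nat_lit 23262790134594) (nat_lit 1) (nat_lit 4) (nat_lit 2) (nat_lit 5) (nat_lit 2) (nat_lit 4) (nat_lit 344) (nat_lit 218) (nat_lit 218))) (XT.nd (nat_lit 78) (nat_lit 0) (nat_lit 0) (XT.lf (nat_lit 0) (nat_lit 30355154913755) (nat_lit 76) (nat_lit 53504308829143) (nat_lit 76) (nat_lit 53504306347710) (nat_lit 1) (nat_lit 4) (nat_lit 2) (nat_lit 5) (nat_lit 2) (nat_lit 4) (nat_lit 345) (nat_lit 218) (nat_lit 217)) (XT.nd (nat_lit 78) (nat_lit 0) (nat_lit 0) (XT.lf (nat_lit 0) (nat_lit 34908615333768) (nat_lit 76) (nat_lit 61529855649279) (nat_lit 76) (nat_lit 61529851010079) (nat_lit 1) (nat_lit 4) (nat_lit 2) (nat_lit 5) (nat_lit 2) (nat_lit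 4) (nat_lit 346) (nat_lit 218) (nat_lit 216)) (XT.lf (nat_lit 0) (nat_lit 40145079700121) (nat_lit 76) (nat_lit 70759242297817) (nat_lit 76) (nat_lit 70759235782297) (nat_lit 1) (nat_lit 4) (nat_lit 2) (nat_lit 5) (nat_lit 2) (nat_lit 4) (nat_lit 347) (nat_lit 218) (nat_lit 215))))))) (XT.nd (nat_lit 80652) (nat_lit 0) (nat_lit 0) (XT.nd (nat_lit 40404) (nat_lit 0) (nat_lit 0) (XT.nd (nat_lit 40170) (nat_lit 0) (nat_lit 0) (XT.nd (nat_lit 78) (nat_lit 0) (nat_lit 0) (XT.lf (nat_lit 0) (nat_lit 46167000576502) (nat_lit 76) (nat_lit 81373043730923) (nat_lit 76) (nat_lit 81373035583821) (nat_lit 1) (nat_lit 4) (nat_lit 2) (nat_lit 5) (nat_lit 2) (nat_lit 4) (nat_lit 348) (nat_lit 218) (nat_lit 214)) (XT.lf (nat_lit 0) (nat_lit 53092198153973) (nat_lit 76) (nat_lit 93578921280985) (nat_lit 76) (nat_lit 93578911715116) (nat_lit 1) (nat_lit 4) (nat_lit 2) (nat_lit 5) (nat_lit 2) (nat_lit 4)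 (nat_lit 349) (nat_lit 218) (nat_lit 213))) (XT.nd (nat_lit 78) (nat_lit 0) (nat_lit 0) (XT.lf (nat_lit 0) (nat_lit 9979249110843) (nat_lit 76) (nat_lit 17590111840939) (nat_lit 76) (nat_lit 17590111840939) (nat_lit 1) (nat_lit 4) (nat_lit 2) (nat_lit 5) (nat_lit 2) (nat_lit 4) (nat_lit 342) (nat_lit 219) (nat_lit 219)) (XT.nd (nat_lit 78) (nat_lit 0) (nat_lit 0) (XT.lf (nat_lit 0) (nat_lit 22952508207117) (nat_lit 76) (nat_lit 40457132481674) (nat_lit 76) (nat_lit 40457129628026) (nat_lit 1) (nat_lit 4) (nat_lit 2) (nat_lit 5) (nat_lit 2) (nat_lit 4) (nat_lit 343) (nat_lit 219) (nat_lit 218)) (XT.lf (nat_lit 0) (nat_lit 26395599698577) (nat_lit 76) (nat_lit 46525587924054) (nat_lit 76) (nat_lit 46525582588973) (nat_lit 1) (nat_lit 4) (nat_lit 2) (nat_lit 5) (nat_lit 2) (nat_lit 4) (nat_lit 344) (nat_lit 219) (nat_lit 217))))) (XT.nd (nat_lit 156) (nat_lit 0) (nat_lit 0) (XT.nd (nat_lit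 78) (nat_lit 0) (nat_lit 0) (XT.lf (nat_lit 0) (nat_lit 30355137529593) (nat_lit 76) (nat_lit 53504320658979) (nat_lit 76) (nat_lit 53504313166131) (nat_lit 1) (nat_lit 4) (nat_lit 2) (nat_lit 5) (nat_lit 2) (nat_lit 4) (nat_lit 345) (nat_lit 219) (nat_lit 216)) (XT.lf (nat_lit 0) (nat_lit 34908590918601) (nat_lit 76) (nat_lit 61529871109525) (nat_lit 76) (nat_lit 61529861740358) (nat_lit 1) (nat_lit 4) (nat_lit 2) (nat_lit 5) (nat_lit 2) (nat_lit 4) (nat_lit 346) (nat_lit 219) (nat_lit 215))) (XT.nd (nat_lit 78) (nat_lit 0) (nat_lit 0) (XT.lf (nat_lit 0) (nat_lit 40145049171035) (nat_lit 76) (nat_lit 70759260914941) (nat_lit 76) (nat_lit 70759249914191) (nat_lit 1) (nat_lit 4) (nat_lit 2) (nat_lit 5) (nat_lit 2) (nat_lit 4) (nat_lit 347) (nat_lit 219) (nat_lit 214)) (XT.nd (nat_lit 78) (nat_lit 0) (nat_lit 0) (XT.lf (nat_lit 0) (nat_lit 46166964730966) (nat_lit 76) (nat_lit 81373065093159)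 (nat_lit 76) (nat_lit 81373052673642) (nat_lit 1) (nat_lit 4) (nat_lit 2) (nat_lit 5) (nat_lit 2) (nat_lit 4) (nat_lit 348) (nat_lit 219) (nat_lit 213)) (XT.lf (nat_lit 0) (nat_lit 53092157685436) (nat_lit 76) (nat_lit 93578945030274) (nat_lit 76) (nat_lit 93578931377047) (nat_lit 1) (nat_lit 4) (nat_lit 2) (nat_lit 5) (nat_lit 2) (nat_lit 4) (nat_lit 349) (nat_lit 219) (nat_lit 212)))))) (XT.nd (nat_lit 390) (nat_lit 0) (nat_lit 0) (XT.nd (nat_lit 156) (nat_lit 0) (nat_lit 0) (XT.nd (nat_lit 78) (nat_lit 0) (nat_lit 0) (XT.lf (nat_lit 0) (nat_lit 7545530759149) (nat_lit 76) (nat_lit 13300767132132) (nat_lit 76) (nat_lit 13300767132132) (nat_lit 1) (nat_lit 4) (nat_lit 2) (nat_lit 5) (nat_lit 2) (nat_lit 4) (nat_lit 340) (nat_lit 220) (nat_lit 220)) (XT.lf (nat_lit 0) (nat_lit 17354991286047) (nat_lit 76) (nat_lit 30591620938544) (nat_lit 76) (nat_lit 30591617656849) (nat_lit 1) (nat_lit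 4) (nat_lit 2) (nat_lit 5) (nat_lit 2) (nat_lit 4) (nat_lit 341) (nat_lit 220) (nat_lit 219))) (XT.nd (nat_lit 78) (nat_lit 0) (nat_lit 0) (XT.lf (nat_lit 0) (nat_lit 19958487528405) (nat_lit 76) (nat_lit 35180232484974) (nat_lit 76) (nat_lit 35180226349632) (nat_lit 1) (nat_lit 4) (nat_lit 2) (nat_lit 5) (nat_lit 2) (nat_lit 4) (nat_lit 342) (nat_lit 220) (nat_lit 218)) (XT.nd (nat_lit 78) (nat_lit 0) (nat_lit 0) (XT.lf (nat_lit 0) (nat_lit 22952488215331) (nat_lit 76) (nat_lit 40457146085985) (nat_lit 76) (nat_lit 40457137469210) (nat_lit 1) (nat_lit 4) (nat_lit 2) (nat_lit 5) (nat_lit 2) (nat_lit 4) (nat_lit 343) (nat_lit 220) (nat_lit 217)) (XT.lf (nat_lit 0) (nat_lit 26395571621134) (nat_lit 76) (nat_lit 46525605703337) (nat_lit 76) (nat_lit 46525594928794) (nat_lit 1) (nat_lit 4) (nat_lit 2) (nat_lit 5) (nat_lit 2) (nat_lit 4) (nat_lit 344) (nat_lit 220) (nat_lit 216))))) (XT.nd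 (nat_lit 156) (nat_lit 0) (nat_lit 0) (XT.nd (nat_lit 78) (nat_lit 0) (nat_lit 0) (XT.lf (nat_lit 0) (nat_lit 30355102421145) (nat_lit 76) (nat_lit 53504342068672) (nat_lit 76) (nat_lit 53504329417810) (nat_lit 1) (nat_lit 4) (nat_lit 2) (nat_lit 5) (nat_lit 2) (nat_lit 4) (nat_lit 345) (nat_lit 220) (nat_lit 215)) (XT.lf (nat_lit 0) (nat_lit 34908549696235) (nat_lit 76) (nat_lit 61529895676096) (nat_lit 76) (nat_lit 61529881393652) (nat_lit 1) (nat_lit 4) (nat_lit 2) (nat_lit 5) (nat_lit 2) (nat_lit 4) (nat_lit 346) (nat_lit 220) (nat_lit 214))) (XT.nd (nat_lit 78) (nat_lit 0) (nat_lit 0) (XT.lf (nat_lit 0) (nat_lit 40145002632219) (nat_lit 76) (nat_lit 70759288226623) (nat_lit 76) (nat_lit 70759272525412) (nat_lit 1) (nat_lit 4) (nat_lit 2) (nat_lit 5) (nat_lit 2) (nat_lit 4) (nat_lit 347) (nat_lit 220) (nat_lit 213)) (XT.nd (nat_lit 39858) (nat_lit 0) (nat_lit 0) (XT.lf (nat_lit 0)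 (nat_lit 46166913569150) (nat_lit 76) (nat_lit 81373094791895) (nat_lit 76) (nat_lit 81373077856972) (nat_lit 1) (nat_lit 4) (nat_lit 2) (nat_lit 5) (nat_lit 2) (nat_lit 4) (nat_lit 348) (nat_lit 220) (nat_lit 212)) (XT.lf (nat_lit 0) (nat_lit 5705257750473) (nat_lit 76) (nat_lit 10057423612199) (nat_lit 76) (nat_lit 10057423612199) (nat_lit 1) (nat_lit 4) (nat_lit 2) (nat_lit 5) (nat_lit 2) (nat_lit 4) (nat_lit 338) (nat_lit 221) (nat_lit 221))))))))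
noncomputable def xc1 : XT := (XT.nd (nat_lit 80964) (nat_lit 0) (nat_lit 0) (XT.nd (nat_lit 40638) (nat_lit 0) (nat_lit 0) (XT.nd (nat_lit 390) (nat_lit 0) (nat_lit 0) (XT.nd (nat_lit 156) (nat_lit 0) (nat_lit 0) (XT.nd (nat_lit 78) (nat_lit 0) (nat_lit 0) (XT.lf (nat_lit 0) (nat_lit 13122403947093) (nat_lit 76) (nat_lit 23131909322894) (nat_lit 76) (nat_lit 23131905548945) (nat_lit 1) (nat_lit 4) (nat_lit 2) (nat_lit 5) (nat_lit 2) (nat_lit 4) (nat_lit 339) (nat_lit 221) (nat_lit 220)) (XT.lf (nat_lit 0) (nat_lit 15091049221025) (nat_lit 76) (nat_lit 26601544387823) (nat_lit 76) (nat_lit 26601537332180) (nat_lit 1) (nat_lit 4) (nat_lit 2) (nat_lit 5) (nat_lit 2) (nat_lit 4) (nat_lit 340) (nat_lit 221) (nat_lit 219))) (XT.nd (nat_lit 78) (nat_lit 0) (nat_lit 0) (XT.lf (nat_lit 0) (nat_lit 17354968295494) (nat_lit 76) (nat_lit 30591636583502) (nat_lit 76) (nat_lit 30591626674211) (nat_lit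 1) (nat_lit 4) (nat_lit 2) (nat_lit 5) (nat_lit 2) (nat_lit 4) (nat_lit 341) (nat_lit 221) (nat_lit 218)) (XT.nd (nat_lit 78) (nat_lit 0) (nat_lit 0) (XT.lf (nat_lit 0) (nat_lit 19958455239347) (nat_lit 76) (nat_lit 35180252931149) (nat_lit 76) (nat_lit 35180240540425) (nat_lit 1) (nat_lit 4) (nat_lit 2) (nat_lit 5) (nat_lit 2) (nat_lit 4) (nat_lit 342) (nat_lit 221) (nat_lit 217)) (XT.lf (nat_lit 0) (nat_lit 22952447840616) (nat_lit 76) (nat_lit 40457170707132) (nat_lit 76) (nat_lit 40457156158640) (nat_lit 1) (nat_lit 4) (nat_lit 2) (nat_lit 5) (nat_lit 2) (nat_lit 4) (nat_lit 343) (nat_lit 221) (nat_lit 216))))) (XT.nd (nat_lit 40014) (nat_lit 0) (nat_lit 0) (XT.nd (nat_lit 78) (nat_lit 0) (nat_lit 0) (XT.lf (nat_lit 0) (nat_lit 26395524215413) (nat_lit 76) (nat_lit 46525633954893) (nat_lit 76) (nat_lit 46525617530082) (nat_lit 1) (nat_lit 4) (nat_lit 2) (nat_lit 5) (nat_lit 2) (nat_lit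 4) (nat_lit 344) (nat_lit 221) (nat_lit 215)) (XT.lf (nat_lit 0) (nat_lit 30355048901506) (nat_lit 76) (nat_lit 53504373477107) (nat_lit 76) (nat_lit 53504355420713) (nat_lit 1) (nat_lit 4) (nat_lit 2) (nat_lit 5) (nat_lit 2) (nat_lit 4) (nat_lit 345) (nat_lit 221) (nat_lit 214))) (XT.nd (nat_lit 78) (nat_lit 0) (nat_lit 0) (XT.lf (nat_lit 0) (nat_lit 4313709836447) (nat_lit 76) (nat_lit 7605009864991) (nat_lit 76) (nat_lit 7605009864991) (nat_lit 1) (nat_lit 4) (nat_lit 2) (nat_lit 5) (nat_lit 2) (nat_lit 4) (nat_lit 336) (nat_lit 222) (nat_lit 222)) (XT.nd (nat_lit 78) (nat_lit 0) (nat_lit 0) (XT.lf (nat_lit 0) (nat_lit 9921890412985) (nat_lit 76) (nat_lit 17491332956540) (nat_lit 76) (nat_lit 17491328616499) (nat_lit 1) (nat_lit 4) (nat_lit 2) (nat_lit 5) (nat_lit 2) (nat_lit 4) (nat_lit 337) (nat_lit 222) (nat_lit 221)) (XT.lf (nat_lit 0) (nat_lit 11410501359082) (nat_lit 76) (nat_lit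 20114858866491) (nat_lit 76) (nat_lit 20114850752501) (nat_lit 1) (nat_lit 4) (nat_lit 2) (nat_lit 5) (nat_lit 2) (nat_lit 4) (nat_lit 338) (nat_lit 222) (nat_lit 220)))))) (XT.nd (nat_lit 390) (nat_lit 0) (nat_lit 0) (XT.nd (nat_lit 156) (nat_lit 0) (nat_lit 0) (XT.nd (nat_lit 78) (nat_lit 0) (nat_lit 0) (XT.lf (nat_lit 0) (nat_lit 13122377507956) (nat_lit 76) (nat_lit 23131927314596) (nat_lit 76) (nat_lit 23131915918911) (nat_lit 1) (nat_lit 4) (nat_lit 2) (nat_lit 5) (nat_lit 2) (nat_lit 4) (nat_lit 339) (nat_lit 222) (nat_lit 219)) (XT.lf (nat_lit 0) (nat_lit 15091012088608) (nat_lit 76) (nat_lit 26601567900925) (nat_lit 76) (nat_lit 26601553651593) (nat_lit 1) (nat_lit 4) (nat_lit 2) (nat_lit 5) (nat_lit 2) (nat_lit 4) (nat_lit 340) (nat_lit 222) (nat_lit 218))) (XT.nd (nat_lit 78) (nat_lit 0) (nat_lit 0) (XT.lf (nat_lit 0) (nat_lit 17354921864571) (nat_lit 76) (nat_lit 30591664897821)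 (nat_lit 76) (nat_lit 30591648167056) (nat_lit 1) (nat_lit 4) (nat_lit 2) (nat_lit 5) (nat_lit 2) (nat_lit 4) (nat_lit 341) (nat_lit 222) (nat_lit 217)) (XT.nd (nat_lit 78) (nat_lit 0) (nat_lit 0) (XT.lf (nat_lit 0) (nat_lit 19958400722767) (nat_lit 76) (nat_lit 35180285420439) (nat_lit 76) (nat_lit 35180266531907) (nat_lit 1) (nat_lit 4) (nat_lit 2) (nat_lit 5) (nat_lit 2) (nat_lit 4) (nat_lit 342) (nat_lit 222) (nat_lit 216)) (XT.lf (nat_lit 0) (nat_lit 22952386293031) (nat_lit 76) (nat_lit 40457206826832) (nat_lit 76) (nat_lit 40457186061980) (nat_lit 1) (nat_lit 4) (nat_lit 2) (nat_lit 5) (nat_lit 2) (nat_lit 4) (nat_lit 343) (nat_lit 222) (nat_lit 215))))) (XT.nd (nat_lit 936) (nat_lit 0) (nat_lit 0) (XT.nd (nat_lit 78) (nat_lit 0) (nat_lit 0) (XT.lf (nat_lit 0) (nat_lit 26395456553910) (nat_lit 76) (nat_lit 46525673231472) (nat_lit 76) (nat_lit 46525650835037) (nat_lit 1) (nat_lit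 4) (nat_lit 2) (nat_lit 5) (nat_lit 2) (nat_lit 4) (nat_lit 344) (nat_lit 222) (nat_lit 214)) (XT.lf (nat_lit 0) (nat_lit 30354975923553) (nat_lit 76) (nat_lit 53504415498797) (nat_lit 76) (nat_lit 53504391683595) (nat_lit 1) (nat_lit 4) (nat_lit 2) (nat_lit 5) (nat_lit 2) (nat_lit 4) (nat_lit 345) (nat_lit 222) (nat_lit 213))) (XT.nd (nat_lit 78) (nat_lit 0) (nat_lit 0) (XT.lf (nat_lit 0) (nat_lit 141227313291953) (nat_lit 76) (nat_lit 248921251798680) (nat_lit 76) (nat_lit 248921220558059) (nat_lit 1) (nat_lit 4) (nat_lit 2) (nat_lit 5) (nat_lit 2) (nat_lit 4) (nat_lit 356) (nat_lit 222) (nat_lit 202)) (XT.nd (nat_lit 38844) (nat_lit 0) (nat_lit 0) (XT.lf (nat_lit 0) (nat_lit 162411549212629) (nat_lit 76) (nat_lit 286259362843523) (nat_lit 76) (nat_lit 286259331337725) (nat_lit 1) (nat_lit 4) (nat_lit 2) (nat_lit 5) (nat_lit 2) (nat_lit 4) (nat_lit 357) (nat_lit 222) (nat_lit 201))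 (XT.lf (nat_lit 0) (nat_lit 3261456991237) (nat_lit 76) (nat_lit 5750655644144) (nat_lit 76) (nat_lit 5750655644144) (nat_lit 1) (nat_lit 4) (nat_lit 2) (nat_lit 5) (nat_lit 2) (nat_lit 4) (nat_lit 334) (nat_lit 223) (nat_lit 223))))))) (XT.nd (nat_lit 1482) (nat_lit 0) (nat_lit 0) (XT.nd (nat_lit 390) (nat_lit 0) (nat_lit 0) (XT.nd (nat_lit 156) (nat_lit 0) (nat_lit 0) (XT.nd (nat_lit 78) (nat_lit 0) (nat_lit 0) (XT.lf (nat_lit 0) (nat_lit 7501762537374) (nat_lit 76) (nat_lit 13226289788651) (nat_lit 76) (nat_lit 13226284797603) (nat_lit 1) (nat_lit 4) (nat_lit 2) (nat_lit 5) (nat_lit 2) (nat_lit 4) (nat_lit 335) (nat_lit 223) (nat_lit 222)) (XT.lf (nat_lit 0) (nat_lit 8627403409752) (nat_lit 76) (nat_lit 15210033118389) (nat_lit 76) (nat_lit 15210023787300) (nat_lit 1) (nat_lit 4) (nat_lit 2) (nat_lit 5) (nat_lit 2) (nat_lit 4) (nat_lit 336) (nat_lit 223) (nat_lit 221))) (XT.nd (nat_lit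 78) (nat_lit 0) (nat_lit 0) (XT.lf (nat_lit 0) (nat_lit 9921860007978) (nat_lit 76) (nat_lit 17491353646998) (nat_lit 76) (nat_lit 17491340541960) (nat_lit 1) (nat_lit 4) (nat_lit 2) (nat_lit 5) (nat_lit 2) (nat_lit 4) (nat_lit 337) (nat_lit 223) (nat_lit 220)) (XT.nd (nat_lit 78) (nat_lit 0) (nat_lit 0) (XT.lf (nat_lit 0) (nat_lit 11410458656802) (nat_lit 76) (nat_lit 20114885906558) (nat_lit 76) (nat_lit 20114869519826) (nat_lit 1) (nat_lit 4) (nat_lit 2) (nat_lit 5) (nat_lit 2) (nat_lit 4) (nat_lit 338) (nat_lit 223) (nat_lit 219)) (XT.lf (nat_lit 0) (nat_lit 13122324112395) (nat_lit 76) (nat_lit 23131959876062) (nat_lit 76) (nat_lit 23131940635682) (nat_lit 1) (nat_lit 4) (nat_lit 2) (nat_lit 5) (nat_lit 2) (nat_lit 4) (nat_lit 339) (nat_lit 223) (nat_lit 218))))) (XT.nd (nat_lit 156) (nat_lit 0) (nat_lit 0) (XT.nd (nat_lit 78) (nat_lit 0) (nat_lit 0) (XT.lf (nat_lit 0) (nat_lit 15090949394541)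 (nat_lit 76) (nat_lit 26601605263609) (nat_lit 76) (nat_lit 26601583541796) (nat_lit 1) (nat_lit 4) (nat_lit 2) (nat_lit 5) (nat_lit 2) (nat_lit 4) (nat_lit 340) (nat_lit 223) (nat_lit 217)) (XT.lf (nat_lit 0) (nat_lit 17354851084848) (nat_lit 76) (nat_lit 30591706435476) (nat_lit 76) (nat_lit 30591682555896) (nat_lit 1) (nat_lit 4) (nat_lit 2) (nat_lit 5) (nat_lit 2) (nat_lit 4) (nat_lit 341) (nat_lit 223) (nat_lit 216))) (XT.nd (nat_lit 78) (nat_lit 0) (nat_lit 0) (XT.lf (nat_lit 0) (nat_lit 19958322912039) (nat_lit 76) (nat_lit 35180330588505) (nat_lit 76) (nat_lit 35180304832605) (nat_lit 1) (nat_lit 4) (nat_lit 2) (nat_lit 5) (nat_lit 2) (nat_lit 4) (nat_lit 342) (nat_lit 223) (nat_lit 215)) (XT.nd (nat_lit 78) (nat_lit 0) (nat_lit 0) (XT.lf (nat_lit 0) (nat_lit 22952302368384) (nat_lit 76) (nat_lit 40457255151775) (nat_lit 76) (nat_lit 40457227764293) (nat_lit 1) (nat_lit 4) (nat_lit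 2) (nat_lit 5) (nat_lit 2) (nat_lit 4) (nat_lit 343) (nat_lit 223) (nat_lit 214)) (XT.lf (nat_lit 0) (nat_lit 26395367312813) (nat_lit 76) (nat_lit 46525724301526) (nat_lit 76) (nat_lit 46525695495277) (nat_lit 1) (nat_lit 4) (nat_lit 2) (nat_lit 5) (nat_lit 2) (nat_lit 4) (nat_lit 344) (nat_lit 223) (nat_lit 213)))))) (XT.nd (nat_lit 38922) (nat_lit 0) (nat_lit 0) (XT.nd (nat_lit 156) (nat_lit 0) (nat_lit 0) (XT.nd (nat_lit 78) (nat_lit 0) (nat_lit 0) (XT.lf (nat_lit 0) (nat_lit 106787791207638) (nat_lit 76) (nat_lit 188220420679223) (nat_lit 76) (nat_lit 188220384752510) (nat_lit 1) (nat_lit 4) (nat_lit 2) (nat_lit 5) (nat_lit 2) (nat_lit 4) (nat_lit 354) (nat_lit 223) (nat_lit 203)) (XT.lf (nat_lit 0) (nat_lit 122806119654700) (nat_lit 76) (nat_lit 216453395547405) (nat_lit 76) (nat_lit 216453359315737) (nat_lit 1) (nat_lit 4) (nat_lit 2) (nat_lit 5) (nat_lit 2) (nat_lit 4) (nat_lit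 355) (nat_lit 223) (nat_lit 202))) (XT.nd (nat_lit 78) (nat_lit 0) (nat_lit 0) (XT.lf (nat_lit 0) (nat_lit 141227195232403) (nat_lit 76) (nat_lit 248921317748938) (nat_lit 76) (nat_lit 248921281252093) (nat_lit 1) (nat_lit 4) (nat_lit 2) (nat_lit 5) (nat_lit 2) (nat_lit 4) (nat_lit 356) (nat_lit 223) (nat_lit 201)) (XT.nd (nat_lit 78) (nat_lit 0) (nat_lit 0) (XT.lf (nat_lit 0) (nat_lit 162411430289008) (nat_lit 76) (nat_lit 286259429239939) (nat_lit 76) (nat_lit 286259392512503) (nat_lit 1) (nat_lit 4) (nat_lit 2) (nat_lit 5) (nat_lit 2) (nat_lit 4) (nat_lit 357) (nat_lit 223) (nat_lit 200)) (XT.lf (nat_lit 0) (nat_lit 186773298988665) (nat_lit 76) (nat_lit 329198258288710) (nat_lit 76) (nat_lit 329198221360763) (nat_lit 1) (nat_lit 4) (nat_lit 2) (nat_lit 5) (nat_lit 2) (nat_lit 4) (nat_lit 358) (nat_lit 223) (nat_lit 199))))) (XT.nd (nat_lit 156) (nat_lit 0) (nat_lit 0) (XT.nd (nat_lit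 78) (nat_lit 0) (nat_lit 0) (XT.lf (nat_lit 0) (nat_lit 2465753558313) (nat_lit 76) (nat_lit 4348523782375) (nat_lit 76) (nat_lit 4348523782375) (nat_lit 1) (nat_lit 4) (nat_lit 2) (nat_lit 5) (nat_lit 2) (nat_lit 4) (nat_lit 332) (nat_lit 224) (nat_lit 224)) (XT.lf (nat_lit 0) (nat_lit 5671706360280) (nat_lit 76) (nat_lit 10001353777651) (nat_lit 76) (nat_lit 10001348037947) (nat_lit 1) (nat_lit 4) (nat_lit 2) (nat_lit 5) (nat_lit 2) (nat_lit 4) (nat_lit 333) (nat_lit 224) (nat_lit 223))) (XT.nd (nat_lit 78) (nat_lit 0) (nat_lit 0) (XT.lf (nat_lit 0) (nat_lit 6522895279859) (nat_lit 76) (nat_lit 11501326684955) (nat_lit 76) (nat_lit 11501315954203) (nat_lit 1) (nat_lit 4) (nat_lit 2) (nat_lit 5) (nat_lit 2) (nat_lit 4) (nat_lit 334) (nat_lit 224) (nat_lit 222)) (XT.nd (nat_lit 78) (nat_lit 0) (nat_lit 0) (XT.lf (nat_lit 0) (nat_lit 7501727571616) (nat_lit 76) (nat_lit 13226313582677)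 (nat_lit 76) (nat_lit 13226298511883) (nat_lit 1) (nat_lit 4) (nat_lit 2) (nat_lit 5) (nat_lit 2) (nat_lit 4) (nat_lit 335) (nat_lit 224) (nat_lit 221)) (XT.lf (nat_lit 0) (nat_lit 8627354302129) (nat_lit 76) (nat_lit 15210064214466) (nat_lit 76) (nat_lit 15210045369724) (nat_lit 1) (nat_lit 4) (nat_lit 2) (nat_lit 5) (nat_lit 2) (nat_lit 4) (nat_lit 336) (nat_lit 224) (nat_lit 220))))))))
noncomputable def xc2 : XT := (XT.nd (nat_lit 40560) (nat_lit 0) (nat_lit 0) (XT.nd (nat_lit 1404) (nat_lit 0) (nat_lit 0) (XT.nd (nat_lit 390) (nat_lit 0) (nat_lit 0) (XT.nd (nat_lit 156) (nat_lit 0) (nat_lit 0) (XT.nd (nat_lit 78) (nat_lit 0) (nat_lit 0) (XT.lf (nat_lit 0) (nat_lit 9921798603083) (nat_lit 76) (nat_lit 17491391092684) (nat_lit 76) (nat_lit 17491368966247) (nat_lit 1) (nat_lit 4) (nat_lit 2) (nat_lit 5) (nat_lit 2) (nat_lit 4) (nat_lit 337) (nat_lit 224) (nat_lit 219)) (XT.lf (nat_lit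 0) (nat_lit 11410386558626) (nat_lit 76) (nat_lit 20114928873645) (nat_lit 76) (nat_lit 20114903893560) (nat_lit 1) (nat_lit 4) (nat_lit 2) (nat_lit 5) (nat_lit 2) (nat_lit 4) (nat_lit 338) (nat_lit 224) (nat_lit 218))) (XT.nd (nat_lit 78) (nat_lit 0) (nat_lit 0) (XT.lf (nat_lit 0) (nat_lit 13122242715714) (nat_lit 76) (nat_lit 23132007644366) (nat_lit 76) (nat_lit 23131980182849) (nat_lit 1) (nat_lit 4) (nat_lit 2) (nat_lit 5) (nat_lit 2) (nat_lit 4) (nat_lit 339) (nat_lit 224) (nat_lit 217)) (XT.nd (nat_lit 78) (nat_lit 0) (nat_lit 0) (XT.lf (nat_lit 0) (nat_lit 15090859912204) (nat_lit 76) (nat_lit 26601657206884) (nat_lit 76) (nat_lit 26601627587599) (nat_lit 1) (nat_lit 4) (nat_lit 2) (nat_lit 5) (nat_lit 2) (nat_lit 4) (nat_lit 340) (nat_lit 224) (nat_lit 216)) (XT.lf (nat_lit 0) (nat_lit 17354754571505) (nat_lit 76) (nat_lit 30591762009161) (nat_lit 76) (nat_lit 30591730513556)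 (nat_lit 1) (nat_lit 4) (nat_lit 2) (nat_lit 5) (nat_lit 2) (nat_lit 4) (nat_lit 341) (nat_lit 224) (nat_lit 215))))) (XT.nd (nat_lit 156) (nat_lit 0) (nat_lit 0) (XT.nd (nat_lit 78) (nat_lit 0) (nat_lit 0) (XT.lf (nat_lit 0) (nat_lit 19958220284778) (nat_lit 76) (nat_lit 35180389319067) (nat_lit 76) (nat_lit 35180356191881) (nat_lit 1) (nat_lit 4) (nat_lit 2) (nat_lit 5) (nat_lit 2) (nat_lit 4) (nat_lit 342) (nat_lit 224) (nat_lit 214)) (XT.lf (nat_lit 0) (nat_lit 22952194424673) (nat_lit 76) (nat_lit 40457316627450) (nat_lit 76) (nat_lit 40457282081496) (nat_lit 1) (nat_lit 4) (nat_lit 2) (nat_lit 5) (nat_lit 2) (nat_lit 4) (nat_lit 343) (nat_lit 224) (nat_lit 213))) (XT.nd (nat_lit 702) (nat_lit 0) (nat_lit 0) (XT.lf (nat_lit 0) (nat_lit 26395254746101) (nat_lit 76) (nat_lit 46525788164254) (nat_lit 76) (nat_lit 46525752384590) (nat_lit 1) (nat_lit 4) (nat_lit 2) (nat_lit 5) (nat_lit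 2) (nat_lit 4) (nat_lit 344) (nat_lit 224) (nat_lit 212)) (XT.nd (nat_lit 78) (nat_lit 0) (nat_lit 0) (XT.lf (nat_lit 0) (nat_lit 92858673187159) (nat_lit 76) (nat_lit 163670084106248) (nat_lit 76) (nat_lit 163670042439830) (nat_lit 1) (nat_lit 4) (nat_lit 2) (nat_lit 5) (nat_lit 2) (nat_lit 4) (nat_lit 353) (nat_lit 224) (nat_lit 203)) (XT.lf (nat_lit 0) (nat_lit 106787655439156) (nat_lit 76) (nat_lit 188220496522020) (nat_lit 76) (nat_lit 188220454550647) (nat_lit 1) (nat_lit 4) (nat_lit 2) (nat_lit 5) (nat_lit 2) (nat_lit 4) (nat_lit 354) (nat_lit 224) (nat_lit 202)))))) (XT.nd (nat_lit 38766) (nat_lit 0) (nat_lit 0) (XT.nd (nat_lit 156) (nat_lit 0) (nat_lit 0) (XT.nd (nat_lit 78) (nat_lit 0) (nat_lit 0) (XT.lf (nat_lit 0) (nat_lit 122805982892535) (nat_lit 76) (nat_lit 216453471903283) (nat_lit 76) (nat_lit 216453429666732) (nat_lit 1) (nat_lit 4) (nat_lit 2) (nat_lit 5) (nat_lit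 2) (nat_lit 4) (nat_lit 355) (nat_lit 224) (nat_lit 201)) (XT.lf (nat_lit 0) (nat_lit 141227057606167) (nat_lit 76) (nat_lit 248921394550974) (nat_lit 76) (nat_lit 248921352083833) (nat_lit 1) (nat_lit 4) (nat_lit 2) (nat_lit 5) (nat_lit 2) (nat_lit 4) (nat_lit 356) (nat_lit 224) (nat_lit 200))) (XT.nd (nat_lit 78) (nat_lit 0) (nat_lit 0) (XT.lf (nat_lit 0) (nat_lit 162411291911406) (nat_lit 76) (nat_lit 286259506429937) (nat_lit 76) (nat_lit 286259463762284) (nat_lit 1) (nat_lit 4) (nat_lit 2) (nat_lit 5) (nat_lit 2) (nat_lit 4) (nat_lit 357) (nat_lit 224) (nat_lit 199)) (XT.nd (nat_lit 38454) (nat_lit 0) (nat_lit 0) (XT.lf (nat_lit 0) (nat_lit 186773159957700) (nat_lit 76) (nat_lit 329198335816068) (nat_lit 76) (nat_lit 329198292974056) (nat_lit 1) (nat_lit 4) (nat_lit 2) (nat_lit 5) (nat_lit 2) (nat_lit 4) (nat_lit 358) (nat_lit 224) (nat_lit 198)) (XT.lf (nat_lit 0) (nat_lit 1864030972697)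 (nat_lit 76) (nat_lit 3288340944522) (nat_lit 76) (nat_lit 3288340944522) (nat_lit 1) (nat_lit 4) (nat_lit 2) (nat_lit 5) (nat_lit 2) (nat_lit 4) (nat_lit 330) (nat_lit 225) (nat_lit 225))))) (XT.nd (nat_lit 156) (nat_lit 0) (nat_lit 0) (XT.nd (nat_lit 78) (nat_lit 0) (nat_lit 0) (XT.lf (nat_lit 0) (nat_lit 4287815389785) (nat_lit 76) (nat_lit 7562895612316) (nat_lit 76) (nat_lit 7562889011656) (nat_lit 1) (nat_lit 4) (nat_lit 2) (nat_lit 5) (nat_lit 2) (nat_lit 4) (nat_lit 331) (nat_lit 225) (nat_lit 224)) (XT.lf (nat_lit 0) (nat_lit 4931485608620) (nat_lit 76) (nat_lit 8697065270919) (nat_lit 76) (nat_lit 8697052930554) (nat_lit 1) (nat_lit 4) (nat_lit 2) (nat_lit 5) (nat_lit 2) (nat_lit 4) (nat_lit 332) (nat_lit 225) (nat_lit 223))) (XT.nd (nat_lit 78) (nat_lit 0) (nat_lit 0) (XT.lf (nat_lit 0) (nat_lit 5671666149658) (nat_lit 76) (nat_lit 10001381140781) (nat_lit 76) (nat_lit 10001363809369)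 (nat_lit 1) (nat_lit 4) (nat_lit 2) (nat_lit 5) (nat_lit 2) (nat_lit 4) (nat_lit 333) (nat_lit 225) (nat_lit 222)) (XT.nd (nat_lit 78) (nat_lit 0) (nat_lit 0) (XT.lf (nat_lit 0) (nat_lit 6522838806093) (nat_lit 76) (nat_lit 11501362445444) (nat_lit 76) (nat_lit 11501340773990) (nat_lit 1) (nat_lit 4) (nat_lit 2) (nat_lit 5) (nat_lit 2) (nat_lit 4) (nat_lit 334) (nat_lit 225) (nat_lit 221)) (XT.lf (nat_lit 0) (nat_lit 7501656955987) (nat_lit 76) (nat_lit 13226356645216) (nat_lit 76) (nat_lit 13226331199814) (nat_lit 1) (nat_lit 4) (nat_lit 2) (nat_lit 5) (nat_lit 2) (nat_lit 4) (nat_lit 335) (nat_lit 225) (nat_lit 220))))))) (XT.nd (nat_lit 1248) (nat_lit 0) (nat_lit 0) (XT.nd (nat_lit 390) (nat_lit 0) (nat_lit 0) (XT.nd (nat_lit 156) (nat_lit 0) (nat_lit 0) (XT.nd (nat_lit 78) (nat_lit 0) (nat_lit 0) (XT.lf (nat_lit 0) (nat_lit 8627271389227) (nat_lit 76) (nat_lit 15210113626615) (nat_lit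 76) (nat_lit 15210084899518) (nat_lit 1) (nat_lit 4) (nat_lit 2) (nat_lit 5) (nat_lit 2) (nat_lit 4) (nat_lit 336) (nat_lit 225) (nat_lit 219)) (XT.lf (nat_lit 0) (nat_lit 9921704996900) (nat_lit 76) (nat_lit 17491446026233) (nat_lit 76) (nat_lit 17491414445488) (nat_lit 1) (nat_lit 4) (nat_lit 2) (nat_lit 5) (nat_lit 2) (nat_lit 4) (nat_lit 337) (nat_lit 225) (nat_lit 218))) (XT.nd (nat_lit 78) (nat_lit 0) (nat_lit 0) (XT.lf (nat_lit 0) (nat_lit 11410283653937) (nat_lit 76) (nat_lit 20114988608411) (nat_lit 76) (nat_lit 20114954546233) (nat_lit 1) (nat_lit 4) (nat_lit 2) (nat_lit 5) (nat_lit 2) (nat_lit 4) (nat_lit 338) (nat_lit 225) (nat_lit 217)) (XT.nd (nat_lit 78) (nat_lit 0) (nat_lit 0) (XT.lf (nat_lit 0) (nat_lit 13122131725369) (nat_lit 76) (nat_lit 23132071554103) (nat_lit 76) (nat_lit 23132035334158) (nat_lit 1) (nat_lit 4) (nat_lit 2) (nat_lit 5) (nat_lit 2) (nat_lit 4) (nat_lit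 339) (nat_lit 225) (nat_lit 216)) (XT.lf (nat_lit 0) (nat_lit 15090741890853) (nat_lit 76) (nat_lit 26601724747031) (nat_lit 76) (nat_lit 26601686650766) (nat_lit 1) (nat_lit 4) (nat_lit 2) (nat_lit 5) (nat_lit 2) (nat_lit 4) (nat_lit 340) (nat_lit 225) (nat_lit 215))))) (XT.nd (nat_lit 156) (nat_lit 0) (nat_lit 0) (XT.nd (nat_lit 78) (nat_lit 0) (nat_lit 0) (XT.lf (nat_lit 0) (nat_lit 17354630436236) (nat_lit 76) (nat_lit 30591832706186) (nat_lit 76) (nat_lit 30591792978339) (nat_lit 1) (nat_lit 4) (nat_lit 2) (nat_lit 5) (nat_lit 2) (nat_lit 4) (nat_lit 341) (nat_lit 225) (nat_lit 214)) (XT.lf (nat_lit 0) (nat_lit 19958090833059) (nat_lit 76) (nat_lit 35180462761204) (nat_lit 76) (nat_lit 35180421614590) (nat_lit 1) (nat_lit 4) (nat_lit 2) (nat_lit 5) (nat_lit 2) (nat_lit 4) (nat_lit 342) (nat_lit 225) (nat_lit 213))) (XT.nd (nat_lit 78) (nat_lit 0) (nat_lit 0) (XT.lf (nat_lit 0) (nat_lit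 22952060349953) (nat_lit 76) (nat_lit 40457392456640) (nat_lit 76) (nat_lit 40457350076315) (nat_lit 1) (nat_lit 4) (nat_lit 2) (nat_lit 5) (nat_lit 2) (nat_lit 4) (nat_lit 343) (nat_lit 225) (nat_lit 212)) (XT.nd (nat_lit 78) (nat_lit 0) (nat_lit 0) (XT.lf (nat_lit 0) (nat_lit 26395116651381) (nat_lit 76) (nat_lit 46525866069143) (nat_lit 76) (nat_lit 46525822616027) (nat_lit 1) (nat_lit 4) (nat_lit 2) (nat_lit 5) (nat_lit 2) (nat_lit 4) (nat_lit 344) (nat_lit 225) (nat_lit 211)) (XT.lf (nat_lit 0) (nat_lit 30354623882371) (nat_lit 76) (nat_lit 53504614604176) (nat_lit 76) (nat_lit 53504570218197) (nat_lit 1) (nat_lit 4) (nat_lit 2) (nat_lit 5) (nat_lit 2) (nat_lit 4) (nat_lit 345) (nat_lit 225) (nat_lit 210)))))) (XT.nd (nat_lit 390) (nat_lit 0) (nat_lit 0) (XT.nd (nat_lit 156) (nat_lit 0) (nat_lit 0) (XT.nd (nat_lit 78) (nat_lit 0) (nat_lit 0) (XT.lf (nat_lit 0) (nat_lit 80746356436990)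 (nat_lit 76) (nat_lit 142321987719221) (nat_lit 76) (nat_lit 142321939452142) (nat_lit 1) (nat_lit 4) (nat_lit 2) (nat_lit 5) (nat_lit 2) (nat_lit 4) (nat_lit 352) (nat_lit 225) (nat_lit 203)) (XT.lf (nat_lit 0) (nat_lit 92858515910670) (nat_lit 76) (nat_lit 163670171915507) (nat_lit 76) (nat_lit 163670123343474) (nat_lit 1) (nat_lit 4) (nat_lit 2) (nat_lit 5) (nat_lit 2) (nat_lit 4) (nat_lit 353) (nat_lit 225) (nat_lit 202))) (XT.nd (nat_lit 78) (nat_lit 0) (nat_lit 0) (XT.lf (nat_lit 0) (nat_lit 106787497168985) (nat_lit 76) (nat_lit 188220584844361) (nat_lit 76) (nat_lit 188220536007150) (nat_lit 1) (nat_lit 4) (nat_lit 2) (nat_lit 5) (nat_lit 2) (nat_lit 4) (nat_lit 354) (nat_lit 225) (nat_lit 201)) (XT.nd (nat_lit 78) (nat_lit 0) (nat_lit 0) (XT.lf (nat_lit 0) (nat_lit 122805823758292) (nat_lit 76) (nat_lit 216453560671781) (nat_lit 76) (nat_lit 216453511603981) (nat_lit 1) (nat_lit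 4) (nat_lit 2) (nat_lit 5) (nat_lit 2) (nat_lit 4) (nat_lit 355) (nat_lit 225) (nat_lit 200)) (XT.lf (nat_lit 0) (nat_lit 141226897720558) (nat_lit 76) (nat_lit 248921483707433) (nat_lit 76) (nat_lit 248921434439122) (nat_lit 1) (nat_lit 4) (nat_lit 2) (nat_lit 5) (nat_lit 2) (nat_lit 4) (nat_lit 356) (nat_lit 225) (nat_lit 199))))) (XT.nd (nat_lit 38376) (nat_lit 0) (nat_lit 0) (XT.nd (nat_lit 78) (nat_lit 0) (nat_lit 0) (XT.lf (nat_lit 0) (nat_lit 162411131372433) (nat_lit 76) (nat_lit 286259595923756) (nat_lit 76) (nat_lit 286259546481085) (nat_lit 1) (nat_lit 4) (nat_lit 2) (nat_lit 5) (nat_lit 2) (nat_lit 4) (nat_lit 357) (nat_lit 225) (nat_lit 198)) (XT.lf (nat_lit 0) (nat_lit 186772998850586) (nat_lit 76) (nat_lit 329198425603243) (nat_lit 76) (nat_lit 329198376008956) (nat_lit 1) (nat_lit 4) (nat_lit 2) (nat_lit 5) (nat_lit 2) (nat_lit 4) (nat_lit 358) (nat_lit 225) (nat_lit 197)))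 (XT.nd (nat_lit 78) (nat_lit 0) (nat_lit 0) (XT.lf (nat_lit 0) (nat_lit 1408977305282) (nat_lit 76) (nat_lit 2486725239161) (nat_lit 76) (nat_lit 2486725239161) (nat_lit 1) (nat_lit 4) (nat_lit 2) (nat_lit 5) (nat_lit 2) (nat_lit 4) (nat_lit 328) (nat_lit 226) (nat_lit 226)) (XT.nd (nat_lit 78) (nat_lit 0) (nat_lit 0) (XT.lf (nat_lit 0) (nat_lit 3241273577620) (nat_lit 76) (nat_lit 5719136205973) (nat_lit 76) (nat_lit 5719128615213) (nat_lit 1) (nat_lit 4) (nat_lit 2) (nat_lit 5) (nat_lit 2) (nat_lit 4) (nat_lit 329) (nat_lit 226) (nat_lit 225)) (XT.lf (nat_lit 0) (nat_lit 3728037211185) (nat_lit 76) (nat_lit 6576702251137) (nat_lit 76) (nat_lit 6576688059717) (nat_lit 1) (nat_lit 4) (nat_lit 2) (nat_lit 5) (nat_lit 2) (nat_lit 4) (nat_lit 330) (nat_lit 226) (nat_lit 224))))))))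
noncomputable def xc3 : XT := (XT.nd (nat_lit 2028) (nat_lit 0) (nat_lit 0) (XT.nd (nat_lit 780) (nat_lit 0) (nat_lit 0) (XT.nd (nat_lit 390) (nat_lit 0) (nat_lit 0) (XT.nd (nat_lit 156) (nat_lit 0) (nat_lit 0) (XT.nd (nat_lit 78) (nat_lit 0) (nat_lit 0) (XT.lf (nat_lit 0) (nat_lit 4287769147570) (nat_lit 76) (nat_lit 7562927079915) (nat_lit 76) (nat_lit 7562907148791) (nat_lit 1) (nat_lit 4) (nat_lit 2) (nat_lit 5) (nat_lit 2) (nat_lit 4) (nat_lit 331) (nat_lit 226) (nat_lit 223)) (XT.lf (nat_lit 0) (nat_lit 4931420663790) (nat_lit 76) (nat_lit 8697106395480) (nat_lit 76) (nat_lit 8697081473309) (nat_lit 1) (nat_lit 4) (nat_lit 2) (nat_lit 5) (nat_lit 2) (nat_lit 4) (nat_lit 332) (nat_lit 226) (nat_lit 222))) (XT.nd (nat_lit 78) (nat_lit 0) (nat_lit 0) (XT.lf (nat_lit 0) (nat_lit 5671584941684) (nat_lit 76) (nat_lit 10001430662702) (nat_lit 76) (nat_lit 10001401400489) (nat_lit 1) (nat_lit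 4) (nat_lit 2) (nat_lit 5) (nat_lit 2) (nat_lit 4) (nat_lit 333) (nat_lit 226) (nat_lit 221)) (XT.nd (nat_lit 78) (nat_lit 0) (nat_lit 0) (XT.lf (nat_lit 0) (nat_lit 6522743456256) (nat_lit 76) (nat_lit 11501419269416) (nat_lit 76) (nat_lit 11501386233254) (nat_lit 1) (nat_lit 4) (nat_lit 2) (nat_lit 5) (nat_lit 2) (nat_lit 4) (nat_lit 334) (nat_lit 226) (nat_lit 220)) (XT.lf (nat_lit 0) (nat_lit 7501549308876) (nat_lit 76) (nat_lit 13226419818798) (nat_lit 76) (nat_lit 13226383500941) (nat_lit 1) (nat_lit 4) (nat_lit 2) (nat_lit 5) (nat_lit 2) (nat_lit 4) (nat_lit 335) (nat_lit 226) (nat_lit 219))))) (XT.nd (nat_lit 156) (nat_lit 0) (nat_lit 0) (XT.nd (nat_lit 78) (nat_lit 0) (nat_lit 0) (XT.lf (nat_lit 0) (nat_lit 8627153048835) (nat_lit 76) (nat_lit 15210182321596) (nat_lit 76) (nat_lit 15210143150092) (nat_lit 1) (nat_lit 4) (nat_lit 2) (nat_lit 5) (nat_lit 2) (nat_lit 4) (nat_lit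 336) (nat_lit 226) (nat_lit 218)) (XT.lf (nat_lit 0) (nat_lit 9921577358003) (nat_lit 76) (nat_lit 17491519522431) (nat_lit 76) (nat_lit 17491477869494) (nat_lit 1) (nat_lit 4) (nat_lit 2) (nat_lit 5) (nat_lit 2) (nat_lit 4) (nat_lit 337) (nat_lit 226) (nat_lit 217))) (XT.nd (nat_lit 78) (nat_lit 0) (nat_lit 0) (XT.lf (nat_lit 0) (nat_lit 11410147929384) (nat_lit 76) (nat_lit 20115066279580) (nat_lit 76) (nat_lit 20115022468876) (nat_lit 1) (nat_lit 4) (nat_lit 2) (nat_lit 5) (nat_lit 2) (nat_lit 4) (nat_lit 338) (nat_lit 226) (nat_lit 216)) (XT.nd (nat_lit 78) (nat_lit 0) (nat_lit 0) (XT.lf (nat_lit 0) (nat_lit 13121988969810) (nat_lit 76) (nat_lit 23132152855683) (nat_lit 76) (nat_lit 23132107168659) (nat_lit 1) (nat_lit 4) (nat_lit 2) (nat_lit 5) (nat_lit 2) (nat_lit 4) (nat_lit 339) (nat_lit 226) (nat_lit 215)) (XT.lf (nat_lit 0) (nat_lit 15090593021376) (nat_lit 76) (nat_lit 26601809205489)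 (nat_lit 76) (nat_lit 26601761886882) (nat_lit 1) (nat_lit 4) (nat_lit 2) (nat_lit 5) (nat_lit 2) (nat_lit 4) (nat_lit 340) (nat_lit 226) (nat_lit 214)))))) (XT.nd (nat_lit 858) (nat_lit 0) (nat_lit 0) (XT.nd (nat_lit 156) (nat_lit 0) (nat_lit 0) (XT.nd (nat_lit 78) (nat_lit 0) (nat_lit 0) (XT.lf (nat_lit 0) (nat_lit 17354476250309) (nat_lit 76) (nat_lit 30591919909755) (nat_lit 76) (nat_lit 30591871172382) (nat_lit 1) (nat_lit 4) (nat_lit 2) (nat_lit 5) (nat_lit 2) (nat_lit 4) (nat_lit 341) (nat_lit 226) (nat_lit 213)) (XT.lf (nat_lit 0) (nat_lit 19957932024131) (nat_lit 76) (nat_lit 35180552351827) (nat_lit 76) (nat_lit 35180502380743) (nat_lit 1) (nat_lit 4) (nat_lit 2) (nat_lit 5) (nat_lit 2) (nat_lit 4) (nat_lit 342) (nat_lit 226) (nat_lit 212))) (XT.nd (nat_lit 78) (nat_lit 0) (nat_lit 0) (XT.lf (nat_lit 0) (nat_lit 22951897521025) (nat_lit 76) (nat_lit 40457484122961) (nat_lit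 76) (nat_lit 40457433079085) (nat_lit 1) (nat_lit 4) (nat_lit 2) (nat_lit 5) (nat_lit 2) (nat_lit 4) (nat_lit 343) (nat_lit 226) (nat_lit 211)) (XT.nd (nat_lit 78) (nat_lit 0) (nat_lit 0) (XT.lf (nat_lit 0) (nat_lit 26394950326801) (nat_lit 76) (nat_lit 46525959540420) (nat_lit 76) (nat_lit 46525907563681) (nat_lit 1) (nat_lit 4) (nat_lit 2) (nat_lit 5) (nat_lit 2) (nat_lit 4) (nat_lit 344) (nat_lit 226) (nat_lit 210)) (XT.lf (nat_lit 0) (nat_lit 30354454518093) (nat_lit 76) (nat_lit 53504709644979) (nat_lit 76) (nat_lit 53504656857056) (nat_lit 1) (nat_lit 4) (nat_lit 2) (nat_lit 5) (nat_lit 2) (nat_lit 4) (nat_lit 345) (nat_lit 226) (nat_lit 209))))) (XT.nd (nat_lit 156) (nat_lit 0) (nat_lit 0) (XT.nd (nat_lit 78) (nat_lit 0) (nat_lit 0) (XT.lf (nat_lit 0) (nat_lit 80746174426292) (nat_lit 76) (nat_lit 142322089289912) (nat_lit 76) (nat_lit 142322033127120) (nat_lit 1) (nat_lit 4) (nat_lit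 2) (nat_lit 5) (nat_lit 2) (nat_lit 4) (nat_lit 352) (nat_lit 226) (nat_lit 202)) (XT.lf (nat_lit 0) (nat_lit 92858332906290) (nat_lit 76) (nat_lit 163670273999280) (nat_lit 76) (nat_lit 163670217571310) (nat_lit 1) (nat_lit 4) (nat_lit 2) (nat_lit 5) (nat_lit 2) (nat_lit 4) (nat_lit 353) (nat_lit 226) (nat_lit 201))) (XT.nd (nat_lit 78) (nat_lit 0) (nat_lit 0) (XT.lf (nat_lit 0) (nat_lit 106787313300533) (nat_lit 76) (nat_lit 188220687374290) (nat_lit 76) (nat_lit 188220630715731) (nat_lit 1) (nat_lit 4) (nat_lit 2) (nat_lit 5) (nat_lit 2) (nat_lit 4) (nat_lit 354) (nat_lit 226) (nat_lit 200)) (XT.nd (nat_lit 78) (nat_lit 0) (nat_lit 0) (XT.lf (nat_lit 0) (nat_lit 122805639138474) (nat_lit 76) (nat_lit 216453663589673) (nat_lit 76) (nat_lit 216453606730601) (nat_lit 1) (nat_lit 4) (nat_lit 2) (nat_lit 5) (nat_lit 2) (nat_lit 4) (nat_lit 355) (nat_lit 226) (nat_lit 199)) (XT.lf (nat_lit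 0) (nat_lit 141226712447377) (nat_lit 76) (nat_lit 248921586962686) (nat_lit 76) (nat_lit 248921529929255) (nat_lit 1) (nat_lit 4) (nat_lit 2) (nat_lit 5) (nat_lit 2) (nat_lit 4) (nat_lit 356) (nat_lit 226) (nat_lit 198))))))) (XT.nd (nat_lit 38922) (nat_lit 0) (nat_lit 0) (XT.nd (nat_lit 38532) (nat_lit 0) (nat_lit 0) (XT.nd (nat_lit 38298) (nat_lit 0) (nat_lit 0) (XT.nd (nat_lit 38220) (nat_lit 0) (nat_lit 0) (XT.lf (nat_lit 0) (nat_lit 162410945531111) (nat_lit 76) (nat_lit 286259699472364) (nat_lit 76) (nat_lit 286259642287317) (nat_lit 1) (nat_lit 4) (nat_lit 2) (nat_lit 5) (nat_lit 2) (nat_lit 4) (nat_lit 357) (nat_lit 226) (nat_lit 197)) (XT.lf (nat_lit 0) (nat_lit 1064816669832) (nat_lit 76) (nat_lit 1880628658653) (nat_lit 76) (nat_lit 1880628658653) (nat_lit 1) (nat_lit 4) (nat_lit 2) (nat_lit 5) (nat_lit 2) (nat_lit 4) (nat_lit 326) (nat_lit 227) (nat_lit 227))) (XT.nd (nat_lit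 78) (nat_lit 0) (nat_lit 0) (XT.lf (nat_lit 0) (nat_lit 2449797982405) (nat_lit 76) (nat_lit 4325064294191) (nat_lit 76) (nat_lit 4325055564818) (nat_lit 1) (nat_lit 4) (nat_lit 2) (nat_lit 5) (nat_lit 2) (nat_lit 4) (nat_lit 327) (nat_lit 227) (nat_lit 226)) (XT.nd (nat_lit 78) (nat_lit 0) (nat_lit 0) (XT.lf (nat_lit 0) (nat_lit 2817926166226) (nat_lit 76) (nat_lit 4973473894728) (nat_lit 76) (nat_lit 4973457574595) (nat_lit 1) (nat_lit 4) (nat_lit 2) (nat_lit 5) (nat_lit 2) (nat_lit 4) (nat_lit 328) (nat_lit 227) (nat_lit 225)) (XT.lf (nat_lit 0) (nat_lit 3241220399072) (nat_lit 76) (nat_lit 5719172393712) (nat_lit 76) (nat_lit 5719149472919) (nat_lit 1) (nat_lit 4) (nat_lit 2) (nat_lit 5) (nat_lit 2) (nat_lit 4) (nat_lit 329) (nat_lit 227) (nat_lit 224))))) (XT.nd (nat_lit 156) (nat_lit 0) (nat_lit 0) (XT.nd (nat_lit 78) (nat_lit 0) (nat_lit 0) (XT.lf (nat_lit 0) (nat_lit 3727962524630)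 (nat_lit 76) (nat_lit 6576749544383) (nat_lit 76) (nat_lit 6576720883885) (nat_lit 1) (nat_lit 4) (nat_lit 2) (nat_lit 5) (nat_lit 2) (nat_lit 4) (nat_lit 330) (nat_lit 227) (nat_lit 223)) (XT.lf (nat_lit 0) (nat_lit 4287675758400) (nat_lit 76) (nat_lit 7562984030124) (nat_lit 76) (nat_lit 7562950378579) (nat_lit 1) (nat_lit 4) (nat_lit 2) (nat_lit 5) (nat_lit 2) (nat_lit 4) (nat_lit 331) (nat_lit 227) (nat_lit 222))) (XT.nd (nat_lit 78) (nat_lit 0) (nat_lit 0) (XT.lf (nat_lit 0) (nat_lit 4931311011476) (nat_lit 76) (nat_lit 8697171743048) (nat_lit 76) (nat_lit 8697133751462) (nat_lit 1) (nat_lit 4) (nat_lit 2) (nat_lit 5) (nat_lit 2) (nat_lit 4) (nat_lit 332) (nat_lit 227) (nat_lit 221)) (XT.nd (nat_lit 78) (nat_lit 0) (nat_lit 0) (XT.lf (nat_lit 0) (nat_lit 5671461147507) (nat_lit 76) (nat_lit 10001503312320) (nat_lit 76) (nat_lit 10001461546785) (nat_lit 1) (nat_lit 4) (nat_lit 2)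 (nat_lit 5) (nat_lit 2) (nat_lit 4) (nat_lit 333) (nat_lit 227) (nat_lit 220)) (XT.lf (nat_lit 0) (nat_lit 6522607364805) (nat_lit 76) (nat_lit 11501498268644) (nat_lit 76) (nat_lit 11501453221414) (nat_lit 1) (nat_lit 4) (nat_lit 2) (nat_lit 5) (nat_lit 2) (nat_lit 4) (nat_lit 334) (nat_lit 227) (nat_lit 219)))))) (XT.nd (nat_lit 390) (nat_lit 0) (nat_lit 0) (XT.nd (nat_lit 156) (nat_lit 0) (nat_lit 0) (XT.nd (nat_lit 78) (nat_lit 0) (nat_lit 0) (XT.lf (nat_lit 0) (nat_lit 7501402524145) (nat_lit 76) (nat_lit 13226504339425) (nat_lit 76) (nat_lit 13226456438548) (nat_lit 1) (nat_lit 4) (nat_lit 2) (nat_lit 5) (nat_lit 2) (nat_lit 4) (nat_lit 335) (nat_lit 227) (nat_lit 218)) (XT.lf (nat_lit 0) (nat_lit 8626996965599) (nat_lit 76) (nat_lit 15210271643441) (nat_lit 76) (nat_lit 15210221261131) (nat_lit 1) (nat_lit 4) (nat_lit 2) (nat_lit 5) (nat_lit 2) (nat_lit 4) (nat_lit 336) (nat_lit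 227) (nat_lit 217))) (XT.nd (nat_lit 78) (nat_lit 0) (nat_lit 0) (XT.lf (nat_lit 0) (nat_lit 9921413189110) (nat_lit 76) (nat_lit 17491613019248) (nat_lit 76) (nat_lit 17491560479170) (nat_lit 1) (nat_lit 4) (nat_lit 2) (nat_lit 5) (nat_lit 2) (nat_lit 4) (nat_lit 337) (nat_lit 227) (nat_lit 216)) (XT.nd (nat_lit 78) (nat_lit 0) (nat_lit 0) (XT.lf (nat_lit 0) (nat_lit 11409976729486) (nat_lit 76) (nat_lit 20115163406806) (nat_lit 76) (nat_lit 20115108990409) (nat_lit 1) (nat_lit 4) (nat_lit 2) (nat_lit 5) (nat_lit 2) (nat_lit 4) (nat_lit 338) (nat_lit 227) (nat_lit 215)) (XT.lf (nat_lit 0) (nat_lit 13121811655994) (nat_lit 76) (nat_lit 23132253139787) (nat_lit 76) (nat_lit 23132197091807) (nat_lit 1) (nat_lit 4) (nat_lit 2) (nat_lit 5) (nat_lit 2) (nat_lit 4) (nat_lit 339) (nat_lit 227) (nat_lit 214))))) (XT.nd (nat_lit 234) (nat_lit 0) (nat_lit 0) (XT.nd (nat_lit 78) (nat_lit 0) (nat_lit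 0) (XT.lf (nat_lit 0) (nat_lit 15090410391110) (nat_lit 76) (nat_lit 26601912234705) (nat_lit 76) (nat_lit 26601854767958) (nat_lit 1) (nat_lit 4) (nat_lit 2) (nat_lit 5) (nat_lit 2) (nat_lit 4) (nat_lit 340) (nat_lit 227) (nat_lit 213)) (XT.nd (nat_lit 78) (nat_lit 0) (nat_lit 0) (XT.lf (nat_lit 0) (nat_lit 17354288997042) (nat_lit 76) (nat_lit 30592025326025) (nat_lit 76) (nat_lit 30591966625567) (nat_lit 1) (nat_lit 4) (nat_lit 2) (nat_lit 5) (nat_lit 2) (nat_lit 4) (nat_lit 341) (nat_lit 227) (nat_lit 212)) (XT.lf (nat_lit 0) (nat_lit 19957740750863) (nat_lit 76) (nat_lit 35180659843795) (nat_lit 76) (nat_lit 35180600070546) (nat_lit 1) (nat_lit 4) (nat_lit 2) (nat_lit 5) (nat_lit 2) (nat_lit 4) (nat_lit 342) (nat_lit 227) (nat_lit 211)))) (XT.nd (nat_lit 78) (nat_lit 0) (nat_lit 0) (XT.lf (nat_lit 0) (nat_lit 22951702752105) (nat_lit 76) (nat_lit 40457593419885) (nat_lit 76) (nat_lit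 40457532713773) (nat_lit 1) (nat_lit 4) (nat_lit 2) (nat_lit 5) (nat_lit 2) (nat_lit 4) (nat_lit 343) (nat_lit 227) (nat_lit 210)) (XT.nd (nat_lit 78) (nat_lit 0) (nat_lit 0) (XT.lf (nat_lit 0) (nat_lit 26394752518183) (nat_lit 76) (nat_lit 46526070406870) (nat_lit 76) (nat_lit 46526008889573) (nat_lit 1) (nat_lit 4) (nat_lit 2) (nat_lit 5) (nat_lit 2) (nat_lit 4) (nat_lit 344) (nat_lit 227) (nat_lit 209)) (XT.lf (nat_lit 0) (nat_lit 30354254066259) (nat_lit 76) (nat_lit 53504821876234) (nat_lit 76) (nat_lit 53504759653560) (nat_lit 1) (nat_lit 4) (nat_lit 2) (nat_lit 5) (nat_lit 2) (nat_lit 4) (nat_lit 345) (nat_lit 227) (nat_lit 208))))))))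
noncomputable def xc4 : XT := (XT.nd (nat_lit 39546) (nat_lit 0) (nat_lit 0) (XT.nd (nat_lit 38766) (nat_lit 0) (nat_lit 0) (XT.nd (nat_lit 390) (nat_lit 0) (nat_lit 0) (XT.nd (nat_lit 156) (nat_lit 0) (nat_lit 0) (XT.nd (nat_lit 78) (nat_lit 0) (nat_lit 0) (XT.lf (nat_lit 0) (nat_lit 70213650391764) (nat_lit 76) (nat_lit 123758568767778) (nat_lit 76) (nat_lit 123758503875612) (nat_lit 1) (nat_lit 4) (nat_lit 2) (nat_lit 5) (nat_lit 2) (nat_lit 4) (nat_lit 351) (nat_lit 227) (nat_lit 202)) (XT.lf (nat_lit 0) (nat_lit 80745962977573) (nat_lit 76) (nat_lit 142322207199331) (nat_lit 76) (nat_lit 142322142041989) (nat_lit 1) (nat_lit 4) (nat_lit 2) (nat_lit 5) (nat_lit 2) (nat_lit 4) (nat_lit 352) (nat_lit 227) (nat_lit 201))) (XT.nd (nat_lit 78) (nat_lit 0) (nat_lit 0) (XT.lf (nat_lit 0) (nat_lit 92858120593499) (nat_lit 76) (nat_lit 163670392354856) (nat_lit 76) (nat_lit 163670326966924)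 (nat_lit 1) (nat_lit 4) (nat_lit 2) (nat_lit 5) (nat_lit 2) (nat_lit 4) (nat_lit 353) (nat_lit 227) (nat_lit 200)) (XT.nd (nat_lit 78) (nat_lit 0) (nat_lit 0) (XT.lf (nat_lit 0) (nat_lit 106787100236376) (nat_lit 76) (nat_lit 188220806117830) (nat_lit 76) (nat_lit 188220740529385) (nat_lit 1) (nat_lit 4) (nat_lit 2) (nat_lit 5) (nat_lit 2) (nat_lit 4) (nat_lit 354) (nat_lit 227) (nat_lit 199)) (XT.lf (nat_lit 0) (nat_lit 122805425420954) (nat_lit 76) (nat_lit 216453782670572) (nat_lit 76) (nat_lit 216453716907768) (nat_lit 1) (nat_lit 4) (nat_lit 2) (nat_lit 5) (nat_lit 2) (nat_lit 4) (nat_lit 355) (nat_lit 227) (nat_lit 198))))) (XT.nd (nat_lit 38142) (nat_lit 0) (nat_lit 0) (XT.nd (nat_lit 78) (nat_lit 0) (nat_lit 0) (XT.lf (nat_lit 0) (nat_lit 141226498161716) (nat_lit 76) (nat_lit 248921706336940) (nat_lit 76) (nat_lit 248921640422520) (nat_lit 1) (nat_lit 4) (nat_lit 2) (nat_lit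 5) (nat_lit 2) (nat_lit 4) (nat_lit 356) (nat_lit 227) (nat_lit 197)) (XT.lf (nat_lit 0) (nat_lit 162410730751414) (nat_lit 76) (nat_lit 286259819101711) (nat_lit 76) (nat_lit 286259753055450) (nat_lit 1) (nat_lit 4) (nat_lit 2) (nat_lit 5) (nat_lit 2) (nat_lit 4) (nat_lit 357) (nat_lit 227) (nat_lit 196))) (XT.nd (nat_lit 78) (nat_lit 0) (nat_lit 0) (XT.lf (nat_lit 0) (nat_lit 804495895265) (nat_lit 76) (nat_lit 1422378635046) (nat_lit 76) (nat_lit 1422378635046) (nat_lit 1) (nat_lit 4) (nat_lit 2) (nat_lit 5) (nat_lit 2) (nat_lit 4) (nat_lit 324) (nat_lit 228) (nat_lit 228)) (XT.nd (nat_lit 78) (nat_lit 0) (nat_lit 0) (XT.lf (nat_lit 0) (nat_lit 1851168147169) (nat_lit 76) (nat_lit 3271031996786) (nat_lit 76) (nat_lit 3271021958007) (nat_lit 1) (nat_lit 4) (nat_lit 2) (nat_lit 5) (nat_lit 2) (nat_lit 4) (nat_lit 325) (nat_lit 228) (nat_lit 227)) (XT.lf (nat_lit 0) (nat_lit 2129600628674)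 (nat_lit 76) (nat_lit 3761284246174) (nat_lit 76) (nat_lit 3761265478022) (nat_lit 1) (nat_lit 4) (nat_lit 2) (nat_lit 5) (nat_lit 2) (nat_lit 4) (nat_lit 326) (nat_lit 228) (nat_lit 226)))))) (XT.nd (nat_lit 390) (nat_lit 0) (nat_lit 0) (XT.nd (nat_lit 156) (nat_lit 0) (nat_lit 0) (XT.nd (nat_lit 78) (nat_lit 0) (nat_lit 0) (XT.lf (nat_lit 0) (nat_lit 2449736827075) (nat_lit 76) (nat_lit 4325105910091) (nat_lit 76) (nat_lit 4325079551179) (nat_lit 1) (nat_lit 4) (nat_lit 2) (nat_lit 5) (nat_lit 2) (nat_lit 4) (nat_lit 327) (nat_lit 228) (nat_lit 225)) (XT.lf (nat_lit 0) (nat_lit 2817840276687) (nat_lit 76) (nat_lit 4973528281961) (nat_lit 76) (nat_lit 4973495322389) (nat_lit 1) (nat_lit 4) (nat_lit 2) (nat_lit 5) (nat_lit 2) (nat_lit 4) (nat_lit 328) (nat_lit 228) (nat_lit 224))) (XT.nd (nat_lit 78) (nat_lit 0) (nat_lit 0) (XT.lf (nat_lit 0) (nat_lit 3241113001527) (nat_lit 76) (nat_lit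 5719237886452) (nat_lit 76) (nat_lit 5719199187175) (nat_lit 1) (nat_lit 4) (nat_lit 2) (nat_lit 5) (nat_lit 2) (nat_lit 4) (nat_lit 329) (nat_lit 228) (nat_lit 223)) (XT.nd (nat_lit 78) (nat_lit 0) (nat_lit 0) (XT.lf (nat_lit 0) (nat_lit 3727836424470) (nat_lit 76) (nat_lit 6576824694085) (nat_lit 76) (nat_lit 6576781003761) (nat_lit 1) (nat_lit 4) (nat_lit 2) (nat_lit 5) (nat_lit 2) (nat_lit 4) (nat_lit 330) (nat_lit 228) (nat_lit 222)) (XT.lf (nat_lit 0) (nat_lit 4287533395096) (nat_lit 76) (nat_lit 7563067577185) (nat_lit 76) (nat_lit 7563019546820) (nat_lit 1) (nat_lit 4) (nat_lit 2) (nat_lit 5) (nat_lit 2) (nat_lit 4) (nat_lit 331) (nat_lit 228) (nat_lit 221))))) (XT.nd (nat_lit 156) (nat_lit 0) (nat_lit 0) (XT.nd (nat_lit 78) (nat_lit 0) (nat_lit 0) (XT.lf (nat_lit 0) (nat_lit 4931154506308) (nat_lit 76) (nat_lit 8697262592160) (nat_lit 76) (nat_lit 8697210787846) (nat_lit 1) (nat_lit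 4) (nat_lit 2) (nat_lit 5) (nat_lit 2) (nat_lit 4) (nat_lit 332) (nat_lit 228) (nat_lit 220)) (XT.lf (nat_lit 0) (nat_lit 5671292345066) (nat_lit 76) (nat_lit 10001600511042) (nat_lit 76) (nat_lit 10001545425033) (nat_lit 1) (nat_lit 4) (nat_lit 2) (nat_lit 5) (nat_lit 2) (nat_lit 4) (nat_lit 333) (nat_lit 228) (nat_lit 219))) (XT.nd (nat_lit 78) (nat_lit 0) (nat_lit 0) (XT.lf (nat_lit 0) (nat_lit 6522427869084) (nat_lit 76) (nat_lit 11501600988765) (nat_lit 76) (nat_lit 11501543049109) (nat_lit 1) (nat_lit 4) (nat_lit 2) (nat_lit 5) (nat_lit 2) (nat_lit 4) (nat_lit 334) (nat_lit 228) (nat_lit 218)) (XT.nd (nat_lit 78) (nat_lit 0) (nat_lit 0) (XT.lf (nat_lit 0) (nat_lit 7501213729918) (nat_lit 76) (nat_lit 13226611860764) (nat_lit 76) (nat_lit 13226551439675) (nat_lit 1) (nat_lit 4) (nat_lit 2) (nat_lit 5) (nat_lit 2) (nat_lit 4) (nat_lit 335) (nat_lit 228) (nat_lit 217)) (XT.lf (nat_lit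 0) (nat_lit 8626800085716) (nat_lit 76) (nat_lit 15210383339751) (nat_lit 76) (nat_lit 15210320760894) (nat_lit 1) (nat_lit 4) (nat_lit 2) (nat_lit 5) (nat_lit 2) (nat_lit 4) (nat_lit 336) (nat_lit 228) (nat_lit 216))))))) (XT.nd (nat_lit 1170) (nat_lit 0) (nat_lit 0) (XT.nd (nat_lit 390) (nat_lit 0) (nat_lit 0) (XT.nd (nat_lit 156) (nat_lit 0) (nat_lit 0) (XT.nd (nat_lit 78) (nat_lit 0) (nat_lit 0) (XT.lf (nat_lit 0) (nat_lit 9921209278221) (nat_lit 76) (nat_lit 17491728345968) (nat_lit 76) (nat_lit 17491663890791) (nat_lit 1) (nat_lit 4) (nat_lit 2) (nat_lit 5) (nat_lit 2) (nat_lit 4) (nat_lit 337) (nat_lit 228) (nat_lit 215)) (XT.lf (nat_lit 0) (nat_lit 11409766704679) (nat_lit 76) (nat_lit 20115281890405) (nat_lit 76) (nat_lit 20115215803646) (nat_lit 1) (nat_lit 4) (nat_lit 2) (nat_lit 5) (nat_lit 2) (nat_lit 4) (nat_lit 338) (nat_lit 228) (nat_lit 214))) (XT.nd (nat_lit 78) (nat_lit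 0) (nat_lit 0) (XT.lf (nat_lit 0) (nat_lit 13121596314736) (nat_lit 76) (nat_lit 23132374368497) (nat_lit 76) (nat_lit 23132306862971) (nat_lit 1) (nat_lit 4) (nat_lit 2) (nat_lit 5) (nat_lit 2) (nat_lit 4) (nat_lit 339) (nat_lit 228) (nat_lit 213)) (XT.nd (nat_lit 78) (nat_lit 0) (nat_lit 0) (XT.lf (nat_lit 0) (nat_lit 15090190426852) (nat_lit 76) (nat_lit 26602035850468) (nat_lit 76) (nat_lit 26601967111231) (nat_lit 1) (nat_lit 4) (nat_lit 2) (nat_lit 5) (nat_lit 2) (nat_lit 4) (nat_lit 340) (nat_lit 228) (nat_lit 212)) (XT.lf (nat_lit 0) (nat_lit 17354065012784) (nat_lit 76) (nat_lit 30592151017487) (nat_lit 76) (nat_lit 30592081205458) (nat_lit 1) (nat_lit 4) (nat_lit 2) (nat_lit 5) (nat_lit 2) (nat_lit 4) (nat_lit 341) (nat_lit 228) (nat_lit 211))))) (XT.nd (nat_lit 156) (nat_lit 0) (nat_lit 0) (XT.nd (nat_lit 78) (nat_lit 0) (nat_lit 0) (XT.lf (nat_lit 0) (nat_lit 19957513270953)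 (nat_lit 76) (nat_lit 35180787340212) (nat_lit 76) (nat_lit 35180716595321) (nat_lit 1) (nat_lit 4) (nat_lit 2) (nat_lit 5) (nat_lit 2) (nat_lit 4) (nat_lit 342) (nat_lit 228) (nat_lit 210)) (XT.lf (nat_lit 0) (nat_lit 22951472232497) (nat_lit 76) (nat_lit 40457722485828) (nat_lit 76) (nat_lit 40457650929753) (nat_lit 1) (nat_lit 4) (nat_lit 2) (nat_lit 5) (nat_lit 2) (nat_lit 4) (nat_lit 343) (nat_lit 228) (nat_lit 209))) (XT.nd (nat_lit 78) (nat_lit 0) (nat_lit 0) (XT.lf (nat_lit 0) (nat_lit 26394519355359) (nat_lit 76) (nat_lit 46526200837619) (nat_lit 76) (nat_lit 46526128576165) (nat_lit 1) (nat_lit 4) (nat_lit 2) (nat_lit 5) (nat_lit 2) (nat_lit 4) (nat_lit 344) (nat_lit 228) (nat_lit 208)) (XT.nd (nat_lit 468) (nat_lit 0) (nat_lit 0) (XT.lf (nat_lit 0) (nat_lit 30354018604987) (nat_lit 76) (nat_lit 53504953493771) (nat_lit 76) (nat_lit 53504880618945) (nat_lit 1) (nat_lit 4) (nat_lit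 2) (nat_lit 5) (nat_lit 2) (nat_lit 4) (nat_lit 345) (nat_lit 228) (nat_lit 207)) (XT.lf (nat_lit 0) (nat_lit 70213406232055) (nat_lit 76) (nat_lit 123758704876691) (nat_lit 76) (nat_lit 123758629680569) (nat_lit 1) (nat_lit 4) (nat_lit 2) (nat_lit 5) (nat_lit 2) (nat_lit 4) (nat_lit 351) (nat_lit 228) (nat_lit 201)))))) (XT.nd (nat_lit 38298) (nat_lit 0) (nat_lit 0) (XT.nd (nat_lit 156) (nat_lit 0) (nat_lit 0) (XT.nd (nat_lit 78) (nat_lit 0) (nat_lit 0) (XT.lf (nat_lit 0) (nat_lit 80745717953792) (nat_lit 76) (nat_lit 142322343754402) (nat_lit 76) (nat_lit 142322268327690) (nat_lit 1) (nat_lit 4) (nat_lit 2) (nat_lit 5) (nat_lit 2) (nat_lit 4) (nat_lit 352) (nat_lit 228) (nat_lit 200)) (XT.lf (nat_lit 0) (nat_lit 92857874818351) (nat_lit 76) (nat_lit 163670529297890) (nat_lit 76) (nat_lit 163670453670666) (nat_lit 1) (nat_lit 4) (nat_lit 2) (nat_lit 5) (nat_lit 2) (nat_lit 4) (nat_lit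 353) (nat_lit 228) (nat_lit 199))) (XT.nd (nat_lit 78) (nat_lit 0) (nat_lit 0) (XT.lf (nat_lit 0) (nat_lit 106786853807865) (nat_lit 76) (nat_lit 188220943398223) (nat_lit 76) (nat_lit 188220867596639) (nat_lit 1) (nat_lit 4) (nat_lit 2) (nat_lit 5) (nat_lit 2) (nat_lit 4) (nat_lit 354) (nat_lit 228) (nat_lit 198)) (XT.nd (nat_lit 78) (nat_lit 0) (nat_lit 0) (XT.lf (nat_lit 0) (nat_lit 122805178424302) (nat_lit 76) (nat_lit 216453920244320) (nat_lit 76) (nat_lit 216453844291121) (nat_lit 1) (nat_lit 4) (nat_lit 2) (nat_lit 5) (nat_lit 2) (nat_lit 4) (nat_lit 355) (nat_lit 228) (nat_lit 197)) (XT.lf (nat_lit 0) (nat_lit 141226250671028) (nat_lit 76) (nat_lit 248921844165780) (nat_lit 76) (nat_lit 248921768080741) (nat_lit 1) (nat_lit 4) (nat_lit 2) (nat_lit 5) (nat_lit 2) (nat_lit 4) (nat_lit 356) (nat_lit 228) (nat_lit 196))))) (XT.nd (nat_lit 156) (nat_lit 0) (nat_lit 0) (XT.nd (nat_lit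 78) (nat_lit 0) (nat_lit 0) (XT.lf (nat_lit 0) (nat_lit 607557217141) (nat_lit 76) (nat_lit 1075928759296) (nat_lit 76) (nat_lit 1075928759296) (nat_lit 1) (nat_lit 4) (nat_lit 2) (nat_lit 5) (nat_lit 2) (nat_lit 4) (nat_lit 322) (nat_lit 229) (nat_lit 229)) (XT.lf (nat_lit 0) (nat_lit 1398333325693) (nat_lit 76) (nat_lit 2474131452990) (nat_lit 76) (nat_lit 2474119908394) (nat_lit 1) (nat_lit 4) (nat_lit 2) (nat_lit 5) (nat_lit 2) (nat_lit 4) (nat_lit 323) (nat_lit 229) (nat_lit 228))) (XT.nd (nat_lit 78) (nat_lit 0) (nat_lit 0) (XT.lf (nat_lit 0) (nat_lit 1608954172891) (nat_lit 76) (nat_lit 2844788238289) (nat_lit 76) (nat_lit 2844766654914) (nat_lit 1) (nat_lit 4) (nat_lit 2) (nat_lit 5) (nat_lit 2) (nat_lit 4) (nat_lit 324) (nat_lit 229) (nat_lit 227)) (XT.nd (nat_lit 78) (nat_lit 0) (nat_lit 0) (XT.lf (nat_lit 0) (nat_lit 1851097818540) (nat_lit 76) (nat_lit 3271079855071) (nat_lit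 76) (nat_lit 3271049542323) (nat_lit 1) (nat_lit 4) (nat_lit 2) (nat_lit 5) (nat_lit 2) (nat_lit 4) (nat_lit 325) (nat_lit 229) (nat_lit 226)) (XT.lf (nat_lit 0) (nat_lit 2129501855705) (nat_lit 76) (nat_lit 3761346791492) (nat_lit 76) (nat_lit 3761308887984) (nat_lit 1) (nat_lit 4) (nat_lit 2) (nat_lit 5) (nat_lit 2) (nat_lit 4) (nat_lit 326) (nat_lit 229) (nat_lit 225))))))))
noncomputable def xc5 : XT := (XT.nd (nat_lit 40092) (nat_lit 0) (nat_lit 0) (XT.nd (nat_lit 780) (nat_lit 0) (nat_lit 0) (XT.nd (nat_lit 390) (nat_lit 0) (nat_lit 0) (XT.nd (nat_lit 156) (nat_lit 0) (nat_lit 0) (XT.nd (nat_lit 78) (nat_lit 0) (nat_lit 0) (XT.lf (nat_lit 0) (nat_lit 2449613319897) (nat_lit 76) (nat_lit 4325181226742) (nat_lit 76) (nat_lit 4325136722574) (nat_lit 1) (nat_lit 4) (nat_lit 2) (nat_lit 5) (nat_lit 2) (nat_lit 4) (nat_lit 327) (nat_lit 229) (nat_lit 224)) (XT.lf (nat_lit 0) (nat_lit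 2817695261503) (nat_lit 76) (nat_lit 4973614704119) (nat_lit 76) (nat_lit 4973564460246) (nat_lit 1) (nat_lit 4) (nat_lit 2) (nat_lit 5) (nat_lit 2) (nat_lit 4) (nat_lit 328) (nat_lit 229) (nat_lit 223))) (XT.nd (nat_lit 78) (nat_lit 0) (nat_lit 0) (XT.lf (nat_lit 0) (nat_lit 3240949283727) (nat_lit 76) (nat_lit 5719333965572) (nat_lit 76) (nat_lit 5719278730652) (nat_lit 1) (nat_lit 4) (nat_lit 2) (nat_lit 5) (nat_lit 2) (nat_lit 4) (nat_lit 329) (nat_lit 229) (nat_lit 222)) (XT.nd (nat_lit 78) (nat_lit 0) (nat_lit 0) (XT.lf (nat_lit 0) (nat_lit 3727656443527) (nat_lit 76) (nat_lit 6576929170564) (nat_lit 76) (nat_lit 6576869595603) (nat_lit 1) (nat_lit 4) (nat_lit 2) (nat_lit 5) (nat_lit 2) (nat_lit 4) (nat_lit 330) (nat_lit 229) (nat_lit 221)) (XT.lf (nat_lit 0) (nat_lit 4287339272289) (nat_lit 76) (nat_lit 7563179355716) (nat_lit 76) (nat_lit 7563116006805) (nat_lit 1) (nat_lit 4)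 (nat_lit 2) (nat_lit 5) (nat_lit 2) (nat_lit 4) (nat_lit 331) (nat_lit 229) (nat_lit 220))))) (XT.nd (nat_lit 156) (nat_lit 0) (nat_lit 0) (XT.nd (nat_lit 78) (nat_lit 0) (nat_lit 0) (XT.lf (nat_lit 0) (nat_lit 4930948086229) (nat_lit 76) (nat_lit 8697380720300) (nat_lit 76) (nat_lit 8697314089695) (nat_lit 1) (nat_lit 4) (nat_lit 2) (nat_lit 5) (nat_lit 2) (nat_lit 4) (nat_lit 332) (nat_lit 229) (nat_lit 219)) (XT.lf (nat_lit 0) (nat_lit 5671075231705) (nat_lit 76) (nat_lit 10001724160582) (nat_lit 76) (nat_lit 10001654676329) (nat_lit 1) (nat_lit 4) (nat_lit 2) (nat_lit 5) (nat_lit 2) (nat_lit 4) (nat_lit 333) (nat_lit 229) (nat_lit 218))) (XT.nd (nat_lit 78) (nat_lit 0) (nat_lit 0) (XT.lf (nat_lit 0) (nat_lit 6522201457218) (nat_lit 76) (nat_lit 11501729439522) (nat_lit 76) (nat_lit 11501657473837) (nat_lit 1) (nat_lit 4) (nat_lit 2) (nat_lit 5) (nat_lit 2) (nat_lit 4) (nat_lit 334)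 (nat_lit 229) (nat_lit 217)) (XT.nd (nat_lit 78) (nat_lit 0) (nat_lit 0) (XT.lf (nat_lit 0) (nat_lit 7500979232396) (nat_lit 76) (nat_lit 13226744486492) (nat_lit 76) (nat_lit 13226670363039) (nat_lit 1) (nat_lit 4) (nat_lit 2) (nat_lit 5) (nat_lit 2) (nat_lit 4) (nat_lit 335) (nat_lit 229) (nat_lit 216)) (XT.lf (nat_lit 0) (nat_lit 8626558557188) (nat_lit 76) (nat_lit 15210519595889) (nat_lit 76) (nat_lit 15210443596117) (nat_lit 1) (nat_lit 4) (nat_lit 2) (nat_lit 5) (nat_lit 2) (nat_lit 4) (nat_lit 336) (nat_lit 229) (nat_lit 215)))))) (XT.nd (nat_lit 390) (nat_lit 0) (nat_lit 0) (XT.nd (nat_lit 156) (nat_lit 0) (nat_lit 0) (XT.nd (nat_lit 78) (nat_lit 0) (nat_lit 0) (XT.lf (nat_lit 0) (nat_lit 9920961635775) (nat_lit 76) (nat_lit 17491867758984) (nat_lit 76) (nat_lit 17491790127629) (nat_lit 1) (nat_lit 4) (nat_lit 2) (nat_lit 5) (nat_lit 2) (nat_lit 4) (nat_lit 337) (nat_lit 229)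 (nat_lit 214)) (XT.lf (nat_lit 0) (nat_lit 11409513745782) (nat_lit 76) (nat_lit 20115424048532) (nat_lit 76) (nat_lit 20115344998410) (nat_lit 1) (nat_lit 4) (nat_lit 2) (nat_lit 5) (nat_lit 2) (nat_lit 4) (nat_lit 338) (nat_lit 229) (nat_lit 213))) (XT.nd (nat_lit 78) (nat_lit 0) (nat_lit 0) (XT.lf (nat_lit 0) (nat_lit 13121338732840) (nat_lit 76) (nat_lit 23132518913678) (nat_lit 76) (nat_lit 23132438629845) (nat_lit 1) (nat_lit 4) (nat_lit 2) (nat_lit 5) (nat_lit 2) (nat_lit 4) (nat_lit 339) (nat_lit 229) (nat_lit 212)) (XT.nd (nat_lit 78) (nat_lit 0) (nat_lit 0) (XT.lf (nat_lit 0) (nat_lit 15089928824955) (nat_lit 76) (nat_lit 26602182471348) (nat_lit 76) (nat_lit 26602101114723) (nat_lit 1) (nat_lit 4) (nat_lit 2) (nat_lit 5) (nat_lit 2) (nat_lit 4) (nat_lit 340) (nat_lit 229) (nat_lit 211)) (XT.lf (nat_lit 0) (nat_lit 17353799915234) (nat_lit 76) (nat_lit 30592299443322) (nat_lit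 76) (nat_lit 30592217153835) (nat_lit 1) (nat_lit 4) (nat_lit 2) (nat_lit 5) (nat_lit 2) (nat_lit 4) (nat_lit 341) (nat_lit 229) (nat_lit 210))))) (XT.nd (nat_lit 156) (nat_lit 0) (nat_lit 0) (XT.nd (nat_lit 78) (nat_lit 0) (nat_lit 0) (XT.lf (nat_lit 0) (nat_lit 19957245133705) (nat_lit 76) (nat_lit 35180937335574) (nat_lit 76) (nat_lit 35180854234902) (nat_lit 1) (nat_lit 4) (nat_lit 2) (nat_lit 5) (nat_lit 2) (nat_lit 4) (nat_lit 342) (nat_lit 229) (nat_lit 209)) (XT.lf (nat_lit 0) (nat_lit 22951201452034) (nat_lit 76) (nat_lit 40457873845995) (nat_lit 76) (nat_lit 40457790039945) (nat_lit 1) (nat_lit 4) (nat_lit 2) (nat_lit 5) (nat_lit 2) (nat_lit 4) (nat_lit 343) (nat_lit 229) (nat_lit 208))) (XT.nd (nat_lit 78) (nat_lit 0) (nat_lit 0) (XT.lf (nat_lit 0) (nat_lit 26394246276448) (nat_lit 76) (nat_lit 46526353384573) (nat_lit 76) (nat_lit 46526268965151) (nat_lit 1) (nat_lit 4) (nat_lit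 2) (nat_lit 5) (nat_lit 2) (nat_lit 4) (nat_lit 344) (nat_lit 229) (nat_lit 207)) (XT.nd (nat_lit 624) (nat_lit 0) (nat_lit 0) (XT.lf (nat_lit 0) (nat_lit 30353743527426) (nat_lit 76) (nat_lit 53505107072714) (nat_lit 76) (nat_lit 53505022119925) (nat_lit 1) (nat_lit 4) (nat_lit 2) (nat_lit 5) (nat_lit 2) (nat_lit 4) (nat_lit 345) (nat_lit 229) (nat_lit 206)) (XT.lf (nat_lit 0) (nat_lit 92857590772202) (nat_lit 76) (nat_lit 163670687507700) (nat_lit 76) (nat_lit 163670600161521) (nat_lit 1) (nat_lit 4) (nat_lit 2) (nat_lit 5) (nat_lit 2) (nat_lit 4) (nat_lit 353) (nat_lit 229) (nat_lit 198))))))) (XT.nd (nat_lit 780) (nat_lit 0) (nat_lit 0) (XT.nd (nat_lit 390) (nat_lit 0) (nat_lit 0) (XT.nd (nat_lit 156) (nat_lit 0) (nat_lit 0) (XT.nd (nat_lit 78) (nat_lit 0) (nat_lit 0) (XT.lf (nat_lit 0) (nat_lit 458529693918) (nat_lit 76) (nat_lit 814023803999) (nat_lit 76) (nat_lit 814023803999)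 (nat_lit 1) (nat_lit 4) (nat_lit 2) (nat_lit 5) (nat_lit 2) (nat_lit 4) (nat_lit 320) (nat_lit 230) (nat_lit 230)) (XT.lf (nat_lit 0) (nat_lit 1055712781220) (nat_lit 76) (nat_lit 1871674351797) (nat_lit 76) (nat_lit 1871661075512) (nat_lit 1) (nat_lit 4) (nat_lit 2) (nat_lit 5) (nat_lit 2) (nat_lit 4) (nat_lit 321) (nat_lit 230) (nat_lit 229))) (XT.nd (nat_lit 78) (nat_lit 0) (nat_lit 0) (XT.lf (nat_lit 0) (nat_lit 1215071173998) (nat_lit 76) (nat_lit 2151893132020) (nat_lit 76) (nat_lit 2151868311138) (nat_lit 1) (nat_lit 4) (nat_lit 2) (nat_lit 5) (nat_lit 2) (nat_lit 4) (nat_lit 322) (nat_lit 230) (nat_lit 228)) (XT.nd (nat_lit 78) (nat_lit 0) (nat_lit 0) (XT.lf (nat_lit 0) (nat_lit 1398252447769) (nat_lit 76) (nat_lit 2474186490018) (nat_lit 76) (nat_lit 2474151630357) (nat_lit 1) (nat_lit 4) (nat_lit 2) (nat_lit 5) (nat_lit 2) (nat_lit 4) (nat_lit 323) (nat_lit 230) (nat_lit 227))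 (XT.lf (nat_lit 0) (nat_lit 1608840583977) (nat_lit 76) (nat_lit 2844860165405) (nat_lit 76) (nat_lit 2844816576370) (nat_lit 1) (nat_lit 4) (nat_lit 2) (nat_lit 5) (nat_lit 2) (nat_lit 4) (nat_lit 324) (nat_lit 230) (nat_lit 226))))) (XT.nd (nat_lit 156) (nat_lit 0) (nat_lit 0) (XT.nd (nat_lit 78) (nat_lit 0) (nat_lit 0) (XT.lf (nat_lit 0) (nat_lit 1850955785286) (nat_lit 76) (nat_lit 3271166469220) (nat_lit 76) (nat_lit 3271115289427) (nat_lit 1) (nat_lit 4) (nat_lit 2) (nat_lit 5) (nat_lit 2) (nat_lit 4) (nat_lit 325) (nat_lit 230) (nat_lit 225)) (XT.lf (nat_lit 0) (nat_lit 2129335088243) (nat_lit 76) (nat_lit 3761446176974) (nat_lit 76) (nat_lit 3761388396520) (nat_lit 1) (nat_lit 4) (nat_lit 2) (nat_lit 5) (nat_lit 2) (nat_lit 4) (nat_lit 326) (nat_lit 230) (nat_lit 224))) (XT.nd (nat_lit 78) (nat_lit 0) (nat_lit 0) (XT.lf (nat_lit 0) (nat_lit 2449425044428) (nat_lit 76) (nat_lit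 4325291717730) (nat_lit 76) (nat_lit 4325228197572) (nat_lit 1) (nat_lit 4) (nat_lit 2) (nat_lit 5) (nat_lit 2) (nat_lit 4) (nat_lit 327) (nat_lit 230) (nat_lit 223)) (XT.nd (nat_lit 78) (nat_lit 0) (nat_lit 0) (XT.lf (nat_lit 0) (nat_lit 2817488283418) (nat_lit 76) (nat_lit 4973734852070) (nat_lit 76) (nat_lit 4973666340864) (nat_lit 1) (nat_lit 4) (nat_lit 2) (nat_lit 5) (nat_lit 2) (nat_lit 4) (nat_lit 328) (nat_lit 230) (nat_lit 222)) (XT.lf (nat_lit 0) (nat_lit 3240726042499) (nat_lit 76) (nat_lit 5719462510882) (nat_lit 76) (nat_lit 5719389659635) (nat_lit 1) (nat_lit 4) (nat_lit 2) (nat_lit 5) (nat_lit 2) (nat_lit 4) (nat_lit 329) (nat_lit 230) (nat_lit 221)))))) (XT.nd (nat_lit 390) (nat_lit 0) (nat_lit 0) (XT.nd (nat_lit 156) (nat_lit 0) (nat_lit 0) (XT.nd (nat_lit 78) (nat_lit 0) (nat_lit 0) (XT.lf (nat_lit 0) (nat_lit 3727419060435) (nat_lit 76) (nat_lit 6577065017925) (nat_lit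 76) (nat_lit 6576988392729) (nat_lit 1) (nat_lit 4) (nat_lit 2) (nat_lit 5) (nat_lit 2) (nat_lit 4) (nat_lit 330) (nat_lit 230) (nat_lit 220)) (XT.lf (nat_lit 0) (nat_lit 4287089591924) (nat_lit 76) (nat_lit 7563321552686) (nat_lit 76) (nat_lit 7563241645795) (nat_lit 1) (nat_lit 4) (nat_lit 2) (nat_lit 5) (nat_lit 2) (nat_lit 4) (nat_lit 331) (nat_lit 230) (nat_lit 219))) (XT.nd (nat_lit 78) (nat_lit 0) (nat_lit 0) (XT.lf (nat_lit 0) (nat_lit 4930687712583) (nat_lit 76) (nat_lit 8697528438670) (nat_lit 76) (nat_lit 8697445678132) (nat_lit 1) (nat_lit 4) (nat_lit 2) (nat_lit 5) (nat_lit 2) (nat_lit 4) (nat_lit 332) (nat_lit 230) (nat_lit 218)) (XT.nd (nat_lit 78) (nat_lit 0) (nat_lit 0) (XT.lf (nat_lit 0) (nat_lit 5670805559555) (nat_lit 76) (nat_lit 10001876680169) (nat_lit 76) (nat_lit 10001791438198) (nat_lit 1) (nat_lit 4) (nat_lit 2) (nat_lit 5) (nat_lit 2) (nat_lit 4) (nat_lit 333)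 (nat_lit 230) (nat_lit 217)) (XT.lf (nat_lit 0) (nat_lit 6521923699411) (nat_lit 76) (nat_lit 11501886134081) (nat_lit 76) (nat_lit 11501798734342) (nat_lit 1) (nat_lit 4) (nat_lit 2) (nat_lit 5) (nat_lit 2) (nat_lit 4) (nat_lit 334) (nat_lit 230) (nat_lit 216))))) (XT.nd (nat_lit 234) (nat_lit 0) (nat_lit 0) (XT.nd (nat_lit 78) (nat_lit 0) (nat_lit 0) (XT.lf (nat_lit 0) (nat_lit 7500694443583) (nat_lit 76) (nat_lit 13226904811461) (nat_lit 76) (nat_lit 13226815535403) (nat_lit 1) (nat_lit 4) (nat_lit 2) (nat_lit 5) (nat_lit 2) (nat_lit 4) (nat_lit 335) (nat_lit 230) (nat_lit 215)) (XT.nd (nat_lit 78) (nat_lit 0) (nat_lit 0) (XT.lf (nat_lit 0) (nat_lit 8626267654457) (nat_lit 76) (nat_lit 15210683077736) (nat_lit 76) (nat_lit 15210592170096) (nat_lit 1) (nat_lit 4) (nat_lit 2) (nat_lit 5) (nat_lit 2) (nat_lit 4) (nat_lit 336) (nat_lit 230) (nat_lit 214)) (XT.lf (nat_lit 0) (nat_lit 9920665416594)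 (nat_lit 76) (nat_lit 17492033985942) (nat_lit 76) (nat_lit 17491941659534) (nat_lit 1) (nat_lit 4) (nat_lit 2) (nat_lit 5) (nat_lit 2) (nat_lit 4) (nat_lit 337) (nat_lit 230) (nat_lit 213)))) (XT.nd (nat_lit 78) (nat_lit 0) (nat_lit 0) (XT.lf (nat_lit 0) (nat_lit 11409212903601) (nat_lit 76) (nat_lit 20115592662544) (nat_lit 76) (nat_lit 20115499102426) (nat_lit 1) (nat_lit 4) (nat_lit 2) (nat_lit 5) (nat_lit 2) (nat_lit 4) (nat_lit 338) (nat_lit 230) (nat_lit 212)) (XT.nd (nat_lit 78) (nat_lit 0) (nat_lit 0) (XT.lf (nat_lit 0) (nat_lit 13121033870658) (nat_lit 76) (nat_lit 23132689603388) (nat_lit 76) (nat_lit 23132594970478) (nat_lit 1) (nat_lit 4) (nat_lit 2) (nat_lit 5) (nat_lit 2) (nat_lit 4) (nat_lit 339) (nat_lit 230) (nat_lit 211)) (XT.lf (nat_lit 0) (nat_lit 15089620467120) (nat_lit 76) (nat_lit 26602354966013) (nat_lit 76) (nat_lit 26602259400241) (nat_lit 1) (nat_lit 4) (nat_lit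 2) (nat_lit 5) (nat_lit 2) (nat_lit 4) (nat_lit 340) (nat_lit 230) (nat_lit 210))))))))
noncomputable def xc6 : XT := (XT.nd (nat_lit 40014) (nat_lit 0) (nat_lit 0) (XT.nd (nat_lit 39234) (nat_lit 0) (nat_lit 0) (XT.nd (nat_lit 38844) (nat_lit 0) (nat_lit 0) (XT.nd (nat_lit 156) (nat_lit 0) (nat_lit 0) (XT.nd (nat_lit 78) (nat_lit 0) (nat_lit 0) (XT.lf (nat_lit 0) (nat_lit 17353488517702) (nat_lit 76) (nat_lit 30592473507514) (nat_lit 76) (nat_lit 30592377130557) (nat_lit 1) (nat_lit 4) (nat_lit 2) (nat_lit 5) (nat_lit 2) (nat_lit 4) (nat_lit 341) (nat_lit 230) (nat_lit 209)) (XT.lf (nat_lit 0) (nat_lit 19956931092958) (nat_lit 76) (nat_lit 35181112764571) (nat_lit 76) (nat_lit 35181015682236) (nat_lit 1) (nat_lit 4) (nat_lit 2) (nat_lit 5) (nat_lit 2) (nat_lit 4) (nat_lit 342) (nat_lit 230) (nat_lit 208))) (XT.nd (nat_lit 78) (nat_lit 0) (nat_lit 0) (XT.lf (nat_lit 0) (nat_lit 22950885112838)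 (nat_lit 76) (nat_lit 40458050461781) (nat_lit 76) (nat_lit 40457952766073) (nat_lit 1) (nat_lit 4) (nat_lit 2) (nat_lit 5) (nat_lit 2) (nat_lit 4) (nat_lit 343) (nat_lit 230) (nat_lit 207)) (XT.nd (nat_lit 78) (nat_lit 0) (nat_lit 0) (XT.lf (nat_lit 0) (nat_lit 26393927938602) (nat_lit 76) (nat_lit 46526531032348) (nat_lit 76) (nat_lit 46526432803273) (nat_lit 1) (nat_lit 4) (nat_lit 2) (nat_lit 5) (nat_lit 2) (nat_lit 4) (nat_lit 344) (nat_lit 230) (nat_lit 206)) (XT.lf (nat_lit 0) (nat_lit 30353423451622) (nat_lit 76) (nat_lit 53505285617870) (nat_lit 76) (nat_lit 53505186924998) (nat_lit 1) (nat_lit 4) (nat_lit 2) (nat_lit 5) (nat_lit 2) (nat_lit 4) (nat_lit 345) (nat_lit 230) (nat_lit 205))))) (XT.nd (nat_lit 156) (nat_lit 0) (nat_lit 0) (XT.nd (nat_lit 78) (nat_lit 0) (nat_lit 0) (XT.lf (nat_lit 0) (nat_lit 345712848728) (nat_lit 76) (nat_lit 616056093546) (nat_lit 76) (nat_lit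 616056093546) (nat_lit 1) (nat_lit 4) (nat_lit 2) (nat_lit 5) (nat_lit 2) (nat_lit 4) (nat_lit 318) (nat_lit 231) (nat_lit 231)) (XT.lf (nat_lit 0) (nat_lit 796398210064) (nat_lit 76) (nat_lit 1416261558147) (nat_lit 76) (nat_lit 1416246290418) (nat_lit 1) (nat_lit 4) (nat_lit 2) (nat_lit 5) (nat_lit 2) (nat_lit 4) (nat_lit 319) (nat_lit 231) (nat_lit 230))) (XT.nd (nat_lit 78) (nat_lit 0) (nat_lit 0) (XT.lf (nat_lit 0) (nat_lit 917009638509) (nat_lit 76) (nat_lit 1628088563439) (nat_lit 76) (nat_lit 1628060019425) (nat_lit 1) (nat_lit 4) (nat_lit 2) (nat_lit 5) (nat_lit 2) (nat_lit 4) (nat_lit 320) (nat_lit 231) (nat_lit 229)) (XT.nd (nat_lit 78) (nat_lit 0) (nat_lit 0) (XT.lf (nat_lit 0) (nat_lit 1055619771607) (nat_lit 76) (nat_lit 1871737644379) (nat_lit 76) (nat_lit 1871697555769) (nat_lit 1) (nat_lit 4) (nat_lit 2) (nat_lit 5) (nat_lit 2) (nat_lit 4) (nat_lit 321) (nat_lit 231)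 (nat_lit 228)) (XT.lf (nat_lit 0) (nat_lit 1214940546747) (nat_lit 76) (nat_lit 2151975848203) (nat_lit 76) (nat_lit 2151925720814) (nat_lit 1) (nat_lit 4) (nat_lit 2) (nat_lit 5) (nat_lit 2) (nat_lit 4) (nat_lit 322) (nat_lit 231) (nat_lit 227)))))) (XT.nd (nat_lit 390) (nat_lit 0) (nat_lit 0) (XT.nd (nat_lit 156) (nat_lit 0) (nat_lit 0) (XT.nd (nat_lit 78) (nat_lit 0) (nat_lit 0) (XT.lf (nat_lit 0) (nat_lit 1398089109527) (nat_lit 76) (nat_lit 2474286096289) (nat_lit 76) (nat_lit 2474227239526) (nat_lit 1) (nat_lit 4) (nat_lit 2) (nat_lit 5) (nat_lit 2) (nat_lit 4) (nat_lit 323) (nat_lit 231) (nat_lit 226)) (XT.lf (nat_lit 0) (nat_lit 1608648801395) (nat_lit 76) (nat_lit 2844974458708) (nat_lit 76) (nat_lit 2844908011187) (nat_lit 1) (nat_lit 4) (nat_lit 2) (nat_lit 5) (nat_lit 2) (nat_lit 4) (nat_lit 324) (nat_lit 231) (nat_lit 225))) (XT.nd (nat_lit 78) (nat_lit 0) (nat_lit 0) (XT.lf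 (nat_lit 0) (nat_lit 1850739268496) (nat_lit 76) (nat_lit 3271293533857) (nat_lit 76) (nat_lit 3271220485675) (nat_lit 1) (nat_lit 4) (nat_lit 2) (nat_lit 5) (nat_lit 2) (nat_lit 4) (nat_lit 325) (nat_lit 231) (nat_lit 224)) (XT.nd (nat_lit 78) (nat_lit 0) (nat_lit 0) (XT.lf (nat_lit 0) (nat_lit 2129097063446) (nat_lit 76) (nat_lit 3761584347117) (nat_lit 76) (nat_lit 3761505559231) (nat_lit 1) (nat_lit 4) (nat_lit 2) (nat_lit 5) (nat_lit 2) (nat_lit 4) (nat_lit 326) (nat_lit 231) (nat_lit 223)) (XT.lf (nat_lit 0) (nat_lit 2449168317016) (nat_lit 76) (nat_lit 4325439544837) (nat_lit 76) (nat_lit 4325355765902) (nat_lit 1) (nat_lit 4) (nat_lit 2) (nat_lit 5) (nat_lit 2) (nat_lit 4) (nat_lit 327) (nat_lit 231) (nat_lit 222))))) (XT.nd (nat_lit 156) (nat_lit 0) (nat_lit 0) (XT.nd (nat_lit 78) (nat_lit 0) (nat_lit 0) (XT.lf (nat_lit 0) (nat_lit 2817215292863) (nat_lit 76) (nat_lit 4973891076535)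 (nat_lit 76) (nat_lit 4973802957560) (nat_lit 1) (nat_lit 4) (nat_lit 2) (nat_lit 5) (nat_lit 2) (nat_lit 4) (nat_lit 328) (nat_lit 231) (nat_lit 221)) (XT.lf (nat_lit 0) (nat_lit 3240438910080) (nat_lit 76) (nat_lit 5719626037398) (nat_lit 76) (nat_lit 5719534144474) (nat_lit 1) (nat_lit 4) (nat_lit 2) (nat_lit 5) (nat_lit 2) (nat_lit 4) (nat_lit 329) (nat_lit 231) (nat_lit 220))) (XT.nd (nat_lit 78) (nat_lit 0) (nat_lit 0) (XT.lf (nat_lit 0) (nat_lit 3727119630743) (nat_lit 76) (nat_lit 6577234894051) (nat_lit 76) (nat_lit 6577139719432) (nat_lit 1) (nat_lit 4) (nat_lit 2) (nat_lit 5) (nat_lit 2) (nat_lit 4) (nat_lit 330) (nat_lit 231) (nat_lit 219)) (XT.nd (nat_lit 78) (nat_lit 0) (nat_lit 0) (XT.lf (nat_lit 0) (nat_lit 4286779468951) (nat_lit 76) (nat_lit 7563496950212) (nat_lit 76) (nat_lit 7563398921945) (nat_lit 1) (nat_lit 4) (nat_lit 2) (nat_lit 5) (nat_lit 2) (nat_lit 4) (nat_lit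 331) (nat_lit 231) (nat_lit 218)) (XT.lf (nat_lit 0) (nat_lit 4930368291105) (nat_lit 76) (nat_lit 8697708637413) (nat_lit 76) (nat_lit 8697608127713) (nat_lit 1) (nat_lit 4) (nat_lit 2) (nat_lit 5) (nat_lit 2) (nat_lit 4) (nat_lit 332) (nat_lit 231) (nat_lit 217))))))) (XT.nd (nat_lit 780) (nat_lit 0) (nat_lit 0) (XT.nd (nat_lit 390) (nat_lit 0) (nat_lit 0) (XT.nd (nat_lit 156) (nat_lit 0) (nat_lit 0) (XT.nd (nat_lit 78) (nat_lit 0) (nat_lit 0) (XT.lf (nat_lit 0) (nat_lit 5670478052420) (nat_lit 76) (nat_lit 10002061053883) (nat_lit 76) (nat_lit 10001958386416) (nat_lit 1) (nat_lit 4) (nat_lit 2) (nat_lit 5) (nat_lit 2) (nat_lit 4) (nat_lit 333) (nat_lit 231) (nat_lit 216)) (XT.lf (nat_lit 0) (nat_lit 6521589161270) (nat_lit 76) (nat_lit 11502074138205) (nat_lit 76) (nat_lit 11501969594418) (nat_lit 1) (nat_lit 4) (nat_lit 2) (nat_lit 5) (nat_lit 2) (nat_lit 4) (nat_lit 334) (nat_lit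 231) (nat_lit 215))) (XT.nd (nat_lit 78) (nat_lit 0) (nat_lit 0) (XT.lf (nat_lit 0) (nat_lit 7500353791525) (nat_lit 76) (nat_lit 13227095972463) (nat_lit 76) (nat_lit 13226989797094) (nat_lit 1) (nat_lit 4) (nat_lit 2) (nat_lit 5) (nat_lit 2) (nat_lit 4) (nat_lit 335) (nat_lit 231) (nat_lit 214)) (XT.nd (nat_lit 78) (nat_lit 0) (nat_lit 0) (XT.lf (nat_lit 0) (nat_lit 8625921685948) (nat_lit 76) (nat_lit 15210876983850) (nat_lit 76) (nat_lit 15210769389714) (nat_lit 1) (nat_lit 4) (nat_lit 2) (nat_lit 5) (nat_lit 2) (nat_lit 4) (nat_lit 336) (nat_lit 231) (nat_lit 213)) (XT.lf (nat_lit 0) (nat_lit 9920314825085) (nat_lit 76) (nat_lit 17492230279109) (nat_lit 76) (nat_lit 17492121451262) (nat_lit 1) (nat_lit 4) (nat_lit 2) (nat_lit 5) (nat_lit 2) (nat_lit 4) (nat_lit 337) (nat_lit 231) (nat_lit 212))))) (XT.nd (nat_lit 156) (nat_lit 0) (nat_lit 0) (XT.nd (nat_lit 78) (nat_lit 0) (nat_lit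 0) (XT.lf (nat_lit 0) (nat_lit 11408858292091) (nat_lit 76) (nat_lit 20115791031410) (nat_lit 76) (nat_lit 20115681130771) (nat_lit 1) (nat_lit 4) (nat_lit 2) (nat_lit 5) (nat_lit 2) (nat_lit 4) (nat_lit 338) (nat_lit 231) (nat_lit 211)) (XT.lf (nat_lit 0) (nat_lit 13120675763495) (nat_lit 76) (nat_lit 23132889777209) (nat_lit 76) (nat_lit 23132778943708) (nat_lit 1) (nat_lit 4) (nat_lit 2) (nat_lit 5) (nat_lit 2) (nat_lit 4) (nat_lit 339) (nat_lit 231) (nat_lit 210))) (XT.nd (nat_lit 78) (nat_lit 0) (nat_lit 0) (XT.lf (nat_lit 0) (nat_lit 15089259320260) (nat_lit 76) (nat_lit 26602556709361) (nat_lit 76) (nat_lit 26602445064675) (nat_lit 1) (nat_lit 4) (nat_lit 2) (nat_lit 5) (nat_lit 2) (nat_lit 4) (nat_lit 340) (nat_lit 231) (nat_lit 209)) (XT.nd (nat_lit 78) (nat_lit 0) (nat_lit 0) (XT.lf (nat_lit 0) (nat_lit 17353124727626) (nat_lit 76) (nat_lit 30592676615667) (nat_lit 76) (nat_lit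 30592564265603) (nat_lit 1) (nat_lit 4) (nat_lit 2) (nat_lit 5) (nat_lit 2) (nat_lit 4) (nat_lit 341) (nat_lit 231) (nat_lit 208)) (XT.lf (nat_lit 0) (nat_lit 19956565004434) (nat_lit 76) (nat_lit 35181317059512) (nat_lit 76) (nat_lit 35181204096076) (nat_lit 1) (nat_lit 4) (nat_lit 2) (nat_lit 5) (nat_lit 2) (nat_lit 4) (nat_lit 342) (nat_lit 231) (nat_lit 207)))))) (XT.nd (nat_lit 38688) (nat_lit 0) (nat_lit 0) (XT.nd (nat_lit 156) (nat_lit 0) (nat_lit 0) (XT.nd (nat_lit 78) (nat_lit 0) (nat_lit 0) (XT.lf (nat_lit 0) (nat_lit 22950517025664) (nat_lit 76) (nat_lit 40458255788710) (nat_lit 76) (nat_lit 40458142291907) (nat_lit 1) (nat_lit 4) (nat_lit 2) (nat_lit 5) (nat_lit 2) (nat_lit 4) (nat_lit 343) (nat_lit 231) (nat_lit 206)) (XT.lf (nat_lit 0) (nat_lit 26393558113470) (nat_lit 76) (nat_lit 46526737256659) (nat_lit 76) (nat_lit 46526623296058) (nat_lit 1) (nat_lit 4) (nat_lit 2)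 (nat_lit 5) (nat_lit 2) (nat_lit 4) (nat_lit 344) (nat_lit 231) (nat_lit 205))) (XT.nd (nat_lit 38376) (nat_lit 0) (nat_lit 0) (XT.lf (nat_lit 0) (nat_lit 30353052115223) (nat_lit 76) (nat_lit 53505492622514) (nat_lit 76) (nat_lit 53505378258611) (nat_lit 1) (nat_lit 4) (nat_lit 2) (nat_lit 5) (nat_lit 2) (nat_lit 4) (nat_lit 345) (nat_lit 231) (nat_lit 204)) (XT.nd (nat_lit 78) (nat_lit 0) (nat_lit 0) (XT.lf (nat_lit 0) (nat_lit 260256884334) (nat_lit 76) (nat_lit 466444635327) (nat_lit 76) (nat_lit 466444635327) (nat_lit 1) (nat_lit 4) (nat_lit 2) (nat_lit 5) (nat_lit 2) (nat_lit 4) (nat_lit 316) (nat_lit 232) (nat_lit 232)) (XT.lf (nat_lit 0) (nat_lit 600038290656) (nat_lit 76) (nat_lit 1072055085690) (nat_lit 76) (nat_lit 1072037527803) (nat_lit 1) (nat_lit 4) (nat_lit 2) (nat_lit 5) (nat_lit 2) (nat_lit 4) (nat_lit 317) (nat_lit 232) (nat_lit 231))))) (XT.nd (nat_lit 156) (nat_lit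 0) (nat_lit 0) (XT.nd (nat_lit 78) (nat_lit 0) (nat_lit 0) (XT.lf (nat_lit 0) (nat_lit 691368485730) (nat_lit 76) (nat_lit 1232159285850) (nat_lit 76) (nat_lit 1232126460234) (nat_lit 1) (nat_lit 4) (nat_lit 2) (nat_lit 5) (nat_lit 2) (nat_lit 4) (nat_lit 318) (nat_lit 232) (nat_lit 230)) (XT.lf (nat_lit 0) (nat_lit 796291249010) (nat_lit 76) (nat_lit 1416334344616) (nat_lit 76) (nat_lit 1416288242714) (nat_lit 1) (nat_lit 4) (nat_lit 2) (nat_lit 5) (nat_lit 2) (nat_lit 4) (nat_lit 319) (nat_lit 232) (nat_lit 229))) (XT.nd (nat_lit 78) (nat_lit 0) (nat_lit 0) (XT.lf (nat_lit 0) (nat_lit 916859417169) (nat_lit 76) (nat_lit 1628183687050) (nat_lit 76) (nat_lit 1628126040552) (nat_lit 1) (nat_lit 4) (nat_lit 2) (nat_lit 5) (nat_lit 2) (nat_lit 4) (nat_lit 320) (nat_lit 232) (nat_lit 228)) (XT.nd (nat_lit 78) (nat_lit 0) (nat_lit 0) (XT.lf (nat_lit 0) (nat_lit 1055431932629) (nat_lit 76)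 (nat_lit 1871852191591) (nat_lit 76) (nat_lit 1871784506314) (nat_lit 1) (nat_lit 4) (nat_lit 2) (nat_lit 5) (nat_lit 2) (nat_lit 4) (nat_lit 321) (nat_lit 232) (nat_lit 227)) (XT.lf (nat_lit 0) (nat_lit 1214719996778) (nat_lit 76) (nat_lit 2152107285502) (nat_lit 76) (nat_lit 2152030870852) (nat_lit 1) (nat_lit 4) (nat_lit 2) (nat_lit 5) (nat_lit 2) (nat_lit 4) (nat_lit 322) (nat_lit 232) (nat_lit 226))))))))
noncomputable def xc7 : XT := (XT.nd (nat_lit 1560) (nat_lit 0) (nat_lit 0) (XT.nd (nat_lit 780) (nat_lit 0) (nat_lit 0) (XT.nd (nat_lit 390) (nat_lit 0) (nat_lit 0) (XT.nd (nat_lit 156) (nat_lit 0) (nat_lit 0) (XT.nd (nat_lit 78) (nat_lit 0) (nat_lit 0) (XT.lf (nat_lit 0) (nat_lit 1397840115219) (nat_lit 76) (nat_lit 2474432220621) (nat_lit 76) (nat_lit 2474348215212) (nat_lit 1) (nat_lit 4) (nat_lit 2) (nat_lit 5) (nat_lit 2) (nat_lit 4) (nat_lit 323) (nat_lit 232) (nat_lit 225))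 (XT.lf (nat_lit 0) (nat_lit 1608375072879) (nat_lit 76) (nat_lit 2845133354374) (nat_lit 76) (nat_lit 2845042748304) (nat_lit 1) (nat_lit 4) (nat_lit 2) (nat_lit 5) (nat_lit 2) (nat_lit 4) (nat_lit 324) (nat_lit 232) (nat_lit 224))) (XT.nd (nat_lit 78) (nat_lit 0) (nat_lit 0) (XT.lf (nat_lit 0) (nat_lit 1850444031972) (nat_lit 76) (nat_lit 3271463535029) (nat_lit 76) (nat_lit 3271367189255) (nat_lit 1) (nat_lit 4) (nat_lit 2) (nat_lit 5) (nat_lit 2) (nat_lit 4) (nat_lit 325) (nat_lit 232) (nat_lit 223)) (XT.nd (nat_lit 78) (nat_lit 0) (nat_lit 0) (XT.lf (nat_lit 0) (nat_lit 2128783124307) (nat_lit 76) (nat_lit 3761764005252) (nat_lit 76) (nat_lit 3761662668430) (nat_lit 1) (nat_lit 4) (nat_lit 2) (nat_lit 5) (nat_lit 2) (nat_lit 4) (nat_lit 326) (nat_lit 232) (nat_lit 222)) (XT.lf (nat_lit 0) (nat_lit 2448838114733) (nat_lit 76) (nat_lit 4325627600330) (nat_lit 76) (nat_lit 4325521923467)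 (nat_lit 1) (nat_lit 4) (nat_lit 2) (nat_lit 5) (nat_lit 2) (nat_lit 4) (nat_lit 327) (nat_lit 232) (nat_lit 221))))) (XT.nd (nat_lit 156) (nat_lit 0) (nat_lit 0) (XT.nd (nat_lit 78) (nat_lit 0) (nat_lit 0) (XT.lf (nat_lit 0) (nat_lit 2816870948717) (nat_lit 76) (nat_lit 4974086434080) (nat_lit 76) (nat_lit 4973976983268) (nat_lit 1) (nat_lit 4) (nat_lit 2) (nat_lit 5) (nat_lit 2) (nat_lit 4) (nat_lit 328) (nat_lit 232) (nat_lit 220)) (XT.lf (nat_lit 0) (nat_lit 3240082268661) (nat_lit 76) (nat_lit 5719827744552) (nat_lit 76) (nat_lit 5719715012045) (nat_lit 1) (nat_lit 4) (nat_lit 2) (nat_lit 5) (nat_lit 2) (nat_lit 4) (nat_lit 329) (nat_lit 232) (nat_lit 219))) (XT.nd (nat_lit 78) (nat_lit 0) (nat_lit 0) (XT.lf (nat_lit 0) (nat_lit 3726752296043) (nat_lit 76) (nat_lit 6577442122605) (nat_lit 76) (nat_lit 6577326536451) (nat_lit 1) (nat_lit 4) (nat_lit 2) (nat_lit 5) (nat_lit 2) (nat_lit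 4) (nat_lit 330) (nat_lit 232) (nat_lit 218)) (XT.nd (nat_lit 78) (nat_lit 0) (nat_lit 0) (XT.lf (nat_lit 0) (nat_lit 4286402835746) (nat_lit 76) (nat_lit 7563708979983) (nat_lit 76) (nat_lit 7563590912396) (nat_lit 1) (nat_lit 4) (nat_lit 2) (nat_lit 5) (nat_lit 2) (nat_lit 4) (nat_lit 331) (nat_lit 232) (nat_lit 217)) (XT.lf (nat_lit 0) (nat_lit 4929983572243) (nat_lit 76) (nat_lit 8697924842155) (nat_lit 76) (nat_lit 8697804616801) (nat_lit 1) (nat_lit 4) (nat_lit 2) (nat_lit 5) (nat_lit 2) (nat_lit 4) (nat_lit 332) (nat_lit 232) (nat_lit 216)))))) (XT.nd (nat_lit 390) (nat_lit 0) (nat_lit 0) (XT.nd (nat_lit 156) (nat_lit 0) (nat_lit 0) (XT.nd (nat_lit 78) (nat_lit 0) (nat_lit 0) (XT.lf (nat_lit 0) (nat_lit 5670086302553) (nat_lit 76) (nat_lit 10002280889035) (nat_lit 76) (nat_lit 10002158787361) (nat_lit 1) (nat_lit 4) (nat_lit 2) (nat_lit 5) (nat_lit 2) (nat_lit 4) (nat_lit 333)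 (nat_lit 232) (nat_lit 215)) (XT.lf (nat_lit 0) (nat_lit 6521191297485) (nat_lit 76) (nat_lit 11502297130235) (nat_lit 76) (nat_lit 11502173396979) (nat_lit 1) (nat_lit 4) (nat_lit 2) (nat_lit 5) (nat_lit 2) (nat_lit 4) (nat_lit 334) (nat_lit 232) (nat_lit 214))) (XT.nd (nat_lit 78) (nat_lit 0) (nat_lit 0) (XT.lf (nat_lit 0) (nat_lit 7499950611289) (nat_lit 76) (nat_lit 13227321709605) (nat_lit 76) (nat_lit 13227196557581) (nat_lit 1) (nat_lit 4) (nat_lit 2) (nat_lit 5) (nat_lit 2) (nat_lit 4) (nat_lit 335) (nat_lit 232) (nat_lit 213)) (XT.nd (nat_lit 78) (nat_lit 0) (nat_lit 0) (XT.lf (nat_lit 0) (nat_lit 8625513882712) (nat_lit 76) (nat_lit 15211105108045) (nat_lit 76) (nat_lit 15210978722311) (nat_lit 1) (nat_lit 4) (nat_lit 2) (nat_lit 5) (nat_lit 2) (nat_lit 4) (nat_lit 336) (nat_lit 232) (nat_lit 212)) (XT.lf (nat_lit 0) (nat_lit 9919903001848) (nat_lit 76) (nat_lit 17492460479003)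 (nat_lit 76) (nat_lit 17492333020477) (nat_lit 1) (nat_lit 4) (nat_lit 2) (nat_lit 5) (nat_lit 2) (nat_lit 4) (nat_lit 337) (nat_lit 232) (nat_lit 211))))) (XT.nd (nat_lit 156) (nat_lit 0) (nat_lit 0) (XT.nd (nat_lit 78) (nat_lit 0) (nat_lit 0) (XT.lf (nat_lit 0) (nat_lit 11408442973202) (nat_lit 76) (nat_lit 20116023036259) (nat_lit 76) (nat_lit 20115894644871) (nat_lit 1) (nat_lit 4) (nat_lit 2) (nat_lit 5) (nat_lit 2) (nat_lit 4) (nat_lit 338) (nat_lit 232) (nat_lit 210)) (XT.lf (nat_lit 0) (nat_lit 13120257404909) (nat_lit 76) (nat_lit 23133123351585) (nat_lit 76) (nat_lit 23132994149012) (nat_lit 1) (nat_lit 4) (nat_lit 2) (nat_lit 5) (nat_lit 2) (nat_lit 4) (nat_lit 339) (nat_lit 232) (nat_lit 209))) (XT.nd (nat_lit 78) (nat_lit 0) (nat_lit 0) (XT.lf (nat_lit 0) (nat_lit 15088838318458) (nat_lit 76) (nat_lit 26602791648542) (nat_lit 76) (nat_lit 26602661740591) (nat_lit 1) (nat_lit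 4) (nat_lit 2) (nat_lit 5) (nat_lit 2) (nat_lit 4) (nat_lit 340) (nat_lit 232) (nat_lit 208)) (XT.nd (nat_lit 78) (nat_lit 0) (nat_lit 0) (XT.lf (nat_lit 0) (nat_lit 17352701427376) (nat_lit 76) (nat_lit 30592912741636) (nat_lit 76) (nat_lit 30592782220312) (nat_lit 1) (nat_lit 4) (nat_lit 2) (nat_lit 5) (nat_lit 2) (nat_lit 4) (nat_lit 341) (nat_lit 232) (nat_lit 207)) (XT.lf (nat_lit 0) (nat_lit 19956139705533) (nat_lit 76) (nat_lit 35181554217470) (nat_lit 76) (nat_lit 35181423162779) (nat_lit 1) (nat_lit 4) (nat_lit 2) (nat_lit 5) (nat_lit 2) (nat_lit 4) (nat_lit 342) (nat_lit 232) (nat_lit 206))))))) (XT.nd (nat_lit 39000) (nat_lit 0) (nat_lit 0) (XT.nd (nat_lit 38610) (nat_lit 0) (nat_lit 0) (XT.nd (nat_lit 38376) (nat_lit 0) (nat_lit 0) (XT.nd (nat_lit 78) (nat_lit 0) (nat_lit 0) (XT.lf (nat_lit 0) (nat_lit 22950089988806) (nat_lit 76) (nat_lit 40458493844050) (nat_lit 76) (nat_lit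 40458362325562) (nat_lit 1) (nat_lit 4) (nat_lit 2) (nat_lit 5) (nat_lit 2) (nat_lit 4) (nat_lit 343) (nat_lit 232) (nat_lit 205)) (XT.lf (nat_lit 0) (nat_lit 26393129565345) (nat_lit 76) (nat_lit 46526976092331) (nat_lit 76) (nat_lit 46526844170540) (nat_lit 1) (nat_lit 4) (nat_lit 2) (nat_lit 5) (nat_lit 2) (nat_lit 4) (nat_lit 344) (nat_lit 232) (nat_lit 204))) (XT.nd (nat_lit 78) (nat_lit 0) (nat_lit 0) (XT.lf (nat_lit 0) (nat_lit 195467143484) (nat_lit 76) (nat_lit 353409536863) (nat_lit 76) (nat_lit 353409536863) (nat_lit 1) (nat_lit 4) (nat_lit 2) (nat_lit 5) (nat_lit 2) (nat_lit 4) (nat_lit 314) (nat_lit 233) (nat_lit 233)) (XT.nd (nat_lit 78) (nat_lit 0) (nat_lit 0) (XT.lf (nat_lit 0) (nat_lit 451239005205) (nat_lit 76) (nat_lit 811959222889) (nat_lit 76) (nat_lit 811939031319) (nat_lit 1) (nat_lit 4) (nat_lit 2) (nat_lit 5) (nat_lit 2) (nat_lit 4) (nat_lit 315) (nat_lit 233)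 (nat_lit 232)) (XT.lf (nat_lit 0) (nat_lit 520447975182) (nat_lit 76) (nat_lit 932943434225) (nat_lit 76) (nat_lit 932905684767) (nat_lit 1) (nat_lit 4) (nat_lit 2) (nat_lit 5) (nat_lit 2) (nat_lit 4) (nat_lit 316) (nat_lit 233) (nat_lit 231))))) (XT.nd (nat_lit 156) (nat_lit 0) (nat_lit 0) (XT.nd (nat_lit 78) (nat_lit 0) (nat_lit 0) (XT.lf (nat_lit 0) (nat_lit 599915285443) (nat_lit 76) (nat_lit 1072138790130) (nat_lit 76) (nat_lit 1072085772943) (nat_lit 1) (nat_lit 4) (nat_lit 2) (nat_lit 5) (nat_lit 2) (nat_lit 4) (nat_lit 317) (nat_lit 233) (nat_lit 230)) (XT.lf (nat_lit 0) (nat_lit 691195731189) (nat_lit 76) (nat_lit 1232268678002) (nat_lit 76) (nat_lit 1232202384530) (nat_lit 1) (nat_lit 4) (nat_lit 2) (nat_lit 5) (nat_lit 2) (nat_lit 4) (nat_lit 318) (nat_lit 233) (nat_lit 229))) (XT.nd (nat_lit 78) (nat_lit 0) (nat_lit 0) (XT.lf (nat_lit 0) (nat_lit 796075234185) (nat_lit 76)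 (nat_lit 1416466073909) (nat_lit 76) (nat_lit 1416388235841) (nat_lit 1) (nat_lit 4) (nat_lit 2) (nat_lit 5) (nat_lit 2) (nat_lit 4) (nat_lit 319) (nat_lit 233) (nat_lit 228)) (XT.nd (nat_lit 78) (nat_lit 0) (nat_lit 0) (XT.lf (nat_lit 0) (nat_lit 916605784705) (nat_lit 76) (nat_lit 1628334839944) (nat_lit 76) (nat_lit 1628246963096) (nat_lit 1) (nat_lit 4) (nat_lit 2) (nat_lit 5) (nat_lit 2) (nat_lit 4) (nat_lit 320) (nat_lit 233) (nat_lit 227)) (XT.lf (nat_lit 0) (nat_lit 1055145589174) (nat_lit 76) (nat_lit 1872020234573) (nat_lit 76) (nat_lit 1871923628352) (nat_lit 1) (nat_lit 4) (nat_lit 2) (nat_lit 5) (nat_lit 2) (nat_lit 4) (nat_lit 321) (nat_lit 233) (nat_lit 226)))))) (XT.nd (nat_lit 390) (nat_lit 0) (nat_lit 0) (XT.nd (nat_lit 156) (nat_lit 0) (nat_lit 0) (XT.nd (nat_lit 78) (nat_lit 0) (nat_lit 0) (XT.lf (nat_lit 0) (nat_lit 1214405208984) (nat_lit 76) (nat_lit 2152290015517)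 (nat_lit 76) (nat_lit 2152185818537) (nat_lit 1) (nat_lit 4) (nat_lit 2) (nat_lit 5) (nat_lit 2) (nat_lit 4) (nat_lit 322) (nat_lit 233) (nat_lit 225)) (XT.lf (nat_lit 0) (nat_lit 1397500593217) (nat_lit 76) (nat_lit 2474627721969) (nat_lit 76) (nat_lit 2474516924329) (nat_lit 1) (nat_lit 4) (nat_lit 2) (nat_lit 5) (nat_lit 2) (nat_lit 4) (nat_lit 323) (nat_lit 233) (nat_lit 224))) (XT.nd (nat_lit 78) (nat_lit 0) (nat_lit 0) (XT.lf (nat_lit 0) (nat_lit 1608014042869) (nat_lit 76) (nat_lit 2845339961229) (nat_lit 76) (nat_lit 2845223423884) (nat_lit 1) (nat_lit 4) (nat_lit 2) (nat_lit 5) (nat_lit 2) (nat_lit 4) (nat_lit 324) (nat_lit 233) (nat_lit 223)) (XT.nd (nat_lit 78) (nat_lit 0) (nat_lit 0) (XT.lf (nat_lit 0) (nat_lit 1850064299347) (nat_lit 76) (nat_lit 3271679798846) (nat_lit 76) (nat_lit 3271558270454) (nat_lit 1) (nat_lit 4) (nat_lit 2) (nat_lit 5) (nat_lit 2) (nat_lit 4) (nat_lit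 325) (nat_lit 233) (nat_lit 222)) (XT.lf (nat_lit 0) (nat_lit 2128387128539) (nat_lit 76) (nat_lit 3761988666428) (nat_lit 76) (nat_lit 3761862797995) (nat_lit 1) (nat_lit 4) (nat_lit 2) (nat_lit 5) (nat_lit 2) (nat_lit 4) (nat_lit 326) (nat_lit 233) (nat_lit 221))))) (XT.nd (nat_lit 234) (nat_lit 0) (nat_lit 0) (XT.nd (nat_lit 78) (nat_lit 0) (nat_lit 0) (XT.lf (nat_lit 0) (nat_lit 2448427977101) (nat_lit 76) (nat_lit 4325859563557) (nat_lit 76) (nat_lit 4325729921175) (nat_lit 1) (nat_lit 4) (nat_lit 2) (nat_lit 5) (nat_lit 2) (nat_lit 4) (nat_lit 327) (nat_lit 233) (nat_lit 220)) (XT.nd (nat_lit 78) (nat_lit 0) (nat_lit 0) (XT.lf (nat_lit 0) (nat_lit 2816448513812) (nat_lit 76) (nat_lit 4974324746917) (nat_lit 76) (nat_lit 4974191822839) (nat_lit 1) (nat_lit 4) (nat_lit 2) (nat_lit 5) (nat_lit 2) (nat_lit 4) (nat_lit 328) (nat_lit 233) (nat_lit 219)) (XT.lf (nat_lit 0) (nat_lit 3239649140475)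 (nat_lit 76) (nat_lit 5720071578789) (nat_lit 76) (nat_lit 5719935801064) (nat_lit 1) (nat_lit 4) (nat_lit 2) (nat_lit 5) (nat_lit 2) (nat_lit 4) (nat_lit 329) (nat_lit 233) (nat_lit 218)))) (XT.nd (nat_lit 78) (nat_lit 0) (nat_lit 0) (XT.lf (nat_lit 0) (nat_lit 3726309869352) (nat_lit 76) (nat_lit 6577690758059) (nat_lit 76) (nat_lit 6577552498901) (nat_lit 1) (nat_lit 4) (nat_lit 2) (nat_lit 5) (nat_lit 2) (nat_lit 4) (nat_lit 330) (nat_lit 233) (nat_lit 217)) (XT.nd (nat_lit 78) (nat_lit 0) (nat_lit 0) (XT.lf (nat_lit 0) (nat_lit 4285952323399) (nat_lit 76) (nat_lit 7563961790408) (nat_lit 76) (nat_lit 7563821373482) (nat_lit 1) (nat_lit 4) (nat_lit 2) (nat_lit 5) (nat_lit 2) (nat_lit 4) (nat_lit 331) (nat_lit 233) (nat_lit 216)) (XT.lf (nat_lit 0) (nat_lit 4929526028890) (nat_lit 76) (nat_lit 8698181282990) (nat_lit 76) (nat_lit 8698038989745) (nat_lit 1) (nat_lit 4) (nat_lit 2) (nat_lit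 5) (nat_lit 2) (nat_lit 4) (nat_lit 332) (nat_lit 233) (nat_lit 215))))))))
noncomputable def xc8 : XT := (XT.nd (nat_lit 39390) (nat_lit 0) (nat_lit 0) (XT.nd (nat_lit 780) (nat_lit 0) (nat_lit 0) (XT.nd (nat_lit 390) (nat_lit 0) (nat_lit 0) (XT.nd (nat_lit 156) (nat_lit 0) (nat_lit 0) (XT.nd (nat_lit 78) (nat_lit 0) (nat_lit 0) (XT.lf (nat_lit 0) (nat_lit 5669622645282) (nat_lit 76) (nat_lit 10002540486749) (nat_lit 76) (nat_lit 10002396561921) (nat_lit 1) (nat_lit 4) (nat_lit 2) (nat_lit 5) (nat_lit 2) (nat_lit 4) (nat_lit 333) (nat_lit 233) (nat_lit 214)) (XT.lf (nat_lit 0) (nat_lit 6520722323764) (nat_lit 76) (nat_lit 11502559473060) (nat_lit 76) (nat_lit 11502414129466) (nat_lit 1) (nat_lit 4) (nat_lit 2) (nat_lit 5) (nat_lit 2) (nat_lit 4) (nat_lit 334) (nat_lit 233) (nat_lit 213))) (XT.nd (nat_lit 78) (nat_lit 0) (nat_lit 0) (XT.lf (nat_lit 0) (nat_lit 7499477014567) (nat_lit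 76) (nat_lit 13227586439483) (nat_lit 76) (nat_lit 13227439862178) (nat_lit 1) (nat_lit 4) (nat_lit 2) (nat_lit 5) (nat_lit 2) (nat_lit 4) (nat_lit 335) (nat_lit 233) (nat_lit 212)) (XT.nd (nat_lit 78) (nat_lit 0) (nat_lit 0) (XT.lf (nat_lit 0) (nat_lit 8625036265990) (nat_lit 76) (nat_lit 15211371913622) (nat_lit 76) (nat_lit 15211224263525) (nat_lit 1) (nat_lit 4) (nat_lit 2) (nat_lit 5) (nat_lit 2) (nat_lit 4) (nat_lit 336) (nat_lit 233) (nat_lit 211)) (XT.lf (nat_lit 0) (nat_lit 9919421889474) (nat_lit 76) (nat_lit 17492729089535) (nat_lit 76) (nat_lit 17492580506576) (nat_lit 1) (nat_lit 4) (nat_lit 2) (nat_lit 5) (nat_lit 2) (nat_lit 4) (nat_lit 337) (nat_lit 233) (nat_lit 210))))) (XT.nd (nat_lit 156) (nat_lit 0) (nat_lit 0) (XT.nd (nat_lit 78) (nat_lit 0) (nat_lit 0) (XT.lf (nat_lit 0) (nat_lit 11407958821130) (nat_lit 76) (nat_lit 20116293216318) (nat_lit 76) (nat_lit 20116143822174)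 (nat_lit 1) (nat_lit 4) (nat_lit 2) (nat_lit 5) (nat_lit 2) (nat_lit 4) (nat_lit 338) (nat_lit 233) (nat_lit 209)) (XT.lf (nat_lit 0) (nat_lit 13119770609621) (nat_lit 76) (nat_lit 23133394896450) (nat_lit 76) (nat_lit 23133244796927) (nat_lit 1) (nat_lit 4) (nat_lit 2) (nat_lit 5) (nat_lit 2) (nat_lit 4) (nat_lit 339) (nat_lit 233) (nat_lit 208))) (XT.nd (nat_lit 78) (nat_lit 0) (nat_lit 0) (XT.lf (nat_lit 0) (nat_lit 15088349224722) (nat_lit 76) (nat_lit 26603064380194) (nat_lit 76) (nat_lit 26602913667299) (nat_lit 1) (nat_lit 4) (nat_lit 2) (nat_lit 5) (nat_lit 2) (nat_lit 4) (nat_lit 340) (nat_lit 233) (nat_lit 207)) (XT.nd (nat_lit 78) (nat_lit 0) (nat_lit 0) (XT.lf (nat_lit 0) (nat_lit 17352210334989) (nat_lit 76) (nat_lit 30593186505276) (nat_lit 76) (nat_lit 30593035259015) (nat_lit 1) (nat_lit 4) (nat_lit 2) (nat_lit 5) (nat_lit 2) (nat_lit 4) (nat_lit 341) (nat_lit 233) (nat_lit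 206)) (XT.lf (nat_lit 0) (nat_lit 19955646875189) (nat_lit 76) (nat_lit 35181828878492) (nat_lit 76) (nat_lit 35181677168433) (nat_lit 1) (nat_lit 4) (nat_lit 2) (nat_lit 5) (nat_lit 2) (nat_lit 4) (nat_lit 342) (nat_lit 233) (nat_lit 205)))))) (XT.nd (nat_lit 38220) (nat_lit 0) (nat_lit 0) (XT.nd (nat_lit 1560) (nat_lit 0) (nat_lit 0) (XT.nd (nat_lit 78) (nat_lit 0) (nat_lit 0) (XT.lf (nat_lit 0) (nat_lit 22949595647195) (nat_lit 76) (nat_lit 40458769285404) (nat_lit 76) (nat_lit 40458617172043) (nat_lit 1) (nat_lit 4) (nat_lit 2) (nat_lit 5) (nat_lit 2) (nat_lit 4) (nat_lit 343) (nat_lit 233) (nat_lit 204)) (XT.lf (nat_lit 0) (nat_lit 26392633909589) (nat_lit 76) (nat_lit 46527252212235) (nat_lit 76) (nat_lit 46527099748176) (nat_lit 1) (nat_lit 4) (nat_lit 2) (nat_lit 5) (nat_lit 2) (nat_lit 4) (nat_lit 344) (nat_lit 233) (nat_lit 203))) (XT.nd (nat_lit 78) (nat_lit 0) (nat_lit 0)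 (XT.lf (nat_lit 0) (nat_lit 375665935901855) (nat_lit 76) (nat_lit 662136332233984) (nat_lit 76) (nat_lit 662136177596219) (nat_lit 1) (nat_lit 4) (nat_lit 2) (nat_lit 5) (nat_lit 2) (nat_lit 4) (nat_lit 363) (nat_lit 233) (nat_lit 184)) (XT.nd (nat_lit 78) (nat_lit 0) (nat_lit 0) (XT.lf (nat_lit 0) (nat_lit 432016407517257) (nat_lit 76) (nat_lit 761456458734724) (nat_lit 76) (nat_lit 761456304075534) (nat_lit 1) (nat_lit 4) (nat_lit 2) (nat_lit 5) (nat_lit 2) (nat_lit 4) (nat_lit 364) (nat_lit 233) (nat_lit 183)) (XT.lf (nat_lit 0) (nat_lit 496819449724851) (nat_lit 76) (nat_lit 875674604288085) (nat_lit 76) (nat_lit 875674449610265) (nat_lit 1) (nat_lit 4) (nat_lit 2) (nat_lit 5) (nat_lit 2) (nat_lit 4) (nat_lit 365) (nat_lit 233) (nat_lit 182))))) (XT.nd (nat_lit 156) (nat_lit 0) (nat_lit 0) (XT.nd (nat_lit 78) (nat_lit 0) (nat_lit 0) (XT.lf (nat_lit 0) (nat_lit 146278123514) (nat_lit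 76) (nat_lit 268045319935) (nat_lit 76) (nat_lit 268045319935) (nat_lit 1) (nat_lit 4) (nat_lit 2) (nat_lit 5) (nat_lit 2) (nat_lit 4) (nat_lit 312) (nat_lit 234) (nat_lit 234)) (XT.lf (nat_lit 0) (nat_lit 338353945552) (nat_lit 76) (nat_lit 615489117170) (nat_lit 76) (nat_lit 615465896864) (nat_lit 1) (nat_lit 4) (nat_lit 2) (nat_lit 5) (nat_lit 2) (nat_lit 4) (nat_lit 313) (nat_lit 234) (nat_lit 233))) (XT.nd (nat_lit 78) (nat_lit 0) (nat_lit 0) (XT.lf (nat_lit 0) (nat_lit 390858624460) (nat_lit 76) (nat_lit 706881361833) (nat_lit 76) (nat_lit 706837949956) (nat_lit 1) (nat_lit 4) (nat_lit 2) (nat_lit 5) (nat_lit 2) (nat_lit 4) (nat_lit 314) (nat_lit 234) (nat_lit 232)) (XT.nd (nat_lit 78) (nat_lit 0) (nat_lit 0) (XT.lf (nat_lit 0) (nat_lit 451097549211) (nat_lit 76) (nat_lit 812055482995) (nat_lit 76) (nat_lit 811994513230) (nat_lit 1) (nat_lit 4) (nat_lit 2) (nat_lit 5) (nat_lit 2)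 (nat_lit 4) (nat_lit 315) (nat_lit 234) (nat_lit 231)) (XT.lf (nat_lit 0) (nat_lit 520249307461) (nat_lit 76) (nat_lit 933069235200) (nat_lit 76) (nat_lit 932992997707) (nat_lit 1) (nat_lit 4) (nat_lit 2) (nat_lit 5) (nat_lit 2) (nat_lit 4) (nat_lit 316) (nat_lit 234) (nat_lit 230))))))) (XT.nd (nat_lit 780) (nat_lit 0) (nat_lit 0) (XT.nd (nat_lit 390) (nat_lit 0) (nat_lit 0) (XT.nd (nat_lit 156) (nat_lit 0) (nat_lit 0) (XT.nd (nat_lit 78) (nat_lit 0) (nat_lit 0) (XT.lf (nat_lit 0) (nat_lit 599666868395) (nat_lit 76) (nat_lit 1072290278817) (nat_lit 76) (nat_lit 1072200765039) (nat_lit 1) (nat_lit 4) (nat_lit 2) (nat_lit 5) (nat_lit 2) (nat_lit 4) (nat_lit 317) (nat_lit 234) (nat_lit 229)) (XT.lf (nat_lit 0) (nat_lit 690904053856) (nat_lit 76) (nat_lit 1232442503831) (nat_lit 76) (nat_lit 1232341445456) (nat_lit 1) (nat_lit 4) (nat_lit 2) (nat_lit 5) (nat_lit 2) (nat_lit 4) (nat_lit 318)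 (nat_lit 234) (nat_lit 228))) (XT.nd (nat_lit 78) (nat_lit 0) (nat_lit 0) (XT.lf (nat_lit 0) (nat_lit 795745939212) (nat_lit 76) (nat_lit 1416659323338) (nat_lit 76) (nat_lit 1416548226184) (nat_lit 1) (nat_lit 4) (nat_lit 2) (nat_lit 5) (nat_lit 2) (nat_lit 4) (nat_lit 319) (nat_lit 234) (nat_lit 227)) (XT.nd (nat_lit 78) (nat_lit 0) (nat_lit 0) (XT.lf (nat_lit 0) (nat_lit 916243778742) (nat_lit 76) (nat_lit 1628544979461) (nat_lit 76) (nat_lit 1628425152934) (nat_lit 1) (nat_lit 4) (nat_lit 2) (nat_lit 5) (nat_lit 2) (nat_lit 4) (nat_lit 320) (nat_lit 234) (nat_lit 226)) (XT.lf (nat_lit 0) (nat_lit 1054755138871) (nat_lit 76) (nat_lit 1872245061123) (nat_lit 76) (nat_lit 1872117643837) (nat_lit 1) (nat_lit 4) (nat_lit 2) (nat_lit 5) (nat_lit 2) (nat_lit 4) (nat_lit 321) (nat_lit 234) (nat_lit 225))))) (XT.nd (nat_lit 156) (nat_lit 0) (nat_lit 0) (XT.nd (nat_lit 78) (nat_lit 0) (nat_lit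 0) (XT.lf (nat_lit 0) (nat_lit 1213990024472) (nat_lit 76) (nat_lit 2152527613400) (nat_lit 76) (nat_lit 2152393595454) (nat_lit 1) (nat_lit 4) (nat_lit 2) (nat_lit 5) (nat_lit 2) (nat_lit 4) (nat_lit 322) (nat_lit 234) (nat_lit 224)) (XT.lf (nat_lit 0) (nat_lit 1397063900698) (nat_lit 76) (nat_lit 2474876425359) (nat_lit 76) (nat_lit 2474736667708) (nat_lit 1) (nat_lit 4) (nat_lit 2) (nat_lit 5) (nat_lit 2) (nat_lit 4) (nat_lit 323) (nat_lit 234) (nat_lit 223))) (XT.nd (nat_lit 78) (nat_lit 0) (nat_lit 0) (XT.lf (nat_lit 0) (nat_lit 1607558647736) (nat_lit 76) (nat_lit 2845598321581) (nat_lit 76) (nat_lit 2845453572882) (nat_lit 1) (nat_lit 4) (nat_lit 2) (nat_lit 5) (nat_lit 2) (nat_lit 4) (nat_lit 324) (nat_lit 234) (nat_lit 222)) (XT.nd (nat_lit 78) (nat_lit 0) (nat_lit 0) (XT.lf (nat_lit 0) (nat_lit 1849592641070) (nat_lit 76) (nat_lit 3271946556558) (nat_lit 76) (nat_lit 3271797467818)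 (nat_lit 1) (nat_lit 4) (nat_lit 2) (nat_lit 5) (nat_lit 2) (nat_lit 4) (nat_lit 325) (nat_lit 234) (nat_lit 221)) (XT.lf (nat_lit 0) (nat_lit 2127901328398) (nat_lit 76) (nat_lit 3762262726191) (nat_lit 76) (nat_lit 3762109863502) (nat_lit 1) (nat_lit 4) (nat_lit 2) (nat_lit 5) (nat_lit 2) (nat_lit 4) (nat_lit 326) (nat_lit 234) (nat_lit 220)))))) (XT.nd (nat_lit 390) (nat_lit 0) (nat_lit 0) (XT.nd (nat_lit 156) (nat_lit 0) (nat_lit 0) (XT.nd (nat_lit 78) (nat_lit 0) (nat_lit 0) (XT.lf (nat_lit 0) (nat_lit 2447929879688) (nat_lit 76) (nat_lit 4326139972930) (nat_lit 76) (nat_lit 4325983828546) (nat_lit 1) (nat_lit 4) (nat_lit 2) (nat_lit 5) (nat_lit 2) (nat_lit 4) (nat_lit 327) (nat_lit 234) (nat_lit 219)) (XT.lf (nat_lit 0) (nat_lit 2815939723117) (nat_lit 76) (nat_lit 4974610677688) (nat_lit 76) (nat_lit 4974451679657) (nat_lit 1) (nat_lit 4) (nat_lit 2) (nat_lit 5) (nat_lit 2) (nat_lit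 4) (nat_lit 328) (nat_lit 234) (nat_lit 218))) (XT.nd (nat_lit 78) (nat_lit 0) (nat_lit 0) (XT.lf (nat_lit 0) (nat_lit 3239131051276) (nat_lit 76) (nat_lit 5720362310778) (nat_lit 76) (nat_lit 5720200831314) (nat_lit 1) (nat_lit 4) (nat_lit 2) (nat_lit 5) (nat_lit 2) (nat_lit 4) (nat_lit 329) (nat_lit 234) (nat_lit 217)) (XT.nd (nat_lit 78) (nat_lit 0) (nat_lit 0) (XT.lf (nat_lit 0) (nat_lit 3725783694496) (nat_lit 76) (nat_lit 6577985665019) (nat_lit 76) (nat_lit 6577822027788) (nat_lit 1) (nat_lit 4) (nat_lit 2) (nat_lit 5) (nat_lit 2) (nat_lit 4) (nat_lit 330) (nat_lit 234) (nat_lit 216)) (XT.lf (nat_lit 0) (nat_lit 4285419117537) (nat_lit 76) (nat_lit 7564260327778) (nat_lit 76) (nat_lit 7564094814227) (nat_lit 1) (nat_lit 4) (nat_lit 2) (nat_lit 5) (nat_lit 2) (nat_lit 4) (nat_lit 331) (nat_lit 234) (nat_lit 215))))) (XT.nd (nat_lit 156) (nat_lit 0) (nat_lit 0) (XT.nd (nat_lit 78)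 (nat_lit 0) (nat_lit 0) (XT.lf (nat_lit 0) (nat_lit 4928986709111) (nat_lit 76) (nat_lit 8698482977239) (nat_lit 76) (nat_lit 8698315832105) (nat_lit 1) (nat_lit 4) (nat_lit 2) (nat_lit 5) (nat_lit 2) (nat_lit 4) (nat_lit 332) (nat_lit 234) (nat_lit 214)) (XT.lf (nat_lit 0) (nat_lit 5669078009052) (nat_lit 76) (nat_lit 10002844926109) (nat_lit 76) (nat_lit 10002676362208) (nat_lit 1) (nat_lit 4) (nat_lit 2) (nat_lit 5) (nat_lit 2) (nat_lit 4) (nat_lit 333) (nat_lit 234) (nat_lit 213))) (XT.nd (nat_lit 78) (nat_lit 0) (nat_lit 0) (XT.lf (nat_lit 0) (nat_lit 6520173064533) (nat_lit 76) (nat_lit 11502866299473) (nat_lit 76) (nat_lit 11502696501862) (nat_lit 1) (nat_lit 4) (nat_lit 2) (nat_lit 5) (nat_lit 2) (nat_lit 4) (nat_lit 334) (nat_lit 234) (nat_lit 212)) (XT.nd (nat_lit 78) (nat_lit 0) (nat_lit 0) (XT.lf (nat_lit 0) (nat_lit 7498923735336) (nat_lit 76) (nat_lit 13227895341595) (nat_lit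 76) (nat_lit 13227724471192) (nat_lit 1) (nat_lit 4) (nat_lit 2) (nat_lit 5) (nat_lit 2) (nat_lit 4) (nat_lit 335) (nat_lit 234) (nat_lit 211)) (XT.lf (nat_lit 0) (nat_lit 8624479491107) (nat_lit 76) (nat_lit 15211682620689) (nat_lit 76) (nat_lit 15211510817424) (nat_lit 1) (nat_lit 4) (nat_lit 2) (nat_lit 5) (nat_lit 2) (nat_lit 4) (nat_lit 336) (nat_lit 234) (nat_lit 210))))))))
noncomputable def xc9 : XT := (XT.nd (nat_lit 39234) (nat_lit 0) (nat_lit 0) (XT.nd (nat_lit 2106) (nat_lit 0) (nat_lit 0) (XT.nd (nat_lit 390) (nat_lit 0) (nat_lit 0) (XT.nd (nat_lit 156) (nat_lit 0) (nat_lit 0) (XT.nd (nat_lit 78) (nat_lit 0) (nat_lit 0) (XT.lf (nat_lit 0) (nat_lit 9918862074893) (nat_lit 76) (nat_lit 17493041366129) (nat_lit 76) (nat_lit 17492868751679) (nat_lit 1) (nat_lit 4) (nat_lit 2) (nat_lit 5) (nat_lit 2) (nat_lit 4) (nat_lit 337) (nat_lit 234) (nat_lit 209)) (XT.lf (nat_lit 0) (nat_lit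 11407396363333) (nat_lit 76) (nat_lit 20116606857717) (nat_lit 76) (nat_lit 20116433537889) (nat_lit 1) (nat_lit 4) (nat_lit 2) (nat_lit 5) (nat_lit 2) (nat_lit 4) (nat_lit 338) (nat_lit 234) (nat_lit 208))) (XT.nd (nat_lit 78) (nat_lit 0) (nat_lit 0) (XT.lf (nat_lit 0) (nat_lit 13119205853376) (nat_lit 76) (nat_lit 23133709724636) (nat_lit 76) (nat_lit 23133535791436) (nat_lit 1) (nat_lit 4) (nat_lit 2) (nat_lit 5) (nat_lit 2) (nat_lit 4) (nat_lit 339) (nat_lit 234) (nat_lit 207)) (XT.nd (nat_lit 78) (nat_lit 0) (nat_lit 0) (XT.lf (nat_lit 0) (nat_lit 15087782469826) (nat_lit 76) (nat_lit 26603380240370) (nat_lit 76) (nat_lit 26603205773802) (nat_lit 1) (nat_lit 4) (nat_lit 2) (nat_lit 5) (nat_lit 2) (nat_lit 4) (nat_lit 340) (nat_lit 234) (nat_lit 206)) (XT.lf (nat_lit 0) (nat_lit 17351641842137) (nat_lit 76) (nat_lit 30593503262834) (nat_lit 76) (nat_lit 30593328332469) (nat_lit 1)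 (nat_lit 4) (nat_lit 2) (nat_lit 5) (nat_lit 2) (nat_lit 4) (nat_lit 341) (nat_lit 234) (nat_lit 205))))) (XT.nd (nat_lit 156) (nat_lit 0) (nat_lit 0) (XT.nd (nat_lit 78) (nat_lit 0) (nat_lit 0) (XT.lf (nat_lit 0) (nat_lit 19955076871069) (nat_lit 76) (nat_lit 35182146416382) (nat_lit 76) (nat_lit 35181971082715) (nat_lit 1) (nat_lit 4) (nat_lit 2) (nat_lit 5) (nat_lit 2) (nat_lit 4) (nat_lit 342) (nat_lit 234) (nat_lit 204)) (XT.lf (nat_lit 0) (nat_lit 22949024328930) (nat_lit 76) (nat_lit 40459087501844) (nat_lit 76) (nat_lit 40458911817479) (nat_lit 1) (nat_lit 4) (nat_lit 2) (nat_lit 5) (nat_lit 2) (nat_lit 4) (nat_lit 343) (nat_lit 234) (nat_lit 203))) (XT.nd (nat_lit 1404) (nat_lit 0) (nat_lit 0) (XT.lf (nat_lit 0) (nat_lit 26392061448589) (nat_lit 76) (nat_lit 46527571018717) (nat_lit 76) (nat_lit 46527395029398) (nat_lit 1) (nat_lit 4) (nat_lit 2) (nat_lit 5) (nat_lit 2) (nat_lit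 4) (nat_lit 344) (nat_lit 234) (nat_lit 202)) (XT.nd (nat_lit 78) (nat_lit 0) (nat_lit 0) (XT.lf (nat_lit 0) (nat_lit 326664946187750) (nat_lit 76) (nat_lit 575771327341791) (nat_lit 76) (nat_lit 575771149483723) (nat_lit 1) (nat_lit 4) (nat_lit 2) (nat_lit 5) (nat_lit 2) (nat_lit 4) (nat_lit 362) (nat_lit 234) (nat_lit 184)) (XT.lf (nat_lit 0) (nat_lit 375665356357920) (nat_lit 76) (nat_lit 662136654697689) (nat_lit 76) (nat_lit 662136476818192) (nat_lit 1) (nat_lit 4) (nat_lit 2) (nat_lit 5) (nat_lit 2) (nat_lit 4) (nat_lit 363) (nat_lit 234) (nat_lit 183)))))) (XT.nd (nat_lit 36738) (nat_lit 0) (nat_lit 0) (XT.nd (nat_lit 36504) (nat_lit 0) (nat_lit 0) (XT.nd (nat_lit 36426) (nat_lit 0) (nat_lit 0) (XT.lf (nat_lit 0) (nat_lit 432015827903499) (nat_lit 76) (nat_lit 761456781234483) (nat_lit 76) (nat_lit 761456603336352) (nat_lit 1) (nat_lit 4) (nat_lit 2) (nat_lit 5) (nat_lit 2) (nat_lit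 4) (nat_lit 364) (nat_lit 234) (nat_lit 182)) (XT.lf (nat_lit 0) (nat_lit 108855689683) (nat_lit 76) (nat_lit 203620248392) (nat_lit 76) (nat_lit 203620248392) (nat_lit 1) (nat_lit 4) (nat_lit 2) (nat_lit 5) (nat_lit 2) (nat_lit 4) (nat_lit 310) (nat_lit 235) (nat_lit 235))) (XT.nd (nat_lit 78) (nat_lit 0) (nat_lit 0) (XT.lf (nat_lit 0) (nat_lit 252569486962) (nat_lit 76) (nat_lit 467159184819) (nat_lit 76) (nat_lit 467132481467) (nat_lit 1) (nat_lit 4) (nat_lit 2) (nat_lit 5) (nat_lit 2) (nat_lit 4) (nat_lit 311) (nat_lit 235) (nat_lit 234)) (XT.nd (nat_lit 78) (nat_lit 0) (nat_lit 0) (XT.lf (nat_lit 0) (nat_lit 292469235143) (nat_lit 76) (nat_lit 536162271193) (nat_lit 76) (nat_lit 536112347534) (nat_lit 1) (nat_lit 4) (nat_lit 2) (nat_lit 5) (nat_lit 2) (nat_lit 4) (nat_lit 312) (nat_lit 235) (nat_lit 233)) (XT.lf (nat_lit 0) (nat_lit 338191271158) (nat_lit 76) (nat_lit 615599816292)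 (nat_lit 76) (nat_lit 615529701062) (nat_lit 1) (nat_lit 4) (nat_lit 2) (nat_lit 5) (nat_lit 2) (nat_lit 4) (nat_lit 313) (nat_lit 235) (nat_lit 232))))) (XT.nd (nat_lit 156) (nat_lit 0) (nat_lit 0) (XT.nd (nat_lit 78) (nat_lit 0) (nat_lit 0) (XT.lf (nat_lit 0) (nat_lit 390630156581) (nat_lit 76) (nat_lit 707026032954) (nat_lit 76) (nat_lit 706938359837) (nat_lit 1) (nat_lit 4) (nat_lit 2) (nat_lit 5) (nat_lit 2) (nat_lit 4) (nat_lit 314) (nat_lit 235) (nat_lit 231)) (XT.lf (nat_lit 0) (nat_lit 450811869605) (nat_lit 76) (nat_lit 812229694985) (nat_lit 76) (nat_lit 812126754140) (nat_lit 1) (nat_lit 4) (nat_lit 2) (nat_lit 5) (nat_lit 2) (nat_lit 4) (nat_lit 315) (nat_lit 235) (nat_lit 230))) (XT.nd (nat_lit 78) (nat_lit 0) (nat_lit 0) (XT.lf (nat_lit 0) (nat_lit 519913878527) (nat_lit 76) (nat_lit 933269134903) (nat_lit 76) (nat_lit 933152917772) (nat_lit 1) (nat_lit 4) (nat_lit 2) (nat_lit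 5) (nat_lit 2) (nat_lit 4) (nat_lit 316) (nat_lit 235) (nat_lit 229)) (XT.nd (nat_lit 78) (nat_lit 0) (nat_lit 0) (XT.lf (nat_lit 0) (nat_lit 599288179176) (nat_lit 76) (nat_lit 1072512515661) (nat_lit 76) (nat_lit 1072384753934) (nat_lit 1) (nat_lit 4) (nat_lit 2) (nat_lit 5) (nat_lit 2) (nat_lit 4) (nat_lit 317) (nat_lit 235) (nat_lit 228)) (XT.lf (nat_lit 0) (nat_lit 690487746998) (nat_lit 76) (nat_lit 1232684164276) (nat_lit 76) (nat_lit 1232546363769) (nat_lit 1) (nat_lit 4) (nat_lit 2) (nat_lit 5) (nat_lit 2) (nat_lit 4) (nat_lit 318) (nat_lit 235) (nat_lit 227))))))) (XT.nd (nat_lit 780) (nat_lit 0) (nat_lit 0) (XT.nd (nat_lit 390) (nat_lit 0) (nat_lit 0) (XT.nd (nat_lit 156) (nat_lit 0) (nat_lit 0) (XT.nd (nat_lit 78) (nat_lit 0) (nat_lit 0) (XT.lf (nat_lit 0) (nat_lit 795296921363) (nat_lit 76) (nat_lit 1416917873871) (nat_lit 76) (nat_lit 1416771343992) (nat_lit 1) (nat_lit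 4) (nat_lit 2) (nat_lit 5) (nat_lit 2) (nat_lit 4) (nat_lit 319) (nat_lit 235) (nat_lit 226)) (XT.lf (nat_lit 0) (nat_lit 915766316554) (nat_lit 76) (nat_lit 1628818217027) (nat_lit 76) (nat_lit 1628664096388) (nat_lit 1) (nat_lit 4) (nat_lit 2) (nat_lit 5) (nat_lit 2) (nat_lit 4) (nat_lit 320) (nat_lit 235) (nat_lit 225))) (XT.nd (nat_lit 78) (nat_lit 0) (nat_lit 0) (XT.lf (nat_lit 0) (nat_lit 1054252942475) (nat_lit 76) (nat_lit 1872531070022) (nat_lit 76) (nat_lit 1872370348723) (nat_lit 1) (nat_lit 4) (nat_lit 2) (nat_lit 5) (nat_lit 2) (nat_lit 4) (nat_lit 321) (nat_lit 235) (nat_lit 224)) (XT.nd (nat_lit 78) (nat_lit 0) (nat_lit 0) (XT.lf (nat_lit 0) (nat_lit 1213466320069) (nat_lit 76) (nat_lit 2152824727806) (nat_lit 76) (nat_lit 2152658266802) (nat_lit 1) (nat_lit 4) (nat_lit 2) (nat_lit 5) (nat_lit 2) (nat_lit 4) (nat_lit 322) (nat_lit 235) (nat_lit 223)) (XT.lf (nat_lit 0)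 (nat_lit 1396521493680) (nat_lit 76) (nat_lit 2475183196727) (nat_lit 76) (nat_lit 2475011744676) (nat_lit 1) (nat_lit 4) (nat_lit 2) (nat_lit 5) (nat_lit 2) (nat_lit 4) (nat_lit 323) (nat_lit 235) (nat_lit 222))))) (XT.nd (nat_lit 156) (nat_lit 0) (nat_lit 0) (XT.nd (nat_lit 78) (nat_lit 0) (nat_lit 0) (XT.lf (nat_lit 0) (nat_lit 1606999977574) (nat_lit 76) (nat_lit 2845913490308) (nat_lit 76) (nat_lit 2845737698216) (nat_lit 1) (nat_lit 4) (nat_lit 2) (nat_lit 5) (nat_lit 2) (nat_lit 4) (nat_lit 324) (nat_lit 235) (nat_lit 221)) (XT.lf (nat_lit 0) (nat_lit 1849019829045) (nat_lit 76) (nat_lit 3272269027336) (nat_lit 76) (nat_lit 3272089461295) (nat_lit 1) (nat_lit 4) (nat_lit 2) (nat_lit 5) (nat_lit 2) (nat_lit 4) (nat_lit 325) (nat_lit 235) (nat_lit 220))) (XT.nd (nat_lit 78) (nat_lit 0) (nat_lit 0) (XT.lf (nat_lit 0) (nat_lit 2127316219099) (nat_lit 76) (nat_lit 3762591546579) (nat_lit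 76) (nat_lit 3762408698842) (nat_lit 1) (nat_lit 4) (nat_lit 2) (nat_lit 5) (nat_lit 2) (nat_lit 4) (nat_lit 326) (nat_lit 235) (nat_lit 219)) (XT.nd (nat_lit 78) (nat_lit 0) (nat_lit 0) (XT.lf (nat_lit 0) (nat_lit 2447334077108) (nat_lit 76) (nat_lit 4326474314717) (nat_lit 76) (nat_lit 4326288613333) (nat_lit 1) (nat_lit 4) (nat_lit 2) (nat_lit 5) (nat_lit 2) (nat_lit 4) (nat_lit 327) (nat_lit 235) (nat_lit 218)) (XT.lf (nat_lit 0) (nat_lit 2815334622033) (nat_lit 76) (nat_lit 4974949820693) (nat_lit 76) (nat_lit 4974761637876) (nat_lit 1) (nat_lit 4) (nat_lit 2) (nat_lit 5) (nat_lit 2) (nat_lit 4) (nat_lit 328) (nat_lit 235) (nat_lit 217)))))) (XT.nd (nat_lit 390) (nat_lit 0) (nat_lit 0) (XT.nd (nat_lit 156) (nat_lit 0) (nat_lit 0) (XT.nd (nat_lit 78) (nat_lit 0) (nat_lit 0) (XT.lf (nat_lit 0) (nat_lit 3238517864535) (nat_lit 76) (nat_lit 5720705628754) (nat_lit 76) (nat_lit 5720515288170)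 (nat_lit 1) (nat_lit 4) (nat_lit 2) (nat_lit 5) (nat_lit 2) (nat_lit 4) (nat_lit 329) (nat_lit 235) (nat_lit 216)) (XT.lf (nat_lit 0) (nat_lit 3725163476749) (nat_lit 76) (nat_lit 6578332613405) (nat_lit 76) (nat_lit 6578140396501) (nat_lit 1) (nat_lit 4) (nat_lit 2) (nat_lit 5) (nat_lit 2) (nat_lit 4) (nat_lit 330) (nat_lit 235) (nat_lit 215))) (XT.nd (nat_lit 78) (nat_lit 0) (nat_lit 0) (XT.lf (nat_lit 0) (nat_lit 4284792785872) (nat_lit 76) (nat_lit 7564610433042) (nat_lit 76) (nat_lit 7564416584556) (nat_lit 1) (nat_lit 4) (nat_lit 2) (nat_lit 5) (nat_lit 2) (nat_lit 4) (nat_lit 331) (nat_lit 235) (nat_lit 214)) (XT.nd (nat_lit 78) (nat_lit 0) (nat_lit 0) (XT.lf (nat_lit 0) (nat_lit 4928355060995) (nat_lit 76) (nat_lit 8698835827614) (nat_lit 76) (nat_lit 8698640560361) (nat_lit 1) (nat_lit 4) (nat_lit 2) (nat_lit 5) (nat_lit 2) (nat_lit 4) (nat_lit 332) (nat_lit 235) (nat_lit 213))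 (XT.lf (nat_lit 0) (nat_lit 5668441737936) (nat_lit 76) (nat_lit 10003200163537) (nat_lit 76) (nat_lit 10003003662574) (nat_lit 1) (nat_lit 4) (nat_lit 2) (nat_lit 5) (nat_lit 2) (nat_lit 4) (nat_lit 333) (nat_lit 235) (nat_lit 212))))) (XT.nd (nat_lit 234) (nat_lit 0) (nat_lit 0) (XT.nd (nat_lit 78) (nat_lit 0) (nat_lit 0) (XT.lf (nat_lit 0) (nat_lit 6519532773417) (nat_lit 76) (nat_lit 11503223612601) (nat_lit 76) (nat_lit 11503026038846) (nat_lit 1) (nat_lit 4) (nat_lit 2) (nat_lit 5) (nat_lit 2) (nat_lit 4) (nat_lit 334) (nat_lit 235) (nat_lit 211)) (XT.nd (nat_lit 78) (nat_lit 0) (nat_lit 0) (XT.lf (nat_lit 0) (nat_lit 7498279948568) (nat_lit 76) (nat_lit 13228254459678) (nat_lit 76) (nat_lit 13228055953060) (nat_lit 1) (nat_lit 4) (nat_lit 2) (nat_lit 5) (nat_lit 2) (nat_lit 4) (nat_lit 335) (nat_lit 235) (nat_lit 210)) (XT.lf (nat_lit 0) (nat_lit 8623832664641) (nat_lit 76) (nat_lit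 15212043308299) (nat_lit 76) (nat_lit 15211843990496) (nat_lit 1) (nat_lit 4) (nat_lit 2) (nat_lit 5) (nat_lit 2) (nat_lit 4) (nat_lit 336) (nat_lit 235) (nat_lit 209)))) (XT.nd (nat_lit 78) (nat_lit 0) (nat_lit 0) (XT.lf (nat_lit 0) (nat_lit 9918212605211) (nat_lit 76) (nat_lit 17493403418544) (nat_lit 76) (nat_lit 17493203395363) (nat_lit 1) (nat_lit 4) (nat_lit 2) (nat_lit 5) (nat_lit 2) (nat_lit 4) (nat_lit 337) (nat_lit 235) (nat_lit 208)) (XT.nd (nat_lit 78) (nat_lit 0) (nat_lit 0) (XT.lf (nat_lit 0) (nat_lit 11406744595203) (nat_lit 76) (nat_lit 20116970096920) (nat_lit 76) (nat_lit 20116769460367) (nat_lit 1) (nat_lit 4) (nat_lit 2) (nat_lit 5) (nat_lit 2) (nat_lit 4) (nat_lit 338) (nat_lit 235) (nat_lit 207)) (XT.lf (nat_lit 0) (nat_lit 13118552086596) (nat_lit 76) (nat_lit 23134073995828) (nat_lit 76) (nat_lit 23133872825908) (nat_lit 1) (nat_lit 4) (nat_lit 2) (nat_lit 5) (nat_lit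 2) (nat_lit 4) (nat_lit 339) (nat_lit 235) (nat_lit 206))))))))
noncomputable def xc10 : XT := (XT.nd (nat_lit 39078) (nat_lit 0) (nat_lit 0) (XT.nd (nat_lit 38298) (nat_lit 0) (nat_lit 0) (XT.nd (nat_lit 1716) (nat_lit 0) (nat_lit 0) (XT.nd (nat_lit 156) (nat_lit 0) (nat_lit 0) (XT.nd (nat_lit 78) (nat_lit 0) (nat_lit 0) (XT.lf (nat_lit 0) (nat_lit 15087126965089) (nat_lit 76) (nat_lit 26603745408943) (nat_lit 76) (nat_lit 26603543775225) (nat_lit 1) (nat_lit 4) (nat_lit 2) (nat_lit 5) (nat_lit 2) (nat_lit 4) (nat_lit 340) (nat_lit 235) (nat_lit 205)) (XT.lf (nat_lit 0) (nat_lit 17350984826132) (nat_lit 76) (nat_lit 30593869211739) (nat_lit 76) (nat_lit 30593667174719) (nat_lit 1) (nat_lit 4) (nat_lit 2) (nat_lit 5) (nat_lit 2) (nat_lit 4) (nat_lit 341) (nat_lit 235) (nat_lit 204))) (XT.nd (nat_lit 78) (nat_lit 0) (nat_lit 0) (XT.lf (nat_lit 0) (nat_lit 19954418540920) (nat_lit 76) (nat_lit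 35182513043837) (nat_lit 76) (nat_lit 35182310656119) (nat_lit 1) (nat_lit 4) (nat_lit 2) (nat_lit 5) (nat_lit 2) (nat_lit 4) (nat_lit 342) (nat_lit 235) (nat_lit 203)) (XT.nd (nat_lit 78) (nat_lit 0) (nat_lit 0) (XT.lf (nat_lit 0) (nat_lit 22948364856045) (nat_lit 76) (nat_lit 40459454719341) (nat_lit 76) (nat_lit 40459252026670) (nat_lit 1) (nat_lit 4) (nat_lit 2) (nat_lit 5) (nat_lit 2) (nat_lit 4) (nat_lit 343) (nat_lit 235) (nat_lit 202)) (XT.lf (nat_lit 0) (nat_lit 26391400982022) (nat_lit 76) (nat_lit 46527938749296) (nat_lit 76) (nat_lit 46527735791446) (nat_lit 1) (nat_lit 4) (nat_lit 2) (nat_lit 5) (nat_lit 2) (nat_lit 4) (nat_lit 344) (nat_lit 235) (nat_lit 201))))) (XT.nd (nat_lit 156) (nat_lit 0) (nat_lit 0) (XT.nd (nat_lit 78) (nat_lit 0) (nat_lit 0) (XT.lf (nat_lit 0) (nat_lit 326664279631929) (nat_lit 76) (nat_lit 575771698216513) (nat_lit 76) (nat_lit 575771493633665)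 (nat_lit 1) (nat_lit 4) (nat_lit 2) (nat_lit 5) (nat_lit 2) (nat_lit 4) (nat_lit 362) (nat_lit 235) (nat_lit 183)) (XT.lf (nat_lit 0) (nat_lit 375664689732277) (nat_lit 76) (nat_lit 662137025608462) (nat_lit 76) (nat_lit 662136821006981) (nat_lit 1) (nat_lit 4) (nat_lit 2) (nat_lit 5) (nat_lit 2) (nat_lit 4) (nat_lit 363) (nat_lit 235) (nat_lit 182))) (XT.nd (nat_lit 36270) (nat_lit 0) (nat_lit 0) (XT.lf (nat_lit 0) (nat_lit 432015161217142) (nat_lit 76) (nat_lit 761457152176605) (nat_lit 76) (nat_lit 761456947558920) (nat_lit 1) (nat_lit 4) (nat_lit 2) (nat_lit 5) (nat_lit 2) (nat_lit 4) (nat_lit 364) (nat_lit 235) (nat_lit 181)) (XT.nd (nat_lit 78) (nat_lit 0) (nat_lit 0) (XT.lf (nat_lit 0) (nat_lit 80296215266) (nat_lit 76) (nat_lit 155046560106) (nat_lit 76) (nat_lit 155046560106) (nat_lit 1) (nat_lit 4) (nat_lit 2) (nat_lit 5) (nat_lit 2) (nat_lit 4) (nat_lit 308) (nat_lit 236) (nat_lit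 236)) (XT.lf (nat_lit 0) (nat_lit 187212905906) (nat_lit 76) (nat_lit 355264593789) (nat_lit 76) (nat_lit 355233884934) (nat_lit 1) (nat_lit 4) (nat_lit 2) (nat_lit 5) (nat_lit 2) (nat_lit 4) (nat_lit 309) (nat_lit 236) (nat_lit 235)))))) (XT.nd (nat_lit 390) (nat_lit 0) (nat_lit 0) (XT.nd (nat_lit 156) (nat_lit 0) (nat_lit 0) (XT.nd (nat_lit 78) (nat_lit 0) (nat_lit 0) (XT.lf (nat_lit 0) (nat_lit 217611315699) (nat_lit 76) (nat_lit 407322872805) (nat_lit 76) (nat_lit 407265460598) (nat_lit 1) (nat_lit 4) (nat_lit 2) (nat_lit 5) (nat_lit 2) (nat_lit 4) (nat_lit 310) (nat_lit 236) (nat_lit 234)) (XT.lf (nat_lit 0) (nat_lit 252382411409) (nat_lit 76) (nat_lit 467286488809) (nat_lit 76) (nat_lit 467205856295) (nat_lit 1) (nat_lit 4) (nat_lit 2) (nat_lit 5) (nat_lit 2) (nat_lit 4) (nat_lit 311) (nat_lit 236) (nat_lit 233))) (XT.nd (nat_lit 78) (nat_lit 0) (nat_lit 0) (XT.lf (nat_lit 0) (nat_lit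 292206497082) (nat_lit 76) (nat_lit 536328642982) (nat_lit 76) (nat_lit 536227818897) (nat_lit 1) (nat_lit 4) (nat_lit 2) (nat_lit 5) (nat_lit 2) (nat_lit 4) (nat_lit 312) (nat_lit 236) (nat_lit 232)) (XT.nd (nat_lit 78) (nat_lit 0) (nat_lit 0) (XT.lf (nat_lit 0) (nat_lit 337862739611) (nat_lit 76) (nat_lit 615800160080) (nat_lit 76) (nat_lit 615681778108) (nat_lit 1) (nat_lit 4) (nat_lit 2) (nat_lit 5) (nat_lit 2) (nat_lit 4) (nat_lit 313) (nat_lit 236) (nat_lit 231)) (XT.lf (nat_lit 0) (nat_lit 390244413307) (nat_lit 76) (nat_lit 707255917612) (nat_lit 76) (nat_lit 707122267912) (nat_lit 1) (nat_lit 4) (nat_lit 2) (nat_lit 5) (nat_lit 2) (nat_lit 4) (nat_lit 314) (nat_lit 236) (nat_lit 230))))) (XT.nd (nat_lit 156) (nat_lit 0) (nat_lit 0) (XT.nd (nat_lit 78) (nat_lit 0) (nat_lit 0) (XT.lf (nat_lit 0) (nat_lit 450376377003) (nat_lit 76) (nat_lit 812485267356) (nat_lit 76) (nat_lit 812338341370)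 (nat_lit 1) (nat_lit 4) (nat_lit 2) (nat_lit 5) (nat_lit 2) (nat_lit 4) (nat_lit 315) (nat_lit 236) (nat_lit 229)) (XT.lf (nat_lit 0) (nat_lit 519435125641) (nat_lit 76) (nat_lit 933547044414) (nat_lit 76) (nat_lit 933388573832) (nat_lit 1) (nat_lit 4) (nat_lit 2) (nat_lit 5) (nat_lit 2) (nat_lit 4) (nat_lit 316) (nat_lit 236) (nat_lit 228))) (XT.nd (nat_lit 78) (nat_lit 0) (nat_lit 0) (XT.lf (nat_lit 0) (nat_lit 598771808650) (nat_lit 76) (nat_lit 1072809848774) (nat_lit 76) (nat_lit 1072641339412) (nat_lit 1) (nat_lit 4) (nat_lit 2) (nat_lit 5) (nat_lit 2) (nat_lit 4) (nat_lit 317) (nat_lit 236) (nat_lit 227)) (XT.nd (nat_lit 78) (nat_lit 0) (nat_lit 0) (XT.lf (nat_lit 0) (nat_lit 689938665482) (nat_lit 76) (nat_lit 1232998387476) (nat_lit 76) (nat_lit 1232821148742) (nat_lit 1) (nat_lit 4) (nat_lit 2) (nat_lit 5) (nat_lit 2) (nat_lit 4) (nat_lit 318) (nat_lit 236) (nat_lit 226)) (XT.lf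 (nat_lit 0) (nat_lit 794719395508) (nat_lit 76) (nat_lit 1417246784105) (nat_lit 76) (nat_lit 1417061954611) (nat_lit 1) (nat_lit 4) (nat_lit 2) (nat_lit 5) (nat_lit 2) (nat_lit 4) (nat_lit 319) (nat_lit 236) (nat_lit 225))))))) (XT.nd (nat_lit 780) (nat_lit 0) (nat_lit 0) (XT.nd (nat_lit 390) (nat_lit 0) (nat_lit 0) (XT.nd (nat_lit 156) (nat_lit 0) (nat_lit 0) (XT.nd (nat_lit 78) (nat_lit 0) (nat_lit 0) (XT.lf (nat_lit 0) (nat_lit 915164056490) (nat_lit 76) (nat_lit 1629159898593) (nat_lit 76) (nat_lit 1628968468439) (nat_lit 1) (nat_lit 4) (nat_lit 2) (nat_lit 5) (nat_lit 2) (nat_lit 4) (nat_lit 320) (nat_lit 236) (nat_lit 224)) (XT.lf (nat_lit 0) (nat_lit 1053629174404) (nat_lit 76) (nat_lit 1872883857095) (nat_lit 76) (nat_lit 1872686687237) (nat_lit 1) (nat_lit 4) (nat_lit 2) (nat_lit 5) (nat_lit 2) (nat_lit 4) (nat_lit 321) (nat_lit 236) (nat_lit 223))) (XT.nd (nat_lit 78) (nat_lit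 0) (nat_lit 0) (XT.lf (nat_lit 0) (nat_lit 1212823849383) (nat_lit 76) (nat_lit 2153187171842) (nat_lit 76) (nat_lit 2152985010936) (nat_lit 1) (nat_lit 4) (nat_lit 2) (nat_lit 5) (nat_lit 2) (nat_lit 4) (nat_lit 322) (nat_lit 236) (nat_lit 222)) (XT.nd (nat_lit 78) (nat_lit 0) (nat_lit 0) (XT.lf (nat_lit 0) (nat_lit 1395862759850) (nat_lit 76) (nat_lit 2475554038122) (nat_lit 76) (nat_lit 2475347537175) (nat_lit 1) (nat_lit 4) (nat_lit 2) (nat_lit 5) (nat_lit 2) (nat_lit 4) (nat_lit 323) (nat_lit 236) (nat_lit 221)) (XT.lf (nat_lit 0) (nat_lit 1606327101881) (nat_lit 76) (nat_lit 2846291633754) (nat_lit 76) (nat_lit 2846081358857) (nat_lit 1) (nat_lit 4) (nat_lit 2) (nat_lit 5) (nat_lit 2) (nat_lit 4) (nat_lit 324) (nat_lit 236) (nat_lit 220))))) (XT.nd (nat_lit 156) (nat_lit 0) (nat_lit 0) (XT.nd (nat_lit 78) (nat_lit 0) (nat_lit 0) (XT.lf (nat_lit 0) (nat_lit 1848334656078) (nat_lit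 76) (nat_lit 3272653520391) (nat_lit 76) (nat_lit 3272439963800) (nat_lit 1) (nat_lit 4) (nat_lit 2) (nat_lit 5) (nat_lit 2) (nat_lit 4) (nat_lit 325) (nat_lit 236) (nat_lit 219)) (XT.lf (nat_lit 0) (nat_lit 2126620352852) (nat_lit 76) (nat_lit 3762981561034) (nat_lit 76) (nat_lit 3762765150795) (nat_lit 1) (nat_lit 4) (nat_lit 2) (nat_lit 5) (nat_lit 2) (nat_lit 4) (nat_lit 326) (nat_lit 236) (nat_lit 218))) (XT.nd (nat_lit 78) (nat_lit 0) (nat_lit 0) (XT.lf (nat_lit 0) (nat_lit 2446628912356) (nat_lit 76) (nat_lit 4326869130389) (nat_lit 76) (nat_lit 4326650238718) (nat_lit 1) (nat_lit 4) (nat_lit 2) (nat_lit 5) (nat_lit 2) (nat_lit 4) (nat_lit 327) (nat_lit 236) (nat_lit 217)) (XT.nd (nat_lit 78) (nat_lit 0) (nat_lit 0) (XT.lf (nat_lit 0) (nat_lit 2814621371624) (nat_lit 76) (nat_lit 4975348811337) (nat_lit 76) (nat_lit 4975127761897) (nat_lit 1) (nat_lit 4) (nat_lit 2) (nat_lit 5)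 (nat_lit 2) (nat_lit 4) (nat_lit 328) (nat_lit 236) (nat_lit 216)) (XT.lf (nat_lit 0) (nat_lit 3237797583120) (nat_lit 76) (nat_lit 5721108249807) (nat_lit 76) (nat_lit 5720885324049) (nat_lit 1) (nat_lit 4) (nat_lit 2) (nat_lit 5) (nat_lit 2) (nat_lit 4) (nat_lit 329) (nat_lit 236) (nat_lit 215)))))) (XT.nd (nat_lit 390) (nat_lit 0) (nat_lit 0) (XT.nd (nat_lit 156) (nat_lit 0) (nat_lit 0) (XT.nd (nat_lit 78) (nat_lit 0) (nat_lit 0) (XT.lf (nat_lit 0) (nat_lit 3724437081417) (nat_lit 76) (nat_lit 6578738391337) (nat_lit 76) (nat_lit 6578513833996) (nat_lit 1) (nat_lit 4) (nat_lit 2) (nat_lit 5) (nat_lit 2) (nat_lit 4) (nat_lit 330) (nat_lit 236) (nat_lit 214)) (XT.lf (nat_lit 0) (nat_lit 4284061074089) (nat_lit 76) (nat_lit 7565018956085) (nat_lit 76) (nat_lit 7564792979977) (nat_lit 1) (nat_lit 4) (nat_lit 2) (nat_lit 5) (nat_lit 2) (nat_lit 4) (nat_lit 331) (nat_lit 236) (nat_lit 213)))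 (XT.nd (nat_lit 78) (nat_lit 0) (nat_lit 0) (XT.lf (nat_lit 0) (nat_lit 4927618726212) (nat_lit 76) (nat_lit 8699246737711) (nat_lit 76) (nat_lit 8699019527892) (nat_lit 1) (nat_lit 4) (nat_lit 2) (nat_lit 5) (nat_lit 2) (nat_lit 4) (nat_lit 332) (nat_lit 236) (nat_lit 212)) (XT.nd (nat_lit 78) (nat_lit 0) (nat_lit 0) (XT.lf (nat_lit 0) (nat_lit 5667701383153) (nat_lit 76) (nat_lit 10003613149333) (nat_lit 76) (nat_lit 10003384866722) (nat_lit 1) (nat_lit 4) (nat_lit 2) (nat_lit 5) (nat_lit 2) (nat_lit 4) (nat_lit 333) (nat_lit 236) (nat_lit 211)) (XT.lf (nat_lit 0) (nat_lit 6518788922981) (nat_lit 76) (nat_lit 11503638403352) (nat_lit 76) (nat_lit 11503409187879) (nat_lit 1) (nat_lit 4) (nat_lit 2) (nat_lit 5) (nat_lit 2) (nat_lit 4) (nat_lit 334) (nat_lit 236) (nat_lit 210))))) (XT.nd (nat_lit 156) (nat_lit 0) (nat_lit 0) (XT.nd (nat_lit 78) (nat_lit 0) (nat_lit 0) (XT.lf (nat_lit 0)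 (nat_lit 7497533058434) (nat_lit 76) (nat_lit 13228670819955) (nat_lit 76) (nat_lit 13228440793297) (nat_lit 1) (nat_lit 4) (nat_lit 2) (nat_lit 5) (nat_lit 2) (nat_lit 4) (nat_lit 335) (nat_lit 236) (nat_lit 209)) (XT.lf (nat_lit 0) (nat_lit 8623083131291) (nat_lit 76) (nat_lit 15212461033381) (nat_lit 76) (nat_lit 15212230301345) (nat_lit 1) (nat_lit 4) (nat_lit 2) (nat_lit 5) (nat_lit 2) (nat_lit 4) (nat_lit 336) (nat_lit 236) (nat_lit 208))) (XT.nd (nat_lit 78) (nat_lit 0) (nat_lit 0) (XT.lf (nat_lit 0) (nat_lit 9917460773413) (nat_lit 76) (nat_lit 17493822330414) (nat_lit 76) (nat_lit 17493590985006) (nat_lit 1) (nat_lit 4) (nat_lit 2) (nat_lit 5) (nat_lit 2) (nat_lit 4) (nat_lit 337) (nat_lit 236) (nat_lit 207)) (XT.nd (nat_lit 78) (nat_lit 0) (nat_lit 0) (XT.lf (nat_lit 0) (nat_lit 11405990764755) (nat_lit 76) (nat_lit 20117390040779) (nat_lit 76) (nat_lit 20117158162003) (nat_lit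 1) (nat_lit 4) (nat_lit 2) (nat_lit 5) (nat_lit 2) (nat_lit 4) (nat_lit 338) (nat_lit 236) (nat_lit 206)) (XT.lf (nat_lit 0) (nat_lit 13117796518190) (nat_lit 76) (nat_lit 23134494837069) (nat_lit 76) (nat_lit 23134262494496) (nat_lit 1) (nat_lit 4) (nat_lit 2) (nat_lit 5) (nat_lit 2) (nat_lit 4) (nat_lit 339) (nat_lit 236) (nat_lit 205))))))))
noncomputable def xc11 : XT := (XT.nd (nat_lit 39156) (nat_lit 0) (nat_lit 0) (XT.nd (nat_lit 38376) (nat_lit 0) (nat_lit 0) (XT.nd (nat_lit 37986) (nat_lit 0) (nat_lit 0) (XT.nd (nat_lit 156) (nat_lit 0) (nat_lit 0) (XT.nd (nat_lit 78) (nat_lit 0) (nat_lit 0) (XT.lf (nat_lit 0) (nat_lit 15086369885417) (nat_lit 76) (nat_lit 26604167030516) (nat_lit 76) (nat_lit 26603934284641) (nat_lit 1) (nat_lit 4) (nat_lit 2) (nat_lit 5) (nat_lit 2) (nat_lit 4) (nat_lit 340) (nat_lit 236) (nat_lit 204)) (XT.lf (nat_lit 0) (nat_lit 17350226432314) (nat_lit 76)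 (nat_lit 30594291511862) (nat_lit 76) (nat_lit 30594058415289) (nat_lit 1) (nat_lit 4) (nat_lit 2) (nat_lit 5) (nat_lit 2) (nat_lit 4) (nat_lit 341) (nat_lit 236) (nat_lit 203))) (XT.nd (nat_lit 78) (nat_lit 0) (nat_lit 0) (XT.lf (nat_lit 0) (nat_lit 19953659004367) (nat_lit 76) (nat_lit 35182935934002) (nat_lit 76) (nat_lit 35182702532475) (nat_lit 1) (nat_lit 4) (nat_lit 2) (nat_lit 5) (nat_lit 2) (nat_lit 4) (nat_lit 342) (nat_lit 236) (nat_lit 202)) (XT.nd (nat_lit 78) (nat_lit 0) (nat_lit 0) (XT.lf (nat_lit 0) (nat_lit 22947604325810) (nat_lit 76) (nat_lit 40459878122588) (nat_lit 76) (nat_lit 40459644455883) (nat_lit 1) (nat_lit 4) (nat_lit 2) (nat_lit 5) (nat_lit 2) (nat_lit 4) (nat_lit 343) (nat_lit 236) (nat_lit 201)) (XT.lf (nat_lit 0) (nat_lit 26390639587715) (nat_lit 76) (nat_lit 46528362598700) (nat_lit 76) (nat_lit 46528128701406) (nat_lit 1) (nat_lit 4) (nat_lit 2) (nat_lit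 5) (nat_lit 2) (nat_lit 4) (nat_lit 344) (nat_lit 236) (nat_lit 200))))) (XT.nd (nat_lit 156) (nat_lit 0) (nat_lit 0) (XT.nd (nat_lit 78) (nat_lit 0) (nat_lit 0) (XT.lf (nat_lit 0) (nat_lit 58399000774) (nat_lit 76) (nat_lit 118479933124) (nat_lit 76) (nat_lit 118479933124) (nat_lit 1) (nat_lit 4) (nat_lit 2) (nat_lit 5) (nat_lit 2) (nat_lit 4) (nat_lit 306) (nat_lit 237) (nat_lit 237)) (XT.lf (nat_lit 0) (nat_lit 137229054192) (nat_lit 76) (nat_lit 270959977562) (nat_lit 76) (nat_lit 270924662378) (nat_lit 1) (nat_lit 4) (nat_lit 2) (nat_lit 5) (nat_lit 2) (nat_lit 4) (nat_lit 307) (nat_lit 237) (nat_lit 236))) (XT.nd (nat_lit 78) (nat_lit 0) (nat_lit 0) (XT.lf (nat_lit 0) (nat_lit 160477357315) (nat_lit 76) (nat_lit 310187852636) (nat_lit 76) (nat_lit 310121828598) (nat_lit 1) (nat_lit 4) (nat_lit 2) (nat_lit 5) (nat_lit 2) (nat_lit 4) (nat_lit 308) (nat_lit 237) (nat_lit 235)) (XT.nd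 (nat_lit 78) (nat_lit 0) (nat_lit 0) (XT.lf (nat_lit 0) (nat_lit 186997769020) (nat_lit 76) (nat_lit 355410993377) (nat_lit 76) (nat_lit 355318265986) (nat_lit 1) (nat_lit 4) (nat_lit 2) (nat_lit 5) (nat_lit 2) (nat_lit 4) (nat_lit 309) (nat_lit 237) (nat_lit 234)) (XT.lf (nat_lit 0) (nat_lit 217309166929) (nat_lit 76) (nat_lit 407514200363) (nat_lit 76) (nat_lit 407398252666) (nat_lit 1) (nat_lit 4) (nat_lit 2) (nat_lit 5) (nat_lit 2) (nat_lit 4) (nat_lit 310) (nat_lit 237) (nat_lit 233)))))) (XT.nd (nat_lit 390) (nat_lit 0) (nat_lit 0) (XT.nd (nat_lit 156) (nat_lit 0) (nat_lit 0) (XT.nd (nat_lit 78) (nat_lit 0) (nat_lit 0) (XT.lf (nat_lit 0) (nat_lit 252004600130) (nat_lit 76) (nat_lit 467516884166) (nat_lit 76) (nat_lit 467380744898) (nat_lit 1) (nat_lit 4) (nat_lit 2) (nat_lit 5) (nat_lit 2) (nat_lit 4) (nat_lit 311) (nat_lit 237) (nat_lit 232)) (XT.lf (nat_lit 0) (nat_lit 291762892317)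 (nat_lit 76) (nat_lit 536593010339) (nat_lit 76) (nat_lit 536439313183) (nat_lit 1) (nat_lit 4) (nat_lit 2) (nat_lit 5) (nat_lit 2) (nat_lit 4) (nat_lit 312) (nat_lit 237) (nat_lit 231))) (XT.nd (nat_lit 78) (nat_lit 0) (nat_lit 0) (XT.lf (nat_lit 0) (nat_lit 337361923119) (nat_lit 76) (nat_lit 616094068306) (nat_lit 76) (nat_lit 615925103422) (nat_lit 1) (nat_lit 4) (nat_lit 2) (nat_lit 5) (nat_lit 2) (nat_lit 4) (nat_lit 313) (nat_lit 237) (nat_lit 230)) (XT.nd (nat_lit 78) (nat_lit 0) (nat_lit 0) (XT.lf (nat_lit 0) (nat_lit 389693847488) (nat_lit 76) (nat_lit 707575513551) (nat_lit 76) (nat_lit 707393272381) (nat_lit 1) (nat_lit 4) (nat_lit 2) (nat_lit 5) (nat_lit 2) (nat_lit 4) (nat_lit 314) (nat_lit 237) (nat_lit 229)) (XT.lf (nat_lit 0) (nat_lit 449782550899) (nat_lit 76) (nat_lit 812827200435) (nat_lit 76) (nat_lit 812633414670) (nat_lit 1) (nat_lit 4) (nat_lit 2) (nat_lit 5) (nat_lit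 2) (nat_lit 4) (nat_lit 315) (nat_lit 237) (nat_lit 228))))) (XT.nd (nat_lit 156) (nat_lit 0) (nat_lit 0) (XT.nd (nat_lit 78) (nat_lit 0) (nat_lit 0) (XT.lf (nat_lit 0) (nat_lit 518803681897) (nat_lit 76) (nat_lit 933908401095) (nat_lit 76) (nat_lit 933704576550) (nat_lit 1) (nat_lit 4) (nat_lit 2) (nat_lit 5) (nat_lit 2) (nat_lit 4) (nat_lit 316) (nat_lit 237) (nat_lit 227)) (XT.lf (nat_lit 0) (nat_lit 598107653916) (nat_lit 76) (nat_lit 1073188095542) (nat_lit 76) (nat_lit 1072975541624) (nat_lit 1) (nat_lit 4) (nat_lit 2) (nat_lit 5) (nat_lit 2) (nat_lit 4) (nat_lit 317) (nat_lit 237) (nat_lit 226))) (XT.nd (nat_lit 78) (nat_lit 0) (nat_lit 0) (XT.lf (nat_lit 0) (nat_lit 689246066408) (nat_lit 76) (nat_lit 1233391321278) (nat_lit 76) (nat_lit 1233171176600) (nat_lit 1) (nat_lit 4) (nat_lit 2) (nat_lit 5) (nat_lit 2) (nat_lit 4) (nat_lit 318) (nat_lit 237) (nat_lit 225)) (XT.nd (nat_lit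 78) (nat_lit 0) (nat_lit 0) (XT.lf (nat_lit 0) (nat_lit 794002062226) (nat_lit 76) (nat_lit 1417652489239) (nat_lit 76) (nat_lit 1417425743901) (nat_lit 1) (nat_lit 4) (nat_lit 2) (nat_lit 5) (nat_lit 2) (nat_lit 4) (nat_lit 319) (nat_lit 237) (nat_lit 224)) (XT.lf (nat_lit 0) (nat_lit 914425215201) (nat_lit 76) (nat_lit 1629576709235) (nat_lit 76) (nat_lit 1629344224193) (nat_lit 1) (nat_lit 4) (nat_lit 2) (nat_lit 5) (nat_lit 2) (nat_lit 4) (nat_lit 320) (nat_lit 237) (nat_lit 223))))))) (XT.nd (nat_lit 780) (nat_lit 0) (nat_lit 0) (XT.nd (nat_lit 390) (nat_lit 0) (nat_lit 0) (XT.nd (nat_lit 156) (nat_lit 0) (nat_lit 0) (XT.nd (nat_lit 78) (nat_lit 0) (nat_lit 0) (XT.lf (nat_lit 0) (nat_lit 1052871630500) (nat_lit 76) (nat_lit 1873310324699) (nat_lit 76) (nat_lit 1873072848610) (nat_lit 1) (nat_lit 4) (nat_lit 2) (nat_lit 5) (nat_lit 2) (nat_lit 4) (nat_lit 321) (nat_lit 237) (nat_lit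 222)) (XT.lf (nat_lit 0) (nat_lit 1212050042336) (nat_lit 76) (nat_lit 2153622036805) (nat_lit 76) (nat_lit 2153380220674) (nat_lit 1) (nat_lit 4) (nat_lit 2) (nat_lit 5) (nat_lit 2) (nat_lit 4) (nat_lit 322) (nat_lit 237) (nat_lit 221))) (XT.nd (nat_lit 78) (nat_lit 0) (nat_lit 0) (XT.lf (nat_lit 0) (nat_lit 1395074810939) (nat_lit 76) (nat_lit 2475996205136) (nat_lit 76) (nat_lit 2475750615056) (nat_lit 1) (nat_lit 4) (nat_lit 2) (nat_lit 5) (nat_lit 2) (nat_lit 4) (nat_lit 323) (nat_lit 237) (nat_lit 220)) (XT.nd (nat_lit 78) (nat_lit 0) (nat_lit 0) (XT.lf (nat_lit 0) (nat_lit 1605526855696) (nat_lit 76) (nat_lit 2846740150377) (nat_lit 76) (nat_lit 2846491278603) (nat_lit 1) (nat_lit 4) (nat_lit 2) (nat_lit 5) (nat_lit 2) (nat_lit 4) (nat_lit 324) (nat_lit 237) (nat_lit 219)) (XT.lf (nat_lit 0) (nat_lit 1847523716613) (nat_lit 76) (nat_lit 3273107558415) (nat_lit 76) (nat_lit 3272855832992)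 (nat_lit 1) (nat_lit 4) (nat_lit 2) (nat_lit 5) (nat_lit 2) (nat_lit 4) (nat_lit 325) (nat_lit 237) (nat_lit 218))))) (XT.nd (nat_lit 156) (nat_lit 0) (nat_lit 0) (XT.nd (nat_lit 78) (nat_lit 0) (nat_lit 0) (XT.lf (nat_lit 0) (nat_lit 2125800114882) (nat_lit 76) (nat_lit 3763440400274) (nat_lit 76) (nat_lit 3763186193419) (nat_lit 1) (nat_lit 4) (nat_lit 2) (nat_lit 5) (nat_lit 2) (nat_lit 4) (nat_lit 326) (nat_lit 237) (nat_lit 217)) (XT.lf (nat_lit 0) (nat_lit 2445800588730) (nat_lit 76) (nat_lit 4327332144601) (nat_lit 76) (nat_lit 4327075779978) (nat_lit 1) (nat_lit 4) (nat_lit 2) (nat_lit 5) (nat_lit 2) (nat_lit 4) (nat_lit 327) (nat_lit 237) (nat_lit 216))) (XT.nd (nat_lit 78) (nat_lit 0) (nat_lit 0) (XT.lf (nat_lit 0) (nat_lit 2813786016992) (nat_lit 76) (nat_lit 4975815455958) (nat_lit 76) (nat_lit 4975557215016) (nat_lit 1) (nat_lit 4) (nat_lit 2) (nat_lit 5) (nat_lit 2) (nat_lit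 4) (nat_lit 328) (nat_lit 237) (nat_lit 215)) (XT.nd (nat_lit 78) (nat_lit 0) (nat_lit 0) (XT.lf (nat_lit 0) (nat_lit 3236956114570) (nat_lit 76) (nat_lit 5721578051307) (nat_lit 76) (nat_lit 5721318178783) (nat_lit 1) (nat_lit 4) (nat_lit 2) (nat_lit 5) (nat_lit 2) (nat_lit 4) (nat_lit 329) (nat_lit 237) (nat_lit 214)) (XT.lf (nat_lit 0) (nat_lit 3723590296416) (nat_lit 76) (nat_lit 6579210937948) (nat_lit 76) (nat_lit 6578949646656) (nat_lit 1) (nat_lit 4) (nat_lit 2) (nat_lit 5) (nat_lit 2) (nat_lit 4) (nat_lit 330) (nat_lit 237) (nat_lit 213)))))) (XT.nd (nat_lit 390) (nat_lit 0) (nat_lit 0) (XT.nd (nat_lit 156) (nat_lit 0) (nat_lit 0) (XT.nd (nat_lit 78) (nat_lit 0) (nat_lit 0) (XT.lf (nat_lit 0) (nat_lit 4283209666088) (nat_lit 76) (nat_lit 7565493889750) (nat_lit 76) (nat_lit 7565231364748) (nat_lit 1) (nat_lit 4) (nat_lit 2) (nat_lit 5) (nat_lit 2) (nat_lit 4) (nat_lit 331) (nat_lit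 237) (nat_lit 212)) (XT.lf (nat_lit 0) (nat_lit 4926763298211) (nat_lit 76) (nat_lit 8699723747074) (nat_lit 76) (nat_lit 8699460149280) (nat_lit 1) (nat_lit 4) (nat_lit 2) (nat_lit 5) (nat_lit 2) (nat_lit 4) (nat_lit 332) (nat_lit 237) (nat_lit 211))) (XT.nd (nat_lit 78) (nat_lit 0) (nat_lit 0) (XT.lf (nat_lit 0) (nat_lit 5666842459499) (nat_lit 76) (nat_lit 10004091963651) (nat_lit 76) (nat_lit 10003827432995) (nat_lit 1) (nat_lit 4) (nat_lit 2) (nat_lit 5) (nat_lit 2) (nat_lit 4) (nat_lit 333) (nat_lit 237) (nat_lit 210)) (XT.nd (nat_lit 78) (nat_lit 0) (nat_lit 0) (XT.lf (nat_lit 0) (nat_lit 6517926959629) (nat_lit 76) (nat_lit 11504118787197) (nat_lit 76) (nat_lit 11503853445355) (nat_lit 1) (nat_lit 4) (nat_lit 2) (nat_lit 5) (nat_lit 2) (nat_lit 4) (nat_lit 334) (nat_lit 237) (nat_lit 209)) (XT.lf (nat_lit 0) (nat_lit 7496668451867) (nat_lit 76) (nat_lit 13229152568606) (nat_lit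 76) (nat_lit 13228886521387) (nat_lit 1) (nat_lit 4) (nat_lit 2) (nat_lit 5) (nat_lit 2) (nat_lit 4) (nat_lit 335) (nat_lit 237) (nat_lit 208))))) (XT.nd (nat_lit 234) (nat_lit 0) (nat_lit 0) (XT.nd (nat_lit 78) (nat_lit 0) (nat_lit 0) (XT.lf (nat_lit 0) (nat_lit 8622216226276) (nat_lit 76) (nat_lit 15212943968819) (nat_lit 76) (nat_lit 15212677308228) (nat_lit 1) (nat_lit 4) (nat_lit 2) (nat_lit 5) (nat_lit 2) (nat_lit 4) (nat_lit 336) (nat_lit 237) (nat_lit 207)) (XT.nd (nat_lit 78) (nat_lit 0) (nat_lit 0) (XT.lf (nat_lit 0) (nat_lit 9916591869747) (nat_lit 76) (nat_lit 17494306297841) (nat_lit 76) (nat_lit 17494039103883) (nat_lit 1) (nat_lit 4) (nat_lit 2) (nat_lit 5) (nat_lit 2) (nat_lit 4) (nat_lit 337) (nat_lit 237) (nat_lit 206)) (XT.lf (nat_lit 0) (nat_lit 11405120123132) (nat_lit 76) (nat_lit 20117874905588) (nat_lit 76) (nat_lit 20117607247831) (nat_lit 1) (nat_lit 4) (nat_lit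 2) (nat_lit 5) (nat_lit 2) (nat_lit 4) (nat_lit 338) (nat_lit 237) (nat_lit 205)))) (XT.nd (nat_lit 78) (nat_lit 0) (nat_lit 0) (XT.lf (nat_lit 0) (nat_lit 13116924365300) (nat_lit 76) (nat_lit 23134980482210) (nat_lit 76) (nat_lit 23134712421151) (nat_lit 1) (nat_lit 4) (nat_lit 2) (nat_lit 5) (nat_lit 2) (nat_lit 4) (nat_lit 339) (nat_lit 237) (nat_lit 204)) (XT.nd (nat_lit 78) (nat_lit 0) (nat_lit 0) (XT.lf (nat_lit 0) (nat_lit 15085496418381) (nat_lit 76) (nat_lit 26604653354206) (nat_lit 76) (nat_lit 26604384942450) (nat_lit 1) (nat_lit 4) (nat_lit 2) (nat_lit 5) (nat_lit 2) (nat_lit 4) (nat_lit 340) (nat_lit 237) (nat_lit 203)) (XT.lf (nat_lit 0) (nat_lit 17349351822544) (nat_lit 76) (nat_lit 30594778425596) (nat_lit 76) (nat_lit 30594509708885) (nat_lit 1) (nat_lit 4) (nat_lit 2) (nat_lit 5) (nat_lit 2) (nat_lit 4) (nat_lit 341) (nat_lit 237) (nat_lit 202))))))))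
noncomputable def xc12 : XT := (XT.nd (nat_lit 39000) (nat_lit 0) (nat_lit 0) (XT.nd (nat_lit 38220) (nat_lit 0) (nat_lit 0) (XT.nd (nat_lit 37830) (nat_lit 0) (nat_lit 0) (XT.nd (nat_lit 156) (nat_lit 0) (nat_lit 0) (XT.nd (nat_lit 78) (nat_lit 0) (nat_lit 0) (XT.lf (nat_lit 0) (nat_lit 19952783400914) (nat_lit 76) (nat_lit 35183423360817) (nat_lit 76) (nat_lit 35183154378929) (nat_lit 1) (nat_lit 4) (nat_lit 2) (nat_lit 5) (nat_lit 2) (nat_lit 4) (nat_lit 342) (nat_lit 237) (nat_lit 201)) (XT.lf (nat_lit 0) (nat_lit 22946727858285) (nat_lit 76) (nat_lit 40460365995560) (nat_lit 76) (nat_lit 40460096783083) (nat_lit 1) (nat_lit 4) (nat_lit 2) (nat_lit 5) (nat_lit 2) (nat_lit 4) (nat_lit 343) (nat_lit 237) (nat_lit 200))) (XT.nd (nat_lit 37518) (nat_lit 0) (nat_lit 0) (XT.lf (nat_lit 0) (nat_lit 26389762368823) (nat_lit 76) (nat_lit 46528850859635) (nat_lit 76) (nat_lit 46528581446645)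 (nat_lit 1) (nat_lit 4) (nat_lit 2) (nat_lit 5) (nat_lit 2) (nat_lit 4) (nat_lit 344) (nat_lit 237) (nat_lit 199)) (XT.nd (nat_lit 78) (nat_lit 0) (nat_lit 0) (XT.lf (nat_lit 0) (nat_lit 41494089618) (nat_lit 76) (nat_lit 91016678482) (nat_lit 76) (nat_lit 91016678482) (nat_lit 1) (nat_lit 4) (nat_lit 2) (nat_lit 5) (nat_lit 2) (nat_lit 4) (nat_lit 304) (nat_lit 238) (nat_lit 238)) (XT.lf (nat_lit 0) (nat_lit 98784461395) (nat_lit 76) (nat_lit 207562911590) (nat_lit 76) (nat_lit 207522299129) (nat_lit 1) (nat_lit 4) (nat_lit 2) (nat_lit 5) (nat_lit 2) (nat_lit 4) (nat_lit 305) (nat_lit 238) (nat_lit 237))))) (XT.nd (nat_lit 156) (nat_lit 0) (nat_lit 0) (XT.nd (nat_lit 78) (nat_lit 0) (nat_lit 0) (XT.lf (nat_lit 0) (nat_lit 116665667347) (nat_lit 76) (nat_lit 237068808536) (nat_lit 76) (nat_lit 236992880891) (nat_lit 1) (nat_lit 4) (nat_lit 2) (nat_lit 5) (nat_lit 2) (nat_lit 4) (nat_lit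 306) (nat_lit 238) (nat_lit 236)) (XT.lf (nat_lit 0) (nat_lit 136981646774) (nat_lit 76) (nat_lit 271128337088) (nat_lit 76) (nat_lit 271021700588) (nat_lit 1) (nat_lit 4) (nat_lit 2) (nat_lit 5) (nat_lit 2) (nat_lit 4) (nat_lit 307) (nat_lit 238) (nat_lit 235))) (XT.nd (nat_lit 78) (nat_lit 0) (nat_lit 0) (XT.lf (nat_lit 0) (nat_lit 160129886229) (nat_lit 76) (nat_lit 310407879327) (nat_lit 76) (nat_lit 310274539476) (nat_lit 1) (nat_lit 4) (nat_lit 2) (nat_lit 5) (nat_lit 2) (nat_lit 4) (nat_lit 308) (nat_lit 238) (nat_lit 234)) (XT.nd (nat_lit 78) (nat_lit 0) (nat_lit 0) (XT.lf (nat_lit 0) (nat_lit 186563286049) (nat_lit 76) (nat_lit 355675948038) (nat_lit 76) (nat_lit 355519387879) (nat_lit 1) (nat_lit 4) (nat_lit 2) (nat_lit 5) (nat_lit 2) (nat_lit 4) (nat_lit 309) (nat_lit 238) (nat_lit 233)) (XT.lf (nat_lit 0) (nat_lit 216799021449) (nat_lit 76) (nat_lit 407818222823) (nat_lit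 76) (nat_lit 407641471094) (nat_lit 1) (nat_lit 4) (nat_lit 2) (nat_lit 5) (nat_lit 2) (nat_lit 4) (nat_lit 310) (nat_lit 238) (nat_lit 232)))))) (XT.nd (nat_lit 390) (nat_lit 0) (nat_lit 0) (XT.nd (nat_lit 156) (nat_lit 0) (nat_lit 0) (XT.nd (nat_lit 78) (nat_lit 0) (nat_lit 0) (XT.lf (nat_lit 0) (nat_lit 251428661164) (nat_lit 76) (nat_lit 467854878626) (nat_lit 76) (nat_lit 467660569009) (nat_lit 1) (nat_lit 4) (nat_lit 2) (nat_lit 5) (nat_lit 2) (nat_lit 4) (nat_lit 311) (nat_lit 238) (nat_lit 231)) (XT.lf (nat_lit 0) (nat_lit 291129741624) (nat_lit 76) (nat_lit 536960545668) (nat_lit 76) (nat_lit 536750968323) (nat_lit 1) (nat_lit 4) (nat_lit 2) (nat_lit 5) (nat_lit 2) (nat_lit 4) (nat_lit 312) (nat_lit 238) (nat_lit 230))) (XT.nd (nat_lit 78) (nat_lit 0) (nat_lit 0) (XT.lf (nat_lit 0) (nat_lit 336679023099) (nat_lit 76) (nat_lit 616487291348) (nat_lit 76) (nat_lit 616264437718)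 (nat_lit 1) (nat_lit 4) (nat_lit 2) (nat_lit 5) (nat_lit 2) (nat_lit 4) (nat_lit 313) (nat_lit 238) (nat_lit 229)) (XT.nd (nat_lit 78) (nat_lit 0) (nat_lit 0) (XT.lf (nat_lit 0) (nat_lit 388967687183) (nat_lit 76) (nat_lit 707991073734) (nat_lit 76) (nat_lit 707756675507) (nat_lit 1) (nat_lit 4) (nat_lit 2) (nat_lit 5) (nat_lit 2) (nat_lit 4) (nat_lit 314) (nat_lit 238) (nat_lit 228)) (XT.lf (nat_lit 0) (nat_lit 449018772955) (nat_lit 76) (nat_lit 813262184219) (nat_lit 76) (nat_lit 813017747213) (nat_lit 1) (nat_lit 4) (nat_lit 2) (nat_lit 5) (nat_lit 2) (nat_lit 4) (nat_lit 315) (nat_lit 238) (nat_lit 227))))) (XT.nd (nat_lit 156) (nat_lit 0) (nat_lit 0) (XT.nd (nat_lit 78) (nat_lit 0) (nat_lit 0) (XT.lf (nat_lit 0) (nat_lit 518007192963) (nat_lit 76) (nat_lit 934360274967) (nat_lit 76) (nat_lit 934107108588) (nat_lit 1) (nat_lit 4) (nat_lit 2) (nat_lit 5) (nat_lit 2) (nat_lit 4) (nat_lit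 316) (nat_lit 238) (nat_lit 226)) (XT.lf (nat_lit 0) (nat_lit 597282720642) (nat_lit 76) (nat_lit 1073654656447) (nat_lit 76) (nat_lit 1073393899309) (nat_lit 1) (nat_lit 4) (nat_lit 2) (nat_lit 5) (nat_lit 2) (nat_lit 4) (nat_lit 317) (nat_lit 238) (nat_lit 225))) (XT.nd (nat_lit 78) (nat_lit 0) (nat_lit 0) (XT.lf (nat_lit 0) (nat_lit 688396398926) (nat_lit 76) (nat_lit 1233870653515) (nat_lit 76) (nat_lit 1233603295717) (nat_lit 1) (nat_lit 4) (nat_lit 2) (nat_lit 5) (nat_lit 2) (nat_lit 4) (nat_lit 318) (nat_lit 238) (nat_lit 224)) (XT.nd (nat_lit 78) (nat_lit 0) (nat_lit 0) (XT.lf (nat_lit 0) (nat_lit 793130886737) (nat_lit 76) (nat_lit 1418142926984) (nat_lit 76) (nat_lit 1417869829480) (nat_lit 1) (nat_lit 4) (nat_lit 2) (nat_lit 5) (nat_lit 2) (nat_lit 4) (nat_lit 319) (nat_lit 238) (nat_lit 223)) (XT.lf (nat_lit 0) (nat_lit 913535337097) (nat_lit 76) (nat_lit 1630076803942) (nat_lit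 76) (nat_lit 1629798715391) (nat_lit 1) (nat_lit 4) (nat_lit 2) (nat_lit 5) (nat_lit 2) (nat_lit 4) (nat_lit 320) (nat_lit 238) (nat_lit 222))))))) (XT.nd (nat_lit 780) (nat_lit 0) (nat_lit 0) (XT.nd (nat_lit 390) (nat_lit 0) (nat_lit 0) (XT.nd (nat_lit 156) (nat_lit 0) (nat_lit 0) (XT.nd (nat_lit 78) (nat_lit 0) (nat_lit 0) (XT.lf (nat_lit 0) (nat_lit 1051965489252) (nat_lit 76) (nat_lit 1873818816765) (nat_lit 76) (nat_lit 1873536388173) (nat_lit 1) (nat_lit 4) (nat_lit 2) (nat_lit 5) (nat_lit 2) (nat_lit 4) (nat_lit 321) (nat_lit 238) (nat_lit 221)) (XT.lf (nat_lit 0) (nat_lit 1211129759224) (nat_lit 76) (nat_lit 2154137830922) (nat_lit 76) (nat_lit 2153851628381) (nat_lit 1) (nat_lit 4) (nat_lit 2) (nat_lit 5) (nat_lit 2) (nat_lit 4) (nat_lit 322) (nat_lit 238) (nat_lit 220))) (XT.nd (nat_lit 78) (nat_lit 0) (nat_lit 0) (XT.lf (nat_lit 0) (nat_lit 1394142230554) (nat_lit 76) (nat_lit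 2476518348862) (nat_lit 76) (nat_lit 2476228864627) (nat_lit 1) (nat_lit 4) (nat_lit 2) (nat_lit 5) (nat_lit 2) (nat_lit 4) (nat_lit 323) (nat_lit 238) (nat_lit 219)) (XT.nd (nat_lit 78) (nat_lit 0) (nat_lit 0) (XT.lf (nat_lit 0) (nat_lit 1604583582031) (nat_lit 76) (nat_lit 2847267815504) (nat_lit 76) (nat_lit 2846975477620) (nat_lit 1) (nat_lit 4) (nat_lit 2) (nat_lit 5) (nat_lit 2) (nat_lit 4) (nat_lit 324) (nat_lit 238) (nat_lit 218)) (XT.lf (nat_lit 0) (nat_lit 1846571144443) (nat_lit 76) (nat_lit 3273640024758) (nat_lit 76) (nat_lit 3273345205442) (nat_lit 1) (nat_lit 4) (nat_lit 2) (nat_lit 5) (nat_lit 2) (nat_lit 4) (nat_lit 325) (nat_lit 238) (nat_lit 217))))) (XT.nd (nat_lit 156) (nat_lit 0) (nat_lit 0) (XT.nd (nat_lit 78) (nat_lit 0) (nat_lit 0) (XT.lf (nat_lit 0) (nat_lit 2124839457055) (nat_lit 76) (nat_lit 3763977041589) (nat_lit 76) (nat_lit 3763680064505) (nat_lit 1) (nat_lit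 4) (nat_lit 2) (nat_lit 5) (nat_lit 2) (nat_lit 4) (nat_lit 326) (nat_lit 238) (nat_lit 216)) (XT.lf (nat_lit 0) (nat_lit 2444832899897) (nat_lit 76) (nat_lit 4327872416326) (nat_lit 76) (nat_lit 4327573562922) (nat_lit 1) (nat_lit 4) (nat_lit 2) (nat_lit 5) (nat_lit 2) (nat_lit 4) (nat_lit 327) (nat_lit 238) (nat_lit 215))) (XT.nd (nat_lit 78) (nat_lit 0) (nat_lit 0) (XT.lf (nat_lit 0) (nat_lit 2812812214241) (nat_lit 76) (nat_lit 4976358884561) (nat_lit 76) (nat_lit 4976058399576) (nat_lit 1) (nat_lit 4) (nat_lit 2) (nat_lit 5) (nat_lit 2) (nat_lit 4) (nat_lit 328) (nat_lit 238) (nat_lit 214)) (XT.nd (nat_lit 78) (nat_lit 0) (nat_lit 0) (XT.lf (nat_lit 0) (nat_lit 3235976995369) (nat_lit 76) (nat_lit 5722124225021) (nat_lit 76) (nat_lit 5721822321269) (nat_lit 1) (nat_lit 4) (nat_lit 2) (nat_lit 5) (nat_lit 2) (nat_lit 4) (nat_lit 329) (nat_lit 238) (nat_lit 213)) (XT.lf (nat_lit 0)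 (nat_lit 3722606554214) (nat_lit 76) (nat_lit 6579759498716) (nat_lit 76) (nat_lit 6579456361253) (nat_lit 1) (nat_lit 4) (nat_lit 2) (nat_lit 5) (nat_lit 2) (nat_lit 4) (nat_lit 330) (nat_lit 238) (nat_lit 212)))))) (XT.nd (nat_lit 390) (nat_lit 0) (nat_lit 0) (XT.nd (nat_lit 156) (nat_lit 0) (nat_lit 0) (XT.nd (nat_lit 78) (nat_lit 0) (nat_lit 0) (XT.lf (nat_lit 0) (nat_lit 4282221903886) (nat_lit 76) (nat_lit 7566044526216) (nat_lit 76) (nat_lit 7565740315961) (nat_lit 1) (nat_lit 4) (nat_lit 2) (nat_lit 5) (nat_lit 2) (nat_lit 4) (nat_lit 331) (nat_lit 238) (nat_lit 211)) (XT.lf (nat_lit 0) (nat_lit 4925772040356) (nat_lit 76) (nat_lit 8700276188496) (nat_lit 76) (nat_lit 8699971045379) (nat_lit 1) (nat_lit 4) (nat_lit 2) (nat_lit 5) (nat_lit 2) (nat_lit 4) (nat_lit 332) (nat_lit 238) (nat_lit 210))) (XT.nd (nat_lit 78) (nat_lit 0) (nat_lit 0) (XT.lf (nat_lit 0) (nat_lit 5665848161946)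 (nat_lit 76) (nat_lit 10004645974600) (nat_lit 76) (nat_lit 10004340020297) (nat_lit 1) (nat_lit 4) (nat_lit 2) (nat_lit 5) (nat_lit 2) (nat_lit 4) (nat_lit 333) (nat_lit 238) (nat_lit 209)) (XT.nd (nat_lit 78) (nat_lit 0) (nat_lit 0) (XT.lf (nat_lit 0) (nat_lit 6516930018862) (nat_lit 76) (nat_lit 11504674162950) (nat_lit 76) (nat_lit 11504367503270) (nat_lit 1) (nat_lit 4) (nat_lit 2) (nat_lit 5) (nat_lit 2) (nat_lit 4) (nat_lit 334) (nat_lit 238) (nat_lit 208)) (XT.lf (nat_lit 0) (nat_lit 7495669212651) (nat_lit 76) (nat_lit 13229709131147) (nat_lit 76) (nat_lit 13229401858095) (nat_lit 1) (nat_lit 4) (nat_lit 2) (nat_lit 5) (nat_lit 2) (nat_lit 4) (nat_lit 335) (nat_lit 238) (nat_lit 207))))) (XT.nd (nat_lit 156) (nat_lit 0) (nat_lit 0) (XT.nd (nat_lit 78) (nat_lit 0) (nat_lit 0) (XT.lf (nat_lit 0) (nat_lit 8621214988409) (nat_lit 76) (nat_lit 15213501563350) (nat_lit 76) (nat_lit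 15213193756930) (nat_lit 1) (nat_lit 4) (nat_lit 2) (nat_lit 5) (nat_lit 2) (nat_lit 4) (nat_lit 336) (nat_lit 238) (nat_lit 206)) (XT.lf (nat_lit 0) (nat_lit 9915588893924) (nat_lit 76) (nat_lit 17494864789753) (nat_lit 76) (nat_lit 17494556519536) (nat_lit 1) (nat_lit 4) (nat_lit 2) (nat_lit 5) (nat_lit 2) (nat_lit 4) (nat_lit 337) (nat_lit 238) (nat_lit 205))) (XT.nd (nat_lit 78) (nat_lit 0) (nat_lit 0) (XT.lf (nat_lit 0) (nat_lit 11404115636041) (nat_lit 76) (nat_lit 20118434177832) (nat_lit 76) (nat_lit 20118125504312) (nat_lit 1) (nat_lit 4) (nat_lit 2) (nat_lit 5) (nat_lit 2) (nat_lit 4) (nat_lit 338) (nat_lit 238) (nat_lit 204)) (XT.nd (nat_lit 78) (nat_lit 0) (nat_lit 0) (XT.lf (nat_lit 0) (nat_lit 13115918564064) (nat_lit 76) (nat_lit 23135540433003) (nat_lit 76) (nat_lit 23135231408786) (nat_lit 1) (nat_lit 4) (nat_lit 2) (nat_lit 5) (nat_lit 2) (nat_lit 4) (nat_lit 339) (nat_lit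 238) (nat_lit 203)) (XT.lf (nat_lit 0) (nat_lit 15084489474410) (nat_lit 76) (nat_lit 26605213895043) (nat_lit 76) (nat_lit 26604904565872) (nat_lit 1) (nat_lit 4) (nat_lit 2) (nat_lit 5) (nat_lit 2) (nat_lit 4) (nat_lit 340) (nat_lit 238) (nat_lit 202))))))))
noncomputable def xc13 : XT := (XT.nd (nat_lit 38688) (nat_lit 0) (nat_lit 0) (XT.nd (nat_lit 37908) (nat_lit 0) (nat_lit 0) (XT.nd (nat_lit 624) (nat_lit 0) (nat_lit 0) (XT.nd (nat_lit 156) (nat_lit 0) (nat_lit 0) (XT.nd (nat_lit 78) (nat_lit 0) (nat_lit 0) (XT.lf (nat_lit 0) (nat_lit 17348343884891) (nat_lit 76) (nat_lit 30595339479513) (nat_lit 76) (nat_lit 30595029885164) (nat_lit 1) (nat_lit 4) (nat_lit 2) (nat_lit 5) (nat_lit 2) (nat_lit 4) (nat_lit 341) (nat_lit 238) (nat_lit 201)) (XT.lf (nat_lit 0) (nat_lit 19951774599189) (nat_lit 76) (nat_lit 35183984860892) (nat_lit 76) (nat_lit 35183675035954) (nat_lit 1) (nat_lit 4)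 (nat_lit 2) (nat_lit 5) (nat_lit 2) (nat_lit 4) (nat_lit 342) (nat_lit 238) (nat_lit 200))) (XT.nd (nat_lit 78) (nat_lit 0) (nat_lit 0) (XT.lf (nat_lit 0) (nat_lit 22945718305193) (nat_lit 76) (nat_lit 40460927883598) (nat_lit 76) (nat_lit 40460617858147) (nat_lit 1) (nat_lit 4) (nat_lit 2) (nat_lit 5) (nat_lit 2) (nat_lit 4) (nat_lit 343) (nat_lit 238) (nat_lit 199)) (XT.nd (nat_lit 312) (nat_lit 0) (nat_lit 0) (XT.lf (nat_lit 0) (nat_lit 26388752162368) (nat_lit 76) (nat_lit 46529413085032) (nat_lit 76) (nat_lit 46529102885222) (nat_lit 1) (nat_lit 4) (nat_lit 2) (nat_lit 5) (nat_lit 2) (nat_lit 4) (nat_lit 344) (nat_lit 238) (nat_lit 198)) (XT.lf (nat_lit 0) (nat_lit 46159952650124) (nat_lit 76) (nat_lit 81376975215591) (nat_lit 76) (nat_lit 81376664517992) (nat_lit 1) (nat_lit 4) (nat_lit 2) (nat_lit 5) (nat_lit 2) (nat_lit 4) (nat_lit 348) (nat_lit 238) (nat_lit 194))))) (XT.nd (nat_lit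 37050) (nat_lit 0) (nat_lit 0) (XT.nd (nat_lit 36972) (nat_lit 0) (nat_lit 0) (XT.lf (nat_lit 0) (nat_lit 53085116950169) (nat_lit 76) (nat_lit 93582869948216) (nat_lit 76) (nat_lit 93582559163929) (nat_lit 1) (nat_lit 4) (nat_lit 2) (nat_lit 5) (nat_lit 2) (nat_lit 4) (nat_lit 349) (nat_lit 238) (nat_lit 193)) (XT.lf (nat_lit 0) (nat_lit 28311956352) (nat_lit 76) (nat_lit 70464836503) (nat_lit 76) (nat_lit 70464836503) (nat_lit 1) (nat_lit 4) (nat_lit 2) (nat_lit 5) (nat_lit 2) (nat_lit 4) (nat_lit 302) (nat_lit 239) (nat_lit 239))) (XT.nd (nat_lit 78) (nat_lit 0) (nat_lit 0) (XT.lf (nat_lit 0) (nat_lit 68967763174) (nat_lit 76) (nat_lit 160027357701) (nat_lit 76) (nat_lit 159980653371) (nat_lit 1) (nat_lit 4) (nat_lit 2) (nat_lit 5) (nat_lit 2) (nat_lit 4) (nat_lit 303) (nat_lit 239) (nat_lit 238)) (XT.nd (nat_lit 78) (nat_lit 0) (nat_lit 0) (XT.lf (nat_lit 0) (nat_lit 82835994905)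 (nat_lit 76) (nat_lit 182158640594) (nat_lit 76) (nat_lit 182071323803) (nat_lit 1) (nat_lit 4) (nat_lit 2) (nat_lit 5) (nat_lit 2) (nat_lit 4) (nat_lit 304) (nat_lit 239) (nat_lit 237)) (XT.lf (nat_lit 0) (nat_lit 98499942864) (nat_lit 76) (nat_lit 207756525046) (nat_lit 76) (nat_lit 207633893071) (nat_lit 1) (nat_lit 4) (nat_lit 2) (nat_lit 5) (nat_lit 2) (nat_lit 4) (nat_lit 305) (nat_lit 239) (nat_lit 236)))))) (XT.nd (nat_lit 390) (nat_lit 0) (nat_lit 0) (XT.nd (nat_lit 156) (nat_lit 0) (nat_lit 0) (XT.nd (nat_lit 78) (nat_lit 0) (nat_lit 0) (XT.lf (nat_lit 0) (nat_lit 116266075598) (nat_lit 76) (nat_lit 237321839230) (nat_lit 76) (nat_lit 237168498401) (nat_lit 1) (nat_lit 4) (nat_lit 2) (nat_lit 5) (nat_lit 2) (nat_lit 4) (nat_lit 306) (nat_lit 239) (nat_lit 235)) (XT.lf (nat_lit 0) (nat_lit 136481991357) (nat_lit 76) (nat_lit 271433034948) (nat_lit 76) (nat_lit 271252990766) (nat_lit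 1) (nat_lit 4) (nat_lit 2) (nat_lit 5) (nat_lit 2) (nat_lit 4) (nat_lit 307) (nat_lit 239) (nat_lit 234))) (XT.nd (nat_lit 78) (nat_lit 0) (nat_lit 0) (XT.lf (nat_lit 0) (nat_lit 159543218927) (nat_lit 76) (nat_lit 310757505157) (nat_lit 76) (nat_lit 310554240669) (nat_lit 1) (nat_lit 4) (nat_lit 2) (nat_lit 5) (nat_lit 2) (nat_lit 4) (nat_lit 308) (nat_lit 239) (nat_lit 233)) (XT.nd (nat_lit 78) (nat_lit 0) (nat_lit 0) (XT.lf (nat_lit 0) (nat_lit 185900956239) (nat_lit 76) (nat_lit 356064641666) (nat_lit 76) (nat_lit 355841185607) (nat_lit 1) (nat_lit 4) (nat_lit 2) (nat_lit 5) (nat_lit 2) (nat_lit 4) (nat_lit 309) (nat_lit 239) (nat_lit 232)) (XT.lf (nat_lit 0) (nat_lit 216070898153) (nat_lit 76) (nat_lit 408240888452) (nat_lit 76) (nat_lit 407999874505) (nat_lit 1) (nat_lit 4) (nat_lit 2) (nat_lit 5) (nat_lit 2) (nat_lit 4) (nat_lit 310) (nat_lit 239) (nat_lit 231))))) (XT.nd (nat_lit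 156) (nat_lit 0) (nat_lit 0) (XT.nd (nat_lit 78) (nat_lit 0) (nat_lit 0) (XT.lf (nat_lit 0) (nat_lit 250643326141) (nat_lit 76) (nat_lit 468307085124) (nat_lit 76) (nat_lit 468050803449) (nat_lit 1) (nat_lit 4) (nat_lit 2) (nat_lit 5) (nat_lit 2) (nat_lit 4) (nat_lit 311) (nat_lit 239) (nat_lit 230)) (XT.lf (nat_lit 0) (nat_lit 290294657274) (nat_lit 76) (nat_lit 537438439878) (nat_lit 76) (nat_lit 537168881918) (nat_lit 1) (nat_lit 4) (nat_lit 2) (nat_lit 5) (nat_lit 2) (nat_lit 4) (nat_lit 312) (nat_lit 239) (nat_lit 229))) (XT.nd (nat_lit 78) (nat_lit 0) (nat_lit 0) (XT.lf (nat_lit 0) (nat_lit 335800678464) (nat_lit 76) (nat_lit 616987522699) (nat_lit 76) (nat_lit 616706420143) (nat_lit 1) (nat_lit 4) (nat_lit 2) (nat_lit 5) (nat_lit 2) (nat_lit 4) (nat_lit 313) (nat_lit 239) (nat_lit 228)) (XT.nd (nat_lit 78) (nat_lit 0) (nat_lit 0) (XT.lf (nat_lit 0) (nat_lit 388051724908) (nat_lit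 76) (nat_lit 708510728686) (nat_lit 76) (nat_lit 708219587350) (nat_lit 1) (nat_lit 4) (nat_lit 2) (nat_lit 5) (nat_lit 2) (nat_lit 4) (nat_lit 314) (nat_lit 239) (nat_lit 227)) (XT.lf (nat_lit 0) (nat_lit 448070099690) (nat_lit 76) (nat_lit 813798729259) (nat_lit 76) (nat_lit 813498858550) (nat_lit 1) (nat_lit 4) (nat_lit 2) (nat_lit 5) (nat_lit 2) (nat_lit 4) (nat_lit 315) (nat_lit 239) (nat_lit 226))))))) (XT.nd (nat_lit 780) (nat_lit 0) (nat_lit 0) (XT.nd (nat_lit 390) (nat_lit 0) (nat_lit 0) (XT.nd (nat_lit 156) (nat_lit 0) (nat_lit 0) (XT.nd (nat_lit 78) (nat_lit 0) (nat_lit 0) (XT.lf (nat_lit 0) (nat_lit 517030075358) (nat_lit 76) (nat_lit 934911507040) (nat_lit 76) (nat_lit 934604045571) (nat_lit 1) (nat_lit 4) (nat_lit 2) (nat_lit 5) (nat_lit 2) (nat_lit 4) (nat_lit 316) (nat_lit 239) (nat_lit 225)) (XT.lf (nat_lit 0) (nat_lit 596280868830) (nat_lit 76) (nat_lit 1074218659853)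 (nat_lit 76) (nat_lit 1073904597724) (nat_lit 1) (nat_lit 4) (nat_lit 2) (nat_lit 5) (nat_lit 2) (nat_lit 4) (nat_lit 317) (nat_lit 239) (nat_lit 224))) (XT.nd (nat_lit 78) (nat_lit 0) (nat_lit 0) (XT.lf (nat_lit 0) (nat_lit 687373039106) (nat_lit 76) (nat_lit 1234445762428) (nat_lit 76) (nat_lit 1234125960595) (nat_lit 1) (nat_lit 4) (nat_lit 2) (nat_lit 5) (nat_lit 2) (nat_lit 4) (nat_lit 318) (nat_lit 239) (nat_lit 223)) (XT.nd (nat_lit 78) (nat_lit 0) (nat_lit 0) (XT.lf (nat_lit 0) (nat_lit 792088824302) (nat_lit 76) (nat_lit 1418727692859) (nat_lit 76) (nat_lit 1418402899979) (nat_lit 1) (nat_lit 4) (nat_lit 2) (nat_lit 5) (nat_lit 2) (nat_lit 4) (nat_lit 319) (nat_lit 239) (nat_lit 222)) (XT.lf (nat_lit 0) (nat_lit 912477011518) (nat_lit 76) (nat_lit 1630669967176) (nat_lit 76) (nat_lit 1630340834254) (nat_lit 1) (nat_lit 4) (nat_lit 2) (nat_lit 5) (nat_lit 2) (nat_lit 4) (nat_lit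 320) (nat_lit 239) (nat_lit 221))))) (XT.nd (nat_lit 156) (nat_lit 0) (nat_lit 0) (XT.nd (nat_lit 78) (nat_lit 0) (nat_lit 0) (XT.lf (nat_lit 0) (nat_lit 1050893021810) (nat_lit 76) (nat_lit 1874419282051) (nat_lit 76) (nat_lit 1874086375180) (nat_lit 1) (nat_lit 4) (nat_lit 2) (nat_lit 5) (nat_lit 2) (nat_lit 4) (nat_lit 321) (nat_lit 239) (nat_lit 220)) (XT.lf (nat_lit 0) (nat_lit 1210044994509) (nat_lit 76) (nat_lit 2154744645817) (nat_lit 76) (nat_lit 2154408457251) (nat_lit 1) (nat_lit 4) (nat_lit 2) (nat_lit 5) (nat_lit 2) (nat_lit 4) (nat_lit 322) (nat_lit 239) (nat_lit 219))) (XT.nd (nat_lit 78) (nat_lit 0) (nat_lit 0) (XT.lf (nat_lit 0) (nat_lit 1393046772558) (nat_lit 76) (nat_lit 2477130685157) (nat_lit 76) (nat_lit 2476791642944) (nat_lit 1) (nat_lit 4) (nat_lit 2) (nat_lit 5) (nat_lit 2) (nat_lit 4) (nat_lit 323) (nat_lit 239) (nat_lit 218)) (XT.nd (nat_lit 78) (nat_lit 0)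 (nat_lit 0) (XT.lf (nat_lit 0) (nat_lit 1603478825530) (nat_lit 76) (nat_lit 2847884953016) (nat_lit 76) (nat_lit 2847543429370) (nat_lit 1) (nat_lit 4) (nat_lit 2) (nat_lit 5) (nat_lit 2) (nat_lit 4) (nat_lit 324) (nat_lit 239) (nat_lit 217)) (XT.lf (nat_lit 0) (nat_lit 1845458302285) (nat_lit 76) (nat_lit 3274261337241) (nat_lit 76) (nat_lit 3273917655828) (nat_lit 1) (nat_lit 4) (nat_lit 2) (nat_lit 5) (nat_lit 2) (nat_lit 4) (nat_lit 325) (nat_lit 239) (nat_lit 216)))))) (XT.nd (nat_lit 390) (nat_lit 0) (nat_lit 0) (XT.nd (nat_lit 156) (nat_lit 0) (nat_lit 0) (XT.nd (nat_lit 78) (nat_lit 0) (nat_lit 0) (XT.lf (nat_lit 0) (nat_lit 2123719583892) (nat_lit 76) (nat_lit 3764601984482) (nat_lit 76) (nat_lit 3764256426749) (nat_lit 1) (nat_lit 4) (nat_lit 2) (nat_lit 5) (nat_lit 2) (nat_lit 4) (nat_lit 326) (nat_lit 239) (nat_lit 215)) (XT.lf (nat_lit 0) (nat_lit 2443706912815) (nat_lit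 76) (nat_lit 4328500516097) (nat_lit 76) (nat_lit 4328153326782) (nat_lit 1) (nat_lit 4) (nat_lit 2) (nat_lit 5) (nat_lit 2) (nat_lit 4) (nat_lit 327) (nat_lit 239) (nat_lit 214))) (XT.nd (nat_lit 78) (nat_lit 0) (nat_lit 0) (XT.lf (nat_lit 0) (nat_lit 2811680910709) (nat_lit 76) (nat_lit 4976989729444) (nat_lit 76) (nat_lit 4976641121361) (nat_lit 1) (nat_lit 4) (nat_lit 2) (nat_lit 5) (nat_lit 2) (nat_lit 4) (nat_lit 328) (nat_lit 239) (nat_lit 213)) (XT.nd (nat_lit 78) (nat_lit 0) (nat_lit 0) (XT.lf (nat_lit 0) (nat_lit 3234841068836) (nat_lit 76) (nat_lit 5722757456958) (nat_lit 76) (nat_lit 5722407615164) (nat_lit 1) (nat_lit 4) (nat_lit 2) (nat_lit 5) (nat_lit 2) (nat_lit 4) (nat_lit 329) (nat_lit 239) (nat_lit 212)) (XT.lf (nat_lit 0) (nat_lit 3721466607682) (nat_lit 76) (nat_lit 6580394806351) (nat_lit 76) (nat_lit 6580043891766) (nat_lit 1) (nat_lit 4) (nat_lit 2) (nat_lit 5)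 (nat_lit 2) (nat_lit 4) (nat_lit 330) (nat_lit 239) (nat_lit 211))))) (XT.nd (nat_lit 234) (nat_lit 0) (nat_lit 0) (XT.nd (nat_lit 78) (nat_lit 0) (nat_lit 0) (XT.lf (nat_lit 0) (nat_lit 4281078461701) (nat_lit 76) (nat_lit 7566681638807) (nat_lit 76) (nat_lit 7566329791359) (nat_lit 1) (nat_lit 4) (nat_lit 2) (nat_lit 5) (nat_lit 2) (nat_lit 4) (nat_lit 331) (nat_lit 239) (nat_lit 210)) (XT.nd (nat_lit 78) (nat_lit 0) (nat_lit 0) (XT.lf (nat_lit 0) (nat_lit 4924625558473) (nat_lit 76) (nat_lit 8700914870613) (nat_lit 76) (nat_lit 8700562211981) (nat_lit 1) (nat_lit 4) (nat_lit 2) (nat_lit 5) (nat_lit 2) (nat_lit 4) (nat_lit 332) (nat_lit 239) (nat_lit 209)) (XT.lf (nat_lit 0) (nat_lit 5664699036848) (nat_lit 76) (nat_lit 10005286021522) (nat_lit 76) (nat_lit 10004932657512) (nat_lit 1) (nat_lit 4) (nat_lit 2) (nat_lit 5) (nat_lit 2) (nat_lit 4) (nat_lit 333) (nat_lit 239) (nat_lit 208))))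 (XT.nd (nat_lit 78) (nat_lit 0) (nat_lit 0) (XT.lf (nat_lit 0) (nat_lit 6515778595315) (nat_lit 76) (nat_lit 11505315396660) (nat_lit 76) (nat_lit 11504961419278) (nat_lit 1) (nat_lit 4) (nat_lit 2) (nat_lit 5) (nat_lit 2) (nat_lit 4) (nat_lit 334) (nat_lit 239) (nat_lit 207)) (XT.nd (nat_lit 78) (nat_lit 0) (nat_lit 0) (XT.lf (nat_lit 0) (nat_lit 7494515790453) (nat_lit 76) (nat_lit 13230351396846) (nat_lit 76) (nat_lit 13229996886096) (nat_lit 1) (nat_lit 4) (nat_lit 2) (nat_lit 5) (nat_lit 2) (nat_lit 4) (nat_lit 335) (nat_lit 239) (nat_lit 206)) (XT.lf (nat_lit 0) (nat_lit 8620059828255) (nat_lit 76) (nat_lit 15214144726430) (nat_lit 76) (nat_lit 15213789751883) (nat_lit 1) (nat_lit 4) (nat_lit 2) (nat_lit 5) (nat_lit 2) (nat_lit 4) (nat_lit 336) (nat_lit 239) (nat_lit 205))))))))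
noncomputable def xc14 : XT := (XT.nd (nat_lit 38376) (nat_lit 0) (nat_lit 0) (XT.nd (nat_lit 936) (nat_lit 0) (nat_lit 0) (XT.nd (nat_lit 390) (nat_lit 0) (nat_lit 0) (XT.nd (nat_lit 156) (nat_lit 0) (nat_lit 0) (XT.nd (nat_lit 78) (nat_lit 0) (nat_lit 0) (XT.lf (nat_lit 0) (nat_lit 9914432222502) (nat_lit 76) (nat_lit 17495508733166) (nat_lit 76) (nat_lit 17495153355317) (nat_lit 1) (nat_lit 4) (nat_lit 2) (nat_lit 5) (nat_lit 2) (nat_lit 4) (nat_lit 337) (nat_lit 239) (nat_lit 204)) (XT.lf (nat_lit 0) (nat_lit 11402957650474) (nat_lit 76) (nat_lit 20119078799794) (nat_lit 76) (nat_lit 20118723071247) (nat_lit 1) (nat_lit 4) (nat_lit 2) (nat_lit 5) (nat_lit 2) (nat_lit 4) (nat_lit 338) (nat_lit 239) (nat_lit 203))) (XT.nd (nat_lit 78) (nat_lit 0) (nat_lit 0) (XT.lf (nat_lit 0) (nat_lit 13114759435762) (nat_lit 76) (nat_lit 23136185645009) (nat_lit 76) (nat_lit 23135829611507) (nat_lit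 1) (nat_lit 4) (nat_lit 2) (nat_lit 5) (nat_lit 2) (nat_lit 4) (nat_lit 339) (nat_lit 239) (nat_lit 202)) (XT.nd (nat_lit 78) (nat_lit 0) (nat_lit 0) (XT.lf (nat_lit 0) (nat_lit 15083329352426) (nat_lit 76) (nat_lit 26605859620130) (nat_lit 76) (nat_lit 26605503321450) (nat_lit 1) (nat_lit 4) (nat_lit 2) (nat_lit 5) (nat_lit 2) (nat_lit 4) (nat_lit 340) (nat_lit 239) (nat_lit 201)) (XT.lf (nat_lit 0) (nat_lit 17347182898835) (nat_lit 76) (nat_lit 30595985650757) (nat_lit 76) (nat_lit 30595629121489) (nat_lit 1) (nat_lit 4) (nat_lit 2) (nat_lit 5) (nat_lit 2) (nat_lit 4) (nat_lit 341) (nat_lit 239) (nat_lit 200))))) (XT.nd (nat_lit 156) (nat_lit 0) (nat_lit 0) (XT.nd (nat_lit 78) (nat_lit 0) (nat_lit 0) (XT.lf (nat_lit 0) (nat_lit 19950612861766) (nat_lit 76) (nat_lit 35184631420099) (nat_lit 76) (nat_lit 35184274690318) (nat_lit 1) (nat_lit 4) (nat_lit 2) (nat_lit 5) (nat_lit 2) (nat_lit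 4) (nat_lit 342) (nat_lit 239) (nat_lit 199)) (XT.lf (nat_lit 0) (nat_lit 22944555914407) (nat_lit 76) (nat_lit 40461574780164) (nat_lit 76) (nat_lit 40461217876024) (nat_lit 1) (nat_lit 4) (nat_lit 2) (nat_lit 5) (nat_lit 2) (nat_lit 4) (nat_lit 343) (nat_lit 239) (nat_lit 198))) (XT.nd (nat_lit 234) (nat_lit 0) (nat_lit 0) (XT.lf (nat_lit 0) (nat_lit 26387589203442) (nat_lit 76) (nat_lit 46530060274953) (nat_lit 76) (nat_lit 46529703219197) (nat_lit 1) (nat_lit 4) (nat_lit 2) (nat_lit 5) (nat_lit 2) (nat_lit 4) (nat_lit 344) (nat_lit 239) (nat_lit 197)) (XT.nd (nat_lit 78) (nat_lit 0) (nat_lit 0) (XT.lf (nat_lit 0) (nat_lit 40136905786661) (nat_lit 76) (nat_lit 70763801882257) (nat_lit 76) (nat_lit 70763444480327) (nat_lit 1) (nat_lit 4) (nat_lit 2) (nat_lit 5) (nat_lit 2) (nat_lit 4) (nat_lit 347) (nat_lit 239) (nat_lit 194)) (XT.lf (nat_lit 0) (nat_lit 46158788069167) (nat_lit 76)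 (nat_lit 81377623243037) (nat_lit 76) (nat_lit 81377265754420) (nat_lit 1) (nat_lit 4) (nat_lit 2) (nat_lit 5) (nat_lit 2) (nat_lit 4) (nat_lit 348) (nat_lit 239) (nat_lit 193)))))) (XT.nd (nat_lit 37050) (nat_lit 0) (nat_lit 0) (XT.nd (nat_lit 36816) (nat_lit 0) (nat_lit 0) (XT.nd (nat_lit 78) (nat_lit 0) (nat_lit 0) (XT.lf (nat_lit 0) (nat_lit 53083952086745) (nat_lit 76) (nat_lit 93583518121511) (nat_lit 76) (nat_lit 93583160557514) (nat_lit 1) (nat_lit 4) (nat_lit 2) (nat_lit 5) (nat_lit 2) (nat_lit 4) (nat_lit 349) (nat_lit 239) (nat_lit 192)) (XT.lf (nat_lit 0) (nat_lit 61047890178870) (nat_lit 76) (nat_lit 107620297504432) (nat_lit 76) (nat_lit 107619939874887) (nat_lit 1) (nat_lit 4) (nat_lit 2) (nat_lit 5) (nat_lit 2) (nat_lit 4) (nat_lit 350) (nat_lit 239) (nat_lit 191))) (XT.nd (nat_lit 78) (nat_lit 0) (nat_lit 0) (XT.lf (nat_lit 0) (nat_lit 17884839250) (nat_lit 76) (nat_lit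 55171164057) (nat_lit 76) (nat_lit 55171164057) (nat_lit 1) (nat_lit 4) (nat_lit 2) (nat_lit 5) (nat_lit 2) (nat_lit 4) (nat_lit 300) (nat_lit 240) (nat_lit 240)) (XT.nd (nat_lit 78) (nat_lit 0) (nat_lit 0) (XT.lf (nat_lit 0) (nat_lit 45562933375) (nat_lit 76) (nat_lit 124545646137) (nat_lit 76) (nat_lit 124491936157) (nat_lit 1) (nat_lit 4) (nat_lit 2) (nat_lit 5) (nat_lit 2) (nat_lit 4) (nat_lit 301) (nat_lit 240) (nat_lit 239)) (XT.lf (nat_lit 0) (nat_lit 56448900723) (nat_lit 76) (nat_lit 141073749181) (nat_lit 76) (nat_lit 140973334871) (nat_lit 1) (nat_lit 4) (nat_lit 2) (nat_lit 5) (nat_lit 2) (nat_lit 4) (nat_lit 302) (nat_lit 240) (nat_lit 238))))) (XT.nd (nat_lit 156) (nat_lit 0) (nat_lit 0) (XT.nd (nat_lit 78) (nat_lit 0) (nat_lit 0) (XT.lf (nat_lit 0) (nat_lit 68640566864) (nat_lit 76) (nat_lit 160250013175) (nat_lit 76) (nat_lit 160108986404) (nat_lit 1) (nat_lit 4) (nat_lit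 2) (nat_lit 5) (nat_lit 2) (nat_lit 4) (nat_lit 303) (nat_lit 240) (nat_lit 237)) (XT.lf (nat_lit 0) (nat_lit 82376464393) (nat_lit 76) (nat_lit 182449625893) (nat_lit 76) (nat_lit 182273283939) (nat_lit 1) (nat_lit 4) (nat_lit 2) (nat_lit 5) (nat_lit 2) (nat_lit 4) (nat_lit 304) (nat_lit 240) (nat_lit 236))) (XT.nd (nat_lit 78) (nat_lit 0) (nat_lit 0) (XT.lf (nat_lit 0) (nat_lit 97925339134) (nat_lit 76) (nat_lit 208106927584) (nat_lit 76) (nat_lit 207899876775) (nat_lit 1) (nat_lit 4) (nat_lit 2) (nat_lit 5) (nat_lit 2) (nat_lit 4) (nat_lit 305) (nat_lit 240) (nat_lit 235)) (XT.nd (nat_lit 78) (nat_lit 0) (nat_lit 0) (XT.lf (nat_lit 0) (nat_lit 115591408201) (nat_lit 76) (nat_lit 237723908934) (nat_lit 76) (nat_lit 237490154773) (nat_lit 1) (nat_lit 4) (nat_lit 2) (nat_lit 5) (nat_lit 2) (nat_lit 4) (nat_lit 306) (nat_lit 240) (nat_lit 234)) (XT.lf (nat_lit 0) (nat_lit 135720312075)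 (nat_lit 76) (nat_lit 271880032621) (nat_lit 76) (nat_lit 271623058153) (nat_lit 1) (nat_lit 4) (nat_lit 2) (nat_lit 5) (nat_lit 2) (nat_lit 4) (nat_lit 307) (nat_lit 240) (nat_lit 233))))))) (XT.nd (nat_lit 780) (nat_lit 0) (nat_lit 0) (XT.nd (nat_lit 390) (nat_lit 0) (nat_lit 0) (XT.nd (nat_lit 156) (nat_lit 0) (nat_lit 0) (XT.nd (nat_lit 78) (nat_lit 0) (nat_lit 0) (XT.lf (nat_lit 0) (nat_lit 158705877136) (nat_lit 76) (nat_lit 311243570630) (nat_lit 76) (nat_lit 310966404591) (nat_lit 1) (nat_lit 4) (nat_lit 2) (nat_lit 5) (nat_lit 2) (nat_lit 4) (nat_lit 308) (nat_lit 240) (nat_lit 232)) (XT.lf (nat_lit 0) (nat_lit 184997820962) (nat_lit 76) (nat_lit 356584679139) (nat_lit 76) (nat_lit 356289955213) (nat_lit 1) (nat_lit 4) (nat_lit 2) (nat_lit 5) (nat_lit 2) (nat_lit 4) (nat_lit 309) (nat_lit 240) (nat_lit 231))) (XT.nd (nat_lit 78) (nat_lit 0) (nat_lit 0) (XT.lf (nat_lit 0) (nat_lit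 215110551149) (nat_lit 76) (nat_lit 408790466793) (nat_lit 76) (nat_lit 408480475139) (nat_lit 1) (nat_lit 4) (nat_lit 2) (nat_lit 5) (nat_lit 2) (nat_lit 4) (nat_lit 310) (nat_lit 240) (nat_lit 230)) (XT.nd (nat_lit 78) (nat_lit 0) (nat_lit 0) (XT.lf (nat_lit 0) (nat_lit 249633229810) (nat_lit 76) (nat_lit 468882351178) (nat_lit 76) (nat_lit 468559083238) (nat_lit 1) (nat_lit 4) (nat_lit 2) (nat_lit 5) (nat_lit 2) (nat_lit 4) (nat_lit 311) (nat_lit 240) (nat_lit 229)) (XT.lf (nat_lit 0) (nat_lit 289241300658) (nat_lit 76) (nat_lit 538036043073) (nat_lit 76) (nat_lit 537701230537) (nat_lit 1) (nat_lit 4) (nat_lit 2) (nat_lit 5) (nat_lit 2) (nat_lit 4) (nat_lit 312) (nat_lit 240) (nat_lit 228))))) (XT.nd (nat_lit 156) (nat_lit 0) (nat_lit 0) (XT.nd (nat_lit 78) (nat_lit 0) (nat_lit 0) (XT.lf (nat_lit 0) (nat_lit 334709704209) (nat_lit 76) (nat_lit 617604549496) (nat_lit 76) (nat_lit 617259698180)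 (nat_lit 1) (nat_lit 4) (nat_lit 2) (nat_lit 5) (nat_lit 2) (nat_lit 4) (nat_lit 313) (nat_lit 240) (nat_lit 227)) (XT.lf (nat_lit 0) (nat_lit 386928039663) (nat_lit 76) (nat_lit 709144645570) (nat_lit 76) (nat_lit 708791064882) (nat_lit 1) (nat_lit 4) (nat_lit 2) (nat_lit 5) (nat_lit 2) (nat_lit 4) (nat_lit 314) (nat_lit 240) (nat_lit 226))) (XT.nd (nat_lit 78) (nat_lit 0) (nat_lit 0) (XT.lf (nat_lit 0) (nat_lit 446917970105) (nat_lit 76) (nat_lit 814447333177) (nat_lit 76) (nat_lit 814086161729) (nat_lit 1) (nat_lit 4) (nat_lit 2) (nat_lit 5) (nat_lit 2) (nat_lit 4) (nat_lit 315) (nat_lit 240) (nat_lit 225)) (XT.nd (nat_lit 78) (nat_lit 0) (nat_lit 0) (XT.lf (nat_lit 0) (nat_lit 515853211565) (nat_lit 76) (nat_lit 935572882290) (nat_lit 76) (nat_lit 935205110182) (nat_lit 1) (nat_lit 4) (nat_lit 2) (nat_lit 5) (nat_lit 2) (nat_lit 4) (nat_lit 316) (nat_lit 240) (nat_lit 224)) (XT.lf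 (nat_lit 0) (nat_lit 595082497029) (nat_lit 76) (nat_lit 1074891140610) (nat_lit 76) (nat_lit 1074517628797) (nat_lit 1) (nat_lit 4) (nat_lit 2) (nat_lit 5) (nat_lit 2) (nat_lit 4) (nat_lit 317) (nat_lit 240) (nat_lit 223)))))) (XT.nd (nat_lit 390) (nat_lit 0) (nat_lit 0) (XT.nd (nat_lit 156) (nat_lit 0) (nat_lit 0) (XT.nd (nat_lit 78) (nat_lit 0) (nat_lit 0) (XT.lf (nat_lit 0) (nat_lit 686155964691) (nat_lit 76) (nat_lit 1235127900148) (nat_lit 76) (nat_lit 1234749397288) (nat_lit 1) (nat_lit 4) (nat_lit 2) (nat_lit 5) (nat_lit 2) (nat_lit 4) (nat_lit 318) (nat_lit 240) (nat_lit 222)) (XT.lf (nat_lit 0) (nat_lit 790855486743) (nat_lit 76) (nat_lit 1419418227938) (nat_lit 76) (nat_lit 1419035385036) (nat_lit 1) (nat_lit 4) (nat_lit 2) (nat_lit 5) (nat_lit 2) (nat_lit 4) (nat_lit 319) (nat_lit 240) (nat_lit 221))) (XT.nd (nat_lit 78) (nat_lit 0) (nat_lit 0) (XT.lf (nat_lit 0) (nat_lit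 911229532096) (nat_lit 76) (nat_lit 1631367804306) (nat_lit 76) (nat_lit 1630981187455) (nat_lit 1) (nat_lit 4) (nat_lit 2) (nat_lit 5) (nat_lit 2) (nat_lit 4) (nat_lit 320) (nat_lit 240) (nat_lit 220)) (XT.nd (nat_lit 78) (nat_lit 0) (nat_lit 0) (XT.lf (nat_lit 0) (nat_lit 1049633245114) (nat_lit 76) (nat_lit 1875123468790) (nat_lit 76) (nat_lit 1874733570244) (nat_lit 1) (nat_lit 4) (nat_lit 2) (nat_lit 5) (nat_lit 2) (nat_lit 4) (nat_lit 321) (nat_lit 240) (nat_lit 219)) (XT.lf (nat_lit 0) (nat_lit 1208774524532) (nat_lit 76) (nat_lit 2155454353956) (nat_lit 76) (nat_lit 2155061601763) (nat_lit 1) (nat_lit 4) (nat_lit 2) (nat_lit 5) (nat_lit 2) (nat_lit 4) (nat_lit 322) (nat_lit 240) (nat_lit 218))))) (XT.nd (nat_lit 156) (nat_lit 0) (nat_lit 0) (XT.nd (nat_lit 78) (nat_lit 0) (nat_lit 0) (XT.lf (nat_lit 0) (nat_lit 1391767004077) (nat_lit 76) (nat_lit 2477845194513) (nat_lit 76) (nat_lit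 2477449960888) (nat_lit 1) (nat_lit 4) (nat_lit 2) (nat_lit 5) (nat_lit 2) (nat_lit 4) (nat_lit 323) (nat_lit 240) (nat_lit 217)) (XT.lf (nat_lit 0) (nat_lit 1602190971392) (nat_lit 76) (nat_lit 2848603637343) (nat_lit 76) (nat_lit 2848206245950) (nat_lit 1) (nat_lit 4) (nat_lit 2) (nat_lit 5) (nat_lit 2) (nat_lit 4) (nat_lit 324) (nat_lit 240) (nat_lit 216))) (XT.nd (nat_lit 78) (nat_lit 0) (nat_lit 0) (XT.lf (nat_lit 0) (nat_lit 1844163417141) (nat_lit 76) (nat_lit 3274983651978) (nat_lit 76) (nat_lit 3274584384266) (nat_lit 1) (nat_lit 4) (nat_lit 2) (nat_lit 5) (nat_lit 2) (nat_lit 4) (nat_lit 325) (nat_lit 240) (nat_lit 215)) (XT.nd (nat_lit 78) (nat_lit 0) (nat_lit 0) (XT.lf (nat_lit 0) (nat_lit 2122418584830) (nat_lit 76) (nat_lit 3765327456097) (nat_lit 76) (nat_lit 3764926556802) (nat_lit 1) (nat_lit 4) (nat_lit 2) (nat_lit 5) (nat_lit 2) (nat_lit 4) (nat_lit 326) (nat_lit 240)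 (nat_lit 214)) (XT.lf (nat_lit 0) (nat_lit 2442400597303) (nat_lit 76) (nat_lit 4329228732824) (nat_lit 76) (nat_lit 4328826414762) (nat_lit 1) (nat_lit 4) (nat_lit 2) (nat_lit 5) (nat_lit 2) (nat_lit 4) (nat_lit 327) (nat_lit 240) (nat_lit 213))))))))
noncomputable def xc15 : XT := (XT.nd (nat_lit 1638) (nat_lit 0) (nat_lit 0) (XT.nd (nat_lit 780) (nat_lit 0) (nat_lit 0) (XT.nd (nat_lit 390) (nat_lit 0) (nat_lit 0) (XT.nd (nat_lit 156) (nat_lit 0) (nat_lit 0) (XT.nd (nat_lit 78) (nat_lit 0) (nat_lit 0) (XT.lf (nat_lit 0) (nat_lit 2810369972197) (nat_lit 76) (nat_lit 4977720333224) (nat_lit 76) (nat_lit 4977316781451) (nat_lit 1) (nat_lit 4) (nat_lit 2) (nat_lit 5) (nat_lit 2) (nat_lit 4) (nat_lit 328) (nat_lit 240) (nat_lit 212)) (XT.lf (nat_lit 0) (nat_lit 3233526110323) (nat_lit 76) (nat_lit 5723490136437) (nat_lit 76) (nat_lit 5723085511872) (nat_lit 1) (nat_lit 4) (nat_lit 2) (nat_lit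 5) (nat_lit 2) (nat_lit 4) (nat_lit 329) (nat_lit 240) (nat_lit 211))) (XT.nd (nat_lit 78) (nat_lit 0) (nat_lit 0) (XT.lf (nat_lit 0) (nat_lit 3720148153516) (nat_lit 76) (nat_lit 6581129290785) (nat_lit 76) (nat_lit 6580723733358) (nat_lit 1) (nat_lit 4) (nat_lit 2) (nat_lit 5) (nat_lit 2) (nat_lit 4) (nat_lit 330) (nat_lit 240) (nat_lit 210)) (XT.nd (nat_lit 78) (nat_lit 0) (nat_lit 0) (XT.lf (nat_lit 0) (nat_lit 4279756967838) (nat_lit 76) (nat_lit 7567417692768) (nat_lit 76) (nat_lit 7567011324156) (nat_lit 1) (nat_lit 4) (nat_lit 2) (nat_lit 5) (nat_lit 2) (nat_lit 4) (nat_lit 331) (nat_lit 240) (nat_lit 209)) (XT.lf (nat_lit 0) (nat_lit 4923301421395) (nat_lit 76) (nat_lit 8701652289379) (nat_lit 76) (nat_lit 8701245215389) (nat_lit 1) (nat_lit 4) (nat_lit 2) (nat_lit 5) (nat_lit 2) (nat_lit 4) (nat_lit 332) (nat_lit 240) (nat_lit 208))))) (XT.nd (nat_lit 156) (nat_lit 0) (nat_lit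 0) (XT.nd (nat_lit 78) (nat_lit 0) (nat_lit 0) (XT.lf (nat_lit 0) (nat_lit 5663372601321) (nat_lit 76) (nat_lit 10006024627076) (nat_lit 76) (nat_lit 10005616939714) (nat_lit 1) (nat_lit 4) (nat_lit 2) (nat_lit 5) (nat_lit 2) (nat_lit 4) (nat_lit 333) (nat_lit 240) (nat_lit 207)) (XT.lf (nat_lit 0) (nat_lit 6514450161138) (nat_lit 76) (nat_lit 11506055034203) (nat_lit 76) (nat_lit 11505646813474) (nat_lit 1) (nat_lit 4) (nat_lit 2) (nat_lit 5) (nat_lit 2) (nat_lit 4) (nat_lit 334) (nat_lit 240) (nat_lit 206))) (XT.nd (nat_lit 78) (nat_lit 0) (nat_lit 0) (XT.lf (nat_lit 0) (nat_lit 7493185618319) (nat_lit 76) (nat_lit 13231091931771) (nat_lit 76) (nat_lit 13230683247244) (nat_lit 1) (nat_lit 4) (nat_lit 2) (nat_lit 5) (nat_lit 2) (nat_lit 4) (nat_lit 335) (nat_lit 240) (nat_lit 205)) (XT.nd (nat_lit 78) (nat_lit 0) (nat_lit 0) (XT.lf (nat_lit 0) (nat_lit 8618728144853) (nat_lit 76) (nat_lit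 15214886041687) (nat_lit 76) (nat_lit 15214476953858) (nat_lit 1) (nat_lit 4) (nat_lit 2) (nat_lit 5) (nat_lit 2) (nat_lit 4) (nat_lit 336) (nat_lit 240) (nat_lit 204)) (XT.lf (nat_lit 0) (nat_lit 9913099224955) (nat_lit 76) (nat_lit 17496250726972) (nat_lit 76) (nat_lit 17495841288446) (nat_lit 1) (nat_lit 4) (nat_lit 2) (nat_lit 5) (nat_lit 2) (nat_lit 4) (nat_lit 337) (nat_lit 240) (nat_lit 203)))))) (XT.nd (nat_lit 390) (nat_lit 0) (nat_lit 0) (XT.nd (nat_lit 156) (nat_lit 0) (nat_lit 0) (XT.nd (nat_lit 78) (nat_lit 0) (nat_lit 0) (XT.lf (nat_lit 0) (nat_lit 11401623510193) (nat_lit 76) (nat_lit 20119821383643) (nat_lit 76) (nat_lit 20119411640162) (nat_lit 1) (nat_lit 4) (nat_lit 2) (nat_lit 5) (nat_lit 2) (nat_lit 4) (nat_lit 338) (nat_lit 240) (nat_lit 202)) (XT.lf (nat_lit 0) (nat_lit 13113424301798) (nat_lit 76) (nat_lit 23136928741939) (nat_lit 76) (nat_lit 23136518733280) (nat_lit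 1) (nat_lit 4) (nat_lit 2) (nat_lit 5) (nat_lit 2) (nat_lit 4) (nat_lit 339) (nat_lit 240) (nat_lit 201))) (XT.nd (nat_lit 78) (nat_lit 0) (nat_lit 0) (XT.lf (nat_lit 0) (nat_lit 15081993354390) (nat_lit 76) (nat_lit 26606603163217) (nat_lit 76) (nat_lit 26606192923969) (nat_lit 1) (nat_lit 4) (nat_lit 2) (nat_lit 5) (nat_lit 2) (nat_lit 4) (nat_lit 340) (nat_lit 240) (nat_lit 200)) (XT.nd (nat_lit 78) (nat_lit 0) (nat_lit 0) (XT.lf (nat_lit 0) (nat_lit 17345846149431) (nat_lit 76) (nat_lit 30596729581807) (nat_lit 76) (nat_lit 30596319142047) (nat_lit 1) (nat_lit 4) (nat_lit 2) (nat_lit 5) (nat_lit 2) (nat_lit 4) (nat_lit 341) (nat_lit 240) (nat_lit 199)) (XT.lf (nat_lit 0) (nat_lit 19949275459000) (nat_lit 76) (nat_lit 35185375688508) (nat_lit 76) (nat_lit 35184965074389) (nat_lit 1) (nat_lit 4) (nat_lit 2) (nat_lit 5) (nat_lit 2) (nat_lit 4) (nat_lit 342) (nat_lit 240) (nat_lit 198)))))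 (XT.nd (nat_lit 234) (nat_lit 0) (nat_lit 0) (XT.nd (nat_lit 78) (nat_lit 0) (nat_lit 0) (XT.lf (nat_lit 0) (nat_lit 22943217943501) (nat_lit 76) (nat_lit 40462319341929) (nat_lit 76) (nat_lit 40461908576194) (nat_lit 1) (nat_lit 4) (nat_lit 2) (nat_lit 5) (nat_lit 2) (nat_lit 4) (nat_lit 343) (nat_lit 240) (nat_lit 197)) (XT.lf (nat_lit 0) (nat_lit 26386250738499) (nat_lit 76) (nat_lit 46530805091810) (nat_lit 76) (nat_lit 46530394194235) (nat_lit 1) (nat_lit 4) (nat_lit 2) (nat_lit 5) (nat_lit 2) (nat_lit 4) (nat_lit 344) (nat_lit 240) (nat_lit 196))) (XT.nd (nat_lit 78) (nat_lit 0) (nat_lit 0) (XT.lf (nat_lit 0) (nat_lit 34899146535165) (nat_lit 76) (nat_lit 61535137548456) (nat_lit 76) (nat_lit 61534726436547) (nat_lit 1) (nat_lit 4) (nat_lit 2) (nat_lit 5) (nat_lit 2) (nat_lit 4) (nat_lit 346) (nat_lit 240) (nat_lit 194)) (XT.nd (nat_lit 78) (nat_lit 0) (nat_lit 0) (XT.lf (nat_lit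 0) (nat_lit 40135566193723) (nat_lit 76) (nat_lit 70764547281546) (nat_lit 76) (nat_lit 70764136082949) (nat_lit 1) (nat_lit 4) (nat_lit 2) (nat_lit 5) (nat_lit 2) (nat_lit 4) (nat_lit 347) (nat_lit 240) (nat_lit 193)) (XT.lf (nat_lit 0) (nat_lit 46157448193762) (nat_lit 76) (nat_lit 81378368788176) (nat_lit 76) (nat_lit 81377957514199) (nat_lit 1) (nat_lit 4) (nat_lit 2) (nat_lit 5) (nat_lit 2) (nat_lit 4) (nat_lit 348) (nat_lit 240) (nat_lit 192))))))) (XT.nd (nat_lit 37284) (nat_lit 0) (nat_lit 0) (XT.nd (nat_lit 36894) (nat_lit 0) (nat_lit 0) (XT.nd (nat_lit 36660) (nat_lit 0) (nat_lit 0) (XT.nd (nat_lit 78) (nat_lit 0) (nat_lit 0) (XT.lf (nat_lit 0) (nat_lit 53082611965717) (nat_lit 76) (nat_lit 93584263793476) (nat_lit 76) (nat_lit 93583852453952) (nat_lit 1) (nat_lit 4) (nat_lit 2) (nat_lit 5) (nat_lit 2) (nat_lit 4) (nat_lit 349) (nat_lit 240) (nat_lit 191)) (XT.lf (nat_lit 0)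 (nat_lit 61046549844257) (nat_lit 76) (nat_lit 107621043286680) (nat_lit 76) (nat_lit 107620631890157) (nat_lit 1) (nat_lit 4) (nat_lit 2) (nat_lit 5) (nat_lit 2) (nat_lit 4) (nat_lit 350) (nat_lit 240) (nat_lit 190))) (XT.nd (nat_lit 78) (nat_lit 0) (nat_lit 0) (XT.lf (nat_lit 0) (nat_lit 9471980597) (nat_lit 76) (nat_lit 43890394112) (nat_lit 76) (nat_lit 43890394112) (nat_lit 1) (nat_lit 4) (nat_lit 2) (nat_lit 5) (nat_lit 2) (nat_lit 4) (nat_lit 298) (nat_lit 241) (nat_lit 241)) (XT.nd (nat_lit 78) (nat_lit 0) (nat_lit 0) (XT.lf (nat_lit 0) (nat_lit 26877528938) (nat_lit 76) (nat_lit 98247670585) (nat_lit 76) (nat_lit 98185904109) (nat_lit 1) (nat_lit 4) (nat_lit 2) (nat_lit 5) (nat_lit 2) (nat_lit 4) (nat_lit 299) (nat_lit 241) (nat_lit 240)) (XT.lf (nat_lit 0) (nat_lit 35568414723) (nat_lit 76) (nat_lit 110508015715) (nat_lit 76) (nat_lit 110392539258) (nat_lit 1) (nat_lit 4) (nat_lit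 2) (nat_lit 5) (nat_lit 2) (nat_lit 4) (nat_lit 300) (nat_lit 241) (nat_lit 239))))) (XT.nd (nat_lit 156) (nat_lit 0) (nat_lit 0) (XT.nd (nat_lit 78) (nat_lit 0) (nat_lit 0) (XT.lf (nat_lit 0) (nat_lit 45186657617) (nat_lit 76) (nat_lit 124801699931) (nat_lit 76) (nat_lit 124639519145) (nat_lit 1) (nat_lit 4) (nat_lit 2) (nat_lit 5) (nat_lit 2) (nat_lit 4) (nat_lit 301) (nat_lit 241) (nat_lit 238)) (XT.lf (nat_lit 0) (nat_lit 55920440635) (nat_lit 76) (nat_lit 141408382274) (nat_lit 76) (nat_lit 141205589027) (nat_lit 1) (nat_lit 4) (nat_lit 2) (nat_lit 5) (nat_lit 2) (nat_lit 4) (nat_lit 302) (nat_lit 241) (nat_lit 237))) (XT.nd (nat_lit 78) (nat_lit 0) (nat_lit 0) (XT.lf (nat_lit 0) (nat_lit 67979772575) (nat_lit 76) (nat_lit 160652976094) (nat_lit 76) (nat_lit 160414867664) (nat_lit 1) (nat_lit 4) (nat_lit 2) (nat_lit 5) (nat_lit 2) (nat_lit 4) (nat_lit 303) (nat_lit 241) (nat_lit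 236)) (XT.nd (nat_lit 78) (nat_lit 0) (nat_lit 0) (XT.lf (nat_lit 0) (nat_lit 81600596887) (nat_lit 76) (nat_lit 182912006052) (nat_lit 76) (nat_lit 182643188767) (nat_lit 1) (nat_lit 4) (nat_lit 2) (nat_lit 5) (nat_lit 2) (nat_lit 4) (nat_lit 304) (nat_lit 241) (nat_lit 235)) (XT.lf (nat_lit 0) (nat_lit 97049407960) (nat_lit 76) (nat_lit 208620974909) (nat_lit 76) (nat_lit 208325454271) (nat_lit 1) (nat_lit 4) (nat_lit 2) (nat_lit 5) (nat_lit 2) (nat_lit 4) (nat_lit 305) (nat_lit 241) (nat_lit 234)))))) (XT.nd (nat_lit 390) (nat_lit 0) (nat_lit 0) (XT.nd (nat_lit 156) (nat_lit 0) (nat_lit 0) (XT.nd (nat_lit 78) (nat_lit 0) (nat_lit 0) (XT.lf (nat_lit 0) (nat_lit 114628465142) (nat_lit 76) (nat_lit 238282884228) (nat_lit 76) (nat_lit 237964143283) (nat_lit 1) (nat_lit 4) (nat_lit 2) (nat_lit 5) (nat_lit 2) (nat_lit 4) (nat_lit 306) (nat_lit 241) (nat_lit 233)) (XT.lf (nat_lit 0) (nat_lit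 134681706507) (nat_lit 76) (nat_lit 272478075714) (nat_lit 76) (nat_lit 272139143199) (nat_lit 1) (nat_lit 4) (nat_lit 2) (nat_lit 5) (nat_lit 2) (nat_lit 4) (nat_lit 307) (nat_lit 241) (nat_lit 232))) (XT.nd (nat_lit 78) (nat_lit 0) (nat_lit 0) (XT.lf (nat_lit 0) (nat_lit 157601478082) (nat_lit 76) (nat_lit 311875585723) (nat_lit 76) (nat_lit 311519095320) (nat_lit 1) (nat_lit 4) (nat_lit 2) (nat_lit 5) (nat_lit 2) (nat_lit 4) (nat_lit 308) (nat_lit 241) (nat_lit 231)) (XT.nd (nat_lit 78) (nat_lit 0) (nat_lit 0) (XT.lf (nat_lit 0) (nat_lit 183836210182) (nat_lit 76) (nat_lit 357246235101) (nat_lit 76) (nat_lit 356874476970) (nat_lit 1) (nat_lit 4) (nat_lit 2) (nat_lit 5) (nat_lit 2) (nat_lit 4) (nat_lit 309) (nat_lit 241) (nat_lit 230)) (XT.lf (nat_lit 0) (nat_lit 213899191041) (nat_lit 76) (nat_lit 409477710468) (nat_lit 76) (nat_lit 409092676051) (nat_lit 1) (nat_lit 4) (nat_lit 2)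 (nat_lit 5) (nat_lit 2) (nat_lit 4) (nat_lit 310) (nat_lit 241) (nat_lit 229))))) (XT.nd (nat_lit 234) (nat_lit 0) (nat_lit 0) (XT.nd (nat_lit 78) (nat_lit 0) (nat_lit 0) (XT.lf (nat_lit 0) (nat_lit 248378609417) (nat_lit 76) (nat_lit 469591931994) (nat_lit 76) (nat_lit 469195352981) (nat_lit 1) (nat_lit 4) (nat_lit 2) (nat_lit 5) (nat_lit 2) (nat_lit 4) (nat_lit 311) (nat_lit 241) (nat_lit 228)) (XT.nd (nat_lit 78) (nat_lit 0) (nat_lit 0) (XT.lf (nat_lit 0) (nat_lit 287949062626) (nat_lit 76) (nat_lit 538765047490) (nat_lit 76) (nat_lit 538358429698) (nat_lit 1) (nat_lit 4) (nat_lit 2) (nat_lit 5) (nat_lit 2) (nat_lit 4) (nat_lit 312) (nat_lit 241) (nat_lit 227)) (XT.lf (nat_lit 0) (nat_lit 333384755186) (nat_lit 76) (nat_lit 618350444000) (nat_lit 76) (nat_lit 617935096835) (nat_lit 1) (nat_lit 4) (nat_lit 2) (nat_lit 5) (nat_lit 2) (nat_lit 4) (nat_lit 313) (nat_lit 241) (nat_lit 226))))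 (XT.nd (nat_lit 78) (nat_lit 0) (nat_lit 0) (XT.lf (nat_lit 0) (nat_lit 385574646301) (nat_lit 76) (nat_lit 709905227108) (nat_lit 76) (nat_lit 709482289183) (nat_lit 1) (nat_lit 4) (nat_lit 2) (nat_lit 5) (nat_lit 2) (nat_lit 4) (nat_lit 314) (nat_lit 241) (nat_lit 225)) (XT.nd (nat_lit 78) (nat_lit 0) (nat_lit 0) (XT.lf (nat_lit 0) (nat_lit 445539842534) (nat_lit 76) (nat_lit 815220686047) (nat_lit 76) (nat_lit 814791147462) (nat_lit 1) (nat_lit 4) (nat_lit 2) (nat_lit 5) (nat_lit 2) (nat_lit 4) (nat_lit 315) (nat_lit 241) (nat_lit 224)) (XT.lf (nat_lit 0) (nat_lit 514453575988) (nat_lit 76) (nat_lit 936357340668) (nat_lit 76) (nat_lit 935922062378) (nat_lit 1) (nat_lit 4) (nat_lit 2) (nat_lit 5) (nat_lit 2) (nat_lit 4) (nat_lit 316) (nat_lit 241) (nat_lit 223))))))))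
noncomputable def xc16 : XT := (XT.nd (nat_lit 1560) (nat_lit 0) (nat_lit 0) (XT.nd (nat_lit 780) (nat_lit 0) (nat_lit 0) (XT.nd (nat_lit 390) (nat_lit 0) (nat_lit 0) (XT.nd (nat_lit 156) (nat_lit 0) (nat_lit 0) (XT.nd (nat_lit 78) (nat_lit 0) (nat_lit 0) (XT.lf (nat_lit 0) (nat_lit 593664158837) (nat_lit 76) (nat_lit 1075685255950) (nat_lit 76) (nat_lit 1075244986613) (nat_lit 1) (nat_lit 4) (nat_lit 2) (nat_lit 5) (nat_lit 2) (nat_lit 4) (nat_lit 317) (nat_lit 241) (nat_lit 222)) (XT.lf (nat_lit 0) (nat_lit 684721363355) (nat_lit 76) (nat_lit 1235930412847) (nat_lit 76) (nat_lit 1235485803469) (nat_lit 1) (nat_lit 4) (nat_lit 2) (nat_lit 5) (nat_lit 2) (nat_lit 4) (nat_lit 318) (nat_lit 241) (nat_lit 221))) (XT.nd (nat_lit 78) (nat_lit 0) (nat_lit 0) (XT.lf (nat_lit 0) (nat_lit 789406743543) (nat_lit 76) (nat_lit 1420228042688) (nat_lit 76) (nat_lit 1419779659361) (nat_lit 1) (nat_lit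 4) (nat_lit 2) (nat_lit 5) (nat_lit 2) (nat_lit 4) (nat_lit 319) (nat_lit 241) (nat_lit 220)) (XT.nd (nat_lit 78) (nat_lit 0) (nat_lit 0) (XT.lf (nat_lit 0) (nat_lit 909768491623) (nat_lit 76) (nat_lit 1632183968665) (nat_lit 76) (nat_lit 1631732303643) (nat_lit 1) (nat_lit 4) (nat_lit 2) (nat_lit 5) (nat_lit 2) (nat_lit 4) (nat_lit 320) (nat_lit 241) (nat_lit 219)) (XT.lf (nat_lit 0) (nat_lit 1048161511361) (nat_lit 76) (nat_lit 1875945154549) (nat_lit 76) (nat_lit 1875490635880) (nat_lit 1) (nat_lit 4) (nat_lit 2) (nat_lit 5) (nat_lit 2) (nat_lit 4) (nat_lit 321) (nat_lit 241) (nat_lit 218))))) (XT.nd (nat_lit 156) (nat_lit 0) (nat_lit 0) (XT.nd (nat_lit 78) (nat_lit 0) (nat_lit 0) (XT.lf (nat_lit 0) (nat_lit 1207293492274) (nat_lit 76) (nat_lit 2156280840932) (nat_lit 76) (nat_lit 2155823840830) (nat_lit 1) (nat_lit 4) (nat_lit 2) (nat_lit 5) (nat_lit 2) (nat_lit 4) (nat_lit 322) (nat_lit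 241) (nat_lit 217)) (XT.lf (nat_lit 0) (nat_lit 1390277886162) (nat_lit 76) (nat_lit 2478675856461) (nat_lit 76) (nat_lit 2478216698591) (nat_lit 1) (nat_lit 4) (nat_lit 2) (nat_lit 5) (nat_lit 2) (nat_lit 4) (nat_lit 323) (nat_lit 241) (nat_lit 216))) (XT.nd (nat_lit 78) (nat_lit 0) (nat_lit 0) (XT.lf (nat_lit 0) (nat_lit 1600694822471) (nat_lit 76) (nat_lit 2849437929701) (nat_lit 76) (nat_lit 2848976895511) (nat_lit 1) (nat_lit 4) (nat_lit 2) (nat_lit 5) (nat_lit 2) (nat_lit 4) (nat_lit 324) (nat_lit 241) (nat_lit 215)) (XT.nd (nat_lit 78) (nat_lit 0) (nat_lit 0) (XT.lf (nat_lit 0) (nat_lit 1842661154302) (nat_lit 76) (nat_lit 3275821101214) (nat_lit 76) (nat_lit 3275358435443) (nat_lit 1) (nat_lit 4) (nat_lit 2) (nat_lit 5) (nat_lit 2) (nat_lit 4) (nat_lit 325) (nat_lit 241) (nat_lit 214)) (XT.lf (nat_lit 0) (nat_lit 2120911005540) (nat_lit 76) (nat_lit 3766167650445) (nat_lit 76)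 (nat_lit 3765703565906) (nat_lit 1) (nat_lit 4) (nat_lit 2) (nat_lit 5) (nat_lit 2) (nat_lit 4) (nat_lit 326) (nat_lit 241) (nat_lit 213)))))) (XT.nd (nat_lit 390) (nat_lit 0) (nat_lit 0) (XT.nd (nat_lit 156) (nat_lit 0) (nat_lit 0) (XT.nd (nat_lit 78) (nat_lit 0) (nat_lit 0) (XT.lf (nat_lit 0) (nat_lit 2440888395013) (nat_lit 76) (nat_lit 4330071314225) (nat_lit 76) (nat_lit 4329605995975) (nat_lit 1) (nat_lit 4) (nat_lit 2) (nat_lit 5) (nat_lit 2) (nat_lit 4) (nat_lit 327) (nat_lit 241) (nat_lit 212)) (XT.lf (nat_lit 0) (nat_lit 2808853749907) (nat_lit 76) (nat_lit 4978564990324) (nat_lit 76) (nat_lit 4978098599282) (nat_lit 1) (nat_lit 4) (nat_lit 2) (nat_lit 5) (nat_lit 2) (nat_lit 4) (nat_lit 328) (nat_lit 241) (nat_lit 211))) (XT.nd (nat_lit 78) (nat_lit 0) (nat_lit 0) (XT.lf (nat_lit 0) (nat_lit 3232006392381) (nat_lit 76) (nat_lit 5724336598492) (nat_lit 76) (nat_lit 5723869274588)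 (nat_lit 1) (nat_lit 4) (nat_lit 2) (nat_lit 5) (nat_lit 2) (nat_lit 4) (nat_lit 329) (nat_lit 241) (nat_lit 210)) (XT.nd (nat_lit 78) (nat_lit 0) (nat_lit 0) (XT.lf (nat_lit 0) (nat_lit 3718625395876) (nat_lit 76) (nat_lit 6581977322366) (nat_lit 76) (nat_lit 6581509187278) (nat_lit 1) (nat_lit 4) (nat_lit 2) (nat_lit 5) (nat_lit 2) (nat_lit 4) (nat_lit 330) (nat_lit 241) (nat_lit 209)) (XT.lf (nat_lit 0) (nat_lit 4278231566982) (nat_lit 76) (nat_lit 7568267089154) (nat_lit 76) (nat_lit 7567798248688) (nat_lit 1) (nat_lit 4) (nat_lit 2) (nat_lit 5) (nat_lit 2) (nat_lit 4) (nat_lit 331) (nat_lit 241) (nat_lit 208))))) (XT.nd (nat_lit 156) (nat_lit 0) (nat_lit 0) (XT.nd (nat_lit 78) (nat_lit 0) (nat_lit 0) (XT.lf (nat_lit 0) (nat_lit 4921773722091) (nat_lit 76) (nat_lit 8702502872553) (nat_lit 76) (nat_lit 8702033418715) (nat_lit 1) (nat_lit 4) (nat_lit 2) (nat_lit 5) (nat_lit 2) (nat_lit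 4) (nat_lit 332) (nat_lit 241) (nat_lit 207)) (XT.lf (nat_lit 0) (nat_lit 5661842903366) (nat_lit 76) (nat_lit 10006876242239) (nat_lit 76) (nat_lit 10006406255033) (nat_lit 1) (nat_lit 4) (nat_lit 2) (nat_lit 5) (nat_lit 2) (nat_lit 4) (nat_lit 333) (nat_lit 241) (nat_lit 206))) (XT.nd (nat_lit 78) (nat_lit 0) (nat_lit 0) (XT.lf (nat_lit 0) (nat_lit 6512918725226) (nat_lit 76) (nat_lit 11506907546748) (nat_lit 76) (nat_lit 11506437095745) (nat_lit 1) (nat_lit 4) (nat_lit 2) (nat_lit 5) (nat_lit 2) (nat_lit 4) (nat_lit 334) (nat_lit 241) (nat_lit 205)) (XT.nd (nat_lit 78) (nat_lit 0) (nat_lit 0) (XT.lf (nat_lit 0) (nat_lit 7491652671140) (nat_lit 76) (nat_lit 13231945224648) (nat_lit 76) (nat_lit 13231474370342) (nat_lit 1) (nat_lit 4) (nat_lit 2) (nat_lit 5) (nat_lit 2) (nat_lit 4) (nat_lit 335) (nat_lit 241) (nat_lit 204)) (XT.lf (nat_lit 0) (nat_lit 8617193883529) (nat_lit 76) (nat_lit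 15215740013114) (nat_lit 76) (nat_lit 15215268808111) (nat_lit 1) (nat_lit 4) (nat_lit 2) (nat_lit 5) (nat_lit 2) (nat_lit 4) (nat_lit 336) (nat_lit 241) (nat_lit 203))))))) (XT.nd (nat_lit 780) (nat_lit 0) (nat_lit 0) (XT.nd (nat_lit 390) (nat_lit 0) (nat_lit 0) (XT.nd (nat_lit 156) (nat_lit 0) (nat_lit 0) (XT.nd (nat_lit 78) (nat_lit 0) (nat_lit 0) (XT.lf (nat_lit 0) (nat_lit 9911563820896) (nat_lit 76) (nat_lit 17497105288442) (nat_lit 76) (nat_lit 17496633778485) (nat_lit 1) (nat_lit 4) (nat_lit 2) (nat_lit 5) (nat_lit 2) (nat_lit 4) (nat_lit 337) (nat_lit 241) (nat_lit 202)) (XT.lf (nat_lit 0) (nat_lit 11400087112451) (nat_lit 76) (nat_lit 20120676458194) (nat_lit 76) (nat_lit 20120204683059) (nat_lit 1) (nat_lit 4) (nat_lit 2) (nat_lit 5) (nat_lit 2) (nat_lit 4) (nat_lit 338) (nat_lit 241) (nat_lit 201))) (XT.nd (nat_lit 78) (nat_lit 0) (nat_lit 0) (XT.lf (nat_lit 0) (nat_lit 13111887039984)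 (nat_lit 76) (nat_lit 23137784262647) (nat_lit 76) (nat_lit 23137312256922) (nat_lit 1) (nat_lit 4) (nat_lit 2) (nat_lit 5) (nat_lit 2) (nat_lit 4) (nat_lit 339) (nat_lit 241) (nat_lit 200)) (XT.nd (nat_lit 78) (nat_lit 0) (nat_lit 0) (XT.lf (nat_lit 0) (nat_lit 15080455341209) (nat_lit 76) (nat_lit 26607459071888) (nat_lit 76) (nat_lit 26606986865651) (nat_lit 1) (nat_lit 4) (nat_lit 2) (nat_lit 5) (nat_lit 2) (nat_lit 4) (nat_lit 340) (nat_lit 241) (nat_lit 199)) (XT.lf (nat_lit 0) (nat_lit 17344307482889) (nat_lit 76) (nat_lit 30597585827838) (nat_lit 76) (nat_lit 30597113447242) (nat_lit 1) (nat_lit 4) (nat_lit 2) (nat_lit 5) (nat_lit 2) (nat_lit 4) (nat_lit 341) (nat_lit 241) (nat_lit 198))))) (XT.nd (nat_lit 156) (nat_lit 0) (nat_lit 0) (XT.nd (nat_lit 78) (nat_lit 0) (nat_lit 0) (XT.lf (nat_lit 0) (nat_lit 19947736224316) (nat_lit 76) (nat_lit 35186232227894) (nat_lit 76) (nat_lit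 35185759695682) (nat_lit 1) (nat_lit 4) (nat_lit 2) (nat_lit 5) (nat_lit 2) (nat_lit 4) (nat_lit 342) (nat_lit 241) (nat_lit 197)) (XT.lf (nat_lit 0) (nat_lit 22941678214781) (nat_lit 76) (nat_lit 40463176136407) (nat_lit 76) (nat_lit 40462703472355) (nat_lit 1) (nat_lit 4) (nat_lit 2) (nat_lit 5) (nat_lit 2) (nat_lit 4) (nat_lit 343) (nat_lit 241) (nat_lit 196))) (XT.nd (nat_lit 78) (nat_lit 0) (nat_lit 0) (XT.lf (nat_lit 0) (nat_lit 26384710580183) (nat_lit 76) (nat_lit 46531662108107) (nat_lit 76) (nat_lit 46531189329411) (nat_lit 1) (nat_lit 4) (nat_lit 2) (nat_lit 5) (nat_lit 2) (nat_lit 4) (nat_lit 344) (nat_lit 241) (nat_lit 195)) (XT.nd (nat_lit 78) (nat_lit 0) (nat_lit 0) (XT.lf (nat_lit 0) (nat_lit 30344196997236) (nat_lit 76) (nat_lit 53510421390268) (nat_lit 76) (nat_lit 53509948511882) (nat_lit 1) (nat_lit 4) (nat_lit 2) (nat_lit 5) (nat_lit 2) (nat_lit 4) (nat_lit 345) (nat_lit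 241) (nat_lit 194)) (XT.lf (nat_lit 0) (nat_lit 34897605678450) (nat_lit 76) (nat_lit 61535994925366) (nat_lit 76) (nat_lit 61535521960293) (nat_lit 1) (nat_lit 4) (nat_lit 2) (nat_lit 5) (nat_lit 2) (nat_lit 4) (nat_lit 346) (nat_lit 241) (nat_lit 193)))))) (XT.nd (nat_lit 36738) (nat_lit 0) (nat_lit 0) (XT.nd (nat_lit 156) (nat_lit 0) (nat_lit 0) (XT.nd (nat_lit 78) (nat_lit 0) (nat_lit 0) (XT.lf (nat_lit 0) (nat_lit 40134025054542) (nat_lit 76) (nat_lit 70765404804305) (nat_lit 76) (nat_lit 70764931763853) (nat_lit 1) (nat_lit 4) (nat_lit 2) (nat_lit 5) (nat_lit 2) (nat_lit 4) (nat_lit 347) (nat_lit 241) (nat_lit 192)) (XT.lf (nat_lit 0) (nat_lit 46155906808957) (nat_lit 76) (nat_lit 81379226437761) (nat_lit 76) (nat_lit 81378753331761) (nat_lit 1) (nat_lit 4) (nat_lit 2) (nat_lit 5) (nat_lit 2) (nat_lit 4) (nat_lit 348) (nat_lit 241) (nat_lit 191))) (XT.nd (nat_lit 78) (nat_lit 0)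 (nat_lit 0) (XT.lf (nat_lit 0) (nat_lit 53081070367327) (nat_lit 76) (nat_lit 93585121553345) (nat_lit 76) (nat_lit 93584648390346) (nat_lit 1) (nat_lit 4) (nat_lit 2) (nat_lit 5) (nat_lit 2) (nat_lit 4) (nat_lit 349) (nat_lit 241) (nat_lit 190)) (XT.nd (nat_lit 36426) (nat_lit 0) (nat_lit 0) (XT.lf (nat_lit 0) (nat_lit 61045008060141) (nat_lit 76) (nat_lit 107621901142447) (nat_lit 76) (nat_lit 107621427929885) (nat_lit 1) (nat_lit 4) (nat_lit 2) (nat_lit 5) (nat_lit 2) (nat_lit 4) (nat_lit 350) (nat_lit 241) (nat_lit 189)) (XT.lf (nat_lit 0) (nat_lit 2502921701) (nat_lit 76) (nat_lit 35686471526) (nat_lit 76) (nat_lit 35686471526) (nat_lit 1) (nat_lit 4) (nat_lit 2) (nat_lit 5) (nat_lit 2) (nat_lit 4) (nat_lit 296) (nat_lit 242) (nat_lit 242))))) (XT.nd (nat_lit 156) (nat_lit 0) (nat_lit 0) (XT.nd (nat_lit 78) (nat_lit 0) (nat_lit 0) (XT.lf (nat_lit 0) (nat_lit 11612489513) (nat_lit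 76) (nat_lit 78973613254) (nat_lit 76) (nat_lit 78902581806) (nat_lit 1) (nat_lit 4) (nat_lit 2) (nat_lit 5) (nat_lit 2) (nat_lit 4) (nat_lit 297) (nat_lit 242) (nat_lit 241)) (XT.lf (nat_lit 0) (nat_lit 18712507850) (nat_lit 76) (nat_lit 87971328965) (nat_lit 76) (nat_lit 87838531041) (nat_lit 1) (nat_lit 4) (nat_lit 2) (nat_lit 5) (nat_lit 2) (nat_lit 4) (nat_lit 298) (nat_lit 242) (nat_lit 240))) (XT.nd (nat_lit 78) (nat_lit 0) (nat_lit 0) (XT.lf (nat_lit 0) (nat_lit 26444811817) (nat_lit 76) (nat_lit 98542132449) (nat_lit 76) (nat_lit 98355624545) (nat_lit 1) (nat_lit 4) (nat_lit 2) (nat_lit 5) (nat_lit 2) (nat_lit 4) (nat_lit 299) (nat_lit 242) (nat_lit 239)) (XT.nd (nat_lit 78) (nat_lit 0) (nat_lit 0) (XT.lf (nat_lit 0) (nat_lit 34960685621) (nat_lit 76) (nat_lit 110892843773) (nat_lit 76) (nat_lit 110659631538) (nat_lit 1) (nat_lit 4) (nat_lit 2) (nat_lit 5) (nat_lit 2) (nat_lit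 4) (nat_lit 300) (nat_lit 242) (nat_lit 238)) (XT.lf (nat_lit 0) (nat_lit 44426744185) (nat_lit 76) (nat_lit 125265107289) (nat_lit 76) (nat_lit 124991282594) (nat_lit 1) (nat_lit 4) (nat_lit 2) (nat_lit 5) (nat_lit 2) (nat_lit 4) (nat_lit 301) (nat_lit 242) (nat_lit 237))))))))
noncomputable def xc17 : XT := (XT.nd (nat_lit 1560) (nat_lit 0) (nat_lit 0) (XT.nd (nat_lit 780) (nat_lit 0) (nat_lit 0) (XT.nd (nat_lit 390) (nat_lit 0) (nat_lit 0) (XT.nd (nat_lit 156) (nat_lit 0) (nat_lit 0) (XT.nd (nat_lit 78) (nat_lit 0) (nat_lit 0) (XT.lf (nat_lit 0) (nat_lit 55028193003) (nat_lit 76) (nat_lit 141940119458) (nat_lit 76) (nat_lit 141630979579) (nat_lit 1) (nat_lit 4) (nat_lit 2) (nat_lit 5) (nat_lit 2) (nat_lit 4) (nat_lit 302) (nat_lit 242) (nat_lit 236)) (XT.lf (nat_lit 0) (nat_lit 66972451724) (nat_lit 76) (nat_lit 161244130517) (nat_lit 76) (nat_lit 160904281783) (nat_lit 1) (nat_lit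 4) (nat_lit 2) (nat_lit 5) (nat_lit 2) (nat_lit 4) (nat_lit 303) (nat_lit 242) (nat_lit 235))) (XT.nd (nat_lit 78) (nat_lit 0) (nat_lit 0) (XT.lf (nat_lit 0) (nat_lit 80493212369) (nat_lit 76) (nat_lit 183554827640) (nat_lit 76) (nat_lit 183188275554) (nat_lit 1) (nat_lit 4) (nat_lit 2) (nat_lit 5) (nat_lit 2) (nat_lit 4) (nat_lit 304) (nat_lit 242) (nat_lit 234)) (XT.nd (nat_lit 78) (nat_lit 0) (nat_lit 0) (XT.lf (nat_lit 0) (nat_lit 95855011557) (nat_lit 76) (nat_lit 209308724466) (nat_lit 76) (nat_lit 208918952074) (nat_lit 1) (nat_lit 4) (nat_lit 2) (nat_lit 5) (nat_lit 2) (nat_lit 4) (nat_lit 305) (nat_lit 242) (nat_lit 233)) (XT.lf (nat_lit 0) (nat_lit 113358406230) (nat_lit 76) (nat_lit 239009701585) (nat_lit 76) (nat_lit 238599737622) (nat_lit 1) (nat_lit 4) (nat_lit 2) (nat_lit 5) (nat_lit 2) (nat_lit 4) (nat_lit 306) (nat_lit 242) (nat_lit 232))))) (XT.nd (nat_lit 156) (nat_lit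 0) (nat_lit 0) (XT.nd (nat_lit 78) (nat_lit 0) (nat_lit 0) (XT.lf (nat_lit 0) (nat_lit 133345854109) (nat_lit 76) (nat_lit 273238865071) (nat_lit 76) (nat_lit 272811343220) (nat_lit 1) (nat_lit 4) (nat_lit 2) (nat_lit 5) (nat_lit 2) (nat_lit 4) (nat_lit 307) (nat_lit 242) (nat_lit 231)) (XT.lf (nat_lit 0) (nat_lit 156208413958) (nat_lit 76) (nat_lit 312665915948) (nat_lit 76) (nat_lit 312223126369) (nat_lit 1) (nat_lit 4) (nat_lit 2) (nat_lit 5) (nat_lit 2) (nat_lit 4) (nat_lit 308) (nat_lit 242) (nat_lit 230))) (XT.nd (nat_lit 78) (nat_lit 0) (nat_lit 0) (XT.lf (nat_lit 0) (nat_lit 182393396730) (nat_lit 76) (nat_lit 358062253039) (nat_lit 76) (nat_lit 357606187175) (nat_lit 1) (nat_lit 4) (nat_lit 2) (nat_lit 5) (nat_lit 2) (nat_lit 4) (nat_lit 309) (nat_lit 242) (nat_lit 229)) (XT.nd (nat_lit 78) (nat_lit 0) (nat_lit 0) (XT.lf (nat_lit 0) (nat_lit 212413117304) (nat_lit 76) (nat_lit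 410316065547) (nat_lit 76) (nat_lit 409848455087) (nat_lit 1) (nat_lit 4) (nat_lit 2) (nat_lit 5) (nat_lit 2) (nat_lit 4) (nat_lit 310) (nat_lit 242) (nat_lit 228)) (XT.lf (nat_lit 0) (nat_lit 246854918041) (nat_lit 76) (nat_lit 470449710674) (nat_lit 76) (nat_lit 469972061434) (nat_lit 1) (nat_lit 4) (nat_lit 2) (nat_lit 5) (nat_lit 2) (nat_lit 4) (nat_lit 311) (nat_lit 242) (nat_lit 227)))))) (XT.nd (nat_lit 390) (nat_lit 0) (nat_lit 0) (XT.nd (nat_lit 156) (nat_lit 0) (nat_lit 0) (XT.nd (nat_lit 78) (nat_lit 0) (nat_lit 0) (XT.lf (nat_lit 0) (nat_lit 286392660260) (nat_lit 76) (nat_lit 539639716259) (nat_lit 76) (nat_lit 539153337645) (nat_lit 1) (nat_lit 4) (nat_lit 2) (nat_lit 5) (nat_lit 2) (nat_lit 4) (nat_lit 312) (nat_lit 242) (nat_lit 226)) (XT.lf (nat_lit 0) (nat_lit 331799908480) (nat_lit 76) (nat_lit 619239799802) (nat_lit 76) (nat_lit 618745830429) (nat_lit 1) (nat_lit 4)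 (nat_lit 2) (nat_lit 5) (nat_lit 2) (nat_lit 4) (nat_lit 313) (nat_lit 242) (nat_lit 225))) (XT.nd (nat_lit 78) (nat_lit 0) (nat_lit 0) (XT.lf (nat_lit 0) (nat_lit 383965065386) (nat_lit 76) (nat_lit 710807354242) (nat_lit 76) (nat_lit 710306784209) (nat_lit 1) (nat_lit 4) (nat_lit 2) (nat_lit 5) (nat_lit 2) (nat_lit 4) (nat_lit 314) (nat_lit 242) (nat_lit 224)) (XT.nd (nat_lit 78) (nat_lit 0) (nat_lit 0) (XT.lf (nat_lit 0) (nat_lit 443908753613) (nat_lit 76) (nat_lit 816133918688) (nat_lit 76) (nat_lit 815627608951) (nat_lit 1) (nat_lit 4) (nat_lit 2) (nat_lit 5) (nat_lit 2) (nat_lit 4) (nat_lit 315) (nat_lit 242) (nat_lit 223)) (XT.lf (nat_lit 0) (nat_lit 512803784451) (nat_lit 76) (nat_lit 937280230271) (nat_lit 76) (nat_lit 936768929486) (nat_lit 1) (nat_lit 4) (nat_lit 2) (nat_lit 5) (nat_lit 2) (nat_lit 4) (nat_lit 316) (nat_lit 242) (nat_lit 222))))) (XT.nd (nat_lit 156) (nat_lit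 0) (nat_lit 0) (XT.nd (nat_lit 78) (nat_lit 0) (nat_lit 0) (XT.lf (nat_lit 0) (nat_lit 591998104157) (nat_lit 76) (nat_lit 1076616542913) (nat_lit 76) (nat_lit 1076100902087) (nat_lit 1) (nat_lit 4) (nat_lit 2) (nat_lit 5) (nat_lit 2) (nat_lit 4) (nat_lit 317) (nat_lit 242) (nat_lit 221)) (XT.lf (nat_lit 0) (nat_lit 683041166811) (nat_lit 76) (nat_lit 1236869001860) (nat_lit 76) (nat_lit 1236349587085) (nat_lit 1) (nat_lit 4) (nat_lit 2) (nat_lit 5) (nat_lit 2) (nat_lit 4) (nat_lit 318) (nat_lit 242) (nat_lit 220))) (XT.nd (nat_lit 78) (nat_lit 0) (nat_lit 0) (XT.lf (nat_lit 0) (nat_lit 787714249726) (nat_lit 76) (nat_lit 1421172981311) (nat_lit 76) (nat_lit 1420650284841) (nat_lit 1) (nat_lit 4) (nat_lit 2) (nat_lit 5) (nat_lit 2) (nat_lit 4) (nat_lit 319) (nat_lit 242) (nat_lit 219)) (XT.nd (nat_lit 78) (nat_lit 0) (nat_lit 0) (XT.lf (nat_lit 0) (nat_lit 908065304525) (nat_lit 76) (nat_lit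 1633134428688) (nat_lit 76) (nat_lit 1632608878571) (nat_lit 1) (nat_lit 4) (nat_lit 2) (nat_lit 5) (nat_lit 2) (nat_lit 4) (nat_lit 320) (nat_lit 242) (nat_lit 218)) (XT.lf (nat_lit 0) (nat_lit 1046449025758) (nat_lit 76) (nat_lit 1876900415789) (nat_lit 76) (nat_lit 1876372384239) (nat_lit 1) (nat_lit 4) (nat_lit 2) (nat_lit 5) (nat_lit 2) (nat_lit 4) (nat_lit 321) (nat_lit 242) (nat_lit 217))))))) (XT.nd (nat_lit 780) (nat_lit 0) (nat_lit 0) (XT.nd (nat_lit 390) (nat_lit 0) (nat_lit 0) (XT.nd (nat_lit 156) (nat_lit 0) (nat_lit 0) (XT.nd (nat_lit 78) (nat_lit 0) (nat_lit 0) (XT.lf (nat_lit 0) (nat_lit 1205572921014) (nat_lit 76) (nat_lit 2157240277143) (nat_lit 76) (nat_lit 2156710087826) (nat_lit 1) (nat_lit 4) (nat_lit 2) (nat_lit 5) (nat_lit 2) (nat_lit 4) (nat_lit 322) (nat_lit 242) (nat_lit 216)) (XT.lf (nat_lit 0) (nat_lit 1388550283897) (nat_lit 76) (nat_lit 2479638923082) (nat_lit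 76) (nat_lit 2479106857445) (nat_lit 1) (nat_lit 4) (nat_lit 2) (nat_lit 5) (nat_lit 2) (nat_lit 4) (nat_lit 323) (nat_lit 242) (nat_lit 215))) (XT.nd (nat_lit 78) (nat_lit 0) (nat_lit 0) (XT.lf (nat_lit 0) (nat_lit 1598961106288) (nat_lit 76) (nat_lit 2850404153200) (nat_lit 76) (nat_lit 2849870455980) (nat_lit 1) (nat_lit 4) (nat_lit 2) (nat_lit 5) (nat_lit 2) (nat_lit 4) (nat_lit 324) (nat_lit 242) (nat_lit 214)) (XT.nd (nat_lit 78) (nat_lit 0) (nat_lit 0) (XT.lf (nat_lit 0) (nat_lit 1840922121669) (nat_lit 76) (nat_lit 3276790069825) (nat_lit 76) (nat_lit 3276254953838) (nat_lit 1) (nat_lit 4) (nat_lit 2) (nat_lit 5) (nat_lit 2) (nat_lit 4) (nat_lit 325) (nat_lit 242) (nat_lit 213)) (XT.lf (nat_lit 0) (nat_lit 2119167349907) (nat_lit 76) (nat_lit 3767139006109) (nat_lit 76) (nat_lit 3766602656412) (nat_lit 1) (nat_lit 4) (nat_lit 2) (nat_lit 5) (nat_lit 2) (nat_lit 4) (nat_lit 326)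 (nat_lit 242) (nat_lit 212))))) (XT.nd (nat_lit 156) (nat_lit 0) (nat_lit 0) (XT.nd (nat_lit 78) (nat_lit 0) (nat_lit 0) (XT.lf (nat_lit 0) (nat_lit 2439140719379) (nat_lit 76) (nat_lit 4331044745588) (nat_lit 76) (nat_lit 4330507323098) (nat_lit 1) (nat_lit 4) (nat_lit 2) (nat_lit 5) (nat_lit 2) (nat_lit 4) (nat_lit 327) (nat_lit 242) (nat_lit 211)) (XT.lf (nat_lit 0) (nat_lit 2807102578620) (nat_lit 76) (nat_lit 4979540226642) (nat_lit 76) (nat_lit 4979001871290) (nat_lit 1) (nat_lit 4) (nat_lit 2) (nat_lit 5) (nat_lit 2) (nat_lit 4) (nat_lit 328) (nat_lit 242) (nat_lit 210))) (XT.nd (nat_lit 78) (nat_lit 0) (nat_lit 0) (XT.lf (nat_lit 0) (nat_lit 3230252181397) (nat_lit 76) (nat_lit 5725313404336) (nat_lit 76) (nat_lit 5724774237800) (nat_lit 1) (nat_lit 4) (nat_lit 2) (nat_lit 5) (nat_lit 2) (nat_lit 4) (nat_lit 329) (nat_lit 242) (nat_lit 209)) (XT.nd (nat_lit 78) (nat_lit 0) (nat_lit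 0) (XT.lf (nat_lit 0) (nat_lit 3716868541676) (nat_lit 76) (nat_lit 6582955493017) (nat_lit 76) (nat_lit 6582415621102) (nat_lit 1) (nat_lit 4) (nat_lit 2) (nat_lit 5) (nat_lit 2) (nat_lit 4) (nat_lit 330) (nat_lit 242) (nat_lit 208)) (XT.lf (nat_lit 0) (nat_lit 4276472414334) (nat_lit 76) (nat_lit 7569246446592) (nat_lit 76) (nat_lit 7568705961305) (nat_lit 1) (nat_lit 4) (nat_lit 2) (nat_lit 5) (nat_lit 2) (nat_lit 4) (nat_lit 331) (nat_lit 242) (nat_lit 207)))))) (XT.nd (nat_lit 390) (nat_lit 0) (nat_lit 0) (XT.nd (nat_lit 156) (nat_lit 0) (nat_lit 0) (XT.nd (nat_lit 78) (nat_lit 0) (nat_lit 0) (XT.lf (nat_lit 0) (nat_lit 4920012570792) (nat_lit 76) (nat_lit 8703483261980) (nat_lit 76) (nat_lit 8702942243326) (nat_lit 1) (nat_lit 4) (nat_lit 2) (nat_lit 5) (nat_lit 2) (nat_lit 4) (nat_lit 332) (nat_lit 242) (nat_lit 206)) (XT.lf (nat_lit 0) (nat_lit 5660080014111) (nat_lit 76) (nat_lit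 10007857529048) (nat_lit 76) (nat_lit 10007316046596) (nat_lit 1) (nat_lit 4) (nat_lit 2) (nat_lit 5) (nat_lit 2) (nat_lit 4) (nat_lit 333) (nat_lit 242) (nat_lit 205))) (XT.nd (nat_lit 78) (nat_lit 0) (nat_lit 0) (XT.lf (nat_lit 0) (nat_lit 6511154324703) (nat_lit 76) (nat_lit 11507889613889) (nat_lit 76) (nat_lit 11507347728135) (nat_lit 1) (nat_lit 4) (nat_lit 2) (nat_lit 5) (nat_lit 2) (nat_lit 4) (nat_lit 334) (nat_lit 242) (nat_lit 204)) (XT.nd (nat_lit 78) (nat_lit 0) (nat_lit 0) (XT.lf (nat_lit 0) (nat_lit 7489886956472) (nat_lit 76) (nat_lit 13232927970338) (nat_lit 76) (nat_lit 13232385733887) (nat_lit 1) (nat_lit 4) (nat_lit 2) (nat_lit 5) (nat_lit 2) (nat_lit 4) (nat_lit 335) (nat_lit 242) (nat_lit 203)) (XT.lf (nat_lit 0) (nat_lit 8615427026126) (nat_lit 76) (nat_lit 15216723348847) (nat_lit 76) (nat_lit 15216180807441) (nat_lit 1) (nat_lit 4) (nat_lit 2) (nat_lit 5) (nat_lit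 2) (nat_lit 4) (nat_lit 336) (nat_lit 242) (nat_lit 202))))) (XT.nd (nat_lit 234) (nat_lit 0) (nat_lit 0) (XT.nd (nat_lit 78) (nat_lit 0) (nat_lit 0) (XT.lf (nat_lit 0) (nat_lit 9909795969811) (nat_lit 76) (nat_lit 17498089137256) (nat_lit 76) (nat_lit 17497546330673) (nat_lit 1) (nat_lit 4) (nat_lit 2) (nat_lit 5) (nat_lit 2) (nat_lit 4) (nat_lit 337) (nat_lit 242) (nat_lit 201)) (XT.nd (nat_lit 78) (nat_lit 0) (nat_lit 0) (XT.lf (nat_lit 0) (nat_lit 11398318397294) (nat_lit 76) (nat_lit 20121660753166) (nat_lit 76) (nat_lit 20121117715993) (nat_lit 1) (nat_lit 4) (nat_lit 2) (nat_lit 5) (nat_lit 2) (nat_lit 4) (nat_lit 338) (nat_lit 242) (nat_lit 200)) (XT.lf (nat_lit 0) (nat_lit 13110117573460) (nat_lit 76) (nat_lit 23138768945582) (nat_lit 76) (nat_lit 23138225707897) (nat_lit 1) (nat_lit 4) (nat_lit 2) (nat_lit 5) (nat_lit 2) (nat_lit 4) (nat_lit 339) (nat_lit 242) (nat_lit 199))))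 (XT.nd (nat_lit 78) (nat_lit 0) (nat_lit 0) (XT.lf (nat_lit 0) (nat_lit 15078685221323) (nat_lit 76) (nat_lit 26608444092182) (nat_lit 76) (nat_lit 26607900680138) (nat_lit 1) (nat_lit 4) (nat_lit 2) (nat_lit 5) (nat_lit 2) (nat_lit 4) (nat_lit 340) (nat_lit 242) (nat_lit 198)) (XT.nd (nat_lit 78) (nat_lit 0) (nat_lit 0) (XT.lf (nat_lit 0) (nat_lit 17342536794861) (nat_lit 76) (nat_lit 30598571141487) (nat_lit 76) (nat_lit 30598027577827) (nat_lit 1) (nat_lit 4) (nat_lit 2) (nat_lit 5) (nat_lit 2) (nat_lit 4) (nat_lit 341) (nat_lit 242) (nat_lit 197)) (XT.lf (nat_lit 0) (nat_lit 19945965042252) (nat_lit 76) (nat_lit 35187217796635) (nat_lit 76) (nat_lit 35186674101135) (nat_lit 1) (nat_lit 4) (nat_lit 2) (nat_lit 5) (nat_lit 2) (nat_lit 4) (nat_lit 342) (nat_lit 242) (nat_lit 196))))))))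
noncomputable def xc18 : XT := (XT.nd (nat_lit 37752) (nat_lit 0) (nat_lit 0) (XT.nd (nat_lit 36972) (nat_lit 0) (nat_lit 0) (XT.nd (nat_lit 390) (nat_lit 0) (nat_lit 0) (XT.nd (nat_lit 156) (nat_lit 0) (nat_lit 0) (XT.nd (nat_lit 78) (nat_lit 0) (nat_lit 0) (XT.lf (nat_lit 0) (nat_lit 22939906603121) (nat_lit 76) (nat_lit 40464161926967) (nat_lit 76) (nat_lit 40463618116823) (nat_lit 1) (nat_lit 4) (nat_lit 2) (nat_lit 5) (nat_lit 2) (nat_lit 4) (nat_lit 343) (nat_lit 242) (nat_lit 195)) (XT.lf (nat_lit 0) (nat_lit 26382938594961) (nat_lit 76) (nat_lit 46532648091554) (nat_lit 76) (nat_lit 46532104181720) (nat_lit 1) (nat_lit 4) (nat_lit 2) (nat_lit 5) (nat_lit 2) (nat_lit 4) (nat_lit 344) (nat_lit 242) (nat_lit 194))) (XT.nd (nat_lit 78) (nat_lit 0) (nat_lit 0) (XT.lf (nat_lit 0) (nat_lit 30342424687178) (nat_lit 76) (nat_lit 53511407541442) (nat_lit 76) (nat_lit 53510863544920) (nat_lit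 1) (nat_lit 4) (nat_lit 2) (nat_lit 5) (nat_lit 2) (nat_lit 4) (nat_lit 345) (nat_lit 242) (nat_lit 193)) (XT.nd (nat_lit 78) (nat_lit 0) (nat_lit 0) (XT.lf (nat_lit 0) (nat_lit 34895833085924) (nat_lit 76) (nat_lit 61536981222389) (nat_lit 76) (nat_lit 61536437150488) (nat_lit 1) (nat_lit 4) (nat_lit 2) (nat_lit 5) (nat_lit 2) (nat_lit 4) (nat_lit 346) (nat_lit 242) (nat_lit 192)) (XT.lf (nat_lit 0) (nat_lit 40132252216393) (nat_lit 76) (nat_lit 70766391228155) (nat_lit 76) (nat_lit 70765847090706) (nat_lit 1) (nat_lit 4) (nat_lit 2) (nat_lit 5) (nat_lit 2) (nat_lit 4) (nat_lit 347) (nat_lit 242) (nat_lit 191))))) (XT.nd (nat_lit 156) (nat_lit 0) (nat_lit 0) (XT.nd (nat_lit 78) (nat_lit 0) (nat_lit 0) (XT.lf (nat_lit 0) (nat_lit 46154133757224) (nat_lit 76) (nat_lit 81380212971894) (nat_lit 76) (nat_lit 81379668777446) (nat_lit 1) (nat_lit 4) (nat_lit 2) (nat_lit 5) (nat_lit 2) (nat_lit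 4) (nat_lit 348) (nat_lit 242) (nat_lit 190)) (XT.lf (nat_lit 0) (nat_lit 53079297129867) (nat_lit 76) (nat_lit 93586108183376) (nat_lit 76) (nat_lit 93585563939365) (nat_lit 1) (nat_lit 4) (nat_lit 2) (nat_lit 5) (nat_lit 2) (nat_lit 4) (nat_lit 349) (nat_lit 242) (nat_lit 189))) (XT.nd (nat_lit 36270) (nat_lit 0) (nat_lit 76) (XT.lf (nat_lit 0) (nat_lit 61043234661179) (nat_lit 76) (nat_lit 107622887855868) (nat_lit 76) (nat_lit 107622343568759) (nat_lit 1) (nat_lit 4) (nat_lit 2) (nat_lit 5) (nat_lit 2) (nat_lit 4) (nat_lit 350) (nat_lit 242) (nat_lit 188)) (XT.nd (nat_lit 78) (nat_lit 0) (nat_lit 0) (XT.lf (nat_lit 0) (nat_lit 26535907226) (nat_lit 152) (nat_lit 3157046929) (nat_lit 0) (nat_lit 26535907226) (nat_lit 2) (nat_lit 5) (nat_lit 4) (nat_lit 4) (nat_lit 2) (nat_lit 4) (nat_lit 294) (nat_lit 243) (nat_lit 243)) (XT.lf (nat_lit 0) (nat_lit 63916813546) (nat_lit 152) (nat_lit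 1126592166) (nat_lit 0) (nat_lit 63835127381) (nat_lit 2) (nat_lit 5) (nat_lit 4) (nat_lit 4) (nat_lit 2) (nat_lit 4) (nat_lit 295) (nat_lit 243) (nat_lit 242)))))) (XT.nd (nat_lit 390) (nat_lit 0) (nat_lit 0) (XT.nd (nat_lit 156) (nat_lit 0) (nat_lit 0) (XT.nd (nat_lit 78) (nat_lit 0) (nat_lit 0) (XT.lf (nat_lit 0) (nat_lit 4739672057) (nat_lit 76) (nat_lit 71592064903) (nat_lit 76) (nat_lit 71439347290) (nat_lit 1) (nat_lit 4) (nat_lit 2) (nat_lit 5) (nat_lit 2) (nat_lit 4) (nat_lit 296) (nat_lit 243) (nat_lit 241)) (XT.lf (nat_lit 0) (nat_lit 11114864824) (nat_lit 76) (nat_lit 79312244398) (nat_lit 76) (nat_lit 79097760308) (nat_lit 1) (nat_lit 4) (nat_lit 2) (nat_lit 5) (nat_lit 2) (nat_lit 4) (nat_lit 297) (nat_lit 243) (nat_lit 240))) (XT.nd (nat_lit 78) (nat_lit 0) (nat_lit 0) (XT.lf (nat_lit 0) (nat_lit 18013619384) (nat_lit 76) (nat_lit 88413881232) (nat_lit 76) (nat_lit 88145687163)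 (nat_lit 1) (nat_lit 4) (nat_lit 2) (nat_lit 5) (nat_lit 2) (nat_lit 4) (nat_lit 298) (nat_lit 243) (nat_lit 239)) (XT.nd (nat_lit 78) (nat_lit 0) (nat_lit 0) (XT.lf (nat_lit 0) (nat_lit 25570911370) (nat_lit 76) (nat_lit 99075050910) (nat_lit 76) (nat_lit 98760152511) (nat_lit 1) (nat_lit 4) (nat_lit 2) (nat_lit 5) (nat_lit 2) (nat_lit 4) (nat_lit 299) (nat_lit 243) (nat_lit 238)) (XT.lf (nat_lit 0) (nat_lit 33934600844) (nat_lit 76) (nat_lit 111504341533) (nat_lit 76) (nat_lit 111148830673) (nat_lit 1) (nat_lit 4) (nat_lit 2) (nat_lit 5) (nat_lit 2) (nat_lit 4) (nat_lit 300) (nat_lit 243) (nat_lit 237))))) (XT.nd (nat_lit 156) (nat_lit 0) (nat_lit 0) (XT.nd (nat_lit 78) (nat_lit 0) (nat_lit 0) (XT.lf (nat_lit 0) (nat_lit 43268325207) (nat_lit 76) (nat_lit 125944934875) (nat_lit 76) (nat_lit 125554108831) (nat_lit 1) (nat_lit 4) (nat_lit 2) (nat_lit 5) (nat_lit 2) (nat_lit 4) (nat_lit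 301) (nat_lit 243) (nat_lit 236)) (XT.lf (nat_lit 0) (nat_lit 53754700807) (nat_lit 76) (nat_lit 142679364284) (nat_lit 76) (nat_lit 142257829385) (nat_lit 1) (nat_lit 4) (nat_lit 2) (nat_lit 5) (nat_lit 2) (nat_lit 4) (nat_lit 302) (nat_lit 243) (nat_lit 235))) (XT.nd (nat_lit 78) (nat_lit 0) (nat_lit 0) (XT.lf (nat_lit 0) (nat_lit 65598895861) (nat_lit 76) (nat_lit 162035042508) (nat_lit 76) (nat_lit 161586804257) (nat_lit 1) (nat_lit 4) (nat_lit 2) (nat_lit 5) (nat_lit 2) (nat_lit 4) (nat_lit 303) (nat_lit 243) (nat_lit 234)) (XT.nd (nat_lit 78) (nat_lit 0) (nat_lit 0) (XT.lf (nat_lit 0) (nat_lit 79032644620) (nat_lit 76) (nat_lit 184390667601) (nat_lit 76) (nat_lit 183919209043) (nat_lit 1) (nat_lit 4) (nat_lit 2) (nat_lit 5) (nat_lit 2) (nat_lit 4) (nat_lit 304) (nat_lit 243) (nat_lit 233)) (XT.lf (nat_lit 0) (nat_lit 94318781300) (nat_lit 76) (nat_lit 210183632226) (nat_lit 76)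 (nat_lit 209691982098) (nat_lit 1) (nat_lit 4) (nat_lit 2) (nat_lit 5) (nat_lit 2) (nat_lit 4) (nat_lit 305) (nat_lit 243) (nat_lit 232))))))) (XT.nd (nat_lit 780) (nat_lit 0) (nat_lit 0) (XT.nd (nat_lit 390) (nat_lit 0) (nat_lit 0) (XT.nd (nat_lit 156) (nat_lit 0) (nat_lit 0) (XT.nd (nat_lit 78) (nat_lit 0) (nat_lit 0) (XT.lf (nat_lit 0) (nat_lit 111756382487) (nat_lit 76) (nat_lit 239918581344) (nat_lit 76) (nat_lit 239409373328) (nat_lit 1) (nat_lit 4) (nat_lit 2) (nat_lit 5) (nat_lit 2) (nat_lit 4) (nat_lit 306) (nat_lit 243) (nat_lit 231)) (XT.lf (nat_lit 0) (nat_lit 131686618640) (nat_lit 76) (nat_lit 274177285700) (nat_lit 76) (nat_lit 273652809955) (nat_lit 1) (nat_lit 4) (nat_lit 2) (nat_lit 5) (nat_lit 2) (nat_lit 4) (nat_lit 307) (nat_lit 243) (nat_lit 230))) (XT.nd (nat_lit 78) (nat_lit 0) (nat_lit 0) (XT.lf (nat_lit 0) (nat_lit 154499429161) (nat_lit 76) (nat_lit 313630024290)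 (nat_lit 76) (nat_lit 313092272260) (nat_lit 1) (nat_lit 4) (nat_lit 2) (nat_lit 5) (nat_lit 2) (nat_lit 4) (nat_lit 308) (nat_lit 243) (nat_lit 229)) (XT.nd (nat_lit 78) (nat_lit 0) (nat_lit 0) (XT.lf (nat_lit 0) (nat_lit 180641151647) (nat_lit 76) (nat_lit 359048698522) (nat_lit 76) (nat_lit 358499401896) (nat_lit 1) (nat_lit 4) (nat_lit 2) (nat_lit 5) (nat_lit 2) (nat_lit 4) (nat_lit 309) (nat_lit 243) (nat_lit 228)) (XT.lf (nat_lit 0) (nat_lit 210623254583) (nat_lit 76) (nat_lit 411321934631) (nat_lit 76) (nat_lit 410762599226) (nat_lit 1) (nat_lit 4) (nat_lit 2) (nat_lit 5) (nat_lit 2) (nat_lit 4) (nat_lit 310) (nat_lit 243) (nat_lit 227))))) (XT.nd (nat_lit 156) (nat_lit 0) (nat_lit 0) (XT.nd (nat_lit 78) (nat_lit 0) (nat_lit 0) (XT.lf (nat_lit 0) (nat_lit 245032344330) (nat_lit 76) (nat_lit 471472469845) (nat_lit 76) (nat_lit 470904405067) (nat_lit 1) (nat_lit 4) (nat_lit 2) (nat_lit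 5) (nat_lit 2) (nat_lit 4) (nat_lit 311) (nat_lit 243) (nat_lit 226)) (XT.lf (nat_lit 0) (nat_lit 284541642208) (nat_lit 76) (nat_lit 540677162463) (nat_lit 76) (nat_lit 540101506925) (nat_lit 1) (nat_lit 4) (nat_lit 2) (nat_lit 5) (nat_lit 2) (nat_lit 4) (nat_lit 312) (nat_lit 243) (nat_lit 225))) (XT.nd (nat_lit 78) (nat_lit 0) (nat_lit 0) (XT.lf (nat_lit 0) (nat_lit 329924156221) (nat_lit 76) (nat_lit 620290017339) (nat_lit 76) (nat_lit 619707761141) (nat_lit 1) (nat_lit 4) (nat_lit 2) (nat_lit 5) (nat_lit 2) (nat_lit 4) (nat_lit 313) (nat_lit 243) (nat_lit 224)) (XT.nd (nat_lit 78) (nat_lit 0) (nat_lit 0) (XT.lf (nat_lit 0) (nat_lit 382067805120) (nat_lit 76) (nat_lit 711868677286) (nat_lit 76) (nat_lit 711280681384) (nat_lit 1) (nat_lit 4) (nat_lit 2) (nat_lit 5) (nat_lit 2) (nat_lit 4) (nat_lit 314) (nat_lit 243) (nat_lit 223)) (XT.lf (nat_lit 0) (nat_lit 441992790731) (nat_lit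 76) (nat_lit 817204898695) (nat_lit 76) (nat_lit 816611911745) (nat_lit 1) (nat_lit 4) (nat_lit 2) (nat_lit 5) (nat_lit 2) (nat_lit 4) (nat_lit 315) (nat_lit 243) (nat_lit 222)))))) (XT.nd (nat_lit 390) (nat_lit 0) (nat_lit 0) (XT.nd (nat_lit 156) (nat_lit 0) (nat_lit 0) (XT.nd (nat_lit 78) (nat_lit 0) (nat_lit 0) (XT.lf (nat_lit 0) (nat_lit 510871558426) (nat_lit 76) (nat_lit 938359607637) (nat_lit 76) (nat_lit 937762280645) (nat_lit 1) (nat_lit 4) (nat_lit 2) (nat_lit 5) (nat_lit 2) (nat_lit 4) (nat_lit 316) (nat_lit 243) (nat_lit 221)) (XT.lf (nat_lit 0) (nat_lit 590051736268) (nat_lit 76) (nat_lit 1077703222329) (nat_lit 76) (nat_lit 1077102121389) (nat_lit 1) (nat_lit 4) (nat_lit 2) (nat_lit 5) (nat_lit 2) (nat_lit 4) (nat_lit 317) (nat_lit 243) (nat_lit 220))) (XT.nd (nat_lit 78) (nat_lit 0) (nat_lit 0) (XT.lf (nat_lit 0) (nat_lit 681082501649) (nat_lit 76) (nat_lit 1237962030887)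 (nat_lit 76) (nat_lit 1237357648252) (nat_lit 1) (nat_lit 4) (nat_lit 2) (nat_lit 5) (nat_lit 2) (nat_lit 4) (nat_lit 318) (nat_lit 243) (nat_lit 219)) (XT.nd (nat_lit 78) (nat_lit 0) (nat_lit 0) (XT.lf (nat_lit 0) (nat_lit 785744891283) (nat_lit 76) (nat_lit 1422271531737) (nat_lit 76) (nat_lit 1421664295454) (nat_lit 1) (nat_lit 4) (nat_lit 2) (nat_lit 5) (nat_lit 2) (nat_lit 4) (nat_lit 319) (nat_lit 243) (nat_lit 218)) (XT.lf (nat_lit 0) (nat_lit 906086647577) (nat_lit 76) (nat_lit 1634237780331) (nat_lit 76) (nat_lit 1633628062616) (nat_lit 1) (nat_lit 4) (nat_lit 2) (nat_lit 5) (nat_lit 2) (nat_lit 4) (nat_lit 320) (nat_lit 243) (nat_lit 217))))) (XT.nd (nat_lit 156) (nat_lit 0) (nat_lit 0) (XT.nd (nat_lit 78) (nat_lit 0) (nat_lit 0) (XT.lf (nat_lit 0) (nat_lit 1044462283154) (nat_lit 76) (nat_lit 1878007942403) (nat_lit 76) (nat_lit 1877396066920) (nat_lit 1) (nat_lit 4) (nat_lit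 2) (nat_lit 5) (nat_lit 2) (nat_lit 4) (nat_lit 321) (nat_lit 243) (nat_lit 216)) (XT.lf (nat_lit 0) (nat_lit 1203579147404) (nat_lit 76) (nat_lit 2158351434168) (nat_lit 76) (nat_lit 2157737682365) (nat_lit 1) (nat_lit 4) (nat_lit 2) (nat_lit 5) (nat_lit 2) (nat_lit 4) (nat_lit 322) (nat_lit 243) (nat_lit 215))) (XT.nd (nat_lit 78) (nat_lit 0) (nat_lit 0) (XT.lf (nat_lit 0) (nat_lit 1386550396369) (nat_lit 76) (nat_lit 2480753236985) (nat_lit 76) (nat_lit 2480137853600) (nat_lit 1) (nat_lit 4) (nat_lit 2) (nat_lit 5) (nat_lit 2) (nat_lit 4) (nat_lit 323) (nat_lit 243) (nat_lit 214)) (XT.nd (nat_lit 78) (nat_lit 0) (nat_lit 0) (XT.lf (nat_lit 0) (nat_lit 1596955902309) (nat_lit 76) (nat_lit 2851521212214) (nat_lit 76) (nat_lit 2850904410062) (nat_lit 1) (nat_lit 4) (nat_lit 2) (nat_lit 5) (nat_lit 2) (nat_lit 4) (nat_lit 324) (nat_lit 243) (nat_lit 213)) (XT.lf (nat_lit 0) (nat_lit 1838912294690)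 (nat_lit 76) (nat_lit 3277909515893) (nat_lit 76) (nat_lit 3277291480030) (nat_lit 1) (nat_lit 4) (nat_lit 2) (nat_lit 5) (nat_lit 2) (nat_lit 4) (nat_lit 325) (nat_lit 243) (nat_lit 212))))))))
noncomputable def xc19 : XT := (XT.nd (nat_lit 1560) (nat_lit 0) (nat_lit 0) (XT.nd (nat_lit 780) (nat_lit 0) (nat_lit 0) (XT.nd (nat_lit 390) (nat_lit 0) (nat_lit 0) (XT.nd (nat_lit 156) (nat_lit 0) (nat_lit 0) (XT.nd (nat_lit 78) (nat_lit 0) (nat_lit 0) (XT.lf (nat_lit 0) (nat_lit 2117153502927) (nat_lit 76) (nat_lit 3768260527875) (nat_lit 76) (nat_lit 3767641419221) (nat_lit 1) (nat_lit 4) (nat_lit 2) (nat_lit 5) (nat_lit 2) (nat_lit 4) (nat_lit 326) (nat_lit 243) (nat_lit 211)) (XT.lf (nat_lit 0) (nat_lit 2437123376747) (nat_lit 76) (nat_lit 4332168072309) (nat_lit 76) (nat_lit 4331548030792) (nat_lit 1) (nat_lit 4) (nat_lit 2) (nat_lit 5) (nat_lit 2) (nat_lit 4) (nat_lit 327) (nat_lit 243)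 (nat_lit 210))) (XT.nd (nat_lit 78) (nat_lit 0) (nat_lit 0) (XT.lf (nat_lit 0) (nat_lit 2805082196290) (nat_lit 76) (nat_lit 4980665122890) (nat_lit 76) (nat_lit 4980044270188) (nat_lit 1) (nat_lit 4) (nat_lit 2) (nat_lit 5) (nat_lit 2) (nat_lit 4) (nat_lit 328) (nat_lit 243) (nat_lit 209)) (XT.nd (nat_lit 78) (nat_lit 0) (nat_lit 0) (XT.lf (nat_lit 0) (nat_lit 3228229155851) (nat_lit 76) (nat_lit 5726439665390) (nat_lit 76) (nat_lit 5725818107310) (nat_lit 1) (nat_lit 4) (nat_lit 2) (nat_lit 5) (nat_lit 2) (nat_lit 4) (nat_lit 329) (nat_lit 243) (nat_lit 208)) (XT.lf (nat_lit 0) (nat_lit 3714843217683) (nat_lit 76) (nat_lit 6584082940858) (nat_lit 76) (nat_lit 6583460769406) (nat_lit 1) (nat_lit 4) (nat_lit 2) (nat_lit 5) (nat_lit 2) (nat_lit 4) (nat_lit 330) (nat_lit 243) (nat_lit 207))))) (XT.nd (nat_lit 156) (nat_lit 0) (nat_lit 0) (XT.nd (nat_lit 78) (nat_lit 0) (nat_lit 0) (XT.lf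 (nat_lit 0) (nat_lit 4274445091690) (nat_lit 76) (nat_lit 7570374926422) (nat_lit 76) (nat_lit 7569752221603) (nat_lit 1) (nat_lit 4) (nat_lit 2) (nat_lit 5) (nat_lit 2) (nat_lit 4) (nat_lit 331) (nat_lit 243) (nat_lit 206)) (XT.lf (nat_lit 0) (nat_lit 4917983510191) (nat_lit 76) (nat_lit 8704612639192) (nat_lit 76) (nat_lit 8703989470575) (nat_lit 1) (nat_lit 4) (nat_lit 2) (nat_lit 5) (nat_lit 2) (nat_lit 4) (nat_lit 332) (nat_lit 243) (nat_lit 205))) (XT.nd (nat_lit 78) (nat_lit 0) (nat_lit 0) (XT.lf (nat_lit 0) (nat_lit 5658049442242) (nat_lit 76) (nat_lit 10008987686591) (nat_lit 76) (nat_lit 10008364114673) (nat_lit 1) (nat_lit 4) (nat_lit 2) (nat_lit 5) (nat_lit 2) (nat_lit 4) (nat_lit 333) (nat_lit 243) (nat_lit 204)) (XT.nd (nat_lit 78) (nat_lit 0) (nat_lit 0) (XT.lf (nat_lit 0) (nat_lit 6509122438690) (nat_lit 76) (nat_lit 11509020449982) (nat_lit 76) (nat_lit 11508396527366)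 (nat_lit 1) (nat_lit 4) (nat_lit 2) (nat_lit 5) (nat_lit 2) (nat_lit 4) (nat_lit 334) (nat_lit 243) (nat_lit 203)) (XT.lf (nat_lit 0) (nat_lit 7487853927724) (nat_lit 76) (nat_lit 13234059396474) (nat_lit 76) (nat_lit 13233435168904) (nat_lit 1) (nat_lit 4) (nat_lit 2) (nat_lit 5) (nat_lit 2) (nat_lit 4) (nat_lit 335) (nat_lit 243) (nat_lit 202)))))) (XT.nd (nat_lit 390) (nat_lit 0) (nat_lit 0) (XT.nd (nat_lit 156) (nat_lit 0) (nat_lit 0) (XT.nd (nat_lit 78) (nat_lit 0) (nat_lit 0) (XT.lf (nat_lit 0) (nat_lit 8613393003695) (nat_lit 76) (nat_lit 15217855288064) (nat_lit 76) (nat_lit 15217230795316) (nat_lit 1) (nat_lit 4) (nat_lit 2) (nat_lit 5) (nat_lit 2) (nat_lit 4) (nat_lit 336) (nat_lit 243) (nat_lit 201)) (XT.lf (nat_lit 0) (nat_lit 9907761083308) (nat_lit 76) (nat_lit 17499221522631) (nat_lit 76) (nat_lit 17498596799293) (nat_lit 1) (nat_lit 4) (nat_lit 2) (nat_lit 5) (nat_lit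 2) (nat_lit 4) (nat_lit 337) (nat_lit 243) (nat_lit 200))) (XT.nd (nat_lit 78) (nat_lit 0) (nat_lit 0) (XT.lf (nat_lit 0) (nat_lit 11396282759424) (nat_lit 76) (nat_lit 20122793526503) (nat_lit 76) (nat_lit 20122168602653) (nat_lit 1) (nat_lit 4) (nat_lit 2) (nat_lit 5) (nat_lit 2) (nat_lit 4) (nat_lit 338) (nat_lit 243) (nat_lit 199)) (XT.nd (nat_lit 78) (nat_lit 0) (nat_lit 0) (XT.lf (nat_lit 0) (nat_lit 13108081282228) (nat_lit 76) (nat_lit 23139902056278) (nat_lit 76) (nat_lit 23139276958069) (nat_lit 1) (nat_lit 4) (nat_lit 2) (nat_lit 5) (nat_lit 2) (nat_lit 4) (nat_lit 339) (nat_lit 243) (nat_lit 198)) (XT.lf (nat_lit 0) (nat_lit 15076648361949) (nat_lit 76) (nat_lit 26609577496234) (nat_lit 76) (nat_lit 26608952246409) (nat_lit 1) (nat_lit 4) (nat_lit 2) (nat_lit 5) (nat_lit 2) (nat_lit 4) (nat_lit 340) (nat_lit 243) (nat_lit 197))))) (XT.nd (nat_lit 156) (nat_lit 0) (nat_lit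 0) (XT.nd (nat_lit 78) (nat_lit 0) (nat_lit 0) (XT.lf (nat_lit 0) (nat_lit 17340499441452) (nat_lit 76) (nat_lit 30599704800631) (nat_lit 76) (nat_lit 30599079418966) (nat_lit 1) (nat_lit 4) (nat_lit 2) (nat_lit 5) (nat_lit 2) (nat_lit 4) (nat_lit 341) (nat_lit 243) (nat_lit 196)) (XT.lf (nat_lit 0) (nat_lit 19943927259247) (nat_lit 76) (nat_lit 35188351677599) (nat_lit 76) (nat_lit 35187726181290) (nat_lit 1) (nat_lit 4) (nat_lit 2) (nat_lit 5) (nat_lit 2) (nat_lit 4) (nat_lit 342) (nat_lit 243) (nat_lit 195))) (XT.nd (nat_lit 78) (nat_lit 0) (nat_lit 0) (XT.lf (nat_lit 0) (nat_lit 22937868446553) (nat_lit 76) (nat_lit 40465296000817) (nat_lit 76) (nat_lit 40464670404817) (nat_lit 1) (nat_lit 4) (nat_lit 2) (nat_lit 5) (nat_lit 2) (nat_lit 4) (nat_lit 343) (nat_lit 243) (nat_lit 194)) (XT.nd (nat_lit 78) (nat_lit 0) (nat_lit 0) (XT.lf (nat_lit 0) (nat_lit 26380900113556) (nat_lit 76)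 (nat_lit 46533782333130) (nat_lit 76) (nat_lit 46533156650444) (nat_lit 1) (nat_lit 4) (nat_lit 2) (nat_lit 5) (nat_lit 2) (nat_lit 4) (nat_lit 344) (nat_lit 243) (nat_lit 193)) (XT.lf (nat_lit 0) (nat_lit 30340385923307) (nat_lit 76) (nat_lit 53512541928868) (nat_lit 76) (nat_lit 53511916170801) (nat_lit 1) (nat_lit 4) (nat_lit 2) (nat_lit 5) (nat_lit 2) (nat_lit 4) (nat_lit 345) (nat_lit 243) (nat_lit 192))))))) (XT.nd (nat_lit 36816) (nat_lit 0) (nat_lit 0) (XT.nd (nat_lit 36426) (nat_lit 0) (nat_lit 0) (XT.nd (nat_lit 156) (nat_lit 0) (nat_lit 0) (XT.nd (nat_lit 78) (nat_lit 0) (nat_lit 0) (XT.lf (nat_lit 0) (nat_lit 34893794076430) (nat_lit 76) (nat_lit 61538115736641) (nat_lit 76) (nat_lit 61537489913027) (nat_lit 1) (nat_lit 4) (nat_lit 2) (nat_lit 5) (nat_lit 2) (nat_lit 4) (nat_lit 346) (nat_lit 243) (nat_lit 191)) (XT.lf (nat_lit 0) (nat_lit 40130212993314) (nat_lit 76) (nat_lit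 70767525852690) (nat_lit 76) (nat_lit 70766899972077) (nat_lit 1) (nat_lit 4) (nat_lit 2) (nat_lit 5) (nat_lit 2) (nat_lit 4) (nat_lit 347) (nat_lit 243) (nat_lit 190))) (XT.nd (nat_lit 78) (nat_lit 0) (nat_lit 0) (XT.lf (nat_lit 0) (nat_lit 46152094348418) (nat_lit 76) (nat_lit 81381347692328) (nat_lit 76) (nat_lit 81380721762151) (nat_lit 1) (nat_lit 4) (nat_lit 2) (nat_lit 5) (nat_lit 2) (nat_lit 4) (nat_lit 348) (nat_lit 243) (nat_lit 189)) (XT.nd (nat_lit 78) (nat_lit 0) (nat_lit 0) (XT.lf (nat_lit 0) (nat_lit 53077257559560) (nat_lit 76) (nat_lit 93587242987199) (nat_lit 76) (nat_lit 93586617013925) (nat_lit 1) (nat_lit 4) (nat_lit 2) (nat_lit 5) (nat_lit 2) (nat_lit 4) (nat_lit 349) (nat_lit 243) (nat_lit 188)) (XT.lf (nat_lit 0) (nat_lit 61041194950437) (nat_lit 76) (nat_lit 107624022732205) (nat_lit 76) (nat_lit 107623396721453) (nat_lit 1) (nat_lit 4) (nat_lit 2) (nat_lit 5)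 (nat_lit 2) (nat_lit 4) (nat_lit 350) (nat_lit 243) (nat_lit 187))))) (XT.nd (nat_lit 156) (nat_lit 76) (nat_lit 0) (XT.nd (nat_lit 78) (nat_lit 0) (nat_lit 0) (XT.lf (nat_lit 0) (nat_lit 17463205796) (nat_lit 152) (nat_lit 8000475711) (nat_lit 0) (nat_lit 17463205796) (nat_lit 2) (nat_lit 5) (nat_lit 4) (nat_lit 4) (nat_lit 2) (nat_lit 4) (nat_lit 292) (nat_lit 244) (nat_lit 244)) (XT.lf (nat_lit 0) (nat_lit 43482234295) (nat_lit 152) (nat_lit 11346285998) (nat_lit 0) (nat_lit 43388295205) (nat_lit 2) (nat_lit 5) (nat_lit 4) (nat_lit 4) (nat_lit 2) (nat_lit 4) (nat_lit 293) (nat_lit 244) (nat_lit 243))) (XT.nd (nat_lit 78) (nat_lit 76) (nat_lit 0) (XT.lf (nat_lit 0) (nat_lit 53030382361) (nat_lit 152) (nat_lit 6592940030) (nat_lit 0) (nat_lit 52854757105) (nat_lit 2) (nat_lit 5) (nat_lit 4) (nat_lit 4) (nat_lit 2) (nat_lit 4) (nat_lit 294) (nat_lit 244) (nat_lit 242)) (XT.nd (nat_lit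 78) (nat_lit 76) (nat_lit 0) (XT.lf (nat_lit 0) (nat_lit 63757667382) (nat_lit 152) (nat_lit 1647913270) (nat_lit 0) (nat_lit 63511010678) (nat_lit 2) (nat_lit 5) (nat_lit 4) (nat_lit 4) (nat_lit 2) (nat_lit 4) (nat_lit 295) (nat_lit 244) (nat_lit 241)) (XT.lf (nat_lit 0) (nat_lit 3935950321) (nat_lit 76) (nat_lit 72101000010) (nat_lit 76) (nat_lit 71792576830) (nat_lit 1) (nat_lit 4) (nat_lit 2) (nat_lit 5) (nat_lit 2) (nat_lit 4) (nat_lit 296) (nat_lit 244) (nat_lit 240)))))) (XT.nd (nat_lit 390) (nat_lit 0) (nat_lit 0) (XT.nd (nat_lit 156) (nat_lit 0) (nat_lit 0) (XT.nd (nat_lit 78) (nat_lit 0) (nat_lit 0) (XT.lf (nat_lit 0) (nat_lit 10109879310) (nat_lit 76) (nat_lit 79925100628) (nat_lit 76) (nat_lit 79562967469) (nat_lit 1) (nat_lit 4) (nat_lit 2) (nat_lit 5) (nat_lit 2) (nat_lit 4) (nat_lit 297) (nat_lit 244) (nat_lit 239)) (XT.lf (nat_lit 0) (nat_lit 16833621890) (nat_lit 76)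 (nat_lit 89117103657) (nat_lit 76) (nat_lit 88708266168) (nat_lit 1) (nat_lit 4) (nat_lit 2) (nat_lit 5) (nat_lit 2) (nat_lit 4) (nat_lit 298) (nat_lit 244) (nat_lit 238))) (XT.nd (nat_lit 78) (nat_lit 0) (nat_lit 0) (XT.lf (nat_lit 0) (nat_lit 24238729545) (nat_lit 76) (nat_lit 99856852634) (nat_lit 76) (nat_lit 99407402684) (nat_lit 1) (nat_lit 4) (nat_lit 2) (nat_lit 5) (nat_lit 2) (nat_lit 4) (nat_lit 299) (nat_lit 244) (nat_lit 237)) (XT.nd (nat_lit 78) (nat_lit 0) (nat_lit 0) (XT.lf (nat_lit 0) (nat_lit 32470084819) (nat_lit 76) (nat_lit 112354473083) (nat_lit 76) (nat_lit 111869707949) (nat_lit 1) (nat_lit 4) (nat_lit 2) (nat_lit 5) (nat_lit 2) (nat_lit 4) (nat_lit 300) (nat_lit 244) (nat_lit 236)) (XT.lf (nat_lit 0) (nat_lit 41688735964) (nat_lit 76) (nat_lit 126854483665) (nat_lit 76) (nat_lit 126339009676) (nat_lit 1) (nat_lit 4) (nat_lit 2) (nat_lit 5) (nat_lit 2) (nat_lit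 4) (nat_lit 301) (nat_lit 244) (nat_lit 235))))) (XT.nd (nat_lit 234) (nat_lit 0) (nat_lit 0) (XT.nd (nat_lit 78) (nat_lit 0) (nat_lit 0) (XT.lf (nat_lit 0) (nat_lit 52075047896) (nat_lit 76) (nat_lit 143640580238) (nat_lit 76) (nat_lit 143098402897) (nat_lit 1) (nat_lit 4) (nat_lit 2) (nat_lit 5) (nat_lit 2) (nat_lit 4) (nat_lit 302) (nat_lit 244) (nat_lit 234)) (XT.nd (nat_lit 78) (nat_lit 0) (nat_lit 0) (XT.lf (nat_lit 0) (nat_lit 63832231065) (nat_lit 76) (nat_lit 163041186432) (nat_lit 76) (nat_lit 162475788784) (nat_lit 1) (nat_lit 4) (nat_lit 2) (nat_lit 5) (nat_lit 2) (nat_lit 4) (nat_lit 303) (nat_lit 244) (nat_lit 233)) (XT.lf (nat_lit 0) (nat_lit 77190317316) (nat_lit 76) (nat_lit 185435879324) (nat_lit 76) (nat_lit 184850290106) (nat_lit 1) (nat_lit 4) (nat_lit 2) (nat_lit 5) (nat_lit 2) (nat_lit 4) (nat_lit 304) (nat_lit 244) (nat_lit 232)))) (XT.nd (nat_lit 78) (nat_lit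 0) (nat_lit 0) (XT.lf (nat_lit 0) (nat_lit 92410660510) (nat_lit 76) (nat_lit 211262815949) (nat_lit 76) (nat_lit 210659668843) (nat_lit 1) (nat_lit 4) (nat_lit 2) (nat_lit 5) (nat_lit 2) (nat_lit 4) (nat_lit 305) (nat_lit 244) (nat_lit 231)) (XT.nd (nat_lit 78) (nat_lit 0) (nat_lit 0) (XT.lf (nat_lit 0) (nat_lit 109791049970) (nat_lit 76) (nat_lit 241027305937) (nat_lit 76) (nat_lit 240408891103) (nat_lit 1) (nat_lit 4) (nat_lit 2) (nat_lit 5) (nat_lit 2) (nat_lit 4) (nat_lit 306) (nat_lit 244) (nat_lit 230)) (XT.lf (nat_lit 0) (nat_lit 129671536795) (nat_lit 76) (nat_lit 275311698004) (nat_lit 76) (nat_lit 274680006885) (nat_lit 1) (nat_lit 4) (nat_lit 2) (nat_lit 5) (nat_lit 2) (nat_lit 4) (nat_lit 307) (nat_lit 244) (nat_lit 229))))))))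
noncomputable def xc20 : XT := (XT.nd (nat_lit 1560) (nat_lit 0) (nat_lit 0) (XT.nd (nat_lit 780) (nat_lit 0) (nat_lit 0) (XT.nd (nat_lit 390) (nat_lit 0) (nat_lit 0) (XT.nd (nat_lit 156) (nat_lit 0) (nat_lit 0) (XT.nd (nat_lit 78) (nat_lit 0) (nat_lit 0) (XT.lf (nat_lit 0) (nat_lit 152441087031) (nat_lit 76) (nat_lit 314786773736) (nat_lit 76) (nat_lit 314143538020) (nat_lit 1) (nat_lit 4) (nat_lit 2) (nat_lit 5) (nat_lit 2) (nat_lit 4) (nat_lit 308) (nat_lit 244) (nat_lit 228)) (XT.lf (nat_lit 0) (nat_lit 178545191879) (nat_lit 76) (nat_lit 360224871569) (nat_lit 76) (nat_lit 359571597074) (nat_lit 1) (nat_lit 4) (nat_lit 2) (nat_lit 5) (nat_lit 2) (nat_lit 4) (nat_lit 309) (nat_lit 244) (nat_lit 227))) (XT.nd (nat_lit 78) (nat_lit 0) (nat_lit 0) (XT.lf (nat_lit 0) (nat_lit 208494583824) (nat_lit 76) (nat_lit 412514997766) (nat_lit 76) (nat_lit 411852993897) (nat_lit 1) (nat_lit 4)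 (nat_lit 2) (nat_lit 5) (nat_lit 2) (nat_lit 4) (nat_lit 310) (nat_lit 244) (nat_lit 226)) (XT.nd (nat_lit 78) (nat_lit 0) (nat_lit 0) (XT.lf (nat_lit 0) (nat_lit 242875229231) (nat_lit 76) (nat_lit 472680220013) (nat_lit 76) (nat_lit 472010625386) (nat_lit 1) (nat_lit 4) (nat_lit 2) (nat_lit 5) (nat_lit 2) (nat_lit 4) (nat_lit 311) (nat_lit 244) (nat_lit 225)) (XT.lf (nat_lit 0) (nat_lit 282359792901) (nat_lit 76) (nat_lit 541897683964) (nat_lit 76) (nat_lit 541221488676) (nat_lit 1) (nat_lit 4) (nat_lit 2) (nat_lit 5) (nat_lit 2) (nat_lit 4) (nat_lit 312) (nat_lit 244) (nat_lit 224))))) (XT.nd (nat_lit 156) (nat_lit 0) (nat_lit 0) (XT.nd (nat_lit 78) (nat_lit 0) (nat_lit 0) (XT.lf (nat_lit 0) (nat_lit 327720798907) (nat_lit 76) (nat_lit 621521644347) (nat_lit 76) (nat_lit 620839709354) (nat_lit 1) (nat_lit 4) (nat_lit 2) (nat_lit 5) (nat_lit 2) (nat_lit 4) (nat_lit 313) (nat_lit 244)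 (nat_lit 223)) (XT.lf (nat_lit 0) (nat_lit 379845745190) (nat_lit 76) (nat_lit 713109961257) (nat_lit 76) (nat_lit 712423035216) (nat_lit 1) (nat_lit 4) (nat_lit 2) (nat_lit 5) (nat_lit 2) (nat_lit 4) (nat_lit 314) (nat_lit 244) (nat_lit 222))) (XT.nd (nat_lit 78) (nat_lit 0) (nat_lit 0) (XT.lf (nat_lit 0) (nat_lit 439754467658) (nat_lit 76) (nat_lit 818454580024) (nat_lit 76) (nat_lit 817763313943) (nat_lit 1) (nat_lit 4) (nat_lit 2) (nat_lit 5) (nat_lit 2) (nat_lit 4) (nat_lit 315) (nat_lit 244) (nat_lit 221)) (XT.nd (nat_lit 78) (nat_lit 0) (nat_lit 0) (XT.lf (nat_lit 0) (nat_lit 508619093489) (nat_lit 76) (nat_lit 939616591017) (nat_lit 76) (nat_lit 938921550987) (nat_lit 1) (nat_lit 4) (nat_lit 2) (nat_lit 5) (nat_lit 2) (nat_lit 4) (nat_lit 316) (nat_lit 244) (nat_lit 220)) (XT.lf (nat_lit 0) (nat_lit 587786974058) (nat_lit 76) (nat_lit 1078966555319) (nat_lit 76) (nat_lit 1078268233594)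 (nat_lit 1) (nat_lit 4) (nat_lit 2) (nat_lit 5) (nat_lit 2) (nat_lit 4) (nat_lit 317) (nat_lit 244) (nat_lit 219)))))) (XT.nd (nat_lit 390) (nat_lit 0) (nat_lit 0) (XT.nd (nat_lit 156) (nat_lit 0) (nat_lit 0) (XT.nd (nat_lit 78) (nat_lit 0) (nat_lit 0) (XT.lf (nat_lit 0) (nat_lit 678807046159) (nat_lit 76) (nat_lit 1239230885276) (nat_lit 76) (nat_lit 1238529709903) (nat_lit 1) (nat_lit 4) (nat_lit 2) (nat_lit 5) (nat_lit 2) (nat_lit 4) (nat_lit 318) (nat_lit 244) (nat_lit 218)) (XT.lf (nat_lit 0) (nat_lit 783460137288) (nat_lit 76) (nat_lit 1423545187343) (nat_lit 76) (nat_lit 1422841530538) (nat_lit 1) (nat_lit 4) (nat_lit 2) (nat_lit 5) (nat_lit 2) (nat_lit 4) (nat_lit 319) (nat_lit 244) (nat_lit 217))) (XT.nd (nat_lit 78) (nat_lit 0) (nat_lit 0) (XT.lf (nat_lit 0) (nat_lit 903793807925) (nat_lit 76) (nat_lit 1635515610909) (nat_lit 76) (nat_lit 1634809796336) (nat_lit 1) (nat_lit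 4) (nat_lit 2) (nat_lit 5) (nat_lit 2) (nat_lit 4) (nat_lit 320) (nat_lit 244) (nat_lit 216)) (XT.nd (nat_lit 78) (nat_lit 0) (nat_lit 0) (XT.lf (nat_lit 0) (nat_lit 1042162412496) (nat_lit 76) (nat_lit 1879289403391) (nat_lit 76) (nat_lit 1878581712499) (nat_lit 1) (nat_lit 4) (nat_lit 2) (nat_lit 5) (nat_lit 2) (nat_lit 4) (nat_lit 321) (nat_lit 244) (nat_lit 215)) (XT.lf (nat_lit 0) (nat_lit 1201273162829) (nat_lit 76) (nat_lit 2159636052034) (nat_lit 76) (nat_lit 2158926729559) (nat_lit 1) (nat_lit 4) (nat_lit 2) (nat_lit 5) (nat_lit 2) (nat_lit 4) (nat_lit 322) (nat_lit 244) (nat_lit 214))))) (XT.nd (nat_lit 156) (nat_lit 0) (nat_lit 0) (XT.nd (nat_lit 78) (nat_lit 0) (nat_lit 0) (XT.lf (nat_lit 0) (nat_lit 1384239095343) (nat_lit 76) (nat_lit 2482040599963) (nat_lit 76) (nat_lit 2481329858720) (nat_lit 1) (nat_lit 4) (nat_lit 2) (nat_lit 5) (nat_lit 2) (nat_lit 4) (nat_lit 323)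 (nat_lit 244) (nat_lit 213)) (XT.lf (nat_lit 0) (nat_lit 1594639978283) (nat_lit 76) (nat_lit 2852810962245) (nat_lit 76) (nat_lit 2852098987293) (nat_lit 1) (nat_lit 4) (nat_lit 2) (nat_lit 5) (nat_lit 2) (nat_lit 4) (nat_lit 324) (nat_lit 244) (nat_lit 212))) (XT.nd (nat_lit 78) (nat_lit 0) (nat_lit 0) (XT.lf (nat_lit 0) (nat_lit 1836592350663) (nat_lit 76) (nat_lit 3279201341623) (nat_lit 76) (nat_lit 3278488293878) (nat_lit 1) (nat_lit 4) (nat_lit 2) (nat_lit 5) (nat_lit 2) (nat_lit 4) (nat_lit 325) (nat_lit 244) (nat_lit 211)) (XT.nd (nat_lit 78) (nat_lit 0) (nat_lit 0) (XT.lf (nat_lit 0) (nat_lit 2114830063248) (nat_lit 76) (nat_lit 3769554158560) (nat_lit 76) (nat_lit 3768840177953) (nat_lit 1) (nat_lit 4) (nat_lit 2) (nat_lit 5) (nat_lit 2) (nat_lit 4) (nat_lit 326) (nat_lit 244) (nat_lit 210)) (XT.lf (nat_lit 0) (nat_lit 2434796897371) (nat_lit 76) (nat_lit 4333463272521) (nat_lit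 76) (nat_lit 4332748480729) (nat_lit 1) (nat_lit 4) (nat_lit 2) (nat_lit 5) (nat_lit 2) (nat_lit 4) (nat_lit 327) (nat_lit 244) (nat_lit 209))))))) (XT.nd (nat_lit 780) (nat_lit 0) (nat_lit 0) (XT.nd (nat_lit 390) (nat_lit 0) (nat_lit 0) (XT.nd (nat_lit 156) (nat_lit 0) (nat_lit 0) (XT.nd (nat_lit 78) (nat_lit 0) (nat_lit 0) (XT.lf (nat_lit 0) (nat_lit 2802753073698) (nat_lit 76) (nat_lit 4981961687907) (nat_lit 76) (nat_lit 4981246190737) (nat_lit 1) (nat_lit 4) (nat_lit 2) (nat_lit 5) (nat_lit 2) (nat_lit 4) (nat_lit 328) (nat_lit 244) (nat_lit 208)) (XT.lf (nat_lit 0) (nat_lit 3225897734811) (nat_lit 76) (nat_lit 5727737417194) (nat_lit 76) (nat_lit 5727021306652) (nat_lit 1) (nat_lit 4) (nat_lit 2) (nat_lit 5) (nat_lit 2) (nat_lit 4) (nat_lit 329) (nat_lit 244) (nat_lit 207))) (XT.nd (nat_lit 78) (nat_lit 0) (nat_lit 0) (XT.lf (nat_lit 0) (nat_lit 3712509797992) (nat_lit 76) (nat_lit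 6585381724651) (nat_lit 76) (nat_lit 6584665080742) (nat_lit 1) (nat_lit 4) (nat_lit 2) (nat_lit 5) (nat_lit 2) (nat_lit 4) (nat_lit 330) (nat_lit 244) (nat_lit 206)) (XT.nd (nat_lit 78) (nat_lit 0) (nat_lit 0) (XT.lf (nat_lit 0) (nat_lit 4272109934042) (nat_lit 76) (nat_lit 7571674607597) (nat_lit 76) (nat_lit 7570957499891) (nat_lit 1) (nat_lit 4) (nat_lit 2) (nat_lit 5) (nat_lit 2) (nat_lit 4) (nat_lit 331) (nat_lit 244) (nat_lit 205)) (XT.lf (nat_lit 0) (nat_lit 4915646841275) (nat_lit 76) (nat_lit 8705913100699) (nat_lit 76) (nat_lit 8705195589691) (nat_lit 1) (nat_lit 4) (nat_lit 2) (nat_lit 5) (nat_lit 2) (nat_lit 4) (nat_lit 332) (nat_lit 244) (nat_lit 204))))) (XT.nd (nat_lit 156) (nat_lit 0) (nat_lit 0) (XT.nd (nat_lit 78) (nat_lit 0) (nat_lit 0) (XT.lf (nat_lit 0) (nat_lit 5655711459182) (nat_lit 76) (nat_lit 10010288826648) (nat_lit 76) (nat_lit 10009570964942) (nat_lit 1)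 (nat_lit 4) (nat_lit 2) (nat_lit 5) (nat_lit 2) (nat_lit 4) (nat_lit 333) (nat_lit 244) (nat_lit 203)) (XT.lf (nat_lit 0) (nat_lit 6506783312894) (nat_lit 76) (nat_lit 11510322180082) (nat_lit 76) (nat_lit 11509604013422) (nat_lit 1) (nat_lit 4) (nat_lit 2) (nat_lit 5) (nat_lit 2) (nat_lit 4) (nat_lit 334) (nat_lit 244) (nat_lit 202))) (XT.nd (nat_lit 78) (nat_lit 0) (nat_lit 0) (XT.lf (nat_lit 0) (nat_lit 7485513808245) (nat_lit 76) (nat_lit 13235361639655) (nat_lit 76) (nat_lit 13234643207817) (nat_lit 1) (nat_lit 4) (nat_lit 2) (nat_lit 5) (nat_lit 2) (nat_lit 4) (nat_lit 335) (nat_lit 244) (nat_lit 201)) (XT.nd (nat_lit 78) (nat_lit 0) (nat_lit 0) (XT.lf (nat_lit 0) (nat_lit 8611052020145) (nat_lit 76) (nat_lit 15219157977403) (nat_lit 76) (nat_lit 15218439314975) (nat_lit 1) (nat_lit 4) (nat_lit 2) (nat_lit 5) (nat_lit 2) (nat_lit 4) (nat_lit 336) (nat_lit 244) (nat_lit 200)) (XT.lf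 (nat_lit 0) (nat_lit 9905419348391) (nat_lit 76) (nat_lit 17500524599933) (nat_lit 76) (nat_lit 17499805736992) (nat_lit 1) (nat_lit 4) (nat_lit 2) (nat_lit 5) (nat_lit 2) (nat_lit 4) (nat_lit 337) (nat_lit 244) (nat_lit 199)))))) (XT.nd (nat_lit 390) (nat_lit 0) (nat_lit 0) (XT.nd (nat_lit 156) (nat_lit 0) (nat_lit 0) (XT.nd (nat_lit 78) (nat_lit 0) (nat_lit 0) (XT.lf (nat_lit 0) (nat_lit 11393940371145) (nat_lit 76) (nat_lit 20124096941164) (nat_lit 76) (nat_lit 20123377903865) (nat_lit 1) (nat_lit 4) (nat_lit 2) (nat_lit 5) (nat_lit 2) (nat_lit 4) (nat_lit 338) (nat_lit 244) (nat_lit 198)) (XT.lf (nat_lit 0) (nat_lit 13105738325808) (nat_lit 76) (nat_lit 23141205764294) (nat_lit 76) (nat_lit 23140486575379) (nat_lit 1) (nat_lit 4) (nat_lit 2) (nat_lit 5) (nat_lit 2) (nat_lit 4) (nat_lit 339) (nat_lit 244) (nat_lit 197))) (XT.nd (nat_lit 78) (nat_lit 0) (nat_lit 0) (XT.lf (nat_lit 0)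 (nat_lit 15074304911493) (nat_lit 76) (nat_lit 26610881459342) (nat_lit 76) (nat_lit 26610162138587) (nat_lit 1) (nat_lit 4) (nat_lit 2) (nat_lit 5) (nat_lit 2) (nat_lit 4) (nat_lit 340) (nat_lit 244) (nat_lit 196)) (XT.nd (nat_lit 78) (nat_lit 0) (nat_lit 0) (XT.lf (nat_lit 0) (nat_lit 17338155561399) (nat_lit 76) (nat_lit 30601008985558) (nat_lit 76) (nat_lit 30600289550159) (nat_lit 1) (nat_lit 4) (nat_lit 2) (nat_lit 5) (nat_lit 2) (nat_lit 4) (nat_lit 341) (nat_lit 244) (nat_lit 195)) (XT.lf (nat_lit 0) (nat_lit 19941583005632) (nat_lit 76) (nat_lit 35189656055412) (nat_lit 76) (nat_lit 35188936520323) (nat_lit 1) (nat_lit 4) (nat_lit 2) (nat_lit 5) (nat_lit 2) (nat_lit 4) (nat_lit 342) (nat_lit 244) (nat_lit 194))))) (XT.nd (nat_lit 156) (nat_lit 0) (nat_lit 0) (XT.nd (nat_lit 78) (nat_lit 0) (nat_lit 0) (XT.lf (nat_lit 0) (nat_lit 22935523868101) (nat_lit 76) (nat_lit 40466600546357)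 (nat_lit 76) (nat_lit 40465880924581) (nat_lit 1) (nat_lit 4) (nat_lit 2) (nat_lit 5) (nat_lit 2) (nat_lit 4) (nat_lit 343) (nat_lit 244) (nat_lit 193)) (XT.lf (nat_lit 0) (nat_lit 26378555252638) (nat_lit 76) (nat_lit 46535087024520) (nat_lit 76) (nat_lit 46534367327364) (nat_lit 1) (nat_lit 4) (nat_lit 2) (nat_lit 5) (nat_lit 2) (nat_lit 4) (nat_lit 344) (nat_lit 244) (nat_lit 192))) (XT.nd (nat_lit 78) (nat_lit 0) (nat_lit 0) (XT.lf (nat_lit 0) (nat_lit 30338040816765) (nat_lit 76) (nat_lit 53513846747084) (nat_lit 76) (nat_lit 53513126984379) (nat_lit 1) (nat_lit 4) (nat_lit 2) (nat_lit 5) (nat_lit 2) (nat_lit 4) (nat_lit 345) (nat_lit 244) (nat_lit 191)) (XT.nd (nat_lit 78) (nat_lit 0) (nat_lit 0) (XT.lf (nat_lit 0) (nat_lit 34891448756304) (nat_lit 76) (nat_lit 61539420665140) (nat_lit 76) (nat_lit 61538700845438) (nat_lit 1) (nat_lit 4) (nat_lit 2) (nat_lit 5) (nat_lit 2) (nat_lit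 4) (nat_lit 346) (nat_lit 244) (nat_lit 190)) (XT.lf (nat_lit 0) (nat_lit 40127867487461) (nat_lit 76) (nat_lit 70768830877087) (nat_lit 76) (nat_lit 70768111007821) (nat_lit 1) (nat_lit 4) (nat_lit 2) (nat_lit 5) (nat_lit 2) (nat_lit 4) (nat_lit 347) (nat_lit 244) (nat_lit 189))))))))
noncomputable def xc21 : XT := (XT.nd (nat_lit 37518) (nat_lit 0) (nat_lit 0) (XT.nd (nat_lit 36738) (nat_lit 0) (nat_lit 0) (XT.nd (nat_lit 36348) (nat_lit 0) (nat_lit 0) (XT.nd (nat_lit 36114) (nat_lit 0) (nat_lit 76) (XT.nd (nat_lit 78) (nat_lit 0) (nat_lit 0) (XT.lf (nat_lit 0) (nat_lit 46149748681063) (nat_lit 76) (nat_lit 81382652800115) (nat_lit 76) (nat_lit 81381932887750) (nat_lit 1) (nat_lit 4) (nat_lit 2) (nat_lit 5) (nat_lit 2) (nat_lit 4) (nat_lit 348) (nat_lit 244) (nat_lit 188)) (XT.lf (nat_lit 0) (nat_lit 53074911751770) (nat_lit 76) (nat_lit 93588548167500) (nat_lit 76) (nat_lit 93587828217658)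 (nat_lit 1) (nat_lit 4) (nat_lit 2) (nat_lit 5) (nat_lit 2) (nat_lit 4) (nat_lit 349) (nat_lit 244) (nat_lit 187))) (XT.nd (nat_lit 78) (nat_lit 0) (nat_lit 0) (XT.lf (nat_lit 0) (nat_lit 10212677203) (nat_lit 152) (nat_lit 12504797912) (nat_lit 0) (nat_lit 10212677203) (nat_lit 2) (nat_lit 5) (nat_lit 4) (nat_lit 4) (nat_lit 2) (nat_lit 4) (nat_lit 290) (nat_lit 245) (nat_lit 245)) (XT.nd (nat_lit 78) (nat_lit 0) (nat_lit 0) (XT.lf (nat_lit 0) (nat_lit 27303547676) (nat_lit 152) (nat_lit 20648005841) (nat_lit 0) (nat_lit 27195517723) (nat_lit 2) (nat_lit 5) (nat_lit 4) (nat_lit 4) (nat_lit 2) (nat_lit 4) (nat_lit 291) (nat_lit 245) (nat_lit 244)) (XT.lf (nat_lit 0) (nat_lit 34878764687) (nat_lit 152) (nat_lit 16321624519) (nat_lit 0) (nat_lit 34676795643) (nat_lit 2) (nat_lit 5) (nat_lit 4) (nat_lit 4) (nat_lit 2) (nat_lit 4) (nat_lit 292) (nat_lit 245) (nat_lit 243))))) (XT.nd (nat_lit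 156) (nat_lit 76) (nat_lit 0) (XT.nd (nat_lit 78) (nat_lit 0) (nat_lit 0) (XT.lf (nat_lit 0) (nat_lit 43299216207) (nat_lit 152) (nat_lit 11945805267) (nat_lit 0) (nat_lit 43015560998) (nat_lit 2) (nat_lit 5) (nat_lit 4) (nat_lit 4) (nat_lit 2) (nat_lit 4) (nat_lit 293) (nat_lit 245) (nat_lit 242)) (XT.lf (nat_lit 0) (nat_lit 52729650200) (nat_lit 152) (nat_lit 7434934230) (nat_lit 0) (nat_lit 52374963543) (nat_lit 2) (nat_lit 5) (nat_lit 4) (nat_lit 4) (nat_lit 2) (nat_lit 4) (nat_lit 294) (nat_lit 245) (nat_lit 241))) (XT.nd (nat_lit 78) (nat_lit 76) (nat_lit 0) (XT.lf (nat_lit 0) (nat_lit 63354575159) (nat_lit 152) (nat_lit 2700755236) (nat_lit 0) (nat_lit 62938122025) (nat_lit 2) (nat_lit 5) (nat_lit 4) (nat_lit 4) (nat_lit 2) (nat_lit 4) (nat_lit 295) (nat_lit 245) (nat_lit 240)) (XT.nd (nat_lit 78) (nat_lit 0) (nat_lit 0) (XT.lf (nat_lit 0) (nat_lit 2578953203) (nat_lit 76) (nat_lit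 72909705798) (nat_lit 76) (nat_lit 72439542685) (nat_lit 1) (nat_lit 4) (nat_lit 2) (nat_lit 5) (nat_lit 2) (nat_lit 4) (nat_lit 296) (nat_lit 245) (nat_lit 239)) (XT.lf (nat_lit 0) (nat_lit 8577870211) (nat_lit 76) (nat_lit 80824172611) (nat_lit 76) (nat_lit 80307305168) (nat_lit 1) (nat_lit 4) (nat_lit 2) (nat_lit 5) (nat_lit 2) (nat_lit 4) (nat_lit 297) (nat_lit 245) (nat_lit 238)))))) (XT.nd (nat_lit 390) (nat_lit 0) (nat_lit 0) (XT.nd (nat_lit 156) (nat_lit 0) (nat_lit 0) (XT.nd (nat_lit 78) (nat_lit 0) (nat_lit 0) (XT.lf (nat_lit 0) (nat_lit 15149428461) (nat_lit 76) (nat_lit 90094754939) (nat_lit 76) (nat_lit 89537275035) (nat_lit 1) (nat_lit 4) (nat_lit 2) (nat_lit 5) (nat_lit 2) (nat_lit 4) (nat_lit 298) (nat_lit 245) (nat_lit 237)) (XT.lf (nat_lit 0) (nat_lit 22422201916) (nat_lit 76) (nat_lit 100902833742) (nat_lit 76) (nat_lit 100310038655) (nat_lit 1) (nat_lit 4) (nat_lit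 2) (nat_lit 5) (nat_lit 2) (nat_lit 4) (nat_lit 299) (nat_lit 245) (nat_lit 236))) (XT.nd (nat_lit 78) (nat_lit 0) (nat_lit 0) (XT.lf (nat_lit 0) (nat_lit 30538483971) (nat_lit 76) (nat_lit 113459871431) (nat_lit 76) (nat_lit 112836367488) (nat_lit 1) (nat_lit 4) (nat_lit 2) (nat_lit 5) (nat_lit 2) (nat_lit 4) (nat_lit 300) (nat_lit 245) (nat_lit 235)) (XT.nd (nat_lit 78) (nat_lit 0) (nat_lit 0) (XT.lf (nat_lit 0) (nat_lit 39657071449) (nat_lit 76) (nat_lit 128011549177) (nat_lit 76) (nat_lit 127361341883) (nat_lit 1) (nat_lit 4) (nat_lit 2) (nat_lit 5) (nat_lit 2) (nat_lit 4) (nat_lit 301) (nat_lit 245) (nat_lit 234)) (XT.lf (nat_lit 0) (nat_lit 49956371496) (nat_lit 76) (nat_lit 144842573720) (nat_lit 76) (nat_lit 144169146119) (nat_lit 1) (nat_lit 4) (nat_lit 2) (nat_lit 5) (nat_lit 2) (nat_lit 4) (nat_lit 302) (nat_lit 245) (nat_lit 233))))) (XT.nd (nat_lit 156) (nat_lit 0) (nat_lit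 0) (XT.nd (nat_lit 78) (nat_lit 0) (nat_lit 0) (XT.lf (nat_lit 0) (nat_lit 61637892156) (nat_lit 76) (nat_lit 164282247714) (nat_lit 76) (nat_lit 163588628542) (nat_lit 1) (nat_lit 4) (nat_lit 2) (nat_lit 5) (nat_lit 2) (nat_lit 4) (nat_lit 303) (nat_lit 245) (nat_lit 232)) (XT.lf (nat_lit 0) (nat_lit 74930184921) (nat_lit 76) (nat_lit 186710912605) (nat_lit 76) (nat_lit 185999735546) (nat_lit 1) (nat_lit 4) (nat_lit 2) (nat_lit 5) (nat_lit 2) (nat_lit 4) (nat_lit 304) (nat_lit 245) (nat_lit 231))) (XT.nd (nat_lit 78) (nat_lit 0) (nat_lit 0) (XT.lf (nat_lit 0) (nat_lit 90093316388) (nat_lit 76) (nat_lit 212567390100) (nat_lit 76) (nat_lit 211840945312) (nat_lit 1) (nat_lit 4) (nat_lit 2) (nat_lit 5) (nat_lit 2) (nat_lit 4) (nat_lit 305) (nat_lit 245) (nat_lit 230)) (XT.nd (nat_lit 78) (nat_lit 0) (nat_lit 0) (XT.lf (nat_lit 0) (nat_lit 107423956521) (nat_lit 76) (nat_lit 242357567800)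 (nat_lit 76) (nat_lit 241617846726) (nat_lit 1) (nat_lit 4) (nat_lit 2) (nat_lit 5) (nat_lit 2) (nat_lit 4) (nat_lit 306) (nat_lit 245) (nat_lit 229)) (XT.lf (nat_lit 0) (nat_lit 127261183061) (nat_lit 76) (nat_lit 276664297009) (nat_lit 76) (nat_lit 275913031339) (nat_lit 1) (nat_lit 4) (nat_lit 2) (nat_lit 5) (nat_lit 2) (nat_lit 4) (nat_lit 307) (nat_lit 245) (nat_lit 228))))))) (XT.nd (nat_lit 780) (nat_lit 0) (nat_lit 0) (XT.nd (nat_lit 390) (nat_lit 0) (nat_lit 0) (XT.nd (nat_lit 156) (nat_lit 0) (nat_lit 0) (XT.nd (nat_lit 78) (nat_lit 0) (nat_lit 0) (XT.lf (nat_lit 0) (nat_lit 149993115658) (nat_lit 76) (nat_lit 316158796341) (nat_lit 76) (nat_lit 315397491892) (nat_lit 1) (nat_lit 4) (nat_lit 2) (nat_lit 5) (nat_lit 2) (nat_lit 4) (nat_lit 308) (nat_lit 245) (nat_lit 227)) (XT.lf (nat_lit 0) (nat_lit 176064509515) (nat_lit 76) (nat_lit 361613784262) (nat_lit 76) (nat_lit 360843750440)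 (nat_lit 1) (nat_lit 4) (nat_lit 2) (nat_lit 5) (nat_lit 2) (nat_lit 4) (nat_lit 309) (nat_lit 245) (nat_lit 226))) (XT.nd (nat_lit 78) (nat_lit 0) (nat_lit 0) (XT.lf (nat_lit 0) (nat_lit 205985457121) (nat_lit 76) (nat_lit 413918597492) (nat_lit 76) (nat_lit 413140972911) (nat_lit 1) (nat_lit 4) (nat_lit 2) (nat_lit 5) (nat_lit 2) (nat_lit 4) (nat_lit 310) (nat_lit 245) (nat_lit 225)) (XT.nd (nat_lit 78) (nat_lit 0) (nat_lit 0) (XT.lf (nat_lit 0) (nat_lit 240341368320) (nat_lit 76) (nat_lit 474096591072) (nat_lit 76) (nat_lit 473312365831) (nat_lit 1) (nat_lit 4) (nat_lit 2) (nat_lit 5) (nat_lit 2) (nat_lit 4) (nat_lit 311) (nat_lit 245) (nat_lit 224)) (XT.lf (nat_lit 0) (nat_lit 279804423983) (nat_lit 76) (nat_lit 543325160530) (nat_lit 76) (nat_lit 542535195584) (nat_lit 1) (nat_lit 4) (nat_lit 2) (nat_lit 5) (nat_lit 2) (nat_lit 4) (nat_lit 312) (nat_lit 245) (nat_lit 223))))) (XT.nd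 (nat_lit 156) (nat_lit 0) (nat_lit 0) (XT.nd (nat_lit 78) (nat_lit 0) (nat_lit 0) (XT.lf (nat_lit 0) (nat_lit 325146727373) (nat_lit 76) (nat_lit 622958777875) (nat_lit 76) (nat_lit 622163821882) (nat_lit 1) (nat_lit 4) (nat_lit 2) (nat_lit 5) (nat_lit 2) (nat_lit 4) (nat_lit 313) (nat_lit 245) (nat_lit 222)) (XT.lf (nat_lit 0) (nat_lit 377255410513) (nat_lit 76) (nat_lit 714555492144) (nat_lit 76) (nat_lit 713756196109) (nat_lit 1) (nat_lit 4) (nat_lit 2) (nat_lit 5) (nat_lit 2) (nat_lit 4) (nat_lit 314) (nat_lit 245) (nat_lit 221))) (XT.nd (nat_lit 78) (nat_lit 0) (nat_lit 0) (XT.lf (nat_lit 0) (nat_lit 437149991118) (nat_lit 76) (nat_lit 819907412963) (nat_lit 76) (nat_lit 819104342979) (nat_lit 1) (nat_lit 4) (nat_lit 2) (nat_lit 5) (nat_lit 2) (nat_lit 4) (nat_lit 315) (nat_lit 245) (nat_lit 220)) (XT.nd (nat_lit 78) (nat_lit 0) (nat_lit 0) (XT.lf (nat_lit 0) (nat_lit 506002319676)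 (nat_lit 76) (nat_lit 941075773565) (nat_lit 76) (nat_lit 940269421886) (nat_lit 1) (nat_lit 4) (nat_lit 2) (nat_lit 5) (nat_lit 2) (nat_lit 4) (nat_lit 316) (nat_lit 245) (nat_lit 219)) (XT.lf (nat_lit 0) (nat_lit 585159506964) (nat_lit 76) (nat_lit 1080431259267) (nat_lit 76) (nat_lit 1079622053941) (nat_lit 1) (nat_lit 4) (nat_lit 2) (nat_lit 5) (nat_lit 2) (nat_lit 4) (nat_lit 317) (nat_lit 245) (nat_lit 218)))))) (XT.nd (nat_lit 390) (nat_lit 0) (nat_lit 0) (XT.nd (nat_lit 156) (nat_lit 0) (nat_lit 0) (XT.nd (nat_lit 78) (nat_lit 0) (nat_lit 0) (XT.lf (nat_lit 0) (nat_lit 676170280559) (nat_lit 76) (nat_lit 1240700390441) (nat_lit 76) (nat_lit 1239888703682) (nat_lit 1) (nat_lit 4) (nat_lit 2) (nat_lit 5) (nat_lit 2) (nat_lit 4) (nat_lit 318) (nat_lit 245) (nat_lit 217)) (XT.lf (nat_lit 0) (nat_lit 780815286032) (nat_lit 76) (nat_lit 1425018867480) (nat_lit 76) (nat_lit 1424205022953)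 (nat_lit 1) (nat_lit 4) (nat_lit 2) (nat_lit 5) (nat_lit 2) (nat_lit 4) (nat_lit 319) (nat_lit 245) (nat_lit 216))) (XT.nd (nat_lit 78) (nat_lit 0) (nat_lit 0) (XT.lf (nat_lit 0) (nat_lit 901141925664) (nat_lit 76) (nat_lit 1636992921455) (nat_lit 76) (nat_lit 1636177200609) (nat_lit 1) (nat_lit 4) (nat_lit 2) (nat_lit 5) (nat_lit 2) (nat_lit 4) (nat_lit 320) (nat_lit 245) (nat_lit 215)) (XT.nd (nat_lit 78) (nat_lit 0) (nat_lit 0) (XT.lf (nat_lit 0) (nat_lit 1039504416316) (nat_lit 76) (nat_lit 1880769870816) (nat_lit 76) (nat_lit 1879952518387) (nat_lit 1) (nat_lit 4) (nat_lit 2) (nat_lit 5) (nat_lit 2) (nat_lit 4) (nat_lit 321) (nat_lit 245) (nat_lit 214)) (XT.lf (nat_lit 0) (nat_lit 1198609850198) (nat_lit 76) (nat_lit 2161119264570) (nat_lit 76) (nat_lit 2160300493374) (nat_lit 1) (nat_lit 4) (nat_lit 2) (nat_lit 5) (nat_lit 2) (nat_lit 4) (nat_lit 322) (nat_lit 245) (nat_lit 213)))))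 (XT.nd (nat_lit 234) (nat_lit 0) (nat_lit 0) (XT.nd (nat_lit 78) (nat_lit 0) (nat_lit 0) (XT.lf (nat_lit 0) (nat_lit 1381571159712) (nat_lit 76) (nat_lit 2483526199552) (nat_lit 76) (nat_lit 2482706194646) (nat_lit 1) (nat_lit 4) (nat_lit 2) (nat_lit 5) (nat_lit 2) (nat_lit 4) (nat_lit 323) (nat_lit 245) (nat_lit 212)) (XT.nd (nat_lit 78) (nat_lit 0) (nat_lit 0) (XT.lf (nat_lit 0) (nat_lit 1591968022652) (nat_lit 76) (nat_lit 2854298637533) (nat_lit 76) (nat_lit 2853477559835) (nat_lit 1) (nat_lit 4) (nat_lit 2) (nat_lit 5) (nat_lit 2) (nat_lit 4) (nat_lit 324) (nat_lit 245) (nat_lit 211)) (XT.lf (nat_lit 0) (nat_lit 1833916899380) (nat_lit 76) (nat_lit 3280690821866) (nat_lit 76) (nat_lit 3279868811305) (nat_lit 1) (nat_lit 4) (nat_lit 2) (nat_lit 5) (nat_lit 2) (nat_lit 4) (nat_lit 325) (nat_lit 245) (nat_lit 210)))) (XT.nd (nat_lit 78) (nat_lit 0) (nat_lit 0) (XT.lf (nat_lit 0) (nat_lit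 2112151572267) (nat_lit 76) (nat_lit 3771045208330) (nat_lit 76) (nat_lit 3770222386585) (nat_lit 1) (nat_lit 4) (nat_lit 2) (nat_lit 5) (nat_lit 2) (nat_lit 4) (nat_lit 326) (nat_lit 245) (nat_lit 209)) (XT.nd (nat_lit 78) (nat_lit 0) (nat_lit 0) (XT.lf (nat_lit 0) (nat_lit 2432115763174) (nat_lit 76) (nat_lit 4334955687096) (nat_lit 76) (nat_lit 4334132159973) (nat_lit 1) (nat_lit 4) (nat_lit 2) (nat_lit 5) (nat_lit 2) (nat_lit 4) (nat_lit 327) (nat_lit 245) (nat_lit 208)) (XT.lf (nat_lit 0) (nat_lit 2800069641053) (nat_lit 76) (nat_lit 4983455289270) (nat_lit 76) (nat_lit 4982631148774) (nat_lit 1) (nat_lit 4) (nat_lit 2) (nat_lit 5) (nat_lit 2) (nat_lit 4) (nat_lit 328) (nat_lit 245) (nat_lit 207))))))))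
noncomputable def xc22 : XT := (XT.nd (nat_lit 37440) (nat_lit 0) (nat_lit 0) (XT.nd (nat_lit 780) (nat_lit 0) (nat_lit 0) (XT.nd (nat_lit 390) (nat_lit 0) (nat_lit 0) (XT.nd (nat_lit 156) (nat_lit 0) (nat_lit 0) (XT.nd (nat_lit 78) (nat_lit 0) (nat_lit 0) (XT.lf (nat_lit 0) (nat_lit 3223212303515) (nat_lit 76) (nat_lit 5729232050546) (nat_lit 76) (nat_lit 5728407376683) (nat_lit 1) (nat_lit 4) (nat_lit 2) (nat_lit 5) (nat_lit 2) (nat_lit 4) (nat_lit 329) (nat_lit 245) (nat_lit 206)) (XT.lf (nat_lit 0) (nat_lit 3709822628739) (nat_lit 76) (nat_lit 6586877255385) (nat_lit 76) (nat_lit 6586052117725) (nat_lit 1) (nat_lit 4) (nat_lit 2) (nat_lit 5) (nat_lit 2) (nat_lit 4) (nat_lit 330) (nat_lit 245) (nat_lit 205))) (XT.nd (nat_lit 78) (nat_lit 0) (nat_lit 0) (XT.lf (nat_lit 0) (nat_lit 4269421253522) (nat_lit 76) (nat_lit 7573170918663) (nat_lit 76) (nat_lit 7572345377701) (nat_lit 1) (nat_lit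 4) (nat_lit 2) (nat_lit 5) (nat_lit 2) (nat_lit 4) (nat_lit 331) (nat_lit 245) (nat_lit 204)) (XT.nd (nat_lit 78) (nat_lit 0) (nat_lit 0) (XT.lf (nat_lit 0) (nat_lit 4912956846610) (nat_lit 76) (nat_lit 8707410090315) (nat_lit 76) (nat_lit 8706584198655) (nat_lit 1) (nat_lit 4) (nat_lit 2) (nat_lit 5) (nat_lit 2) (nat_lit 4) (nat_lit 332) (nat_lit 245) (nat_lit 203)) (XT.lf (nat_lit 0) (nat_lit 5653020321782) (nat_lit 76) (nat_lit 10011786406307) (nat_lit 76) (nat_lit 10010960209692) (nat_lit 1) (nat_lit 4) (nat_lit 2) (nat_lit 5) (nat_lit 2) (nat_lit 4) (nat_lit 333) (nat_lit 245) (nat_lit 202))))) (XT.nd (nat_lit 156) (nat_lit 0) (nat_lit 0) (XT.nd (nat_lit 78) (nat_lit 0) (nat_lit 0) (XT.lf (nat_lit 0) (nat_lit 6504091181811) (nat_lit 76) (nat_lit 11511820272821) (nat_lit 76) (nat_lit 11510993811029) (nat_lit 1) (nat_lit 4) (nat_lit 2) (nat_lit 5) (nat_lit 2) (nat_lit 4) (nat_lit 334)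 (nat_lit 245) (nat_lit 201)) (XT.lf (nat_lit 0) (nat_lit 7482820813091) (nat_lit 76) (nat_lit 13236860178552) (nat_lit 76) (nat_lit 13236033486171) (nat_lit 1) (nat_lit 4) (nat_lit 2) (nat_lit 5) (nat_lit 2) (nat_lit 4) (nat_lit 335) (nat_lit 245) (nat_lit 200))) (XT.nd (nat_lit 78) (nat_lit 0) (nat_lit 0) (XT.lf (nat_lit 0) (nat_lit 8608358273624) (nat_lit 76) (nat_lit 15220656904262) (nat_lit 76) (nat_lit 15219830011368) (nat_lit 1) (nat_lit 4) (nat_lit 2) (nat_lit 5) (nat_lit 2) (nat_lit 4) (nat_lit 336) (nat_lit 245) (nat_lit 199)) (XT.nd (nat_lit 78) (nat_lit 0) (nat_lit 0) (XT.lf (nat_lit 0) (nat_lit 9902724948507) (nat_lit 76) (nat_lit 17502023864151) (nat_lit 76) (nat_lit 17501196796899) (nat_lit 1) (nat_lit 4) (nat_lit 2) (nat_lit 5) (nat_lit 2) (nat_lit 4) (nat_lit 337) (nat_lit 245) (nat_lit 198)) (XT.lf (nat_lit 0) (nat_lit 11391245403120) (nat_lit 76) (nat_lit 20125596498738)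 (nat_lit 76) (nat_lit 20124769279869) (nat_lit 1) (nat_lit 4) (nat_lit 2) (nat_lit 5) (nat_lit 2) (nat_lit 4) (nat_lit 338) (nat_lit 245) (nat_lit 197)))))) (XT.nd (nat_lit 390) (nat_lit 0) (nat_lit 0) (XT.nd (nat_lit 156) (nat_lit 0) (nat_lit 0) (XT.nd (nat_lit 78) (nat_lit 0) (nat_lit 0) (XT.lf (nat_lit 0) (nat_lit 13103042863747) (nat_lit 76) (nat_lit 23142705576961) (nat_lit 76) (nat_lit 23141878226252) (nat_lit 1) (nat_lit 4) (nat_lit 2) (nat_lit 5) (nat_lit 2) (nat_lit 4) (nat_lit 339) (nat_lit 245) (nat_lit 196)) (XT.lf (nat_lit 0) (nat_lit 15071609019836) (nat_lit 76) (nat_lit 26612381493827) (nat_lit 76) (nat_lit 26611554028475) (nat_lit 1) (nat_lit 4) (nat_lit 2) (nat_lit 5) (nat_lit 2) (nat_lit 4) (nat_lit 340) (nat_lit 245) (nat_lit 195))) (XT.nd (nat_lit 78) (nat_lit 0) (nat_lit 0) (XT.lf (nat_lit 0) (nat_lit 17335459296179) (nat_lit 76) (nat_lit 30602509212930) (nat_lit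 76) (nat_lit 30601681647887) (nat_lit 1) (nat_lit 4) (nat_lit 2) (nat_lit 5) (nat_lit 2) (nat_lit 4) (nat_lit 341) (nat_lit 245) (nat_lit 194)) (XT.nd (nat_lit 78) (nat_lit 0) (nat_lit 0) (XT.lf (nat_lit 0) (nat_lit 19938886415576) (nat_lit 76) (nat_lit 35191156450510) (nat_lit 76) (nat_lit 35190328798781) (nat_lit 1) (nat_lit 4) (nat_lit 2) (nat_lit 5) (nat_lit 2) (nat_lit 4) (nat_lit 342) (nat_lit 245) (nat_lit 193)) (XT.lf (nat_lit 0) (nat_lit 22932826995579) (nat_lit 76) (nat_lit 40468101087305) (nat_lit 76) (nat_lit 40467273360195) (nat_lit 1) (nat_lit 4) (nat_lit 2) (nat_lit 5) (nat_lit 2) (nat_lit 4) (nat_lit 343) (nat_lit 245) (nat_lit 192))))) (XT.nd (nat_lit 156) (nat_lit 0) (nat_lit 0) (XT.nd (nat_lit 78) (nat_lit 0) (nat_lit 0) (XT.lf (nat_lit 0) (nat_lit 26375858134492) (nat_lit 76) (nat_lit 46536587692294) (nat_lit 76) (nat_lit 46535759899636) (nat_lit 1) (nat_lit 4) (nat_lit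 2) (nat_lit 5) (nat_lit 2) (nat_lit 4) (nat_lit 344) (nat_lit 245) (nat_lit 191)) (XT.lf (nat_lit 0) (nat_lit 30335343485034) (nat_lit 76) (nat_lit 53515347525141) (nat_lit 76) (nat_lit 53514519675485) (nat_lit 1) (nat_lit 4) (nat_lit 2) (nat_lit 5) (nat_lit 2) (nat_lit 4) (nat_lit 345) (nat_lit 245) (nat_lit 190))) (XT.nd (nat_lit 78) (nat_lit 0) (nat_lit 0) (XT.lf (nat_lit 0) (nat_lit 34888751238846) (nat_lit 76) (nat_lit 61540921539096) (nat_lit 76) (nat_lit 61540093639876) (nat_lit 1) (nat_lit 4) (nat_lit 2) (nat_lit 5) (nat_lit 2) (nat_lit 4) (nat_lit 346) (nat_lit 245) (nat_lit 189)) (XT.nd (nat_lit 78) (nat_lit 0) (nat_lit 0) (XT.lf (nat_lit 0) (nat_lit 40125169808502) (nat_lit 76) (nat_lit 70770331834433) (nat_lit 76) (nat_lit 70769503892115) (nat_lit 1) (nat_lit 4) (nat_lit 2) (nat_lit 5) (nat_lit 2) (nat_lit 4) (nat_lit 347) (nat_lit 245) (nat_lit 188)) (XT.lf (nat_lit 0) (nat_lit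 46147050861669) (nat_lit 76) (nat_lit 81384153829974) (nat_lit 76) (nat_lit 81383325850178) (nat_lit 1) (nat_lit 4) (nat_lit 2) (nat_lit 5) (nat_lit 2) (nat_lit 4) (nat_lit 348) (nat_lit 245) (nat_lit 187))))))) (XT.nd (nat_lit 780) (nat_lit 0) (nat_lit 0) (XT.nd (nat_lit 390) (nat_lit 76) (nat_lit 0) (XT.nd (nat_lit 156) (nat_lit 0) (nat_lit 0) (XT.nd (nat_lit 78) (nat_lit 0) (nat_lit 0) (XT.lf (nat_lit 0) (nat_lit 4281433633) (nat_lit 152) (nat_lit 16879005950) (nat_lit 0) (nat_lit 4281433633) (nat_lit 2) (nat_lit 5) (nat_lit 4) (nat_lit 4) (nat_lit 2) (nat_lit 4) (nat_lit 288) (nat_lit 246) (nat_lit 246)) (XT.lf (nat_lit 0) (nat_lit 14233845980) (nat_lit 152) (nat_lit 29491729925) (nat_lit 0) (nat_lit 14109611533) (nat_lit 2) (nat_lit 5) (nat_lit 4) (nat_lit 4) (nat_lit 2) (nat_lit 4) (nat_lit 289) (nat_lit 246) (nat_lit 245))) (XT.nd (nat_lit 78) (nat_lit 0) (nat_lit 0) (XT.lf (nat_lit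 0) (nat_lit 20370560465) (nat_lit 152) (nat_lit 25378369886) (nat_lit 0) (nat_lit 20138296065) (nat_lit 2) (nat_lit 5) (nat_lit 4) (nat_lit 4) (nat_lit 2) (nat_lit 4) (nat_lit 290) (nat_lit 246) (nat_lit 244)) (XT.nd (nat_lit 78) (nat_lit 0) (nat_lit 0) (XT.lf (nat_lit 0) (nat_lit 27093076874) (nat_lit 152) (nat_lit 21337453000) (nat_lit 0) (nat_lit 26766873384) (nat_lit 2) (nat_lit 5) (nat_lit 4) (nat_lit 4) (nat_lit 2) (nat_lit 4) (nat_lit 291) (nat_lit 246) (nat_lit 243)) (XT.lf (nat_lit 0) (nat_lit 34532922702) (nat_lit 152) (nat_lit 17289917849) (nat_lit 0) (nat_lit 34125033047) (nat_lit 2) (nat_lit 5) (nat_lit 4) (nat_lit 4) (nat_lit 2) (nat_lit 4) (nat_lit 292) (nat_lit 246) (nat_lit 242))))) (XT.nd (nat_lit 156) (nat_lit 76) (nat_lit 0) (XT.nd (nat_lit 78) (nat_lit 0) (nat_lit 0) (XT.lf (nat_lit 0) (nat_lit 42835660150) (nat_lit 152) (nat_lit 13156573529) (nat_lit 0) (nat_lit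 42356739047) (nat_lit 2) (nat_lit 5) (nat_lit 4) (nat_lit 4) (nat_lit 2) (nat_lit 4) (nat_lit 293) (nat_lit 246) (nat_lit 241)) (XT.lf (nat_lit 0) (nat_lit 52163734081) (nat_lit 152) (nat_lit 8856550259) (nat_lit 0) (nat_lit 51623046502) (nat_lit 2) (nat_lit 5) (nat_lit 4) (nat_lit 4) (nat_lit 2) (nat_lit 4) (nat_lit 294) (nat_lit 246) (nat_lit 240))) (XT.nd (nat_lit 78) (nat_lit 76) (nat_lit 0) (XT.lf (nat_lit 0) (nat_lit 62699650290) (nat_lit 152) (nat_lit 4305717149) (nat_lit 0) (nat_lit 62105252731) (nat_lit 2) (nat_lit 5) (nat_lit 4) (nat_lit 4) (nat_lit 2) (nat_lit 4) (nat_lit 295) (nat_lit 246) (nat_lit 239)) (XT.nd (nat_lit 78) (nat_lit 0) (nat_lit 0) (XT.lf (nat_lit 0) (nat_lit 642130759) (nat_lit 76) (nat_lit 74034004773) (nat_lit 76) (nat_lit 73392902883) (nat_lit 1) (nat_lit 4) (nat_lit 2) (nat_lit 5) (nat_lit 2) (nat_lit 4) (nat_lit 296) (nat_lit 246) (nat_lit 238)) (XT.lf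 (nat_lit 0) (nat_lit 6488863437) (nat_lit 76) (nat_lit 82027050885) (nat_lit 76) (nat_lit 81345336535) (nat_lit 1) (nat_lit 4) (nat_lit 2) (nat_lit 5) (nat_lit 2) (nat_lit 4) (nat_lit 297) (nat_lit 246) (nat_lit 237)))))) (XT.nd (nat_lit 390) (nat_lit 0) (nat_lit 0) (XT.nd (nat_lit 156) (nat_lit 0) (nat_lit 0) (XT.nd (nat_lit 78) (nat_lit 0) (nat_lit 0) (XT.lf (nat_lit 0) (nat_lit 12928087486) (nat_lit 76) (nat_lit 91365963039) (nat_lit 76) (nat_lit 90648933505) (nat_lit 1) (nat_lit 4) (nat_lit 2) (nat_lit 5) (nat_lit 2) (nat_lit 4) (nat_lit 298) (nat_lit 246) (nat_lit 236)) (XT.lf (nat_lit 0) (nat_lit 20085787723) (nat_lit 76) (nat_lit 102233459082) (nat_lit 76) (nat_lit 101485720693) (nat_lit 1) (nat_lit 4) (nat_lit 2) (nat_lit 5) (nat_lit 2) (nat_lit 4) (nat_lit 299) (nat_lit 246) (nat_lit 235))) (XT.nd (nat_lit 78) (nat_lit 0) (nat_lit 0) (XT.lf (nat_lit 0) (nat_lit 28102006111) (nat_lit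 76) (nat_lit 114842163935) (nat_lit 76) (nat_lit 114067722194) (nat_lit 1) (nat_lit 4) (nat_lit 2) (nat_lit 5) (nat_lit 2) (nat_lit 4) (nat_lit 300) (nat_lit 246) (nat_lit 234)) (XT.nd (nat_lit 78) (nat_lit 0) (nat_lit 0) (XT.lf (nat_lit 0) (nat_lit 37133581704) (nat_lit 76) (nat_lit 129438769651) (nat_lit 76) (nat_lit 128641107604) (nat_lit 1) (nat_lit 4) (nat_lit 2) (nat_lit 5) (nat_lit 2) (nat_lit 4) (nat_lit 301) (nat_lit 246) (nat_lit 233)) (XT.lf (nat_lit 0) (nat_lit 47357219242) (nat_lit 76) (nat_lit 146308861994) (nat_lit 76) (nat_lit 145491008375) (nat_lit 1) (nat_lit 4) (nat_lit 2) (nat_lit 5) (nat_lit 2) (nat_lit 4) (nat_lit 302) (nat_lit 246) (nat_lit 232))))) (XT.nd (nat_lit 156) (nat_lit 0) (nat_lit 0) (XT.nd (nat_lit 78) (nat_lit 0) (nat_lit 0) (XT.lf (nat_lit 0) (nat_lit 58972946417) (nat_lit 76) (nat_lit 165782507987) (nat_lit 76) (nat_lit 164947096481) (nat_lit 1) (nat_lit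 4) (nat_lit 2) (nat_lit 5) (nat_lit 2) (nat_lit 4) (nat_lit 303) (nat_lit 246) (nat_lit 231)) (XT.lf (nat_lit 0) (nat_lit 72208027455) (nat_lit 76) (nat_lit 188240713748) (nat_lit 76) (nat_lit 187390034513) (nat_lit 1) (nat_lit 4) (nat_lit 2) (nat_lit 5) (nat_lit 2) (nat_lit 4) (nat_lit 304) (nat_lit 246) (nat_lit 230))) (XT.nd (nat_lit 78) (nat_lit 0) (nat_lit 0) (XT.lf (nat_lit 0) (nat_lit 87321409594) (nat_lit 76) (nat_lit 214122878955) (nat_lit 76) (nat_lit 213258923435) (nat_lit 1) (nat_lit 4) (nat_lit 2) (nat_lit 5) (nat_lit 2) (nat_lit 4) (nat_lit 305) (nat_lit 246) (nat_lit 229)) (XT.nd (nat_lit 78) (nat_lit 0) (nat_lit 0) (XT.lf (nat_lit 0) (nat_lit 104608789442) (nat_lit 76) (nat_lit 243935393796) (nat_lit 76) (nat_lit 243059893680) (nat_lit 1) (nat_lit 4) (nat_lit 2) (nat_lit 5) (nat_lit 2) (nat_lit 4) (nat_lit 306) (nat_lit 246) (nat_lit 228)) (XT.lf (nat_lit 0) (nat_lit 124408398343)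 (nat_lit 76) (nat_lit 278261546606) (nat_lit 76) (nat_lit 277376007710) (nat_lit 1) (nat_lit 4) (nat_lit 2) (nat_lit 5) (nat_lit 2) (nat_lit 4) (nat_lit 307) (nat_lit 246) (nat_lit 227))))))))
noncomputable def xc23 : XT := (XT.nd (nat_lit 1560) (nat_lit 0) (nat_lit 0) (XT.nd (nat_lit 780) (nat_lit 0) (nat_lit 0) (XT.nd (nat_lit 390) (nat_lit 0) (nat_lit 0) (XT.nd (nat_lit 156) (nat_lit 0) (nat_lit 0) (XT.nd (nat_lit 78) (nat_lit 0) (nat_lit 0) (XT.lf (nat_lit 0) (nat_lit 147107619950) (nat_lit 76) (nat_lit 317772936026) (nat_lit 76) (nat_lit 316878667757) (nat_lit 1) (nat_lit 4) (nat_lit 2) (nat_lit 5) (nat_lit 2) (nat_lit 4) (nat_lit 308) (nat_lit 246) (nat_lit 226)) (XT.lf (nat_lit 0) (nat_lit 173150569467) (nat_lit 76) (nat_lit 363242610980) (nat_lit 76) (nat_lit 362340751952) (nat_lit 1) (nat_lit 4) (nat_lit 2) (nat_lit 5) (nat_lit 2) (nat_lit 4) (nat_lit 309) (nat_lit 246) (nat_lit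 225))) (XT.nd (nat_lit 78) (nat_lit 0) (nat_lit 0) (XT.lf (nat_lit 0) (nat_lit 203046782865) (nat_lit 76) (nat_lit 415560195543) (nat_lit 76) (nat_lit 414651735855) (nat_lit 1) (nat_lit 4) (nat_lit 2) (nat_lit 5) (nat_lit 2) (nat_lit 4) (nat_lit 310) (nat_lit 246) (nat_lit 224)) (XT.nd (nat_lit 78) (nat_lit 0) (nat_lit 0) (XT.lf (nat_lit 0) (nat_lit 237381186056) (nat_lit 76) (nat_lit 475749294630) (nat_lit 76) (nat_lit 474835095237) (nat_lit 1) (nat_lit 4) (nat_lit 2) (nat_lit 5) (nat_lit 2) (nat_lit 4) (nat_lit 311) (nat_lit 246) (nat_lit 223)) (XT.lf (nat_lit 0) (nat_lit 276825539104) (nat_lit 76) (nat_lit 544987521050) (nat_lit 76) (nat_lit 544068330610) (nat_lit 1) (nat_lit 4) (nat_lit 2) (nat_lit 5) (nat_lit 2) (nat_lit 4) (nat_lit 312) (nat_lit 246) (nat_lit 222))))) (XT.nd (nat_lit 156) (nat_lit 0) (nat_lit 0) (XT.nd (nat_lit 78) (nat_lit 0) (nat_lit 0) (XT.lf (nat_lit 0) (nat_lit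 322151579351) (nat_lit 76) (nat_lit 624629535754) (nat_lit 76) (nat_lit 623706005273) (nat_lit 1) (nat_lit 4) (nat_lit 2) (nat_lit 5) (nat_lit 2) (nat_lit 4) (nat_lit 313) (nat_lit 246) (nat_lit 221)) (XT.lf (nat_lit 0) (nat_lit 374246120628) (nat_lit 76) (nat_lit 716233552074) (nat_lit 76) (nat_lit 715306247644) (nat_lit 1) (nat_lit 4) (nat_lit 2) (nat_lit 5) (nat_lit 2) (nat_lit 4) (nat_lit 314) (nat_lit 246) (nat_lit 220))) (XT.nd (nat_lit 78) (nat_lit 0) (nat_lit 0) (XT.lf (nat_lit 0) (nat_lit 434128403959) (nat_lit 76) (nat_lit 821591822502) (nat_lit 76) (nat_lit 820661236377) (nat_lit 1) (nat_lit 4) (nat_lit 2) (nat_lit 5) (nat_lit 2) (nat_lit 4) (nat_lit 315) (nat_lit 246) (nat_lit 219)) (XT.nd (nat_lit 78) (nat_lit 0) (nat_lit 0) (XT.lf (nat_lit 0) (nat_lit 502970039236) (nat_lit 76) (nat_lit 942765704504) (nat_lit 76) (nat_lit 941832264732) (nat_lit 1) (nat_lit 4) (nat_lit 2)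 (nat_lit 5) (nat_lit 2) (nat_lit 4) (nat_lit 316) (nat_lit 246) (nat_lit 218)) (XT.lf (nat_lit 0) (nat_lit 582117928019) (nat_lit 76) (nat_lit 1082125991423) (nat_lit 76) (nat_lit 1081190070218) (nat_lit 1) (nat_lit 4) (nat_lit 2) (nat_lit 5) (nat_lit 2) (nat_lit 4) (nat_lit 317) (nat_lit 246) (nat_lit 217)))))) (XT.nd (nat_lit 390) (nat_lit 0) (nat_lit 0) (XT.nd (nat_lit 156) (nat_lit 0) (nat_lit 0) (XT.nd (nat_lit 78) (nat_lit 0) (nat_lit 0) (XT.lf (nat_lit 0) (nat_lit 673120615958) (nat_lit 76) (nat_lit 1242399297569) (nat_lit 76) (nat_lit 1241461218596) (nat_lit 1) (nat_lit 4) (nat_lit 2) (nat_lit 5) (nat_lit 2) (nat_lit 4) (nat_lit 318) (nat_lit 246) (nat_lit 216)) (XT.lf (nat_lit 0) (nat_lit 777758590425) (nat_lit 76) (nat_lit 1426721405018) (nat_lit 76) (nat_lit 1425781449725) (nat_lit 1) (nat_lit 4) (nat_lit 2) (nat_lit 5) (nat_lit 2) (nat_lit 4) (nat_lit 319) (nat_lit 246) (nat_lit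 215))) (XT.nd (nat_lit 78) (nat_lit 0) (nat_lit 0) (XT.lf (nat_lit 0) (nat_lit 898079116139) (nat_lit 76) (nat_lit 1638698615872) (nat_lit 76) (nat_lit 1637757028997) (nat_lit 1) (nat_lit 4) (nat_lit 2) (nat_lit 5) (nat_lit 2) (nat_lit 4) (nat_lit 320) (nat_lit 246) (nat_lit 214)) (XT.nd (nat_lit 78) (nat_lit 0) (nat_lit 0) (XT.lf (nat_lit 0) (nat_lit 1036436290341) (nat_lit 76) (nat_lit 1882478310343) (nat_lit 76) (nat_lit 1881535304701) (nat_lit 1) (nat_lit 4) (nat_lit 2) (nat_lit 5) (nat_lit 2) (nat_lit 4) (nat_lit 321) (nat_lit 246) (nat_lit 213)) (XT.lf (nat_lit 0) (nat_lit 1195537101223) (nat_lit 76) (nat_lit 2162830091151) (nat_lit 76) (nat_lit 2161885851798) (nat_lit 1) (nat_lit 4) (nat_lit 2) (nat_lit 5) (nat_lit 2) (nat_lit 4) (nat_lit 322) (nat_lit 246) (nat_lit 212))))) (XT.nd (nat_lit 156) (nat_lit 0) (nat_lit 0) (XT.nd (nat_lit 78) (nat_lit 0) (nat_lit 0) (XT.lf (nat_lit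 0) (nat_lit 1378494390736) (nat_lit 76) (nat_lit 2485239101831) (nat_lit 76) (nat_lit 2484293789687) (nat_lit 1) (nat_lit 4) (nat_lit 2) (nat_lit 5) (nat_lit 2) (nat_lit 4) (nat_lit 323) (nat_lit 246) (nat_lit 211)) (XT.lf (nat_lit 0) (nat_lit 1588887758023) (nat_lit 76) (nat_lit 2856013344768) (nat_lit 76) (nat_lit 2855067099761) (nat_lit 1) (nat_lit 4) (nat_lit 2) (nat_lit 5) (nat_lit 2) (nat_lit 4) (nat_lit 324) (nat_lit 246) (nat_lit 210))) (XT.nd (nat_lit 78) (nat_lit 0) (nat_lit 0) (XT.lf (nat_lit 0) (nat_lit 1830833595054) (nat_lit 76) (nat_lit 3282407098627) (nat_lit 76) (nat_lit 3281460042435) (nat_lit 1) (nat_lit 4) (nat_lit 2) (nat_lit 5) (nat_lit 2) (nat_lit 4) (nat_lit 325) (nat_lit 246) (nat_lit 209)) (XT.nd (nat_lit 78) (nat_lit 0) (nat_lit 0) (XT.lf (nat_lit 0) (nat_lit 2109065624725) (nat_lit 76) (nat_lit 3772762849897) (nat_lit 76) (nat_lit 3771815088327) (nat_lit 1)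 (nat_lit 4) (nat_lit 2) (nat_lit 5) (nat_lit 2) (nat_lit 4) (nat_lit 326) (nat_lit 246) (nat_lit 208)) (XT.lf (nat_lit 0) (nat_lit 2429027517184) (nat_lit 76) (nat_lit 4336674515450) (nat_lit 76) (nat_lit 4335726140508) (nat_lit 1) (nat_lit 4) (nat_lit 2) (nat_lit 5) (nat_lit 2) (nat_lit 4) (nat_lit 327) (nat_lit 246) (nat_lit 207))))))) (XT.nd (nat_lit 780) (nat_lit 0) (nat_lit 0) (XT.nd (nat_lit 390) (nat_lit 0) (nat_lit 0) (XT.nd (nat_lit 156) (nat_lit 0) (nat_lit 0) (XT.nd (nat_lit 78) (nat_lit 0) (nat_lit 0) (XT.lf (nat_lit 0) (nat_lit 2796979396412) (nat_lit 76) (nat_lit 4985175149613) (nat_lit 76) (nat_lit 4984226241304) (nat_lit 1) (nat_lit 4) (nat_lit 2) (nat_lit 5) (nat_lit 2) (nat_lit 4) (nat_lit 328) (nat_lit 246) (nat_lit 206)) (XT.lf (nat_lit 0) (nat_lit 3220120320917) (nat_lit 76) (nat_lit 5730952808271) (nat_lit 76) (nat_lit 5730003436165) (nat_lit 1) (nat_lit 4) (nat_lit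 2) (nat_lit 5) (nat_lit 2) (nat_lit 4) (nat_lit 329) (nat_lit 246) (nat_lit 205))) (XT.nd (nat_lit 78) (nat_lit 0) (nat_lit 0) (XT.lf (nat_lit 0) (nat_lit 3706729134874) (nat_lit 76) (nat_lit 6588598793442) (nat_lit 76) (nat_lit 6587649018033) (nat_lit 1) (nat_lit 4) (nat_lit 2) (nat_lit 5) (nat_lit 2) (nat_lit 4) (nat_lit 330) (nat_lit 246) (nat_lit 204)) (XT.nd (nat_lit 78) (nat_lit 0) (nat_lit 0) (XT.lf (nat_lit 0) (nat_lit 4266326445512) (nat_lit 76) (nat_lit 7574893135270) (nat_lit 76) (nat_lit 7573943009163) (nat_lit 1) (nat_lit 4) (nat_lit 2) (nat_lit 5) (nat_lit 2) (nat_lit 4) (nat_lit 331) (nat_lit 246) (nat_lit 203)) (XT.lf (nat_lit 0) (nat_lit 4909860895865) (nat_lit 76) (nat_lit 8709132896965) (nat_lit 76) (nat_lit 8708182465904) (nat_lit 1) (nat_lit 4) (nat_lit 2) (nat_lit 5) (nat_lit 2) (nat_lit 4) (nat_lit 332) (nat_lit 246) (nat_lit 202))))) (XT.nd (nat_lit 156) (nat_lit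 0) (nat_lit 0) (XT.nd (nat_lit 78) (nat_lit 0) (nat_lit 0) (XT.lf (nat_lit 0) (nat_lit 5649923377354) (nat_lit 76) (nat_lit 10013509726038) (nat_lit 76) (nat_lit 10012559029799) (nat_lit 1) (nat_lit 4) (nat_lit 2) (nat_lit 5) (nat_lit 2) (nat_lit 4) (nat_lit 333) (nat_lit 246) (nat_lit 201)) (XT.lf (nat_lit 0) (nat_lit 6500993373312) (nat_lit 76) (nat_lit 11513544038710) (nat_lit 76) (nat_lit 11512593111882) (nat_lit 1) (nat_lit 4) (nat_lit 2) (nat_lit 5) (nat_lit 2) (nat_lit 4) (nat_lit 334) (nat_lit 246) (nat_lit 200))) (XT.nd (nat_lit 78) (nat_lit 0) (nat_lit 0) (XT.lf (nat_lit 0) (nat_lit 7479722253225) (nat_lit 76) (nat_lit 13238584332403) (nat_lit 76) (nat_lit 13237633205063) (nat_lit 1) (nat_lit 4) (nat_lit 2) (nat_lit 5) (nat_lit 2) (nat_lit 4) (nat_lit 335) (nat_lit 246) (nat_lit 199)) (XT.nd (nat_lit 78) (nat_lit 0) (nat_lit 0) (XT.lf (nat_lit 0) (nat_lit 8605259060395) (nat_lit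 76) (nat_lit 15222381395473) (nat_lit 76) (nat_lit 15221430093774) (nat_lit 1) (nat_lit 4) (nat_lit 2) (nat_lit 5) (nat_lit 2) (nat_lit 4) (nat_lit 336) (nat_lit 246) (nat_lit 198)) (XT.lf (nat_lit 0) (nat_lit 9899625167137) (nat_lit 76) (nat_lit 17503748648717) (nat_lit 76) (nat_lit 17502797195402) (nat_lit 1) (nat_lit 4) (nat_lit 2) (nat_lit 5) (nat_lit 2) (nat_lit 4) (nat_lit 337) (nat_lit 246) (nat_lit 197)))))) (XT.nd (nat_lit 390) (nat_lit 0) (nat_lit 0) (XT.nd (nat_lit 156) (nat_lit 0) (nat_lit 0) (XT.nd (nat_lit 78) (nat_lit 0) (nat_lit 0) (XT.lf (nat_lit 0) (nat_lit 11388145127714) (nat_lit 76) (nat_lit 20127321538396) (nat_lit 76) (nat_lit 20126369953240) (nat_lit 1) (nat_lit 4) (nat_lit 2) (nat_lit 5) (nat_lit 2) (nat_lit 4) (nat_lit 338) (nat_lit 246) (nat_lit 196)) (XT.lf (nat_lit 0) (nat_lit 13099942158745) (nat_lit 76) (nat_lit 23144430838438) (nat_lit 76) (nat_lit 23143479138639)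 (nat_lit 1) (nat_lit 4) (nat_lit 2) (nat_lit 5) (nat_lit 2) (nat_lit 4) (nat_lit 339) (nat_lit 246) (nat_lit 195))) (XT.nd (nat_lit 78) (nat_lit 0) (nat_lit 0) (XT.lf (nat_lit 0) (nat_lit 15068507941271) (nat_lit 76) (nat_lit 26614106948191) (nat_lit 76) (nat_lit 26613155148701) (nat_lit 1) (nat_lit 4) (nat_lit 2) (nat_lit 5) (nat_lit 2) (nat_lit 4) (nat_lit 340) (nat_lit 246) (nat_lit 194)) (XT.nd (nat_lit 78) (nat_lit 0) (nat_lit 0) (XT.lf (nat_lit 0) (nat_lit 17332357892779) (nat_lit 76) (nat_lit 30604234835020) (nat_lit 76) (nat_lit 30603282948844) (nat_lit 1) (nat_lit 4) (nat_lit 2) (nat_lit 5) (nat_lit 2) (nat_lit 4) (nat_lit 341) (nat_lit 246) (nat_lit 193)) (XT.lf (nat_lit 0) (nat_lit 19935784729708) (nat_lit 76) (nat_lit 35192882218450) (nat_lit 76) (nat_lit 35191930256894) (nat_lit 1) (nat_lit 4) (nat_lit 2) (nat_lit 5) (nat_lit 2) (nat_lit 4) (nat_lit 342) (nat_lit 246) (nat_lit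 192))))) (XT.nd (nat_lit 234) (nat_lit 0) (nat_lit 0) (XT.nd (nat_lit 78) (nat_lit 0) (nat_lit 0) (XT.lf (nat_lit 0) (nat_lit 22929725064088) (nat_lit 76) (nat_lit 40469826982070) (nat_lit 76) (nat_lit 40468874954966) (nat_lit 1) (nat_lit 4) (nat_lit 2) (nat_lit 5) (nat_lit 2) (nat_lit 4) (nat_lit 343) (nat_lit 246) (nat_lit 191)) (XT.nd (nat_lit 78) (nat_lit 0) (nat_lit 0) (XT.lf (nat_lit 0) (nat_lit 26372755989416) (nat_lit 76) (nat_lit 46538313697343) (nat_lit 76) (nat_lit 46537361613241) (nat_lit 1) (nat_lit 4) (nat_lit 2) (nat_lit 5) (nat_lit 2) (nat_lit 4) (nat_lit 344) (nat_lit 246) (nat_lit 190)) (XT.lf (nat_lit 0) (nat_lit 30332241154232) (nat_lit 76) (nat_lit 53517073626088) (nat_lit 76) (nat_lit 53516121492422) (nat_lit 1) (nat_lit 4) (nat_lit 2) (nat_lit 5) (nat_lit 2) (nat_lit 4) (nat_lit 345) (nat_lit 246) (nat_lit 189)))) (XT.nd (nat_lit 78) (nat_lit 0) (nat_lit 0) (XT.lf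 (nat_lit 0) (nat_lit 34885648746543) (nat_lit 76) (nat_lit 61542647723433) (nat_lit 76) (nat_lit 61541695546668) (nat_lit 1) (nat_lit 4) (nat_lit 2) (nat_lit 5) (nat_lit 2) (nat_lit 4) (nat_lit 346) (nat_lit 246) (nat_lit 188)) (XT.nd (nat_lit 35880) (nat_lit 0) (nat_lit 228) (XT.lf (nat_lit 0) (nat_lit 40122067175762) (nat_lit 76) (nat_lit 70772058091283) (nat_lit 76) (nat_lit 70771105877041) (nat_lit 1) (nat_lit 4) (nat_lit 2) (nat_lit 5) (nat_lit 2) (nat_lit 4) (nat_lit 347) (nat_lit 246) (nat_lit 187)) (XT.lf (nat_lit 0) (nat_lit 18468898038) (nat_lit 76) (nat_lit 686853935) (nat_lit 76) (nat_lit 686853935) (nat_lit 4) (nat_lit 4) (nat_lit 5) (nat_lit 5) (nat_lit 5) (nat_lit 4) (nat_lit 286) (nat_lit 247) (nat_lit 247))))))))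
noncomputable def xc24 : XT := (XT.nd (nat_lit 1560) (nat_lit 0) (nat_lit 0) (XT.nd (nat_lit 780) (nat_lit 76) (nat_lit 0) (XT.nd (nat_lit 390) (nat_lit 0) (nat_lit 0) (XT.nd (nat_lit 156) (nat_lit 0) (nat_lit 0) (XT.nd (nat_lit 78) (nat_lit 0) (nat_lit 0) (XT.lf (nat_lit 0) (nat_lit 3389540005) (nat_lit 152) (nat_lit 38260686547) (nat_lit 0) (nat_lit 3246670392) (nat_lit 2) (nat_lit 5) (nat_lit 4) (nat_lit 4) (nat_lit 2) (nat_lit 4) (nat_lit 287) (nat_lit 247) (nat_lit 246)) (XT.lf (nat_lit 0) (nat_lit 8499854232) (nat_lit 152) (nat_lit 34182102072) (nat_lit 0) (nat_lit 8232750172) (nat_lit 2) (nat_lit 5) (nat_lit 4) (nat_lit 4) (nat_lit 2) (nat_lit 4) (nat_lit 288) (nat_lit 247) (nat_lit 245))) (XT.nd (nat_lit 78) (nat_lit 0) (nat_lit 0) (XT.lf (nat_lit 0) (nat_lit 13991804557) (nat_lit 152) (nat_lit 30284594158) (nat_lit 0) (nat_lit 13616670544) (nat_lit 2) (nat_lit 5) (nat_lit 4)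 (nat_lit 4) (nat_lit 2) (nat_lit 4) (nat_lit 289) (nat_lit 247) (nat_lit 244)) (XT.nd (nat_lit 78) (nat_lit 0) (nat_lit 0) (XT.lf (nat_lit 0) (nat_lit 19972842182) (nat_lit 152) (nat_lit 26491907216) (nat_lit 0) (nat_lit 19503769079) (nat_lit 2) (nat_lit 5) (nat_lit 4) (nat_lit 4) (nat_lit 2) (nat_lit 4) (nat_lit 290) (nat_lit 247) (nat_lit 243)) (XT.lf (nat_lit 0) (nat_lit 26559987409) (nat_lit 152) (nat_lit 22729836501) (nat_lit 0) (nat_lit 26009228140) (nat_lit 2) (nat_lit 5) (nat_lit 4) (nat_lit 4) (nat_lit 2) (nat_lit 4) (nat_lit 291) (nat_lit 247) (nat_lit 242))))) (XT.nd (nat_lit 156) (nat_lit 0) (nat_lit 0) (XT.nd (nat_lit 78) (nat_lit 0) (nat_lit 0) (XT.lf (nat_lit 0) (nat_lit 33882119165) (nat_lit 152) (nat_lit 18924776282) (nat_lit 0) (nat_lit 33260328449) (nat_lit 2) (nat_lit 5) (nat_lit 4) (nat_lit 4) (nat_lit 2) (nat_lit 4) (nat_lit 292) (nat_lit 247) (nat_lit 241)) (XT.lf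 (nat_lit 0) (nat_lit 42082496551) (nat_lit 152) (nat_lit 15002279728) (nat_lit 0) (nat_lit 41398939358) (nat_lit 2) (nat_lit 5) (nat_lit 4) (nat_lit 4) (nat_lit 2) (nat_lit 4) (nat_lit 293) (nat_lit 247) (nat_lit 240))) (XT.nd (nat_lit 78) (nat_lit 0) (nat_lit 0) (XT.lf (nat_lit 0) (nat_lit 51321561733) (nat_lit 152) (nat_lit 10885602342) (nat_lit 0) (nat_lit 50584294560) (nat_lit 2) (nat_lit 5) (nat_lit 4) (nat_lit 4) (nat_lit 2) (nat_lit 4) (nat_lit 294) (nat_lit 247) (nat_lit 239)) (XT.nd (nat_lit 78) (nat_lit 0) (nat_lit 0) (XT.lf (nat_lit 0) (nat_lit 61780079028) (nat_lit 152) (nat_lit 6494200436) (nat_lit 0) (nat_lit 60996107525) (nat_lit 2) (nat_lit 5) (nat_lit 4) (nat_lit 4) (nat_lit 2) (nat_lit 4) (nat_lit 295) (nat_lit 247) (nat_lit 238)) (XT.lf (nat_lit 0) (nat_lit 73662671603) (nat_lit 152) (nat_lit 1742155277) (nat_lit 0) (nat_lit 72838087639) (nat_lit 2) (nat_lit 5) (nat_lit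 4) (nat_lit 4) (nat_lit 2) (nat_lit 4) (nat_lit 296) (nat_lit 247) (nat_lit 237)))))) (XT.nd (nat_lit 390) (nat_lit 0) (nat_lit 0) (XT.nd (nat_lit 156) (nat_lit 0) (nat_lit 0) (XT.nd (nat_lit 78) (nat_lit 0) (nat_lit 0) (XT.lf (nat_lit 0) (nat_lit 3801987116) (nat_lit 76) (nat_lit 83557270026) (nat_lit 76) (nat_lit 82697370878) (nat_lit 1) (nat_lit 4) (nat_lit 2) (nat_lit 5) (nat_lit 2) (nat_lit 4) (nat_lit 297) (nat_lit 247) (nat_lit 236)) (XT.lf (nat_lit 0) (nat_lit 10126137947) (nat_lit 76) (nat_lit 92955599419) (nat_lit 76) (nat_lit 92064991417) (nat_lit 1) (nat_lit 4) (nat_lit 2) (nat_lit 5) (nat_lit 2) (nat_lit 4) (nat_lit 298) (nat_lit 247) (nat_lit 235))) (XT.nd (nat_lit 78) (nat_lit 0) (nat_lit 0) (XT.lf (nat_lit 0) (nat_lit 17183774517) (nat_lit 76) (nat_lit 103874762627) (nat_lit 76) (nat_lit 102957451272) (nat_lit 1) (nat_lit 4) (nat_lit 2) (nat_lit 5) (nat_lit 2) (nat_lit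 4) (nat_lit 299) (nat_lit 247) (nat_lit 234)) (XT.nd (nat_lit 78) (nat_lit 0) (nat_lit 0) (XT.lf (nat_lit 0) (nat_lit 25112981019) (nat_lit 76) (nat_lit 116528395450) (nat_lit 76) (nat_lit 115587863789) (nat_lit 1) (nat_lit 4) (nat_lit 2) (nat_lit 5) (nat_lit 2) (nat_lit 4) (nat_lit 300) (nat_lit 247) (nat_lit 233)) (XT.lf (nat_lit 0) (nat_lit 34068894103) (nat_lit 76) (nat_lit 131164068965) (nat_lit 76) (nat_lit 130203345733) (nat_lit 1) (nat_lit 4) (nat_lit 2) (nat_lit 5) (nat_lit 2) (nat_lit 4) (nat_lit 301) (nat_lit 247) (nat_lit 232))))) (XT.nd (nat_lit 156) (nat_lit 0) (nat_lit 0) (XT.nd (nat_lit 78) (nat_lit 0) (nat_lit 0) (XT.lf (nat_lit 0) (nat_lit 44226738156) (nat_lit 76) (nat_lit 148068133308) (nat_lit 76) (nat_lit 147089852188) (nat_lit 1) (nat_lit 4) (nat_lit 2) (nat_lit 5) (nat_lit 2) (nat_lit 4) (nat_lit 302) (nat_lit 247) (nat_lit 231)) (XT.lf (nat_lit 0) (nat_lit 55785253604)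 (nat_lit 76) (nat_lit 167571320170) (nat_lit 76) (nat_lit 166577771322) (nat_lit 1) (nat_lit 4) (nat_lit 2) (nat_lit 5) (nat_lit 2) (nat_lit 4) (nat_lit 303) (nat_lit 247) (nat_lit 230))) (XT.nd (nat_lit 78) (nat_lit 0) (nat_lit 0) (XT.lf (nat_lit 0) (nat_lit 68970585314) (nat_lit 76) (nat_lit 190055213643) (nat_lit 76) (nat_lit 189048388510) (nat_lit 1) (nat_lit 4) (nat_lit 2) (nat_lit 5) (nat_lit 2) (nat_lit 4) (nat_lit 304) (nat_lit 247) (nat_lit 229)) (XT.nd (nat_lit 78) (nat_lit 0) (nat_lit 0) (XT.lf (nat_lit 0) (nat_lit 84040707169) (nat_lit 76) (nat_lit 215959715991) (nat_lit 76) (nat_lit 214941346262) (nat_lit 1) (nat_lit 4) (nat_lit 2) (nat_lit 5) (nat_lit 2) (nat_lit 4) (nat_lit 305) (nat_lit 247) (nat_lit 228)) (XT.lf (nat_lit 0) (nat_lit 101290469377) (nat_lit 76) (nat_lit 245791654434) (nat_lit 76) (nat_lit 244763245925) (nat_lit 1) (nat_lit 4) (nat_lit 2) (nat_lit 5) (nat_lit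 2) (nat_lit 4) (nat_lit 306) (nat_lit 247) (nat_lit 227))))))) (XT.nd (nat_lit 780) (nat_lit 0) (nat_lit 0) (XT.nd (nat_lit 390) (nat_lit 0) (nat_lit 0) (XT.nd (nat_lit 156) (nat_lit 0) (nat_lit 0) (XT.nd (nat_lit 78) (nat_lit 0) (nat_lit 0) (XT.lf (nat_lit 0) (nat_lit 121057367288) (nat_lit 76) (nat_lit 280134697331) (nat_lit 76) (nat_lit 279097559449) (nat_lit 1) (nat_lit 4) (nat_lit 2) (nat_lit 5) (nat_lit 2) (nat_lit 4) (nat_lit 307) (nat_lit 247) (nat_lit 226)) (XT.lf (nat_lit 0) (nat_lit 143728144555) (nat_lit 76) (nat_lit 319660773784) (nat_lit 76) (nat_lit 318616045143) (nat_lit 1) (nat_lit 4) (nat_lit 2) (nat_lit 5) (nat_lit 2) (nat_lit 4) (nat_lit 308) (nat_lit 247) (nat_lit 225))) (XT.nd (nat_lit 78) (nat_lit 0) (nat_lit 0) (XT.lf (nat_lit 0) (nat_lit 169746359864) (nat_lit 76) (nat_lit 365143220071) (nat_lit 76) (nat_lit 364091890770) (nat_lit 1) (nat_lit 4) (nat_lit 2) (nat_lit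 5) (nat_lit 2) (nat_lit 4) (nat_lit 309) (nat_lit 247) (nat_lit 224)) (XT.nd (nat_lit 78) (nat_lit 0) (nat_lit 0) (XT.lf (nat_lit 0) (nat_lit 199621065254) (nat_lit 76) (nat_lit 417471910141) (nat_lit 76) (nat_lit 416414841135) (nat_lit 1) (nat_lit 4) (nat_lit 2) (nat_lit 5) (nat_lit 2) (nat_lit 4) (nat_lit 310) (nat_lit 247) (nat_lit 223)) (XT.lf (nat_lit 0) (nat_lit 233936765831) (nat_lit 76) (nat_lit 477670666191) (nat_lit 76) (nat_lit 476608606137) (nat_lit 1) (nat_lit 4) (nat_lit 2) (nat_lit 5) (nat_lit 2) (nat_lit 4) (nat_lit 311) (nat_lit 247) (nat_lit 222))))) (XT.nd (nat_lit 156) (nat_lit 0) (nat_lit 0) (XT.nd (nat_lit 78) (nat_lit 0) (nat_lit 0) (XT.lf (nat_lit 0) (nat_lit 273364855736) (nat_lit 76) (nat_lit 546917289970) (nat_lit 76) (nat_lit 545850889875) (nat_lit 1) (nat_lit 4) (nat_lit 2) (nat_lit 5) (nat_lit 2) (nat_lit 4) (nat_lit 312) (nat_lit 247) (nat_lit 221)) (XT.lf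 (nat_lit 0) (nat_lit 318676754119) (nat_lit 76) (nat_lit 626566606725) (nat_lit 76) (nat_lit 625496432681) (nat_lit 1) (nat_lit 4) (nat_lit 2) (nat_lit 5) (nat_lit 2) (nat_lit 4) (nat_lit 313) (nat_lit 247) (nat_lit 220))) (XT.nd (nat_lit 78) (nat_lit 0) (nat_lit 0) (XT.lf (nat_lit 0) (nat_lit 370758998122) (nat_lit 76) (nat_lit 718176972654) (nat_lit 76) (nat_lit 717103516916) (nat_lit 1) (nat_lit 4) (nat_lit 2) (nat_lit 5) (nat_lit 2) (nat_lit 4) (nat_lit 314) (nat_lit 247) (nat_lit 219)) (XT.nd (nat_lit 78) (nat_lit 0) (nat_lit 0) (XT.lf (nat_lit 0) (nat_lit 430630588173) (nat_lit 76) (nat_lit 823540764483) (nat_lit 76) (nat_lit 822464455096) (nat_lit 1) (nat_lit 4) (nat_lit 2) (nat_lit 5) (nat_lit 2) (nat_lit 4) (nat_lit 315) (nat_lit 247) (nat_lit 218)) (XT.lf (nat_lit 0) (nat_lit 499462924945) (nat_lit 76) (nat_lit 944719447702) (nat_lit 76) (nat_lit 943640656883) (nat_lit 1) (nat_lit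 4) (nat_lit 2) (nat_lit 5) (nat_lit 2) (nat_lit 4) (nat_lit 316) (nat_lit 247) (nat_lit 217)))))) (XT.nd (nat_lit 390) (nat_lit 0) (nat_lit 0) (XT.nd (nat_lit 156) (nat_lit 0) (nat_lit 0) (XT.nd (nat_lit 78) (nat_lit 0) (nat_lit 0) (XT.lf (nat_lit 0) (nat_lit 578602728071) (nat_lit 76) (nat_lit 1084083909592) (nat_lit 76) (nat_lit 1083002961006) (nat_lit 1) (nat_lit 4) (nat_lit 2) (nat_lit 5) (nat_lit 2) (nat_lit 4) (nat_lit 317) (nat_lit 247) (nat_lit 216)) (XT.lf (nat_lit 0) (nat_lit 669598385004) (nat_lit 76) (nat_lit 1244360846147) (nat_lit 76) (nat_lit 1243278021241) (nat_lit 1) (nat_lit 4) (nat_lit 2) (nat_lit 5) (nat_lit 2) (nat_lit 4) (nat_lit 318) (nat_lit 247) (nat_lit 215))) (XT.nd (nat_lit 78) (nat_lit 0) (nat_lit 0) (XT.lf (nat_lit 0) (nat_lit 774230245553) (nat_lit 76) (nat_lit 1428686110474) (nat_lit 76) (nat_lit 1427601653986) (nat_lit 1) (nat_lit 4) (nat_lit 2) (nat_lit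 5) (nat_lit 2) (nat_lit 4) (nat_lit 319) (nat_lit 247) (nat_lit 214)) (XT.nd (nat_lit 78) (nat_lit 0) (nat_lit 0) (XT.lf (nat_lit 0) (nat_lit 894545454817) (nat_lit 76) (nat_lit 1640666066440) (nat_lit 76) (nat_lit 1639580191184) (nat_lit 1) (nat_lit 4) (nat_lit 2) (nat_lit 5) (nat_lit 2) (nat_lit 4) (nat_lit 320) (nat_lit 247) (nat_lit 213)) (XT.lf (nat_lit 0) (nat_lit 1032898006018) (nat_lit 76) (nat_lit 1884448147965) (nat_lit 76) (nat_lit 1883361038999) (nat_lit 1) (nat_lit 4) (nat_lit 2) (nat_lit 5) (nat_lit 2) (nat_lit 4) (nat_lit 321) (nat_lit 247) (nat_lit 212))))) (XT.nd (nat_lit 156) (nat_lit 0) (nat_lit 0) (XT.nd (nat_lit 78) (nat_lit 0) (nat_lit 0) (XT.lf (nat_lit 0) (nat_lit 1191994796900) (nat_lit 76) (nat_lit 2164802004471) (nat_lit 76) (nat_lit 2163713822713) (nat_lit 1) (nat_lit 4) (nat_lit 2) (nat_lit 5) (nat_lit 2) (nat_lit 4) (nat_lit 322) (nat_lit 247) (nat_lit 211))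 (XT.lf (nat_lit 0) (nat_lit 1374948590761) (nat_lit 76) (nat_lit 2487212820107) (nat_lit 76) (nat_lit 2486123705487) (nat_lit 1) (nat_lit 4) (nat_lit 2) (nat_lit 5) (nat_lit 2) (nat_lit 4) (nat_lit 323) (nat_lit 247) (nat_lit 210))) (XT.nd (nat_lit 78) (nat_lit 0) (nat_lit 0) (XT.lf (nat_lit 0) (nat_lit 1585338918350) (nat_lit 76) (nat_lit 2857988632570) (nat_lit 76) (nat_lit 2856898706765) (nat_lit 1) (nat_lit 4) (nat_lit 2) (nat_lit 5) (nat_lit 2) (nat_lit 4) (nat_lit 324) (nat_lit 247) (nat_lit 209)) (XT.nd (nat_lit 78) (nat_lit 0) (nat_lit 0) (XT.lf (nat_lit 0) (nat_lit 1827282112165) (nat_lit 76) (nat_lit 3284383751235) (nat_lit 76) (nat_lit 3283293120052) (nat_lit 1) (nat_lit 4) (nat_lit 2) (nat_lit 5) (nat_lit 2) (nat_lit 4) (nat_lit 325) (nat_lit 247) (nat_lit 208)) (XT.lf (nat_lit 0) (nat_lit 2105511843388) (nat_lit 76) (nat_lit 3774740689292) (nat_lit 76) (nat_lit 3773649444737)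 (nat_lit 1) (nat_lit 4) (nat_lit 2) (nat_lit 5) (nat_lit 2) (nat_lit 4) (nat_lit 326) (nat_lit 247) (nat_lit 207))))))))
noncomputable def xc25 : XT := (XT.nd (nat_lit 37440) (nat_lit 0) (nat_lit 0) (XT.nd (nat_lit 780) (nat_lit 0) (nat_lit 0) (XT.nd (nat_lit 390) (nat_lit 0) (nat_lit 0) (XT.nd (nat_lit 156) (nat_lit 0) (nat_lit 0) (XT.nd (nat_lit 78) (nat_lit 0) (nat_lit 0) (XT.lf (nat_lit 0) (nat_lit 2425471737196) (nat_lit 76) (nat_lit 4338653386834) (nat_lit 76) (nat_lit 4337561608912) (nat_lit 1) (nat_lit 4) (nat_lit 2) (nat_lit 5) (nat_lit 2) (nat_lit 4) (nat_lit 327) (nat_lit 247) (nat_lit 206)) (XT.lf (nat_lit 0) (nat_lit 2793421878468) (nat_lit 76) (nat_lit 4987154918379) (nat_lit 76) (nat_lit 4986062676659) (nat_lit 1) (nat_lit 4) (nat_lit 2) (nat_lit 5) (nat_lit 2) (nat_lit 4) (nat_lit 328) (nat_lit 247) (nat_lit 205))) (XT.nd (nat_lit 78) (nat_lit 0) (nat_lit 0) (XT.lf (nat_lit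 0) (nat_lit 3216561291706) (nat_lit 76) (nat_lit 5732933357369) (nat_lit 76) (nat_lit 5731840712347) (nat_lit 1) (nat_lit 4) (nat_lit 2) (nat_lit 5) (nat_lit 2) (nat_lit 4) (nat_lit 329) (nat_lit 247) (nat_lit 204)) (XT.nd (nat_lit 78) (nat_lit 0) (nat_lit 0) (XT.lf (nat_lit 0) (nat_lit 3703168791517) (nat_lit 76) (nat_lit 6590580021090) (nat_lit 76) (nat_lit 6589487025370) (nat_lit 1) (nat_lit 4) (nat_lit 2) (nat_lit 5) (nat_lit 2) (nat_lit 4) (nat_lit 330) (nat_lit 247) (nat_lit 203)) (XT.lf (nat_lit 0) (nat_lit 4262764959420) (nat_lit 76) (nat_lit 7576874952960) (nat_lit 76) (nat_lit 7575781652286) (nat_lit 1) (nat_lit 4) (nat_lit 2) (nat_lit 5) (nat_lit 2) (nat_lit 4) (nat_lit 331) (nat_lit 247) (nat_lit 202))))) (XT.nd (nat_lit 156) (nat_lit 0) (nat_lit 0) (XT.nd (nat_lit 78) (nat_lit 0) (nat_lit 0) (XT.lf (nat_lit 0) (nat_lit 4906298416091) (nat_lit 76) (nat_lit 8711115227736) (nat_lit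 76) (nat_lit 8710021661884) (nat_lit 1) (nat_lit 4) (nat_lit 2) (nat_lit 5) (nat_lit 2) (nat_lit 4) (nat_lit 332) (nat_lit 247) (nat_lit 201)) (XT.lf (nat_lit 0) (nat_lit 5646360033508) (nat_lit 76) (nat_lit 10015492502967) (nat_lit 76) (nat_lit 10014398706525) (nat_lit 1) (nat_lit 4) (nat_lit 2) (nat_lit 5) (nat_lit 2) (nat_lit 4) (nat_lit 333) (nat_lit 247) (nat_lit 200))) (XT.nd (nat_lit 78) (nat_lit 0) (nat_lit 0) (XT.lf (nat_lit 0) (nat_lit 6497429278099) (nat_lit 76) (nat_lit 11515527203602) (nat_lit 76) (nat_lit 11514433206648) (nat_lit 1) (nat_lit 4) (nat_lit 2) (nat_lit 5) (nat_lit 2) (nat_lit 4) (nat_lit 334) (nat_lit 247) (nat_lit 199)) (XT.nd (nat_lit 78) (nat_lit 0) (nat_lit 0) (XT.lf (nat_lit 0) (nat_lit 7476157504649) (nat_lit 76) (nat_lit 13240567834654) (nat_lit 76) (nat_lit 13239473663342) (nat_lit 1) (nat_lit 4) (nat_lit 2) (nat_lit 5) (nat_lit 2) (nat_lit 4) (nat_lit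 335) (nat_lit 247) (nat_lit 198)) (XT.lf (nat_lit 0) (nat_lit 8601693743678) (nat_lit 76) (nat_lit 15224365191079) (nat_lit 76) (nat_lit 15223270868150) (nat_lit 1) (nat_lit 4) (nat_lit 2) (nat_lit 5) (nat_lit 2) (nat_lit 4) (nat_lit 336) (nat_lit 247) (nat_lit 197)))))) (XT.nd (nat_lit 390) (nat_lit 0) (nat_lit 0) (XT.nd (nat_lit 156) (nat_lit 0) (nat_lit 0) (XT.nd (nat_lit 78) (nat_lit 0) (nat_lit 0) (XT.lf (nat_lit 0) (nat_lit 9896059356385) (nat_lit 76) (nat_lit 17505732699416) (nat_lit 76) (nat_lit 17504638244647) (nat_lit 1) (nat_lit 4) (nat_lit 2) (nat_lit 5) (nat_lit 2) (nat_lit 4) (nat_lit 337) (nat_lit 247) (nat_lit 196)) (XT.lf (nat_lit 0) (nat_lit 11384578887365) (nat_lit 76) (nat_lit 20129305810914) (nat_lit 76) (nat_lit 20128211241501) (nat_lit 1) (nat_lit 4) (nat_lit 2) (nat_lit 5) (nat_lit 2) (nat_lit 4) (nat_lit 338) (nat_lit 247) (nat_lit 195))) (XT.nd (nat_lit 78) (nat_lit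 0) (nat_lit 0) (XT.lf (nat_lit 0) (nat_lit 13096375544834) (nat_lit 76) (nat_lit 23146415303841) (nat_lit 76) (nat_lit 23145320634739) (nat_lit 1) (nat_lit 4) (nat_lit 2) (nat_lit 5) (nat_lit 2) (nat_lit 4) (nat_lit 339) (nat_lit 247) (nat_lit 194)) (XT.nd (nat_lit 78) (nat_lit 0) (nat_lit 0) (XT.lf (nat_lit 0) (nat_lit 15064941002524) (nat_lit 76) (nat_lit 26616091581321) (nat_lit 76) (nat_lit 26614996825532) (nat_lit 1) (nat_lit 4) (nat_lit 2) (nat_lit 5) (nat_lit 2) (nat_lit 4) (nat_lit 340) (nat_lit 247) (nat_lit 193)) (XT.lf (nat_lit 0) (nat_lit 17328790671564) (nat_lit 76) (nat_lit 30606219614000) (nat_lit 76) (nat_lit 30605124782831) (nat_lit 1) (nat_lit 4) (nat_lit 2) (nat_lit 5) (nat_lit 2) (nat_lit 4) (nat_lit 341) (nat_lit 247) (nat_lit 192))))) (XT.nd (nat_lit 156) (nat_lit 0) (nat_lit 0) (XT.nd (nat_lit 78) (nat_lit 0) (nat_lit 0) (XT.lf (nat_lit 0) (nat_lit 19932217262871)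 (nat_lit 76) (nat_lit 35194867124256) (nat_lit 76) (nat_lit 35193772227539) (nat_lit 1) (nat_lit 4) (nat_lit 2) (nat_lit 5) (nat_lit 2) (nat_lit 4) (nat_lit 342) (nat_lit 247) (nat_lit 191)) (XT.lf (nat_lit 0) (nat_lit 22926157383665) (nat_lit 76) (nat_lit 40471811998160) (nat_lit 76) (nat_lit 40470717044444) (nat_lit 1) (nat_lit 4) (nat_lit 2) (nat_lit 5) (nat_lit 2) (nat_lit 4) (nat_lit 343) (nat_lit 247) (nat_lit 190))) (XT.nd (nat_lit 35958) (nat_lit 0) (nat_lit 228) (XT.lf (nat_lit 0) (nat_lit 26369188123267) (nat_lit 76) (nat_lit 46540298809331) (nat_lit 76) (nat_lit 46539203806051) (nat_lit 1) (nat_lit 4) (nat_lit 2) (nat_lit 5) (nat_lit 2) (nat_lit 4) (nat_lit 344) (nat_lit 247) (nat_lit 189)) (XT.nd (nat_lit 78) (nat_lit 0) (nat_lit 0) (XT.lf (nat_lit 0) (nat_lit 5878572674) (nat_lit 76) (nat_lit 4863001422) (nat_lit 76) (nat_lit 4863001422) (nat_lit 4) (nat_lit 4) (nat_lit 5)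 (nat_lit 5) (nat_lit 5) (nat_lit 4) (nat_lit 284) (nat_lit 248) (nat_lit 248)) (XT.lf (nat_lit 0) (nat_lit 23683943279) (nat_lit 76) (nat_lit 5820272572) (nat_lit 76) (nat_lit 5631327508) (nat_lit 4) (nat_lit 4) (nat_lit 5) (nat_lit 5) (nat_lit 5) (nat_lit 4) (nat_lit 285) (nat_lit 248) (nat_lit 247))))))) (XT.nd (nat_lit 780) (nat_lit 76) (nat_lit 0) (XT.nd (nat_lit 390) (nat_lit 0) (nat_lit 0) (XT.nd (nat_lit 156) (nat_lit 0) (nat_lit 0) (XT.nd (nat_lit 78) (nat_lit 152) (nat_lit 0) (XT.lf (nat_lit 0) (nat_lit 36536087533) (nat_lit 76) (nat_lit 1766105262) (nat_lit 76) (nat_lit 1412860143) (nat_lit 4) (nat_lit 4) (nat_lit 5) (nat_lit 5) (nat_lit 5) (nat_lit 4) (nat_lit 286) (nat_lit 248) (nat_lit 246)) (XT.lf (nat_lit 0) (nat_lit 3111192369) (nat_lit 152) (nat_lit 39172480414) (nat_lit 0) (nat_lit 2679788254) (nat_lit 2) (nat_lit 5) (nat_lit 4) (nat_lit 4) (nat_lit 2) (nat_lit 4) (nat_lit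 287) (nat_lit 248) (nat_lit 245))) (XT.nd (nat_lit 78) (nat_lit 0) (nat_lit 0) (XT.lf (nat_lit 0) (nat_lit 8042478207) (nat_lit 152) (nat_lit 35462670001) (nat_lit 0) (nat_lit 7503044138) (nat_lit 2) (nat_lit 5) (nat_lit 4) (nat_lit 4) (nat_lit 2) (nat_lit 4) (nat_lit 288) (nat_lit 248) (nat_lit 244)) (XT.nd (nat_lit 78) (nat_lit 0) (nat_lit 0) (XT.lf (nat_lit 0) (nat_lit 13378751673) (nat_lit 152) (nat_lit 31885835184) (nat_lit 0) (nat_lit 12745378514) (nat_lit 2) (nat_lit 5) (nat_lit 4) (nat_lit 4) (nat_lit 2) (nat_lit 4) (nat_lit 289) (nat_lit 248) (nat_lit 243)) (XT.lf (nat_lit 0) (nat_lit 19224418115) (nat_lit 152) (nat_lit 28371994413) (nat_lit 0) (nat_lit 18509358791) (nat_lit 2) (nat_lit 5) (nat_lit 4) (nat_lit 4) (nat_lit 2) (nat_lit 4) (nat_lit 290) (nat_lit 248) (nat_lit 242))))) (XT.nd (nat_lit 156) (nat_lit 0) (nat_lit 0) (XT.nd (nat_lit 78) (nat_lit 0) (nat_lit 0) (XT.lf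 (nat_lit 0) (nat_lit 25693849270) (nat_lit 152) (nat_lit 24852398630) (nat_lit 0) (nat_lit 24907758498) (nat_lit 2) (nat_lit 5) (nat_lit 4) (nat_lit 4) (nat_lit 2) (nat_lit 4) (nat_lit 291) (nat_lit 248) (nat_lit 241)) (XT.lf (nat_lit 0) (nat_lit 32913620964) (nat_lit 152) (nat_lit 21258186178) (nat_lit 0) (nat_lit 32065763715) (nat_lit 2) (nat_lit 5) (nat_lit 4) (nat_lit 4) (nat_lit 2) (nat_lit 4) (nat_lit 292) (nat_lit 248) (nat_lit 240))) (XT.nd (nat_lit 78) (nat_lit 0) (nat_lit 0) (XT.lf (nat_lit 0) (nat_lit 41024989600) (nat_lit 152) (nat_lit 17519035508) (nat_lit 0) (nat_lit 40123422372) (nat_lit 2) (nat_lit 5) (nat_lit 4) (nat_lit 4) (nat_lit 2) (nat_lit 4) (nat_lit 293) (nat_lit 248) (nat_lit 239)) (XT.nd (nat_lit 78) (nat_lit 0) (nat_lit 0) (XT.lf (nat_lit 0) (nat_lit 50186655869) (nat_lit 152) (nat_lit 13561789326) (nat_lit 0) (nat_lit 49238384310) (nat_lit 2) (nat_lit 5) (nat_lit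 4) (nat_lit 4) (nat_lit 2) (nat_lit 4) (nat_lit 294) (nat_lit 248) (nat_lit 238)) (XT.lf (nat_lit 0) (nat_lit 60577869762) (nat_lit 152) (nat_lit 9309023249) (nat_lit 0) (nat_lit 59588985742) (nat_lit 2) (nat_lit 5) (nat_lit 4) (nat_lit 4) (nat_lit 2) (nat_lit 4) (nat_lit 295) (nat_lit 248) (nat_lit 237)))))) (XT.nd (nat_lit 390) (nat_lit 0) (nat_lit 0) (XT.nd (nat_lit 156) (nat_lit 0) (nat_lit 0) (XT.nd (nat_lit 78) (nat_lit 76) (nat_lit 0) (XT.lf (nat_lit 0) (nat_lit 72401937639) (nat_lit 152) (nat_lit 4677530984) (nat_lit 0) (nat_lit 71377738436) (nat_lit 2) (nat_lit 5) (nat_lit 4) (nat_lit 4) (nat_lit 2) (nat_lit 4) (nat_lit 296) (nat_lit 248) (nat_lit 236)) (XT.lf (nat_lit 0) (nat_lit 464671928) (nat_lit 76) (nat_lit 85444769102) (nat_lit 76) (nat_lit 84389861044) (nat_lit 1) (nat_lit 4) (nat_lit 2) (nat_lit 5) (nat_lit 2) (nat_lit 4) (nat_lit 297) (nat_lit 248) (nat_lit 235))) (XT.nd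 (nat_lit 78) (nat_lit 0) (nat_lit 0) (XT.lf (nat_lit 0) (nat_lit 6688759091) (nat_lit 76) (nat_lit 94894765661) (nat_lit 76) (nat_lit 93813154251) (nat_lit 1) (nat_lit 4) (nat_lit 2) (nat_lit 5) (nat_lit 2) (nat_lit 4) (nat_lit 298) (nat_lit 248) (nat_lit 234)) (XT.nd (nat_lit 78) (nat_lit 0) (nat_lit 0) (XT.lf (nat_lit 0) (nat_lit 13659383776) (nat_lit 76) (nat_lit 105858856838) (nat_lit 76) (nat_lit 104754025121) (nat_lit 1) (nat_lit 4) (nat_lit 2) (nat_lit 5) (nat_lit 2) (nat_lit 4) (nat_lit 299) (nat_lit 248) (nat_lit 233)) (XT.lf (nat_lit 0) (nat_lit 21512927770) (nat_lit 76) (nat_lit 118551557461) (nat_lit 76) (nat_lit 117426534173) (nat_lit 1) (nat_lit 4) (nat_lit 2) (nat_lit 5) (nat_lit 2) (nat_lit 4) (nat_lit 300) (nat_lit 248) (nat_lit 232))))) (XT.nd (nat_lit 234) (nat_lit 0) (nat_lit 0) (XT.nd (nat_lit 78) (nat_lit 0) (nat_lit 0) (XT.lf (nat_lit 0) (nat_lit 30403047368) (nat_lit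 76) (nat_lit 133221202976) (nat_lit 76) (nat_lit 132078621801) (nat_lit 1) (nat_lit 4) (nat_lit 2) (nat_lit 5) (nat_lit 2) (nat_lit 4) (nat_lit 301) (nat_lit 248) (nat_lit 231)) (XT.nd (nat_lit 78) (nat_lit 0) (nat_lit 0) (XT.lf (nat_lit 0) (nat_lit 40503679694) (nat_lit 76) (nat_lit 150154808187) (nat_lit 76) (nat_lit 148996959284) (nat_lit 1) (nat_lit 4) (nat_lit 2) (nat_lit 5) (nat_lit 2) (nat_lit 4) (nat_lit 302) (nat_lit 248) (nat_lit 230)) (XT.lf (nat_lit 0) (nat_lit 52012445814) (nat_lit 76) (nat_lit 169683682762) (nat_lit 76) (nat_lit 168512557573) (nat_lit 1) (nat_lit 4) (nat_lit 2) (nat_lit 5) (nat_lit 2) (nat_lit 4) (nat_lit 303) (nat_lit 248) (nat_lit 229)))) (XT.nd (nat_lit 78) (nat_lit 0) (nat_lit 0) (XT.lf (nat_lit 0) (nat_lit 65154517240) (nat_lit 76) (nat_lit 192189913377) (nat_lit 76) (nat_lit 191007243591) (nat_lit 1) (nat_lit 4) (nat_lit 2) (nat_lit 5) (nat_lit 2)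 (nat_lit 4) (nat_lit 304) (nat_lit 248) (nat_lit 228)) (XT.nd (nat_lit 78) (nat_lit 0) (nat_lit 0) (XT.lf (nat_lit 0) (nat_lit 80187021455) (nat_lit 76) (nat_lit 218113839326) (nat_lit 76) (nat_lit 216921130761) (nat_lit 1) (nat_lit 4) (nat_lit 2) (nat_lit 5) (nat_lit 2) (nat_lit 4) (nat_lit 305) (nat_lit 248) (nat_lit 227)) (XT.lf (nat_lit 0) (nat_lit 97404072673) (nat_lit 76) (nat_lit 247962667856) (nat_lit 76) (nat_lit 246761229918) (nat_lit 1) (nat_lit 4) (nat_lit 2) (nat_lit 5) (nat_lit 2) (nat_lit 4) (nat_lit 306) (nat_lit 248) (nat_lit 226))))))))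
noncomputable def xc26 : XT := (XT.nd (nat_lit 1560) (nat_lit 0) (nat_lit 0) (XT.nd (nat_lit 780) (nat_lit 0) (nat_lit 0) (XT.nd (nat_lit 390) (nat_lit 0) (nat_lit 0) (XT.nd (nat_lit 156) (nat_lit 0) (nat_lit 0) (XT.nd (nat_lit 78) (nat_lit 0) (nat_lit 0) (XT.lf (nat_lit 0) (nat_lit 117142526244) (nat_lit 76) (nat_lit 282320397786) (nat_lit 76) (nat_lit 281111369089) (nat_lit 1) (nat_lit 4) (nat_lit 2) (nat_lit 5) (nat_lit 2) (nat_lit 4) (nat_lit 307) (nat_lit 248) (nat_lit 225)) (XT.lf (nat_lit 0) (nat_lit 139788569303) (nat_lit 76) (nat_lit 321859245572) (nat_lit 76) (nat_lit 320643616215) (nat_lit 1) (nat_lit 4) (nat_lit 2) (nat_lit 5) (nat_lit 2) (nat_lit 4) (nat_lit 308) (nat_lit 248) (nat_lit 224))) (XT.nd (nat_lit 78) (nat_lit 0) (nat_lit 0) (XT.lf (nat_lit 0) (nat_lit 165785276605) (nat_lit 76) (nat_lit 367352797366) (nat_lit 76) (nat_lit 366131428305) (nat_lit 1) (nat_lit 4)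 (nat_lit 2) (nat_lit 5) (nat_lit 2) (nat_lit 4) (nat_lit 309) (nat_lit 248) (nat_lit 223)) (XT.nd (nat_lit 78) (nat_lit 0) (nat_lit 0) (XT.lf (nat_lit 0) (nat_lit 195641279381) (nat_lit 76) (nat_lit 419691144399) (nat_lit 76) (nat_lit 418464784290) (nat_lit 1) (nat_lit 4) (nat_lit 2) (nat_lit 5) (nat_lit 2) (nat_lit 4) (nat_lit 310) (nat_lit 248) (nat_lit 222)) (XT.lf (nat_lit 0) (nat_lit 229940716814) (nat_lit 76) (nat_lit 479898297807) (nat_lit 76) (nat_lit 478667597657) (nat_lit 1) (nat_lit 4) (nat_lit 2) (nat_lit 5) (nat_lit 2) (nat_lit 4) (nat_lit 311) (nat_lit 248) (nat_lit 221))))) (XT.nd (nat_lit 156) (nat_lit 0) (nat_lit 0) (XT.nd (nat_lit 78) (nat_lit 0) (nat_lit 0) (XT.lf (nat_lit 0) (nat_lit 269354664854) (nat_lit 76) (nat_lit 549152223637) (nat_lit 76) (nat_lit 547917749538) (nat_lit 1) (nat_lit 4) (nat_lit 2) (nat_lit 5) (nat_lit 2) (nat_lit 4) (nat_lit 312) (nat_lit 248)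 (nat_lit 220)) (XT.lf (nat_lit 0) (nat_lit 314654265964) (nat_lit 76) (nat_lit 628807890002) (nat_lit 76) (nat_lit 627570134208) (nat_lit 1) (nat_lit 4) (nat_lit 2) (nat_lit 5) (nat_lit 2) (nat_lit 4) (nat_lit 313) (nat_lit 248) (nat_lit 219))) (XT.nd (nat_lit 78) (nat_lit 0) (nat_lit 0) (XT.lf (nat_lit 0) (nat_lit 366725816687) (nat_lit 76) (nat_lit 720423777331) (nat_lit 76) (nat_lit 719183167889) (nat_lit 1) (nat_lit 4) (nat_lit 2) (nat_lit 5) (nat_lit 2) (nat_lit 4) (nat_lit 314) (nat_lit 248) (nat_lit 218)) (XT.nd (nat_lit 78) (nat_lit 0) (nat_lit 0) (XT.lf (nat_lit 0) (nat_lit 426588108233) (nat_lit 76) (nat_lit 825792370376) (nat_lit 76) (nat_lit 824549279502) (nat_lit 1) (nat_lit 4) (nat_lit 2) (nat_lit 5) (nat_lit 2) (nat_lit 4) (nat_lit 315) (nat_lit 248) (nat_lit 217)) (XT.lf (nat_lit 0) (nat_lit 495412359348) (nat_lit 76) (nat_lit 946975228567) (nat_lit 76) (nat_lit 945729979925)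 (nat_lit 1) (nat_lit 4) (nat_lit 2) (nat_lit 5) (nat_lit 2) (nat_lit 4) (nat_lit 316) (nat_lit 248) (nat_lit 216)))))) (XT.nd (nat_lit 390) (nat_lit 0) (nat_lit 0) (XT.nd (nat_lit 156) (nat_lit 0) (nat_lit 0) (XT.nd (nat_lit 78) (nat_lit 0) (nat_lit 0) (XT.lf (nat_lit 0) (nat_lit 574545131469) (nat_lit 76) (nat_lit 1086343320867) (nat_lit 76) (nat_lit 1085096195906) (nat_lit 1) (nat_lit 4) (nat_lit 2) (nat_lit 5) (nat_lit 2) (nat_lit 4) (nat_lit 317) (nat_lit 248) (nat_lit 215)) (XT.lf (nat_lit 0) (nat_lit 665534674484) (nat_lit 76) (nat_lit 1246623414301) (nat_lit 76) (nat_lit 1245374657757) (nat_lit 1) (nat_lit 4) (nat_lit 2) (nat_lit 5) (nat_lit 2) (nat_lit 4) (nat_lit 318) (nat_lit 248) (nat_lit 214))) (XT.nd (nat_lit 78) (nat_lit 0) (nat_lit 0) (XT.lf (nat_lit 0) (nat_lit 770161218583) (nat_lit 76) (nat_lit 1430951423739) (nat_lit 76) (nat_lit 1429701248428) (nat_lit 1) (nat_lit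 4) (nat_lit 2) (nat_lit 5) (nat_lit 2) (nat_lit 4) (nat_lit 319) (nat_lit 248) (nat_lit 213)) (XT.nd (nat_lit 78) (nat_lit 0) (nat_lit 0) (XT.lf (nat_lit 0) (nat_lit 890471804845) (nat_lit 76) (nat_lit 1642933766758) (nat_lit 76) (nat_lit 1641682357736) (nat_lit 1) (nat_lit 4) (nat_lit 2) (nat_lit 5) (nat_lit 2) (nat_lit 4) (nat_lit 320) (nat_lit 248) (nat_lit 212)) (XT.lf (nat_lit 0) (nat_lit 1028820336047) (nat_lit 76) (nat_lit 1886717923982) (nat_lit 76) (nat_lit 1885465442168) (nat_lit 1) (nat_lit 4) (nat_lit 2) (nat_lit 5) (nat_lit 2) (nat_lit 4) (nat_lit 321) (nat_lit 248) (nat_lit 211))))) (XT.nd (nat_lit 156) (nat_lit 0) (nat_lit 0) (XT.nd (nat_lit 78) (nat_lit 0) (nat_lit 0) (XT.lf (nat_lit 0) (nat_lit 1187913631276) (nat_lit 76) (nat_lit 2167073585443) (nat_lit 76) (nat_lit 2165820170767) (nat_lit 1) (nat_lit 4) (nat_lit 2) (nat_lit 5) (nat_lit 2) (nat_lit 4) (nat_lit 322) (nat_lit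 248) (nat_lit 210)) (XT.lf (nat_lit 0) (nat_lit 1370864385439) (nat_lit 76) (nat_lit 2489485970606) (nat_lit 76) (nat_lit 2488231744745) (nat_lit 1) (nat_lit 4) (nat_lit 2) (nat_lit 5) (nat_lit 2) (nat_lit 4) (nat_lit 323) (nat_lit 248) (nat_lit 209))) (XT.nd (nat_lit 78) (nat_lit 0) (nat_lit 0) (XT.lf (nat_lit 0) (nat_lit 1581252069813) (nat_lit 76) (nat_lit 2860263147875) (nat_lit 76) (nat_lit 2859008216636) (nat_lit 1) (nat_lit 4) (nat_lit 2) (nat_lit 5) (nat_lit 2) (nat_lit 4) (nat_lit 324) (nat_lit 248) (nat_lit 208)) (XT.nd (nat_lit 78) (nat_lit 0) (nat_lit 0) (XT.lf (nat_lit 0) (nat_lit 1823192965180) (nat_lit 76) (nat_lit 3286659453327) (nat_lit 76) (nat_lit 3285403908715) (nat_lit 1) (nat_lit 4) (nat_lit 2) (nat_lit 5) (nat_lit 2) (nat_lit 4) (nat_lit 325) (nat_lit 248) (nat_lit 207)) (XT.lf (nat_lit 0) (nat_lit 2101420697752) (nat_lit 76) (nat_lit 3777017423373) (nat_lit 76)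 (nat_lit 3775761345395) (nat_lit 1) (nat_lit 4) (nat_lit 2) (nat_lit 5) (nat_lit 2) (nat_lit 4) (nat_lit 326) (nat_lit 248) (nat_lit 206))))))) (XT.nd (nat_lit 780) (nat_lit 0) (nat_lit 0) (XT.nd (nat_lit 390) (nat_lit 0) (nat_lit 0) (XT.nd (nat_lit 156) (nat_lit 0) (nat_lit 0) (XT.nd (nat_lit 78) (nat_lit 0) (nat_lit 0) (XT.lf (nat_lit 0) (nat_lit 2421378853603) (nat_lit 76) (nat_lit 4340931018297) (nat_lit 76) (nat_lit 4339674476521) (nat_lit 1) (nat_lit 4) (nat_lit 2) (nat_lit 5) (nat_lit 2) (nat_lit 4) (nat_lit 327) (nat_lit 248) (nat_lit 205)) (XT.lf (nat_lit 0) (nat_lit 2789327483608) (nat_lit 76) (nat_lit 4989433330174) (nat_lit 76) (nat_lit 4988176385096) (nat_lit 1) (nat_lit 4) (nat_lit 2) (nat_lit 5) (nat_lit 2) (nat_lit 4) (nat_lit 328) (nat_lit 248) (nat_lit 204))) (XT.nd (nat_lit 78) (nat_lit 0) (nat_lit 0) (XT.lf (nat_lit 0) (nat_lit 3212465582700) (nat_lit 76) (nat_lit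 5735212447713) (nat_lit 76) (nat_lit 5733955151938) (nat_lit 1) (nat_lit 4) (nat_lit 2) (nat_lit 5) (nat_lit 2) (nat_lit 4) (nat_lit 329) (nat_lit 248) (nat_lit 203)) (XT.nd (nat_lit 78) (nat_lit 0) (nat_lit 0) (XT.lf (nat_lit 0) (nat_lit 3699071939777) (nat_lit 76) (nat_lit 6592859701477) (nat_lit 76) (nat_lit 6591602100747) (nat_lit 1) (nat_lit 4) (nat_lit 2) (nat_lit 5) (nat_lit 2) (nat_lit 4) (nat_lit 330) (nat_lit 248) (nat_lit 202)) (XT.lf (nat_lit 0) (nat_lit 4258667113997) (nat_lit 76) (nat_lit 7579155146429) (nat_lit 76) (nat_lit 7577897280521) (nat_lit 1) (nat_lit 4) (nat_lit 2) (nat_lit 5) (nat_lit 2) (nat_lit 4) (nat_lit 331) (nat_lit 248) (nat_lit 201))))) (XT.nd (nat_lit 156) (nat_lit 0) (nat_lit 0) (XT.nd (nat_lit 78) (nat_lit 0) (nat_lit 0) (XT.lf (nat_lit 0) (nat_lit 4902199706596) (nat_lit 76) (nat_lit 8713395867362) (nat_lit 76) (nat_lit 8712137770865) (nat_lit 1) (nat_lit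 4) (nat_lit 2) (nat_lit 5) (nat_lit 2) (nat_lit 4) (nat_lit 332) (nat_lit 248) (nat_lit 200)) (XT.lf (nat_lit 0) (nat_lit 5642260572646) (nat_lit 76) (nat_lit 10017773530555) (nat_lit 76) (nat_lit 10016515233546) (nat_lit 1) (nat_lit 4) (nat_lit 2) (nat_lit 5) (nat_lit 2) (nat_lit 4) (nat_lit 333) (nat_lit 248) (nat_lit 199))) (XT.nd (nat_lit 78) (nat_lit 0) (nat_lit 0) (XT.lf (nat_lit 0) (nat_lit 6493329163875) (nat_lit 76) (nat_lit 11517808568549) (nat_lit 76) (nat_lit 11516550097181) (nat_lit 1) (nat_lit 4) (nat_lit 2) (nat_lit 5) (nat_lit 2) (nat_lit 4) (nat_lit 334) (nat_lit 248) (nat_lit 198)) (XT.nd (nat_lit 78) (nat_lit 0) (nat_lit 0) (XT.lf (nat_lit 0) (nat_lit 7472056822284) (nat_lit 76) (nat_lit 13242849492957) (nat_lit 76) (nat_lit 13241590869973) (nat_lit 1) (nat_lit 4) (nat_lit 2) (nat_lit 5) (nat_lit 2) (nat_lit 4) (nat_lit 335) (nat_lit 248) (nat_lit 197)) (XT.lf (nat_lit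 0) (nat_lit 8597592567277) (nat_lit 76) (nat_lit 15226647104474) (nat_lit 76) (nat_lit 15225388349650) (nat_lit 1) (nat_lit 4) (nat_lit 2) (nat_lit 5) (nat_lit 2) (nat_lit 4) (nat_lit 336) (nat_lit 248) (nat_lit 196)))))) (XT.nd (nat_lit 390) (nat_lit 0) (nat_lit 0) (XT.nd (nat_lit 156) (nat_lit 0) (nat_lit 0) (XT.nd (nat_lit 78) (nat_lit 0) (nat_lit 0) (XT.lf (nat_lit 0) (nat_lit 9891957750387) (nat_lit 76) (nat_lit 17508014834630) (nat_lit 76) (nat_lit 17506755965162) (nat_lit 1) (nat_lit 4) (nat_lit 2) (nat_lit 5) (nat_lit 2) (nat_lit 4) (nat_lit 337) (nat_lit 248) (nat_lit 195)) (XT.lf (nat_lit 0) (nat_lit 11380476907805) (nat_lit 76) (nat_lit 20131588139014) (nat_lit 76) (nat_lit 20130329169856) (nat_lit 1) (nat_lit 4) (nat_lit 2) (nat_lit 5) (nat_lit 2) (nat_lit 4) (nat_lit 338) (nat_lit 248) (nat_lit 194))) (XT.nd (nat_lit 78) (nat_lit 0) (nat_lit 0) (XT.lf (nat_lit 0) (nat_lit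 13092273240437) (nat_lit 76) (nat_lit 23148697799669) (nat_lit 76) (nat_lit 23147438743823) (nat_lit 1) (nat_lit 4) (nat_lit 2) (nat_lit 5) (nat_lit 2) (nat_lit 4) (nat_lit 339) (nat_lit 248) (nat_lit 193)) (XT.nd (nat_lit 78) (nat_lit 0) (nat_lit 0) (XT.lf (nat_lit 0) (nat_lit 15060838415661) (nat_lit 76) (nat_lit 26618374222999) (nat_lit 76) (nat_lit 26617115091773) (nat_lit 1) (nat_lit 4) (nat_lit 2) (nat_lit 5) (nat_lit 2) (nat_lit 4) (nat_lit 340) (nat_lit 248) (nat_lit 192)) (XT.lf (nat_lit 0) (nat_lit 17324687839078) (nat_lit 76) (nat_lit 30608502382503) (nat_lit 76) (nat_lit 30607243185730) (nat_lit 1) (nat_lit 4) (nat_lit 2) (nat_lit 5) (nat_lit 2) (nat_lit 4) (nat_lit 341) (nat_lit 248) (nat_lit 191))))) (XT.nd (nat_lit 156) (nat_lit 0) (nat_lit 0) (XT.nd (nat_lit 78) (nat_lit 0) (nat_lit 0) (XT.lf (nat_lit 0) (nat_lit 19928114216800) (nat_lit 76) (nat_lit 35197150003043) (nat_lit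 76) (nat_lit 35195890749271) (nat_lit 1) (nat_lit 4) (nat_lit 2) (nat_lit 5) (nat_lit 2) (nat_lit 4) (nat_lit 342) (nat_lit 248) (nat_lit 190)) (XT.lf (nat_lit 0) (nat_lit 22922054151868) (nat_lit 76) (nat_lit 40474094972845) (nat_lit 76) (nat_lit 40472835669510) (nat_lit 1) (nat_lit 4) (nat_lit 2) (nat_lit 5) (nat_lit 2) (nat_lit 4) (nat_lit 343) (nat_lit 248) (nat_lit 189))) (XT.nd (nat_lit 936) (nat_lit 0) (nat_lit 0) (XT.lf (nat_lit 0) (nat_lit 26365084729968) (nat_lit 76) (nat_lit 46542581867406) (nat_lit 76) (nat_lit 46541322520972) (nat_lit 1) (nat_lit 4) (nat_lit 2) (nat_lit 5) (nat_lit 2) (nat_lit 4) (nat_lit 344) (nat_lit 248) (nat_lit 188)) (XT.nd (nat_lit 78) (nat_lit 0) (nat_lit 0) (XT.lf (nat_lit 0) (nat_lit 141196726362786) (nat_lit 76) (nat_lit 248938271502670) (nat_lit 76) (nat_lit 248937011922614) (nat_lit 1) (nat_lit 4) (nat_lit 2) (nat_lit 5) (nat_lit 2) (nat_lit 4)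 (nat_lit 356) (nat_lit 248) (nat_lit 176)) (XT.lf (nat_lit 0) (nat_lit 162380955833902) (nat_lit 76) (nat_lit 286276385877699) (nat_lit 76) (nat_lit 286275126290638) (nat_lit 1) (nat_lit 4) (nat_lit 2) (nat_lit 5) (nat_lit 2) (nat_lit 4) (nat_lit 357) (nat_lit 248) (nat_lit 175))))))))
noncomputable def xc27 : XT := (XT.nd (nat_lit 1560) (nat_lit 0) (nat_lit 0) (XT.nd (nat_lit 780) (nat_lit 76) (nat_lit 0) (XT.nd (nat_lit 390) (nat_lit 152) (nat_lit 0) (XT.nd (nat_lit 156) (nat_lit 0) (nat_lit 0) (XT.nd (nat_lit 78) (nat_lit 76) (nat_lit 0) (XT.lf (nat_lit 0) (nat_lit 4018822604) (nat_lit 152) (nat_lit 4422325455) (nat_lit 0) (nat_lit 4018822604) (nat_lit 5) (nat_lit 5) (nat_lit 7) (nat_lit 4) (nat_lit 5) (nat_lit 4) (nat_lit 282) (nat_lit 249) (nat_lit 249)) (XT.lf (nat_lit 0) (nat_lit 522343345) (nat_lit 76) (nat_lit 13776999364) (nat_lit 76) (nat_lit 13559712540) (nat_lit 4) (nat_lit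 4) (nat_lit 5) (nat_lit 5) (nat_lit 5) (nat_lit 4) (nat_lit 283) (nat_lit 249) (nat_lit 248))) (XT.nd (nat_lit 78) (nat_lit 0) (nat_lit 0) (XT.lf (nat_lit 0) (nat_lit 11295180524) (nat_lit 76) (nat_lit 10177259844) (nat_lit 76) (nat_lit 9771027956) (nat_lit 4) (nat_lit 4) (nat_lit 5) (nat_lit 5) (nat_lit 5) (nat_lit 4) (nat_lit 284) (nat_lit 249) (nat_lit 247)) (XT.nd (nat_lit 78) (nat_lit 0) (nat_lit 0) (XT.lf (nat_lit 0) (nat_lit 22820269912) (nat_lit 76) (nat_lit 6474981898) (nat_lit 76) (nat_lit 5904449956) (nat_lit 4) (nat_lit 4) (nat_lit 5) (nat_lit 5) (nat_lit 5) (nat_lit 4) (nat_lit 285) (nat_lit 249) (nat_lit 246)) (XT.lf (nat_lit 0) (nat_lit 35323102390) (nat_lit 76) (nat_lit 2597729656) (nat_lit 76) (nat_lit 1884328099) (nat_lit 4) (nat_lit 4) (nat_lit 5) (nat_lit 5) (nat_lit 5) (nat_lit 4) (nat_lit 286) (nat_lit 249) (nat_lit 245))))) (XT.nd (nat_lit 156) (nat_lit 0) (nat_lit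 0) (XT.nd (nat_lit 78) (nat_lit 0) (nat_lit 0) (XT.lf (nat_lit 0) (nat_lit 2406181552) (nat_lit 152) (nat_lit 41013907595) (nat_lit 0) (nat_lit 1677802419) (nat_lit 2) (nat_lit 5) (nat_lit 4) (nat_lit 4) (nat_lit 2) (nat_lit 4) (nat_lit 287) (nat_lit 249) (nat_lit 244)) (XT.lf (nat_lit 0) (nat_lit 7181790530) (nat_lit 152) (nat_lit 37624770278) (nat_lit 0) (nat_lit 6359472307) (nat_lit 2) (nat_lit 5) (nat_lit 4) (nat_lit 4) (nat_lit 2) (nat_lit 4) (nat_lit 288) (nat_lit 249) (nat_lit 243))) (XT.nd (nat_lit 78) (nat_lit 0) (nat_lit 0) (XT.lf (nat_lit 0) (nat_lit 12382692813) (nat_lit 152) (nat_lit 34326781633) (nat_lit 0) (nat_lit 11478688425) (nat_lit 2) (nat_lit 5) (nat_lit 4) (nat_lit 4) (nat_lit 2) (nat_lit 4) (nat_lit 289) (nat_lit 249) (nat_lit 242)) (XT.nd (nat_lit 78) (nat_lit 0) (nat_lit 0) (XT.lf (nat_lit 0) (nat_lit 18110645184) (nat_lit 152) (nat_lit 31055415794) (nat_lit 0)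 (nat_lit 17135609348) (nat_lit 2) (nat_lit 5) (nat_lit 4) (nat_lit 4) (nat_lit 2) (nat_lit 4) (nat_lit 290) (nat_lit 249) (nat_lit 241)) (XT.lf (nat_lit 0) (nat_lit 24477716277) (nat_lit 152) (nat_lit 27746667777) (nat_lit 0) (nat_lit 23440913964) (nat_lit 2) (nat_lit 5) (nat_lit 4) (nat_lit 4) (nat_lit 2) (nat_lit 4) (nat_lit 291) (nat_lit 249) (nat_lit 240)))))) (XT.nd (nat_lit 390) (nat_lit 76) (nat_lit 0) (XT.nd (nat_lit 156) (nat_lit 0) (nat_lit 0) (XT.nd (nat_lit 78) (nat_lit 0) (nat_lit 0) (XT.lf (nat_lit 0) (nat_lit 31608479221) (nat_lit 152) (nat_lit 24335801209) (nat_lit 0) (nat_lit 30517966928) (nat_lit 2) (nat_lit 5) (nat_lit 4) (nat_lit 4) (nat_lit 2) (nat_lit 4) (nat_lit 292) (nat_lit 249) (nat_lit 239)) (XT.lf (nat_lit 0) (nat_lit 39642448944) (nat_lit 152) (nat_lit 20756081743) (nat_lit 0) (nat_lit 38505232321) (nat_lit 2) (nat_lit 5) (nat_lit 4) (nat_lit 4) (nat_lit 2)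 (nat_lit 4) (nat_lit 293) (nat_lit 249) (nat_lit 238))) (XT.nd (nat_lit 78) (nat_lit 0) (nat_lit 0) (XT.lf (nat_lit 0) (nat_lit 48736811810) (nat_lit 152) (nat_lit 16937471390) (nat_lit 0) (nat_lit 47558982726) (nat_lit 2) (nat_lit 5) (nat_lit 4) (nat_lit 4) (nat_lit 2) (nat_lit 4) (nat_lit 294) (nat_lit 249) (nat_lit 237)) (XT.nd (nat_lit 78) (nat_lit 0) (nat_lit 0) (XT.lf (nat_lit 0) (nat_lit 59069501005) (nat_lit 152) (nat_lit 12805258208) (nat_lit 0) (nat_lit 57856356738) (nat_lit 2) (nat_lit 5) (nat_lit 4) (nat_lit 4) (nat_lit 2) (nat_lit 4) (nat_lit 295) (nat_lit 249) (nat_lit 236)) (XT.lf (nat_lit 0) (nat_lit 70842677840) (nat_lit 152) (nat_lit 8278594547) (nat_lit 0) (nat_lit 69598824718) (nat_lit 2) (nat_lit 5) (nat_lit 4) (nat_lit 4) (nat_lit 2) (nat_lit 4) (nat_lit 296) (nat_lit 249) (nat_lit 235))))) (XT.nd (nat_lit 156) (nat_lit 0) (nat_lit 0) (XT.nd (nat_lit 78) (nat_lit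 76) (nat_lit 0) (XT.lf (nat_lit 0) (nat_lit 84286687079) (nat_lit 152) (nat_lit 3268915250) (nat_lit 0) (nat_lit 83016130605) (nat_lit 2) (nat_lit 5) (nat_lit 4) (nat_lit 4) (nat_lit 2) (nat_lit 4) (nat_lit 297) (nat_lit 249) (nat_lit 234)) (XT.lf (nat_lit 0) (nat_lit 2548697854) (nat_lit 76) (nat_lit 97221401974) (nat_lit 76) (nat_lit 95927625193) (nat_lit 1) (nat_lit 4) (nat_lit 2) (nat_lit 5) (nat_lit 2) (nat_lit 4) (nat_lit 298) (nat_lit 249) (nat_lit 233))) (XT.nd (nat_lit 78) (nat_lit 0) (nat_lit 0) (XT.lf (nat_lit 0) (nat_lit 9443660031) (nat_lit 76) (nat_lit 108224560950) (nat_lit 76) (nat_lit 106910592599) (nat_lit 1) (nat_lit 4) (nat_lit 2) (nat_lit 5) (nat_lit 2) (nat_lit 4) (nat_lit 299) (nat_lit 249) (nat_lit 232)) (XT.nd (nat_lit 78) (nat_lit 0) (nat_lit 0) (XT.lf (nat_lit 0) (nat_lit 17231410539) (nat_lit 76) (nat_lit 120951233572) (nat_lit 76) (nat_lit 119619707333) (nat_lit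 1) (nat_lit 4) (nat_lit 2) (nat_lit 5) (nat_lit 2) (nat_lit 4) (nat_lit 300) (nat_lit 249) (nat_lit 231)) (XT.lf (nat_lit 0) (nat_lit 26064318410) (nat_lit 76) (nat_lit 135650419957) (nat_lit 76) (nat_lit 134303625989) (nat_lit 1) (nat_lit 4) (nat_lit 2) (nat_lit 5) (nat_lit 2) (nat_lit 4) (nat_lit 301) (nat_lit 249) (nat_lit 230))))))) (XT.nd (nat_lit 780) (nat_lit 0) (nat_lit 0) (XT.nd (nat_lit 390) (nat_lit 0) (nat_lit 0) (XT.nd (nat_lit 156) (nat_lit 0) (nat_lit 0) (XT.nd (nat_lit 78) (nat_lit 0) (nat_lit 0) (XT.lf (nat_lit 0) (nat_lit 36115201408) (nat_lit 76) (nat_lit 152609712881) (nat_lit 76) (nat_lit 151249642628) (nat_lit 1) (nat_lit 4) (nat_lit 2) (nat_lit 5) (nat_lit 2) (nat_lit 4) (nat_lit 302) (nat_lit 249) (nat_lit 229)) (XT.lf (nat_lit 0) (nat_lit 47580707244) (nat_lit 76) (nat_lit 172160924597) (nat_lit 76) (nat_lit 170789309748) (nat_lit 1) (nat_lit 4) (nat_lit 2) (nat_lit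 5) (nat_lit 2) (nat_lit 4) (nat_lit 303) (nat_lit 249) (nat_lit 228))) (XT.nd (nat_lit 78) (nat_lit 0) (nat_lit 0) (XT.lf (nat_lit 0) (nat_lit 60685161030) (nat_lit 76) (nat_lit 194686578812) (nat_lit 76) (nat_lit 193304925184) (nat_lit 1) (nat_lit 4) (nat_lit 2) (nat_lit 5) (nat_lit 2) (nat_lit 4) (nat_lit 304) (nat_lit 249) (nat_lit 227)) (XT.nd (nat_lit 78) (nat_lit 0) (nat_lit 0) (XT.lf (nat_lit 0) (nat_lit 75684954255) (nat_lit 76) (nat_lit 220627394849) (nat_lit 76) (nat_lit 219237011848) (nat_lit 1) (nat_lit 4) (nat_lit 2) (nat_lit 5) (nat_lit 2) (nat_lit 4) (nat_lit 305) (nat_lit 249) (nat_lit 226)) (XT.lf (nat_lit 0) (nat_lit 92873561134) (nat_lit 76) (nat_lit 250490910412) (nat_lit 76) (nat_lit 249092936651) (nat_lit 1) (nat_lit 4) (nat_lit 2) (nat_lit 5) (nat_lit 2) (nat_lit 4) (nat_lit 306) (nat_lit 249) (nat_lit 225))))) (XT.nd (nat_lit 156) (nat_lit 0) (nat_lit 0) (XT.nd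 (nat_lit 78) (nat_lit 0) (nat_lit 0) (XT.lf (nat_lit 0) (nat_lit 112587280497) (nat_lit 76) (nat_lit 284861411676) (nat_lit 76) (nat_lit 283456837255) (nat_lit 1) (nat_lit 4) (nat_lit 2) (nat_lit 5) (nat_lit 2) (nat_lit 4) (nat_lit 307) (nat_lit 249) (nat_lit 224)) (XT.lf (nat_lit 0) (nat_lit 135211815548) (nat_lit 76) (nat_lit 324411364969) (nat_lit 76) (nat_lit 323001050843) (nat_lit 1) (nat_lit 4) (nat_lit 2) (nat_lit 5) (nat_lit 2) (nat_lit 4) (nat_lit 308) (nat_lit 249) (nat_lit 223))) (XT.nd (nat_lit 78) (nat_lit 0) (nat_lit 0) (XT.lf (nat_lit 0) (nat_lit 161189820235) (nat_lit 76) (nat_lit 369914573725) (nat_lit 76) (nat_lit 368499268552) (nat_lit 1) (nat_lit 4) (nat_lit 2) (nat_lit 5) (nat_lit 2) (nat_lit 4) (nat_lit 309) (nat_lit 249) (nat_lit 222)) (XT.nd (nat_lit 78) (nat_lit 0) (nat_lit 0) (XT.lf (nat_lit 0) (nat_lit 191029559867) (nat_lit 76) (nat_lit 422261318116) (nat_lit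 76) (nat_lit 420841672902) (nat_lit 1) (nat_lit 4) (nat_lit 2) (nat_lit 5) (nat_lit 2) (nat_lit 4) (nat_lit 310) (nat_lit 249) (nat_lit 221)) (XT.lf (nat_lit 0) (nat_lit 225314855436) (nat_lit 76) (nat_lit 482475773576) (nat_lit 76) (nat_lit 481052354413) (nat_lit 1) (nat_lit 4) (nat_lit 2) (nat_lit 5) (nat_lit 2) (nat_lit 4) (nat_lit 311) (nat_lit 249) (nat_lit 220)))))) (XT.nd (nat_lit 390) (nat_lit 0) (nat_lit 0) (XT.nd (nat_lit 156) (nat_lit 0) (nat_lit 0) (XT.nd (nat_lit 78) (nat_lit 0) (nat_lit 0) (XT.lf (nat_lit 0) (nat_lit 264716506204) (nat_lit 76) (nat_lit 551736049016) (nat_lit 76) (nat_lit 550309348157) (nat_lit 1) (nat_lit 4) (nat_lit 2) (nat_lit 5) (nat_lit 2) (nat_lit 4) (nat_lit 312) (nat_lit 249) (nat_lit 219)) (XT.lf (nat_lit 0) (nat_lit 310005414033) (nat_lit 76) (nat_lit 631397236780) (nat_lit 76) (nat_lit 629967682274) (nat_lit 1) (nat_lit 4) (nat_lit 2) (nat_lit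 5) (nat_lit 2) (nat_lit 4) (nat_lit 313) (nat_lit 249) (nat_lit 218))) (XT.nd (nat_lit 78) (nat_lit 0) (nat_lit 0) (XT.lf (nat_lit 0) (nat_lit 362067666251) (nat_lit 76) (nat_lit 723017925326) (nat_lit 76) (nat_lit 721585889388) (nat_lit 1) (nat_lit 4) (nat_lit 2) (nat_lit 5) (nat_lit 2) (nat_lit 4) (nat_lit 314) (nat_lit 249) (nat_lit 217)) (XT.nd (nat_lit 78) (nat_lit 0) (nat_lit 0) (XT.lf (nat_lit 0) (nat_lit 421921872140) (nat_lit 76) (nat_lit 828390693343) (nat_lit 76) (nat_lit 826956499637) (nat_lit 1) (nat_lit 4) (nat_lit 2) (nat_lit 5) (nat_lit 2) (nat_lit 4) (nat_lit 315) (nat_lit 249) (nat_lit 216)) (XT.lf (nat_lit 0) (nat_lit 490739092250) (nat_lit 76) (nat_lit 949577181943) (nat_lit 76) (nat_lit 948141111918) (nat_lit 1) (nat_lit 4) (nat_lit 2) (nat_lit 5) (nat_lit 2) (nat_lit 4) (nat_lit 316) (nat_lit 249) (nat_lit 215))))) (XT.nd (nat_lit 234) (nat_lit 0) (nat_lit 0) (XT.nd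 (nat_lit 78) (nat_lit 0) (nat_lit 0) (XT.lf (nat_lit 0) (nat_lit 569865750452) (nat_lit 76) (nat_lit 1088948431122) (nat_lit 76) (nat_lit 1087510729514) (nat_lit 1) (nat_lit 4) (nat_lit 2) (nat_lit 5) (nat_lit 2) (nat_lit 4) (nat_lit 317) (nat_lit 249) (nat_lit 214)) (XT.nd (nat_lit 78) (nat_lit 0) (nat_lit 0) (XT.lf (nat_lit 0) (nat_lit 660849977017) (nat_lit 76) (nat_lit 1249231269667) (nat_lit 76) (nat_lit 1247792149292) (nat_lit 1) (nat_lit 4) (nat_lit 2) (nat_lit 5) (nat_lit 2) (nat_lit 4) (nat_lit 318) (nat_lit 249) (nat_lit 213)) (XT.lf (nat_lit 0) (nat_lit 765471898115) (nat_lit 76) (nat_lit 1433561666159) (nat_lit 76) (nat_lit 1432121312073) (nat_lit 1) (nat_lit 4) (nat_lit 2) (nat_lit 5) (nat_lit 2) (nat_lit 4) (nat_lit 319) (nat_lit 249) (nat_lit 212)))) (XT.nd (nat_lit 78) (nat_lit 0) (nat_lit 0) (XT.lf (nat_lit 0) (nat_lit 885778464378) (nat_lit 76) (nat_lit 1645546084876)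 (nat_lit 76) (nat_lit 1644104657999) (nat_lit 1) (nat_lit 4) (nat_lit 2) (nat_lit 5) (nat_lit 2) (nat_lit 4) (nat_lit 320) (nat_lit 249) (nat_lit 211)) (XT.nd (nat_lit 78) (nat_lit 0) (nat_lit 0) (XT.lf (nat_lit 0) (nat_lit 1024123499927) (nat_lit 76) (nat_lit 1889332047056) (nat_lit 76) (nat_lit 1887889687316) (nat_lit 1) (nat_lit 4) (nat_lit 2) (nat_lit 5) (nat_lit 2) (nat_lit 4) (nat_lit 321) (nat_lit 249) (nat_lit 210)) (XT.lf (nat_lit 0) (nat_lit 1183213755458) (nat_lit 76) (nat_lit 2169689278043) (nat_lit 76) (nat_lit 2168246107119) (nat_lit 1) (nat_lit 4) (nat_lit 2) (nat_lit 5) (nat_lit 2) (nat_lit 4) (nat_lit 322) (nat_lit 249) (nat_lit 209))))))))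
noncomputable def xc28 : XT := (XT.nd (nat_lit 1560) (nat_lit 0) (nat_lit 0) (XT.nd (nat_lit 780) (nat_lit 0) (nat_lit 0) (XT.nd (nat_lit 390) (nat_lit 0) (nat_lit 0) (XT.nd (nat_lit 156) (nat_lit 0) (nat_lit 0) (XT.nd (nat_lit 78) (nat_lit 0) (nat_lit 0) (XT.lf (nat_lit 0) (nat_lit 1366161866406) (nat_lit 76) (nat_lit 2492103028011) (nat_lit 76) (nat_lit 2490659151709) (nat_lit 1) (nat_lit 4) (nat_lit 2) (nat_lit 5) (nat_lit 2) (nat_lit 4) (nat_lit 323) (nat_lit 249) (nat_lit 208)) (XT.lf (nat_lit 0) (nat_lit 1576547252331) (nat_lit 76) (nat_lit 2862881392067) (nat_lit 76) (nat_lit 2861436902393) (nat_lit 1) (nat_lit 4) (nat_lit 2) (nat_lit 5) (nat_lit 2) (nat_lit 4) (nat_lit 324) (nat_lit 249) (nat_lit 207))) (XT.nd (nat_lit 78) (nat_lit 0) (nat_lit 0) (XT.lf (nat_lit 0) (nat_lit 1818486149047) (nat_lit 76) (nat_lit 3289278729509) (nat_lit 76) (nat_lit 3287833706466) (nat_lit 1) (nat_lit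 4) (nat_lit 2) (nat_lit 5) (nat_lit 2) (nat_lit 4) (nat_lit 325) (nat_lit 249) (nat_lit 206)) (XT.nd (nat_lit 78) (nat_lit 0) (nat_lit 0) (XT.lf (nat_lit 0) (nat_lit 2096712143663) (nat_lit 76) (nat_lit 3779637596937) (nat_lit 76) (nat_lit 3778192110097) (nat_lit 1) (nat_lit 4) (nat_lit 2) (nat_lit 5) (nat_lit 2) (nat_lit 4) (nat_lit 326) (nat_lit 249) (nat_lit 205)) (XT.lf (nat_lit 0) (nat_lit 2416668788247) (nat_lit 76) (nat_lit 4343551972193) (nat_lit 76) (nat_lit 4342106082051) (nat_lit 1) (nat_lit 4) (nat_lit 2) (nat_lit 5) (nat_lit 2) (nat_lit 4) (nat_lit 327) (nat_lit 249) (nat_lit 204))))) (XT.nd (nat_lit 156) (nat_lit 0) (nat_lit 0) (XT.nd (nat_lit 78) (nat_lit 0) (nat_lit 0) (XT.lf (nat_lit 0) (nat_lit 2784616104106) (nat_lit 76) (nat_lit 4992054962619) (nat_lit 76) (nat_lit 4990608721780) (nat_lit 1) (nat_lit 4) (nat_lit 2) (nat_lit 5) (nat_lit 2) (nat_lit 4) (nat_lit 328)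 (nat_lit 249) (nat_lit 203)) (XT.lf (nat_lit 0) (nat_lit 3207753060464) (nat_lit 76) (nat_lit 5737834670202) (nat_lit 76) (nat_lit 5736388124408) (nat_lit 1) (nat_lit 4) (nat_lit 2) (nat_lit 5) (nat_lit 2) (nat_lit 4) (nat_lit 329) (nat_lit 249) (nat_lit 202))) (XT.nd (nat_lit 78) (nat_lit 0) (nat_lit 0) (XT.lf (nat_lit 0) (nat_lit 3694358423858) (nat_lit 76) (nat_lit 6595482437046) (nat_lit 76) (nat_lit 6594035626075) (nat_lit 1) (nat_lit 4) (nat_lit 2) (nat_lit 5) (nat_lit 2) (nat_lit 4) (nat_lit 330) (nat_lit 249) (nat_lit 201)) (XT.nd (nat_lit 78) (nat_lit 0) (nat_lit 0) (XT.lf (nat_lit 0) (nat_lit 4253952734006) (nat_lit 76) (nat_lit 7581778328156) (nat_lit 76) (nat_lit 7580331286595) (nat_lit 1) (nat_lit 4) (nat_lit 2) (nat_lit 5) (nat_lit 2) (nat_lit 4) (nat_lit 331) (nat_lit 249) (nat_lit 200)) (XT.lf (nat_lit 0) (nat_lit 4897484575238) (nat_lit 76) (nat_lit 8716019437052) (nat_lit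 76) (nat_lit 8714572194978) (nat_lit 1) (nat_lit 4) (nat_lit 2) (nat_lit 5) (nat_lit 2) (nat_lit 4) (nat_lit 332) (nat_lit 249) (nat_lit 199)))))) (XT.nd (nat_lit 390) (nat_lit 0) (nat_lit 0) (XT.nd (nat_lit 156) (nat_lit 0) (nat_lit 0) (XT.nd (nat_lit 78) (nat_lit 0) (nat_lit 0) (XT.lf (nat_lit 0) (nat_lit 5637544787926) (nat_lit 76) (nat_lit 10020397437604) (nat_lit 76) (nat_lit 10018950021172) (nat_lit 1) (nat_lit 4) (nat_lit 2) (nat_lit 5) (nat_lit 2) (nat_lit 4) (nat_lit 333) (nat_lit 249) (nat_lit 198)) (XT.lf (nat_lit 0) (nat_lit 6488612811013) (nat_lit 76) (nat_lit 11520432768954) (nat_lit 76) (nat_lit 11518985200906) (nat_lit 1) (nat_lit 4) (nat_lit 2) (nat_lit 5) (nat_lit 2) (nat_lit 4) (nat_lit 334) (nat_lit 249) (nat_lit 197))) (XT.nd (nat_lit 78) (nat_lit 0) (nat_lit 0) (XT.lf (nat_lit 0) (nat_lit 7467339975387) (nat_lit 76) (nat_lit 13245473948454) (nat_lit 76) (nat_lit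 13244026248566) (nat_lit 1) (nat_lit 4) (nat_lit 2) (nat_lit 5) (nat_lit 2) (nat_lit 4) (nat_lit 335) (nat_lit 249) (nat_lit 196)) (XT.nd (nat_lit 78) (nat_lit 0) (nat_lit 0) (XT.lf (nat_lit 0) (nat_lit 8592875290783) (nat_lit 76) (nat_lit 15229271781790) (nat_lit 76) (nat_lit 15227823967258) (nat_lit 1) (nat_lit 4) (nat_lit 2) (nat_lit 5) (nat_lit 2) (nat_lit 4) (nat_lit 336) (nat_lit 249) (nat_lit 195)) (XT.lf (nat_lit 0) (nat_lit 9887240100331) (nat_lit 76) (nat_lit 17510639704832) (nat_lit 76) (nat_lit 17509191790609) (nat_lit 1) (nat_lit 4) (nat_lit 2) (nat_lit 5) (nat_lit 2) (nat_lit 4) (nat_lit 337) (nat_lit 249) (nat_lit 194))))) (XT.nd (nat_lit 156) (nat_lit 0) (nat_lit 0) (XT.nd (nat_lit 78) (nat_lit 0) (nat_lit 0) (XT.lf (nat_lit 0) (nat_lit 11375758932913) (nat_lit 76) (nat_lit 20134213176943) (nat_lit 76) (nat_lit 20132765176033) (nat_lit 1) (nat_lit 4) (nat_lit 2) (nat_lit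 5) (nat_lit 2) (nat_lit 4) (nat_lit 338) (nat_lit 249) (nat_lit 193)) (XT.lf (nat_lit 0) (nat_lit 13087554983078) (nat_lit 76) (nat_lit 23151322983447) (nat_lit 76) (nat_lit 23149874907158) (nat_lit 1) (nat_lit 4) (nat_lit 2) (nat_lit 5) (nat_lit 2) (nat_lit 4) (nat_lit 339) (nat_lit 249) (nat_lit 192))) (XT.nd (nat_lit 78) (nat_lit 0) (nat_lit 0) (XT.lf (nat_lit 0) (nat_lit 15056119912679) (nat_lit 76) (nat_lit 26620999533603) (nat_lit 76) (nat_lit 26619551391766) (nat_lit 1) (nat_lit 4) (nat_lit 2) (nat_lit 5) (nat_lit 2) (nat_lit 4) (nat_lit 340) (nat_lit 249) (nat_lit 191)) (XT.nd (nat_lit 78) (nat_lit 0) (nat_lit 0) (XT.lf (nat_lit 0) (nat_lit 17319969122511) (nat_lit 76) (nat_lit 30611127803391) (nat_lit 76) (nat_lit 30609679604555) (nat_lit 1) (nat_lit 4) (nat_lit 2) (nat_lit 5) (nat_lit 2) (nat_lit 4) (nat_lit 341) (nat_lit 249) (nat_lit 190)) (XT.lf (nat_lit 0) (nat_lit 19923395314506)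 (nat_lit 76) (nat_lit 35199775519829) (nat_lit 76) (nat_lit 35198327271430) (nat_lit 1) (nat_lit 4) (nat_lit 2) (nat_lit 5) (nat_lit 2) (nat_lit 4) (nat_lit 342) (nat_lit 249) (nat_lit 189))))))) (XT.nd (nat_lit 36036) (nat_lit 0) (nat_lit 76) (XT.nd (nat_lit 1170) (nat_lit 0) (nat_lit 0) (XT.nd (nat_lit 936) (nat_lit 0) (nat_lit 0) (XT.nd (nat_lit 78) (nat_lit 0) (nat_lit 0) (XT.lf (nat_lit 0) (nat_lit 22917335088073) (nat_lit 76) (nat_lit 40476720573021) (nat_lit 76) (nat_lit 40475272281523) (nat_lit 1) (nat_lit 4) (nat_lit 2) (nat_lit 5) (nat_lit 2) (nat_lit 4) (nat_lit 343) (nat_lit 249) (nat_lit 188)) (XT.lf (nat_lit 0) (nat_lit 26360365525737) (nat_lit 76) (nat_lit 46545207540095) (nat_lit 76) (nat_lit 46543759211120) (nat_lit 1) (nat_lit 4) (nat_lit 2) (nat_lit 5) (nat_lit 2) (nat_lit 4) (nat_lit 344) (nat_lit 249) (nat_lit 187))) (XT.nd (nat_lit 78) (nat_lit 0) (nat_lit 0) (XT.lf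 (nat_lit 0) (nat_lit 122770937269164) (nat_lit 76) (nat_lit 216472972036707) (nat_lit 76) (nat_lit 216471523511587) (nat_lit 1) (nat_lit 4) (nat_lit 2) (nat_lit 5) (nat_lit 2) (nat_lit 4) (nat_lit 355) (nat_lit 249) (nat_lit 176)) (XT.nd (nat_lit 78) (nat_lit 0) (nat_lit 0) (XT.lf (nat_lit 0) (nat_lit 141192006397306) (nat_lit 76) (nat_lit 248940897568425) (nat_lit 76) (nat_lit 248939449036300) (nat_lit 1) (nat_lit 4) (nat_lit 2) (nat_lit 5) (nat_lit 2) (nat_lit 4) (nat_lit 356) (nat_lit 249) (nat_lit 175)) (XT.lf (nat_lit 0) (nat_lit 162376235845597) (nat_lit 76) (nat_lit 286279011955238) (nat_lit 76) (nat_lit 286277563417024) (nat_lit 1) (nat_lit 4) (nat_lit 2) (nat_lit 5) (nat_lit 2) (nat_lit 4) (nat_lit 357) (nat_lit 249) (nat_lit 174))))) (XT.nd (nat_lit 34632) (nat_lit 0) (nat_lit 304) (XT.nd (nat_lit 34554) (nat_lit 0) (nat_lit 456) (XT.lf (nat_lit 0) (nat_lit 186738099668460)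 (nat_lit 76) (nat_lit 329217843522108) (nat_lit 76) (nat_lit 329216394978597) (nat_lit 1) (nat_lit 4) (nat_lit 2) (nat_lit 5) (nat_lit 2) (nat_lit 4) (nat_lit 358) (nat_lit 249) (nat_lit 173)) (XT.lf (nat_lit 0) (nat_lit 7308847422) (nat_lit 76) (nat_lit 1401632708) (nat_lit 76) (nat_lit 1401632708) (nat_lit 7) (nat_lit 4) (nat_lit 8) (nat_lit 5) (nat_lit 8) (nat_lit 4) (nat_lit 280) (nat_lit 250) (nat_lit 250))) (XT.nd (nat_lit 78) (nat_lit 0) (nat_lit 0) (XT.lf (nat_lit 0) (nat_lit 2412317451) (nat_lit 152) (nat_lit 17854226921) (nat_lit 0) (nat_lit 2162437604) (nat_lit 5) (nat_lit 5) (nat_lit 7) (nat_lit 4) (nat_lit 5) (nat_lit 4) (nat_lit 281) (nat_lit 250) (nat_lit 249)) (XT.nd (nat_lit 78) (nat_lit 0) (nat_lit 0) (XT.lf (nat_lit 0) (nat_lit 8047329536) (nat_lit 152) (nat_lit 9328614060) (nat_lit 0) (nat_lit 7580162865) (nat_lit 5) (nat_lit 5) (nat_lit 7) (nat_lit 4) (nat_lit 5)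 (nat_lit 4) (nat_lit 282) (nat_lit 250) (nat_lit 248)) (XT.lf (nat_lit 0) (nat_lit 14078532243) (nat_lit 152) (nat_lit 428959940) (nat_lit 0) (nat_lit 13422420509) (nat_lit 5) (nat_lit 5) (nat_lit 7) (nat_lit 4) (nat_lit 5) (nat_lit 4) (nat_lit 283) (nat_lit 250) (nat_lit 247)))))) (XT.nd (nat_lit 390) (nat_lit 0) (nat_lit 0) (XT.nd (nat_lit 156) (nat_lit 152) (nat_lit 0) (XT.nd (nat_lit 78) (nat_lit 0) (nat_lit 0) (XT.lf (nat_lit 0) (nat_lit 9900247609) (nat_lit 76) (nat_lit 11133627896) (nat_lit 76) (nat_lit 10313216106) (nat_lit 4) (nat_lit 4) (nat_lit 5) (nat_lit 5) (nat_lit 5) (nat_lit 4) (nat_lit 284) (nat_lit 250) (nat_lit 246)) (XT.lf (nat_lit 0) (nat_lit 21076025222) (nat_lit 76) (nat_lit 7608265018) (nat_lit 76) (nat_lit 6644983615) (nat_lit 4) (nat_lit 4) (nat_lit 5) (nat_lit 5) (nat_lit 5) (nat_lit 4) (nat_lit 285) (nat_lit 250) (nat_lit 245))) (XT.nd (nat_lit 78) (nat_lit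 152) (nat_lit 0) (XT.lf (nat_lit 0) (nat_lit 33275108329) (nat_lit 76) (nat_lit 3884851964) (nat_lit 76) (nat_lit 2797336114) (nat_lit 4) (nat_lit 4) (nat_lit 5) (nat_lit 5) (nat_lit 5) (nat_lit 4) (nat_lit 286) (nat_lit 250) (nat_lit 244)) (XT.nd (nat_lit 78) (nat_lit 0) (nat_lit 0) (XT.lf (nat_lit 0) (nat_lit 1260713864) (nat_lit 152) (nat_lit 43820996011) (nat_lit 0) (nat_lit 221108817) (nat_lit 2) (nat_lit 5) (nat_lit 4) (nat_lit 4) (nat_lit 2) (nat_lit 4) (nat_lit 287) (nat_lit 250) (nat_lit 243)) (XT.lf (nat_lit 0) (nat_lit 5900951659) (nat_lit 152) (nat_lit 40710704866) (nat_lit 0) (nat_lit 4779660448) (nat_lit 2) (nat_lit 5) (nat_lit 4) (nat_lit 4) (nat_lit 2) (nat_lit 4) (nat_lit 288) (nat_lit 250) (nat_lit 242))))) (XT.nd (nat_lit 156) (nat_lit 0) (nat_lit 0) (XT.nd (nat_lit 78) (nat_lit 0) (nat_lit 0) (XT.lf (nat_lit 0) (nat_lit 10984139870) (nat_lit 152) (nat_lit 37655191152)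 (nat_lit 0) (nat_lit 9791817211) (nat_lit 2) (nat_lit 5) (nat_lit 4) (nat_lit 4) (nat_lit 2) (nat_lit 4) (nat_lit 289) (nat_lit 250) (nat_lit 241)) (XT.lf (nat_lit 0) (nat_lit 16609732179) (nat_lit 152) (nat_lit 34594673080) (nat_lit 0) (nat_lit 15355643043) (nat_lit 2) (nat_lit 5) (nat_lit 4) (nat_lit 4) (nat_lit 2) (nat_lit 4) (nat_lit 290) (nat_lit 250) (nat_lit 240))) (XT.nd (nat_lit 78) (nat_lit 0) (nat_lit 0) (XT.lf (nat_lit 0) (nat_lit 22887794522) (nat_lit 152) (nat_lit 31469270947) (nat_lit 0) (nat_lit 21579995406) (nat_lit 2) (nat_lit 5) (nat_lit 4) (nat_lit 4) (nat_lit 2) (nat_lit 4) (nat_lit 291) (nat_lit 250) (nat_lit 239)) (XT.nd (nat_lit 78) (nat_lit 0) (nat_lit 0) (XT.lf (nat_lit 0) (nat_lit 29941158553) (nat_lit 152) (nat_lit 28217835582) (nat_lit 0) (nat_lit 28586655107) (nat_lit 2) (nat_lit 5) (nat_lit 4) (nat_lit 4) (nat_lit 2) (nat_lit 4) (nat_lit 292) (nat_lit 250)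 (nat_lit 238)) (XT.lf (nat_lit 0) (nat_lit 37907824873) (nat_lit 152) (nat_lit 24776751946) (nat_lit 0) (nat_lit 36512708966) (nat_lit 2) (nat_lit 5) (nat_lit 4) (nat_lit 4) (nat_lit 2) (nat_lit 4) (nat_lit 293) (nat_lit 250) (nat_lit 237))))))))
noncomputable def xc29 : XT := (XT.nd (nat_lit 1560) (nat_lit 0) (nat_lit 0) (XT.nd (nat_lit 780) (nat_lit 0) (nat_lit 0) (XT.nd (nat_lit 390) (nat_lit 76) (nat_lit 0) (XT.nd (nat_lit 156) (nat_lit 0) (nat_lit 0) (XT.nd (nat_lit 78) (nat_lit 0) (nat_lit 0) (XT.lf (nat_lit 0) (nat_lit 46943663041) (nat_lit 152) (nat_lit 21078694487) (nat_lit 0) (nat_lit 45513231951) (nat_lit 2) (nat_lit 5) (nat_lit 4) (nat_lit 4) (nat_lit 2) (nat_lit 4) (nat_lit 294) (nat_lit 250) (nat_lit 236)) (XT.lf (nat_lit 0) (nat_lit 57225461195) (nat_lit 152) (nat_lit 17051309909) (nat_lit 0) (nat_lit 55764321250) (nat_lit 2) (nat_lit 5) (nat_lit 4) (nat_lit 4) (nat_lit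 2) (nat_lit 4) (nat_lit 295) (nat_lit 250) (nat_lit 235))) (XT.nd (nat_lit 78) (nat_lit 0) (nat_lit 0) (XT.lf (nat_lit 0) (nat_lit 68954384950) (nat_lit 152) (nat_lit 12615801557) (nat_lit 0) (nat_lit 67466541653) (nat_lit 2) (nat_lit 5) (nat_lit 4) (nat_lit 4) (nat_lit 2) (nat_lit 4) (nat_lit 296) (nat_lit 250) (nat_lit 234)) (XT.nd (nat_lit 78) (nat_lit 0) (nat_lit 0) (XT.lf (nat_lit 0) (nat_lit 82359913251) (nat_lit 152) (nat_lit 7685387745) (nat_lit 0) (nat_lit 80848849646) (nat_lit 2) (nat_lit 5) (nat_lit 4) (nat_lit 4) (nat_lit 2) (nat_lit 4) (nat_lit 297) (nat_lit 250) (nat_lit 233)) (XT.lf (nat_lit 0) (nat_lit 97704328171) (nat_lit 152) (nat_lit 2163603856) (nat_lit 0) (nat_lit 96173072996) (nat_lit 2) (nat_lit 5) (nat_lit 4) (nat_lit 4) (nat_lit 2) (nat_lit 4) (nat_lit 298) (nat_lit 250) (nat_lit 232))))) (XT.nd (nat_lit 156) (nat_lit 0) (nat_lit 0) (XT.nd (nat_lit 78) (nat_lit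 0) (nat_lit 0) (XT.lf (nat_lit 0) (nat_lit 4454121729) (nat_lit 76) (nat_lit 111018160478) (nat_lit 76) (nat_lit 109469347416) (nat_lit 1) (nat_lit 4) (nat_lit 2) (nat_lit 5) (nat_lit 2) (nat_lit 4) (nat_lit 299) (nat_lit 250) (nat_lit 231)) (XT.lf (nat_lit 0) (nat_lit 12184660510) (nat_lit 76) (nat_lit 123774373970) (nat_lit 76) (nat_lit 122210293179) (nat_lit 1) (nat_lit 4) (nat_lit 2) (nat_lit 5) (nat_lit 2) (nat_lit 4) (nat_lit 300) (nat_lit 250) (nat_lit 230))) (XT.nd (nat_lit 78) (nat_lit 0) (nat_lit 0) (XT.lf (nat_lit 0) (nat_lit 20967819054) (nat_lit 76) (nat_lit 138499248067) (nat_lit 76) (nat_lit 136921890990) (nat_lit 1) (nat_lit 4) (nat_lit 2) (nat_lit 5) (nat_lit 2) (nat_lit 4) (nat_lit 301) (nat_lit 250) (nat_lit 229)) (XT.nd (nat_lit 78) (nat_lit 0) (nat_lit 0) (XT.lf (nat_lit 0) (nat_lit 30975441767) (nat_lit 76) (nat_lit 155480878132) (nat_lit 76) (nat_lit 153891976459)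 (nat_lit 1) (nat_lit 4) (nat_lit 2) (nat_lit 5) (nat_lit 2) (nat_lit 4) (nat_lit 302) (nat_lit 250) (nat_lit 228)) (XT.lf (nat_lit 0) (nat_lit 42403329964) (nat_lit 76) (nat_lit 175051513449) (nat_lit 76) (nat_lit 173452572997) (nat_lit 1) (nat_lit 4) (nat_lit 2) (nat_lit 5) (nat_lit 2) (nat_lit 4) (nat_lit 303) (nat_lit 250) (nat_lit 227)))))) (XT.nd (nat_lit 390) (nat_lit 0) (nat_lit 0) (XT.nd (nat_lit 156) (nat_lit 0) (nat_lit 0) (XT.nd (nat_lit 78) (nat_lit 0) (nat_lit 0) (XT.lf (nat_lit 0) (nat_lit 55475072760) (nat_lit 76) (nat_lit 197594057752) (nat_lit 76) (nat_lit 195986387927) (nat_lit 1) (nat_lit 4) (nat_lit 2) (nat_lit 5) (nat_lit 2) (nat_lit 4) (nat_lit 304) (nat_lit 250) (nat_lit 226)) (XT.lf (nat_lit 0) (nat_lit 70446421645) (nat_lit 76) (nat_lit 223549560822) (nat_lit 76) (nat_lit 221934300237) (nat_lit 1) (nat_lit 4) (nat_lit 2) (nat_lit 5) (nat_lit 2) (nat_lit 4) (nat_lit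 305) (nat_lit 250) (nat_lit 225))) (XT.nd (nat_lit 78) (nat_lit 0) (nat_lit 0) (XT.lf (nat_lit 0) (nat_lit 87610294316) (nat_lit 76) (nat_lit 253425847718) (nat_lit 76) (nat_lit 251803986473) (nat_lit 1) (nat_lit 4) (nat_lit 2) (nat_lit 5) (nat_lit 2) (nat_lit 4) (nat_lit 306) (nat_lit 250) (nat_lit 224)) (XT.nd (nat_lit 78) (nat_lit 0) (nat_lit 0) (XT.lf (nat_lit 0) (nat_lit 107302505671) (nat_lit 76) (nat_lit 287807454488) (nat_lit 76) (nat_lit 286179853539) (nat_lit 1) (nat_lit 4) (nat_lit 2) (nat_lit 5) (nat_lit 2) (nat_lit 4) (nat_lit 307) (nat_lit 250) (nat_lit 223)) (XT.lf (nat_lit 0) (nat_lit 129908338108) (nat_lit 76) (nat_lit 327367064744) (nat_lit 76) (nat_lit 325734472747) (nat_lit 1) (nat_lit 4) (nat_lit 2) (nat_lit 5) (nat_lit 2) (nat_lit 4) (nat_lit 308) (nat_lit 250) (nat_lit 222))))) (XT.nd (nat_lit 156) (nat_lit 0) (nat_lit 0) (XT.nd (nat_lit 78) (nat_lit 0) (nat_lit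 0) (XT.lf (nat_lit 0) (nat_lit 155870079651) (nat_lit 76) (nat_lit 372878670859) (nat_lit 76) (nat_lit 371241738821) (nat_lit 1) (nat_lit 4) (nat_lit 2) (nat_lit 5) (nat_lit 2) (nat_lit 4) (nat_lit 309) (nat_lit 250) (nat_lit 221)) (XT.lf (nat_lit 0) (nat_lit 185695677419) (nat_lit 76) (nat_lit 425232717301) (nat_lit 76) (nat_lit 423592011315) (nat_lit 1) (nat_lit 4) (nat_lit 2) (nat_lit 5) (nat_lit 2) (nat_lit 4) (nat_lit 310) (nat_lit 250) (nat_lit 220))) (XT.nd (nat_lit 78) (nat_lit 0) (nat_lit 0) (XT.lf (nat_lit 0) (nat_lit 219968675716) (nat_lit 76) (nat_lit 485453522371) (nat_lit 76) (nat_lit 483809534689) (nat_lit 1) (nat_lit 4) (nat_lit 2) (nat_lit 5) (nat_lit 2) (nat_lit 4) (nat_lit 311) (nat_lit 250) (nat_lit 219)) (XT.nd (nat_lit 78) (nat_lit 0) (nat_lit 0) (XT.lf (nat_lit 0) (nat_lit 259359633203) (nat_lit 76) (nat_lit 554719319210) (nat_lit 76) (nat_lit 553072477881) (nat_lit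 1) (nat_lit 4) (nat_lit 2) (nat_lit 5) (nat_lit 2) (nat_lit 4) (nat_lit 312) (nat_lit 250) (nat_lit 218)) (XT.lf (nat_lit 0) (nat_lit 304639242527) (nat_lit 76) (nat_lit 634385308192) (nat_lit 76) (nat_lit 632735985430) (nat_lit 1) (nat_lit 4) (nat_lit 2) (nat_lit 5) (nat_lit 2) (nat_lit 4) (nat_lit 313) (nat_lit 250) (nat_lit 217))))))) (XT.nd (nat_lit 780) (nat_lit 0) (nat_lit 0) (XT.nd (nat_lit 390) (nat_lit 0) (nat_lit 0) (XT.nd (nat_lit 156) (nat_lit 0) (nat_lit 0) (XT.nd (nat_lit 78) (nat_lit 0) (nat_lit 0) (XT.lf (nat_lit 0) (nat_lit 356693409088) (nat_lit 76) (nat_lit 726010171709) (nat_lit 76) (nat_lit 724358691180) (nat_lit 1) (nat_lit 4) (nat_lit 2) (nat_lit 5) (nat_lit 2) (nat_lit 4) (nat_lit 314) (nat_lit 250) (nat_lit 216)) (XT.lf (nat_lit 0) (nat_lit 416540583971) (nat_lit 76) (nat_lit 831386570136) (nat_lit 76) (nat_lit 829733213287) (nat_lit 1) (nat_lit 4) (nat_lit 2)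 (nat_lit 5) (nat_lit 2) (nat_lit 4) (nat_lit 315) (nat_lit 250) (nat_lit 215))) (XT.nd (nat_lit 78) (nat_lit 0) (nat_lit 0) (XT.lf (nat_lit 0) (nat_lit 485351690163) (nat_lit 76) (nat_lit 952576215614) (nat_lit 76) (nat_lit 950921227183) (nat_lit 1) (nat_lit 4) (nat_lit 2) (nat_lit 5) (nat_lit 2) (nat_lit 4) (nat_lit 316) (nat_lit 250) (nat_lit 214)) (XT.nd (nat_lit 78) (nat_lit 0) (nat_lit 0) (XT.lf (nat_lit 0) (nat_lit 564473031915) (nat_lit 76) (nat_lit 1091950209904) (nat_lit 76) (nat_lit 1090293802706) (nat_lit 1) (nat_lit 4) (nat_lit 2) (nat_lit 5) (nat_lit 2) (nat_lit 4) (nat_lit 317) (nat_lit 250) (nat_lit 213)) (XT.lf (nat_lit 0) (nat_lit 655452635479) (nat_lit 76) (nat_lit 1252235435503) (nat_lit 76) (nat_lit 1250577794594) (nat_lit 1) (nat_lit 4) (nat_lit 2) (nat_lit 5) (nat_lit 2) (nat_lit 4) (nat_lit 318) (nat_lit 250) (nat_lit 212))))) (XT.nd (nat_lit 156) (nat_lit 0) (nat_lit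 0) (XT.nd (nat_lit 78) (nat_lit 0) (nat_lit 0) (XT.lf (nat_lit 0) (nat_lit 760070536577) (nat_lit 76) (nat_lit 1436567907693) (nat_lit 76) (nat_lit 1434909193992) (nat_lit 1) (nat_lit 4) (nat_lit 2) (nat_lit 5) (nat_lit 2) (nat_lit 4) (nat_lit 319) (nat_lit 250) (nat_lit 211)) (XT.lf (nat_lit 0) (nat_lit 880373607187) (nat_lit 76) (nat_lit 1648554131366) (nat_lit 76) (nat_lit 1646894484803) (nat_lit 1) (nat_lit 4) (nat_lit 2) (nat_lit 5) (nat_lit 2) (nat_lit 4) (nat_lit 320) (nat_lit 250) (nat_lit 210))) (XT.nd (nat_lit 78) (nat_lit 0) (nat_lit 0) (XT.lf (nat_lit 0) (nat_lit 1018715603039) (nat_lit 76) (nat_lit 1892341663072) (nat_lit 76) (nat_lit 1890681205324) (nat_lit 1) (nat_lit 4) (nat_lit 2) (nat_lit 5) (nat_lit 2) (nat_lit 4) (nat_lit 321) (nat_lit 250) (nat_lit 209)) (XT.nd (nat_lit 78) (nat_lit 0) (nat_lit 0) (XT.lf (nat_lit 0) (nat_lit 1177803215354) (nat_lit 76) (nat_lit 2172700258865)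 (nat_lit 76) (nat_lit 2171039095739) (nat_lit 1) (nat_lit 4) (nat_lit 2) (nat_lit 5) (nat_lit 2) (nat_lit 4) (nat_lit 322) (nat_lit 250) (nat_lit 208)) (XT.lf (nat_lit 0) (nat_lit 1360749027854) (nat_lit 76) (nat_lit 2495115195621) (nat_lit 76) (nat_lit 2493453419122) (nat_lit 1) (nat_lit 4) (nat_lit 2) (nat_lit 5) (nat_lit 2) (nat_lit 4) (nat_lit 323) (nat_lit 250) (nat_lit 207)))))) (XT.nd (nat_lit 390) (nat_lit 0) (nat_lit 0) (XT.nd (nat_lit 156) (nat_lit 0) (nat_lit 0) (XT.nd (nat_lit 78) (nat_lit 0) (nat_lit 0) (XT.lf (nat_lit 0) (nat_lit 1571132415129) (nat_lit 76) (nat_lit 2865894591666) (nat_lit 76) (nat_lit 2864232281800) (nat_lit 1) (nat_lit 4) (nat_lit 2) (nat_lit 5) (nat_lit 2) (nat_lit 4) (nat_lit 324) (nat_lit 250) (nat_lit 206)) (XT.lf (nat_lit 0) (nat_lit 1813069573888) (nat_lit 76) (nat_lit 3292292826489) (nat_lit 76) (nat_lit 3290630052826) (nat_lit 1) (nat_lit 4) (nat_lit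 2) (nat_lit 5) (nat_lit 2) (nat_lit 4) (nat_lit 325) (nat_lit 250) (nat_lit 205))) (XT.nd (nat_lit 78) (nat_lit 0) (nat_lit 0) (XT.lf (nat_lit 0) (nat_lit 2091294057236) (nat_lit 76) (nat_lit 3782652474249) (nat_lit 76) (nat_lit 3780989297284) (nat_lit 1) (nat_lit 4) (nat_lit 2) (nat_lit 5) (nat_lit 2) (nat_lit 4) (nat_lit 326) (nat_lit 250) (nat_lit 204)) (XT.nd (nat_lit 78) (nat_lit 0) (nat_lit 0) (XT.lf (nat_lit 0) (nat_lit 2411249387675) (nat_lit 76) (nat_lit 4346567528055) (nat_lit 76) (nat_lit 4344904000392) (nat_lit 1) (nat_lit 4) (nat_lit 2) (nat_lit 5) (nat_lit 2) (nat_lit 4) (nat_lit 327) (nat_lit 250) (nat_lit 203)) (XT.lf (nat_lit 0) (nat_lit 2779195560799) (nat_lit 76) (nat_lit 4995071108524) (nat_lit 76) (nat_lit 4993407275907) (nat_lit 1) (nat_lit 4) (nat_lit 2) (nat_lit 5) (nat_lit 2) (nat_lit 4) (nat_lit 328) (nat_lit 250) (nat_lit 202))))) (XT.nd (nat_lit 234) (nat_lit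 0) (nat_lit 0) (XT.nd (nat_lit 78) (nat_lit 0) (nat_lit 0) (XT.lf (nat_lit 0) (nat_lit 3202331523474) (nat_lit 76) (nat_lit 5740851329188) (nat_lit 76) (nat_lit 5739187231393) (nat_lit 1) (nat_lit 4) (nat_lit 2) (nat_lit 5) (nat_lit 2) (nat_lit 4) (nat_lit 329) (nat_lit 250) (nat_lit 201)) (XT.nd (nat_lit 78) (nat_lit 0) (nat_lit 0) (XT.lf (nat_lit 0) (nat_lit 3688936022796) (nat_lit 76) (nat_lit 6598499542190) (nat_lit 76) (nat_lit 6596835213805) (nat_lit 1) (nat_lit 4) (nat_lit 2) (nat_lit 5) (nat_lit 2) (nat_lit 4) (nat_lit 330) (nat_lit 250) (nat_lit 200)) (XT.lf (nat_lit 0) (nat_lit 4248529581578) (nat_lit 76) (nat_lit 7584795821262) (nat_lit 76) (nat_lit 7583131292365) (nat_lit 1) (nat_lit 4) (nat_lit 2) (nat_lit 5) (nat_lit 2) (nat_lit 4) (nat_lit 331) (nat_lit 250) (nat_lit 199)))) (XT.nd (nat_lit 78) (nat_lit 0) (nat_lit 0) (XT.lf (nat_lit 0) (nat_lit 4892060769448) (nat_lit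 76) (nat_lit 8719037267517) (nat_lit 76) (nat_lit 8717372564261) (nat_lit 1) (nat_lit 4) (nat_lit 2) (nat_lit 5) (nat_lit 2) (nat_lit 4) (nat_lit 332) (nat_lit 250) (nat_lit 198)) (XT.nd (nat_lit 78) (nat_lit 0) (nat_lit 0) (XT.lf (nat_lit 0) (nat_lit 5632120413994) (nat_lit 76) (nat_lit 10023415561425) (nat_lit 76) (nat_lit 10021750706553) (nat_lit 1) (nat_lit 4) (nat_lit 2) (nat_lit 5) (nat_lit 2) (nat_lit 4) (nat_lit 333) (nat_lit 250) (nat_lit 197)) (XT.lf (nat_lit 0) (nat_lit 6483187943046) (nat_lit 76) (nat_lit 11523451147867) (nat_lit 76) (nat_lit 11521786161155) (nat_lit 1) (nat_lit 4) (nat_lit 2) (nat_lit 5) (nat_lit 2) (nat_lit 4) (nat_lit 334) (nat_lit 250) (nat_lit 196))))))))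
noncomputable def xc30 : XT := (XT.nd (nat_lit 36582) (nat_lit 0) (nat_lit 0) (XT.nd (nat_lit 1482) (nat_lit 0) (nat_lit 0) (XT.nd (nat_lit 390) (nat_lit 0) (nat_lit 0) (XT.nd (nat_lit 156) (nat_lit 0) (nat_lit 0) (XT.nd (nat_lit 78) (nat_lit 0) (nat_lit 0) (XT.lf (nat_lit 0) (nat_lit 7461914677822) (nat_lit 76) (nat_lit 13248492549186) (nat_lit 76) (nat_lit 13246827447830) (nat_lit 1) (nat_lit 4) (nat_lit 2) (nat_lit 5) (nat_lit 2) (nat_lit 4) (nat_lit 335) (nat_lit 250) (nat_lit 195)) (XT.lf (nat_lit 0) (nat_lit 8587449619657) (nat_lit 76) (nat_lit 15232290575408) (nat_lit 76) (nat_lit 15230625374362) (nat_lit 1) (nat_lit 4) (nat_lit 2) (nat_lit 5) (nat_lit 2) (nat_lit 4) (nat_lit 336) (nat_lit 250) (nat_lit 194))) (XT.nd (nat_lit 78) (nat_lit 0) (nat_lit 0) (XT.lf (nat_lit 0) (nat_lit 9881814104369) (nat_lit 76) (nat_lit 17513658666177) (nat_lit 76) (nat_lit 17511993378444) (nat_lit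 1) (nat_lit 4) (nat_lit 2) (nat_lit 5) (nat_lit 2) (nat_lit 4) (nat_lit 337) (nat_lit 250) (nat_lit 193)) (XT.nd (nat_lit 78) (nat_lit 0) (nat_lit 0) (XT.lf (nat_lit 0) (nat_lit 11370332654483) (nat_lit 76) (nat_lit 20137232284137) (nat_lit 76) (nat_lit 20135566921025) (nat_lit 1) (nat_lit 4) (nat_lit 2) (nat_lit 5) (nat_lit 2) (nat_lit 4) (nat_lit 338) (nat_lit 250) (nat_lit 192)) (XT.lf (nat_lit 0) (nat_lit 13082128459026) (nat_lit 76) (nat_lit 23154342217468) (nat_lit 76) (nat_lit 23152676788807) (nat_lit 1) (nat_lit 4) (nat_lit 2) (nat_lit 5) (nat_lit 2) (nat_lit 4) (nat_lit 339) (nat_lit 250) (nat_lit 191))))) (XT.nd (nat_lit 156) (nat_lit 0) (nat_lit 0) (XT.nd (nat_lit 78) (nat_lit 0) (nat_lit 0) (XT.lf (nat_lit 0) (nat_lit 15050693175041) (nat_lit 76) (nat_lit 26624018877906) (nat_lit 76) (nat_lit 26622353392248) (nat_lit 1) (nat_lit 4) (nat_lit 2) (nat_lit 5) (nat_lit 2) (nat_lit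 4) (nat_lit 340) (nat_lit 250) (nat_lit 190)) (XT.lf (nat_lit 0) (nat_lit 17314542199146) (nat_lit 76) (nat_lit 30614147243593) (nat_lit 76) (nat_lit 30612481708370) (nat_lit 1) (nat_lit 4) (nat_lit 2) (nat_lit 5) (nat_lit 2) (nat_lit 4) (nat_lit 341) (nat_lit 250) (nat_lit 189))) (XT.nd (nat_lit 78) (nat_lit 0) (nat_lit 0) (XT.lf (nat_lit 0) (nat_lit 19917968229640) (nat_lit 76) (nat_lit 35202795043421) (nat_lit 76) (nat_lit 35201129465100) (nat_lit 1) (nat_lit 4) (nat_lit 2) (nat_lit 5) (nat_lit 2) (nat_lit 4) (nat_lit 342) (nat_lit 250) (nat_lit 188)) (XT.nd (nat_lit 780) (nat_lit 0) (nat_lit 0) (XT.lf (nat_lit 0) (nat_lit 22911907862771) (nat_lit 76) (nat_lit 40479740169126) (nat_lit 76) (nat_lit 40478074553328) (nat_lit 1) (nat_lit 4) (nat_lit 2) (nat_lit 5) (nat_lit 2) (nat_lit 4) (nat_lit 343) (nat_lit 250) (nat_lit 187)) (XT.lf (nat_lit 0) (nat_lit 92818213443792) (nat_lit 76)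 (nat_lit 163692597068945) (nat_lit 76) (nat_lit 163690931265057) (nat_lit 1) (nat_lit 4) (nat_lit 2) (nat_lit 5) (nat_lit 2) (nat_lit 4) (nat_lit 353) (nat_lit 250) (nat_lit 177)))))) (XT.nd (nat_lit 34710) (nat_lit 0) (nat_lit 304) (XT.nd (nat_lit 156) (nat_lit 0) (nat_lit 0) (XT.nd (nat_lit 78) (nat_lit 0) (nat_lit 0) (XT.lf (nat_lit 0) (nat_lit 106747188278794) (nat_lit 76) (nat_lit 188243013314430) (nat_lit 76) (nat_lit 188241347502487) (nat_lit 1) (nat_lit 4) (nat_lit 2) (nat_lit 5) (nat_lit 2) (nat_lit 4) (nat_lit 354) (nat_lit 250) (nat_lit 176)) (XT.lf (nat_lit 0) (nat_lit 122765509282613) (nat_lit 76) (nat_lit 216475992025878) (nat_lit 76) (nat_lit 216474326206929) (nat_lit 1) (nat_lit 4) (nat_lit 2) (nat_lit 5) (nat_lit 2) (nat_lit 4) (nat_lit 355) (nat_lit 250) (nat_lit 175))) (XT.nd (nat_lit 78) (nat_lit 0) (nat_lit 0) (XT.lf (nat_lit 0) (nat_lit 141186578387931) (nat_lit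 76) (nat_lit 248943917569381) (nat_lit 76) (nat_lit 248942251744342) (nat_lit 1) (nat_lit 4) (nat_lit 2) (nat_lit 5) (nat_lit 2) (nat_lit 4) (nat_lit 356) (nat_lit 250) (nat_lit 174)) (XT.nd (nat_lit 78) (nat_lit 0) (nat_lit 0) (XT.lf (nat_lit 0) (nat_lit 162370807816374) (nat_lit 76) (nat_lit 286282031966443) (nat_lit 76) (nat_lit 286280366136107) (nat_lit 1) (nat_lit 4) (nat_lit 2) (nat_lit 5) (nat_lit 2) (nat_lit 4) (nat_lit 357) (nat_lit 250) (nat_lit 173)) (XT.lf (nat_lit 0) (nat_lit 186732671621978) (nat_lit 76) (nat_lit 329220863542225) (nat_lit 76) (nat_lit 329219197707283) (nat_lit 1) (nat_lit 4) (nat_lit 2) (nat_lit 5) (nat_lit 2) (nat_lit 4) (nat_lit 358) (nat_lit 250) (nat_lit 172))))) (XT.nd (nat_lit 156) (nat_lit 152) (nat_lit 0) (XT.nd (nat_lit 78) (nat_lit 76) (nat_lit 0) (XT.lf (nat_lit 0) (nat_lit 2495501506) (nat_lit 152) (nat_lit 3337531537) (nat_lit 0) (nat_lit 2495501506)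 (nat_lit 8) (nat_lit 5) (nat_lit 10) (nat_lit 4) (nat_lit 8) (nat_lit 4) (nat_lit 278) (nat_lit 251) (nat_lit 251)) (XT.lf (nat_lit 0) (nat_lit 3123814383) (nat_lit 76) (nat_lit 7764236154) (nat_lit 76) (nat_lit 7433770056) (nat_lit 7) (nat_lit 4) (nat_lit 8) (nat_lit 5) (nat_lit 8) (nat_lit 4) (nat_lit 279) (nat_lit 251) (nat_lit 250))) (XT.nd (nat_lit 78) (nat_lit 152) (nat_lit 0) (XT.lf (nat_lit 0) (nat_lit 14161160339) (nat_lit 76) (nat_lit 3357959425) (nat_lit 76) (nat_lit 2740131503) (nat_lit 7) (nat_lit 4) (nat_lit 8) (nat_lit 5) (nat_lit 8) (nat_lit 4) (nat_lit 280) (nat_lit 251) (nat_lit 249)) (XT.nd (nat_lit 78) (nat_lit 0) (nat_lit 0) (XT.lf (nat_lit 0) (nat_lit 2183258907) (nat_lit 152) (nat_lit 18894747692) (nat_lit 0) (nat_lit 1428730413) (nat_lit 5) (nat_lit 5) (nat_lit 7) (nat_lit 4) (nat_lit 5) (nat_lit 4) (nat_lit 281) (nat_lit 251) (nat_lit 248)) (XT.lf (nat_lit 0)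 (nat_lit 7609405322) (nat_lit 152) (nat_lit 10789972352) (nat_lit 0) (nat_lit 6665931763) (nat_lit 5) (nat_lit 5) (nat_lit 7) (nat_lit 4) (nat_lit 5) (nat_lit 4) (nat_lit 282) (nat_lit 251) (nat_lit 247))))))) (XT.nd (nat_lit 780) (nat_lit 76) (nat_lit 0) (XT.nd (nat_lit 390) (nat_lit 152) (nat_lit 0) (XT.nd (nat_lit 156) (nat_lit 0) (nat_lit 0) (XT.nd (nat_lit 78) (nat_lit 76) (nat_lit 0) (XT.lf (nat_lit 0) (nat_lit 13458985707) (nat_lit 152) (nat_lit 2256263902) (nat_lit 0) (nat_lit 12351212094) (nat_lit 5) (nat_lit 5) (nat_lit 7) (nat_lit 4) (nat_lit 5) (nat_lit 4) (nat_lit 283) (nat_lit 251) (nat_lit 246)) (XT.lf (nat_lit 0) (nat_lit 7545054439) (nat_lit 76) (nat_lit 12613818551) (nat_lit 76) (nat_lit 11363175324) (nat_lit 4) (nat_lit 4) (nat_lit 5) (nat_lit 5) (nat_lit 5) (nat_lit 4) (nat_lit 284) (nat_lit 251) (nat_lit 245))) (XT.nd (nat_lit 78) (nat_lit 0) (nat_lit 0) (XT.lf (nat_lit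 0) (nat_lit 18417082681) (nat_lit 76) (nat_lit 9242294862) (nat_lit 76) (nat_lit 7867417188) (nat_lit 4) (nat_lit 4) (nat_lit 5) (nat_lit 5) (nat_lit 5) (nat_lit 4) (nat_lit 285) (nat_lit 251) (nat_lit 244)) (XT.nd (nat_lit 78) (nat_lit 0) (nat_lit 0) (XT.lf (nat_lit 0) (nat_lit 30352035901) (nat_lit 76) (nat_lit 5652655015) (nat_lit 76) (nat_lit 4169747388) (nat_lit 4) (nat_lit 4) (nat_lit 5) (nat_lit 5) (nat_lit 5) (nat_lit 4) (nat_lit 286) (nat_lit 251) (nat_lit 243)) (XT.lf (nat_lit 0) (nat_lit 43583424053) (nat_lit 76) (nat_lit 1774666928) (nat_lit 76) (nat_lit 197820211) (nat_lit 4) (nat_lit 4) (nat_lit 5) (nat_lit 5) (nat_lit 5) (nat_lit 4) (nat_lit 287) (nat_lit 251) (nat_lit 242))))) (XT.nd (nat_lit 156) (nat_lit 0) (nat_lit 0) (XT.nd (nat_lit 78) (nat_lit 0) (nat_lit 0) (XT.lf (nat_lit 0) (nat_lit 4174901704) (nat_lit 152) (nat_lit 44780850745) (nat_lit 0) (nat_lit 2732699197)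 (nat_lit 2) (nat_lit 5) (nat_lit 4) (nat_lit 4) (nat_lit 2) (nat_lit 4) (nat_lit 288) (nat_lit 251) (nat_lit 241)) (XT.lf (nat_lit 0) (nat_lit 9155729852) (nat_lit 152) (nat_lit 41936184798) (nat_lit 0) (nat_lit 7651760869) (nat_lit 2) (nat_lit 5) (nat_lit 4) (nat_lit 4) (nat_lit 2) (nat_lit 4) (nat_lit 289) (nat_lit 251) (nat_lit 240))) (XT.nd (nat_lit 78) (nat_lit 0) (nat_lit 0) (XT.lf (nat_lit 0) (nat_lit 14692313411) (nat_lit 152) (nat_lit 39059012609) (nat_lit 0) (nat_lit 13134634448) (nat_lit 2) (nat_lit 5) (nat_lit 4) (nat_lit 4) (nat_lit 2) (nat_lit 4) (nat_lit 290) (nat_lit 251) (nat_lit 239)) (XT.nd (nat_lit 78) (nat_lit 0) (nat_lit 0) (XT.lf (nat_lit 0) (nat_lit 20892976841) (nat_lit 152) (nat_lit 36093041680) (nat_lit 0) (nat_lit 19288593548) (nat_lit 2) (nat_lit 5) (nat_lit 4) (nat_lit 4) (nat_lit 2) (nat_lit 4) (nat_lit 291) (nat_lit 251) (nat_lit 238)) (XT.lf (nat_lit 0)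 (nat_lit 27879037469) (nat_lit 152) (nat_lit 32980242145) (nat_lit 0) (nat_lit 26234041715) (nat_lit 2) (nat_lit 5) (nat_lit 4) (nat_lit 4) (nat_lit 2) (nat_lit 4) (nat_lit 292) (nat_lit 251) (nat_lit 237)))))) (XT.nd (nat_lit 390) (nat_lit 76) (nat_lit 0) (XT.nd (nat_lit 156) (nat_lit 0) (nat_lit 0) (XT.nd (nat_lit 78) (nat_lit 0) (nat_lit 0) (XT.lf (nat_lit 0) (nat_lit 35787179092) (nat_lit 152) (nat_lit 29659711403) (nat_lit 0) (nat_lit 34106868155) (nat_lit 2) (nat_lit 5) (nat_lit 4) (nat_lit 4) (nat_lit 2) (nat_lit 4) (nat_lit 293) (nat_lit 251) (nat_lit 236)) (XT.lf (nat_lit 0) (nat_lit 44772126218) (nat_lit 152) (nat_lit 26066482549) (nat_lit 0) (nat_lit 43061106426) (nat_lit 2) (nat_lit 5) (nat_lit 4) (nat_lit 4) (nat_lit 2) (nat_lit 4) (nat_lit 294) (nat_lit 251) (nat_lit 235))) (XT.nd (nat_lit 78) (nat_lit 0) (nat_lit 0) (XT.lf (nat_lit 0) (nat_lit 55009671292) (nat_lit 152)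 (nat_lit 22130253279) (nat_lit 0) (nat_lit 53271948147) (nat_lit 2) (nat_lit 5) (nat_lit 4) (nat_lit 4) (nat_lit 2) (nat_lit 4) (nat_lit 295) (nat_lit 251) (nat_lit 234)) (XT.nd (nat_lit 78) (nat_lit 0) (nat_lit 0) (XT.lf (nat_lit 0) (nat_lit 66700114109) (nat_lit 152) (nat_lit 17774010412) (nat_lit 0) (nat_lit 64939170658) (nat_lit 2) (nat_lit 5) (nat_lit 4) (nat_lit 4) (nat_lit 2) (nat_lit 4) (nat_lit 296) (nat_lit 251) (nat_lit 233)) (XT.lf (nat_lit 0) (nat_lit 80072180723) (nat_lit 152) (nat_lit 12912523109) (nat_lit 0) (nat_lit 78291045701) (nat_lit 2) (nat_lit 5) (nat_lit 4) (nat_lit 4) (nat_lit 2) (nat_lit 4) (nat_lit 297) (nat_lit 251) (nat_lit 232))))) (XT.nd (nat_lit 156) (nat_lit 76) (nat_lit 0) (XT.nd (nat_lit 78) (nat_lit 0) (nat_lit 0) (XT.lf (nat_lit 0) (nat_lit 95387498525) (nat_lit 152) (nat_lit 7450675314) (nat_lit 0) (nat_lit 93588805616) (nat_lit 2) (nat_lit 5) (nat_lit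 4) (nat_lit 4) (nat_lit 2) (nat_lit 4) (nat_lit 298) (nat_lit 251) (nat_lit 231)) (XT.lf (nat_lit 0) (nat_lit 112945715038) (nat_lit 152) (nat_lit 1281604789) (nat_lit 0) (nat_lit 111131754400) (nat_lit 2) (nat_lit 5) (nat_lit 4) (nat_lit 4) (nat_lit 2) (nat_lit 4) (nat_lit 299) (nat_lit 251) (nat_lit 230))) (XT.nd (nat_lit 78) (nat_lit 0) (nat_lit 0) (XT.lf (nat_lit 0) (nat_lit 6273936923) (nat_lit 76) (nat_lit 127076214008) (nat_lit 76) (nat_lit 125248977085) (nat_lit 1) (nat_lit 4) (nat_lit 2) (nat_lit 5) (nat_lit 2) (nat_lit 4) (nat_lit 300) (nat_lit 251) (nat_lit 229)) (XT.nd (nat_lit 78) (nat_lit 0) (nat_lit 0) (XT.lf (nat_lit 0) (nat_lit 15013835182) (nat_lit 76) (nat_lit 141823425246) (nat_lit 76) (nat_lit 139984643727) (nat_lit 1) (nat_lit 4) (nat_lit 2) (nat_lit 5) (nat_lit 2) (nat_lit 4) (nat_lit 301) (nat_lit 251) (nat_lit 228)) (XT.lf (nat_lit 0) (nat_lit 24983840256) (nat_lit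 76) (nat_lit 158824478912) (nat_lit 76) (nat_lit 156975658614) (nat_lit 1) (nat_lit 4) (nat_lit 2) (nat_lit 5) (nat_lit 2) (nat_lit 4) (nat_lit 302) (nat_lit 251) (nat_lit 227))))))))
noncomputable def xc31 : XT := (XT.nd (nat_lit 1560) (nat_lit 0) (nat_lit 0) (XT.nd (nat_lit 780) (nat_lit 0) (nat_lit 0) (XT.nd (nat_lit 390) (nat_lit 0) (nat_lit 0) (XT.nd (nat_lit 156) (nat_lit 0) (nat_lit 0) (XT.nd (nat_lit 78) (nat_lit 0) (nat_lit 0) (XT.lf (nat_lit 0) (nat_lit 36379017462) (nat_lit 76) (nat_lit 178412004317) (nat_lit 76) (nat_lit 176554454645) (nat_lit 1) (nat_lit 4) (nat_lit 2) (nat_lit 5) (nat_lit 2) (nat_lit 4) (nat_lit 303) (nat_lit 251) (nat_lit 226)) (XT.lf (nat_lit 0) (nat_lit 49422315919) (nat_lit 76) (nat_lit 200969235654) (nat_lit 76) (nat_lit 199104095222) (nat_lit 1) (nat_lit 4) (nat_lit 2) (nat_lit 5) (nat_lit 2) (nat_lit 4) (nat_lit 304) (nat_lit 251) (nat_lit 225)))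 (XT.nd (nat_lit 78) (nat_lit 0) (nat_lit 0) (XT.lf (nat_lit 0) (nat_lit 64368930596) (nat_lit 76) (nat_lit 226937510056) (nat_lit 76) (nat_lit 225065768965) (nat_lit 1) (nat_lit 4) (nat_lit 2) (nat_lit 5) (nat_lit 2) (nat_lit 4) (nat_lit 305) (nat_lit 251) (nat_lit 224)) (XT.nd (nat_lit 78) (nat_lit 0) (nat_lit 0) (XT.lf (nat_lit 0) (nat_lit 81511295259) (nat_lit 76) (nat_lit 256824902459) (nat_lit 76) (nat_lit 254947421663) (nat_lit 1) (nat_lit 4) (nat_lit 2) (nat_lit 5) (nat_lit 2) (nat_lit 4) (nat_lit 306) (nat_lit 251) (nat_lit 223)) (XT.lf (nat_lit 0) (nat_lit 101184804000) (nat_lit 76) (nat_lit 291216166192) (nat_lit 76) (nat_lit 289333694349) (nat_lit 1) (nat_lit 4) (nat_lit 2) (nat_lit 5) (nat_lit 2) (nat_lit 4) (nat_lit 307) (nat_lit 251) (nat_lit 222))))) (XT.nd (nat_lit 156) (nat_lit 0) (nat_lit 0) (XT.nd (nat_lit 78) (nat_lit 0) (nat_lit 0) (XT.lf (nat_lit 0) (nat_lit 123774373293)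 (nat_lit 76) (nat_lit 330784173807) (nat_lit 76) (nat_lit 328897361922) (nat_lit 1) (nat_lit 4) (nat_lit 2) (nat_lit 5) (nat_lit 2) (nat_lit 4) (nat_lit 308) (nat_lit 251) (nat_lit 221)) (XT.lf (nat_lit 0) (nat_lit 149721972973) (nat_lit 76) (nat_lit 376303081973) (nat_lit 76) (nat_lit 374412496139) (nat_lit 1) (nat_lit 4) (nat_lit 2) (nat_lit 5) (nat_lit 2) (nat_lit 4) (nat_lit 309) (nat_lit 251) (nat_lit 220))) (XT.nd (nat_lit 78) (nat_lit 0) (nat_lit 0) (XT.lf (nat_lit 0) (nat_lit 179535273468) (nat_lit 76) (nat_lit 428663478025) (nat_lit 76) (nat_lit 426769610496) (nat_lit 1) (nat_lit 4) (nat_lit 2) (nat_lit 5) (nat_lit 2) (nat_lit 4) (nat_lit 310) (nat_lit 251) (nat_lit 219)) (XT.nd (nat_lit 78) (nat_lit 0) (nat_lit 0) (XT.lf (nat_lit 0) (nat_lit 213797578483) (nat_lit 76) (nat_lit 488889804494) (nat_lit 76) (nat_lit 486993083318) (nat_lit 1) (nat_lit 4) (nat_lit 2) (nat_lit 5) (nat_lit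 2) (nat_lit 4) (nat_lit 311) (nat_lit 251) (nat_lit 218)) (XT.lf (nat_lit 0) (nat_lit 253179237465) (nat_lit 76) (nat_lit 558160402550) (nat_lit 76) (nat_lit 556261199941) (nat_lit 1) (nat_lit 4) (nat_lit 2) (nat_lit 5) (nat_lit 2) (nat_lit 4) (nat_lit 312) (nat_lit 251) (nat_lit 217)))))) (XT.nd (nat_lit 390) (nat_lit 0) (nat_lit 0) (XT.nd (nat_lit 156) (nat_lit 0) (nat_lit 0) (XT.nd (nat_lit 78) (nat_lit 0) (nat_lit 0) (XT.lf (nat_lit 0) (nat_lit 298450761133) (nat_lit 76) (nat_lit 637830566503) (nat_lit 76) (nat_lit 635929206127) (nat_lit 1) (nat_lit 4) (nat_lit 2) (nat_lit 5) (nat_lit 2) (nat_lit 4) (nat_lit 313) (nat_lit 251) (nat_lit 216)) (XT.lf (nat_lit 0) (nat_lit 350497896688) (nat_lit 76) (nat_lit 729459060431) (nat_lit 76) (nat_lit 727555823735) (nat_lit 1) (nat_lit 4) (nat_lit 2) (nat_lit 5) (nat_lit 2) (nat_lit 4) (nat_lit 314) (nat_lit 251) (nat_lit 215))) (XT.nd (nat_lit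 78) (nat_lit 0) (nat_lit 0) (XT.lf (nat_lit 0) (nat_lit 410338957653) (nat_lit 76) (nat_lit 834838615736) (nat_lit 76) (nat_lit 832933747457) (nat_lit 1) (nat_lit 4) (nat_lit 2) (nat_lit 5) (nat_lit 2) (nat_lit 4) (nat_lit 315) (nat_lit 251) (nat_lit 214)) (XT.nd (nat_lit 78) (nat_lit 0) (nat_lit 0) (XT.lf (nat_lit 0) (nat_lit 479144747395) (nat_lit 76) (nat_lit 956031006326) (nat_lit 76) (nat_lit 954124719280) (nat_lit 1) (nat_lit 4) (nat_lit 2) (nat_lit 5) (nat_lit 2) (nat_lit 4) (nat_lit 316) (nat_lit 251) (nat_lit 213)) (XT.lf (nat_lit 0) (nat_lit 558261466146) (nat_lit 76) (nat_lit 1095407387669) (nat_lit 76) (nat_lit 1093499866913) (nat_lit 1) (nat_lit 4) (nat_lit 2) (nat_lit 5) (nat_lit 2) (nat_lit 4) (nat_lit 317) (nat_lit 251) (nat_lit 212))))) (XT.nd (nat_lit 156) (nat_lit 0) (nat_lit 0) (XT.nd (nat_lit 78) (nat_lit 0) (nat_lit 0) (XT.lf (nat_lit 0) (nat_lit 649237049710) (nat_lit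 76) (nat_lit 1255694688966) (nat_lit 76) (nat_lit 1253786095418) (nat_lit 1) (nat_lit 4) (nat_lit 2) (nat_lit 5) (nat_lit 2) (nat_lit 4) (nat_lit 318) (nat_lit 251) (nat_lit 211)) (XT.lf (nat_lit 0) (nat_lit 753851455156) (nat_lit 76) (nat_lit 1440028966112) (nat_lit 76) (nat_lit 1438119439702) (nat_lit 1) (nat_lit 4) (nat_lit 2) (nat_lit 5) (nat_lit 2) (nat_lit 4) (nat_lit 319) (nat_lit 251) (nat_lit 210))) (XT.nd (nat_lit 78) (nat_lit 0) (nat_lit 0) (XT.lf (nat_lit 0) (nat_lit 874151486068) (nat_lit 76) (nat_lit 1652016759311) (nat_lit 76) (nat_lit 1650106421716) (nat_lit 1) (nat_lit 4) (nat_lit 2) (nat_lit 5) (nat_lit 2) (nat_lit 4) (nat_lit 320) (nat_lit 251) (nat_lit 209)) (XT.nd (nat_lit 78) (nat_lit 0) (nat_lit 0) (XT.lf (nat_lit 0) (nat_lit 1012490838704) (nat_lit 76) (nat_lit 1895805655823) (nat_lit 76) (nat_lit 1893894612849) (nat_lit 1) (nat_lit 4) (nat_lit 2) (nat_lit 5) (nat_lit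 2) (nat_lit 4) (nat_lit 321) (nat_lit 251) (nat_lit 208)) (XT.lf (nat_lit 0) (nat_lit 1171576152571) (nat_lit 76) (nat_lit 2176165438403) (nat_lit 76) (nat_lit 2174253782058) (nat_lit 1) (nat_lit 4) (nat_lit 2) (nat_lit 5) (nat_lit 2) (nat_lit 4) (nat_lit 322) (nat_lit 251) (nat_lit 207))))))) (XT.nd (nat_lit 780) (nat_lit 0) (nat_lit 0) (XT.nd (nat_lit 390) (nat_lit 0) (nat_lit 0) (XT.nd (nat_lit 156) (nat_lit 0) (nat_lit 0) (XT.nd (nat_lit 78) (nat_lit 0) (nat_lit 0) (XT.lf (nat_lit 0) (nat_lit 1354519966420) (nat_lit 76) (nat_lit 2498581407148) (nat_lit 76) (nat_lit 2496669217435) (nat_lit 1) (nat_lit 4) (nat_lit 2) (nat_lit 5) (nat_lit 2) (nat_lit 4) (nat_lit 323) (nat_lit 251) (nat_lit 206)) (XT.lf (nat_lit 0) (nat_lit 1564901615738) (nat_lit 76) (nat_lit 2869361700575) (nat_lit 76) (nat_lit 2867449047065) (nat_lit 1) (nat_lit 4) (nat_lit 2) (nat_lit 5) (nat_lit 2) (nat_lit 4) (nat_lit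 324) (nat_lit 251) (nat_lit 205))) (XT.nd (nat_lit 78) (nat_lit 0) (nat_lit 0) (XT.lf (nat_lit 0) (nat_lit 1806837263230) (nat_lit 76) (nat_lit 3295760715730) (nat_lit 76) (nat_lit 3293847658918) (nat_lit 1) (nat_lit 4) (nat_lit 2) (nat_lit 5) (nat_lit 2) (nat_lit 4) (nat_lit 325) (nat_lit 251) (nat_lit 204)) (XT.nd (nat_lit 78) (nat_lit 0) (nat_lit 0) (XT.lf (nat_lit 0) (nat_lit 2085060432433) (nat_lit 76) (nat_lit 3786121042040) (nat_lit 76) (nat_lit 3784207634530) (nat_lit 1) (nat_lit 4) (nat_lit 2) (nat_lit 5) (nat_lit 2) (nat_lit 4) (nat_lit 326) (nat_lit 251) (nat_lit 203)) (XT.lf (nat_lit 0) (nat_lit 2405014620137) (nat_lit 76) (nat_lit 4350036685888) (nat_lit 76) (nat_lit 4348122973424) (nat_lit 1) (nat_lit 4) (nat_lit 2) (nat_lit 5) (nat_lit 2) (nat_lit 4) (nat_lit 327) (nat_lit 251) (nat_lit 202))))) (XT.nd (nat_lit 156) (nat_lit 0) (nat_lit 0) (XT.nd (nat_lit 78) (nat_lit 0)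 (nat_lit 0) (XT.lf (nat_lit 0) (nat_lit 2772959799578) (nat_lit 76) (nat_lit 4998540779439) (nat_lit 76) (nat_lit 4996626801797) (nat_lit 1) (nat_lit 4) (nat_lit 2) (nat_lit 5) (nat_lit 2) (nat_lit 4) (nat_lit 328) (nat_lit 251) (nat_lit 201)) (XT.lf (nat_lit 0) (nat_lit 3196094898182) (nat_lit 76) (nat_lit 5744321446260) (nat_lit 76) (nat_lit 5742407238029) (nat_lit 1) (nat_lit 4) (nat_lit 2) (nat_lit 5) (nat_lit 2) (nat_lit 4) (nat_lit 329) (nat_lit 251) (nat_lit 200))) (XT.nd (nat_lit 78) (nat_lit 0) (nat_lit 0) (XT.lf (nat_lit 0) (nat_lit 3682698646137) (nat_lit 76) (nat_lit 6601970047225) (nat_lit 76) (nat_lit 6600055638481) (nat_lit 1) (nat_lit 4) (nat_lit 2) (nat_lit 5) (nat_lit 2) (nat_lit 4) (nat_lit 330) (nat_lit 251) (nat_lit 199)) (XT.nd (nat_lit 78) (nat_lit 0) (nat_lit 0) (XT.lf (nat_lit 0) (nat_lit 4242291551556) (nat_lit 76) (nat_lit 7588266663656) (nat_lit 76) (nat_lit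 7586352080553) (nat_lit 1) (nat_lit 4) (nat_lit 2) (nat_lit 5) (nat_lit 2) (nat_lit 4) (nat_lit 331) (nat_lit 251) (nat_lit 198)) (XT.lf (nat_lit 0) (nat_lit 4885822171285) (nat_lit 76) (nat_lit 8722508403266) (nat_lit 76) (nat_lit 8720593668548) (nat_lit 1) (nat_lit 4) (nat_lit 2) (nat_lit 5) (nat_lit 2) (nat_lit 4) (nat_lit 332) (nat_lit 251) (nat_lit 197)))))) (XT.nd (nat_lit 390) (nat_lit 0) (nat_lit 0) (XT.nd (nat_lit 156) (nat_lit 0) (nat_lit 0) (XT.nd (nat_lit 78) (nat_lit 0) (nat_lit 0) (XT.lf (nat_lit 0) (nat_lit 5625881321795) (nat_lit 76) (nat_lit 10026886952266) (nat_lit 76) (nat_lit 10024972085708) (nat_lit 1) (nat_lit 4) (nat_lit 2) (nat_lit 5) (nat_lit 2) (nat_lit 4) (nat_lit 333) (nat_lit 251) (nat_lit 196)) (XT.lf (nat_lit 0) (nat_lit 6476948421250) (nat_lit 76) (nat_lit 11526922760527) (nat_lit 76) (nat_lit 11525007779325) (nat_lit 1) (nat_lit 4) (nat_lit 2) (nat_lit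 5) (nat_lit 2) (nat_lit 4) (nat_lit 334) (nat_lit 251) (nat_lit 195))) (XT.nd (nat_lit 78) (nat_lit 0) (nat_lit 0) (XT.lf (nat_lit 0) (nat_lit 7455674782465) (nat_lit 76) (nat_lit 13251964354733) (nat_lit 76) (nat_lit 13250049273840) (nat_lit 1) (nat_lit 4) (nat_lit 2) (nat_lit 5) (nat_lit 2) (nat_lit 4) (nat_lit 335) (nat_lit 251) (nat_lit 194)) (XT.nd (nat_lit 78) (nat_lit 0) (nat_lit 0) (XT.lf (nat_lit 0) (nat_lit 8581209399463) (nat_lit 76) (nat_lit 15235762548682) (nat_lit 76) (nat_lit 15233847381102) (nat_lit 1) (nat_lit 4) (nat_lit 2) (nat_lit 5) (nat_lit 2) (nat_lit 4) (nat_lit 336) (nat_lit 251) (nat_lit 193)) (XT.lf (nat_lit 0) (nat_lit 9875573601708) (nat_lit 76) (nat_lit 17517130785300) (nat_lit 76) (nat_lit 17515215542341) (nat_lit 1) (nat_lit 4) (nat_lit 2) (nat_lit 5) (nat_lit 2) (nat_lit 4) (nat_lit 337) (nat_lit 251) (nat_lit 192))))) (XT.nd (nat_lit 234) (nat_lit 0)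 (nat_lit 0) (XT.nd (nat_lit 78) (nat_lit 0) (nat_lit 0) (XT.lf (nat_lit 0) (nat_lit 11364091906200) (nat_lit 76) (nat_lit 20140704530087) (nat_lit 76) (nat_lit 20138789221579) (nat_lit 1) (nat_lit 4) (nat_lit 2) (nat_lit 5) (nat_lit 2) (nat_lit 4) (nat_lit 338) (nat_lit 251) (nat_lit 191)) (XT.nd (nat_lit 78) (nat_lit 0) (nat_lit 0) (XT.lf (nat_lit 0) (nat_lit 13075887497156) (nat_lit 76) (nat_lit 23157814573700) (nat_lit 76) (nat_lit 23155899208195) (nat_lit 1) (nat_lit 4) (nat_lit 2) (nat_lit 5) (nat_lit 2) (nat_lit 4) (nat_lit 339) (nat_lit 251) (nat_lit 190)) (XT.lf (nat_lit 0) (nat_lit 15044452027445) (nat_lit 76) (nat_lit 26627491330038) (nat_lit 76) (nat_lit 26625575914968) (nat_lit 1) (nat_lit 4) (nat_lit 2) (nat_lit 5) (nat_lit 2) (nat_lit 4) (nat_lit 340) (nat_lit 251) (nat_lit 189)))) (XT.nd (nat_lit 78) (nat_lit 0) (nat_lit 0) (XT.lf (nat_lit 0) (nat_lit 17308300890050) (nat_lit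 76) (nat_lit 30617619779114) (nat_lit 76) (nat_lit 30615704320946) (nat_lit 1) (nat_lit 4) (nat_lit 2) (nat_lit 5) (nat_lit 2) (nat_lit 4) (nat_lit 341) (nat_lit 251) (nat_lit 188)) (XT.nd (nat_lit 78) (nat_lit 0) (nat_lit 0) (XT.lf (nat_lit 0) (nat_lit 19911726780108) (nat_lit 76) (nat_lit 35206267651455) (nat_lit 76) (nat_lit 35204352155810) (nat_lit 1) (nat_lit 4) (nat_lit 2) (nat_lit 5) (nat_lit 2) (nat_lit 4) (nat_lit 342) (nat_lit 251) (nat_lit 187)) (XT.lf (nat_lit 0) (nat_lit 22905666291120) (nat_lit 76) (nat_lit 40483212840215) (nat_lit 76) (nat_lit 40481297311981) (nat_lit 1) (nat_lit 4) (nat_lit 2) (nat_lit 5) (nat_lit 2) (nat_lit 4) (nat_lit 343) (nat_lit 251) (nat_lit 186))))))))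
noncomputable def xc32 : XT := (XT.nd (nat_lit 35724) (nat_lit 0) (nat_lit 0) (XT.nd (nat_lit 34944) (nat_lit 0) (nat_lit 76) (XT.nd (nat_lit 390) (nat_lit 0) (nat_lit 0) (XT.nd (nat_lit 156) (nat_lit 0) (nat_lit 0) (XT.nd (nat_lit 78) (nat_lit 0) (nat_lit 0) (XT.lf (nat_lit 0) (nat_lit 80699819202573) (nat_lit 76) (nat_lit 142347882030493) (nat_lit 76) (nat_lit 142345966346757) (nat_lit 1) (nat_lit 4) (nat_lit 2) (nat_lit 5) (nat_lit 2) (nat_lit 4) (nat_lit 352) (nat_lit 251) (nat_lit 177)) (XT.lf (nat_lit 0) (nat_lit 92811971259259) (nat_lit 76) (nat_lit 163696070056492) (nat_lit 76) (nat_lit 163694154364701) (nat_lit 1) (nat_lit 4) (nat_lit 2) (nat_lit 5) (nat_lit 2) (nat_lit 4) (nat_lit 353) (nat_lit 251) (nat_lit 176))) (XT.nd (nat_lit 78) (nat_lit 0) (nat_lit 0) (XT.lf (nat_lit 0) (nat_lit 106740946068013) (nat_lit 76) (nat_lit 188246486315530) (nat_lit 76) (nat_lit 188244570616735)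 (nat_lit 1) (nat_lit 4) (nat_lit 2) (nat_lit 5) (nat_lit 2) (nat_lit 4) (nat_lit 354) (nat_lit 251) (nat_lit 175)) (XT.nd (nat_lit 78) (nat_lit 0) (nat_lit 0) (XT.lf (nat_lit 0) (nat_lit 122759267049007) (nat_lit 76) (nat_lit 216479465038763) (nat_lit 76) (nat_lit 216477549333877) (nat_lit 1) (nat_lit 4) (nat_lit 2) (nat_lit 5) (nat_lit 2) (nat_lit 4) (nat_lit 355) (nat_lit 251) (nat_lit 174)) (XT.lf (nat_lit 0) (nat_lit 141180336134477) (nat_lit 76) (nat_lit 248947390592514) (nat_lit 76) (nat_lit 248945474882332) (nat_lit 1) (nat_lit 4) (nat_lit 2) (nat_lit 5) (nat_lit 2) (nat_lit 4) (nat_lit 356) (nat_lit 251) (nat_lit 173))))) (XT.nd (nat_lit 34320) (nat_lit 0) (nat_lit 532) (XT.nd (nat_lit 78) (nat_lit 0) (nat_lit 0) (XT.lf (nat_lit 0) (nat_lit 162364565545661) (nat_lit 76) (nat_lit 286285504998488) (nat_lit 76) (nat_lit 286283589283700) (nat_lit 1) (nat_lit 4) (nat_lit 2) (nat_lit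 5) (nat_lit 2) (nat_lit 4) (nat_lit 357) (nat_lit 251) (nat_lit 172)) (XT.lf (nat_lit 0) (nat_lit 186726429336257) (nat_lit 76) (nat_lit 329224336582018) (nat_lit 76) (nat_lit 329222420863225) (nat_lit 1) (nat_lit 4) (nat_lit 2) (nat_lit 5) (nat_lit 2) (nat_lit 4) (nat_lit 358) (nat_lit 251) (nat_lit 171))) (XT.nd (nat_lit 78) (nat_lit 152) (nat_lit 0) (XT.lf (nat_lit 0) (nat_lit 2101105888) (nat_lit 76) (nat_lit 2438269570) (nat_lit 76) (nat_lit 2438269570) (nat_lit 10) (nat_lit 4) (nat_lit 11) (nat_lit 5) (nat_lit 11) (nat_lit 4) (nat_lit 276) (nat_lit 252) (nat_lit 252)) (XT.nd (nat_lit 78) (nat_lit 152) (nat_lit 0) (XT.lf (nat_lit 0) (nat_lit 14694608269) (nat_lit 76) (nat_lit 498377229) (nat_lit 76) (nat_lit 61335815) (nat_lit 10) (nat_lit 4) (nat_lit 11) (nat_lit 5) (nat_lit 11) (nat_lit 4) (nat_lit 277) (nat_lit 252) (nat_lit 251)) (XT.lf (nat_lit 0) (nat_lit 5125626180) (nat_lit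 152) (nat_lit 7153337318) (nat_lit 0) (nat_lit 4415124070) (nat_lit 8) (nat_lit 5) (nat_lit 10) (nat_lit 4) (nat_lit 8) (nat_lit 4) (nat_lit 278) (nat_lit 252) (nat_lit 250)))))) (XT.nd (nat_lit 390) (nat_lit 228) (nat_lit 0) (XT.nd (nat_lit 156) (nat_lit 152) (nat_lit 0) (XT.nd (nat_lit 78) (nat_lit 0) (nat_lit 0) (XT.lf (nat_lit 0) (nat_lit 2142265196) (nat_lit 76) (nat_lit 8626362175) (nat_lit 76) (nat_lit 7628498241) (nat_lit 7) (nat_lit 4) (nat_lit 8) (nat_lit 5) (nat_lit 8) (nat_lit 4) (nat_lit 279) (nat_lit 252) (nat_lit 249)) (XT.lf (nat_lit 0) (nat_lit 12782624626) (nat_lit 76) (nat_lit 4415066238) (nat_lit 76) (nat_lit 3167322457) (nat_lit 7) (nat_lit 4) (nat_lit 8) (nat_lit 5) (nat_lit 8) (nat_lit 4) (nat_lit 280) (nat_lit 252) (nat_lit 248))) (XT.nd (nat_lit 78) (nat_lit 0) (nat_lit 0) (XT.lf (nat_lit 0) (nat_lit 1470780391) (nat_lit 152) (nat_lit 20996147247) (nat_lit 0)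 (nat_lit 196840735) (nat_lit 5) (nat_lit 5) (nat_lit 7) (nat_lit 4) (nat_lit 5) (nat_lit 4) (nat_lit 281) (nat_lit 252) (nat_lit 247)) (XT.nd (nat_lit 78) (nat_lit 0) (nat_lit 0) (XT.lf (nat_lit 0) (nat_lit 6715304485) (nat_lit 152) (nat_lit 13257317578) (nat_lit 0) (nat_lit 5277064773) (nat_lit 5) (nat_lit 5) (nat_lit 7) (nat_lit 4) (nat_lit 5) (nat_lit 4) (nat_lit 282) (nat_lit 252) (nat_lit 246)) (XT.lf (nat_lit 0) (nat_lit 12406952417) (nat_lit 152) (nat_lit 5041822754) (nat_lit 0) (nat_lit 10825843092) (nat_lit 5) (nat_lit 5) (nat_lit 7) (nat_lit 4) (nat_lit 5) (nat_lit 4) (nat_lit 283) (nat_lit 252) (nat_lit 245))))) (XT.nd (nat_lit 156) (nat_lit 152) (nat_lit 0) (XT.nd (nat_lit 78) (nat_lit 0) (nat_lit 0) (XT.lf (nat_lit 0) (nat_lit 4183521146) (nat_lit 76) (nat_lit 14646792060) (nat_lit 76) (nat_lit 12941448288) (nat_lit 4) (nat_lit 4) (nat_lit 5) (nat_lit 5) (nat_lit 5) (nat_lit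 4) (nat_lit 284) (nat_lit 252) (nat_lit 244)) (XT.lf (nat_lit 0) (nat_lit 14791419501) (nat_lit 76) (nat_lit 11409041578) (nat_lit 76) (nat_lit 9595667853) (nat_lit 4) (nat_lit 4) (nat_lit 5) (nat_lit 5) (nat_lit 5) (nat_lit 4) (nat_lit 285) (nat_lit 252) (nat_lit 243))) (XT.nd (nat_lit 78) (nat_lit 152) (nat_lit 0) (XT.lf (nat_lit 0) (nat_lit 26496694557) (nat_lit 76) (nat_lit 7935726260) (nat_lit 76) (nat_lit 6028413445) (nat_lit 4) (nat_lit 4) (nat_lit 5) (nat_lit 5) (nat_lit 5) (nat_lit 4) (nat_lit 286) (nat_lit 252) (nat_lit 242)) (XT.nd (nat_lit 78) (nat_lit 152) (nat_lit 0) (XT.lf (nat_lit 0) (nat_lit 39528362568) (nat_lit 76) (nat_lit 4158889937) (nat_lit 76) (nat_lit 2169890956) (nat_lit 4) (nat_lit 4) (nat_lit 5) (nat_lit 5) (nat_lit 5) (nat_lit 4) (nat_lit 287) (nat_lit 252) (nat_lit 241)) (XT.lf (nat_lit 0) (nat_lit 1969870120) (nat_lit 152) (nat_lit 49914841203) (nat_lit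 0) (nat_lit 178539313) (nat_lit 2) (nat_lit 5) (nat_lit 4) (nat_lit 4) (nat_lit 2) (nat_lit 4) (nat_lit 288) (nat_lit 252) (nat_lit 240))))))) (XT.nd (nat_lit 780) (nat_lit 76) (nat_lit 0) (XT.nd (nat_lit 390) (nat_lit 0) (nat_lit 0) (XT.nd (nat_lit 156) (nat_lit 0) (nat_lit 0) (XT.nd (nat_lit 78) (nat_lit 0) (nat_lit 0) (XT.lf (nat_lit 0) (nat_lit 6861689519) (nat_lit 152) (nat_lit 47253521141) (nat_lit 0) (nat_lit 5016648732) (nat_lit 2) (nat_lit 5) (nat_lit 4) (nat_lit 4) (nat_lit 2) (nat_lit 4) (nat_lit 289) (nat_lit 252) (nat_lit 239)) (XT.lf (nat_lit 0) (nat_lit 12320874165) (nat_lit 152) (nat_lit 44535780156) (nat_lit 0) (nat_lit 10429129048) (nat_lit 2) (nat_lit 5) (nat_lit 4) (nat_lit 4) (nat_lit 2) (nat_lit 4) (nat_lit 290) (nat_lit 252) (nat_lit 238))) (XT.nd (nat_lit 78) (nat_lit 0) (nat_lit 0) (XT.lf (nat_lit 0) (nat_lit 18454234192) (nat_lit 152) (nat_lit 41708445056) (nat_lit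 0) (nat_lit 16521876614) (nat_lit 2) (nat_lit 5) (nat_lit 4) (nat_lit 4) (nat_lit 2) (nat_lit 4) (nat_lit 291) (nat_lit 252) (nat_lit 237)) (XT.nd (nat_lit 78) (nat_lit 0) (nat_lit 0) (XT.lf (nat_lit 0) (nat_lit 25381770123) (nat_lit 152) (nat_lit 38716198415) (nat_lit 0) (nat_lit 23414097361) (nat_lit 2) (nat_lit 5) (nat_lit 4) (nat_lit 4) (nat_lit 2) (nat_lit 4) (nat_lit 292) (nat_lit 252) (nat_lit 236)) (XT.lf (nat_lit 0) (nat_lit 33239020704) (nat_lit 152) (nat_lit 35500496277) (nat_lit 0) (nat_lit 31240639087) (nat_lit 2) (nat_lit 5) (nat_lit 4) (nat_lit 4) (nat_lit 2) (nat_lit 4) (nat_lit 293) (nat_lit 252) (nat_lit 235))))) (XT.nd (nat_lit 156) (nat_lit 0) (nat_lit 0) (XT.nd (nat_lit 78) (nat_lit 0) (nat_lit 0) (XT.lf (nat_lit 0) (nat_lit 42179714750) (nat_lit 152) (nat_lit 31998422731) (nat_lit 0) (nat_lit 40154629782) (nat_lit 2) (nat_lit 5) (nat_lit 4) (nat_lit 4) (nat_lit 2)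 (nat_lit 4) (nat_lit 294) (nat_lit 252) (nat_lit 234)) (XT.lf (nat_lit 0) (nat_lit 52378778885) (nat_lit 152) (nat_lit 28141458947) (nat_lit 0) (nat_lit 50330473610) (nat_lit 2) (nat_lit 5) (nat_lit 4) (nat_lit 4) (nat_lit 2) (nat_lit 4) (nat_lit 295) (nat_lit 252) (nat_lit 233))) (XT.nd (nat_lit 78) (nat_lit 0) (nat_lit 0) (XT.lf (nat_lit 0) (nat_lit 64035760016) (nat_lit 152) (nat_lit 23854142589) (nat_lit 0) (nat_lit 61967263170) (nat_lit 2) (nat_lit 5) (nat_lit 4) (nat_lit 4) (nat_lit 2) (nat_lit 4) (nat_lit 296) (nat_lit 252) (nat_lit 232)) (XT.nd (nat_lit 78) (nat_lit 0) (nat_lit 0) (XT.lf (nat_lit 0) (nat_lit 77378729512) (nat_lit 152) (nat_lit 19052591381) (nat_lit 0) (nat_lit 75292674779) (nat_lit 2) (nat_lit 5) (nat_lit 4) (nat_lit 4) (nat_lit 2) (nat_lit 4) (nat_lit 297) (nat_lit 252) (nat_lit 231)) (XT.lf (nat_lit 0) (nat_lit 92668745472) (nat_lit 152) (nat_lit 13642861929)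 (nat_lit 0) (nat_lit 90567423011) (nat_lit 2) (nat_lit 5) (nat_lit 4) (nat_lit 4) (nat_lit 2) (nat_lit 4) (nat_lit 298) (nat_lit 252) (nat_lit 230)))))) (XT.nd (nat_lit 390) (nat_lit 0) (nat_lit 0) (XT.nd (nat_lit 156) (nat_lit 76) (nat_lit 0) (XT.nd (nat_lit 78) (nat_lit 0) (nat_lit 0) (XT.lf (nat_lit 0) (nat_lit 110204960383) (nat_lit 152) (nat_lit 7519111702) (nat_lit 0) (nat_lit 108090361636) (nat_lit 2) (nat_lit 5) (nat_lit 4) (nat_lit 4) (nat_lit 2) (nat_lit 4) (nat_lit 299) (nat_lit 252) (nat_lit 229)) (XT.lf (nat_lit 0) (nat_lit 130330474101) (nat_lit 152) (nat_lit 561528194) (nat_lit 0) (nat_lit 128204330758) (nat_lit 2) (nat_lit 5) (nat_lit 4) (nat_lit 4) (nat_lit 2) (nat_lit 4) (nat_lit 300) (nat_lit 252) (nat_lit 228))) (XT.nd (nat_lit 78) (nat_lit 0) (nat_lit 0) (XT.lf (nat_lit 0) (nat_lit 8085875806) (nat_lit 76) (nat_lit 145687989745) (nat_lit 76) (nat_lit 143551807623)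 (nat_lit 1) (nat_lit 4) (nat_lit 2) (nat_lit 5) (nat_lit 2) (nat_lit 4) (nat_lit 301) (nat_lit 252) (nat_lit 227)) (XT.nd (nat_lit 78) (nat_lit 0) (nat_lit 0) (XT.lf (nat_lit 0) (nat_lit 18023169889) (nat_lit 76) (nat_lit 162705933499) (nat_lit 76) (nat_lit 160561022003) (nat_lit 1) (nat_lit 4) (nat_lit 2) (nat_lit 5) (nat_lit 2) (nat_lit 4) (nat_lit 302) (nat_lit 252) (nat_lit 226)) (XT.lf (nat_lit 0) (nat_lit 29389902755) (nat_lit 76) (nat_lit 182308145937) (nat_lit 76) (nat_lit 180155643682) (nat_lit 1) (nat_lit 4) (nat_lit 2) (nat_lit 5) (nat_lit 2) (nat_lit 4) (nat_lit 303) (nat_lit 252) (nat_lit 225))))) (XT.nd (nat_lit 156) (nat_lit 0) (nat_lit 0) (XT.nd (nat_lit 78) (nat_lit 0) (nat_lit 0) (XT.lf (nat_lit 0) (nat_lit 42408467004) (nat_lit 76) (nat_lit 204878148606) (nat_lit 76) (nat_lit 202719045691) (nat_lit 1) (nat_lit 4) (nat_lit 2) (nat_lit 5) (nat_lit 2) (nat_lit 4) (nat_lit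 304) (nat_lit 252) (nat_lit 224)) (XT.lf (nat_lit 0) (nat_lit 57333573674) (nat_lit 76) (nat_lit 230857528516) (nat_lit 76) (nat_lit 228692685896) (nat_lit 1) (nat_lit 4) (nat_lit 2) (nat_lit 5) (nat_lit 2) (nat_lit 4) (nat_lit 305) (nat_lit 252) (nat_lit 223))) (XT.nd (nat_lit 78) (nat_lit 0) (nat_lit 0) (XT.lf (nat_lit 0) (nat_lit 74457235722) (nat_lit 76) (nat_lit 260754577882) (nat_lit 76) (nat_lit 258584744214) (nat_lit 1) (nat_lit 4) (nat_lit 2) (nat_lit 5) (nat_lit 2) (nat_lit 4) (nat_lit 306) (nat_lit 252) (nat_lit 222)) (XT.nd (nat_lit 78) (nat_lit 0) (nat_lit 0) (XT.lf (nat_lit 0) (nat_lit 94114481319) (nat_lit 76) (nat_lit 295154238973) (nat_lit 76) (nat_lit 292980065265) (nat_lit 1) (nat_lit 4) (nat_lit 2) (nat_lit 5) (nat_lit 2) (nat_lit 4) (nat_lit 307) (nat_lit 252) (nat_lit 221)) (XT.lf (nat_lit 0) (nat_lit 116689908748) (nat_lit 76) (nat_lit 334729548639) (nat_lit 76)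 (nat_lit 332551600981) (nat_lit 1) (nat_lit 4) (nat_lit 2) (nat_lit 5) (nat_lit 2) (nat_lit 4) (nat_lit 308) (nat_lit 252) (nat_lit 220))))))))
noncomputable def xc33 : XT := (XT.nd (nat_lit 1560) (nat_lit 0) (nat_lit 0) (XT.nd (nat_lit 780) (nat_lit 0) (nat_lit 0) (XT.nd (nat_lit 390) (nat_lit 0) (nat_lit 0) (XT.nd (nat_lit 156) (nat_lit 0) (nat_lit 0) (XT.nd (nat_lit 78) (nat_lit 0) (nat_lit 0) (XT.lf (nat_lit 0) (nat_lit 142625211155) (nat_lit 76) (nat_lit 380254806415) (nat_lit 76) (nat_lit 378073577062) (nat_lit 1) (nat_lit 4) (nat_lit 2) (nat_lit 5) (nat_lit 2) (nat_lit 4) (nat_lit 309) (nat_lit 252) (nat_lit 219)) (XT.lf (nat_lit 0) (nat_lit 172427818369) (nat_lit 76) (nat_lit 432620723866) (nat_lit 76) (nat_lit 430436640866) (nat_lit 1) (nat_lit 4) (nat_lit 2) (nat_lit 5) (nat_lit 2) (nat_lit 4) (nat_lit 310) (nat_lit 252) (nat_lit 218))) (XT.nd (nat_lit 78) (nat_lit 0) (nat_lit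 0) (XT.lf (nat_lit 0) (nat_lit 206680824880) (nat_lit 76) (nat_lit 492851851553) (nat_lit 76) (nat_lit 490665287120) (nat_lit 1) (nat_lit 4) (nat_lit 2) (nat_lit 5) (nat_lit 2) (nat_lit 4) (nat_lit 311) (nat_lit 252) (nat_lit 217)) (XT.nd (nat_lit 78) (nat_lit 0) (nat_lit 0) (XT.lf (nat_lit 0) (nat_lit 246054398205) (nat_lit 76) (nat_lit 562126624580) (nat_lit 76) (nat_lit 559937902380) (nat_lit 1) (nat_lit 4) (nat_lit 2) (nat_lit 5) (nat_lit 2) (nat_lit 4) (nat_lit 312) (nat_lit 252) (nat_lit 216)) (XT.lf (nat_lit 0) (nat_lit 291318890867) (nat_lit 76) (nat_lit 641800418943) (nat_lit 76) (nat_lit 639609820423) (nat_lit 1) (nat_lit 4) (nat_lit 2) (nat_lit 5) (nat_lit 2) (nat_lit 4) (nat_lit 313) (nat_lit 252) (nat_lit 215))))) (XT.nd (nat_lit 156) (nat_lit 0) (nat_lit 0) (XT.nd (nat_lit 78) (nat_lit 0) (nat_lit 0) (XT.lf (nat_lit 0) (nat_lit 343359912504) (nat_lit 76) (nat_lit 733432069749)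 (nat_lit 76) (nat_lit 731239839647) (nat_lit 1) (nat_lit 4) (nat_lit 2) (nat_lit 5) (nat_lit 2) (nat_lit 4) (nat_lit 314) (nat_lit 252) (nat_lit 214)) (XT.lf (nat_lit 0) (nat_lit 403195657019) (nat_lit 76) (nat_lit 838814370165) (nat_lit 76) (nat_lit 836620721296) (nat_lit 1) (nat_lit 4) (nat_lit 2) (nat_lit 5) (nat_lit 2) (nat_lit 4) (nat_lit 315) (nat_lit 252) (nat_lit 213))) (XT.nd (nat_lit 78) (nat_lit 0) (nat_lit 0) (XT.lf (nat_lit 0) (nat_lit 471996823760) (nat_lit 76) (nat_lit 960009147809) (nat_lit 76) (nat_lit 957814265229) (nat_lit 1) (nat_lit 4) (nat_lit 2) (nat_lit 5) (nat_lit 2) (nat_lit 4) (nat_lit 316) (nat_lit 252) (nat_lit 212)) (XT.nd (nat_lit 78) (nat_lit 0) (nat_lit 0) (XT.lf (nat_lit 0) (nat_lit 551109522512) (nat_lit 76) (nat_lit 1099387604851) (nat_lit 76) (nat_lit 1097191649479) (nat_lit 1) (nat_lit 4) (nat_lit 2) (nat_lit 5) (nat_lit 2) (nat_lit 4) (nat_lit 317)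 (nat_lit 252) (nat_lit 211)) (XT.lf (nat_lit 0) (nat_lit 642081610423) (nat_lit 76) (nat_lit 1259676711103) (nat_lit 76) (nat_lit 1257479822869) (nat_lit 1) (nat_lit 4) (nat_lit 2) (nat_lit 5) (nat_lit 2) (nat_lit 4) (nat_lit 318) (nat_lit 252) (nat_lit 210)))))) (XT.nd (nat_lit 390) (nat_lit 0) (nat_lit 0) (XT.nd (nat_lit 156) (nat_lit 0) (nat_lit 0) (XT.nd (nat_lit 78) (nat_lit 0) (nat_lit 0) (XT.lf (nat_lit 0) (nat_lit 746692976171) (nat_lit 76) (nat_lit 1444012557775) (nat_lit 76) (nat_lit 1441814858356) (nat_lit 1) (nat_lit 4) (nat_lit 2) (nat_lit 5) (nat_lit 2) (nat_lit 4) (nat_lit 319) (nat_lit 252) (nat_lit 209)) (XT.lf (nat_lit 0) (nat_lit 866990363868) (nat_lit 76) (nat_lit 1656001715780) (nat_lit 76) (nat_lit 1653803310983) (nat_lit 1) (nat_lit 4) (nat_lit 2) (nat_lit 5) (nat_lit 2) (nat_lit 4) (nat_lit 320) (nat_lit 252) (nat_lit 208))) (XT.nd (nat_lit 78) (nat_lit 0) (nat_lit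 0) (XT.lf (nat_lit 0) (nat_lit 1005327418055) (nat_lit 76) (nat_lit 1899791799079) (nat_lit 76) (nat_lit 1897592780909) (nat_lit 1) (nat_lit 4) (nat_lit 2) (nat_lit 5) (nat_lit 2) (nat_lit 4) (nat_lit 321) (nat_lit 252) (nat_lit 207)) (XT.nd (nat_lit 78) (nat_lit 0) (nat_lit 0) (XT.lf (nat_lit 0) (nat_lit 1164410733272) (nat_lit 76) (nat_lit 2180152613649) (nat_lit 76) (nat_lit 2177953062112) (nat_lit 1) (nat_lit 4) (nat_lit 2) (nat_lit 5) (nat_lit 2) (nat_lit 4) (nat_lit 322) (nat_lit 252) (nat_lit 206)) (XT.lf (nat_lit 0) (nat_lit 1347352809163) (nat_lit 76) (nat_lit 2502569479775) (nat_lit 76) (nat_lit 2500369464441) (nat_lit 1) (nat_lit 4) (nat_lit 2) (nat_lit 5) (nat_lit 2) (nat_lit 4) (nat_lit 323) (nat_lit 252) (nat_lit 205))))) (XT.nd (nat_lit 156) (nat_lit 0) (nat_lit 0) (XT.nd (nat_lit 78) (nat_lit 0) (nat_lit 0) (XT.lf (nat_lit 0) (nat_lit 1557732947215) (nat_lit 76) (nat_lit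 2873350553534) (nat_lit 76) (nat_lit 2871150134898) (nat_lit 1) (nat_lit 4) (nat_lit 2) (nat_lit 5) (nat_lit 2) (nat_lit 4) (nat_lit 324) (nat_lit 252) (nat_lit 204)) (XT.lf (nat_lit 0) (nat_lit 1799667280561) (nat_lit 76) (nat_lit 3299750247239) (nat_lit 76) (nat_lit 3297549477905) (nat_lit 1) (nat_lit 4) (nat_lit 2) (nat_lit 5) (nat_lit 2) (nat_lit 4) (nat_lit 325) (nat_lit 252) (nat_lit 203))) (XT.nd (nat_lit 78) (nat_lit 0) (nat_lit 0) (XT.lf (nat_lit 0) (nat_lit 2077889307029) (nat_lit 76) (nat_lit 3790111163592) (nat_lit 76) (nat_lit 3787910089303) (nat_lit 1) (nat_lit 4) (nat_lit 2) (nat_lit 5) (nat_lit 2) (nat_lit 4) (nat_lit 326) (nat_lit 252) (nat_lit 202)) (XT.nd (nat_lit 78) (nat_lit 0) (nat_lit 0) (XT.lf (nat_lit 0) (nat_lit 2397842501051) (nat_lit 76) (nat_lit 4354027320521) (nat_lit 76) (nat_lit 4351825981055) (nat_lit 1) (nat_lit 4) (nat_lit 2) (nat_lit 5) (nat_lit 2)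 (nat_lit 4) (nat_lit 327) (nat_lit 252) (nat_lit 201)) (XT.lf (nat_lit 0) (nat_lit 2765786816420) (nat_lit 76) (nat_lit 5002531860229) (nat_lit 76) (nat_lit 5000330290174) (nat_lit 1) (nat_lit 4) (nat_lit 2) (nat_lit 5) (nat_lit 2) (nat_lit 4) (nat_lit 328) (nat_lit 252) (nat_lit 200))))))) (XT.nd (nat_lit 780) (nat_lit 0) (nat_lit 0) (XT.nd (nat_lit 390) (nat_lit 0) (nat_lit 0) (XT.nd (nat_lit 156) (nat_lit 0) (nat_lit 0) (XT.nd (nat_lit 78) (nat_lit 0) (nat_lit 0) (XT.lf (nat_lit 0) (nat_lit 3188921163657) (nat_lit 76) (nat_lit 5748312915013) (nat_lit 76) (nat_lit 5746111144445) (nat_lit 1) (nat_lit 4) (nat_lit 2) (nat_lit 5) (nat_lit 2) (nat_lit 4) (nat_lit 329) (nat_lit 252) (nat_lit 199)) (XT.lf (nat_lit 0) (nat_lit 3675524258250) (nat_lit 76) (nat_lit 6605961853337) (nat_lit 76) (nat_lit 6603759908410) (nat_lit 1) (nat_lit 4) (nat_lit 2) (nat_lit 5) (nat_lit 2) (nat_lit 4) (nat_lit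 330) (nat_lit 252) (nat_lit 198))) (XT.nd (nat_lit 78) (nat_lit 0) (nat_lit 0) (XT.lf (nat_lit 0) (nat_lit 4235116595528) (nat_lit 76) (nat_lit 7592258763124) (nat_lit 76) (nat_lit 7590056666581) (nat_lit 1) (nat_lit 4) (nat_lit 2) (nat_lit 5) (nat_lit 2) (nat_lit 4) (nat_lit 331) (nat_lit 252) (nat_lit 197)) (XT.nd (nat_lit 78) (nat_lit 0) (nat_lit 0) (XT.lf (nat_lit 0) (nat_lit 4878646721220) (nat_lit 76) (nat_lit 8726500757826) (nat_lit 76) (nat_lit 8724298529443) (nat_lit 1) (nat_lit 4) (nat_lit 2) (nat_lit 5) (nat_lit 2) (nat_lit 4) (nat_lit 332) (nat_lit 252) (nat_lit 196)) (XT.lf (nat_lit 0) (nat_lit 5618705442134) (nat_lit 76) (nat_lit 10030879528645) (nat_lit 76) (nat_lit 10028677185619) (nat_lit 1) (nat_lit 4) (nat_lit 2) (nat_lit 5) (nat_lit 2) (nat_lit 4) (nat_lit 333) (nat_lit 252) (nat_lit 195))))) (XT.nd (nat_lit 156) (nat_lit 0) (nat_lit 0) (XT.nd (nat_lit 78) (nat_lit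 0) (nat_lit 0) (XT.lf (nat_lit 0) (nat_lit 6469772168027) (nat_lit 76) (nat_lit 11530915529792) (nat_lit 76) (nat_lit 11528713087076) (nat_lit 1) (nat_lit 4) (nat_lit 2) (nat_lit 5) (nat_lit 2) (nat_lit 4) (nat_lit 334) (nat_lit 252) (nat_lit 194)) (XT.lf (nat_lit 0) (nat_lit 7448498204405) (nat_lit 76) (nat_lit 13255957291725) (nat_lit 76) (nat_lit 13253754762321) (nat_lit 1) (nat_lit 4) (nat_lit 2) (nat_lit 5) (nat_lit 2) (nat_lit 4) (nat_lit 335) (nat_lit 252) (nat_lit 193))) (XT.nd (nat_lit 78) (nat_lit 0) (nat_lit 0) (XT.lf (nat_lit 0) (nat_lit 8574032538937) (nat_lit 76) (nat_lit 15239755631524) (nat_lit 76) (nat_lit 15237553026740) (nat_lit 1) (nat_lit 4) (nat_lit 2) (nat_lit 5) (nat_lit 2) (nat_lit 4) (nat_lit 336) (nat_lit 252) (nat_lit 192)) (XT.nd (nat_lit 78) (nat_lit 0) (nat_lit 0) (XT.lf (nat_lit 0) (nat_lit 9868396495559) (nat_lit 76) (nat_lit 17521123994968) (nat_lit 76)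 (nat_lit 17518921324636) (nat_lit 1) (nat_lit 4) (nat_lit 2) (nat_lit 5) (nat_lit 2) (nat_lit 4) (nat_lit 337) (nat_lit 252) (nat_lit 191)) (XT.lf (nat_lit 0) (nat_lit 11356914586465) (nat_lit 76) (nat_lit 20144697850038) (nat_lit 76) (nat_lit 20142495122708) (nat_lit 1) (nat_lit 4) (nat_lit 2) (nat_lit 5) (nat_lit 2) (nat_lit 4) (nat_lit 338) (nat_lit 252) (nat_lit 190)))))) (XT.nd (nat_lit 1014) (nat_lit 0) (nat_lit 0) (XT.nd (nat_lit 156) (nat_lit 0) (nat_lit 0) (XT.nd (nat_lit 78) (nat_lit 0) (nat_lit 0) (XT.lf (nat_lit 0) (nat_lit 13068709991695) (nat_lit 76) (nat_lit 23161807989550) (nat_lit 76) (nat_lit 23159605212656) (nat_lit 1) (nat_lit 4) (nat_lit 2) (nat_lit 5) (nat_lit 2) (nat_lit 4) (nat_lit 339) (nat_lit 252) (nat_lit 189)) (XT.lf (nat_lit 0) (nat_lit 15037274360483) (nat_lit 76) (nat_lit 26631484829277) (nat_lit 76) (nat_lit 26629282009285) (nat_lit 1) (nat_lit 4) (nat_lit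 2) (nat_lit 5) (nat_lit 2) (nat_lit 4) (nat_lit 340) (nat_lit 252) (nat_lit 188))) (XT.nd (nat_lit 78) (nat_lit 0) (nat_lit 0) (XT.lf (nat_lit 0) (nat_lit 17301123082651) (nat_lit 76) (nat_lit 30621613350866) (nat_lit 76) (nat_lit 30619410493397) (nat_lit 1) (nat_lit 4) (nat_lit 2) (nat_lit 5) (nat_lit 2) (nat_lit 4) (nat_lit 341) (nat_lit 252) (nat_lit 187)) (XT.nd (nat_lit 78) (nat_lit 0) (nat_lit 0) (XT.lf (nat_lit 0) (nat_lit 19904548850591) (nat_lit 76) (nat_lit 35210261286262) (nat_lit 76) (nat_lit 35208058396204) (nat_lit 1) (nat_lit 4) (nat_lit 2) (nat_lit 5) (nat_lit 2) (nat_lit 4) (nat_lit 342) (nat_lit 252) (nat_lit 186)) (XT.lf (nat_lit 0) (nat_lit 22898488255415) (nat_lit 76) (nat_lit 40487206529852) (nat_lit 76) (nat_lit 40485003611456) (nat_lit 1) (nat_lit 4) (nat_lit 2) (nat_lit 5) (nat_lit 2) (nat_lit 4) (nat_lit 343) (nat_lit 252) (nat_lit 185))))) (XT.nd (nat_lit 156)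 (nat_lit 0) (nat_lit 0) (XT.nd (nat_lit 78) (nat_lit 0) (nat_lit 0) (XT.lf (nat_lit 0) (nat_lit 80692640660175) (nat_lit 76) (nat_lit 142351875981757) (nat_lit 76) (nat_lit 142349672928142) (nat_lit 1) (nat_lit 4) (nat_lit 2) (nat_lit 5) (nat_lit 2) (nat_lit 4) (nat_lit 352) (nat_lit 252) (nat_lit 176)) (XT.lf (nat_lit 0) (nat_lit 92804792690612) (nat_lit 76) (nat_lit 163700064021309) (nat_lit 76) (nat_lit 163697860960690) (nat_lit 1) (nat_lit 4) (nat_lit 2) (nat_lit 5) (nat_lit 2) (nat_lit 4) (nat_lit 353) (nat_lit 252) (nat_lit 175))) (XT.nd (nat_lit 78) (nat_lit 0) (nat_lit 0) (XT.lf (nat_lit 0) (nat_lit 106733767476541) (nat_lit 76) (nat_lit 188250480292133) (nat_lit 76) (nat_lit 188248277225423) (nat_lit 1) (nat_lit 4) (nat_lit 2) (nat_lit 5) (nat_lit 2) (nat_lit 4) (nat_lit 354) (nat_lit 252) (nat_lit 174)) (XT.nd (nat_lit 78) (nat_lit 0) (nat_lit 0) (XT.lf (nat_lit 0) (nat_lit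 122752088437687) (nat_lit 76) (nat_lit 216483459025614) (nat_lit 76) (nat_lit 216481255953608) (nat_lit 1) (nat_lit 4) (nat_lit 2) (nat_lit 5) (nat_lit 2) (nat_lit 4) (nat_lit 355) (nat_lit 252) (nat_lit 173)) (XT.lf (nat_lit 0) (nat_lit 141173157505899) (nat_lit 76) (nat_lit 248951384588277) (nat_lit 76) (nat_lit 248949181511665) (nat_lit 1) (nat_lit 4) (nat_lit 2) (nat_lit 5) (nat_lit 2) (nat_lit 4) (nat_lit 356) (nat_lit 252) (nat_lit 172))))))))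
noncomputable def xc34 : XT := (XT.nd (nat_lit 35646) (nat_lit 0) (nat_lit 0) (XT.nd (nat_lit 34866) (nat_lit 0) (nat_lit 76) (XT.nd (nat_lit 34476) (nat_lit 0) (nat_lit 304) (XT.nd (nat_lit 34242) (nat_lit 0) (nat_lit 684) (XT.nd (nat_lit 34164) (nat_lit 0) (nat_lit 912) (XT.lf (nat_lit 0) (nat_lit 162357386902076) (nat_lit 76) (nat_lit 286289499002000) (nat_lit 76) (nat_lit 286287295921383) (nat_lit 1) (nat_lit 4) (nat_lit 2) (nat_lit 5) (nat_lit 2) (nat_lit 4) (nat_lit 357) (nat_lit 252) (nat_lit 171)) (XT.lf (nat_lit 0) (nat_lit 5166772743) (nat_lit 76) (nat_lit 389751920) (nat_lit 76) (nat_lit 389751920) (nat_lit 13) (nat_lit 4) (nat_lit 14) (nat_lit 5) (nat_lit 14) (nat_lit 4) (nat_lit 274) (nat_lit 253) (nat_lit 253))) (XT.nd (nat_lit 78) (nat_lit 76) (nat_lit 0) (XT.lf (nat_lit 0) (nat_lit 4056546570) (nat_lit 152) (nat_lit 5246924260) (nat_lit 0) (nat_lit 3553948944) (nat_lit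 11) (nat_lit 5) (nat_lit 13) (nat_lit 4) (nat_lit 11) (nat_lit 4) (nat_lit 275) (nat_lit 253) (nat_lit 252)) (XT.nd (nat_lit 78) (nat_lit 0) (nat_lit 0) (XT.lf (nat_lit 0) (nat_lit 3753936107) (nat_lit 76) (nat_lit 5588547911) (nat_lit 76) (nat_lit 4648908871) (nat_lit 10) (nat_lit 4) (nat_lit 11) (nat_lit 5) (nat_lit 11) (nat_lit 4) (nat_lit 276) (nat_lit 253) (nat_lit 251)) (XT.lf (nat_lit 0) (nat_lit 13856527670) (nat_lit 76) (nat_lit 1392482645) (nat_lit 76) (nat_lit 72807593) (nat_lit 10) (nat_lit 4) (nat_lit 11) (nat_lit 5) (nat_lit 11) (nat_lit 4) (nat_lit 277) (nat_lit 253) (nat_lit 250))))) (XT.nd (nat_lit 156) (nat_lit 152) (nat_lit 0) (XT.nd (nat_lit 78) (nat_lit 76) (nat_lit 0) (XT.lf (nat_lit 0) (nat_lit 4821627503) (nat_lit 152) (nat_lit 8597517588) (nat_lit 0) (nat_lit 3386722155) (nat_lit 8) (nat_lit 5) (nat_lit 10) (nat_lit 4) (nat_lit 8) (nat_lit 4) (nat_lit 278) (nat_lit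 253) (nat_lit 249)) (XT.lf (nat_lit 0) (nat_lit 159962600) (nat_lit 76) (nat_lit 10037015802) (nat_lit 76) (nat_lit 8352230607) (nat_lit 7) (nat_lit 4) (nat_lit 8) (nat_lit 5) (nat_lit 8) (nat_lit 4) (nat_lit 279) (nat_lit 253) (nat_lit 248))) (XT.nd (nat_lit 78) (nat_lit 152) (nat_lit 0) (XT.lf (nat_lit 0) (nat_lit 10455116355) (nat_lit 76) (nat_lit 5995268380) (nat_lit 76) (nat_lit 4093196362) (nat_lit 7) (nat_lit 4) (nat_lit 8) (nat_lit 5) (nat_lit 8) (nat_lit 4) (nat_lit 280) (nat_lit 253) (nat_lit 247)) (XT.nd (nat_lit 78) (nat_lit 76) (nat_lit 0) (XT.lf (nat_lit 0) (nat_lit 388781659) (nat_lit 152) (nat_lit 1255136515) (nat_lit 76) (nat_lit 21240054312) (nat_lit 6) (nat_lit 5) (nat_lit 8) (nat_lit 5) (nat_lit 7) (nat_lit 4) (nat_lit 281) (nat_lit 253) (nat_lit 246)) (XT.lf (nat_lit 0) (nat_lit 5347533747) (nat_lit 152) (nat_lit 16778923884) (nat_lit 0) (nat_lit 3386388410) (nat_lit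 5) (nat_lit 5) (nat_lit 7) (nat_lit 4) (nat_lit 5) (nat_lit 4) (nat_lit 282) (nat_lit 253) (nat_lit 245)))))) (XT.nd (nat_lit 390) (nat_lit 152) (nat_lit 0) (XT.nd (nat_lit 156) (nat_lit 76) (nat_lit 0) (XT.nd (nat_lit 78) (nat_lit 0) (nat_lit 0) (XT.lf (nat_lit 0) (nat_lit 10901849111) (nat_lit 152) (nat_lit 8840136562) (nat_lit 0) (nat_lit 8816469327) (nat_lit 5) (nat_lit 5) (nat_lit 7) (nat_lit 4) (nat_lit 5) (nat_lit 4) (nat_lit 283) (nat_lit 253) (nat_lit 244)) (XT.lf (nat_lit 0) (nat_lit 17032559587) (nat_lit 152) (nat_lit 227853861) (nat_lit 0) (nat_lit 14839149850) (nat_lit 5) (nat_lit 5) (nat_lit 7) (nat_lit 4) (nat_lit 5) (nat_lit 4) (nat_lit 284) (nat_lit 253) (nat_lit 243))) (XT.nd (nat_lit 78) (nat_lit 0) (nat_lit 0) (XT.lf (nat_lit 0) (nat_lit 10128098793) (nat_lit 76) (nat_lit 14150898038) (nat_lit 76) (nat_lit 11863549211) (nat_lit 4) (nat_lit 4) (nat_lit 5) (nat_lit 5)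 (nat_lit 5) (nat_lit 4) (nat_lit 285) (nat_lit 253) (nat_lit 242)) (XT.nd (nat_lit 78) (nat_lit 0) (nat_lit 0) (XT.lf (nat_lit 0) (nat_lit 21633653708) (nat_lit 76) (nat_lit 10778734484) (nat_lit 76) (nat_lit 8409699491) (nat_lit 4) (nat_lit 4) (nat_lit 5) (nat_lit 5) (nat_lit 5) (nat_lit 4) (nat_lit 286) (nat_lit 253) (nat_lit 241)) (XT.lf (nat_lit 0) (nat_lit 34491652030) (nat_lit 76) (nat_lit 7089856216) (nat_lit 76) (nat_lit 4649789775) (nat_lit 4) (nat_lit 4) (nat_lit 5) (nat_lit 5) (nat_lit 5) (nat_lit 4) (nat_lit 287) (nat_lit 253) (nat_lit 240))))) (XT.nd (nat_lit 156) (nat_lit 0) (nat_lit 0) (XT.nd (nat_lit 78) (nat_lit 152) (nat_lit 0) (XT.lf (nat_lit 0) (nat_lit 48953663291) (nat_lit 76) (nat_lit 3012089528) (nat_lit 76) (nat_lit 510256611) (nat_lit 4) (nat_lit 4) (nat_lit 5) (nat_lit 5) (nat_lit 5) (nat_lit 4) (nat_lit 288) (nat_lit 253) (nat_lit 239)) (XT.lf (nat_lit 0) (nat_lit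 4057135473) (nat_lit 152) (nat_lit 53711235022) (nat_lit 0) (nat_lit 1834924259) (nat_lit 2) (nat_lit 5) (nat_lit 4) (nat_lit 4) (nat_lit 2) (nat_lit 4) (nat_lit 289) (nat_lit 253) (nat_lit 238))) (XT.nd (nat_lit 78) (nat_lit 0) (nat_lit 0) (XT.lf (nat_lit 0) (nat_lit 9449016716) (nat_lit 152) (nat_lit 51132129867) (nat_lit 0) (nat_lit 7186193041) (nat_lit 2) (nat_lit 5) (nat_lit 4) (nat_lit 4) (nat_lit 2) (nat_lit 4) (nat_lit 290) (nat_lit 253) (nat_lit 237)) (XT.nd (nat_lit 78) (nat_lit 0) (nat_lit 0) (XT.lf (nat_lit 0) (nat_lit 15523852046) (nat_lit 152) (nat_lit 48425347662) (nat_lit 0) (nat_lit 13225713187) (nat_lit 2) (nat_lit 5) (nat_lit 4) (nat_lit 4) (nat_lit 2) (nat_lit 4) (nat_lit 291) (nat_lit 253) (nat_lit 236)) (XT.lf (nat_lit 0) (nat_lit 22400496935) (nat_lit 152) (nat_lit 45537929625) (nat_lit 0) (nat_lit 20071649221) (nat_lit 2) (nat_lit 5) (nat_lit 4) (nat_lit 4) (nat_lit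 2) (nat_lit 4) (nat_lit 292) (nat_lit 253) (nat_lit 235))))))) (XT.nd (nat_lit 780) (nat_lit 0) (nat_lit 0) (XT.nd (nat_lit 390) (nat_lit 76) (nat_lit 0) (XT.nd (nat_lit 156) (nat_lit 0) (nat_lit 0) (XT.nd (nat_lit 78) (nat_lit 0) (nat_lit 0) (XT.lf (nat_lit 0) (nat_lit 30213494436) (nat_lit 152) (nat_lit 42413382796) (nat_lit 0) (nat_lit 27857943369) (nat_lit 2) (nat_lit 5) (nat_lit 4) (nat_lit 4) (nat_lit 2) (nat_lit 4) (nat_lit 293) (nat_lit 253) (nat_lit 234)) (XT.lf (nat_lit 0) (nat_lit 39115707544) (nat_lit 152) (nat_lit 38990574735) (nat_lit 0) (nat_lit 36736936171) (nat_lit 2) (nat_lit 5) (nat_lit 4) (nat_lit 4) (nat_lit 2) (nat_lit 4) (nat_lit 294) (nat_lit 253) (nat_lit 233))) (XT.nd (nat_lit 78) (nat_lit 0) (nat_lit 0) (XT.lf (nat_lit 0) (nat_lit 49281309993) (nat_lit 152) (nat_lit 35202537459) (nat_lit 0) (nat_lit 46882347049) (nat_lit 2) (nat_lit 5) (nat_lit 4) (nat_lit 4)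 (nat_lit 2) (nat_lit 4) (nat_lit 295) (nat_lit 253) (nat_lit 232)) (XT.nd (nat_lit 78) (nat_lit 0) (nat_lit 0) (XT.lf (nat_lit 0) (nat_lit 60909194005) (nat_lit 152) (nat_lit 30975157196) (nat_lit 0) (nat_lit 58492673174) (nat_lit 2) (nat_lit 5) (nat_lit 4) (nat_lit 4) (nat_lit 2) (nat_lit 4) (nat_lit 296) (nat_lit 253) (nat_lit 231)) (XT.lf (nat_lit 0) (nat_lit 74226861659) (nat_lit 152) (nat_lit 26225724331) (nat_lit 0) (nat_lit 71795073100) (nat_lit 2) (nat_lit 5) (nat_lit 4) (nat_lit 4) (nat_lit 2) (nat_lit 4) (nat_lit 297) (nat_lit 253) (nat_lit 230))))) (XT.nd (nat_lit 156) (nat_lit 76) (nat_lit 0) (XT.nd (nat_lit 78) (nat_lit 0) (nat_lit 0) (XT.lf (nat_lit 0) (nat_lit 89494876018) (nat_lit 152) (nat_lit 20861315178) (nat_lit 0) (nat_lit 87049811173) (nat_lit 2) (nat_lit 5) (nat_lit 4) (nat_lit 4) (nat_lit 2) (nat_lit 4) (nat_lit 298) (nat_lit 253) (nat_lit 229)) (XT.lf (nat_lit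 0) (nat_lit 107011959101) (nat_lit 152) (nat_lit 14776973906) (nat_lit 0) (nat_lit 104555349660) (nat_lit 2) (nat_lit 5) (nat_lit 4) (nat_lit 4) (nat_lit 2) (nat_lit 4) (nat_lit 299) (nat_lit 253) (nat_lit 228))) (XT.nd (nat_lit 78) (nat_lit 76) (nat_lit 0) (XT.lf (nat_lit 0) (nat_lit 127120836447) (nat_lit 152) (nat_lit 7853659055) (nat_lit 0) (nat_lit 124654188227) (nat_lit 2) (nat_lit 5) (nat_lit 4) (nat_lit 4) (nat_lit 2) (nat_lit 4) (nat_lit 300) (nat_lit 253) (nat_lit 227)) (XT.nd (nat_lit 78) (nat_lit 0) (nat_lit 0) (XT.lf (nat_lit 0) (nat_lit 48393893) (nat_lit 76) (nat_lit 150168552608) (nat_lit 76) (nat_lit 147693175014) (nat_lit 1) (nat_lit 4) (nat_lit 2) (nat_lit 5) (nat_lit 2) (nat_lit 4) (nat_lit 301) (nat_lit 253) (nat_lit 226)) (XT.lf (nat_lit 0) (nat_lit 9957243637) (nat_lit 76) (nat_lit 167201183395) (nat_lit 76) (nat_lit 164718215042) (nat_lit 1) (nat_lit 4) (nat_lit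 2) (nat_lit 5) (nat_lit 2) (nat_lit 4) (nat_lit 302) (nat_lit 253) (nat_lit 225)))))) (XT.nd (nat_lit 390) (nat_lit 0) (nat_lit 0) (XT.nd (nat_lit 156) (nat_lit 0) (nat_lit 0) (XT.nd (nat_lit 78) (nat_lit 0) (nat_lit 0) (XT.lf (nat_lit 0) (nat_lit 21299242295) (nat_lit 76) (nat_lit 186816167166) (nat_lit 76) (nat_lit 184326598152) (nat_lit 1) (nat_lit 4) (nat_lit 2) (nat_lit 5) (nat_lit 2) (nat_lit 4) (nat_lit 303) (nat_lit 253) (nat_lit 224)) (XT.lf (nat_lit 0) (nat_lit 34296298536) (nat_lit 76) (nat_lit 209397275342) (nat_lit 76) (nat_lit 206901966624) (nat_lit 1) (nat_lit 4) (nat_lit 2) (nat_lit 5) (nat_lit 2) (nat_lit 4) (nat_lit 304) (nat_lit 253) (nat_lit 223))) (XT.nd (nat_lit 78) (nat_lit 0) (nat_lit 0) (XT.lf (nat_lit 0) (nat_lit 49202702591) (nat_lit 76) (nat_lit 235386312214) (nat_lit 76) (nat_lit 232886012449) (nat_lit 1) (nat_lit 4) (nat_lit 2) (nat_lit 5) (nat_lit 2) (nat_lit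 4) (nat_lit 305) (nat_lit 253) (nat_lit 222)) (XT.nd (nat_lit 78) (nat_lit 0) (nat_lit 0) (XT.lf (nat_lit 0) (nat_lit 66310101496) (nat_lit 76) (nat_lit 265291758938) (nat_lit 76) (nat_lit 262787119132) (nat_lit 1) (nat_lit 4) (nat_lit 2) (nat_lit 5) (nat_lit 2) (nat_lit 4) (nat_lit 306) (nat_lit 253) (nat_lit 221)) (XT.lf (nat_lit 0) (nat_lit 85953205229) (nat_lit 76) (nat_lit 299698722081) (nat_lit 76) (nat_lit 297190308326) (nat_lit 1) (nat_lit 4) (nat_lit 2) (nat_lit 5) (nat_lit 2) (nat_lit 4) (nat_lit 307) (nat_lit 253) (nat_lit 220))))) (XT.nd (nat_lit 156) (nat_lit 0) (nat_lit 0) (XT.nd (nat_lit 78) (nat_lit 0) (nat_lit 0) (XT.lf (nat_lit 0) (nat_lit 108516335385) (nat_lit 76) (nat_lit 339280381356) (nat_lit 76) (nat_lit 336768685906) (nat_lit 1) (nat_lit 4) (nat_lit 2) (nat_lit 5) (nat_lit 2) (nat_lit 4) (nat_lit 308) (nat_lit 253) (nat_lit 219)) (XT.lf (nat_lit 0) (nat_lit 134440944511)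 (nat_lit 76) (nat_lit 384811160532) (nat_lit 76) (nat_lit 382296611434) (nat_lit 1) (nat_lit 4) (nat_lit 2) (nat_lit 5) (nat_lit 2) (nat_lit 4) (nat_lit 309) (nat_lit 253) (nat_lit 218))) (XT.nd (nat_lit 78) (nat_lit 0) (nat_lit 0) (XT.lf (nat_lit 0) (nat_lit 164234253220) (nat_lit 76) (nat_lit 437181879201) (nat_lit 76) (nat_lit 434664848670) (nat_lit 1) (nat_lit 4) (nat_lit 2) (nat_lit 5) (nat_lit 2) (nat_lit 4) (nat_lit 310) (nat_lit 253) (nat_lit 217)) (XT.nd (nat_lit 78) (nat_lit 0) (nat_lit 0) (XT.lf (nat_lit 0) (nat_lit 198479174074) (nat_lit 76) (nat_lit 497417181858) (nat_lit 76) (nat_lit 494897993560) (nat_lit 1) (nat_lit 4) (nat_lit 2) (nat_lit 5) (nat_lit 2) (nat_lit 4) (nat_lit 311) (nat_lit 253) (nat_lit 216)) (XT.lf (nat_lit 0) (nat_lit 237845716394) (nat_lit 76) (nat_lit 566695585296) (nat_lit 76) (nat_lit 564174520678) (nat_lit 1) (nat_lit 4) (nat_lit 2) (nat_lit 5) (nat_lit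 2) (nat_lit 4) (nat_lit 312) (nat_lit 253) (nat_lit 215))))))))
noncomputable def xc35 : XT := (XT.nd (nat_lit 1560) (nat_lit 0) (nat_lit 0) (XT.nd (nat_lit 780) (nat_lit 0) (nat_lit 0) (XT.nd (nat_lit 390) (nat_lit 0) (nat_lit 0) (XT.nd (nat_lit 156) (nat_lit 0) (nat_lit 0) (XT.nd (nat_lit 78) (nat_lit 0) (nat_lit 0) (XT.lf (nat_lit 0) (nat_lit 283104095138) (nat_lit 76) (nat_lit 646372536537) (nat_lit 76) (nat_lit 643849840337) (nat_lit 1) (nat_lit 4) (nat_lit 2) (nat_lit 5) (nat_lit 2) (nat_lit 4) (nat_lit 313) (nat_lit 253) (nat_lit 214)) (XT.lf (nat_lit 0) (nat_lit 335139800325) (nat_lit 76) (nat_lit 738006932454) (nat_lit 76) (nat_lit 735482817487) (nat_lit 1) (nat_lit 4) (nat_lit 2) (nat_lit 5) (nat_lit 2) (nat_lit 4) (nat_lit 314) (nat_lit 253) (nat_lit 213))) (XT.nd (nat_lit 78) (nat_lit 0) (nat_lit 0) (XT.lf (nat_lit 0) (nat_lit 394970921839) (nat_lit 76) (nat_lit 843391619924)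 (nat_lit 76) (nat_lit 840866271246) (nat_lit 1) (nat_lit 4) (nat_lit 2) (nat_lit 5) (nat_lit 2) (nat_lit 4) (nat_lit 315) (nat_lit 253) (nat_lit 212)) (XT.nd (nat_lit 78) (nat_lit 0) (nat_lit 0) (XT.lf (nat_lit 0) (nat_lit 463768068580) (nat_lit 76) (nat_lit 964588473266) (nat_lit 76) (nat_lit 962062051797) (nat_lit 1) (nat_lit 4) (nat_lit 2) (nat_lit 5) (nat_lit 2) (nat_lit 4) (nat_lit 316) (nat_lit 253) (nat_lit 211)) (XT.lf (nat_lit 0) (nat_lit 542877271679) (nat_lit 76) (nat_lit 1103968735264) (nat_lit 76) (nat_lit 1101441380932) (nat_lit 1) (nat_lit 4) (nat_lit 2) (nat_lit 5) (nat_lit 2) (nat_lit 4) (nat_lit 317) (nat_lit 253) (nat_lit 210))))) (XT.nd (nat_lit 156) (nat_lit 0) (nat_lit 0) (XT.nd (nat_lit 78) (nat_lit 0) (nat_lit 0) (XT.lf (nat_lit 0) (nat_lit 633846319892) (nat_lit 76) (nat_lit 1264259411043) (nat_lit 76) (nat_lit 1261731245526) (nat_lit 1) (nat_lit 4) (nat_lit 2)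 (nat_lit 5) (nat_lit 2) (nat_lit 4) (nat_lit 318) (nat_lit 253) (nat_lit 209)) (XT.lf (nat_lit 0) (nat_lit 738455042425) (nat_lit 76) (nat_lit 1448596622520) (nat_lit 76) (nat_lit 1446067751625) (nat_lit 1) (nat_lit 4) (nat_lit 2) (nat_lit 5) (nat_lit 2) (nat_lit 4) (nat_lit 319) (nat_lit 253) (nat_lit 208))) (XT.nd (nat_lit 78) (nat_lit 0) (nat_lit 0) (XT.lf (nat_lit 0) (nat_lit 858750131673) (nat_lit 76) (nat_lit 1660586967312) (nat_lit 76) (nat_lit 1658057483045) (nat_lit 1) (nat_lit 4) (nat_lit 2) (nat_lit 5) (nat_lit 2) (nat_lit 4) (nat_lit 320) (nat_lit 253) (nat_lit 207)) (XT.nd (nat_lit 78) (nat_lit 0) (nat_lit 0) (XT.lf (nat_lit 0) (nat_lit 997085187210) (nat_lit 76) (nat_lit 1904378082600) (nat_lit 76) (nat_lit 1901848064966) (nat_lit 1) (nat_lit 4) (nat_lit 2) (nat_lit 5) (nat_lit 2) (nat_lit 4) (nat_lit 321) (nat_lit 253) (nat_lit 206)) (XT.lf (nat_lit 0) (nat_lit 1156166764470)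 (nat_lit 76) (nat_lit 2184739794552) (nat_lit 76) (nat_lit 2182209313120) (nat_lit 1) (nat_lit 4) (nat_lit 2) (nat_lit 5) (nat_lit 2) (nat_lit 4) (nat_lit 322) (nat_lit 253) (nat_lit 205)))))) (XT.nd (nat_lit 390) (nat_lit 0) (nat_lit 0) (XT.nd (nat_lit 156) (nat_lit 0) (nat_lit 0) (XT.nd (nat_lit 78) (nat_lit 0) (nat_lit 0) (XT.lf (nat_lit 0) (nat_lit 1339107329094) (nat_lit 76) (nat_lit 2507157441010) (nat_lit 76) (nat_lit 2504626556276) (nat_lit 1) (nat_lit 4) (nat_lit 2) (nat_lit 5) (nat_lit 2) (nat_lit 4) (nat_lit 323) (nat_lit 253) (nat_lit 204)) (XT.lf (nat_lit 0) (nat_lit 1549486153000) (nat_lit 76) (nat_lit 2877939193319) (nat_lit 76) (nat_lit 2875407957887) (nat_lit 1) (nat_lit 4) (nat_lit 2) (nat_lit 5) (nat_lit 2) (nat_lit 4) (nat_lit 324) (nat_lit 253) (nat_lit 203))) (XT.nd (nat_lit 78) (nat_lit 0) (nat_lit 0) (XT.lf (nat_lit 0) (nat_lit 1791419343612) (nat_lit 76) (nat_lit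 3304339477066) (nat_lit 76) (nat_lit 3301807936681) (nat_lit 1) (nat_lit 4) (nat_lit 2) (nat_lit 5) (nat_lit 2) (nat_lit 4) (nat_lit 325) (nat_lit 253) (nat_lit 202)) (XT.nd (nat_lit 78) (nat_lit 0) (nat_lit 0) (XT.lf (nat_lit 0) (nat_lit 2069640376398) (nat_lit 76) (nat_lit 3794700906500) (nat_lit 76) (nat_lit 3792169100937) (nat_lit 1) (nat_lit 4) (nat_lit 2) (nat_lit 5) (nat_lit 2) (nat_lit 4) (nat_lit 326) (nat_lit 253) (nat_lit 201)) (XT.lf (nat_lit 0) (nat_lit 2389592706347) (nat_lit 76) (nat_lit 4358617509587) (nat_lit 76) (nat_lit 4356085473435) (nat_lit 1) (nat_lit 4) (nat_lit 2) (nat_lit 5) (nat_lit 2) (nat_lit 4) (nat_lit 327) (nat_lit 253) (nat_lit 200))))) (XT.nd (nat_lit 156) (nat_lit 0) (nat_lit 0) (XT.nd (nat_lit 78) (nat_lit 0) (nat_lit 0) (XT.lf (nat_lit 0) (nat_lit 2757536270350) (nat_lit 76) (nat_lit 5007122437258) (nat_lit 76) (nat_lit 5004590200593) (nat_lit 1) (nat_lit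 4) (nat_lit 2) (nat_lit 5) (nat_lit 2) (nat_lit 4) (nat_lit 328) (nat_lit 253) (nat_lit 199)) (XT.lf (nat_lit 0) (nat_lit 3180669964224) (nat_lit 76) (nat_lit 5752903829401) (nat_lit 76) (nat_lit 5750371418377) (nat_lit 1) (nat_lit 4) (nat_lit 2) (nat_lit 5) (nat_lit 2) (nat_lit 4) (nat_lit 329) (nat_lit 253) (nat_lit 198))) (XT.nd (nat_lit 78) (nat_lit 0) (nat_lit 0) (XT.lf (nat_lit 0) (nat_lit 3667272490675) (nat_lit 76) (nat_lit 6610553061081) (nat_lit 76) (nat_lit 6608020498440) (nat_lit 1) (nat_lit 4) (nat_lit 2) (nat_lit 5) (nat_lit 2) (nat_lit 4) (nat_lit 330) (nat_lit 253) (nat_lit 197)) (XT.nd (nat_lit 78) (nat_lit 0) (nat_lit 0) (XT.lf (nat_lit 0) (nat_lit 4226864333918) (nat_lit 76) (nat_lit 7596850225959) (nat_lit 76) (nat_lit 7594317531479) (nat_lit 1) (nat_lit 4) (nat_lit 2) (nat_lit 5) (nat_lit 2) (nat_lit 4) (nat_lit 331) (nat_lit 253) (nat_lit 196)) (XT.lf (nat_lit 0)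 (nat_lit 4870394030014) (nat_lit 76) (nat_lit 8731092442481) (nat_lit 76) (nat_lit 8728559633357) (nat_lit 1) (nat_lit 4) (nat_lit 2) (nat_lit 5) (nat_lit 2) (nat_lit 4) (nat_lit 332) (nat_lit 253) (nat_lit 195))))))) (XT.nd (nat_lit 780) (nat_lit 0) (nat_lit 0) (XT.nd (nat_lit 390) (nat_lit 0) (nat_lit 0) (XT.nd (nat_lit 156) (nat_lit 0) (nat_lit 0) (XT.nd (nat_lit 78) (nat_lit 0) (nat_lit 0) (XT.lf (nat_lit 0) (nat_lit 5610452377366) (nat_lit 76) (nat_lit 10035471406186) (nat_lit 76) (nat_lit 10032938497372) (nat_lit 1) (nat_lit 4) (nat_lit 2) (nat_lit 5) (nat_lit 2) (nat_lit 4) (nat_lit 333) (nat_lit 253) (nat_lit 194)) (XT.lf (nat_lit 0) (nat_lit 6461518778422) (nat_lit 76) (nat_lit 11535507575060) (nat_lit 76) (nat_lit 11532974579559) (nat_lit 1) (nat_lit 4) (nat_lit 2) (nat_lit 5) (nat_lit 2) (nat_lit 4) (nat_lit 334) (nat_lit 253) (nat_lit 193))) (XT.nd (nat_lit 78) (nat_lit 0)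 (nat_lit 0) (XT.lf (nat_lit 0) (nat_lit 7440244532334) (nat_lit 76) (nat_lit 13260549482842) (nat_lit 76) (nat_lit 13258016411961) (nat_lit 1) (nat_lit 4) (nat_lit 2) (nat_lit 5) (nat_lit 2) (nat_lit 4) (nat_lit 335) (nat_lit 253) (nat_lit 192)) (XT.nd (nat_lit 78) (nat_lit 0) (nat_lit 0) (XT.lf (nat_lit 0) (nat_lit 8565778621242) (nat_lit 76) (nat_lit 15244347949467) (nat_lit 76) (nat_lit 15241814813038) (nat_lit 1) (nat_lit 4) (nat_lit 2) (nat_lit 5) (nat_lit 2) (nat_lit 4) (nat_lit 336) (nat_lit 253) (nat_lit 191)) (XT.lf (nat_lit 0) (nat_lit 9860142364278) (nat_lit 76) (nat_lit 17525716423194) (nat_lit 76) (nat_lit 17523183229767) (nat_lit 1) (nat_lit 4) (nat_lit 2) (nat_lit 5) (nat_lit 2) (nat_lit 4) (nat_lit 337) (nat_lit 253) (nat_lit 190))))) (XT.nd (nat_lit 156) (nat_lit 0) (nat_lit 0) (XT.nd (nat_lit 78) (nat_lit 0) (nat_lit 0) (XT.lf (nat_lit 0) (nat_lit 11348660269458) (nat_lit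 76) (nat_lit 20149290374163) (nat_lit 76) (nat_lit 20146757131172) (nat_lit 1) (nat_lit 4) (nat_lit 2) (nat_lit 5) (nat_lit 2) (nat_lit 4) (nat_lit 338) (nat_lit 253) (nat_lit 189)) (XT.lf (nat_lit 0) (nat_lit 13060455513187) (nat_lit 76) (nat_lit 23166400597065) (nat_lit 76) (nat_lit 23163867310975) (nat_lit 1) (nat_lit 4) (nat_lit 2) (nat_lit 5) (nat_lit 2) (nat_lit 4) (nat_lit 339) (nat_lit 253) (nat_lit 188))) (XT.nd (nat_lit 78) (nat_lit 0) (nat_lit 0) (XT.lf (nat_lit 0) (nat_lit 15029019741539) (nat_lit 76) (nat_lit 26636077509305) (nat_lit 76) (nat_lit 26633544185738) (nat_lit 1) (nat_lit 4) (nat_lit 2) (nat_lit 5) (nat_lit 2) (nat_lit 4) (nat_lit 340) (nat_lit 253) (nat_lit 187)) (XT.nd (nat_lit 78) (nat_lit 0) (nat_lit 0) (XT.lf (nat_lit 0) (nat_lit 17292868341590) (nat_lit 76) (nat_lit 30626206093949) (nat_lit 76) (nat_lit 30623672737793) (nat_lit 1) (nat_lit 4) (nat_lit 2)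 (nat_lit 5) (nat_lit 2) (nat_lit 4) (nat_lit 341) (nat_lit 253) (nat_lit 186)) (XT.lf (nat_lit 0) (nat_lit 19896294003340) (nat_lit 76) (nat_lit 35214854084175) (nat_lit 76) (nat_lit 35212320699681) (nat_lit 1) (nat_lit 4) (nat_lit 2) (nat_lit 5) (nat_lit 2) (nat_lit 4) (nat_lit 342) (nat_lit 253) (nat_lit 185)))))) (XT.nd (nat_lit 936) (nat_lit 0) (nat_lit 0) (XT.nd (nat_lit 702) (nat_lit 0) (nat_lit 0) (XT.nd (nat_lit 624) (nat_lit 0) (nat_lit 0) (XT.lf (nat_lit 0) (nat_lit 22890233315824) (nat_lit 76) (nat_lit 40491799375444) (nat_lit 76) (nat_lit 40489265966308) (nat_lit 1) (nat_lit 4) (nat_lit 2) (nat_lit 5) (nat_lit 2) (nat_lit 4) (nat_lit 343) (nat_lit 253) (nat_lit 184)) (XT.lf (nat_lit 0) (nat_lit 70152079143734) (nat_lit 76) (nat_lit 123792827293112) (nat_lit 76) (nat_lit 123790293773400) (nat_lit 1) (nat_lit 4) (nat_lit 2) (nat_lit 5) (nat_lit 2) (nat_lit 4) (nat_lit 351) (nat_lit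 253) (nat_lit 176))) (XT.nd (nat_lit 78) (nat_lit 0) (nat_lit 0) (XT.lf (nat_lit 0) (nat_lit 80684385279982) (nat_lit 76) (nat_lit 142356469054851) (nat_lit 76) (nat_lit 142353935528134) (nat_lit 1) (nat_lit 4) (nat_lit 2) (nat_lit 5) (nat_lit 2) (nat_lit 4) (nat_lit 352) (nat_lit 253) (nat_lit 175)) (XT.nd (nat_lit 78) (nat_lit 0) (nat_lit 0) (XT.lf (nat_lit 0) (nat_lit 92796537287594) (nat_lit 76) (nat_lit 163704657106189) (nat_lit 76) (nat_lit 163702123573381) (nat_lit 1) (nat_lit 4) (nat_lit 2) (nat_lit 5) (nat_lit 2) (nat_lit 4) (nat_lit 353) (nat_lit 253) (nat_lit 174)) (XT.lf (nat_lit 0) (nat_lit 106725512053676) (nat_lit 76) (nat_lit 188255073387260) (nat_lit 76) (nat_lit 188252539849156) (nat_lit 1) (nat_lit 4) (nat_lit 2) (nat_lit 5) (nat_lit 2) (nat_lit 4) (nat_lit 354) (nat_lit 253) (nat_lit 173))))) (XT.nd (nat_lit 34242) (nat_lit 0) (nat_lit 760) (XT.nd (nat_lit 78) (nat_lit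 0) (nat_lit 0) (XT.lf (nat_lit 0) (nat_lit 122743832997563) (nat_lit 76) (nat_lit 216488052129654) (nat_lit 76) (nat_lit 216485518586943) (nat_lit 1) (nat_lit 4) (nat_lit 2) (nat_lit 5) (nat_lit 2) (nat_lit 4) (nat_lit 355) (nat_lit 253) (nat_lit 172)) (XT.nd (nat_lit 34086) (nat_lit 0) (nat_lit 988) (XT.lf (nat_lit 0) (nat_lit 141164902050767) (nat_lit 76) (nat_lit 248955977700065) (nat_lit 76) (nat_lit 248953444153351) (nat_lit 1) (nat_lit 4) (nat_lit 2) (nat_lit 5) (nat_lit 2) (nat_lit 4) (nat_lit 356) (nat_lit 253) (nat_lit 171)) (XT.lf (nat_lit 0) (nat_lit 872367074) (nat_lit 152) (nat_lit 3389047043) (nat_lit 0) (nat_lit 872367074) (nat_lit 14) (nat_lit 5) (nat_lit 16) (nat_lit 4) (nat_lit 14) (nat_lit 4) (nat_lit 272) (nat_lit 254) (nat_lit 254)))) (XT.nd (nat_lit 78) (nat_lit 152) (nat_lit 0) (XT.lf (nat_lit 0) (nat_lit 1029156722) (nat_lit 76) (nat_lit 5333032960) (nat_lit 76)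 (nat_lit 4668347599) (nat_lit 13) (nat_lit 4) (nat_lit 14) (nat_lit 5) (nat_lit 14) (nat_lit 4) (nat_lit 273) (nat_lit 254) (nat_lit 253)) (XT.nd (nat_lit 78) (nat_lit 152) (nat_lit 0) (XT.lf (nat_lit 0) (nat_lit 9954662867) (nat_lit 76) (nat_lit 1606690674) (nat_lit 76) (nat_lit 364018043) (nat_lit 13) (nat_lit 4) (nat_lit 14) (nat_lit 5) (nat_lit 14) (nat_lit 4) (nat_lit 274) (nat_lit 254) (nat_lit 252)) (XT.lf (nat_lit 0) (nat_lit 4160883710) (nat_lit 152) (nat_lit 6124913460) (nat_lit 0) (nat_lit 2643257400) (nat_lit 11) (nat_lit 5) (nat_lit 13) (nat_lit 4) (nat_lit 11) (nat_lit 4) (nat_lit 275) (nat_lit 254) (nat_lit 251))))))))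
noncomputable def xc36 : XT := (XT.nd (nat_lit 1560) (nat_lit 76) (nat_lit 0) (XT.nd (nat_lit 780) (nat_lit 152) (nat_lit 0) (XT.nd (nat_lit 390) (nat_lit 228) (nat_lit 0) (XT.nd (nat_lit 156) (nat_lit 228) (nat_lit 0) (XT.nd (nat_lit 78) (nat_lit 0) (nat_lit 0) (XT.lf (nat_lit 0) (nat_lit 2400338488) (nat_lit 76) (nat_lit 6798865786) (nat_lit 76) (nat_lit 4901203463) (nat_lit 10) (nat_lit 4) (nat_lit 11) (nat_lit 5) (nat_lit 11) (nat_lit 4) (nat_lit 276) (nat_lit 254) (nat_lit 250)) (XT.lf (nat_lit 0) (nat_lit 12163969242) (nat_lit 76) (nat_lit 2761145431) (nat_lit 76) (nat_lit 533017010) (nat_lit 10) (nat_lit 4) (nat_lit 11) (nat_lit 5) (nat_lit 11) (nat_lit 4) (nat_lit 277) (nat_lit 254) (nat_lit 249))) (XT.nd (nat_lit 78) (nat_lit 76) (nat_lit 0) (XT.lf (nat_lit 0) (nat_lit 4073059182) (nat_lit 152) (nat_lit 11035859587) (nat_lit 0) (nat_lit 1885676361) (nat_lit 8) (nat_lit 5) (nat_lit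 10) (nat_lit 4) (nat_lit 8) (nat_lit 4) (nat_lit 278) (nat_lit 254) (nat_lit 248)) (XT.nd (nat_lit 78) (nat_lit 76) (nat_lit 0) (XT.lf (nat_lit 0) (nat_lit 9280423442) (nat_lit 152) (nat_lit 2607093453) (nat_lit 0) (nat_lit 6875753797) (nat_lit 8) (nat_lit 5) (nat_lit 10) (nat_lit 4) (nat_lit 8) (nat_lit 4) (nat_lit 279) (nat_lit 254) (nat_lit 247)) (XT.lf (nat_lit 0) (nat_lit 7133097320) (nat_lit 76) (nat_lit 8129482850) (nat_lit 76) (nat_lit 5535868142) (nat_lit 7) (nat_lit 4) (nat_lit 8) (nat_lit 5) (nat_lit 8) (nat_lit 4) (nat_lit 280) (nat_lit 254) (nat_lit 246))))) (XT.nd (nat_lit 156) (nat_lit 76) (nat_lit 0) (XT.nd (nat_lit 78) (nat_lit 152) (nat_lit 0) (XT.lf (nat_lit 0) (nat_lit 18066114529) (nat_lit 76) (nat_lit 3926658357) (nat_lit 76) (nat_lit 1168743593) (nat_lit 7) (nat_lit 4) (nat_lit 8) (nat_lit 5) (nat_lit 8) (nat_lit 4) (nat_lit 281) (nat_lit 254) (nat_lit 245)) (XT.lf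 (nat_lit 0) (nat_lit 3479332377) (nat_lit 152) (nat_lit 21423692264) (nat_lit 0) (nat_lit 956911179) (nat_lit 5) (nat_lit 5) (nat_lit 7) (nat_lit 4) (nat_lit 5) (nat_lit 4) (nat_lit 282) (nat_lit 254) (nat_lit 244))) (XT.nd (nat_lit 78) (nat_lit 76) (nat_lit 0) (XT.lf (nat_lit 0) (nat_lit 8914228117) (nat_lit 152) (nat_lit 13725520161) (nat_lit 0) (nat_lit 6283776966) (nat_lit 5) (nat_lit 5) (nat_lit 7) (nat_lit 4) (nat_lit 5) (nat_lit 4) (nat_lit 283) (nat_lit 254) (nat_lit 243)) (XT.nd (nat_lit 78) (nat_lit 76) (nat_lit 0) (XT.lf (nat_lit 0) (nat_lit 14941095441) (nat_lit 152) (nat_lit 5322468084) (nat_lit 0) (nat_lit 12216705200) (nat_lit 5) (nat_lit 5) (nat_lit 7) (nat_lit 4) (nat_lit 5) (nat_lit 4) (nat_lit 284) (nat_lit 254) (nat_lit 242)) (XT.lf (nat_lit 0) (nat_lit 4335881674) (nat_lit 76) (nat_lit 17521509259) (nat_lit 76) (nat_lit 14715432852) (nat_lit 4) (nat_lit 4) (nat_lit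 5) (nat_lit 5) (nat_lit 5) (nat_lit 4) (nat_lit 285) (nat_lit 254) (nat_lit 241)))))) (XT.nd (nat_lit 390) (nat_lit 0) (nat_lit 0) (XT.nd (nat_lit 156) (nat_lit 152) (nat_lit 0) (XT.nd (nat_lit 78) (nat_lit 0) (nat_lit 0) (XT.lf (nat_lit 0) (nat_lit 15667766900) (nat_lit 76) (nat_lit 14237303760) (nat_lit 76) (nat_lit 11360195905) (nat_lit 4) (nat_lit 4) (nat_lit 5) (nat_lit 5) (nat_lit 5) (nat_lit 4) (nat_lit 286) (nat_lit 254) (nat_lit 240)) (XT.lf (nat_lit 0) (nat_lit 28374748102) (nat_lit 76) (nat_lit 10624910758) (nat_lit 76) (nat_lit 7686036426) (nat_lit 4) (nat_lit 4) (nat_lit 5) (nat_lit 5) (nat_lit 5) (nat_lit 4) (nat_lit 287) (nat_lit 254) (nat_lit 239))) (XT.nd (nat_lit 78) (nat_lit 152) (nat_lit 0) (XT.lf (nat_lit 0) (nat_lit 42705440128) (nat_lit 76) (nat_lit 6613652997) (nat_lit 76) (nat_lit 3621068686) (nat_lit 4) (nat_lit 4) (nat_lit 5) (nat_lit 5) (nat_lit 5) (nat_lit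 4) (nat_lit 288) (nat_lit 254) (nat_lit 238)) (XT.nd (nat_lit 78) (nat_lit 76) (nat_lit 0) (XT.lf (nat_lit 0) (nat_lit 832847388) (nat_lit 152) (nat_lit 1248666755) (nat_lit 76) (nat_lit 58063843491) (nat_lit 3) (nat_lit 5) (nat_lit 5) (nat_lit 5) (nat_lit 4) (nat_lit 4) (nat_lit 289) (nat_lit 254) (nat_lit 237)) (XT.lf (nat_lit 0) (nat_lit 6020552550) (nat_lit 152) (nat_lit 58977120759) (nat_lit 0) (nat_lit 3342377679) (nat_lit 2) (nat_lit 5) (nat_lit 4) (nat_lit 4) (nat_lit 2) (nat_lit 4) (nat_lit 290) (nat_lit 254) (nat_lit 236))))) (XT.nd (nat_lit 156) (nat_lit 0) (nat_lit 0) (XT.nd (nat_lit 78) (nat_lit 0) (nat_lit 0) (XT.lf (nat_lit 0) (nat_lit 12044496838) (nat_lit 152) (nat_lit 56375167158) (nat_lit 0) (nat_lit 9335613111) (nat_lit 2) (nat_lit 5) (nat_lit 4) (nat_lit 4) (nat_lit 2) (nat_lit 4) (nat_lit 291) (nat_lit 254) (nat_lit 235)) (XT.lf (nat_lit 0) (nat_lit 18876888647)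 (nat_lit 152) (nat_lit 53578904430) (nat_lit 0) (nat_lit 16141301568) (nat_lit 2) (nat_lit 5) (nat_lit 4) (nat_lit 4) (nat_lit 2) (nat_lit 4) (nat_lit 292) (nat_lit 254) (nat_lit 234))) (XT.nd (nat_lit 78) (nat_lit 0) (nat_lit 0) (XT.lf (nat_lit 0) (nat_lit 26651405209) (nat_lit 152) (nat_lit 50533623085) (nat_lit 0) (nat_lit 23892597824) (nat_lit 2) (nat_lit 5) (nat_lit 4) (nat_lit 4) (nat_lit 2) (nat_lit 4) (nat_lit 293) (nat_lit 254) (nat_lit 233)) (XT.nd (nat_lit 78) (nat_lit 0) (nat_lit 0) (XT.lf (nat_lit 0) (nat_lit 35520156631) (nat_lit 152) (nat_lit 47179741533) (nat_lit 0) (nat_lit 32741157676) (nat_lit 2) (nat_lit 5) (nat_lit 4) (nat_lit 4) (nat_lit 2) (nat_lit 4) (nat_lit 294) (nat_lit 254) (nat_lit 232)) (XT.lf (nat_lit 0) (nat_lit 45656661962) (nat_lit 152) (nat_lit 43451640353) (nat_lit 0) (nat_lit 42860105119) (nat_lit 2) (nat_lit 5) (nat_lit 4) (nat_lit 4) (nat_lit 2)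 (nat_lit 4) (nat_lit 295) (nat_lit 254) (nat_lit 231))))))) (XT.nd (nat_lit 780) (nat_lit 0) (nat_lit 0) (XT.nd (nat_lit 390) (nat_lit 76) (nat_lit 0) (XT.nd (nat_lit 156) (nat_lit 0) (nat_lit 0) (XT.nd (nat_lit 78) (nat_lit 0) (nat_lit 0) (XT.lf (nat_lit 0) (nat_lit 57259244133) (nat_lit 152) (nat_lit 39276378433) (nat_lit 0) (nat_lit 54447419561) (nat_lit 2) (nat_lit 5) (nat_lit 4) (nat_lit 4) (nat_lit 2) (nat_lit 4) (nat_lit 296) (nat_lit 254) (nat_lit 230)) (XT.lf (nat_lit 0) (nat_lit 70554910185) (nat_lit 152) (nat_lit 34572265866) (nat_lit 0) (nat_lit 67729809328) (nat_lit 2) (nat_lit 5) (nat_lit 4) (nat_lit 4) (nat_lit 2) (nat_lit 4) (nat_lit 297) (nat_lit 254) (nat_lit 229))) (XT.nd (nat_lit 78) (nat_lit 0) (nat_lit 0) (XT.lf (nat_lit 0) (nat_lit 85803792716) (nat_lit 152) (nat_lit 29247265668) (nat_lit 0) (nat_lit 82967147263) (nat_lit 2) (nat_lit 5) (nat_lit 4) (nat_lit 4) (nat_lit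 2) (nat_lit 4) (nat_lit 298) (nat_lit 254) (nat_lit 228)) (XT.nd (nat_lit 78) (nat_lit 0) (nat_lit 0) (XT.lf (nat_lit 0) (nat_lit 103304239427) (nat_lit 152) (nat_lit 23197193053) (nat_lit 0) (nat_lit 100457555195) (nat_lit 2) (nat_lit 5) (nat_lit 4) (nat_lit 4) (nat_lit 2) (nat_lit 4) (nat_lit 299) (nat_lit 254) (nat_lit 227)) (XT.lf (nat_lit 0) (nat_lit 123398650363) (nat_lit 152) (nat_lit 16303677034) (nat_lit 0) (nat_lit 120543236758) (nat_lit 2) (nat_lit 5) (nat_lit 4) (nat_lit 4) (nat_lit 2) (nat_lit 4) (nat_lit 300) (nat_lit 254) (nat_lit 226))))) (XT.nd (nat_lit 156) (nat_lit 0) (nat_lit 0) (XT.nd (nat_lit 78) (nat_lit 76) (nat_lit 0) (XT.lf (nat_lit 0) (nat_lit 146480177042) (nat_lit 152) (nat_lit 8431844471) (nat_lit 0) (nat_lit 143617172677) (nat_lit 2) (nat_lit 5) (nat_lit 4) (nat_lit 4) (nat_lit 2) (nat_lit 4) (nat_lit 301) (nat_lit 254) (nat_lit 225)) (XT.lf (nat_lit 0)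 (nat_lit 628249899) (nat_lit 76) (nat_lit 172398179141) (nat_lit 76) (nat_lit 169528574115) (nat_lit 1) (nat_lit 4) (nat_lit 2) (nat_lit 5) (nat_lit 2) (nat_lit 4) (nat_lit 302) (nat_lit 254) (nat_lit 224))) (XT.nd (nat_lit 78) (nat_lit 0) (nat_lit 0) (XT.lf (nat_lit 0) (nat_lit 11948740550) (nat_lit 76) (nat_lit 192024268418) (nat_lit 76) (nat_lit 189148923688) (nat_lit 1) (nat_lit 4) (nat_lit 2) (nat_lit 5) (nat_lit 2) (nat_lit 4) (nat_lit 303) (nat_lit 254) (nat_lit 223)) (XT.nd (nat_lit 78) (nat_lit 0) (nat_lit 0) (XT.lf (nat_lit 0) (nat_lit 24927094176) (nat_lit 76) (nat_lit 214615033557) (nat_lit 76) (nat_lit 211734697780) (nat_lit 1) (nat_lit 4) (nat_lit 2) (nat_lit 5) (nat_lit 2) (nat_lit 4) (nat_lit 304) (nat_lit 254) (nat_lit 222)) (XT.lf (nat_lit 0) (nat_lit 39817235087) (nat_lit 76) (nat_lit 240612467788) (nat_lit 76) (nat_lit 237727791969) (nat_lit 1) (nat_lit 4) (nat_lit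 2) (nat_lit 5) (nat_lit 2) (nat_lit 4) (nat_lit 305) (nat_lit 254) (nat_lit 221)))))) (XT.nd (nat_lit 390) (nat_lit 0) (nat_lit 0) (XT.nd (nat_lit 156) (nat_lit 0) (nat_lit 0) (XT.nd (nat_lit 78) (nat_lit 0) (nat_lit 0) (XT.lf (nat_lit 0) (nat_lit 56910492128) (nat_lit 76) (nat_lit 270525216564) (nat_lit 76) (nat_lit 267636766796) (nat_lit 1) (nat_lit 4) (nat_lit 2) (nat_lit 5) (nat_lit 2) (nat_lit 4) (nat_lit 306) (nat_lit 254) (nat_lit 220)) (XT.lf (nat_lit 0) (nat_lit 76541298588) (nat_lit 76) (nat_lit 304938529316) (nat_lit 76) (nat_lit 302046797854) (nat_lit 1) (nat_lit 4) (nat_lit 2) (nat_lit 5) (nat_lit 2) (nat_lit 4) (nat_lit 307) (nat_lit 254) (nat_lit 219))) (XT.nd (nat_lit 78) (nat_lit 0) (nat_lit 0) (XT.lf (nat_lit 0) (nat_lit 99093735464) (nat_lit 76) (nat_lit 344525709991) (nat_lit 76) (nat_lit 341631124881) (nat_lit 1) (nat_lit 4) (nat_lit 2) (nat_lit 5) (nat_lit 2) (nat_lit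 4) (nat_lit 308) (nat_lit 254) (nat_lit 218)) (XT.nd (nat_lit 78) (nat_lit 0) (nat_lit 0) (XT.lf (nat_lit 0) (nat_lit 125009046085) (nat_lit 76) (nat_lit 390061290384) (nat_lit 76) (nat_lit 387164223841) (nat_lit 1) (nat_lit 4) (nat_lit 2) (nat_lit 5) (nat_lit 2) (nat_lit 4) (nat_lit 309) (nat_lit 254) (nat_lit 217)) (XT.lf (nat_lit 0) (nat_lit 154794269138) (nat_lit 76) (nat_lit 442436184024) (nat_lit 76) (nat_lit 439536959714) (nat_lit 1) (nat_lit 4) (nat_lit 2) (nat_lit 5) (nat_lit 2) (nat_lit 4) (nat_lit 310) (nat_lit 254) (nat_lit 216))))) (XT.nd (nat_lit 156) (nat_lit 0) (nat_lit 0) (XT.nd (nat_lit 78) (nat_lit 0) (nat_lit 0) (XT.lf (nat_lit 0) (nat_lit 189032158986) (nat_lit 76) (nat_lit 502675117091) (nat_lit 76) (nat_lit 499774016461) (nat_lit 1) (nat_lit 4) (nat_lit 2) (nat_lit 5) (nat_lit 2) (nat_lit 4) (nat_lit 311) (nat_lit 254) (nat_lit 215)) (XT.lf (nat_lit 0) (nat_lit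 228392587387) (nat_lit 76) (nat_lit 571956677407) (nat_lit 76) (nat_lit 569053945195) (nat_lit 1) (nat_lit 4) (nat_lit 2) (nat_lit 5) (nat_lit 2) (nat_lit 4) (nat_lit 312) (nat_lit 254) (nat_lit 214))) (XT.nd (nat_lit 78) (nat_lit 0) (nat_lit 0) (XT.lf (nat_lit 0) (nat_lit 273645649681) (nat_lit 76) (nat_lit 651636373760) (nat_lit 76) (nat_lit 648732222780) (nat_lit 1) (nat_lit 4) (nat_lit 2) (nat_lit 5) (nat_lit 2) (nat_lit 4) (nat_lit 313) (nat_lit 254) (nat_lit 213)) (XT.nd (nat_lit 78) (nat_lit 0) (nat_lit 0) (XT.lf (nat_lit 0) (nat_lit 325676731867) (nat_lit 76) (nat_lit 743273156730) (nat_lit 76) (nat_lit 740367772040) (nat_lit 1) (nat_lit 4) (nat_lit 2) (nat_lit 5) (nat_lit 2) (nat_lit 4) (nat_lit 314) (nat_lit 254) (nat_lit 212)) (XT.lf (nat_lit 0) (nat_lit 385503833381) (nat_lit 76) (nat_lit 848659919899) (nat_lit 76) (nat_lit 845753462417) (nat_lit 1) (nat_lit 4) (nat_lit 2)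 (nat_lit 5) (nat_lit 2) (nat_lit 4) (nat_lit 315) (nat_lit 254) (nat_lit 211))))))))
noncomputable def xc37 : XT := (XT.nd (nat_lit 1560) (nat_lit 0) (nat_lit 0) (XT.nd (nat_lit 780) (nat_lit 0) (nat_lit 0) (XT.nd (nat_lit 390) (nat_lit 0) (nat_lit 0) (XT.nd (nat_lit 156) (nat_lit 0) (nat_lit 0) (XT.nd (nat_lit 78) (nat_lit 0) (nat_lit 0) (XT.lf (nat_lit 0) (nat_lit 454297484470) (nat_lit 76) (nat_lit 969858578196) (nat_lit 76) (nat_lit 966951187852) (nat_lit 1) (nat_lit 4) (nat_lit 2) (nat_lit 5) (nat_lit 2) (nat_lit 4) (nat_lit 316) (nat_lit 254) (nat_lit 210)) (XT.lf (nat_lit 0) (nat_lit 533403647871) (nat_lit 76) (nat_lit 1109240409720) (nat_lit 76) (nat_lit 1106332208191) (nat_lit 1) (nat_lit 4) (nat_lit 2) (nat_lit 5) (nat_lit 2) (nat_lit 4) (nat_lit 317) (nat_lit 254) (nat_lit 209))) (XT.nd (nat_lit 78) (nat_lit 0) (nat_lit 0) (XT.lf (nat_lit 0) (nat_lit 624370052869) (nat_lit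 76) (nat_lit 1269532450305) (nat_lit 76) (nat_lit 1266623543397) (nat_lit 1) (nat_lit 4) (nat_lit 2) (nat_lit 5) (nat_lit 2) (nat_lit 4) (nat_lit 318) (nat_lit 254) (nat_lit 208)) (XT.nd (nat_lit 78) (nat_lit 0) (nat_lit 0) (XT.lf (nat_lit 0) (nat_lit 728976476953) (nat_lit 76) (nat_lit 1453870848570) (nat_lit 76) (nat_lit 1450961328290) (nat_lit 1) (nat_lit 4) (nat_lit 2) (nat_lit 5) (nat_lit 2) (nat_lit 4) (nat_lit 319) (nat_lit 254) (nat_lit 207)) (XT.lf (nat_lit 0) (nat_lit 849269567551) (nat_lit 76) (nat_lit 1665862225351) (nat_lit 76) (nat_lit 1662952171705) (nat_lit 1) (nat_lit 4) (nat_lit 2) (nat_lit 5) (nat_lit 2) (nat_lit 4) (nat_lit 320) (nat_lit 254) (nat_lit 206))))) (XT.nd (nat_lit 156) (nat_lit 0) (nat_lit 0) (XT.nd (nat_lit 78) (nat_lit 0) (nat_lit 0) (XT.lf (nat_lit 0) (nat_lit 987602885131) (nat_lit 76) (nat_lit 1909654238021) (nat_lit 76) (nat_lit 1906743720577) (nat_lit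 1) (nat_lit 4) (nat_lit 2) (nat_lit 5) (nat_lit 2) (nat_lit 4) (nat_lit 321) (nat_lit 254) (nat_lit 205)) (XT.lf (nat_lit 0) (nat_lit 1146682951123) (nat_lit 76) (nat_lit 2190016730304) (nat_lit 76) (nat_lit 2187105809558) (nat_lit 1) (nat_lit 4) (nat_lit 2) (nat_lit 5) (nat_lit 2) (nat_lit 4) (nat_lit 322) (nat_lit 254) (nat_lit 204))) (XT.nd (nat_lit 78) (nat_lit 0) (nat_lit 0) (XT.lf (nat_lit 0) (nat_lit 1329622201603) (nat_lit 76) (nat_lit 2512435055312) (nat_lit 76) (nat_lit 2509523783869) (nat_lit 1) (nat_lit 4) (nat_lit 2) (nat_lit 5) (nat_lit 2) (nat_lit 4) (nat_lit 323) (nat_lit 254) (nat_lit 203)) (XT.nd (nat_lit 78) (nat_lit 0) (nat_lit 0) (XT.lf (nat_lit 0) (nat_lit 1539999882774) (nat_lit 76) (nat_lit 2883217397664) (nat_lit 76) (nat_lit 2880305821266) (nat_lit 1) (nat_lit 4) (nat_lit 2) (nat_lit 5) (nat_lit 2) (nat_lit 4) (nat_lit 324) (nat_lit 254) (nat_lit 202)) (XT.lf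 (nat_lit 0) (nat_lit 1781932079703) (nat_lit 76) (nat_lit 3309618194492) (nat_lit 76) (nat_lit 3306706352917) (nat_lit 1) (nat_lit 4) (nat_lit 2) (nat_lit 5) (nat_lit 2) (nat_lit 4) (nat_lit 325) (nat_lit 254) (nat_lit 201)))))) (XT.nd (nat_lit 390) (nat_lit 0) (nat_lit 0) (XT.nd (nat_lit 156) (nat_lit 0) (nat_lit 0) (XT.nd (nat_lit 78) (nat_lit 0) (nat_lit 0) (XT.lf (nat_lit 0) (nat_lit 2060152248417) (nat_lit 76) (nat_lit 3799980070084) (nat_lit 76) (nat_lit 3797067997919) (nat_lit 1) (nat_lit 4) (nat_lit 2) (nat_lit 5) (nat_lit 2) (nat_lit 4) (nat_lit 326) (nat_lit 254) (nat_lit 200)) (XT.lf (nat_lit 0) (nat_lit 2380103826999) (nat_lit 76) (nat_lit 4363897061134) (nat_lit 76) (nat_lit 4360984788456) (nat_lit 1) (nat_lit 4) (nat_lit 2) (nat_lit 5) (nat_lit 2) (nat_lit 4) (nat_lit 327) (nat_lit 254) (nat_lit 199))) (XT.nd (nat_lit 78) (nat_lit 0) (nat_lit 0) (XT.lf (nat_lit 0) (nat_lit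 2748046737639) (nat_lit 76) (nat_lit 5012402326163) (nat_lit 76) (nat_lit 5009489879127) (nat_lit 1) (nat_lit 4) (nat_lit 2) (nat_lit 5) (nat_lit 2) (nat_lit 4) (nat_lit 328) (nat_lit 254) (nat_lit 198)) (XT.nd (nat_lit 78) (nat_lit 0) (nat_lit 0) (XT.lf (nat_lit 0) (nat_lit 3171179863372) (nat_lit 76) (nat_lit 5758184011662) (nat_lit 76) (nat_lit 5755271413010) (nat_lit 1) (nat_lit 4) (nat_lit 2) (nat_lit 5) (nat_lit 2) (nat_lit 4) (nat_lit 329) (nat_lit 254) (nat_lit 197)) (XT.lf (nat_lit 0) (nat_lit 3657781895788) (nat_lit 76) (nat_lit 6615833498434) (nat_lit 76) (nat_lit 6612920767941) (nat_lit 1) (nat_lit 4) (nat_lit 2) (nat_lit 5) (nat_lit 2) (nat_lit 4) (nat_lit 330) (nat_lit 254) (nat_lit 196))))) (XT.nd (nat_lit 156) (nat_lit 0) (nat_lit 0) (XT.nd (nat_lit 78) (nat_lit 0) (nat_lit 0) (XT.lf (nat_lit 0) (nat_lit 4217373309434) (nat_lit 76) (nat_lit 7602130885131) (nat_lit 76)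 (nat_lit 7599218039995) (nat_lit 1) (nat_lit 4) (nat_lit 2) (nat_lit 5) (nat_lit 2) (nat_lit 4) (nat_lit 331) (nat_lit 254) (nat_lit 195)) (XT.lf (nat_lit 0) (nat_lit 4860902631968) (nat_lit 76) (nat_lit 8736373294539) (nat_lit 76) (nat_lit 8733460349713) (nat_lit 1) (nat_lit 4) (nat_lit 2) (nat_lit 5) (nat_lit 2) (nat_lit 4) (nat_lit 332) (nat_lit 254) (nat_lit 194))) (XT.nd (nat_lit 78) (nat_lit 0) (nat_lit 0) (XT.lf (nat_lit 0) (nat_lit 5600960654483) (nat_lit 76) (nat_lit 10040752425972) (nat_lit 76) (nat_lit 10037839394458) (nat_lit 1) (nat_lit 4) (nat_lit 2) (nat_lit 5) (nat_lit 2) (nat_lit 4) (nat_lit 333) (nat_lit 254) (nat_lit 193)) (XT.nd (nat_lit 78) (nat_lit 0) (nat_lit 0) (XT.lf (nat_lit 0) (nat_lit 6452026773073) (nat_lit 76) (nat_lit 11540788740695) (nat_lit 76) (nat_lit 11537875633802) (nat_lit 1) (nat_lit 4) (nat_lit 2) (nat_lit 5) (nat_lit 2) (nat_lit 4) (nat_lit 334)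 (nat_lit 254) (nat_lit 192)) (XT.lf (nat_lit 0) (nat_lit 7430752281361) (nat_lit 76) (nat_lit 13265830775303) (nat_lit 76) (nat_lit 13262917602862) (nat_lit 1) (nat_lit 4) (nat_lit 2) (nat_lit 5) (nat_lit 2) (nat_lit 4) (nat_lit 335) (nat_lit 254) (nat_lit 191))))))) (XT.nd (nat_lit 1326) (nat_lit 0) (nat_lit 0) (XT.nd (nat_lit 390) (nat_lit 0) (nat_lit 0) (XT.nd (nat_lit 156) (nat_lit 0) (nat_lit 0) (XT.nd (nat_lit 78) (nat_lit 0) (nat_lit 0) (XT.lf (nat_lit 0) (nat_lit 8556286156684) (nat_lit 76) (nat_lit 15249629352211) (nat_lit 76) (nat_lit 15246716122771) (nat_lit 1) (nat_lit 4) (nat_lit 2) (nat_lit 5) (nat_lit 2) (nat_lit 4) (nat_lit 336) (nat_lit 254) (nat_lit 190)) (XT.lf (nat_lit 0) (nat_lit 9850649713994) (nat_lit 76) (nat_lit 17530997921837) (nat_lit 76) (nat_lit 17528084642834) (nat_lit 1) (nat_lit 4) (nat_lit 2) (nat_lit 5) (nat_lit 2) (nat_lit 4) (nat_lit 337) (nat_lit 254)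 (nat_lit 189))) (XT.nd (nat_lit 78) (nat_lit 0) (nat_lit 0) (XT.lf (nat_lit 0) (nat_lit 11339167457673) (nat_lit 76) (nat_lit 20154571956195) (nat_lit 76) (nat_lit 20151658634093) (nat_lit 1) (nat_lit 4) (nat_lit 2) (nat_lit 5) (nat_lit 2) (nat_lit 4) (nat_lit 338) (nat_lit 254) (nat_lit 188)) (XT.nd (nat_lit 78) (nat_lit 0) (nat_lit 0) (XT.lf (nat_lit 0) (nat_lit 13050962560966) (nat_lit 76) (nat_lit 23171682251610) (nat_lit 76) (nat_lit 23168768892031) (nat_lit 1) (nat_lit 4) (nat_lit 2) (nat_lit 5) (nat_lit 2) (nat_lit 4) (nat_lit 339) (nat_lit 254) (nat_lit 187)) (XT.lf (nat_lit 0) (nat_lit 15019526667200) (nat_lit 76) (nat_lit 26641359226905) (nat_lit 76) (nat_lit 26638445834737) (nat_lit 1) (nat_lit 4) (nat_lit 2) (nat_lit 5) (nat_lit 2) (nat_lit 4) (nat_lit 340) (nat_lit 254) (nat_lit 186))))) (XT.nd (nat_lit 156) (nat_lit 0) (nat_lit 0) (XT.nd (nat_lit 78) (nat_lit 0) (nat_lit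 0) (XT.lf (nat_lit 0) (nat_lit 17283375161061) (nat_lit 76) (nat_lit 30631487866380) (nat_lit 76) (nat_lit 30628574445874) (nat_lit 1) (nat_lit 4) (nat_lit 2) (nat_lit 5) (nat_lit 2) (nat_lit 4) (nat_lit 341) (nat_lit 254) (nat_lit 185)) (XT.lf (nat_lit 0) (nat_lit 19886800730472) (nat_lit 76) (nat_lit 35220135904285) (nat_lit 76) (nat_lit 35217222459136) (nat_lit 1) (nat_lit 4) (nat_lit 2) (nat_lit 5) (nat_lit 2) (nat_lit 4) (nat_lit 342) (nat_lit 254) (nat_lit 184))) (XT.nd (nat_lit 624) (nat_lit 0) (nat_lit 0) (XT.lf (nat_lit 0) (nat_lit 22880739962662) (nat_lit 76) (nat_lit 40497081237013) (nat_lit 76) (nat_lit 40494167770437) (nat_lit 1) (nat_lit 4) (nat_lit 2) (nat_lit 5) (nat_lit 2) (nat_lit 4) (nat_lit 343) (nat_lit 254) (nat_lit 183)) (XT.nd (nat_lit 78) (nat_lit 0) (nat_lit 0) (XT.lf (nat_lit 0) (nat_lit 70142585430264) (nat_lit 76) (nat_lit 123798109340723) (nat_lit 76) (nat_lit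 123795195777994) (nat_lit 1) (nat_lit 4) (nat_lit 2) (nat_lit 5) (nat_lit 2) (nat_lit 4) (nat_lit 351) (nat_lit 254) (nat_lit 175)) (XT.lf (nat_lit 0) (nat_lit 80674891543687) (nat_lit 76) (nat_lit 142361751114247) (nat_lit 76) (nat_lit 142358837545427) (nat_lit 1) (nat_lit 4) (nat_lit 2) (nat_lit 5) (nat_lit 2) (nat_lit 4) (nat_lit 352) (nat_lit 254) (nat_lit 174)))))) (XT.nd (nat_lit 34320) (nat_lit 0) (nat_lit 684) (XT.nd (nat_lit 156) (nat_lit 0) (nat_lit 0) (XT.nd (nat_lit 78) (nat_lit 0) (nat_lit 0) (XT.lf (nat_lit 0) (nat_lit 92787043531451) (nat_lit 76) (nat_lit 163709939175833) (nat_lit 76) (nat_lit 163707025601717) (nat_lit 1) (nat_lit 4) (nat_lit 2) (nat_lit 5) (nat_lit 2) (nat_lit 4) (nat_lit 353) (nat_lit 254) (nat_lit 173)) (XT.lf (nat_lit 0) (nat_lit 106716018280274) (nat_lit 76) (nat_lit 188260355465816) (nat_lit 76) (nat_lit 188257441887094) (nat_lit 1) (nat_lit 4) (nat_lit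 2) (nat_lit 5) (nat_lit 2) (nat_lit 4) (nat_lit 354) (nat_lit 254) (nat_lit 172))) (XT.nd (nat_lit 34008) (nat_lit 0) (nat_lit 1140) (XT.lf (nat_lit 0) (nat_lit 122734339209154) (nat_lit 76) (nat_lit 216493334215958) (nat_lit 76) (nat_lit 216490420633231) (nat_lit 1) (nat_lit 4) (nat_lit 2) (nat_lit 5) (nat_lit 2) (nat_lit 4) (nat_lit 355) (nat_lit 254) (nat_lit 171)) (XT.nd (nat_lit 78) (nat_lit 152) (nat_lit 0) (XT.lf (nat_lit 0) (nat_lit 1712822906) (nat_lit 152) (nat_lit 1078101478) (nat_lit 0) (nat_lit 1712822906) (nat_lit 18) (nat_lit 5) (nat_lit 20) (nat_lit 4) (nat_lit 18) (nat_lit 4) (nat_lit 270) (nat_lit 255) (nat_lit 255)) (XT.lf (nat_lit 0) (nat_lit 5248004094) (nat_lit 152) (nat_lit 2618447425) (nat_lit 152) (nat_lit 1739401036) (nat_lit 16) (nat_lit 4) (nat_lit 18) (nat_lit 5) (nat_lit 18) (nat_lit 4) (nat_lit 271) (nat_lit 255) (nat_lit 254))))) (XT.nd (nat_lit 234) (nat_lit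 228) (nat_lit 0) (XT.nd (nat_lit 78) (nat_lit 76) (nat_lit 0) (XT.lf (nat_lit 0) (nat_lit 2278326023) (nat_lit 152) (nat_lit 7175018735) (nat_lit 0) (nat_lit 849252497) (nat_lit 14) (nat_lit 5) (nat_lit 16) (nat_lit 4) (nat_lit 14) (nat_lit 4) (nat_lit 272) (nat_lit 255) (nat_lit 253)) (XT.nd (nat_lit 78) (nat_lit 0) (nat_lit 0) (XT.lf (nat_lit 0) (nat_lit 214559090) (nat_lit 76) (nat_lit 6446799288) (nat_lit 76) (nat_lit 4439738492) (nat_lit 13) (nat_lit 4) (nat_lit 14) (nat_lit 5) (nat_lit 14) (nat_lit 4) (nat_lit 273) (nat_lit 255) (nat_lit 252)) (XT.lf (nat_lit 0) (nat_lit 8810602088) (nat_lit 76) (nat_lit 2861762629) (nat_lit 76) (nat_lit 352104208) (nat_lit 13) (nat_lit 4) (nat_lit 14) (nat_lit 5) (nat_lit 14) (nat_lit 4) (nat_lit 274) (nat_lit 255) (nat_lit 251)))) (XT.nd (nat_lit 78) (nat_lit 76) (nat_lit 0) (XT.lf (nat_lit 0) (nat_lit 3869001742) (nat_lit 152) (nat_lit 7898069907)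 (nat_lit 0) (nat_lit 1306654058) (nat_lit 11) (nat_lit 5) (nat_lit 13) (nat_lit 4) (nat_lit 11) (nat_lit 4) (nat_lit 275) (nat_lit 255) (nat_lit 250)) (XT.nd (nat_lit 78) (nat_lit 0) (nat_lit 0) (XT.lf (nat_lit 0) (nat_lit 114935488) (nat_lit 76) (nat_lit 8531172899) (nat_lit 76) (nat_lit 5638359118) (nat_lit 10) (nat_lit 4) (nat_lit 11) (nat_lit 5) (nat_lit 11) (nat_lit 4) (nat_lit 276) (nat_lit 255) (nat_lit 249)) (XT.lf (nat_lit 0) (nat_lit 9583817713) (nat_lit 76) (nat_lit 4631143770) (nat_lit 76) (nat_lit 1450968165) (nat_lit 10) (nat_lit 4) (nat_lit 11) (nat_lit 5) (nat_lit 11) (nat_lit 4) (nat_lit 277) (nat_lit 255) (nat_lit 248))))))))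
noncomputable def xc38 : XT := (XT.nd (nat_lit 1560) (nat_lit 76) (nat_lit 0) (XT.nd (nat_lit 780) (nat_lit 152) (nat_lit 0) (XT.nd (nat_lit 390) (nat_lit 152) (nat_lit 0) (XT.nd (nat_lit 156) (nat_lit 152) (nat_lit 0) (XT.nd (nat_lit 78) (nat_lit 0) (nat_lit 0) (XT.lf (nat_lit 0) (nat_lit 2741757858) (nat_lit 76) (nat_lit 128852983) (nat_lit 152) (nat_lit 14392552548) (nat_lit 8) (nat_lit 5) (nat_lit 9) (nat_lit 5) (nat_lit 10) (nat_lit 4) (nat_lit 278) (nat_lit 255) (nat_lit 247)) (XT.lf (nat_lit 0) (nat_lit 7932323984) (nat_lit 152) (nat_lit 6360758722) (nat_lit 0) (nat_lit 4760722005) (nat_lit 8) (nat_lit 5) (nat_lit 10) (nat_lit 4) (nat_lit 8) (nat_lit 4) (nat_lit 279) (nat_lit 255) (nat_lit 246))) (XT.nd (nat_lit 78) (nat_lit 76) (nat_lit 0) (XT.lf (nat_lit 0) (nat_lit 2751571496) (nat_lit 76) (nat_lit 10859466017) (nat_lit 76) (nat_lit 7523563983) (nat_lit 7) (nat_lit 4) (nat_lit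 8) (nat_lit 5) (nat_lit 8) (nat_lit 4) (nat_lit 280) (nat_lit 255) (nat_lit 245)) (XT.nd (nat_lit 78) (nat_lit 76) (nat_lit 0) (XT.lf (nat_lit 0) (nat_lit 13457610371) (nat_lit 76) (nat_lit 6768122425) (nat_lit 76) (nat_lit 3289350777) (nat_lit 7) (nat_lit 4) (nat_lit 8) (nat_lit 5) (nat_lit 8) (nat_lit 4) (nat_lit 281) (nat_lit 255) (nat_lit 244)) (XT.lf (nat_lit 0) (nat_lit 1212967936) (nat_lit 152) (nat_lit 995125029) (nat_lit 76) (nat_lit 24068831197) (nat_lit 6) (nat_lit 5) (nat_lit 8) (nat_lit 5) (nat_lit 7) (nat_lit 4) (nat_lit 282) (nat_lit 255) (nat_lit 243))))) (XT.nd (nat_lit 156) (nat_lit 76) (nat_lit 0) (XT.nd (nat_lit 78) (nat_lit 0) (nat_lit 0) (XT.lf (nat_lit 0) (nat_lit 6405201197) (nat_lit 152) (nat_lit 19793557142) (nat_lit 0) (nat_lit 3178213330) (nat_lit 5) (nat_lit 5) (nat_lit 7) (nat_lit 4) (nat_lit 5) (nat_lit 4) (nat_lit 283) (nat_lit 255) (nat_lit 242)) (XT.lf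 (nat_lit 0) (nat_lit 12341770129) (nat_lit 152) (nat_lit 11572444739) (nat_lit 0) (nat_lit 9033096096) (nat_lit 5) (nat_lit 5) (nat_lit 7) (nat_lit 4) (nat_lit 5) (nat_lit 4) (nat_lit 284) (nat_lit 255) (nat_lit 241))) (XT.nd (nat_lit 78) (nat_lit 76) (nat_lit 0) (XT.lf (nat_lit 0) (nat_lit 19000005665) (nat_lit 152) (nat_lit 2458313562) (nat_lit 0) (nat_lit 15620300185) (nat_lit 5) (nat_lit 5) (nat_lit 7) (nat_lit 4) (nat_lit 5) (nat_lit 4) (nat_lit 285) (nat_lit 255) (nat_lit 240)) (XT.nd (nat_lit 78) (nat_lit 0) (nat_lit 0) (XT.lf (nat_lit 0) (nat_lit 8482310263) (nat_lit 76) (nat_lit 18379101749) (nat_lit 76) (nat_lit 14937629792) (nat_lit 4) (nat_lit 4) (nat_lit 5) (nat_lit 5) (nat_lit 5) (nat_lit 4) (nat_lit 286) (nat_lit 255) (nat_lit 239)) (XT.lf (nat_lit 0) (nat_lit 21057972230) (nat_lit 76) (nat_lit 14833217673) (nat_lit 76) (nat_lit 11338035736) (nat_lit 4) (nat_lit 4) (nat_lit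 5) (nat_lit 5) (nat_lit 5) (nat_lit 4) (nat_lit 287) (nat_lit 255) (nat_lit 238)))))) (XT.nd (nat_lit 390) (nat_lit 0) (nat_lit 0) (XT.nd (nat_lit 156) (nat_lit 152) (nat_lit 0) (XT.nd (nat_lit 78) (nat_lit 0) (nat_lit 0) (XT.lf (nat_lit 0) (nat_lit 35274473616) (nat_lit 76) (nat_lit 10879793761) (nat_lit 76) (nat_lit 7337907494) (nat_lit 4) (nat_lit 4) (nat_lit 5) (nat_lit 5) (nat_lit 5) (nat_lit 4) (nat_lit 288) (nat_lit 255) (nat_lit 237)) (XT.lf (nat_lit 0) (nat_lit 51409963364) (nat_lit 76) (nat_lit 6441480416) (nat_lit 76) (nat_lit 2858981688) (nat_lit 4) (nat_lit 4) (nat_lit 5) (nat_lit 5) (nat_lit 5) (nat_lit 4) (nat_lit 289) (nat_lit 255) (nat_lit 236))) (XT.nd (nat_lit 78) (nat_lit 0) (nat_lit 0) (XT.lf (nat_lit 0) (nat_lit 729328606) (nat_lit 76) (nat_lit 1292598146) (nat_lit 152) (nat_lit 66985167370) (nat_lit 2) (nat_lit 5) (nat_lit 3) (nat_lit 5) (nat_lit 4) (nat_lit 4)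 (nat_lit 290) (nat_lit 255) (nat_lit 235)) (XT.nd (nat_lit 78) (nat_lit 0) (nat_lit 0) (XT.lf (nat_lit 0) (nat_lit 7948094227) (nat_lit 152) (nat_lit 65713443491) (nat_lit 0) (nat_lit 4775465734) (nat_lit 2) (nat_lit 5) (nat_lit 4) (nat_lit 4) (nat_lit 2) (nat_lit 4) (nat_lit 291) (nat_lit 255) (nat_lit 234)) (XT.lf (nat_lit 0) (nat_lit 14742005098) (nat_lit 152) (nat_lit 62996446248) (nat_lit 0) (nat_lit 11546156299) (nat_lit 2) (nat_lit 5) (nat_lit 4) (nat_lit 4) (nat_lit 2) (nat_lit 4) (nat_lit 292) (nat_lit 255) (nat_lit 233))))) (XT.nd (nat_lit 156) (nat_lit 0) (nat_lit 0) (XT.nd (nat_lit 78) (nat_lit 0) (nat_lit 0) (XT.lf (nat_lit 0) (nat_lit 22483059974) (nat_lit 152) (nat_lit 60020091412) (nat_lit 0) (nat_lit 19267019604) (nat_lit 2) (nat_lit 5) (nat_lit 4) (nat_lit 4) (nat_lit 2) (nat_lit 4) (nat_lit 293) (nat_lit 255) (nat_lit 232)) (XT.lf (nat_lit 0) (nat_lit 31322714278) (nat_lit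 152) (nat_lit 56726145955) (nat_lit 0) (nat_lit 28089116020) (nat_lit 2) (nat_lit 5) (nat_lit 4) (nat_lit 4) (nat_lit 2) (nat_lit 4) (nat_lit 294) (nat_lit 255) (nat_lit 231))) (XT.nd (nat_lit 78) (nat_lit 0) (nat_lit 0) (XT.lf (nat_lit 0) (nat_lit 41433917767) (nat_lit 152) (nat_lit 53050163118) (nat_lit 0) (nat_lit 38185051781) (nat_lit 2) (nat_lit 5) (nat_lit 4) (nat_lit 4) (nat_lit 2) (nat_lit 4) (nat_lit 295) (nat_lit 255) (nat_lit 230)) (XT.nd (nat_lit 78) (nat_lit 0) (nat_lit 0) (XT.lf (nat_lit 0) (nat_lit 53014498336) (nat_lit 152) (nat_lit 48920221496) (nat_lit 0) (nat_lit 49752356064) (nat_lit 2) (nat_lit 5) (nat_lit 4) (nat_lit 4) (nat_lit 2) (nat_lit 4) (nat_lit 296) (nat_lit 255) (nat_lit 229)) (XT.lf (nat_lit 0) (nat_lit 66291032560) (nat_lit 152) (nat_lit 44255517885) (nat_lit 0) (nat_lit 63017345693) (nat_lit 2) (nat_lit 5) (nat_lit 4) (nat_lit 4) (nat_lit 2) (nat_lit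 4) (nat_lit 297) (nat_lit 255) (nat_lit 228))))))) (XT.nd (nat_lit 780) (nat_lit 0) (nat_lit 0) (XT.nd (nat_lit 390) (nat_lit 76) (nat_lit 0) (XT.nd (nat_lit 156) (nat_lit 0) (nat_lit 0) (XT.nd (nat_lit 78) (nat_lit 0) (nat_lit 0) (XT.lf (nat_lit 0) (nat_lit 81523278720) (nat_lit 152) (nat_lit 38964786344) (nat_lit 0) (nat_lit 78239553073) (nat_lit 2) (nat_lit 5) (nat_lit 4) (nat_lit 4) (nat_lit 2) (nat_lit 4) (nat_lit 298) (nat_lit 255) (nat_lit 227)) (XT.lf (nat_lit 0) (nat_lit 99009259021) (nat_lit 152) (nat_lit 32944512560) (nat_lit 0) (nat_lit 95716804001) (nat_lit 2) (nat_lit 5) (nat_lit 4) (nat_lit 4) (nat_lit 2) (nat_lit 4) (nat_lit 299) (nat_lit 255) (nat_lit 226))) (XT.nd (nat_lit 78) (nat_lit 0) (nat_lit 0) (XT.lf (nat_lit 0) (nat_lit 119091090470) (nat_lit 152) (nat_lit 26076908569) (nat_lit 0) (nat_lit 115791044690) (nat_lit 2) (nat_lit 5) (nat_lit 4) (nat_lit 4) (nat_lit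 2) (nat_lit 4) (nat_lit 300) (nat_lit 255) (nat_lit 225)) (XT.nd (nat_lit 78) (nat_lit 0) (nat_lit 0) (XT.lf (nat_lit 0) (nat_lit 142161678464) (nat_lit 152) (nat_lit 18227608204) (nat_lit 0) (nat_lit 138855032025) (nat_lit 2) (nat_lit 5) (nat_lit 4) (nat_lit 4) (nat_lit 2) (nat_lit 4) (nat_lit 301) (nat_lit 255) (nat_lit 224)) (XT.lf (nat_lit 0) (nat_lit 168672404074) (nat_lit 152) (nat_lit 9243038199) (nat_lit 0) (nat_lit 165360017930) (nat_lit 2) (nat_lit 5) (nat_lit 4) (nat_lit 4) (nat_lit 2) (nat_lit 4) (nat_lit 302) (nat_lit 255) (nat_lit 223))))) (XT.nd (nat_lit 156) (nat_lit 0) (nat_lit 0) (XT.nd (nat_lit 78) (nat_lit 0) (nat_lit 0) (XT.lf (nat_lit 0) (nat_lit 1155452921) (nat_lit 76) (nat_lit 198034347329) (nat_lit 76) (nat_lit 194716970137) (nat_lit 1) (nat_lit 4) (nat_lit 2) (nat_lit 5) (nat_lit 2) (nat_lit 4) (nat_lit 303) (nat_lit 255) (nat_lit 222)) (XT.lf (nat_lit 0) (nat_lit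 14117543403) (nat_lit 76) (nat_lit 220633509826) (nat_lit 76) (nat_lit 217311792593) (nat_lit 1) (nat_lit 4) (nat_lit 2) (nat_lit 5) (nat_lit 2) (nat_lit 4) (nat_lit 304) (nat_lit 255) (nat_lit 221))) (XT.nd (nat_lit 78) (nat_lit 0) (nat_lit 0) (XT.lf (nat_lit 0) (nat_lit 28993542451) (nat_lit 76) (nat_lit 246638246108) (nat_lit 76) (nat_lit 243312754927) (nat_lit 1) (nat_lit 4) (nat_lit 2) (nat_lit 5) (nat_lit 2) (nat_lit 4) (nat_lit 305) (nat_lit 255) (nat_lit 220)) (XT.nd (nat_lit 78) (nat_lit 0) (nat_lit 0) (XT.lf (nat_lit 0) (nat_lit 46074502219) (nat_lit 76) (nat_lit 276557344493) (nat_lit 76) (nat_lit 273228571617) (nat_lit 1) (nat_lit 4) (nat_lit 2) (nat_lit 5) (nat_lit 2) (nat_lit 4) (nat_lit 306) (nat_lit 255) (nat_lit 219)) (XT.lf (nat_lit 0) (nat_lit 65694615398) (nat_lit 76) (nat_lit 310976178646) (nat_lit 76) (nat_lit 307644552121) (nat_lit 1) (nat_lit 4) (nat_lit 2) (nat_lit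 5) (nat_lit 2) (nat_lit 4) (nat_lit 307) (nat_lit 255) (nat_lit 218)))))) (XT.nd (nat_lit 390) (nat_lit 0) (nat_lit 0) (XT.nd (nat_lit 156) (nat_lit 0) (nat_lit 0) (XT.nd (nat_lit 78) (nat_lit 0) (nat_lit 0) (XT.lf (nat_lit 0) (nat_lit 88237753769) (nat_lit 76) (nat_lit 350568160537) (nat_lit 76) (nat_lit 347234052581) (nat_lit 1) (nat_lit 4) (nat_lit 2) (nat_lit 5) (nat_lit 2) (nat_lit 4) (nat_lit 308) (nat_lit 255) (nat_lit 217)) (XT.lf (nat_lit 0) (nat_lit 114144978733) (nat_lit 76) (nat_lit 396107915902) (nat_lit 76) (nat_lit 392771650177) (nat_lit 1) (nat_lit 4) (nat_lit 2) (nat_lit 5) (nat_lit 2) (nat_lit 4) (nat_lit 309) (nat_lit 255) (nat_lit 216))) (XT.nd (nat_lit 78) (nat_lit 0) (nat_lit 0) (XT.lf (nat_lit 0) (nat_lit 143923170780) (nat_lit 76) (nat_lit 448486439952) (nat_lit 76) (nat_lit 445148297908) (nat_lit 1) (nat_lit 4) (nat_lit 2) (nat_lit 5) (nat_lit 2) (nat_lit 4) (nat_lit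 310) (nat_lit 255) (nat_lit 215)) (XT.nd (nat_lit 78) (nat_lit 0) (nat_lit 0) (XT.lf (nat_lit 0) (nat_lit 178154946710) (nat_lit 76) (nat_lit 508728529897) (nat_lit 76) (nat_lit 505388756271) (nat_lit 1) (nat_lit 4) (nat_lit 2) (nat_lit 5) (nat_lit 2) (nat_lit 4) (nat_lit 311) (nat_lit 255) (nat_lit 214)) (XT.lf (nat_lit 0) (nat_lit 217510058661) (nat_lit 76) (nat_lit 578012835325) (nat_lit 76) (nat_lit 574671642931) (nat_lit 1) (nat_lit 4) (nat_lit 2) (nat_lit 5) (nat_lit 2) (nat_lit 4) (nat_lit 312) (nat_lit 255) (nat_lit 213))))) (XT.nd (nat_lit 156) (nat_lit 0) (nat_lit 0) (XT.nd (nat_lit 78) (nat_lit 0) (nat_lit 0) (XT.lf (nat_lit 0) (nat_lit 262758497954) (nat_lit 76) (nat_lit 657694918731) (nat_lit 76) (nat_lit 654352492627) (nat_lit 1) (nat_lit 4) (nat_lit 2) (nat_lit 5) (nat_lit 2) (nat_lit 4) (nat_lit 313) (nat_lit 255) (nat_lit 212)) (XT.lf (nat_lit 0) (nat_lit 314785560141)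 (nat_lit 76) (nat_lit 749333777400) (nat_lit 76) (nat_lit 745990278504) (nat_lit 1) (nat_lit 4) (nat_lit 2) (nat_lit 5) (nat_lit 2) (nat_lit 4) (nat_lit 314) (nat_lit 255) (nat_lit 211))) (XT.nd (nat_lit 78) (nat_lit 0) (nat_lit 0) (XT.lf (nat_lit 0) (nat_lit 374609166002) (nat_lit 76) (nat_lit 854722345524) (nat_lit 76) (nat_lit 851377913765) (nat_lit 1) (nat_lit 4) (nat_lit 2) (nat_lit 5) (nat_lit 2) (nat_lit 4) (nat_lit 315) (nat_lit 255) (nat_lit 210)) (XT.nd (nat_lit 78) (nat_lit 0) (nat_lit 0) (XT.lf (nat_lit 0) (nat_lit 443399777393) (nat_lit 76) (nat_lit 975922573348) (nat_lit 76) (nat_lit 972577330404) (nat_lit 1) (nat_lit 4) (nat_lit 2) (nat_lit 5) (nat_lit 2) (nat_lit 4) (nat_lit 316) (nat_lit 255) (nat_lit 209)) (XT.lf (nat_lit 0) (nat_lit 522503297578) (nat_lit 76) (nat_lit 1115305769677) (nat_lit 76) (nat_lit 1111959821356) (nat_lit 1) (nat_lit 4) (nat_lit 2) (nat_lit 5)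 (nat_lit 2) (nat_lit 4) (nat_lit 317) (nat_lit 255) (nat_lit 208))))))))
noncomputable def xc39 : XT := (XT.nd (nat_lit 1560) (nat_lit 0) (nat_lit 0) (XT.nd (nat_lit 780) (nat_lit 0) (nat_lit 0) (XT.nd (nat_lit 390) (nat_lit 0) (nat_lit 0) (XT.nd (nat_lit 156) (nat_lit 0) (nat_lit 0) (XT.nd (nat_lit 78) (nat_lit 0) (nat_lit 0) (XT.lf (nat_lit 0) (nat_lit 613467404128) (nat_lit 76) (nat_lit 1275598997049) (nat_lit 76) (nat_lit 1272252435356) (nat_lit 1) (nat_lit 4) (nat_lit 2) (nat_lit 5) (nat_lit 2) (nat_lit 4) (nat_lit 318) (nat_lit 255) (nat_lit 207)) (XT.lf (nat_lit 0) (nat_lit 718071829562) (nat_lit 76) (nat_lit 1459938427303) (nat_lit 76) (nat_lit 1456591332243) (nat_lit 1) (nat_lit 4) (nat_lit 2) (nat_lit 5) (nat_lit 2) (nat_lit 4) (nat_lit 319) (nat_lit 255) (nat_lit 206))) (XT.nd (nat_lit 78) (nat_lit 0) (nat_lit 0) (XT.lf (nat_lit 0) (nat_lit 838363182202) (nat_lit 76) (nat_lit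 1671930701466) (nat_lit 76) (nat_lit 1668583142608) (nat_lit 1) (nat_lit 4) (nat_lit 2) (nat_lit 5) (nat_lit 2) (nat_lit 4) (nat_lit 320) (nat_lit 255) (nat_lit 205)) (XT.nd (nat_lit 78) (nat_lit 0) (nat_lit 0) (XT.lf (nat_lit 0) (nat_lit 976694988515) (nat_lit 76) (nat_lit 1915723494468) (nat_lit 76) (nat_lit 1912375532308) (nat_lit 1) (nat_lit 4) (nat_lit 2) (nat_lit 5) (nat_lit 2) (nat_lit 4) (nat_lit 321) (nat_lit 255) (nat_lit 204)) (XT.lf (nat_lit 0) (nat_lit 1135773740363) (nat_lit 76) (nat_lit 2196086665301) (nat_lit 76) (nat_lit 2192738352443) (nat_lit 1) (nat_lit 4) (nat_lit 2) (nat_lit 5) (nat_lit 2) (nat_lit 4) (nat_lit 322) (nat_lit 255) (nat_lit 203))))) (XT.nd (nat_lit 156) (nat_lit 0) (nat_lit 0) (XT.nd (nat_lit 78) (nat_lit 0) (nat_lit 0) (XT.lf (nat_lit 0) (nat_lit 1318711848107) (nat_lit 76) (nat_lit 2518505580352) (nat_lit 76) (nat_lit 2515156962540) (nat_lit 1) (nat_lit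 4) (nat_lit 2) (nat_lit 5) (nat_lit 2) (nat_lit 4) (nat_lit 323) (nat_lit 255) (nat_lit 202)) (XT.lf (nat_lit 0) (nat_lit 1529088535595) (nat_lit 76) (nat_lit 2889288435785) (nat_lit 76) (nat_lit 2885939552795) (nat_lit 1) (nat_lit 4) (nat_lit 2) (nat_lit 5) (nat_lit 2) (nat_lit 4) (nat_lit 324) (nat_lit 255) (nat_lit 201))) (XT.nd (nat_lit 78) (nat_lit 0) (nat_lit 0) (XT.lf (nat_lit 0) (nat_lit 1771019868452) (nat_lit 76) (nat_lit 3315689678771) (nat_lit 76) (nat_lit 3312340565192) (nat_lit 1) (nat_lit 4) (nat_lit 2) (nat_lit 5) (nat_lit 2) (nat_lit 4) (nat_lit 325) (nat_lit 255) (nat_lit 200)) (XT.nd (nat_lit 78) (nat_lit 0) (nat_lit 0) (XT.lf (nat_lit 0) (nat_lit 2049239285800) (nat_lit 76) (nat_lit 3806051942325) (nat_lit 76) (nat_lit 3802702628233) (nat_lit 1) (nat_lit 4) (nat_lit 2) (nat_lit 5) (nat_lit 2) (nat_lit 4) (nat_lit 326) (nat_lit 255) (nat_lit 199)) (XT.lf (nat_lit 0)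 (nat_lit 2369190211020) (nat_lit 76) (nat_lit 4369969270734) (nat_lit 76) (nat_lit 4366619782284) (nat_lit 1) (nat_lit 4) (nat_lit 2) (nat_lit 5) (nat_lit 2) (nat_lit 4) (nat_lit 327) (nat_lit 255) (nat_lit 198)))))) (XT.nd (nat_lit 390) (nat_lit 0) (nat_lit 0) (XT.nd (nat_lit 156) (nat_lit 0) (nat_lit 0) (XT.nd (nat_lit 78) (nat_lit 0) (nat_lit 0) (XT.lf (nat_lit 0) (nat_lit 2737132553519) (nat_lit 76) (nat_lit 5018474829119) (nat_lit 76) (nat_lit 5015125189053) (nat_lit 1) (nat_lit 4) (nat_lit 2) (nat_lit 5) (nat_lit 2) (nat_lit 4) (nat_lit 328) (nat_lit 255) (nat_lit 197)) (XT.lf (nat_lit 0) (nat_lit 3160265185216) (nat_lit 76) (nat_lit 5764256769710) (nat_lit 76) (nat_lit 5760906997803) (nat_lit 1) (nat_lit 4) (nat_lit 2) (nat_lit 5) (nat_lit 2) (nat_lit 4) (nat_lit 329) (nat_lit 255) (nat_lit 196))) (XT.nd (nat_lit 78) (nat_lit 0) (nat_lit 0) (XT.lf (nat_lit 0) (nat_lit 3646866788035)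 (nat_lit 76) (nat_lit 6621906478300) (nat_lit 76) (nat_lit 6618556591750) (nat_lit 1) (nat_lit 4) (nat_lit 2) (nat_lit 5) (nat_lit 2) (nat_lit 4) (nat_lit 330) (nat_lit 255) (nat_lit 195)) (XT.nd (nat_lit 78) (nat_lit 0) (nat_lit 0) (XT.lf (nat_lit 0) (nat_lit 4206457828119) (nat_lit 76) (nat_lit 7608204057885) (nat_lit 76) (nat_lit 7604854071644) (nat_lit 1) (nat_lit 4) (nat_lit 2) (nat_lit 5) (nat_lit 2) (nat_lit 4) (nat_lit 331) (nat_lit 255) (nat_lit 194)) (XT.lf (nat_lit 0) (nat_lit 4849986825816) (nat_lit 76) (nat_lit 8742446635019) (nat_lit 76) (nat_lit 8739096562092) (nat_lit 1) (nat_lit 4) (nat_lit 2) (nat_lit 5) (nat_lit 2) (nat_lit 4) (nat_lit 332) (nat_lit 255) (nat_lit 193))))) (XT.nd (nat_lit 156) (nat_lit 0) (nat_lit 0) (XT.nd (nat_lit 78) (nat_lit 0) (nat_lit 0) (XT.lf (nat_lit 0) (nat_lit 5590044565865) (nat_lit 76) (nat_lit 10046825912301) (nat_lit 76) (nat_lit 10043475763994)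 (nat_lit 1) (nat_lit 4) (nat_lit 2) (nat_lit 5) (nat_lit 2) (nat_lit 4) (nat_lit 333) (nat_lit 255) (nat_lit 192)) (XT.lf (nat_lit 0) (nat_lit 6441110438832) (nat_lit 76) (nat_lit 11546862353851) (nat_lit 76) (nat_lit 11543512139995) (nat_lit 1) (nat_lit 4) (nat_lit 2) (nat_lit 5) (nat_lit 2) (nat_lit 4) (nat_lit 334) (nat_lit 255) (nat_lit 191))) (XT.nd (nat_lit 78) (nat_lit 0) (nat_lit 0) (XT.lf (nat_lit 0) (nat_lit 7419835733535) (nat_lit 76) (nat_lit 13271904498742) (nat_lit 76) (nat_lit 13268554227888) (nat_lit 1) (nat_lit 4) (nat_lit 2) (nat_lit 5) (nat_lit 2) (nat_lit 4) (nat_lit 335) (nat_lit 255) (nat_lit 190)) (XT.nd (nat_lit 78) (nat_lit 0) (nat_lit 0) (XT.lf (nat_lit 0) (nat_lit 8545369423131) (nat_lit 76) (nat_lit 15255703171548) (nat_lit 76) (nat_lit 15252352851131) (nat_lit 1) (nat_lit 4) (nat_lit 2) (nat_lit 5) (nat_lit 2) (nat_lit 4) (nat_lit 336) (nat_lit 255) (nat_lit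 189)) (XT.lf (nat_lit 0) (nat_lit 9839732818940) (nat_lit 76) (nat_lit 17537071824564) (nat_lit 76) (nat_lit 17533721461048) (nat_lit 1) (nat_lit 4) (nat_lit 2) (nat_lit 5) (nat_lit 2) (nat_lit 4) (nat_lit 337) (nat_lit 255) (nat_lit 188))))))) (XT.nd (nat_lit 35568) (nat_lit 0) (nat_lit 304) (XT.nd (nat_lit 35178) (nat_lit 0) (nat_lit 988) (XT.nd (nat_lit 156) (nat_lit 0) (nat_lit 0) (XT.nd (nat_lit 78) (nat_lit 0) (nat_lit 0) (XT.lf (nat_lit 0) (nat_lit 11328250422183) (nat_lit 76) (nat_lit 20160645931435) (nat_lit 76) (nat_lit 20157295530442) (nat_lit 1) (nat_lit 4) (nat_lit 2) (nat_lit 5) (nat_lit 2) (nat_lit 4) (nat_lit 338) (nat_lit 255) (nat_lit 187)) (XT.lf (nat_lit 0) (nat_lit 13040045403358) (nat_lit 76) (nat_lit 23177756289905) (nat_lit 76) (nat_lit 23174405856323) (nat_lit 1) (nat_lit 4) (nat_lit 2) (nat_lit 5) (nat_lit 2) (nat_lit 4) (nat_lit 339) (nat_lit 255) (nat_lit 186)))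 (XT.nd (nat_lit 78) (nat_lit 0) (nat_lit 0) (XT.lf (nat_lit 0) (nat_lit 15008609403402) (nat_lit 76) (nat_lit 26647433320031) (nat_lit 76) (nat_lit 26644082858110) (nat_lit 1) (nat_lit 4) (nat_lit 2) (nat_lit 5) (nat_lit 2) (nat_lit 4) (nat_lit 340) (nat_lit 255) (nat_lit 185)) (XT.nd (nat_lit 78) (nat_lit 0) (nat_lit 0) (XT.lf (nat_lit 0) (nat_lit 17272457804924) (nat_lit 76) (nat_lit 30637562007184) (nat_lit 76) (nat_lit 30634211520622) (nat_lit 1) (nat_lit 4) (nat_lit 2) (nat_lit 5) (nat_lit 2) (nat_lit 4) (nat_lit 341) (nat_lit 255) (nat_lit 184)) (XT.lf (nat_lit 0) (nat_lit 19875883294041) (nat_lit 76) (nat_lit 35226210086548) (nat_lit 76) (nat_lit 35222859578558) (nat_lit 1) (nat_lit 4) (nat_lit 2) (nat_lit 5) (nat_lit 2) (nat_lit 4) (nat_lit 342) (nat_lit 255) (nat_lit 183))))) (XT.nd (nat_lit 156) (nat_lit 380) (nat_lit 0) (XT.nd (nat_lit 78) (nat_lit 76) (nat_lit 0) (XT.lf (nat_lit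 0) (nat_lit 781283673) (nat_lit 152) (nat_lit 1619950138) (nat_lit 152) (nat_lit 1619950138) (nat_lit 20) (nat_lit 4) (nat_lit 22) (nat_lit 5) (nat_lit 22) (nat_lit 4) (nat_lit 268) (nat_lit 256) (nat_lit 256)) (XT.lf (nat_lit 0) (nat_lit 405466540) (nat_lit 228) (nat_lit 290785788) (nat_lit 76) (nat_lit 7817384987) (nat_lit 19) (nat_lit 5) (nat_lit 22) (nat_lit 5) (nat_lit 20) (nat_lit 4) (nat_lit 269) (nat_lit 256) (nat_lit 255))) (XT.nd (nat_lit 78) (nat_lit 304) (nat_lit 0) (XT.lf (nat_lit 0) (nat_lit 4221978546) (nat_lit 152) (nat_lit 2486222224) (nat_lit 0) (nat_lit 2332028809) (nat_lit 18) (nat_lit 5) (nat_lit 20) (nat_lit 4) (nat_lit 18) (nat_lit 4) (nat_lit 270) (nat_lit 256) (nat_lit 254)) (XT.nd (nat_lit 78) (nat_lit 152) (nat_lit 0) (XT.lf (nat_lit 0) (nat_lit 4570714552) (nat_lit 152) (nat_lit 3877441441) (nat_lit 152) (nat_lit 1223103539) (nat_lit 16) (nat_lit 4) (nat_lit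 18) (nat_lit 5) (nat_lit 18) (nat_lit 4) (nat_lit 271) (nat_lit 256) (nat_lit 253)) (XT.lf (nat_lit 0) (nat_lit 2012579414) (nat_lit 76) (nat_lit 467235784) (nat_lit 152) (nat_lit 7925670052) (nat_lit 14) (nat_lit 5) (nat_lit 15) (nat_lit 5) (nat_lit 16) (nat_lit 4) (nat_lit 272) (nat_lit 256) (nat_lit 252)))))) (XT.nd (nat_lit 390) (nat_lit 380) (nat_lit 0) (XT.nd (nat_lit 156) (nat_lit 228) (nat_lit 0) (XT.nd (nat_lit 78) (nat_lit 76) (nat_lit 0) (XT.lf (nat_lit 0) (nat_lit 6660100729) (nat_lit 152) (nat_lit 1303214366) (nat_lit 0) (nat_lit 3271395918) (nat_lit 14) (nat_lit 5) (nat_lit 16) (nat_lit 4) (nat_lit 14) (nat_lit 4) (nat_lit 273) (nat_lit 256) (nat_lit 251)) (XT.lf (nat_lit 0) (nat_lit 6878979352) (nat_lit 76) (nat_lit 4569275465) (nat_lit 76) (nat_lit 743529239) (nat_lit 13) (nat_lit 4) (nat_lit 14) (nat_lit 5) (nat_lit 14) (nat_lit 4) (nat_lit 274) (nat_lit 256) (nat_lit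 250))) (XT.nd (nat_lit 78) (nat_lit 76) (nat_lit 0) (XT.lf (nat_lit 0) (nat_lit 2667981835) (nat_lit 76) (nat_lit 529117733) (nat_lit 152) (nat_lit 10093877699) (nat_lit 11) (nat_lit 5) (nat_lit 12) (nat_lit 5) (nat_lit 13) (nat_lit 4) (nat_lit 275) (nat_lit 256) (nat_lit 249)) (XT.nd (nat_lit 78) (nat_lit 76) (nat_lit 0) (XT.lf (nat_lit 0) (nat_lit 7802684949) (nat_lit 152) (nat_lit 2866820728) (nat_lit 0) (nat_lit 3858121179) (nat_lit 11) (nat_lit 5) (nat_lit 13) (nat_lit 4) (nat_lit 11) (nat_lit 4) (nat_lit 276) (nat_lit 256) (nat_lit 248)) (XT.lf (nat_lit 0) (nat_lit 6065591856) (nat_lit 76) (nat_lit 7039064587) (nat_lit 76) (nat_lit 2844620970) (nat_lit 10) (nat_lit 4) (nat_lit 11) (nat_lit 5) (nat_lit 11) (nat_lit 4) (nat_lit 277) (nat_lit 256) (nat_lit 247))))) (XT.nd (nat_lit 234) (nat_lit 228) (nat_lit 0) (XT.nd (nat_lit 78) (nat_lit 76) (nat_lit 0) (XT.lf (nat_lit 0) (nat_lit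 1362963564) (nat_lit 152) (nat_lit 1481358777) (nat_lit 76) (nat_lit 14746673196) (nat_lit 9) (nat_lit 5) (nat_lit 11) (nat_lit 5) (nat_lit 10) (nat_lit 4) (nat_lit 278) (nat_lit 256) (nat_lit 246)) (XT.nd (nat_lit 78) (nat_lit 0) (nat_lit 0) (XT.lf (nat_lit 0) (nat_lit 6119680459) (nat_lit 152) (nat_lit 11188715459) (nat_lit 0) (nat_lit 2119093064) (nat_lit 8) (nat_lit 5) (nat_lit 10) (nat_lit 4) (nat_lit 8) (nat_lit 4) (nat_lit 279) (nat_lit 256) (nat_lit 245)) (XT.lf (nat_lit 0) (nat_lit 11578358536) (nat_lit 152) (nat_lit 2528120316) (nat_lit 0) (nat_lit 7434901528) (nat_lit 8) (nat_lit 5) (nat_lit 10) (nat_lit 4) (nat_lit 8) (nat_lit 4) (nat_lit 280) (nat_lit 256) (nat_lit 244)))) (XT.nd (nat_lit 78) (nat_lit 152) (nat_lit 0) (XT.lf (nat_lit 0) (nat_lit 7733479789) (nat_lit 76) (nat_lit 10244226918) (nat_lit 76) (nat_lit 5976535463) (nat_lit 7) (nat_lit 4) (nat_lit 8) (nat_lit 5)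 (nat_lit 8) (nat_lit 4) (nat_lit 281) (nat_lit 256) (nat_lit 243)) (XT.nd (nat_lit 78) (nat_lit 152) (nat_lit 0) (XT.lf (nat_lit 0) (nat_lit 19449445464) (nat_lit 76) (nat_lit 5831898178) (nat_lit 76) (nat_lit 1456176770) (nat_lit 7) (nat_lit 4) (nat_lit 8) (nat_lit 5) (nat_lit 8) (nat_lit 4) (nat_lit 282) (nat_lit 256) (nat_lit 242)) (XT.lf (nat_lit 0) (nat_lit 2735371996) (nat_lit 76) (nat_lit 615805907) (nat_lit 152) (nat_lit 26572663271) (nat_lit 5) (nat_lit 5) (nat_lit 6) (nat_lit 5) (nat_lit 7) (nat_lit 4) (nat_lit 283) (nat_lit 256) (nat_lit 241))))))))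
noncomputable def xc40 : XT := (XT.nd (nat_lit 1560) (nat_lit 76) (nat_lit 0) (XT.nd (nat_lit 780) (nat_lit 0) (nat_lit 0) (XT.nd (nat_lit 390) (nat_lit 152) (nat_lit 0) (XT.nd (nat_lit 156) (nat_lit 76) (nat_lit 0) (XT.nd (nat_lit 78) (nat_lit 0) (nat_lit 0) (XT.lf (nat_lit 0) (nat_lit 9183727285) (nat_lit 152) (nat_lit 19100065978) (nat_lit 0) (nat_lit 5226034534) (nat_lit 5) (nat_lit 5) (nat_lit 7) (nat_lit 4) (nat_lit 5) (nat_lit 4) (nat_lit 284) (nat_lit 256) (nat_lit 240)) (XT.lf (nat_lit 0) (nat_lit 15773684264) (nat_lit 152) (nat_lit 10123507333) (nat_lit 0) (nat_lit 11754225036) (nat_lit 5) (nat_lit 5) (nat_lit 7) (nat_lit 4) (nat_lit 5) (nat_lit 4) (nat_lit 285) (nat_lit 256) (nat_lit 239))) (XT.nd (nat_lit 78) (nat_lit 76) (nat_lit 0) (XT.lf (nat_lit 0) (nat_lit 23224483572) (nat_lit 152) (nat_lit 57665711) (nat_lit 0) (nat_lit 19151314365) (nat_lit 5) (nat_lit 5) (nat_lit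 7) (nat_lit 4) (nat_lit 5) (nat_lit 4) (nat_lit 286) (nat_lit 256) (nat_lit 238)) (XT.nd (nat_lit 78) (nat_lit 0) (nat_lit 0) (XT.lf (nat_lit 0) (nat_lit 12398170102) (nat_lit 76) (nat_lit 19797113402) (nat_lit 76) (nat_lit 15677239864) (nat_lit 4) (nat_lit 4) (nat_lit 5) (nat_lit 5) (nat_lit 5) (nat_lit 4) (nat_lit 287) (nat_lit 256) (nat_lit 237)) (XT.lf (nat_lit 0) (nat_lit 26515375281) (nat_lit 76) (nat_lit 15893979794) (nat_lit 76) (nat_lit 11733493796) (nat_lit 4) (nat_lit 4) (nat_lit 5) (nat_lit 5) (nat_lit 5) (nat_lit 4) (nat_lit 288) (nat_lit 256) (nat_lit 236))))) (XT.nd (nat_lit 156) (nat_lit 152) (nat_lit 0) (XT.nd (nat_lit 78) (nat_lit 0) (nat_lit 0) (XT.lf (nat_lit 0) (nat_lit 42564520499) (nat_lit 76) (nat_lit 11499397147) (nat_lit 76) (nat_lit 7303595966) (nat_lit 4) (nat_lit 4) (nat_lit 5) (nat_lit 5) (nat_lit 5) (nat_lit 4) (nat_lit 289) (nat_lit 256) (nat_lit 235))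 (XT.lf (nat_lit 0) (nat_lit 60859610773) (nat_lit 76) (nat_lit 6527384497) (nat_lit 76) (nat_lit 2300874461) (nat_lit 4) (nat_lit 4) (nat_lit 5) (nat_lit 5) (nat_lit 5) (nat_lit 4) (nat_lit 290) (nat_lit 256) (nat_lit 234))) (XT.nd (nat_lit 78) (nat_lit 0) (nat_lit 0) (XT.lf (nat_lit 0) (nat_lit 2582114279) (nat_lit 76) (nat_lit 597107891) (nat_lit 152) (nat_lit 76050499140) (nat_lit 2) (nat_lit 5) (nat_lit 3) (nat_lit 5) (nat_lit 4) (nat_lit 4) (nat_lit 291) (nat_lit 256) (nat_lit 233)) (XT.nd (nat_lit 78) (nat_lit 0) (nat_lit 0) (XT.lf (nat_lit 0) (nat_lit 9914946391) (nat_lit 152) (nat_lit 73974811333) (nat_lit 0) (nat_lit 6196308395) (nat_lit 2) (nat_lit 5) (nat_lit 4) (nat_lit 4) (nat_lit 2) (nat_lit 4) (nat_lit 292) (nat_lit 256) (nat_lit 232)) (XT.lf (nat_lit 0) (nat_lit 17626904149) (nat_lit 152) (nat_lit 71058392592) (nat_lit 0) (nat_lit 13890708266) (nat_lit 2) (nat_lit 5) (nat_lit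 4) (nat_lit 4) (nat_lit 2) (nat_lit 4) (nat_lit 293) (nat_lit 256) (nat_lit 231)))))) (XT.nd (nat_lit 390) (nat_lit 0) (nat_lit 0) (XT.nd (nat_lit 156) (nat_lit 0) (nat_lit 0) (XT.nd (nat_lit 78) (nat_lit 0) (nat_lit 0) (XT.lf (nat_lit 0) (nat_lit 26441256611) (nat_lit 152) (nat_lit 67816565478) (nat_lit 0) (nat_lit 22689792999) (nat_lit 2) (nat_lit 5) (nat_lit 4) (nat_lit 4) (nat_lit 2) (nat_lit 4) (nat_lit 294) (nat_lit 256) (nat_lit 230)) (XT.lf (nat_lit 0) (nat_lit 36530458499) (nat_lit 152) (nat_lit 64185902939) (nat_lit 0) (nat_lit 32765718601) (nat_lit 2) (nat_lit 5) (nat_lit 4) (nat_lit 4) (nat_lit 2) (nat_lit 4) (nat_lit 295) (nat_lit 256) (nat_lit 229))) (XT.nd (nat_lit 78) (nat_lit 0) (nat_lit 0) (XT.lf (nat_lit 0) (nat_lit 48091907240) (nat_lit 152) (nat_lit 60095370273) (nat_lit 0) (nat_lit 44315622746) (nat_lit 2) (nat_lit 5) (nat_lit 4) (nat_lit 4) (nat_lit 2) (nat_lit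 4) (nat_lit 296) (nat_lit 256) (nat_lit 228)) (XT.nd (nat_lit 78) (nat_lit 0) (nat_lit 0) (XT.lf (nat_lit 0) (nat_lit 61351805093) (nat_lit 152) (nat_lit 55464935318) (nat_lit 0) (nat_lit 57565481820) (nat_lit 2) (nat_lit 5) (nat_lit 4) (nat_lit 4) (nat_lit 2) (nat_lit 4) (nat_lit 297) (nat_lit 256) (nat_lit 227)) (XT.lf (nat_lit 0) (nat_lit 76569584842) (nat_lit 152) (nat_lit 50204002609) (nat_lit 0) (nat_lit 72774532196) (nat_lit 2) (nat_lit 5) (nat_lit 4) (nat_lit 4) (nat_lit 2) (nat_lit 4) (nat_lit 298) (nat_lit 256) (nat_lit 226))))) (XT.nd (nat_lit 156) (nat_lit 0) (nat_lit 0) (XT.nd (nat_lit 78) (nat_lit 0) (nat_lit 0) (XT.lf (nat_lit 0) (nat_lit 94042985656) (nat_lit 152) (nat_lit 44209640853) (nat_lit 0) (nat_lit 90240342250) (nat_lit 2) (nat_lit 5) (nat_lit 4) (nat_lit 4) (nat_lit 2) (nat_lit 4) (nat_lit 299) (nat_lit 256) (nat_lit 225)) (XT.lf (nat_lit 0) (nat_lit 114113878420)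 (nat_lit 152) (nat_lit 37364569060) (nat_lit 0) (nat_lit 110304634354) (nat_lit 2) (nat_lit 5) (nat_lit 4) (nat_lit 4) (nat_lit 2) (nat_lit 4) (nat_lit 300) (nat_lit 256) (nat_lit 224))) (XT.nd (nat_lit 78) (nat_lit 0) (nat_lit 0) (XT.lf (nat_lit 0) (nat_lit 137174954515) (nat_lit 152) (nat_lit 29534861911) (nat_lit 0) (nat_lit 133359970745) (nat_lit 2) (nat_lit 5) (nat_lit 4) (nat_lit 4) (nat_lit 2) (nat_lit 4) (nat_lit 301) (nat_lit 256) (nat_lit 223)) (XT.nd (nat_lit 78) (nat_lit 0) (nat_lit 0) (XT.lf (nat_lit 0) (nat_lit 163677408908) (nat_lit 152) (nat_lit 20567329485) (nat_lit 0) (nat_lit 159857434090) (nat_lit 2) (nat_lit 5) (nat_lit 4) (nat_lit 4) (nat_lit 2) (nat_lit 4) (nat_lit 302) (nat_lit 256) (nat_lit 222)) (XT.lf (nat_lit 0) (nat_lit 194139767879) (nat_lit 152) (nat_lit 10286520059) (nat_lit 0) (nat_lit 190315453020) (nat_lit 2) (nat_lit 5) (nat_lit 4) (nat_lit 4) (nat_lit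 2) (nat_lit 4) (nat_lit 303) (nat_lit 256) (nat_lit 221))))))) (XT.nd (nat_lit 780) (nat_lit 0) (nat_lit 0) (XT.nd (nat_lit 390) (nat_lit 0) (nat_lit 0) (XT.nd (nat_lit 156) (nat_lit 0) (nat_lit 0) (XT.nd (nat_lit 78) (nat_lit 0) (nat_lit 0) (XT.lf (nat_lit 0) (nat_lit 1656155007) (nat_lit 76) (nat_lit 227570456945) (nat_lit 76) (nat_lit 223742368137) (nat_lit 1) (nat_lit 4) (nat_lit 2) (nat_lit 5) (nat_lit 2) (nat_lit 4) (nat_lit 304) (nat_lit 256) (nat_lit 220)) (XT.lf (nat_lit 0) (nat_lit 16519856782) (nat_lit 76) (nat_lit 253581542837) (nat_lit 76) (nat_lit 249750172334) (nat_lit 1) (nat_lit 4) (nat_lit 2) (nat_lit 5) (nat_lit 2) (nat_lit 4) (nat_lit 305) (nat_lit 256) (nat_lit 219))) (XT.nd (nat_lit 78) (nat_lit 0) (nat_lit 0) (XT.lf (nat_lit 0) (nat_lit 33590123269) (nat_lit 76) (nat_lit 283506162622) (nat_lit 76) (nat_lit 279671938472) (nat_lit 1) (nat_lit 4) (nat_lit 2) (nat_lit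 5) (nat_lit 2) (nat_lit 4) (nat_lit 306) (nat_lit 256) (nat_lit 218)) (XT.nd (nat_lit 78) (nat_lit 0) (nat_lit 0) (XT.lf (nat_lit 0) (nat_lit 53200937944) (nat_lit 76) (nat_lit 317929797991) (nat_lit 76) (nat_lit 314093092408) (nat_lit 1) (nat_lit 4) (nat_lit 2) (nat_lit 5) (nat_lit 2) (nat_lit 4) (nat_lit 307) (nat_lit 256) (nat_lit 217)) (XT.lf (nat_lit 0) (nat_lit 75735990658) (nat_lit 76) (nat_lit 357525954855) (nat_lit 76) (nat_lit 353687091504) (nat_lit 1) (nat_lit 4) (nat_lit 2) (nat_lit 5) (nat_lit 2) (nat_lit 4) (nat_lit 308) (nat_lit 256) (nat_lit 216))))) (XT.nd (nat_lit 156) (nat_lit 0) (nat_lit 0) (XT.nd (nat_lit 78) (nat_lit 0) (nat_lit 0) (XT.lf (nat_lit 0) (nat_lit 101636184616) (nat_lit 76) (nat_lit 403069340629) (nat_lit 76) (nat_lit 399228600958) (nat_lit 1) (nat_lit 4) (nat_lit 2) (nat_lit 5) (nat_lit 2) (nat_lit 4) (nat_lit 309) (nat_lit 256) (nat_lit 215)) (XT.lf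 (nat_lit 0) (nat_lit 131408262745) (nat_lit 76) (nat_lit 455451021557) (nat_lit 76) (nat_lit 451608650304) (nat_lit 1) (nat_lit 4) (nat_lit 2) (nat_lit 5) (nat_lit 2) (nat_lit 4) (nat_lit 310) (nat_lit 256) (nat_lit 214))) (XT.nd (nat_lit 78) (nat_lit 0) (nat_lit 0) (XT.lf (nat_lit 0) (nat_lit 165634722225) (nat_lit 76) (nat_lit 515695856614) (nat_lit 76) (nat_lit 511852066594) (nat_lit 1) (nat_lit 4) (nat_lit 2) (nat_lit 5) (nat_lit 2) (nat_lit 4) (nat_lit 311) (nat_lit 256) (nat_lit 213)) (XT.nd (nat_lit 78) (nat_lit 0) (nat_lit 0) (XT.lf (nat_lit 0) (nat_lit 204985211176) (nat_lit 76) (nat_lit 584982549095) (nat_lit 76) (nat_lit 581137525364) (nat_lit 1) (nat_lit 4) (nat_lit 2) (nat_lit 5) (nat_lit 2) (nat_lit 4) (nat_lit 312) (nat_lit 256) (nat_lit 212)) (XT.lf (nat_lit 0) (nat_lit 250229630468) (nat_lit 76) (nat_lit 664666708200) (nat_lit 76) (nat_lit 660820611677) (nat_lit 1) (nat_lit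 4) (nat_lit 2) (nat_lit 5) (nat_lit 2) (nat_lit 4) (nat_lit 313) (nat_lit 256) (nat_lit 211)))))) (XT.nd (nat_lit 390) (nat_lit 0) (nat_lit 0) (XT.nd (nat_lit 156) (nat_lit 0) (nat_lit 0) (XT.nd (nat_lit 78) (nat_lit 0) (nat_lit 0) (XT.lf (nat_lit 0) (nat_lit 302253197002) (nat_lit 76) (nat_lit 756307371824) (nat_lit 76) (nat_lit 752460342439) (nat_lit 1) (nat_lit 4) (nat_lit 2) (nat_lit 5) (nat_lit 2) (nat_lit 4) (nat_lit 314) (nat_lit 256) (nat_lit 210)) (XT.lf (nat_lit 0) (nat_lit 362073763166) (nat_lit 76) (nat_lit 861697509474) (nat_lit 76) (nat_lit 857849668905) (nat_lit 1) (nat_lit 4) (nat_lit 2) (nat_lit 5) (nat_lit 2) (nat_lit 4) (nat_lit 315) (nat_lit 256) (nat_lit 209))) (XT.nd (nat_lit 78) (nat_lit 0) (nat_lit 0) (XT.lf (nat_lit 0) (nat_lit 430861731341) (nat_lit 76) (nat_lit 982899102104) (nat_lit 76) (nat_lit 979050556156) (nat_lit 1) (nat_lit 4) (nat_lit 2) (nat_lit 5)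 (nat_lit 2) (nat_lit 4) (nat_lit 316) (nat_lit 256) (nat_lit 208)) (XT.nd (nat_lit 78) (nat_lit 0) (nat_lit 0) (XT.lf (nat_lit 0) (nat_lit 509962953078) (nat_lit 76) (nat_lit 1122283485221) (nat_lit 76) (nat_lit 1118434325901) (nat_lit 1) (nat_lit 4) (nat_lit 2) (nat_lit 5) (nat_lit 2) (nat_lit 4) (nat_lit 317) (nat_lit 256) (nat_lit 207)) (XT.lf (nat_lit 0) (nat_lit 600925060978) (nat_lit 76) (nat_lit 1282577744581) (nat_lit 76) (nat_lit 1278728051895) (nat_lit 1) (nat_lit 4) (nat_lit 2) (nat_lit 5) (nat_lit 2) (nat_lit 4) (nat_lit 318) (nat_lit 256) (nat_lit 206))))) (XT.nd (nat_lit 156) (nat_lit 0) (nat_lit 0) (XT.nd (nat_lit 78) (nat_lit 0) (nat_lit 0) (XT.lf (nat_lit 0) (nat_lit 705527748454) (nat_lit 76) (nat_lit 1466918072217) (nat_lit 76) (nat_lit 1463067915733) (nat_lit 1) (nat_lit 4) (nat_lit 2) (nat_lit 5) (nat_lit 2) (nat_lit 4) (nat_lit 319) (nat_lit 256) (nat_lit 205)) (XT.lf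 (nat_lit 0) (nat_lit 825817589828) (nat_lit 76) (nat_lit 1678911126713) (nat_lit 76) (nat_lit 1675060566926) (nat_lit 1) (nat_lit 4) (nat_lit 2) (nat_lit 5) (nat_lit 2) (nat_lit 4) (nat_lit 320) (nat_lit 256) (nat_lit 204))) (XT.nd (nat_lit 78) (nat_lit 0) (nat_lit 0) (XT.lf (nat_lit 0) (nat_lit 964148081995) (nat_lit 76) (nat_lit 1922704598264) (nat_lit 76) (nat_lit 1918853687780) (nat_lit 1) (nat_lit 4) (nat_lit 2) (nat_lit 5) (nat_lit 2) (nat_lit 4) (nat_lit 321) (nat_lit 256) (nat_lit 203)) (XT.nd (nat_lit 78) (nat_lit 0) (nat_lit 0) (XT.lf (nat_lit 0) (nat_lit 1123225691108) (nat_lit 76) (nat_lit 2203068359140) (nat_lit 76) (nat_lit 2199217143702) (nat_lit 1) (nat_lit 4) (nat_lit 2) (nat_lit 5) (nat_lit 2) (nat_lit 4) (nat_lit 322) (nat_lit 256) (nat_lit 202)) (XT.lf (nat_lit 0) (nat_lit 1306162805169) (nat_lit 76) (nat_lit 2525487787272) (nat_lit 76) (nat_lit 2521636306656) (nat_lit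 1) (nat_lit 4) (nat_lit 2) (nat_lit 5) (nat_lit 2) (nat_lit 4) (nat_lit 323) (nat_lit 256) (nat_lit 201))))))))
noncomputable def xc41 : XT := (XT.nd (nat_lit 36192) (nat_lit 0) (nat_lit 228) (XT.nd (nat_lit 780) (nat_lit 0) (nat_lit 0) (XT.nd (nat_lit 390) (nat_lit 0) (nat_lit 0) (XT.nd (nat_lit 156) (nat_lit 0) (nat_lit 0) (XT.nd (nat_lit 78) (nat_lit 0) (nat_lit 0) (XT.lf (nat_lit 0) (nat_lit 1516538628586) (nat_lit 76) (nat_lit 2896271088862) (nat_lit 76) (nat_lit 2892419377657) (nat_lit 1) (nat_lit 4) (nat_lit 2) (nat_lit 5) (nat_lit 2) (nat_lit 4) (nat_lit 324) (nat_lit 256) (nat_lit 200)) (XT.lf (nat_lit 0) (nat_lit 1758469210076) (nat_lit 76) (nat_lit 3322672719811) (nat_lit 76) (nat_lit 3318820808093) (nat_lit 1) (nat_lit 4) (nat_lit 2) (nat_lit 5) (nat_lit 2) (nat_lit 4) (nat_lit 325) (nat_lit 256) (nat_lit 199))) (XT.nd (nat_lit 78) (nat_lit 0) (nat_lit 0) (XT.lf (nat_lit 0)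 (nat_lit 2036687974061) (nat_lit 76) (nat_lit 3813035320724) (nat_lit 76) (nat_lit 3809183234648) (nat_lit 1) (nat_lit 4) (nat_lit 2) (nat_lit 5) (nat_lit 2) (nat_lit 4) (nat_lit 326) (nat_lit 256) (nat_lit 198)) (XT.nd (nat_lit 78) (nat_lit 0) (nat_lit 0) (XT.lf (nat_lit 0) (nat_lit 2356638331140) (nat_lit 76) (nat_lit 4376952942489) (nat_lit 76) (nat_lit 4373100704796) (nat_lit 1) (nat_lit 4) (nat_lit 2) (nat_lit 5) (nat_lit 2) (nat_lit 4) (nat_lit 327) (nat_lit 256) (nat_lit 197)) (XT.lf (nat_lit 0) (nat_lit 2724580179603) (nat_lit 76) (nat_lit 5025458755966) (nat_lit 76) (nat_lit 5021606386433) (nat_lit 1) (nat_lit 4) (nat_lit 2) (nat_lit 5) (nat_lit 2) (nat_lit 4) (nat_lit 328) (nat_lit 256) (nat_lit 196))))) (XT.nd (nat_lit 156) (nat_lit 0) (nat_lit 0) (XT.nd (nat_lit 78) (nat_lit 0) (nat_lit 0) (XT.lf (nat_lit 0) (nat_lit 3147712381704) (nat_lit 76) (nat_lit 5771240918376) (nat_lit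 76) (nat_lit 5767388434199) (nat_lit 1) (nat_lit 4) (nat_lit 2) (nat_lit 5) (nat_lit 2) (nat_lit 4) (nat_lit 329) (nat_lit 256) (nat_lit 195)) (XT.lf (nat_lit 0) (nat_lit 3634313610961) (nat_lit 76) (nat_lit 6628890819853) (nat_lit 76) (nat_lit 6625038235986) (nat_lit 1) (nat_lit 4) (nat_lit 2) (nat_lit 5) (nat_lit 2) (nat_lit 4) (nat_lit 330) (nat_lit 256) (nat_lit 194))) (XT.nd (nat_lit 78) (nat_lit 0) (nat_lit 0) (XT.lf (nat_lit 0) (nat_lit 4193904326208) (nat_lit 76) (nat_lit 7615188567164) (nat_lit 76) (nat_lit 7611335896610) (nat_lit 1) (nat_lit 4) (nat_lit 2) (nat_lit 5) (nat_lit 2) (nat_lit 4) (nat_lit 331) (nat_lit 256) (nat_lit 193)) (XT.nd (nat_lit 78) (nat_lit 0) (nat_lit 0) (XT.lf (nat_lit 0) (nat_lit 4837433041439) (nat_lit 76) (nat_lit 8749431290148) (nat_lit 76) (nat_lit 8745578544214) (nat_lit 1) (nat_lit 4) (nat_lit 2) (nat_lit 5) (nat_lit 2) (nat_lit 4) (nat_lit 332)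 (nat_lit 256) (nat_lit 192)) (XT.lf (nat_lit 0) (nat_lit 5577490535864) (nat_lit 76) (nat_lit 10053810694256) (nat_lit 76) (nat_lit 10049957882774) (nat_lit 1) (nat_lit 4) (nat_lit 2) (nat_lit 5) (nat_lit 2) (nat_lit 4) (nat_lit 333) (nat_lit 256) (nat_lit 191)))))) (XT.nd (nat_lit 390) (nat_lit 0) (nat_lit 0) (XT.nd (nat_lit 156) (nat_lit 0) (nat_lit 0) (XT.nd (nat_lit 78) (nat_lit 0) (nat_lit 0) (XT.lf (nat_lit 0) (nat_lit 6428556195246) (nat_lit 76) (nat_lit 11553847246089) (nat_lit 76) (nat_lit 11549994377609) (nat_lit 1) (nat_lit 4) (nat_lit 2) (nat_lit 5) (nat_lit 2) (nat_lit 4) (nat_lit 334) (nat_lit 256) (nat_lit 190)) (XT.lf (nat_lit 0) (nat_lit 7407281304222) (nat_lit 76) (nat_lit 13278889486878) (nat_lit 76) (nat_lit 13275036568835) (nat_lit 1) (nat_lit 4) (nat_lit 2) (nat_lit 5) (nat_lit 2) (nat_lit 4) (nat_lit 335) (nat_lit 256) (nat_lit 189))) (XT.nd (nat_lit 78) (nat_lit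 0) (nat_lit 0) (XT.lf (nat_lit 0) (nat_lit 8532814832318) (nat_lit 76) (nat_lit 15262688243075) (nat_lit 76) (nat_lit 15258835281932) (nat_lit 1) (nat_lit 4) (nat_lit 2) (nat_lit 5) (nat_lit 2) (nat_lit 4) (nat_lit 336) (nat_lit 256) (nat_lit 188)) (XT.nd (nat_lit 78) (nat_lit 0) (nat_lit 0) (XT.lf (nat_lit 0) (nat_lit 9827178087690) (nat_lit 76) (nat_lit 17544056968604) (nat_lit 76) (nat_lit 17540203969984) (nat_lit 1) (nat_lit 4) (nat_lit 2) (nat_lit 5) (nat_lit 2) (nat_lit 4) (nat_lit 337) (nat_lit 256) (nat_lit 187)) (XT.lf (nat_lit 0) (nat_lit 11315695568815) (nat_lit 76) (nat_lit 20167631138530) (nat_lit 76) (nat_lit 20163778107321) (nat_lit 1) (nat_lit 4) (nat_lit 2) (nat_lit 5) (nat_lit 2) (nat_lit 4) (nat_lit 338) (nat_lit 256) (nat_lit 186))))) (XT.nd (nat_lit 156) (nat_lit 0) (nat_lit 0) (XT.nd (nat_lit 78) (nat_lit 0) (nat_lit 0) (XT.lf (nat_lit 0) (nat_lit 13027490443801)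 (nat_lit 76) (nat_lit 23184741551830) (nat_lit 76) (nat_lit 23180888492283) (nat_lit 1) (nat_lit 4) (nat_lit 2) (nat_lit 5) (nat_lit 2) (nat_lit 4) (nat_lit 339) (nat_lit 256) (nat_lit 185)) (XT.lf (nat_lit 0) (nat_lit 14996054351506) (nat_lit 76) (nat_lit 26654418629634) (nat_lit 76) (nat_lit 26650565545445) (nat_lit 1) (nat_lit 4) (nat_lit 2) (nat_lit 5) (nat_lit 2) (nat_lit 4) (nat_lit 340) (nat_lit 256) (nat_lit 184))) (XT.nd (nat_lit 78) (nat_lit 0) (nat_lit 0) (XT.lf (nat_lit 0) (nat_lit 17259902672733) (nat_lit 76) (nat_lit 30644547358247) (nat_lit 76) (nat_lit 30640694252630) (nat_lit 1) (nat_lit 4) (nat_lit 2) (nat_lit 5) (nat_lit 2) (nat_lit 4) (nat_lit 341) (nat_lit 256) (nat_lit 183)) (XT.nd (nat_lit 34710) (nat_lit 0) (nat_lit 1976) (XT.lf (nat_lit 0) (nat_lit 19863328092029) (nat_lit 76) (nat_lit 35233195473662) (nat_lit 76) (nat_lit 35229342349413) (nat_lit 1) (nat_lit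 4) (nat_lit 2) (nat_lit 5) (nat_lit 2) (nat_lit 4) (nat_lit 342) (nat_lit 256) (nat_lit 182)) (XT.lf (nat_lit 0) (nat_lit 2557438813) (nat_lit 228) (nat_lit 552753798) (nat_lit 228) (nat_lit 552753798) (nat_lit 27) (nat_lit 4) (nat_lit 30) (nat_lit 5) (nat_lit 30) (nat_lit 4) (nat_lit 266) (nat_lit 257) (nat_lit 257))))))) (XT.nd (nat_lit 780) (nat_lit 532) (nat_lit 0) (XT.nd (nat_lit 390) (nat_lit 380) (nat_lit 0) (XT.nd (nat_lit 156) (nat_lit 304) (nat_lit 0) (XT.nd (nat_lit 78) (nat_lit 152) (nat_lit 0) (XT.lf (nat_lit 0) (nat_lit 2315576226) (nat_lit 380) (nat_lit 4368380106) (nat_lit 0) (nat_lit 978656548) (nat_lit 22) (nat_lit 5) (nat_lit 27) (nat_lit 4) (nat_lit 22) (nat_lit 4) (nat_lit 267) (nat_lit 257) (nat_lit 256)) (XT.lf (nat_lit 0) (nat_lit 1269517624) (nat_lit 152) (nat_lit 4652798067) (nat_lit 152) (nat_lit 2153339539) (nat_lit 20) (nat_lit 4) (nat_lit 22) (nat_lit 5)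 (nat_lit 22) (nat_lit 4) (nat_lit 268) (nat_lit 257) (nat_lit 255))) (XT.nd (nat_lit 78) (nat_lit 228) (nat_lit 0) (XT.lf (nat_lit 0) (nat_lit 1196972166) (nat_lit 228) (nat_lit 936871718) (nat_lit 76) (nat_lit 6436629634) (nat_lit 19) (nat_lit 5) (nat_lit 22) (nat_lit 5) (nat_lit 20) (nat_lit 4) (nat_lit 269) (nat_lit 257) (nat_lit 254)) (XT.nd (nat_lit 78) (nat_lit 152) (nat_lit 0) (XT.lf (nat_lit 0) (nat_lit 4736607431) (nat_lit 152) (nat_lit 3482736925) (nat_lit 0) (nat_lit 919730679) (nat_lit 18) (nat_lit 5) (nat_lit 20) (nat_lit 4) (nat_lit 18) (nat_lit 4) (nat_lit 270) (nat_lit 257) (nat_lit 253)) (XT.lf (nat_lit 0) (nat_lit 3202884151) (nat_lit 152) (nat_lit 5541015576) (nat_lit 152) (nat_lit 1059453463) (nat_lit 16) (nat_lit 4) (nat_lit 18) (nat_lit 5) (nat_lit 18) (nat_lit 4) (nat_lit 271) (nat_lit 257) (nat_lit 252))))) (XT.nd (nat_lit 156) (nat_lit 228) (nat_lit 0) (XT.nd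 (nat_lit 78) (nat_lit 0) (nat_lit 0) (XT.lf (nat_lit 0) (nat_lit 79811006) (nat_lit 76) (nat_lit 2310589174) (nat_lit 152) (nat_lit 8182250765) (nat_lit 14) (nat_lit 5) (nat_lit 15) (nat_lit 5) (nat_lit 16) (nat_lit 4) (nat_lit 272) (nat_lit 257) (nat_lit 251)) (XT.lf (nat_lit 0) (nat_lit 6342604071) (nat_lit 152) (nat_lit 3587803536) (nat_lit 0) (nat_lit 1505954498) (nat_lit 14) (nat_lit 5) (nat_lit 16) (nat_lit 4) (nat_lit 14) (nat_lit 4) (nat_lit 273) (nat_lit 257) (nat_lit 250))) (XT.nd (nat_lit 78) (nat_lit 152) (nat_lit 0) (XT.lf (nat_lit 0) (nat_lit 4122002040) (nat_lit 76) (nat_lit 6762637039) (nat_lit 76) (nat_lit 1545951454) (nat_lit 13) (nat_lit 4) (nat_lit 14) (nat_lit 5) (nat_lit 14) (nat_lit 4) (nat_lit 274) (nat_lit 257) (nat_lit 249)) (XT.nd (nat_lit 78) (nat_lit 76) (nat_lit 0) (XT.lf (nat_lit 0) (nat_lit 2225843045) (nat_lit 152) (nat_lit 761589135) (nat_lit 76) (nat_lit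 10583555876) (nat_lit 12) (nat_lit 5) (nat_lit 14) (nat_lit 5) (nat_lit 13) (nat_lit 4) (nat_lit 275) (nat_lit 257) (nat_lit 248)) (XT.lf (nat_lit 0) (nat_lit 6567410113) (nat_lit 152) (nat_lit 6786066347) (nat_lit 0) (nat_lit 1493920107) (nat_lit 11) (nat_lit 5) (nat_lit 13) (nat_lit 4) (nat_lit 11) (nat_lit 4) (nat_lit 276) (nat_lit 257) (nat_lit 247)))))) (XT.nd (nat_lit 390) (nat_lit 228) (nat_lit 0) (XT.nd (nat_lit 156) (nat_lit 228) (nat_lit 0) (XT.nd (nat_lit 78) (nat_lit 0) (nat_lit 0) (XT.lf (nat_lit 0) (nat_lit 1540456817) (nat_lit 76) (nat_lit 10032019376) (nat_lit 76) (nat_lit 4741242546) (nat_lit 10) (nat_lit 4) (nat_lit 11) (nat_lit 5) (nat_lit 11) (nat_lit 4) (nat_lit 277) (nat_lit 257) (nat_lit 246)) (XT.lf (nat_lit 0) (nat_lit 11461945602) (nat_lit 76) (nat_lit 5999057169) (nat_lit 76) (nat_lit 519335276) (nat_lit 10) (nat_lit 4) (nat_lit 11) (nat_lit 5) (nat_lit 11)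 (nat_lit 4) (nat_lit 278) (nat_lit 257) (nat_lit 245))) (XT.nd (nat_lit 78) (nat_lit 76) (nat_lit 0) (XT.lf (nat_lit 0) (nat_lit 2648668324) (nat_lit 76) (nat_lit 1208396919) (nat_lit 152) (nat_lit 16027063908) (nat_lit 8) (nat_lit 5) (nat_lit 9) (nat_lit 5) (nat_lit 10) (nat_lit 4) (nat_lit 279) (nat_lit 257) (nat_lit 244)) (XT.nd (nat_lit 78) (nat_lit 76) (nat_lit 0) (XT.lf (nat_lit 0) (nat_lit 9173446402) (nat_lit 152) (nat_lit 8704629548) (nat_lit 0) (nat_lit 4141366782) (nat_lit 8) (nat_lit 5) (nat_lit 10) (nat_lit 4) (nat_lit 8) (nat_lit 4) (nat_lit 280) (nat_lit 257) (nat_lit 243)) (XT.lf (nat_lit 0) (nat_lit 781728924) (nat_lit 76) (nat_lit 14422982575) (nat_lit 76) (nat_lit 9282873002) (nat_lit 7) (nat_lit 4) (nat_lit 8) (nat_lit 5) (nat_lit 8) (nat_lit 4) (nat_lit 281) (nat_lit 257) (nat_lit 242))))) (XT.nd (nat_lit 234) (nat_lit 76) (nat_lit 0) (XT.nd (nat_lit 78) (nat_lit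 152) (nat_lit 0) (XT.lf (nat_lit 0) (nat_lit 12348452659) (nat_lit 76) (nat_lit 10083954338) (nat_lit 76) (nat_lit 4849905674) (nat_lit 7) (nat_lit 4) (nat_lit 8) (nat_lit 5) (nat_lit 8) (nat_lit 4) (nat_lit 282) (nat_lit 257) (nat_lit 241)) (XT.nd (nat_lit 78) (nat_lit 76) (nat_lit 0) (XT.lf (nat_lit 0) (nat_lit 77089179) (nat_lit 152) (nat_lit 5149993092) (nat_lit 76) (nat_lit 25290048574) (nat_lit 6) (nat_lit 5) (nat_lit 8) (nat_lit 5) (nat_lit 7) (nat_lit 4) (nat_lit 283) (nat_lit 257) (nat_lit 240)) (XT.lf (nat_lit 0) (nat_lit 5405179115) (nat_lit 152) (nat_lit 28052611347) (nat_lit 0) (nat_lit 721034526) (nat_lit 5) (nat_lit 5) (nat_lit 7) (nat_lit 4) (nat_lit 5) (nat_lit 4) (nat_lit 284) (nat_lit 257) (nat_lit 239)))) (XT.nd (nat_lit 78) (nat_lit 76) (nat_lit 0) (XT.lf (nat_lit 0) (nat_lit 11935763435) (nat_lit 152) (nat_lit 19195680991) (nat_lit 0) (nat_lit 7197908867) (nat_lit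 5) (nat_lit 5) (nat_lit 7) (nat_lit 4) (nat_lit 5) (nat_lit 4) (nat_lit 285) (nat_lit 257) (nat_lit 238)) (XT.nd (nat_lit 78) (nat_lit 76) (nat_lit 0) (XT.lf (nat_lit 0) (nat_lit 19334934344) (nat_lit 152) (nat_lit 9233863968) (nat_lit 0) (nat_lit 14550375446) (nat_lit 5) (nat_lit 5) (nat_lit 7) (nat_lit 4) (nat_lit 5) (nat_lit 4) (nat_lit 286) (nat_lit 257) (nat_lit 237)) (XT.lf (nat_lit 0) (nat_lit 2225910808) (nat_lit 76) (nat_lit 25613717642) (nat_lit 76) (nat_lit 20788546284) (nat_lit 4) (nat_lit 4) (nat_lit 5) (nat_lit 5) (nat_lit 5) (nat_lit 4) (nat_lit 287) (nat_lit 257) (nat_lit 236))))))))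
noncomputable def xc42 : XT := (XT.nd (nat_lit 1560) (nat_lit 0) (nat_lit 0) (XT.nd (nat_lit 780) (nat_lit 76) (nat_lit 0) (XT.nd (nat_lit 390) (nat_lit 0) (nat_lit 0) (XT.nd (nat_lit 156) (nat_lit 152) (nat_lit 0) (XT.nd (nat_lit 78) (nat_lit 0) (nat_lit 0) (XT.lf (nat_lit 0) (nat_lit 16256771458) (nat_lit 76) (nat_lit 21754314733) (nat_lit 76) (nat_lit 16893828191) (nat_lit 4) (nat_lit 4) (nat_lit 5) (nat_lit 5) (nat_lit 5) (nat_lit 4) (nat_lit 288) (nat_lit 257) (nat_lit 235)) (XT.lf (nat_lit 0) (nat_lit 32230834478) (nat_lit 76) (nat_lit 17397758782) (nat_lit 76) (nat_lit 12506563384) (nat_lit 4) (nat_lit 4) (nat_lit 5) (nat_lit 5) (nat_lit 5) (nat_lit 4) (nat_lit 289) (nat_lit 257) (nat_lit 234))) (XT.nd (nat_lit 78) (nat_lit 152) (nat_lit 0) (XT.lf (nat_lit 0) (nat_lit 50460635883) (nat_lit 76) (nat_lit 12458812823) (nat_lit 76) (nat_lit 7540914073) (nat_lit 4) (nat_lit 4) (nat_lit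 5) (nat_lit 5) (nat_lit 5) (nat_lit 4) (nat_lit 290) (nat_lit 257) (nat_lit 233)) (XT.nd (nat_lit 78) (nat_lit 152) (nat_lit 0) (XT.lf (nat_lit 0) (nat_lit 71302845701) (nat_lit 76) (nat_lit 6840845305) (nat_lit 76) (nat_lit 1899726249) (nat_lit 4) (nat_lit 4) (nat_lit 5) (nat_lit 5) (nat_lit 5) (nat_lit 4) (nat_lit 291) (nat_lit 257) (nat_lit 232)) (XT.lf (nat_lit 0) (nat_lit 4287681994) (nat_lit 76) (nat_lit 14175038) (nat_lit 152) (nat_lit 86715205704) (nat_lit 2) (nat_lit 5) (nat_lit 3) (nat_lit 5) (nat_lit 4) (nat_lit 4) (nat_lit 292) (nat_lit 257) (nat_lit 231))))) (XT.nd (nat_lit 156) (nat_lit 0) (nat_lit 0) (XT.nd (nat_lit 78) (nat_lit 0) (nat_lit 0) (XT.lf (nat_lit 0) (nat_lit 11987925991) (nat_lit 152) (nat_lit 83864493387) (nat_lit 0) (nat_lit 7658475109) (nat_lit 2) (nat_lit 5) (nat_lit 4) (nat_lit 4) (nat_lit 2) (nat_lit 4) (nat_lit 293) (nat_lit 257) (nat_lit 230)) (XT.lf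 (nat_lit 0) (nat_lit 20780276851) (nat_lit 152) (nat_lit 80667986571) (nat_lit 0) (nat_lit 16437549683) (nat_lit 2) (nat_lit 5) (nat_lit 4) (nat_lit 4) (nat_lit 2) (nat_lit 4) (nat_lit 294) (nat_lit 257) (nat_lit 229))) (XT.nd (nat_lit 78) (nat_lit 0) (nat_lit 0) (XT.lf (nat_lit 0) (nat_lit 30850346911) (nat_lit 152) (nat_lit 77076732987) (nat_lit 0) (nat_lit 26496075147) (nat_lit 2) (nat_lit 5) (nat_lit 4) (nat_lit 4) (nat_lit 2) (nat_lit 4) (nat_lit 295) (nat_lit 257) (nat_lit 228)) (XT.nd (nat_lit 78) (nat_lit 0) (nat_lit 0) (XT.lf (nat_lit 0) (nat_lit 42395159280) (nat_lit 152) (nat_lit 73020468978) (nat_lit 0) (nat_lit 38030848737) (nat_lit 2) (nat_lit 5) (nat_lit 4) (nat_lit 4) (nat_lit 2) (nat_lit 4) (nat_lit 296) (nat_lit 257) (nat_lit 227)) (XT.lf (nat_lit 0) (nat_lit 55640590723) (nat_lit 152) (nat_lit 68419832855) (nat_lit 0) (nat_lit 51267550807) (nat_lit 2) (nat_lit 5) (nat_lit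 4) (nat_lit 4) (nat_lit 2) (nat_lit 4) (nat_lit 297) (nat_lit 257) (nat_lit 226)))))) (XT.nd (nat_lit 390) (nat_lit 76) (nat_lit 0) (XT.nd (nat_lit 156) (nat_lit 0) (nat_lit 0) (XT.nd (nat_lit 78) (nat_lit 0) (nat_lit 0) (XT.lf (nat_lit 0) (nat_lit 70845790985) (nat_lit 152) (nat_lit 63184812174) (nat_lit 0) (nat_lit 66465160309) (nat_lit 2) (nat_lit 5) (nat_lit 4) (nat_lit 4) (nat_lit 2) (nat_lit 4) (nat_lit 298) (nat_lit 257) (nat_lit 225)) (XT.lf (nat_lit 0) (nat_lit 88308253114) (nat_lit 152) (nat_lit 57212982616) (nat_lit 0) (nat_lit 83921021778) (nat_lit 2) (nat_lit 5) (nat_lit 4) (nat_lit 4) (nat_lit 2) (nat_lit 4) (nat_lit 299) (nat_lit 257) (nat_lit 224))) (XT.nd (nat_lit 78) (nat_lit 0) (nat_lit 0) (XT.lf (nat_lit 0) (nat_lit 108369633979) (nat_lit 152) (nat_lit 50387504038) (nat_lit 0) (nat_lit 103976662939) (nat_lit 2) (nat_lit 5) (nat_lit 4) (nat_lit 4) (nat_lit 2) (nat_lit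 4) (nat_lit 300) (nat_lit 257) (nat_lit 223)) (XT.nd (nat_lit 78) (nat_lit 0) (nat_lit 0) (XT.lf (nat_lit 0) (nat_lit 131422438857) (nat_lit 152) (nat_lit 42574834468) (nat_lit 0) (nat_lit 127024476769) (nat_lit 2) (nat_lit 5) (nat_lit 4) (nat_lit 4) (nat_lit 2) (nat_lit 4) (nat_lit 301) (nat_lit 257) (nat_lit 222)) (XT.lf (nat_lit 0) (nat_lit 157917700887) (nat_lit 152) (nat_lit 33622117328) (nat_lit 0) (nat_lit 153515398758) (nat_lit 2) (nat_lit 5) (nat_lit 4) (nat_lit 4) (nat_lit 2) (nat_lit 4) (nat_lit 302) (nat_lit 257) (nat_lit 221))))) (XT.nd (nat_lit 156) (nat_lit 76) (nat_lit 0) (XT.nd (nat_lit 78) (nat_lit 0) (nat_lit 0) (XT.lf (nat_lit 0) (nat_lit 188373805630) (nat_lit 152) (nat_lit 23354190760) (nat_lit 0) (nat_lit 183967729552) (nat_lit 2) (nat_lit 5) (nat_lit 4) (nat_lit 4) (nat_lit 2) (nat_lit 4) (nat_lit 303) (nat_lit 257) (nat_lit 220)) (XT.lf (nat_lit 0) (nat_lit 223386633398)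 (nat_lit 152) (nat_lit 11570160548) (nat_lit 0) (nat_lit 218977275625) (nat_lit 2) (nat_lit 5) (nat_lit 4) (nat_lit 4) (nat_lit 2) (nat_lit 4) (nat_lit 304) (nat_lit 257) (nat_lit 219))) (XT.nd (nat_lit 78) (nat_lit 0) (nat_lit 0) (XT.lf (nat_lit 0) (nat_lit 2152127709) (nat_lit 76) (nat_lit 261578205085) (nat_lit 76) (nat_lit 257165993664) (nat_lit 1) (nat_lit 4) (nat_lit 2) (nat_lit 5) (nat_lit 2) (nat_lit 4) (nat_lit 305) (nat_lit 257) (nat_lit 218)) (XT.nd (nat_lit 78) (nat_lit 0) (nat_lit 0) (XT.lf (nat_lit 0) (nat_lit 19213095691) (nat_lit 76) (nat_lit 291507626087) (nat_lit 76) (nat_lit 287092933233) (nat_lit 1) (nat_lit 4) (nat_lit 2) (nat_lit 5) (nat_lit 2) (nat_lit 4) (nat_lit 306) (nat_lit 257) (nat_lit 217)) (XT.lf (nat_lit 0) (nat_lit 38815824709) (nat_lit 76) (nat_lit 325935436427) (nat_lit 76) (nat_lit 321518585806) (nat_lit 1) (nat_lit 4) (nat_lit 2) (nat_lit 5) (nat_lit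 2) (nat_lit 4) (nat_lit 307) (nat_lit 257) (nat_lit 216))))))) (XT.nd (nat_lit 780) (nat_lit 0) (nat_lit 0) (XT.nd (nat_lit 390) (nat_lit 0) (nat_lit 0) (XT.nd (nat_lit 156) (nat_lit 0) (nat_lit 0) (XT.nd (nat_lit 78) (nat_lit 0) (nat_lit 0) (XT.lf (nat_lit 0) (nat_lit 61343846417) (nat_lit 76) (nat_lit 365535223700) (nat_lit 76) (nat_lit 361116496760) (nat_lit 1) (nat_lit 4) (nat_lit 2) (nat_lit 5) (nat_lit 2) (nat_lit 4) (nat_lit 308) (nat_lit 257) (nat_lit 215)) (XT.lf (nat_lit 0) (nat_lit 87237926458) (nat_lit 76) (nat_lit 411081766353) (nat_lit 76) (nat_lit 406661407830) (nat_lit 1) (nat_lit 4) (nat_lit 2) (nat_lit 5) (nat_lit 2) (nat_lit 4) (nat_lit 309) (nat_lit 257) (nat_lit 214))) (XT.nd (nat_lit 78) (nat_lit 0) (nat_lit 0) (XT.lf (nat_lit 0) (nat_lit 117004688137) (nat_lit 76) (nat_lit 463466192392) (nat_lit 76) (nat_lit 459044415103) (nat_lit 1) (nat_lit 4) (nat_lit 2) (nat_lit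 5) (nat_lit 2) (nat_lit 4) (nat_lit 310) (nat_lit 257) (nat_lit 213)) (XT.nd (nat_lit 78) (nat_lit 0) (nat_lit 0) (XT.lf (nat_lit 0) (nat_lit 151226524616) (nat_lit 76) (nat_lit 523713414503) (nat_lit 76) (nat_lit 519290403503) (nat_lit 1) (nat_lit 4) (nat_lit 2) (nat_lit 5) (nat_lit 2) (nat_lit 4) (nat_lit 311) (nat_lit 257) (nat_lit 212)) (XT.lf (nat_lit 0) (nat_lit 190572993566) (nat_lit 76) (nat_lit 593002182682) (nat_lit 76) (nat_lit 588578098890) (nat_lit 1) (nat_lit 4) (nat_lit 2) (nat_lit 5) (nat_lit 2) (nat_lit 4) (nat_lit 312) (nat_lit 257) (nat_lit 211))))) (XT.nd (nat_lit 156) (nat_lit 0) (nat_lit 0) (XT.nd (nat_lit 78) (nat_lit 0) (nat_lit 0) (XT.lf (nat_lit 0) (nat_lit 235813917207) (nat_lit 76) (nat_lit 672688146743) (nat_lit 76) (nat_lit 668263130088) (nat_lit 1) (nat_lit 4) (nat_lit 2) (nat_lit 5) (nat_lit 2) (nat_lit 4) (nat_lit 313) (nat_lit 257) (nat_lit 210)) (XT.lf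 (nat_lit 0) (nat_lit 287834444043) (nat_lit 76) (nat_lit 764330379894) (nat_lit 76) (nat_lit 759904552054) (nat_lit 1) (nat_lit 4) (nat_lit 2) (nat_lit 5) (nat_lit 2) (nat_lit 4) (nat_lit 314) (nat_lit 257) (nat_lit 209))) (XT.nd (nat_lit 78) (nat_lit 0) (nat_lit 0) (XT.lf (nat_lit 0) (nat_lit 347652366991) (nat_lit 76) (nat_lit 869721882349) (nat_lit 76) (nat_lit 865295349132) (nat_lit 1) (nat_lit 4) (nat_lit 2) (nat_lit 5) (nat_lit 2) (nat_lit 4) (nat_lit 315) (nat_lit 257) (nat_lit 208)) (XT.nd (nat_lit 78) (nat_lit 0) (nat_lit 0) (XT.lf (nat_lit 0) (nat_lit 416438036718) (nat_lit 76) (nat_lit 990924661766) (nat_lit 76) (nat_lit 986497515176) (nat_lit 1) (nat_lit 4) (nat_lit 2) (nat_lit 5) (nat_lit 2) (nat_lit 4) (nat_lit 316) (nat_lit 257) (nat_lit 207)) (XT.lf (nat_lit 0) (nat_lit 495537259804) (nat_lit 76) (nat_lit 1130310076872) (nat_lit 76) (nat_lit 1125882396915) (nat_lit 1)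 (nat_lit 4) (nat_lit 2) (nat_lit 5) (nat_lit 2) (nat_lit 4) (nat_lit 317) (nat_lit 257) (nat_lit 206)))))) (XT.nd (nat_lit 390) (nat_lit 0) (nat_lit 0) (XT.nd (nat_lit 156) (nat_lit 0) (nat_lit 0) (XT.nd (nat_lit 78) (nat_lit 0) (nat_lit 0) (XT.lf (nat_lit 0) (nat_lit 586497629747) (nat_lit 76) (nat_lit 1290605233615) (nat_lit 76) (nat_lit 1286177089860) (nat_lit 1) (nat_lit 4) (nat_lit 2) (nat_lit 5) (nat_lit 2) (nat_lit 4) (nat_lit 318) (nat_lit 257) (nat_lit 205)) (XT.lf (nat_lit 0) (nat_lit 691098805956) (nat_lit 76) (nat_lit 1474946341583) (nat_lit 76) (nat_lit 1470517794526) (nat_lit 1) (nat_lit 4) (nat_lit 2) (nat_lit 5) (nat_lit 2) (nat_lit 4) (nat_lit 319) (nat_lit 257) (nat_lit 204))) (XT.nd (nat_lit 78) (nat_lit 0) (nat_lit 0) (XT.lf (nat_lit 0) (nat_lit 811387333184) (nat_lit 76) (nat_lit 1686940074628) (nat_lit 76) (nat_lit 1682511176873) (nat_lit 1) (nat_lit 4) (nat_lit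 2) (nat_lit 5) (nat_lit 2) (nat_lit 4) (nat_lit 320) (nat_lit 257) (nat_lit 203)) (XT.nd (nat_lit 78) (nat_lit 0) (nat_lit 0) (XT.lf (nat_lit 0) (nat_lit 949716682617) (nat_lit 76) (nat_lit 1930734136222) (nat_lit 76) (nat_lit 1926304933513) (nat_lit 1) (nat_lit 4) (nat_lit 2) (nat_lit 5) (nat_lit 2) (nat_lit 4) (nat_lit 321) (nat_lit 257) (nat_lit 202)) (XT.lf (nat_lit 0) (nat_lit 1108793298047) (nat_lit 76) (nat_lit 2211098410179) (nat_lit 76) (nat_lit 2206668942293) (nat_lit 1) (nat_lit 4) (nat_lit 2) (nat_lit 5) (nat_lit 2) (nat_lit 4) (nat_lit 322) (nat_lit 257) (nat_lit 201))))) (XT.nd (nat_lit 156) (nat_lit 0) (nat_lit 0) (XT.nd (nat_lit 78) (nat_lit 0) (nat_lit 0) (XT.lf (nat_lit 0) (nat_lit 1291729548037) (nat_lit 76) (nat_lit 2533518284468) (nat_lit 76) (nat_lit 2529088585993) (nat_lit 1) (nat_lit 4) (nat_lit 2) (nat_lit 5) (nat_lit 2) (nat_lit 4) (nat_lit 323) (nat_lit 257)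 (nat_lit 200)) (XT.lf (nat_lit 0) (nat_lit 1502104620086) (nat_lit 76) (nat_lit 2904301974021) (nat_lit 76) (nat_lit 2899872075033) (nat_lit 1) (nat_lit 4) (nat_lit 2) (nat_lit 5) (nat_lit 2) (nat_lit 4) (nat_lit 324) (nat_lit 257) (nat_lit 199))) (XT.nd (nat_lit 78) (nat_lit 0) (nat_lit 0) (XT.lf (nat_lit 0) (nat_lit 1744034548214) (nat_lit 76) (nat_lit 3330703942329) (nat_lit 76) (nat_lit 3326273868983) (nat_lit 1) (nat_lit 4) (nat_lit 2) (nat_lit 5) (nat_lit 2) (nat_lit 4) (nat_lit 325) (nat_lit 257) (nat_lit 198)) (XT.nd (nat_lit 78) (nat_lit 0) (nat_lit 0) (XT.lf (nat_lit 0) (nat_lit 2022252744058) (nat_lit 76) (nat_lit 3821066836598) (nat_lit 76) (nat_lit 3816636611635) (nat_lit 1) (nat_lit 4) (nat_lit 2) (nat_lit 5) (nat_lit 2) (nat_lit 4) (nat_lit 326) (nat_lit 257) (nat_lit 197)) (XT.lf (nat_lit 0) (nat_lit 2342202607101) (nat_lit 76) (nat_lit 4384984713455) (nat_lit 76) (nat_lit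 4380554356652) (nat_lit 1) (nat_lit 4) (nat_lit 2) (nat_lit 5) (nat_lit 2) (nat_lit 4) (nat_lit 327) (nat_lit 257) (nat_lit 196))))))))
noncomputable def xc43 : XT := (XT.nd (nat_lit 36036) (nat_lit 0) (nat_lit 228) (XT.nd (nat_lit 780) (nat_lit 0) (nat_lit 0) (XT.nd (nat_lit 390) (nat_lit 0) (nat_lit 0) (XT.nd (nat_lit 156) (nat_lit 0) (nat_lit 0) (XT.nd (nat_lit 78) (nat_lit 0) (nat_lit 0) (XT.lf (nat_lit 0) (nat_lit 2710144025968) (nat_lit 76) (nat_lit 5033490748751) (nat_lit 76) (nat_lit 5029060277304) (nat_lit 1) (nat_lit 4) (nat_lit 2) (nat_lit 5) (nat_lit 2) (nat_lit 4) (nat_lit 328) (nat_lit 257) (nat_lit 195)) (XT.lf (nat_lit 0) (nat_lit 3133275854506) (nat_lit 76) (nat_lit 5779273104047) (nat_lit 76) (nat_lit 5774842532910) (nat_lit 1) (nat_lit 4) (nat_lit 2) (nat_lit 5) (nat_lit 2) (nat_lit 4) (nat_lit 329) (nat_lit 257) (nat_lit 194))) (XT.nd (nat_lit 78) (nat_lit 0) (nat_lit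 0) (XT.lf (nat_lit 0) (nat_lit 3619876758927) (nat_lit 76) (nat_lit 6636923173251) (nat_lit 76) (nat_lit 6632492515427) (nat_lit 1) (nat_lit 4) (nat_lit 2) (nat_lit 5) (nat_lit 2) (nat_lit 4) (nat_lit 330) (nat_lit 257) (nat_lit 193)) (XT.nd (nat_lit 78) (nat_lit 0) (nat_lit 0) (XT.lf (nat_lit 0) (nat_lit 4179467191707) (nat_lit 76) (nat_lit 7623221066412) (nat_lit 76) (nat_lit 7618790333207) (nat_lit 1) (nat_lit 4) (nat_lit 2) (nat_lit 5) (nat_lit 2) (nat_lit 4) (nat_lit 331) (nat_lit 257) (nat_lit 192)) (XT.lf (nat_lit 0) (nat_lit 4822995661315) (nat_lit 76) (nat_lit 8757463916222) (nat_lit 76) (nat_lit 8753033117470) (nat_lit 1) (nat_lit 4) (nat_lit 2) (nat_lit 5) (nat_lit 2) (nat_lit 4) (nat_lit 332) (nat_lit 257) (nat_lit 191))))) (XT.nd (nat_lit 156) (nat_lit 0) (nat_lit 0) (XT.nd (nat_lit 78) (nat_lit 0) (nat_lit 0) (XT.lf (nat_lit 0) (nat_lit 5563052942155) (nat_lit 76) (nat_lit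 10061843430613) (nat_lit 76) (nat_lit 10057412574863) (nat_lit 1) (nat_lit 4) (nat_lit 2) (nat_lit 5) (nat_lit 2) (nat_lit 4) (nat_lit 333) (nat_lit 257) (nat_lit 190)) (XT.lf (nat_lit 0) (nat_lit 6414118415810) (nat_lit 76) (nat_lit 11561880078344) (nat_lit 76) (nat_lit 11557449173030) (nat_lit 1) (nat_lit 4) (nat_lit 2) (nat_lit 5) (nat_lit 2) (nat_lit 4) (nat_lit 334) (nat_lit 257) (nat_lit 189))) (XT.nd (nat_lit 78) (nat_lit 0) (nat_lit 0) (XT.lf (nat_lit 0) (nat_lit 7392843363285) (nat_lit 76) (nat_lit 13286922402524) (nat_lit 76) (nat_lit 13282491454111) (nat_lit 1) (nat_lit 4) (nat_lit 2) (nat_lit 5) (nat_lit 2) (nat_lit 4) (nat_lit 335) (nat_lit 257) (nat_lit 188)) (XT.nd (nat_lit 78) (nat_lit 0) (nat_lit 0) (XT.lf (nat_lit 0) (nat_lit 8518376750945) (nat_lit 76) (nat_lit 15270721231233) (nat_lit 76) (nat_lit 15266290245343) (nat_lit 1) (nat_lit 4) (nat_lit 2) (nat_lit 5) (nat_lit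 2) (nat_lit 4) (nat_lit 336) (nat_lit 257) (nat_lit 187)) (XT.lf (nat_lit 0) (nat_lit 9812739884200) (nat_lit 76) (nat_lit 17552090019817) (nat_lit 76) (nat_lit 17547659001338) (nat_lit 1) (nat_lit 4) (nat_lit 2) (nat_lit 5) (nat_lit 2) (nat_lit 4) (nat_lit 337) (nat_lit 257) (nat_lit 186)))))) (XT.nd (nat_lit 34866) (nat_lit 0) (nat_lit 1444) (XT.nd (nat_lit 156) (nat_lit 0) (nat_lit 0) (XT.nd (nat_lit 78) (nat_lit 0) (nat_lit 0) (XT.lf (nat_lit 0) (nat_lit 11301257259135) (nat_lit 76) (nat_lit 20175664244573) (nat_lit 76) (nat_lit 20171233197756) (nat_lit 1) (nat_lit 4) (nat_lit 2) (nat_lit 5) (nat_lit 2) (nat_lit 4) (nat_lit 338) (nat_lit 257) (nat_lit 185)) (XT.lf (nat_lit 0) (nat_lit 13013052041782) (nat_lit 76) (nat_lit 23192774705552) (nat_lit 76) (nat_lit 23188343634093) (nat_lit 1) (nat_lit 4) (nat_lit 2) (nat_lit 5) (nat_lit 2) (nat_lit 4) (nat_lit 339) (nat_lit 257) (nat_lit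 184))) (XT.nd (nat_lit 78) (nat_lit 0) (nat_lit 0) (XT.lf (nat_lit 0) (nat_lit 14981615869192) (nat_lit 76) (nat_lit 26662451824815) (nat_lit 76) (nat_lit 26658020731929) (nat_lit 1) (nat_lit 4) (nat_lit 2) (nat_lit 5) (nat_lit 2) (nat_lit 4) (nat_lit 340) (nat_lit 257) (nat_lit 183)) (XT.nd (nat_lit 78) (nat_lit 0) (nat_lit 0) (XT.lf (nat_lit 0) (nat_lit 17245464120598) (nat_lit 76) (nat_lit 30652580589480) (nat_lit 76) (nat_lit 30648149477961) (nat_lit 1) (nat_lit 4) (nat_lit 2) (nat_lit 5) (nat_lit 2) (nat_lit 4) (nat_lit 341) (nat_lit 257) (nat_lit 182)) (XT.lf (nat_lit 0) (nat_lit 19848889479179) (nat_lit 76) (nat_lit 35241228736245) (nat_lit 76) (nat_lit 35236797608524) (nat_lit 1) (nat_lit 4) (nat_lit 2) (nat_lit 5) (nat_lit 2) (nat_lit 4) (nat_lit 342) (nat_lit 257) (nat_lit 181))))) (XT.nd (nat_lit 156) (nat_lit 760) (nat_lit 0) (XT.nd (nat_lit 78) (nat_lit 0) (nat_lit 0) (XT.lf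 (nat_lit 0) (nat_lit 516911424) (nat_lit 228) (nat_lit 2378644612) (nat_lit 0) (nat_lit 516911424) (nat_lit 30) (nat_lit 5) (nat_lit 33) (nat_lit 4) (nat_lit 30) (nat_lit 4) (nat_lit 264) (nat_lit 258) (nat_lit 258)) (XT.lf (nat_lit 0) (nat_lit 4278331460) (nat_lit 228) (nat_lit 267369029) (nat_lit 0) (nat_lit 2510255186) (nat_lit 30) (nat_lit 5) (nat_lit 33) (nat_lit 4) (nat_lit 30) (nat_lit 4) (nat_lit 265) (nat_lit 258) (nat_lit 257))) (XT.nd (nat_lit 78) (nat_lit 456) (nat_lit 0) (XT.lf (nat_lit 0) (nat_lit 380791908) (nat_lit 304) (nat_lit 2486831299) (nat_lit 76) (nat_lit 4488408403) (nat_lit 26) (nat_lit 5) (nat_lit 30) (nat_lit 5) (nat_lit 27) (nat_lit 4) (nat_lit 266) (nat_lit 258) (nat_lit 256)) (XT.nd (nat_lit 78) (nat_lit 152) (nat_lit 0) (XT.lf (nat_lit 0) (nat_lit 2755278092) (nat_lit 304) (nat_lit 685527337) (nat_lit 380) (nat_lit 4285203878) (nat_lit 22) (nat_lit 5) (nat_lit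 26) (nat_lit 5) (nat_lit 27) (nat_lit 4) (nat_lit 267) (nat_lit 258) (nat_lit 255)) (XT.lf (nat_lit 0) (nat_lit 384634871) (nat_lit 152) (nat_lit 6419676561) (nat_lit 152) (nat_lit 1371857056) (nat_lit 20) (nat_lit 4) (nat_lit 22) (nat_lit 5) (nat_lit 22) (nat_lit 4) (nat_lit 268) (nat_lit 258) (nat_lit 254))))))) (XT.nd (nat_lit 780) (nat_lit 456) (nat_lit 0) (XT.nd (nat_lit 390) (nat_lit 304) (nat_lit 0) (XT.nd (nat_lit 156) (nat_lit 304) (nat_lit 0) (XT.nd (nat_lit 78) (nat_lit 76) (nat_lit 0) (XT.lf (nat_lit 0) (nat_lit 1736427794) (nat_lit 228) (nat_lit 2193546135) (nat_lit 76) (nat_lit 4762504743) (nat_lit 19) (nat_lit 5) (nat_lit 22) (nat_lit 5) (nat_lit 20) (nat_lit 4) (nat_lit 269) (nat_lit 258) (nat_lit 253)) (XT.lf (nat_lit 0) (nat_lit 4096870227) (nat_lit 76) (nat_lit 920861998) (nat_lit 152) (nat_lit 4282513018) (nat_lit 18) (nat_lit 5) (nat_lit 19) (nat_lit 5) (nat_lit 20)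 (nat_lit 4) (nat_lit 270) (nat_lit 258) (nat_lit 252))) (XT.nd (nat_lit 78) (nat_lit 152) (nat_lit 0) (XT.lf (nat_lit 0) (nat_lit 1117750993) (nat_lit 152) (nat_lit 7641718017) (nat_lit 152) (nat_lit 1245248957) (nat_lit 16) (nat_lit 4) (nat_lit 18) (nat_lit 5) (nat_lit 18) (nat_lit 4) (nat_lit 271) (nat_lit 258) (nat_lit 251)) (XT.nd (nat_lit 78) (nat_lit 76) (nat_lit 0) (XT.lf (nat_lit 0) (nat_lit 2080045887) (nat_lit 228) (nat_lit 2426968028) (nat_lit 76) (nat_lit 6289593907) (nat_lit 15) (nat_lit 5) (nat_lit 18) (nat_lit 5) (nat_lit 16) (nat_lit 4) (nat_lit 272) (nat_lit 258) (nat_lit 250)) (XT.lf (nat_lit 0) (nat_lit 4972489258) (nat_lit 76) (nat_lit 752439745) (nat_lit 152) (nat_lit 5981725618) (nat_lit 14) (nat_lit 5) (nat_lit 15) (nat_lit 5) (nat_lit 16) (nat_lit 4) (nat_lit 273) (nat_lit 258) (nat_lit 249))))) (XT.nd (nat_lit 156) (nat_lit 152) (nat_lit 0) (XT.nd (nat_lit 78)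 (nat_lit 76) (nat_lit 0) (XT.lf (nat_lit 0) (nat_lit 485729292) (nat_lit 76) (nat_lit 9484760949) (nat_lit 76) (nat_lit 2775070416) (nat_lit 13) (nat_lit 4) (nat_lit 14) (nat_lit 5) (nat_lit 14) (nat_lit 4) (nat_lit 274) (nat_lit 258) (nat_lit 248)) (XT.lf (nat_lit 0) (nat_lit 993282627) (nat_lit 152) (nat_lit 4861494709) (nat_lit 76) (nat_lit 8055901217) (nat_lit 12) (nat_lit 5) (nat_lit 14) (nat_lit 5) (nat_lit 13) (nat_lit 4) (nat_lit 275) (nat_lit 258) (nat_lit 247))) (XT.nd (nat_lit 78) (nat_lit 76) (nat_lit 0) (XT.lf (nat_lit 0) (nat_lit 3448356250) (nat_lit 76) (nat_lit 1526196518) (nat_lit 152) (nat_lit 10266714637) (nat_lit 11) (nat_lit 5) (nat_lit 12) (nat_lit 5) (nat_lit 13) (nat_lit 4) (nat_lit 276) (nat_lit 258) (nat_lit 246)) (XT.nd (nat_lit 78) (nat_lit 76) (nat_lit 0) (XT.lf (nat_lit 0) (nat_lit 9757392474) (nat_lit 152) (nat_lit 3716881919) (nat_lit 0) (nat_lit 3266767233)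 (nat_lit 11) (nat_lit 5) (nat_lit 13) (nat_lit 4) (nat_lit 11) (nat_lit 4) (nat_lit 277) (nat_lit 258) (nat_lit 245)) (XT.lf (nat_lit 0) (nat_lit 5672842703) (nat_lit 76) (nat_lit 9714329147) (nat_lit 76) (nat_lit 3059403850) (nat_lit 10) (nat_lit 4) (nat_lit 11) (nat_lit 5) (nat_lit 11) (nat_lit 4) (nat_lit 278) (nat_lit 258) (nat_lit 244)))))) (XT.nd (nat_lit 390) (nat_lit 228) (nat_lit 0) (XT.nd (nat_lit 156) (nat_lit 76) (nat_lit 0) (XT.nd (nat_lit 78) (nat_lit 76) (nat_lit 0) (XT.lf (nat_lit 0) (nat_lit 1351570505) (nat_lit 152) (nat_lit 3891918323) (nat_lit 76) (nat_lit 15151466541) (nat_lit 9) (nat_lit 5) (nat_lit 11) (nat_lit 5) (nat_lit 10) (nat_lit 4) (nat_lit 279) (nat_lit 258) (nat_lit 243)) (XT.lf (nat_lit 0) (nat_lit 6235311774) (nat_lit 152) (nat_lit 16143764867) (nat_lit 0) (nat_lit 216155812) (nat_lit 8) (nat_lit 5) (nat_lit 10) (nat_lit 4) (nat_lit 8) (nat_lit 4) (nat_lit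 280) (nat_lit 258) (nat_lit 242))) (XT.nd (nat_lit 78) (nat_lit 76) (nat_lit 0) (XT.lf (nat_lit 0) (nat_lit 12164445497) (nat_lit 152) (nat_lit 6862956699) (nat_lit 0) (nat_lit 6051350444) (nat_lit 8) (nat_lit 5) (nat_lit 10) (nat_lit 4) (nat_lit 8) (nat_lit 4) (nat_lit 281) (nat_lit 258) (nat_lit 241)) (XT.nd (nat_lit 78) (nat_lit 0) (nat_lit 0) (XT.lf (nat_lit 0) (nat_lit 3903293395) (nat_lit 76) (nat_lit 15110858990) (nat_lit 76) (nat_lit 8916077772) (nat_lit 7) (nat_lit 4) (nat_lit 8) (nat_lit 5) (nat_lit 8) (nat_lit 4) (nat_lit 282) (nat_lit 258) (nat_lit 240)) (XT.lf (nat_lit 0) (nat_lit 16813159804) (nat_lit 76) (nat_lit 10313442295) (nat_lit 76) (nat_lit 4047629629) (nat_lit 7) (nat_lit 4) (nat_lit 8) (nat_lit 5) (nat_lit 8) (nat_lit 4) (nat_lit 283) (nat_lit 258) (nat_lit 239))))) (XT.nd (nat_lit 234) (nat_lit 76) (nat_lit 0) (XT.nd (nat_lit 78) (nat_lit 76) (nat_lit 0) (XT.lf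 (nat_lit 0) (nat_lit 1300454220) (nat_lit 152) (nat_lit 3531602567) (nat_lit 76) (nat_lit 30080096319) (nat_lit 6) (nat_lit 5) (nat_lit 8) (nat_lit 5) (nat_lit 7) (nat_lit 4) (nat_lit 284) (nat_lit 258) (nat_lit 238)) (XT.nd (nat_lit 78) (nat_lit 0) (nat_lit 0) (XT.lf (nat_lit 0) (nat_lit 7411153423) (nat_lit 152) (nat_lit 29852333584) (nat_lit 0) (nat_lit 1862206360) (nat_lit 5) (nat_lit 5) (nat_lit 7) (nat_lit 4) (nat_lit 5) (nat_lit 4) (nat_lit 285) (nat_lit 258) (nat_lit 237)) (XT.lf (nat_lit 0) (nat_lit 14765430072) (nat_lit 152) (nat_lit 19980972735) (nat_lit 0) (nat_lit 9175870549) (nat_lit 5) (nat_lit 5) (nat_lit 7) (nat_lit 4) (nat_lit 5) (nat_lit 4) (nat_lit 286) (nat_lit 258) (nat_lit 236)))) (XT.nd (nat_lit 78) (nat_lit 76) (nat_lit 0) (XT.lf (nat_lit 0) (nat_lit 23138915472) (nat_lit 152) (nat_lit 8798021472) (nat_lit 0) (nat_lit 17514040765) (nat_lit 5) (nat_lit 5) (nat_lit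 7) (nat_lit 4) (nat_lit 5) (nat_lit 4) (nat_lit 287) (nat_lit 258) (nat_lit 235)) (XT.nd (nat_lit 78) (nat_lit 0) (nat_lit 0) (XT.lf (nat_lit 0) (nat_lit 4297950334) (nat_lit 76) (nat_lit 28575457308) (nat_lit 76) (nat_lit 22919873745) (nat_lit 4) (nat_lit 4) (nat_lit 5) (nat_lit 5) (nat_lit 5) (nat_lit 4) (nat_lit 288) (nat_lit 258) (nat_lit 234)) (XT.lf (nat_lit 0) (nat_lit 20206724485) (nat_lit 76) (nat_lit 24251968047) (nat_lit 76) (nat_lit 18569681132) (nat_lit 4) (nat_lit 4) (nat_lit 5) (nat_lit 5) (nat_lit 5) (nat_lit 4) (nat_lit 289) (nat_lit 258) (nat_lit 233))))))))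
noncomputable def xc44 : XT := (XT.nd (nat_lit 1560) (nat_lit 0) (nat_lit 0) (XT.nd (nat_lit 780) (nat_lit 76) (nat_lit 0) (XT.nd (nat_lit 390) (nat_lit 0) (nat_lit 0) (XT.nd (nat_lit 156) (nat_lit 152) (nat_lit 0) (XT.nd (nat_lit 78) (nat_lit 0) (nat_lit 0) (XT.lf (nat_lit 0) (nat_lit 38379752961) (nat_lit 76) (nat_lit 19341775732) (nat_lit 76) (nat_lit 13636268511) (nat_lit 4) (nat_lit 4) (nat_lit 5) (nat_lit 5) (nat_lit 5) (nat_lit 4) (nat_lit 290) (nat_lit 258) (nat_lit 232)) (XT.lf (nat_lit 0) (nat_lit 59172595015) (nat_lit 76) (nat_lit 13748811384) (nat_lit 76) (nat_lit 8023112592) (nat_lit 4) (nat_lit 4) (nat_lit 5) (nat_lit 5) (nat_lit 5) (nat_lit 4) (nat_lit 291) (nat_lit 258) (nat_lit 231))) (XT.nd (nat_lit 78) (nat_lit 152) (nat_lit 0) (XT.lf (nat_lit 0) (nat_lit 82992067121) (nat_lit 76) (nat_lit 7363647438) (nat_lit 76) (nat_lit 1620390759) (nat_lit 4) (nat_lit 4) (nat_lit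 5) (nat_lit 5) (nat_lit 5) (nat_lit 4) (nat_lit 292) (nat_lit 258) (nat_lit 230)) (XT.nd (nat_lit 78) (nat_lit 0) (nat_lit 0) (XT.lf (nat_lit 0) (nat_lit 5455797665) (nat_lit 152) (nat_lit 98688947942) (nat_lit 0) (nat_lit 448385137) (nat_lit 2) (nat_lit 5) (nat_lit 4) (nat_lit 4) (nat_lit 2) (nat_lit 4) (nat_lit 293) (nat_lit 258) (nat_lit 229)) (XT.lf (nat_lit 0) (nat_lit 14229016697) (nat_lit 152) (nat_lit 95531850082) (nat_lit 0) (nat_lit 9210059573) (nat_lit 2) (nat_lit 5) (nat_lit 4) (nat_lit 4) (nat_lit 2) (nat_lit 4) (nat_lit 294) (nat_lit 258) (nat_lit 228))))) (XT.nd (nat_lit 156) (nat_lit 0) (nat_lit 0) (XT.nd (nat_lit 78) (nat_lit 0) (nat_lit 0) (XT.lf (nat_lit 0) (nat_lit 24282450385) (nat_lit 152) (nat_lit 91974865155) (nat_lit 0) (nat_lit 19253454482) (nat_lit 2) (nat_lit 5) (nat_lit 4) (nat_lit 4) (nat_lit 2) (nat_lit 4) (nat_lit 295) (nat_lit 258) (nat_lit 227)) (XT.lf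 (nat_lit 0) (nat_lit 35812796345) (nat_lit 152) (nat_lit 87948399977) (nat_lit 0) (nat_lit 30775071068) (nat_lit 2) (nat_lit 5) (nat_lit 4) (nat_lit 4) (nat_lit 2) (nat_lit 4) (nat_lit 296) (nat_lit 258) (nat_lit 226))) (XT.nd (nat_lit 78) (nat_lit 0) (nat_lit 0) (XT.lf (nat_lit 0) (nat_lit 49045648300) (nat_lit 152) (nat_lit 83373675882) (nat_lit 0) (nat_lit 44000332264) (nat_lit 2) (nat_lit 5) (nat_lit 4) (nat_lit 4) (nat_lit 2) (nat_lit 4) (nat_lit 297) (nat_lit 258) (nat_lit 225)) (XT.nd (nat_lit 78) (nat_lit 0) (nat_lit 0) (XT.lf (nat_lit 0) (nat_lit 64239909878) (nat_lit 152) (nat_lit 78161187399) (nat_lit 0) (nat_lit 59187993181) (nat_lit 2) (nat_lit 5) (nat_lit 4) (nat_lit 4) (nat_lit 2) (nat_lit 4) (nat_lit 298) (nat_lit 258) (nat_lit 224)) (XT.lf (nat_lit 0) (nat_lit 81692860107) (nat_lit 152) (nat_lit 72208951057) (nat_lit 0) (nat_lit 76635203706) (nat_lit 2) (nat_lit 5) (nat_lit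 4) (nat_lit 4) (nat_lit 2) (nat_lit 4) (nat_lit 299) (nat_lit 258) (nat_lit 223)))))) (XT.nd (nat_lit 390) (nat_lit 76) (nat_lit 0) (XT.nd (nat_lit 156) (nat_lit 0) (nat_lit 0) (XT.nd (nat_lit 78) (nat_lit 0) (nat_lit 0) (XT.lf (nat_lit 0) (nat_lit 101745969755) (nat_lit 152) (nat_lit 65400510058) (nat_lit 0) (nat_lit 96683322307) (nat_lit 2) (nat_lit 5) (nat_lit 4) (nat_lit 4) (nat_lit 2) (nat_lit 4) (nat_lit 300) (nat_lit 258) (nat_lit 222)) (XT.lf (nat_lit 0) (nat_lit 124791582271) (nat_lit 152) (nat_lit 57602655774) (nat_lit 0) (nat_lit 119724594781) (nat_lit 2) (nat_lit 5) (nat_lit 4) (nat_lit 4) (nat_lit 2) (nat_lit 4) (nat_lit 301) (nat_lit 258) (nat_lit 221))) (XT.nd (nat_lit 78) (nat_lit 0) (nat_lit 0) (XT.lf (nat_lit 0) (nat_lit 151280590072) (nat_lit 152) (nat_lit 48662821491) (nat_lit 0) (nat_lit 146209828633) (nat_lit 2) (nat_lit 5) (nat_lit 4) (nat_lit 4) (nat_lit 2) (nat_lit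 4) (nat_lit 302) (nat_lit 258) (nat_lit 220)) (XT.nd (nat_lit 78) (nat_lit 0) (nat_lit 0) (XT.lf (nat_lit 0) (nat_lit 181731256356) (nat_lit 152) (nat_lit 38406097407) (nat_lit 0) (nat_lit 176657213223) (nat_lit 2) (nat_lit 5) (nat_lit 4) (nat_lit 4) (nat_lit 2) (nat_lit 4) (nat_lit 303) (nat_lit 258) (nat_lit 219)) (XT.lf (nat_lit 0) (nat_lit 216739355028) (nat_lit 152) (nat_lit 26631808487) (nat_lit 0) (nat_lit 211662458247) (nat_lit 2) (nat_lit 5) (nat_lit 4) (nat_lit 4) (nat_lit 2) (nat_lit 4) (nat_lit 304) (nat_lit 258) (nat_lit 218))))) (XT.nd (nat_lit 156) (nat_lit 0) (nat_lit 0) (XT.nd (nat_lit 78) (nat_lit 76) (nat_lit 0) (XT.lf (nat_lit 0) (nat_lit 256989827149) (nat_lit 152) (nat_lit 13109588207) (nat_lit 0) (nat_lit 251910448935) (nat_lit 2) (nat_lit 5) (nat_lit 4) (nat_lit 4) (nat_lit 2) (nat_lit 4) (nat_lit 305) (nat_lit 258) (nat_lit 217)) (XT.lf (nat_lit 0) (nat_lit 2662129815)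 (nat_lit 76) (nat_lit 300718285259) (nat_lit 76) (nat_lit 295636749278) (nat_lit 1) (nat_lit 4) (nat_lit 2) (nat_lit 5) (nat_lit 2) (nat_lit 4) (nat_lit 306) (nat_lit 258) (nat_lit 216))) (XT.nd (nat_lit 78) (nat_lit 0) (nat_lit 0) (XT.lf (nat_lit 0) (nat_lit 22257827827) (nat_lit 76) (nat_lit 335149726010) (nat_lit 76) (nat_lit 330066313709) (nat_lit 1) (nat_lit 4) (nat_lit 2) (nat_lit 5) (nat_lit 2) (nat_lit 4) (nat_lit 307) (nat_lit 258) (nat_lit 215)) (XT.nd (nat_lit 78) (nat_lit 0) (nat_lit 0) (XT.lf (nat_lit 0) (nat_lit 44779735618) (nat_lit 76) (nat_lit 374752670161) (nat_lit 76) (nat_lit 369667626278) (nat_lit 1) (nat_lit 4) (nat_lit 2) (nat_lit 5) (nat_lit 2) (nat_lit 4) (nat_lit 308) (nat_lit 258) (nat_lit 214)) (XT.lf (nat_lit 0) (nat_lit 70668499208) (nat_lit 76) (nat_lit 420301957925) (nat_lit 76) (nat_lit 415215495275) (nat_lit 1) (nat_lit 4) (nat_lit 2) (nat_lit 5) (nat_lit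 2) (nat_lit 4) (nat_lit 309) (nat_lit 258) (nat_lit 213))))))) (XT.nd (nat_lit 780) (nat_lit 0) (nat_lit 0) (XT.nd (nat_lit 390) (nat_lit 0) (nat_lit 0) (XT.nd (nat_lit 156) (nat_lit 0) (nat_lit 0) (XT.nd (nat_lit 78) (nat_lit 0) (nat_lit 0) (XT.lf (nat_lit 0) (nat_lit 100430637886) (nat_lit 76) (nat_lit 472688771018) (nat_lit 76) (nat_lit 467601074657) (nat_lit 1) (nat_lit 4) (nat_lit 2) (nat_lit 5) (nat_lit 2) (nat_lit 4) (nat_lit 310) (nat_lit 258) (nat_lit 212)) (XT.lf (nat_lit 0) (nat_lit 134648454365) (nat_lit 76) (nat_lit 532938068827) (nat_lit 76) (nat_lit 527849299675) (nat_lit 1) (nat_lit 4) (nat_lit 2) (nat_lit 5) (nat_lit 2) (nat_lit 4) (nat_lit 311) (nat_lit 258) (nat_lit 211))) (XT.nd (nat_lit 78) (nat_lit 0) (nat_lit 0) (XT.lf (nat_lit 0) (nat_lit 173991427663) (nat_lit 76) (nat_lit 602228641962) (nat_lit 76) (nat_lit 597138939947) (nat_lit 1) (nat_lit 4) (nat_lit 2) (nat_lit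 5) (nat_lit 2) (nat_lit 4) (nat_lit 312) (nat_lit 258) (nat_lit 210)) (XT.nd (nat_lit 78) (nat_lit 0) (nat_lit 0) (XT.lf (nat_lit 0) (nat_lit 219229311605) (nat_lit 76) (nat_lit 681916175549) (nat_lit 76) (nat_lit 676825662349) (nat_lit 1) (nat_lit 4) (nat_lit 2) (nat_lit 5) (nat_lit 2) (nat_lit 4) (nat_lit 313) (nat_lit 258) (nat_lit 209)) (XT.lf (nat_lit 0) (nat_lit 271247195226) (nat_lit 76) (nat_lit 773559773505) (nat_lit 76) (nat_lit 768468554927) (nat_lit 1) (nat_lit 4) (nat_lit 2) (nat_lit 5) (nat_lit 2) (nat_lit 4) (nat_lit 314) (nat_lit 258) (nat_lit 208))))) (XT.nd (nat_lit 156) (nat_lit 0) (nat_lit 0) (XT.nd (nat_lit 78) (nat_lit 0) (nat_lit 0) (XT.lf (nat_lit 0) (nat_lit 331062819726) (nat_lit 76) (nat_lit 878952462748) (nat_lit 76) (nat_lit 873860630798) (nat_lit 1) (nat_lit 4) (nat_lit 2) (nat_lit 5) (nat_lit 2) (nat_lit 4) (nat_lit 315) (nat_lit 258) (nat_lit 207)) (XT.lf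 (nat_lit 0) (nat_lit 399846490802) (nat_lit 76) (nat_lit 1000156274154) (nat_lit 76) (nat_lit 995063908837) (nat_lit 1) (nat_lit 4) (nat_lit 2) (nat_lit 5) (nat_lit 2) (nat_lit 4) (nat_lit 316) (nat_lit 258) (nat_lit 206))) (XT.nd (nat_lit 78) (nat_lit 0) (nat_lit 0) (XT.lf (nat_lit 0) (nat_lit 478943975932) (nat_lit 76) (nat_lit 1139542586642) (nat_lit 76) (nat_lit 1134449757527) (nat_lit 1) (nat_lit 4) (nat_lit 2) (nat_lit 5) (nat_lit 2) (nat_lit 4) (nat_lit 317) (nat_lit 258) (nat_lit 205)) (XT.nd (nat_lit 78) (nat_lit 0) (nat_lit 0) (XT.lf (nat_lit 0) (nat_lit 569902834607) (nat_lit 76) (nat_lit 1299838523717) (nat_lit 76) (nat_lit 1294745291300) (nat_lit 1) (nat_lit 4) (nat_lit 2) (nat_lit 5) (nat_lit 2) (nat_lit 4) (nat_lit 318) (nat_lit 258) (nat_lit 204)) (XT.lf (nat_lit 0) (nat_lit 674502696671) (nat_lit 76) (nat_lit 1484180310235) (nat_lit 76) (nat_lit 1479086727120) (nat_lit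 1) (nat_lit 4) (nat_lit 2) (nat_lit 5) (nat_lit 2) (nat_lit 4) (nat_lit 319) (nat_lit 258) (nat_lit 203)))))) (XT.nd (nat_lit 390) (nat_lit 0) (nat_lit 0) (XT.nd (nat_lit 156) (nat_lit 0) (nat_lit 0) (XT.nd (nat_lit 78) (nat_lit 0) (nat_lit 0) (XT.lf (nat_lit 0) (nat_lit 794790081164) (nat_lit 76) (nat_lit 1696174633322) (nat_lit 76) (nat_lit 1691080745253) (nat_lit 1) (nat_lit 4) (nat_lit 2) (nat_lit 5) (nat_lit 2) (nat_lit 4) (nat_lit 320) (nat_lit 258) (nat_lit 202)) (XT.lf (nat_lit 0) (nat_lit 933118436914) (nat_lit 76) (nat_lit 1939969207998) (nat_lit 76) (nat_lit 1934875054751) (nat_lit 1) (nat_lit 4) (nat_lit 2) (nat_lit 5) (nat_lit 2) (nat_lit 4) (nat_lit 321) (nat_lit 258) (nat_lit 201))) (XT.nd (nat_lit 78) (nat_lit 0) (nat_lit 0) (XT.lf (nat_lit 0) (nat_lit 1092194188272) (nat_lit 76) (nat_lit 2220333928112) (nat_lit 76) (nat_lit 2215239544276) (nat_lit 1) (nat_lit 4) (nat_lit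 2) (nat_lit 5) (nat_lit 2) (nat_lit 4) (nat_lit 322) (nat_lit 258) (nat_lit 200)) (XT.nd (nat_lit 78) (nat_lit 0) (nat_lit 0) (XT.lf (nat_lit 0) (nat_lit 1275129686895) (nat_lit 76) (nat_lit 2542754190364) (nat_lit 76) (nat_lit 2537659606016) (nat_lit 1) (nat_lit 4) (nat_lit 2) (nat_lit 5) (nat_lit 2) (nat_lit 4) (nat_lit 323) (nat_lit 258) (nat_lit 199)) (XT.lf (nat_lit 0) (nat_lit 1485504105583) (nat_lit 76) (nat_lit 2913538217277) (nat_lit 76) (nat_lit 2908443458569) (nat_lit 1) (nat_lit 4) (nat_lit 2) (nat_lit 5) (nat_lit 2) (nat_lit 4) (nat_lit 324) (nat_lit 258) (nat_lit 198))))) (XT.nd (nat_lit 156) (nat_lit 0) (nat_lit 0) (XT.nd (nat_lit 78) (nat_lit 0) (nat_lit 0) (XT.lf (nat_lit 0) (nat_lit 1727433465569) (nat_lit 76) (nat_lit 3339940478940) (nat_lit 76) (nat_lit 3334845568617) (nat_lit 1) (nat_lit 4) (nat_lit 2) (nat_lit 5) (nat_lit 2) (nat_lit 4) (nat_lit 325) (nat_lit 258)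 (nat_lit 197)) (XT.lf (nat_lit 0) (nat_lit 2005651167377) (nat_lit 76) (nat_lit 3830303628301) (nat_lit 76) (nat_lit 3825208586137) (nat_lit 1) (nat_lit 4) (nat_lit 2) (nat_lit 5) (nat_lit 2) (nat_lit 4) (nat_lit 326) (nat_lit 258) (nat_lit 196))) (XT.nd (nat_lit 78) (nat_lit 0) (nat_lit 0) (XT.lf (nat_lit 0) (nat_lit 2325600600823) (nat_lit 76) (nat_lit 4394221726977) (nat_lit 76) (nat_lit 4389126570169) (nat_lit 1) (nat_lit 4) (nat_lit 2) (nat_lit 5) (nat_lit 2) (nat_lit 4) (nat_lit 327) (nat_lit 258) (nat_lit 195)) (XT.nd (nat_lit 78) (nat_lit 0) (nat_lit 0) (XT.lf (nat_lit 0) (nat_lit 2693541646128) (nat_lit 76) (nat_lit 5042727955159) (nat_lit 76) (nat_lit 5037632698662) (nat_lit 1) (nat_lit 4) (nat_lit 2) (nat_lit 5) (nat_lit 2) (nat_lit 4) (nat_lit 328) (nat_lit 258) (nat_lit 194)) (XT.lf (nat_lit 0) (nat_lit 3116673149830) (nat_lit 76) (nat_lit 5788510478182) (nat_lit 76) (nat_lit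 5783415134998) (nat_lit 1) (nat_lit 4) (nat_lit 2) (nat_lit 5) (nat_lit 2) (nat_lit 4) (nat_lit 329) (nat_lit 258) (nat_lit 193))))))))
noncomputable def xc45 : XT := (XT.nd (nat_lit 35880) (nat_lit 0) (nat_lit 228) (XT.nd (nat_lit 780) (nat_lit 0) (nat_lit 0) (XT.nd (nat_lit 390) (nat_lit 0) (nat_lit 0) (XT.nd (nat_lit 156) (nat_lit 0) (nat_lit 0) (XT.nd (nat_lit 78) (nat_lit 0) (nat_lit 0) (XT.lf (nat_lit 0) (nat_lit 3603273771784) (nat_lit 76) (nat_lit 6646160693235) (nat_lit 76) (nat_lit 6641065274671) (nat_lit 1) (nat_lit 4) (nat_lit 2) (nat_lit 5) (nat_lit 2) (nat_lit 4) (nat_lit 330) (nat_lit 258) (nat_lit 192)) (XT.lf (nat_lit 0) (nat_lit 4162863958941) (nat_lit 76) (nat_lit 7632458713222) (nat_lit 76) (nat_lit 7627363229109) (nat_lit 1) (nat_lit 4) (nat_lit 2) (nat_lit 5) (nat_lit 2) (nat_lit 4) (nat_lit 331) (nat_lit 258) (nat_lit 191))) (XT.nd (nat_lit 78) (nat_lit 0) (nat_lit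 0) (XT.lf (nat_lit 0) (nat_lit 4806392214964) (nat_lit 76) (nat_lit 8766701673316) (nat_lit 76) (nat_lit 8761606132205) (nat_lit 1) (nat_lit 4) (nat_lit 2) (nat_lit 5) (nat_lit 2) (nat_lit 4) (nat_lit 332) (nat_lit 258) (nat_lit 190)) (XT.nd (nat_lit 78) (nat_lit 0) (nat_lit 0) (XT.lf (nat_lit 0) (nat_lit 5546449310078) (nat_lit 76) (nat_lit 10071081283605) (nat_lit 76) (nat_lit 10065985692931) (nat_lit 1) (nat_lit 4) (nat_lit 2) (nat_lit 5) (nat_lit 2) (nat_lit 4) (nat_lit 333) (nat_lit 258) (nat_lit 189)) (XT.lf (nat_lit 0) (nat_lit 6397514622231) (nat_lit 76) (nat_lit 11571118014726) (nat_lit 76) (nat_lit 11566022380953) (nat_lit 1) (nat_lit 4) (nat_lit 2) (nat_lit 5) (nat_lit 2) (nat_lit 4) (nat_lit 334) (nat_lit 258) (nat_lit 188))))) (XT.nd (nat_lit 156) (nat_lit 0) (nat_lit 0) (XT.nd (nat_lit 78) (nat_lit 0) (nat_lit 0) (XT.lf (nat_lit 0) (nat_lit 7376239429271) (nat_lit 76) (nat_lit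 13296160411419) (nat_lit 76) (nat_lit 13291064740168) (nat_lit 1) (nat_lit 4) (nat_lit 2) (nat_lit 5) (nat_lit 2) (nat_lit 4) (nat_lit 335) (nat_lit 258) (nat_lit 187)) (XT.lf (nat_lit 0) (nat_lit 8501772694813) (nat_lit 76) (nat_lit 15279959303183) (nat_lit 76) (nat_lit 15274863599344) (nat_lit 1) (nat_lit 4) (nat_lit 2) (nat_lit 5) (nat_lit 2) (nat_lit 4) (nat_lit 336) (nat_lit 258) (nat_lit 186))) (XT.nd (nat_lit 78) (nat_lit 0) (nat_lit 0) (XT.lf (nat_lit 0) (nat_lit 9796135721878) (nat_lit 76) (nat_lit 17561328146597) (nat_lit 76) (nat_lit 17556232414420) (nat_lit 1) (nat_lit 4) (nat_lit 2) (nat_lit 5) (nat_lit 2) (nat_lit 4) (nat_lit 337) (nat_lit 258) (nat_lit 185)) (XT.nd (nat_lit 78) (nat_lit 0) (nat_lit 0) (XT.lf (nat_lit 0) (nat_lit 11284653004474) (nat_lit 76) (nat_lit 20184902419032) (nat_lit 76) (nat_lit 20179806662213) (nat_lit 1) (nat_lit 4) (nat_lit 2) (nat_lit 5) (nat_lit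 2) (nat_lit 4) (nat_lit 338) (nat_lit 258) (nat_lit 184)) (XT.lf (nat_lit 0) (nat_lit 12996447706826) (nat_lit 76) (nat_lit 23202012921470) (nat_lit 76) (nat_lit 23196917143223) (nat_lit 1) (nat_lit 4) (nat_lit 2) (nat_lit 5) (nat_lit 2) (nat_lit 4) (nat_lit 339) (nat_lit 258) (nat_lit 183)))))) (XT.nd (nat_lit 34710) (nat_lit 0) (nat_lit 1596) (XT.nd (nat_lit 156) (nat_lit 0) (nat_lit 0) (XT.nd (nat_lit 78) (nat_lit 0) (nat_lit 0) (XT.lf (nat_lit 0) (nat_lit 14965011464415) (nat_lit 76) (nat_lit 26671690076786) (nat_lit 76) (nat_lit 26666594279906) (nat_lit 1) (nat_lit 4) (nat_lit 2) (nat_lit 5) (nat_lit 2) (nat_lit 4) (nat_lit 340) (nat_lit 258) (nat_lit 182)) (XT.lf (nat_lit 0) (nat_lit 17228859655107) (nat_lit 76) (nat_lit 30661818872799) (nat_lit 76) (nat_lit 30656723059717) (nat_lit 1) (nat_lit 4) (nat_lit 2) (nat_lit 5) (nat_lit 2) (nat_lit 4) (nat_lit 341) (nat_lit 258) (nat_lit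 181))) (XT.nd (nat_lit 34398) (nat_lit 0) (nat_lit 2356) (XT.lf (nat_lit 0) (nat_lit 19832284960893) (nat_lit 76) (nat_lit 35250467046825) (nat_lit 76) (nat_lit 35245371219654) (nat_lit 1) (nat_lit 4) (nat_lit 2) (nat_lit 5) (nat_lit 2) (nat_lit 4) (nat_lit 342) (nat_lit 258) (nat_lit 180)) (XT.nd (nat_lit 78) (nat_lit 76) (nat_lit 0) (XT.lf (nat_lit 0) (nat_lit 157862743) (nat_lit 76) (nat_lit 1553162466) (nat_lit 76) (nat_lit 1553162466) (nat_lit 33) (nat_lit 4) (nat_lit 34) (nat_lit 5) (nat_lit 34) (nat_lit 4) (nat_lit 262) (nat_lit 259) (nat_lit 259)) (XT.lf (nat_lit 0) (nat_lit 16207350) (nat_lit 152) (nat_lit 2303435069) (nat_lit 76) (nat_lit 4340909555) (nat_lit 32) (nat_lit 5) (nat_lit 34) (nat_lit 5) (nat_lit 33) (nat_lit 4) (nat_lit 263) (nat_lit 259) (nat_lit 258))))) (XT.nd (nat_lit 156) (nat_lit 608) (nat_lit 0) (XT.nd (nat_lit 78) (nat_lit 0) (nat_lit 0) (XT.lf (nat_lit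 0) (nat_lit 1816601868) (nat_lit 152) (nat_lit 1061616947) (nat_lit 228) (nat_lit 3976154915) (nat_lit 30) (nat_lit 5) (nat_lit 32) (nat_lit 5) (nat_lit 33) (nat_lit 4) (nat_lit 264) (nat_lit 259) (nat_lit 257)) (XT.lf (nat_lit 0) (nat_lit 5876288968) (nat_lit 228) (nat_lit 709564847) (nat_lit 0) (nat_lit 537467350) (nat_lit 30) (nat_lit 5) (nat_lit 33) (nat_lit 4) (nat_lit 30) (nat_lit 4) (nat_lit 265) (nat_lit 259) (nat_lit 256))) (XT.nd (nat_lit 78) (nat_lit 304) (nat_lit 0) (XT.lf (nat_lit 0) (nat_lit 1560332382) (nat_lit 304) (nat_lit 3321026673) (nat_lit 76) (nat_lit 2565475998) (nat_lit 26) (nat_lit 5) (nat_lit 30) (nat_lit 5) (nat_lit 27) (nat_lit 4) (nat_lit 266) (nat_lit 259) (nat_lit 255)) (XT.nd (nat_lit 78) (nat_lit 0) (nat_lit 0) (XT.lf (nat_lit 0) (nat_lit 1633393406) (nat_lit 304) (nat_lit 2772036152) (nat_lit 380) (nat_lit 3444252457) (nat_lit 22) (nat_lit 5) (nat_lit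 26) (nat_lit 5) (nat_lit 27) (nat_lit 4) (nat_lit 267) (nat_lit 259) (nat_lit 254)) (XT.lf (nat_lit 0) (nat_lit 7318774438) (nat_lit 304) (nat_lit 201205994) (nat_lit 380) (nat_lit 817753438) (nat_lit 22) (nat_lit 5) (nat_lit 26) (nat_lit 5) (nat_lit 27) (nat_lit 4) (nat_lit 268) (nat_lit 259) (nat_lit 253))))))) (XT.nd (nat_lit 780) (nat_lit 532) (nat_lit 0) (XT.nd (nat_lit 390) (nat_lit 228) (nat_lit 0) (XT.nd (nat_lit 156) (nat_lit 304) (nat_lit 0) (XT.nd (nat_lit 78) (nat_lit 76) (nat_lit 0) (XT.lf (nat_lit 0) (nat_lit 2034387992) (nat_lit 228) (nat_lit 4085396148) (nat_lit 76) (nat_lit 2762255698) (nat_lit 19) (nat_lit 5) (nat_lit 22) (nat_lit 5) (nat_lit 20) (nat_lit 4) (nat_lit 269) (nat_lit 259) (nat_lit 252)) (XT.lf (nat_lit 0) (nat_lit 1821822756) (nat_lit 76) (nat_lit 3269264894) (nat_lit 152) (nat_lit 4432770717) (nat_lit 18) (nat_lit 5) (nat_lit 19) (nat_lit 5) (nat_lit 20)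 (nat_lit 4) (nat_lit 270) (nat_lit 259) (nat_lit 251))) (XT.nd (nat_lit 78) (nat_lit 304) (nat_lit 0) (XT.lf (nat_lit 0) (nat_lit 8566616949) (nat_lit 152) (nat_lit 1571866755) (nat_lit 0) (nat_lit 130092633) (nat_lit 18) (nat_lit 5) (nat_lit 20) (nat_lit 4) (nat_lit 18) (nat_lit 4) (nat_lit 271) (nat_lit 259) (nat_lit 250)) (XT.nd (nat_lit 78) (nat_lit 76) (nat_lit 0) (XT.lf (nat_lit 0) (nat_lit 1469322617) (nat_lit 228) (nat_lit 5714522102) (nat_lit 76) (nat_lit 3908896561) (nat_lit 15) (nat_lit 5) (nat_lit 18) (nat_lit 5) (nat_lit 16) (nat_lit 4) (nat_lit 272) (nat_lit 259) (nat_lit 249)) (XT.lf (nat_lit 0) (nat_lit 1180321352) (nat_lit 76) (nat_lit 3672666133) (nat_lit 152) (nat_lit 7189189872) (nat_lit 14) (nat_lit 5) (nat_lit 15) (nat_lit 5) (nat_lit 16) (nat_lit 4) (nat_lit 273) (nat_lit 259) (nat_lit 248))))) (XT.nd (nat_lit 156) (nat_lit 152) (nat_lit 0) (XT.nd (nat_lit 78) (nat_lit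 76) (nat_lit 0) (XT.lf (nat_lit 0) (nat_lit 8857735756) (nat_lit 152) (nat_lit 3735885462) (nat_lit 0) (nat_lit 523763721) (nat_lit 14) (nat_lit 5) (nat_lit 16) (nat_lit 4) (nat_lit 14) (nat_lit 4) (nat_lit 274) (nat_lit 259) (nat_lit 247)) (XT.lf (nat_lit 0) (nat_lit 4350591372) (nat_lit 76) (nat_lit 9281097989) (nat_lit 76) (nat_lit 697246107) (nat_lit 13) (nat_lit 4) (nat_lit 14) (nat_lit 5) (nat_lit 14) (nat_lit 4) (nat_lit 275) (nat_lit 259) (nat_lit 246))) (XT.nd (nat_lit 78) (nat_lit 76) (nat_lit 0) (XT.lf (nat_lit 0) (nat_lit 3117965620) (nat_lit 152) (nat_lit 2097512622) (nat_lit 76) (nat_lit 10482714705) (nat_lit 12) (nat_lit 5) (nat_lit 14) (nat_lit 5) (nat_lit 13) (nat_lit 4) (nat_lit 276) (nat_lit 259) (nat_lit 245)) (XT.nd (nat_lit 78) (nat_lit 0) (nat_lit 0) (XT.lf (nat_lit 0) (nat_lit 7300033877) (nat_lit 76) (nat_lit 276765027) (nat_lit 152) (nat_lit 9669871913) (nat_lit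 11) (nat_lit 5) (nat_lit 12) (nat_lit 5) (nat_lit 13) (nat_lit 4) (nat_lit 277) (nat_lit 259) (nat_lit 244)) (XT.lf (nat_lit 0) (nat_lit 12888200472) (nat_lit 152) (nat_lit 1183983673) (nat_lit 0) (nat_lit 4927866711) (nat_lit 11) (nat_lit 5) (nat_lit 13) (nat_lit 4) (nat_lit 11) (nat_lit 4) (nat_lit 278) (nat_lit 259) (nat_lit 243)))))) (XT.nd (nat_lit 390) (nat_lit 228) (nat_lit 0) (XT.nd (nat_lit 156) (nat_lit 152) (nat_lit 0) (XT.nd (nat_lit 78) (nat_lit 76) (nat_lit 0) (XT.lf (nat_lit 0) (nat_lit 9473725527) (nat_lit 76) (nat_lit 9793411876) (nat_lit 76) (nat_lit 1708843669) (nat_lit 10) (nat_lit 4) (nat_lit 11) (nat_lit 5) (nat_lit 11) (nat_lit 4) (nat_lit 279) (nat_lit 259) (nat_lit 242)) (XT.lf (nat_lit 0) (nat_lit 2987679263) (nat_lit 152) (nat_lit 1769087745) (nat_lit 76) (nat_lit 18481066509) (nat_lit 9) (nat_lit 5) (nat_lit 11) (nat_lit 5) (nat_lit 10) (nat_lit 4) (nat_lit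 280) (nat_lit 259) (nat_lit 241))) (XT.nd (nat_lit 78) (nat_lit 76) (nat_lit 0) (XT.lf (nat_lit 0) (nat_lit 8574940832) (nat_lit 152) (nat_lit 15828488483) (nat_lit 0) (nat_lit 1369256266) (nat_lit 8) (nat_lit 5) (nat_lit 10) (nat_lit 4) (nat_lit 8) (nat_lit 4) (nat_lit 281) (nat_lit 259) (nat_lit 240)) (XT.nd (nat_lit 78) (nat_lit 76) (nat_lit 0) (XT.lf (nat_lit 0) (nat_lit 15210270836) (nat_lit 152) (nat_lit 5512538365) (nat_lit 0) (nat_lit 7933554822) (nat_lit 8) (nat_lit 5) (nat_lit 10) (nat_lit 4) (nat_lit 8) (nat_lit 4) (nat_lit 282) (nat_lit 259) (nat_lit 239)) (XT.lf (nat_lit 0) (nat_lit 6760473704) (nat_lit 76) (nat_lit 16261744192) (nat_lit 76) (nat_lit 8923261701) (nat_lit 7) (nat_lit 4) (nat_lit 8) (nat_lit 5) (nat_lit 8) (nat_lit 4) (nat_lit 283) (nat_lit 259) (nat_lit 238))))) (XT.nd (nat_lit 234) (nat_lit 76) (nat_lit 0) (XT.nd (nat_lit 78) (nat_lit 152) (nat_lit 0) (XT.lf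 (nat_lit 0) (nat_lit 21310513166) (nat_lit 76) (nat_lit 10890246773) (nat_lit 76) (nat_lit 3498054303) (nat_lit 7) (nat_lit 4) (nat_lit 8) (nat_lit 5) (nat_lit 8) (nat_lit 4) (nat_lit 284) (nat_lit 259) (nat_lit 237)) (XT.nd (nat_lit 78) (nat_lit 76) (nat_lit 0) (XT.lf (nat_lit 0) (nat_lit 2411818508) (nat_lit 152) (nat_lit 2253487007) (nat_lit 76) (nat_lit 35345638524) (nat_lit 6) (nat_lit 5) (nat_lit 8) (nat_lit 5) (nat_lit 7) (nat_lit 4) (nat_lit 285) (nat_lit 259) (nat_lit 236)) (XT.lf (nat_lit 0) (nat_lit 9426567413) (nat_lit 152) (nat_lit 32509261531) (nat_lit 0) (nat_lit 2922646316) (nat_lit 5) (nat_lit 5) (nat_lit 7) (nat_lit 4) (nat_lit 5) (nat_lit 4) (nat_lit 286) (nat_lit 259) (nat_lit 235)))) (XT.nd (nat_lit 78) (nat_lit 76) (nat_lit 0) (XT.lf (nat_lit 0) (nat_lit 17766106302) (nat_lit 152) (nat_lit 21394708131) (nat_lit 0) (nat_lit 11231476350) (nat_lit 5) (nat_lit 5) (nat_lit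 7) (nat_lit 4) (nat_lit 5) (nat_lit 4) (nat_lit 287) (nat_lit 259) (nat_lit 234)) (XT.nd (nat_lit 78) (nat_lit 76) (nat_lit 0) (XT.lf (nat_lit 0) (nat_lit 27293110809) (nat_lit 152) (nat_lit 8740845986) (nat_lit 0) (nat_lit 20731777505) (nat_lit 5) (nat_lit 5) (nat_lit 7) (nat_lit 4) (nat_lit 5) (nat_lit 4) (nat_lit 288) (nat_lit 259) (nat_lit 233)) (XT.lf (nat_lit 0) (nat_lit 6256936196) (nat_lit 76) (nat_lit 32196129037) (nat_lit 76) (nat_lit 25611575427) (nat_lit 4) (nat_lit 4) (nat_lit 5) (nat_lit 5) (nat_lit 5) (nat_lit 4) (nat_lit 289) (nat_lit 259) (nat_lit 232))))))))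
noncomputable def xc46 : XT := (XT.nd (nat_lit 1560) (nat_lit 0) (nat_lit 0) (XT.nd (nat_lit 780) (nat_lit 76) (nat_lit 0) (XT.nd (nat_lit 390) (nat_lit 0) (nat_lit 0) (XT.nd (nat_lit 156) (nat_lit 152) (nat_lit 0) (XT.nd (nat_lit 78) (nat_lit 0) (nat_lit 0) (XT.lf (nat_lit 0) (nat_lit 24380596907) (nat_lit 76) (nat_lit 27310939892) (nat_lit 76) (nat_lit 20706194710) (nat_lit 4) (nat_lit 4) (nat_lit 5) (nat_lit 5) (nat_lit 5) (nat_lit 4) (nat_lit 290) (nat_lit 259) (nat_lit 231)) (XT.lf (nat_lit 0) (nat_lit 45130510470) (nat_lit 76) (nat_lit 21739717429) (nat_lit 76) (nat_lit 15117414360) (nat_lit 4) (nat_lit 4) (nat_lit 5) (nat_lit 5) (nat_lit 5) (nat_lit 4) (nat_lit 291) (nat_lit 259) (nat_lit 230))) (XT.nd (nat_lit 78) (nat_lit 152) (nat_lit 0) (XT.lf (nat_lit 0) (nat_lit 68912653454) (nat_lit 76) (nat_lit 15373459472) (nat_lit 76) (nat_lit 8735888674) (nat_lit 4) (nat_lit 4) (nat_lit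 5) (nat_lit 5) (nat_lit 5) (nat_lit 4) (nat_lit 292) (nat_lit 259) (nat_lit 229)) (XT.nd (nat_lit 78) (nat_lit 152) (nat_lit 0) (XT.lf (nat_lit 0) (nat_lit 96192328656) (nat_lit 76) (nat_lit 8087608798) (nat_lit 76) (nat_lit 1436761715) (nat_lit 4) (nat_lit 4) (nat_lit 5) (nat_lit 5) (nat_lit 5) (nat_lit 4) (nat_lit 293) (nat_lit 259) (nat_lit 228)) (XT.lf (nat_lit 0) (nat_lit 6659299322) (nat_lit 152) (nat_lit 112698970732) (nat_lit 0) (nat_lit 865915253) (nat_lit 2) (nat_lit 5) (nat_lit 4) (nat_lit 4) (nat_lit 2) (nat_lit 4) (nat_lit 294) (nat_lit 259) (nat_lit 227))))) (XT.nd (nat_lit 156) (nat_lit 0) (nat_lit 0) (XT.nd (nat_lit 78) (nat_lit 0) (nat_lit 0) (XT.lf (nat_lit 0) (nat_lit 16698266599) (nat_lit 152) (nat_lit 109171784636) (nat_lit 0) (nat_lit 10896153158) (nat_lit 2) (nat_lit 5) (nat_lit 4) (nat_lit 4) (nat_lit 2) (nat_lit 4) (nat_lit 295) (nat_lit 259) (nat_lit 226)) (XT.lf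 (nat_lit 0) (nat_lit 28216033071) (nat_lit 152) (nat_lit 105171231486) (nat_lit 0) (nat_lit 22406328870) (nat_lit 2) (nat_lit 5) (nat_lit 4) (nat_lit 4) (nat_lit 2) (nat_lit 4) (nat_lit 296) (nat_lit 259) (nat_lit 225))) (XT.nd (nat_lit 78) (nat_lit 0) (nat_lit 0) (XT.lf (nat_lit 0) (nat_lit 41437946342) (nat_lit 152) (nat_lit 100619039589) (nat_lit 0) (nat_lit 35621641481) (nat_lit 2) (nat_lit 5) (nat_lit 4) (nat_lit 4) (nat_lit 2) (nat_lit 4) (nat_lit 297) (nat_lit 259) (nat_lit 224)) (XT.nd (nat_lit 78) (nat_lit 0) (nat_lit 0) (XT.lf (nat_lit 0) (nat_lit 56622696020) (nat_lit 152) (nat_lit 95426144322) (nat_lit 0) (nat_lit 50800651454) (nat_lit 2) (nat_lit 5) (nat_lit 4) (nat_lit 4) (nat_lit 2) (nat_lit 4) (nat_lit 298) (nat_lit 259) (nat_lit 223)) (XT.lf (nat_lit 0) (nat_lit 74067375033) (nat_lit 152) (nat_lit 89490945558) (nat_lit 0) (nat_lit 68240339420) (nat_lit 2) (nat_lit 5)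 (nat_lit 4) (nat_lit 4) (nat_lit 2) (nat_lit 4) (nat_lit 299) (nat_lit 259) (nat_lit 222)))))) (XT.nd (nat_lit 390) (nat_lit 76) (nat_lit 0) (XT.nd (nat_lit 156) (nat_lit 0) (nat_lit 0) (XT.nd (nat_lit 78) (nat_lit 0) (nat_lit 0) (XT.lf (nat_lit 0) (nat_lit 94113292318) (nat_lit 152) (nat_lit 82697319845) (nat_lit 0) (nat_lit 88281916664) (nat_lit 2) (nat_lit 5) (nat_lit 4) (nat_lit 4) (nat_lit 2) (nat_lit 4) (nat_lit 300) (nat_lit 259) (nat_lit 221)) (XT.lf (nat_lit 0) (nat_lit 117152650605) (nat_lit 152) (nat_lit 74912348419) (nat_lit 0) (nat_lit 111317501002) (nat_lit 2) (nat_lit 5) (nat_lit 4) (nat_lit 4) (nat_lit 2) (nat_lit 4) (nat_lit 301) (nat_lit 259) (nat_lit 220))) (XT.nd (nat_lit 78) (nat_lit 0) (nat_lit 0) (XT.lf (nat_lit 0) (nat_lit 143636219947) (nat_lit 152) (nat_lit 65983716620) (nat_lit 0) (nat_lit 137797788649) (nat_lit 2) (nat_lit 5) (nat_lit 4) (nat_lit 4) (nat_lit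 2) (nat_lit 4) (nat_lit 302) (nat_lit 259) (nat_lit 219)) (XT.nd (nat_lit 78) (nat_lit 0) (nat_lit 0) (XT.lf (nat_lit 0) (nat_lit 174082157136) (nat_lit 152) (nat_lit 55736733828) (nat_lit 0) (nat_lit 168240872190) (nat_lit 2) (nat_lit 5) (nat_lit 4) (nat_lit 4) (nat_lit 2) (nat_lit 4) (nat_lit 303) (nat_lit 259) (nat_lit 218)) (XT.lf (nat_lit 0) (nat_lit 209086143552) (nat_lit 152) (nat_lit 43970915595) (nat_lit 0) (nat_lit 203242377173) (nat_lit 2) (nat_lit 5) (nat_lit 4) (nat_lit 4) (nat_lit 2) (nat_lit 4) (nat_lit 304) (nat_lit 259) (nat_lit 217))))) (XT.nd (nat_lit 156) (nat_lit 76) (nat_lit 0) (XT.nd (nat_lit 78) (nat_lit 0) (nat_lit 0) (XT.lf (nat_lit 0) (nat_lit 249333039797) (nat_lit 152) (nat_lit 30456061131) (nat_lit 0) (nat_lit 243487115651) (nat_lit 2) (nat_lit 5) (nat_lit 4) (nat_lit 4) (nat_lit 2) (nat_lit 4) (nat_lit 305) (nat_lit 259) (nat_lit 216)) (XT.lf (nat_lit 0)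 (nat_lit 295610285148) (nat_lit 152) (nat_lit 14927749370) (nat_lit 0) (nat_lit 289762484682) (nat_lit 2) (nat_lit 5) (nat_lit 4) (nat_lit 4) (nat_lit 2) (nat_lit 4) (nat_lit 306) (nat_lit 259) (nat_lit 215))) (XT.nd (nat_lit 78) (nat_lit 0) (nat_lit 0) (XT.lf (nat_lit 0) (nat_lit 3202986489) (nat_lit 76) (nat_lit 345752946318) (nat_lit 76) (nat_lit 339903514270) (nat_lit 1) (nat_lit 4) (nat_lit 2) (nat_lit 5) (nat_lit 2) (nat_lit 4) (nat_lit 307) (nat_lit 259) (nat_lit 214)) (XT.nd (nat_lit 78) (nat_lit 0) (nat_lit 0) (XT.lf (nat_lit 0) (nat_lit 25719577829) (nat_lit 76) (nat_lit 385358635581) (nat_lit 76) (nat_lit 379507784766) (nat_lit 1) (nat_lit 4) (nat_lit 2) (nat_lit 5) (nat_lit 2) (nat_lit 4) (nat_lit 308) (nat_lit 259) (nat_lit 213)) (XT.lf (nat_lit 0) (nat_lit 51603718419) (nat_lit 76) (nat_lit 430910310398) (nat_lit 76) (nat_lit 425058225872) (nat_lit 1) (nat_lit 4) (nat_lit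 2) (nat_lit 5) (nat_lit 2) (nat_lit 4) (nat_lit 309) (nat_lit 259) (nat_lit 212))))))) (XT.nd (nat_lit 780) (nat_lit 0) (nat_lit 0) (XT.nd (nat_lit 390) (nat_lit 0) (nat_lit 0) (XT.nd (nat_lit 156) (nat_lit 0) (nat_lit 0) (XT.nd (nat_lit 78) (nat_lit 0) (nat_lit 0) (XT.lf (nat_lit 0) (nat_lit 81361837097) (nat_lit 76) (nat_lit 483299199190) (nat_lit 76) (nat_lit 477446041872) (nat_lit 1) (nat_lit 4) (nat_lit 2) (nat_lit 5) (nat_lit 2) (nat_lit 4) (nat_lit 310) (nat_lit 259) (nat_lit 211)) (XT.lf (nat_lit 0) (nat_lit 115576157923) (nat_lit 76) (nat_lit 543550301955) (nat_lit 76) (nat_lit 537696211774) (nat_lit 1) (nat_lit 4) (nat_lit 2) (nat_lit 5) (nat_lit 2) (nat_lit 4) (nat_lit 311) (nat_lit 259) (nat_lit 210))) (XT.nd (nat_lit 78) (nat_lit 0) (nat_lit 0) (XT.lf (nat_lit 0) (nat_lit 154916091524) (nat_lit 76) (nat_lit 612842444616) (nat_lit 76) (nat_lit 606987543251) (nat_lit 1) (nat_lit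 4) (nat_lit 2) (nat_lit 5) (nat_lit 2) (nat_lit 4) (nat_lit 312) (nat_lit 259) (nat_lit 209)) (XT.nd (nat_lit 78) (nat_lit 0) (nat_lit 0) (XT.lf (nat_lit 0) (nat_lit 200151332251) (nat_lit 76) (nat_lit 692531343008) (nat_lit 76) (nat_lit 686675736265) (nat_lit 1) (nat_lit 4) (nat_lit 2) (nat_lit 5) (nat_lit 2) (nat_lit 4) (nat_lit 313) (nat_lit 259) (nat_lit 208)) (XT.lf (nat_lit 0) (nat_lit 252166917423) (nat_lit 76) (nat_lit 784176127752) (nat_lit 76) (nat_lit 778319907637) (nat_lit 1) (nat_lit 4) (nat_lit 2) (nat_lit 5) (nat_lit 2) (nat_lit 4) (nat_lit 314) (nat_lit 259) (nat_lit 207))))) (XT.nd (nat_lit 156) (nat_lit 0) (nat_lit 0) (XT.nd (nat_lit 78) (nat_lit 0) (nat_lit 0) (XT.lf (nat_lit 0) (nat_lit 311980543272) (nat_lit 76) (nat_lit 889569848984) (nat_lit 76) (nat_lit 883713095502) (nat_lit 1) (nat_lit 4) (nat_lit 2) (nat_lit 5) (nat_lit 2) (nat_lit 4) (nat_lit 315) (nat_lit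 259) (nat_lit 206)) (XT.lf (nat_lit 0) (nat_lit 380762476391) (nat_lit 76) (nat_lit 1010774557772) (nat_lit 76) (nat_lit 1004917340492) (nat_lit 1) (nat_lit 4) (nat_lit 2) (nat_lit 5) (nat_lit 2) (nat_lit 4) (nat_lit 316) (nat_lit 259) (nat_lit 205))) (XT.nd (nat_lit 78) (nat_lit 0) (nat_lit 0) (XT.lf (nat_lit 0) (nat_lit 459858450254) (nat_lit 76) (nat_lit 1150161650592) (nat_lit 76) (nat_lit 1144304030010) (nat_lit 1) (nat_lit 4) (nat_lit 2) (nat_lit 5) (nat_lit 2) (nat_lit 4) (nat_lit 317) (nat_lit 259) (nat_lit 204)) (XT.nd (nat_lit 78) (nat_lit 0) (nat_lit 0) (XT.lf (nat_lit 0) (nat_lit 550815994784) (nat_lit 76) (nat_lit 1310458266216) (nat_lit 76) (nat_lit 1304600294936) (nat_lit 1) (nat_lit 4) (nat_lit 2) (nat_lit 5) (nat_lit 2) (nat_lit 4) (nat_lit 318) (nat_lit 259) (nat_lit 203)) (XT.lf (nat_lit 0) (nat_lit 655414714113) (nat_lit 76) (nat_lit 1494800642777) (nat_lit 76) (nat_lit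 1488942366543) (nat_lit 1) (nat_lit 4) (nat_lit 2) (nat_lit 5) (nat_lit 2) (nat_lit 4) (nat_lit 319) (nat_lit 259) (nat_lit 202)))))) (XT.nd (nat_lit 390) (nat_lit 0) (nat_lit 0) (XT.nd (nat_lit 156) (nat_lit 0) (nat_lit 0) (XT.nd (nat_lit 78) (nat_lit 0) (nat_lit 0) (XT.lf (nat_lit 0) (nat_lit 775701104924) (nat_lit 76) (nat_lit 1706795478945) (nat_lit 76) (nat_lit 1700936937534) (nat_lit 1) (nat_lit 4) (nat_lit 2) (nat_lit 5) (nat_lit 2) (nat_lit 4) (nat_lit 320) (nat_lit 259) (nat_lit 201)) (XT.lf (nat_lit 0) (nat_lit 914028596602) (nat_lit 76) (nat_lit 1950590499778) (nat_lit 76) (nat_lit 1944731727777) (nat_lit 1) (nat_lit 4) (nat_lit 2) (nat_lit 5) (nat_lit 2) (nat_lit 4) (nat_lit 321) (nat_lit 259) (nat_lit 200))) (XT.nd (nat_lit 78) (nat_lit 0) (nat_lit 0) (XT.lf (nat_lit 0) (nat_lit 1073103596593) (nat_lit 76) (nat_lit 2230955607856) (nat_lit 76) (nat_lit 2225096635342) (nat_lit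 1) (nat_lit 4) (nat_lit 2) (nat_lit 5) (nat_lit 2) (nat_lit 4) (nat_lit 322) (nat_lit 259) (nat_lit 199)) (XT.nd (nat_lit 78) (nat_lit 0) (nat_lit 0) (XT.lf (nat_lit 0) (nat_lit 1256038441854) (nat_lit 76) (nat_lit 2553376207467) (nat_lit 76) (nat_lit 2547517060595) (nat_lit 1) (nat_lit 4) (nat_lit 2) (nat_lit 5) (nat_lit 2) (nat_lit 4) (nat_lit 323) (nat_lit 259) (nat_lit 198)) (XT.lf (nat_lit 0) (nat_lit 1466412292400) (nat_lit 76) (nat_lit 2924160527735) (nat_lit 76) (nat_lit 2918301229246) (nat_lit 1) (nat_lit 4) (nat_lit 2) (nat_lit 5) (nat_lit 2) (nat_lit 4) (nat_lit 324) (nat_lit 259) (nat_lit 197))))) (XT.nd (nat_lit 156) (nat_lit 0) (nat_lit 0) (XT.nd (nat_lit 78) (nat_lit 0) (nat_lit 0) (XT.lf (nat_lit 0) (nat_lit 1708341158351) (nat_lit 76) (nat_lit 3350563044490) (nat_lit 76) (nat_lit 3344703614162) (nat_lit 1) (nat_lit 4) (nat_lit 2) (nat_lit 5) (nat_lit 2) (nat_lit 4) (nat_lit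 325) (nat_lit 259) (nat_lit 196)) (XT.lf (nat_lit 0) (nat_lit 1986558430562) (nat_lit 76) (nat_lit 3840926415670) (nat_lit 76) (nat_lit 3835066870698) (nat_lit 1) (nat_lit 4) (nat_lit 2) (nat_lit 5) (nat_lit 2) (nat_lit 4) (nat_lit 326) (nat_lit 259) (nat_lit 195))) (XT.nd (nat_lit 78) (nat_lit 0) (nat_lit 0) (XT.lf (nat_lit 0) (nat_lit 2306507490446) (nat_lit 76) (nat_lit 4404844707232) (nat_lit 76) (nat_lit 4398985062570) (nat_lit 1) (nat_lit 4) (nat_lit 2) (nat_lit 5) (nat_lit 2) (nat_lit 4) (nat_lit 327) (nat_lit 259) (nat_lit 194)) (XT.nd (nat_lit 78) (nat_lit 0) (nat_lit 0) (XT.lf (nat_lit 0) (nat_lit 2674448210914) (nat_lit 76) (nat_lit 5053351103142) (nat_lit 76) (nat_lit 5047491371792) (nat_lit 1) (nat_lit 4) (nat_lit 2) (nat_lit 5) (nat_lit 2) (nat_lit 4) (nat_lit 328) (nat_lit 259) (nat_lit 193)) (XT.lf (nat_lit 0) (nat_lit 3097579432150) (nat_lit 76) (nat_lit 5799133772014)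 (nat_lit 76) (nat_lit 5793273965285) (nat_lit 1) (nat_lit 4) (nat_lit 2) (nat_lit 5) (nat_lit 2) (nat_lit 4) (nat_lit 329) (nat_lit 259) (nat_lit 192))))))))
noncomputable def xc47 : XT := (XT.nd (nat_lit 35724) (nat_lit 0) (nat_lit 304) (XT.nd (nat_lit 780) (nat_lit 0) (nat_lit 0) (XT.nd (nat_lit 390) (nat_lit 0) (nat_lit 0) (XT.nd (nat_lit 156) (nat_lit 0) (nat_lit 0) (XT.nd (nat_lit 78) (nat_lit 0) (nat_lit 0) (XT.lf (nat_lit 0) (nat_lit 3584179808480) (nat_lit 76) (nat_lit 6656784113893) (nat_lit 76) (nat_lit 6650924241616) (nat_lit 1) (nat_lit 4) (nat_lit 2) (nat_lit 5) (nat_lit 2) (nat_lit 4) (nat_lit 330) (nat_lit 259) (nat_lit 191)) (XT.lf (nat_lit 0) (nat_lit 4143769782052) (nat_lit 76) (nat_lit 7643082244163) (nat_lit 76) (nat_lit 7637222314887) (nat_lit 1) (nat_lit 4) (nat_lit 2) (nat_lit 5) (nat_lit 2) (nat_lit 4) (nat_lit 331) (nat_lit 259) (nat_lit 190))) (XT.nd (nat_lit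 78) (nat_lit 0) (nat_lit 0) (XT.lf (nat_lit 0) (nat_lit 4787297852348) (nat_lit 76) (nat_lit 8777325300155) (nat_lit 76) (nat_lit 8771465321316) (nat_lit 1) (nat_lit 4) (nat_lit 2) (nat_lit 5) (nat_lit 2) (nat_lit 4) (nat_lit 332) (nat_lit 259) (nat_lit 189)) (XT.nd (nat_lit 78) (nat_lit 0) (nat_lit 0) (XT.lf (nat_lit 0) (nat_lit 5527354785961) (nat_lit 76) (nat_lit 10081704993834) (nat_lit 76) (nat_lit 10075844971896) (nat_lit 1) (nat_lit 4) (nat_lit 2) (nat_lit 5) (nat_lit 2) (nat_lit 4) (nat_lit 333) (nat_lit 259) (nat_lit 188)) (XT.lf (nat_lit 0) (nat_lit 6378419957679) (nat_lit 76) (nat_lit 11581741797469) (nat_lit 76) (nat_lit 11575881738054) (nat_lit 1) (nat_lit 4) (nat_lit 2) (nat_lit 5) (nat_lit 2) (nat_lit 4) (nat_lit 334) (nat_lit 259) (nat_lit 187))))) (XT.nd (nat_lit 156) (nat_lit 0) (nat_lit 0) (XT.nd (nat_lit 78) (nat_lit 0) (nat_lit 0) (XT.lf (nat_lit 0) (nat_lit 7357144642600)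 (nat_lit 76) (nat_lit 13306784257216) (nat_lit 76) (nat_lit 13300924165212) (nat_lit 1) (nat_lit 4) (nat_lit 2) (nat_lit 5) (nat_lit 2) (nat_lit 4) (nat_lit 335) (nat_lit 259) (nat_lit 186)) (XT.lf (nat_lit 0) (nat_lit 8482677801952) (nat_lit 76) (nat_lit 15290583203811) (nat_lit 76) (nat_lit 15284723083469) (nat_lit 1) (nat_lit 4) (nat_lit 2) (nat_lit 5) (nat_lit 2) (nat_lit 4) (nat_lit 336) (nat_lit 259) (nat_lit 185))) (XT.nd (nat_lit 78) (nat_lit 0) (nat_lit 0) (XT.lf (nat_lit 0) (nat_lit 9777040736679) (nat_lit 76) (nat_lit 17571952094903) (nat_lit 76) (nat_lit 17566091949919) (nat_lit 1) (nat_lit 4) (nat_lit 2) (nat_lit 5) (nat_lit 2) (nat_lit 4) (nat_lit 337) (nat_lit 259) (nat_lit 184)) (XT.nd (nat_lit 78) (nat_lit 0) (nat_lit 0) (XT.lf (nat_lit 0) (nat_lit 11265557938980) (nat_lit 76) (nat_lit 20195526408798) (nat_lit 76) (nat_lit 20189666242386) (nat_lit 1) (nat_lit 4) (nat_lit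 2) (nat_lit 5) (nat_lit 2) (nat_lit 4) (nat_lit 338) (nat_lit 259) (nat_lit 183)) (XT.lf (nat_lit 0) (nat_lit 12977352571511) (nat_lit 76) (nat_lit 23212636947288) (nat_lit 76) (nat_lit 23206776762243) (nat_lit 1) (nat_lit 4) (nat_lit 2) (nat_lit 5) (nat_lit 2) (nat_lit 4) (nat_lit 339) (nat_lit 259) (nat_lit 182)))))) (XT.nd (nat_lit 34554) (nat_lit 0) (nat_lit 1900) (XT.nd (nat_lit 156) (nat_lit 0) (nat_lit 0) (XT.nd (nat_lit 78) (nat_lit 0) (nat_lit 0) (XT.lf (nat_lit 0) (nat_lit 14945916268386) (nat_lit 76) (nat_lit 26682314133953) (nat_lit 76) (nat_lit 26676453932706) (nat_lit 1) (nat_lit 4) (nat_lit 2) (nat_lit 5) (nat_lit 2) (nat_lit 4) (nat_lit 340) (nat_lit 259) (nat_lit 181)) (XT.lf (nat_lit 0) (nat_lit 17209764406282) (nat_lit 76) (nat_lit 30672442957227) (nat_lit 76) (nat_lit 30666582741891) (nat_lit 1) (nat_lit 4) (nat_lit 2) (nat_lit 5) (nat_lit 2) (nat_lit 4) (nat_lit 341)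 (nat_lit 259) (nat_lit 180))) (XT.nd (nat_lit 34242) (nat_lit 0) (nat_lit 2508) (XT.lf (nat_lit 0) (nat_lit 19813189666160) (nat_lit 76) (nat_lit 35261091154957) (nat_lit 76) (nat_lit 35255230927370) (nat_lit 1) (nat_lit 4) (nat_lit 2) (nat_lit 5) (nat_lit 2) (nat_lit 4) (nat_lit 342) (nat_lit 259) (nat_lit 179)) (XT.nd (nat_lit 78) (nat_lit 76) (nat_lit 0) (XT.lf (nat_lit 0) (nat_lit 1073741823) (nat_lit 0) (nat_lit 0) (nat_lit 0) (nat_lit 0) (nat_lit 35) (nat_lit 0) (nat_lit 1) (nat_lit 0) (nat_lit 1) (nat_lit 0) (nat_lit 260) (nat_lit 260) (nat_lit 260)) (XT.lf (nat_lit 0) (nat_lit 2964327738) (nat_lit 76) (nat_lit 3223706415) (nat_lit 0) (nat_lit 275304735) (nat_lit 34) (nat_lit 5) (nat_lit 35) (nat_lit 0) (nat_lit 34) (nat_lit 4) (nat_lit 261) (nat_lit 260) (nat_lit 259))))) (XT.nd (nat_lit 156) (nat_lit 456) (nat_lit 0) (XT.nd (nat_lit 78) (nat_lit 76) (nat_lit 0) (XT.lf (nat_lit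 0) (nat_lit 134140040) (nat_lit 76) (nat_lit 5730018891) (nat_lit 76) (nat_lit 702715017) (nat_lit 33) (nat_lit 4) (nat_lit 34) (nat_lit 5) (nat_lit 34) (nat_lit 4) (nat_lit 262) (nat_lit 260) (nat_lit 258)) (XT.lf (nat_lit 0) (nat_lit 1979741166) (nat_lit 152) (nat_lit 2804148080) (nat_lit 76) (nat_lit 1935250637) (nat_lit 32) (nat_lit 5) (nat_lit 34) (nat_lit 5) (nat_lit 33) (nat_lit 4) (nat_lit 263) (nat_lit 260) (nat_lit 257))) (XT.nd (nat_lit 78) (nat_lit 304) (nat_lit 0) (XT.lf (nat_lit 0) (nat_lit 1094086779) (nat_lit 152) (nat_lit 3521147937) (nat_lit 228) (nat_lit 2332665523) (nat_lit 30) (nat_lit 5) (nat_lit 32) (nat_lit 5) (nat_lit 33) (nat_lit 4) (nat_lit 264) (nat_lit 260) (nat_lit 256)) (XT.nd (nat_lit 78) (nat_lit 228) (nat_lit 0) (XT.lf (nat_lit 0) (nat_lit 149188697) (nat_lit 228) (nat_lit 1685690812) (nat_lit 76) (nat_lit 5412028255) (nat_lit 29) (nat_lit 5) (nat_lit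 32) (nat_lit 5) (nat_lit 30) (nat_lit 5) (nat_lit 265) (nat_lit 260) (nat_lit 255)) (XT.lf (nat_lit 0) (nat_lit 2554611720) (nat_lit 304) (nat_lit 4684145818) (nat_lit 76) (nat_lit 368188706) (nat_lit 26) (nat_lit 5) (nat_lit 30) (nat_lit 5) (nat_lit 27) (nat_lit 4) (nat_lit 266) (nat_lit 260) (nat_lit 254))))))) (XT.nd (nat_lit 780) (nat_lit 532) (nat_lit 0) (XT.nd (nat_lit 390) (nat_lit 456) (nat_lit 0) (XT.nd (nat_lit 156) (nat_lit 304) (nat_lit 0) (XT.nd (nat_lit 78) (nat_lit 304) (nat_lit 0) (XT.lf (nat_lit 0) (nat_lit 5185585305) (nat_lit 304) (nat_lit 38455957) (nat_lit 76) (nat_lit 2818419886) (nat_lit 26) (nat_lit 5) (nat_lit 30) (nat_lit 5) (nat_lit 27) (nat_lit 4) (nat_lit 267) (nat_lit 260) (nat_lit 253)) (XT.lf (nat_lit 0) (nat_lit 5487276011) (nat_lit 304) (nat_lit 2677275973) (nat_lit 380) (nat_lit 386776394) (nat_lit 22) (nat_lit 5) (nat_lit 26) (nat_lit 5) (nat_lit 27)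 (nat_lit 4) (nat_lit 268) (nat_lit 260) (nat_lit 252))) (XT.nd (nat_lit 78) (nat_lit 76) (nat_lit 0) (XT.lf (nat_lit 0) (nat_lit 2096682415) (nat_lit 228) (nat_lit 6649436213) (nat_lit 76) (nat_lit 396747191) (nat_lit 19) (nat_lit 5) (nat_lit 22) (nat_lit 5) (nat_lit 20) (nat_lit 4) (nat_lit 269) (nat_lit 260) (nat_lit 251)) (XT.nd (nat_lit 78) (nat_lit 76) (nat_lit 0) (XT.lf (nat_lit 0) (nat_lit 4964553053) (nat_lit 228) (nat_lit 1061501612) (nat_lit 76) (nat_lit 3787268160) (nat_lit 19) (nat_lit 5) (nat_lit 22) (nat_lit 5) (nat_lit 20) (nat_lit 4) (nat_lit 270) (nat_lit 260) (nat_lit 250)) (XT.lf (nat_lit 0) (nat_lit 5566495403) (nat_lit 76) (nat_lit 2714613298) (nat_lit 152) (nat_lit 2301051294) (nat_lit 18) (nat_lit 5) (nat_lit 19) (nat_lit 5) (nat_lit 20) (nat_lit 4) (nat_lit 271) (nat_lit 260) (nat_lit 249))))) (XT.nd (nat_lit 156) (nat_lit 228) (nat_lit 0) (XT.nd (nat_lit 78) (nat_lit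 0) (nat_lit 0) (XT.lf (nat_lit 0) (nat_lit 542976633) (nat_lit 228) (nat_lit 9854278254) (nat_lit 76) (nat_lit 1070086067) (nat_lit 15) (nat_lit 5) (nat_lit 18) (nat_lit 5) (nat_lit 16) (nat_lit 4) (nat_lit 272) (nat_lit 260) (nat_lit 248)) (XT.lf (nat_lit 0) (nat_lit 3787164597) (nat_lit 228) (nat_lit 3209740230) (nat_lit 76) (nat_lit 5440973342) (nat_lit 15) (nat_lit 5) (nat_lit 18) (nat_lit 5) (nat_lit 16) (nat_lit 4) (nat_lit 273) (nat_lit 260) (nat_lit 247))) (XT.nd (nat_lit 78) (nat_lit 152) (nat_lit 0) (XT.lf (nat_lit 0) (nat_lit 4566513371) (nat_lit 76) (nat_lit 2971170028) (nat_lit 152) (nat_lit 6013692945) (nat_lit 14) (nat_lit 5) (nat_lit 15) (nat_lit 5) (nat_lit 16) (nat_lit 4) (nat_lit 274) (nat_lit 260) (nat_lit 246)) (XT.nd (nat_lit 78) (nat_lit 152) (nat_lit 0) (XT.lf (nat_lit 0) (nat_lit 11933010762) (nat_lit 152) (nat_lit 1292431424) (nat_lit 0) (nat_lit 1594414428)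 (nat_lit 14) (nat_lit 5) (nat_lit 16) (nat_lit 4) (nat_lit 14) (nat_lit 4) (nat_lit 275) (nat_lit 260) (nat_lit 245)) (XT.lf (nat_lit 0) (nat_lit 987543521) (nat_lit 152) (nat_lit 8404322826) (nat_lit 76) (nat_lit 6831313781) (nat_lit 12) (nat_lit 5) (nat_lit 14) (nat_lit 5) (nat_lit 13) (nat_lit 4) (nat_lit 276) (nat_lit 260) (nat_lit 244)))))) (XT.nd (nat_lit 390) (nat_lit 228) (nat_lit 0) (XT.nd (nat_lit 156) (nat_lit 228) (nat_lit 0) (XT.nd (nat_lit 78) (nat_lit 0) (nat_lit 0) (XT.lf (nat_lit 0) (nat_lit 251627962) (nat_lit 76) (nat_lit 4838357812) (nat_lit 152) (nat_lit 12735220173) (nat_lit 11) (nat_lit 5) (nat_lit 12) (nat_lit 5) (nat_lit 13) (nat_lit 4) (nat_lit 277) (nat_lit 260) (nat_lit 243)) (XT.lf (nat_lit 0) (nat_lit 10149877824) (nat_lit 152) (nat_lit 8738122296) (nat_lit 0) (nat_lit 728389940) (nat_lit 11) (nat_lit 5) (nat_lit 13) (nat_lit 4) (nat_lit 11) (nat_lit 4) (nat_lit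 278) (nat_lit 260) (nat_lit 242))) (XT.nd (nat_lit 78) (nat_lit 152) (nat_lit 0) (XT.lf (nat_lit 0) (nat_lit 1070534649) (nat_lit 76) (nat_lit 15055866512) (nat_lit 76) (nat_lit 5526348673) (nat_lit 10) (nat_lit 4) (nat_lit 11) (nat_lit 5) (nat_lit 11) (nat_lit 4) (nat_lit 279) (nat_lit 260) (nat_lit 241)) (XT.nd (nat_lit 78) (nat_lit 152) (nat_lit 0) (XT.lf (nat_lit 0) (nat_lit 13125375220) (nat_lit 76) (nat_lit 10220407293) (nat_lit 76) (nat_lit 596950364) (nat_lit 10) (nat_lit 4) (nat_lit 11) (nat_lit 5) (nat_lit 11) (nat_lit 4) (nat_lit 280) (nat_lit 260) (nat_lit 240)) (XT.lf (nat_lit 0) (nat_lit 13327946) (nat_lit 76) (nat_lit 4506891141) (nat_lit 152) (nat_lit 22039603530) (nat_lit 8) (nat_lit 5) (nat_lit 9) (nat_lit 5) (nat_lit 10) (nat_lit 4) (nat_lit 281) (nat_lit 260) (nat_lit 239))))) (XT.nd (nat_lit 234) (nat_lit 152) (nat_lit 0) (XT.nd (nat_lit 78) (nat_lit 76) (nat_lit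 0) (XT.lf (nat_lit 0) (nat_lit 10923058926) (nat_lit 152) (nat_lit 16133316678) (nat_lit 0) (nat_lit 2422037585) (nat_lit 8) (nat_lit 5) (nat_lit 10) (nat_lit 4) (nat_lit 8) (nat_lit 4) (nat_lit 282) (nat_lit 260) (nat_lit 238)) (XT.nd (nat_lit 78) (nat_lit 76) (nat_lit 0) (XT.lf (nat_lit 0) (nat_lit 18415182739) (nat_lit 152) (nat_lit 4539901662) (nat_lit 0) (nat_lit 9860451419) (nat_lit 8) (nat_lit 5) (nat_lit 10) (nat_lit 4) (nat_lit 8) (nat_lit 4) (nat_lit 283) (nat_lit 260) (nat_lit 237)) (XT.lf (nat_lit 0) (nat_lit 9492265970) (nat_lit 76) (nat_lit 17857343328) (nat_lit 76) (nat_lit 9255907678) (nat_lit 7) (nat_lit 4) (nat_lit 8) (nat_lit 5) (nat_lit 8) (nat_lit 4) (nat_lit 284) (nat_lit 260) (nat_lit 236)))) (XT.nd (nat_lit 78) (nat_lit 152) (nat_lit 0) (XT.lf (nat_lit 0) (nat_lit 26000760758) (nat_lit 76) (nat_lit 11790164231) (nat_lit 76) (nat_lit 3148116120) (nat_lit 7) (nat_lit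 4) (nat_lit 8) (nat_lit 5) (nat_lit 8) (nat_lit 4) (nat_lit 285) (nat_lit 260) (nat_lit 235)) (XT.nd (nat_lit 78) (nat_lit 76) (nat_lit 0) (XT.lf (nat_lit 0) (nat_lit 3466442819) (nat_lit 152) (nat_lit 1224511233) (nat_lit 76) (nat_lit 41217259543) (nat_lit 6) (nat_lit 5) (nat_lit 8) (nat_lit 5) (nat_lit 7) (nat_lit 4) (nat_lit 286) (nat_lit 260) (nat_lit 234)) (XT.lf (nat_lit 0) (nat_lit 11523910540) (nat_lit 152) (nat_lit 36008772054) (nat_lit 0) (nat_lit 3951673889) (nat_lit 5) (nat_lit 5) (nat_lit 7) (nat_lit 4) (nat_lit 5) (nat_lit 4) (nat_lit 287) (nat_lit 260) (nat_lit 233))))))))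
noncomputable def xc48 : XT := (XT.nd (nat_lit 1560) (nat_lit 76) (nat_lit 0) (XT.nd (nat_lit 780) (nat_lit 0) (nat_lit 0) (XT.nd (nat_lit 390) (nat_lit 152) (nat_lit 0) (XT.nd (nat_lit 156) (nat_lit 76) (nat_lit 0) (XT.nd (nat_lit 78) (nat_lit 0) (nat_lit 0) (XT.lf (nat_lit 0) (nat_lit 21025246609) (nat_lit 152) (nat_lit 23406628519) (nat_lit 0) (nat_lit 13429789650) (nat_lit 5) (nat_lit 5) (nat_lit 7) (nat_lit 4) (nat_lit 5) (nat_lit 4) (nat_lit 288) (nat_lit 260) (nat_lit 232)) (XT.lf (nat_lit 0) (nat_lit 31903794266) (nat_lit 152) (nat_lit 9010854769) (nat_lit 0) (nat_lit 24288145737) (nat_lit 5) (nat_lit 5) (nat_lit 7) (nat_lit 4) (nat_lit 5) (nat_lit 4) (nat_lit 289) (nat_lit 260) (nat_lit 231))) (XT.nd (nat_lit 78) (nat_lit 0) (nat_lit 0) (XT.lf (nat_lit 0) (nat_lit 8189271190) (nat_lit 76) (nat_lit 36522223730) (nat_lit 76) (nat_lit 28889017313) (nat_lit 4) (nat_lit 4) (nat_lit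 5) (nat_lit 5) (nat_lit 5) (nat_lit 4) (nat_lit 290) (nat_lit 260) (nat_lit 230)) (XT.nd (nat_lit 78) (nat_lit 0) (nat_lit 0) (XT.lf (nat_lit 0) (nat_lit 28901855630) (nat_lit 76) (nat_lit 30969907255) (nat_lit 76) (nat_lit 23321433110) (nat_lit 4) (nat_lit 4) (nat_lit 5) (nat_lit 5) (nat_lit 5) (nat_lit 4) (nat_lit 291) (nat_lit 260) (nat_lit 229)) (XT.lf (nat_lit 0) (nat_lit 52651538507) (nat_lit 76) (nat_lit 24620089287) (nat_lit 76) (nat_lit 16958338857) (nat_lit 4) (nat_lit 4) (nat_lit 5) (nat_lit 5) (nat_lit 5) (nat_lit 4) (nat_lit 292) (nat_lit 260) (nat_lit 228))))) (XT.nd (nat_lit 156) (nat_lit 152) (nat_lit 0) (XT.nd (nat_lit 78) (nat_lit 0) (nat_lit 0) (XT.lf (nat_lit 0) (nat_lit 79902987530) (nat_lit 76) (nat_lit 17348534256) (nat_lit 76) (nat_lit 9675239230) (nat_lit 4) (nat_lit 4) (nat_lit 5) (nat_lit 5) (nat_lit 5) (nat_lit 4) (nat_lit 293) (nat_lit 260) (nat_lit 227))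 (XT.lf (nat_lit 0) (nat_lit 111189383222) (nat_lit 76) (nat_lit 9012972608) (nat_lit 76) (nat_lit 1329638802) (nat_lit 4) (nat_lit 4) (nat_lit 5) (nat_lit 5) (nat_lit 5) (nat_lit 4) (nat_lit 294) (nat_lit 260) (nat_lit 226))) (XT.nd (nat_lit 78) (nat_lit 0) (nat_lit 0) (XT.lf (nat_lit 0) (nat_lit 7949409348) (nat_lit 152) (nat_lit 129003952899) (nat_lit 0) (nat_lit 1260658757) (nat_lit 2) (nat_lit 5) (nat_lit 4) (nat_lit 4) (nat_lit 2) (nat_lit 4) (nat_lit 295) (nat_lit 260) (nat_lit 225)) (XT.nd (nat_lit 78) (nat_lit 0) (nat_lit 0) (XT.lf (nat_lit 0) (nat_lit 19456237135) (nat_lit 152) (nat_lit 125025931947) (nat_lit 0) (nat_lit 12760885885) (nat_lit 2) (nat_lit 5) (nat_lit 4) (nat_lit 4) (nat_lit 2) (nat_lit 4) (nat_lit 296) (nat_lit 260) (nat_lit 224)) (XT.lf (nat_lit 0) (nat_lit 32668638507) (nat_lit 152) (nat_lit 120493333266) (nat_lit 0) (nat_lit 25967547552) (nat_lit 2) (nat_lit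 5) (nat_lit 4) (nat_lit 4) (nat_lit 2) (nat_lit 4) (nat_lit 297) (nat_lit 260) (nat_lit 223)))))) (XT.nd (nat_lit 390) (nat_lit 0) (nat_lit 0) (XT.nd (nat_lit 156) (nat_lit 0) (nat_lit 0) (XT.nd (nat_lit 78) (nat_lit 0) (nat_lit 0) (XT.lf (nat_lit 0) (nat_lit 47845116968) (nat_lit 152) (nat_lit 115317475577) (nat_lit 0) (nat_lit 41139034965) (nat_lit 2) (nat_lit 5) (nat_lit 4) (nat_lit 4) (nat_lit 2) (nat_lit 4) (nat_lit 298) (nat_lit 260) (nat_lit 222)) (XT.lf (nat_lit 0) (nat_lit 65282603618) (nat_lit 152) (nat_lit 109397092100) (nat_lit 0) (nat_lit 58572181574) (nat_lit 2) (nat_lit 5) (nat_lit 4) (nat_lit 4) (nat_lit 2) (nat_lit 4) (nat_lit 299) (nat_lit 260) (nat_lit 221))) (XT.nd (nat_lit 78) (nat_lit 0) (nat_lit 0) (XT.lf (nat_lit 0) (nat_lit 85322266675) (nat_lit 152) (nat_lit 102616349244) (nat_lit 0) (nat_lit 78608070682) (nat_lit 2) (nat_lit 5) (nat_lit 4) (nat_lit 4) (nat_lit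 2) (nat_lit 4) (nat_lit 300) (nat_lit 260) (nat_lit 220)) (XT.nd (nat_lit 78) (nat_lit 0) (nat_lit 0) (XT.lf (nat_lit 0) (nat_lit 108356186502) (nat_lit 152) (nat_lit 94842580303) (nat_lit 0) (nat_lit 101638708814) (nat_lit 2) (nat_lit 5) (nat_lit 4) (nat_lit 4) (nat_lit 2) (nat_lit 4) (nat_lit 301) (nat_lit 260) (nat_lit 219)) (XT.lf (nat_lit 0) (nat_lit 134835026749) (nat_lit 152) (nat_lit 85923689795) (nat_lit 0) (nat_lit 128114695414) (nat_lit 2) (nat_lit 5) (nat_lit 4) (nat_lit 4) (nat_lit 2) (nat_lit 4) (nat_lit 302) (nat_lit 260) (nat_lit 218))))) (XT.nd (nat_lit 156) (nat_lit 0) (nat_lit 0) (XT.nd (nat_lit 78) (nat_lit 0) (nat_lit 0) (XT.lf (nat_lit 0) (nat_lit 165276851681) (nat_lit 152) (nat_lit 75685177690) (nat_lit 0) (nat_lit 158554038913) (nat_lit 2) (nat_lit 5) (nat_lit 4) (nat_lit 4) (nat_lit 2) (nat_lit 4) (nat_lit 303) (nat_lit 260) (nat_lit 217)) (XT.lf (nat_lit 0)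 (nat_lit 200277262221) (nat_lit 152) (nat_lit 63926725273) (nat_lit 0) (nat_lit 193552291686) (nat_lit 2) (nat_lit 5) (nat_lit 4) (nat_lit 4) (nat_lit 2) (nat_lit 4) (nat_lit 304) (nat_lit 260) (nat_lit 216))) (XT.nd (nat_lit 78) (nat_lit 0) (nat_lit 0) (XT.lf (nat_lit 0) (nat_lit 240521049010) (nat_lit 152) (nat_lit 50418275866) (nat_lit 0) (nat_lit 233794202155) (nat_lit 2) (nat_lit 5) (nat_lit 4) (nat_lit 4) (nat_lit 2) (nat_lit 4) (nat_lit 305) (nat_lit 260) (nat_lit 215)) (XT.nd (nat_lit 78) (nat_lit 0) (nat_lit 0) (XT.lf (nat_lit 0) (nat_lit 286795590485) (nat_lit 152) (nat_lit 34895533719) (nat_lit 0) (nat_lit 280067112047) (nat_lit 2) (nat_lit 5) (nat_lit 4) (nat_lit 4) (nat_lit 2) (nat_lit 4) (nat_lit 306) (nat_lit 260) (nat_lit 214)) (XT.lf (nat_lit 0) (nat_lit 340006258109) (nat_lit 152) (nat_lit 17054793009) (nat_lit 0) (nat_lit 333276360905) (nat_lit 2) (nat_lit 5) (nat_lit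 4) (nat_lit 4) (nat_lit 2) (nat_lit 4) (nat_lit 307) (nat_lit 260) (nat_lit 213))))))) (XT.nd (nat_lit 780) (nat_lit 0) (nat_lit 0) (XT.nd (nat_lit 390) (nat_lit 0) (nat_lit 0) (XT.nd (nat_lit 156) (nat_lit 0) (nat_lit 0) (XT.nd (nat_lit 78) (nat_lit 0) (nat_lit 0) (XT.lf (nat_lit 0) (nat_lit 3790456922) (nat_lit 76) (nat_lit 397560627979) (nat_lit 76) (nat_lit 390829497063) (nat_lit 1) (nat_lit 4) (nat_lit 2) (nat_lit 5) (nat_lit 2) (nat_lit 4) (nat_lit 308) (nat_lit 260) (nat_lit 212)) (XT.lf (nat_lit 0) (nat_lit 29670577511) (nat_lit 76) (nat_lit 443114378494) (nat_lit 76) (nat_lit 436382174787) (nat_lit 1) (nat_lit 4) (nat_lit 2) (nat_lit 5) (nat_lit 2) (nat_lit 4) (nat_lit 309) (nat_lit 260) (nat_lit 211))) (XT.nd (nat_lit 78) (nat_lit 0) (nat_lit 0) (XT.lf (nat_lit 0) (nat_lit 59425200537) (nat_lit 76) (nat_lit 495505072242) (nat_lit 76) (nat_lit 488771935672) (nat_lit 1) (nat_lit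 4) (nat_lit 2) (nat_lit 5) (nat_lit 2) (nat_lit 4) (nat_lit 310) (nat_lit 260) (nat_lit 210)) (XT.nd (nat_lit 78) (nat_lit 0) (nat_lit 0) (XT.lf (nat_lit 0) (nat_lit 93636481665) (nat_lit 76) (nat_lit 555757744533) (nat_lit 76) (nat_lit 549023796778) (nat_lit 1) (nat_lit 4) (nat_lit 2) (nat_lit 5) (nat_lit 2) (nat_lit 4) (nat_lit 311) (nat_lit 260) (nat_lit 209)) (XT.lf (nat_lit 0) (nat_lit 132973772050) (nat_lit 76) (nat_lit 625051251999) (nat_lit 76) (nat_lit 618316598867) (nat_lit 1) (nat_lit 4) (nat_lit 2) (nat_lit 5) (nat_lit 2) (nat_lit 4) (nat_lit 312) (nat_lit 260) (nat_lit 208))))) (XT.nd (nat_lit 156) (nat_lit 0) (nat_lit 0) (XT.nd (nat_lit 78) (nat_lit 0) (nat_lit 0) (XT.lf (nat_lit 0) (nat_lit 178206714329) (nat_lit 76) (nat_lit 704741337179) (nat_lit 76) (nat_lit 698006070674) (nat_lit 1) (nat_lit 4) (nat_lit 2) (nat_lit 5) (nat_lit 2) (nat_lit 4) (nat_lit 313) (nat_lit 260)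 (nat_lit 207)) (XT.lf (nat_lit 0) (nat_lit 230220300851) (nat_lit 76) (nat_lit 796387153912) (nat_lit 76) (nat_lit 789651354040) (nat_lit 1) (nat_lit 4) (nat_lit 2) (nat_lit 5) (nat_lit 2) (nat_lit 4) (nat_lit 314) (nat_lit 260) (nat_lit 206))) (XT.nd (nat_lit 78) (nat_lit 0) (nat_lit 0) (XT.lf (nat_lit 0) (nat_lit 290032188743) (nat_lit 76) (nat_lit 901781772526) (nat_lit 76) (nat_lit 895045508857) (nat_lit 1) (nat_lit 4) (nat_lit 2) (nat_lit 5) (nat_lit 2) (nat_lit 4) (nat_lit 315) (nat_lit 260) (nat_lit 205)) (XT.nd (nat_lit 78) (nat_lit 0) (nat_lit 0) (XT.lf (nat_lit 0) (nat_lit 358812610595) (nat_lit 76) (nat_lit 1022987261646) (nat_lit 76) (nat_lit 1016250594674) (nat_lit 1) (nat_lit 4) (nat_lit 2) (nat_lit 5) (nat_lit 2) (nat_lit 4) (nat_lit 316) (nat_lit 260) (nat_lit 204)) (XT.lf (nat_lit 0) (nat_lit 437907270312) (nat_lit 76) (nat_lit 1162375033015) (nat_lit 76) (nat_lit 1155638015346)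 (nat_lit 1) (nat_lit 4) (nat_lit 2) (nat_lit 5) (nat_lit 2) (nat_lit 4) (nat_lit 317) (nat_lit 260) (nat_lit 203)))))) (XT.nd (nat_lit 390) (nat_lit 0) (nat_lit 0) (XT.nd (nat_lit 156) (nat_lit 0) (nat_lit 0) (XT.nd (nat_lit 78) (nat_lit 0) (nat_lit 0) (XT.lf (nat_lit 0) (nat_lit 528863672107) (nat_lit 76) (nat_lit 1322672238683) (nat_lit 76) (nat_lit 1315934916059) (nat_lit 1) (nat_lit 4) (nat_lit 2) (nat_lit 5) (nat_lit 2) (nat_lit 4) (nat_lit 318) (nat_lit 260) (nat_lit 202)) (XT.lf (nat_lit 0) (nat_lit 633461397754) (nat_lit 76) (nat_lit 1507015128324) (nat_lit 76) (nat_lit 1500277540523) (nat_lit 1) (nat_lit 4) (nat_lit 2) (nat_lit 5) (nat_lit 2) (nat_lit 4) (nat_lit 319) (nat_lit 260) (nat_lit 201))) (XT.nd (nat_lit 78) (nat_lit 0) (nat_lit 0) (XT.lf (nat_lit 0) (nat_lit 753746924493) (nat_lit 76) (nat_lit 1719010410650) (nat_lit 76) (nat_lit 1712272592260) (nat_lit 1) (nat_lit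 4) (nat_lit 2) (nat_lit 5) (nat_lit 2) (nat_lit 4) (nat_lit 320) (nat_lit 260) (nat_lit 200)) (XT.nd (nat_lit 78) (nat_lit 0) (nat_lit 0) (XT.lf (nat_lit 0) (nat_lit 892073664804) (nat_lit 76) (nat_lit 1962805819446) (nat_lit 76) (nat_lit 1956067800543) (nat_lit 1) (nat_lit 4) (nat_lit 2) (nat_lit 5) (nat_lit 2) (nat_lit 4) (nat_lit 321) (nat_lit 260) (nat_lit 199)) (XT.lf (nat_lit 0) (nat_lit 1051148011433) (nat_lit 76) (nat_lit 2243171264883) (nat_lit 76) (nat_lit 2236433071621) (nat_lit 1) (nat_lit 4) (nat_lit 2) (nat_lit 5) (nat_lit 2) (nat_lit 4) (nat_lit 322) (nat_lit 260) (nat_lit 198))))) (XT.nd (nat_lit 156) (nat_lit 0) (nat_lit 0) (XT.nd (nat_lit 78) (nat_lit 0) (nat_lit 0) (XT.lf (nat_lit 0) (nat_lit 1234082288552) (nat_lit 76) (nat_lit 2565592157849) (nat_lit 76) (nat_lit 2558853812972) (nat_lit 1) (nat_lit 4) (nat_lit 2) (nat_lit 5) (nat_lit 2) (nat_lit 4) (nat_lit 323) (nat_lit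 260) (nat_lit 197)) (XT.lf (nat_lit 0) (nat_lit 1444455645062) (nat_lit 76) (nat_lit 2936376733209) (nat_lit 76) (nat_lit 2929638256491) (nat_lit 1) (nat_lit 4) (nat_lit 2) (nat_lit 5) (nat_lit 2) (nat_lit 4) (nat_lit 324) (nat_lit 260) (nat_lit 196))) (XT.nd (nat_lit 78) (nat_lit 0) (nat_lit 0) (XT.lf (nat_lit 0) (nat_lit 1686384081417) (nat_lit 76) (nat_lit 3362779471784) (nat_lit 76) (nat_lit 3356040880422) (nat_lit 1) (nat_lit 4) (nat_lit 2) (nat_lit 5) (nat_lit 2) (nat_lit 4) (nat_lit 325) (nat_lit 260) (nat_lit 195)) (XT.nd (nat_lit 78) (nat_lit 0) (nat_lit 0) (XT.lf (nat_lit 0) (nat_lit 1964600980066) (nat_lit 76) (nat_lit 3853143035850) (nat_lit 76) (nat_lit 3846404344798) (nat_lit 1) (nat_lit 4) (nat_lit 2) (nat_lit 5) (nat_lit 2) (nat_lit 4) (nat_lit 326) (nat_lit 260) (nat_lit 194)) (XT.lf (nat_lit 0) (nat_lit 2284549715114) (nat_lit 76) (nat_lit 4417061495139) (nat_lit 76)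 (nat_lit 4410322717400) (nat_lit 1) (nat_lit 4) (nat_lit 2) (nat_lit 5) (nat_lit 2) (nat_lit 4) (nat_lit 327) (nat_lit 260) (nat_lit 193))))))))
noncomputable def xc49 : XT := (XT.nd (nat_lit 35724) (nat_lit 0) (nat_lit 456) (XT.nd (nat_lit 780) (nat_lit 0) (nat_lit 0) (XT.nd (nat_lit 390) (nat_lit 0) (nat_lit 0) (XT.nd (nat_lit 156) (nat_lit 0) (nat_lit 0) (XT.nd (nat_lit 78) (nat_lit 0) (nat_lit 0) (XT.lf (nat_lit 0) (nat_lit 2652490153115) (nat_lit 76) (nat_lit 5065568036898) (nat_lit 76) (nat_lit 5058829183779) (nat_lit 1) (nat_lit 4) (nat_lit 2) (nat_lit 5) (nat_lit 2) (nat_lit 4) (nat_lit 328) (nat_lit 260) (nat_lit 192)) (XT.lf (nat_lit 0) (nat_lit 3075621128727) (nat_lit 76) (nat_lit 5811350832596) (nat_lit 76) (nat_lit 5804611913929) (nat_lit 1) (nat_lit 4) (nat_lit 2) (nat_lit 5) (nat_lit 2) (nat_lit 4) (nat_lit 329) (nat_lit 260) (nat_lit 191))) (XT.nd (nat_lit 78) (nat_lit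 0) (nat_lit 0) (XT.lf (nat_lit 0) (nat_lit 3562221291473) (nat_lit 76) (nat_lit 6669001284759) (nat_lit 76) (nat_lit 6662262309094) (nat_lit 1) (nat_lit 4) (nat_lit 2) (nat_lit 5) (nat_lit 2) (nat_lit 4) (nat_lit 330) (nat_lit 260) (nat_lit 190)) (XT.nd (nat_lit 78) (nat_lit 0) (nat_lit 0) (XT.lf (nat_lit 0) (nat_lit 4121811079318) (nat_lit 76) (nat_lit 7655299510927) (nat_lit 76) (nat_lit 7648560485698) (nat_lit 1) (nat_lit 4) (nat_lit 2) (nat_lit 5) (nat_lit 2) (nat_lit 4) (nat_lit 331) (nat_lit 260) (nat_lit 189)) (XT.lf (nat_lit 0) (nat_lit 4765338988113) (nat_lit 76) (nat_lit 8789542650309) (nat_lit 76) (nat_lit 8782803581982) (nat_lit 1) (nat_lit 4) (nat_lit 2) (nat_lit 5) (nat_lit 2) (nat_lit 4) (nat_lit 332) (nat_lit 260) (nat_lit 188))))) (XT.nd (nat_lit 156) (nat_lit 0) (nat_lit 0) (XT.nd (nat_lit 78) (nat_lit 0) (nat_lit 0) (XT.lf (nat_lit 0) (nat_lit 5505395781290) (nat_lit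 76) (nat_lit 10093922416501) (nat_lit 76) (nat_lit 10087183310697) (nat_lit 1) (nat_lit 4) (nat_lit 2) (nat_lit 5) (nat_lit 2) (nat_lit 4) (nat_lit 333) (nat_lit 260) (nat_lit 187)) (XT.lf (nat_lit 0) (nat_lit 6356460830890) (nat_lit 76) (nat_lit 11593959283191) (nat_lit 76) (nat_lit 11587220144797) (nat_lit 1) (nat_lit 4) (nat_lit 2) (nat_lit 5) (nat_lit 2) (nat_lit 4) (nat_lit 334) (nat_lit 260) (nat_lit 186))) (XT.nd (nat_lit 78) (nat_lit 0) (nat_lit 0) (XT.lf (nat_lit 0) (nat_lit 7335185409622) (nat_lit 76) (nat_lit 13319001797768) (nat_lit 76) (nat_lit 13312262631037) (nat_lit 1) (nat_lit 4) (nat_lit 2) (nat_lit 5) (nat_lit 2) (nat_lit 4) (nat_lit 335) (nat_lit 260) (nat_lit 185)) (XT.nd (nat_lit 78) (nat_lit 0) (nat_lit 0) (XT.lf (nat_lit 0) (nat_lit 8460718476635) (nat_lit 76) (nat_lit 15302800792041) (nat_lit 76) (nat_lit 15296061600668) (nat_lit 1) (nat_lit 4) (nat_lit 2) (nat_lit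 5) (nat_lit 2) (nat_lit 4) (nat_lit 336) (nat_lit 260) (nat_lit 184)) (XT.lf (nat_lit 0) (nat_lit 9755081331066) (nat_lit 76) (nat_lit 17584169724593) (nat_lit 76) (nat_lit 17577430511792) (nat_lit 1) (nat_lit 4) (nat_lit 2) (nat_lit 5) (nat_lit 2) (nat_lit 4) (nat_lit 337) (nat_lit 260) (nat_lit 183)))))) (XT.nd (nat_lit 1950) (nat_lit 0) (nat_lit 0) (XT.nd (nat_lit 156) (nat_lit 0) (nat_lit 0) (XT.nd (nat_lit 78) (nat_lit 0) (nat_lit 0) (XT.lf (nat_lit 0) (nat_lit 11243598463546) (nat_lit 76) (nat_lit 20207744074540) (nat_lit 76) (nat_lit 20201004843106) (nat_lit 1) (nat_lit 4) (nat_lit 2) (nat_lit 5) (nat_lit 2) (nat_lit 4) (nat_lit 338) (nat_lit 260) (nat_lit 182)) (XT.lf (nat_lit 0) (nat_lit 12955393035363) (nat_lit 76) (nat_lit 23224854644379) (nat_lit 76) (nat_lit 23218115396743) (nat_lit 1) (nat_lit 4) (nat_lit 2) (nat_lit 5) (nat_lit 2) (nat_lit 4) (nat_lit 339) (nat_lit 260)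 (nat_lit 181))) (XT.nd (nat_lit 78) (nat_lit 0) (nat_lit 0) (XT.lf (nat_lit 0) (nat_lit 14923956679443) (nat_lit 76) (nat_lit 26694531858304) (nat_lit 76) (nat_lit 26687792596579) (nat_lit 1) (nat_lit 4) (nat_lit 2) (nat_lit 5) (nat_lit 2) (nat_lit 4) (nat_lit 340) (nat_lit 260) (nat_lit 180)) (XT.nd (nat_lit 78) (nat_lit 0) (nat_lit 0) (XT.lf (nat_lit 0) (nat_lit 17187804771431) (nat_lit 76) (nat_lit 30684660705283) (nat_lit 76) (nat_lit 30677921431306) (nat_lit 1) (nat_lit 4) (nat_lit 2) (nat_lit 5) (nat_lit 2) (nat_lit 4) (nat_lit 341) (nat_lit 260) (nat_lit 179)) (XT.lf (nat_lit 0) (nat_lit 19791229991387) (nat_lit 76) (nat_lit 35273308923626) (nat_lit 76) (nat_lit 35266569638996) (nat_lit 1) (nat_lit 4) (nat_lit 2) (nat_lit 5) (nat_lit 2) (nat_lit 4) (nat_lit 342) (nat_lit 260) (nat_lit 178))))) (XT.nd (nat_lit 32760) (nat_lit 0) (nat_lit 2280) (XT.nd (nat_lit 32682) (nat_lit 0)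 (nat_lit 2508) (XT.lf (nat_lit 0) (nat_lit 375501447559448) (nat_lit 76) (nat_lit 662227849176261) (nat_lit 76) (nat_lit 662221109824382) (nat_lit 1) (nat_lit 4) (nat_lit 2) (nat_lit 5) (nat_lit 2) (nat_lit 4) (nat_lit 363) (nat_lit 260) (nat_lit 157)) (XT.lf (nat_lit 0) (nat_lit 1414792784) (nat_lit 0) (nat_lit 1414792784) (nat_lit 76) (nat_lit 433469888) (nat_lit 34) (nat_lit 5) (nat_lit 34) (nat_lit 3) (nat_lit 35) (nat_lit 0) (nat_lit 261) (nat_lit 261) (nat_lit 258))) (XT.nd (nat_lit 78) (nat_lit 0) (nat_lit 0) (XT.lf (nat_lit 0) (nat_lit 1501445683) (nat_lit 228) (nat_lit 533037900) (nat_lit 228) (nat_lit 4622705760) (nat_lit 31) (nat_lit 3) (nat_lit 34) (nat_lit 3) (nat_lit 34) (nat_lit 5) (nat_lit 262) (nat_lit 261) (nat_lit 257)) (XT.nd (nat_lit 78) (nat_lit 0) (nat_lit 76) (XT.lf (nat_lit 76) (nat_lit 3097804933) (nat_lit 0) (nat_lit 748295202) (nat_lit 228) (nat_lit 3001237543)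 (nat_lit 32) (nat_lit 5) (nat_lit 31) (nat_lit 3) (nat_lit 34) (nat_lit 5) (nat_lit 263) (nat_lit 261) (nat_lit 256)) (XT.lf (nat_lit 0) (nat_lit 6234347963) (nat_lit 152) (nat_lit 54653824) (nat_lit 76) (nat_lit 825018680) (nat_lit 32) (nat_lit 5) (nat_lit 34) (nat_lit 5) (nat_lit 33) (nat_lit 4) (nat_lit 264) (nat_lit 261) (nat_lit 255))))))) (XT.nd (nat_lit 780) (nat_lit 608) (nat_lit 0) (XT.nd (nat_lit 390) (nat_lit 456) (nat_lit 0) (XT.nd (nat_lit 156) (nat_lit 380) (nat_lit 0) (XT.nd (nat_lit 78) (nat_lit 228) (nat_lit 0) (XT.lf (nat_lit 0) (nat_lit 1308154577) (nat_lit 228) (nat_lit 3213496499) (nat_lit 76) (nat_lit 2907684676) (nat_lit 29) (nat_lit 5) (nat_lit 32) (nat_lit 5) (nat_lit 30) (nat_lit 5) (nat_lit 265) (nat_lit 261) (nat_lit 254)) (XT.lf (nat_lit 0) (nat_lit 1124438863) (nat_lit 228) (nat_lit 2356209981) (nat_lit 304) (nat_lit 4344214106) (nat_lit 26) (nat_lit 5) (nat_lit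 29) (nat_lit 5) (nat_lit 30) (nat_lit 5) (nat_lit 266) (nat_lit 261) (nat_lit 253))) (XT.nd (nat_lit 78) (nat_lit 380) (nat_lit 0) (XT.lf (nat_lit 0) (nat_lit 5886675709) (nat_lit 304) (nat_lit 2099180981) (nat_lit 76) (nat_lit 308740915) (nat_lit 26) (nat_lit 5) (nat_lit 30) (nat_lit 5) (nat_lit 27) (nat_lit 4) (nat_lit 267) (nat_lit 261) (nat_lit 252)) (XT.nd (nat_lit 78) (nat_lit 76) (nat_lit 0) (XT.lf (nat_lit 0) (nat_lit 3089604674) (nat_lit 304) (nat_lit 5565989091) (nat_lit 380) (nat_lit 179793790) (nat_lit 22) (nat_lit 5) (nat_lit 26) (nat_lit 5) (nat_lit 27) (nat_lit 4) (nat_lit 268) (nat_lit 261) (nat_lit 251)) (XT.lf (nat_lit 0) (nat_lit 2056750176) (nat_lit 380) (nat_lit 528544304) (nat_lit 76) (nat_lit 6874932209) (nat_lit 21) (nat_lit 5) (nat_lit 26) (nat_lit 5) (nat_lit 22) (nat_lit 5) (nat_lit 269) (nat_lit 261) (nat_lit 250))))) (XT.nd (nat_lit 156) (nat_lit 228) (nat_lit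 0) (XT.nd (nat_lit 78) (nat_lit 76) (nat_lit 0) (XT.lf (nat_lit 0) (nat_lit 4693799441) (nat_lit 228) (nat_lit 4484500377) (nat_lit 76) (nat_lit 987280233) (nat_lit 19) (nat_lit 5) (nat_lit 22) (nat_lit 5) (nat_lit 20) (nat_lit 4) (nat_lit 270) (nat_lit 261) (nat_lit 249)) (XT.lf (nat_lit 0) (nat_lit 1678582868) (nat_lit 76) (nat_lit 6085041996) (nat_lit 152) (nat_lit 3208039412) (nat_lit 18) (nat_lit 5) (nat_lit 19) (nat_lit 5) (nat_lit 20) (nat_lit 4) (nat_lit 271) (nat_lit 261) (nat_lit 248))) (XT.nd (nat_lit 78) (nat_lit 228) (nat_lit 0) (XT.lf (nat_lit 0) (nat_lit 9026346260) (nat_lit 76) (nat_lit 2331603908) (nat_lit 152) (nat_lit 531551120) (nat_lit 18) (nat_lit 5) (nat_lit 19) (nat_lit 5) (nat_lit 20) (nat_lit 4) (nat_lit 272) (nat_lit 261) (nat_lit 247)) (XT.nd (nat_lit 78) (nat_lit 0) (nat_lit 0) (XT.lf (nat_lit 0) (nat_lit 2448287117) (nat_lit 228) (nat_lit 8408976350) (nat_lit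 76) (nat_lit 2052983582) (nat_lit 15) (nat_lit 5) (nat_lit 18) (nat_lit 5) (nat_lit 16) (nat_lit 4) (nat_lit 273) (nat_lit 261) (nat_lit 246)) (XT.lf (nat_lit 0) (nat_lit 5941207972) (nat_lit 228) (nat_lit 1149076358) (nat_lit 76) (nat_lit 6972236392) (nat_lit 15) (nat_lit 5) (nat_lit 18) (nat_lit 5) (nat_lit 16) (nat_lit 4) (nat_lit 274) (nat_lit 261) (nat_lit 245)))))) (XT.nd (nat_lit 390) (nat_lit 304) (nat_lit 0) (XT.nd (nat_lit 156) (nat_lit 152) (nat_lit 0) (XT.nd (nat_lit 78) (nat_lit 76) (nat_lit 0) (XT.lf (nat_lit 0) (nat_lit 7678064151) (nat_lit 76) (nat_lit 2469854208) (nat_lit 152) (nat_lit 5211493270) (nat_lit 14) (nat_lit 5) (nat_lit 15) (nat_lit 5) (nat_lit 16) (nat_lit 4) (nat_lit 275) (nat_lit 261) (nat_lit 244)) (XT.lf (nat_lit 0) (nat_lit 861755513) (nat_lit 76) (nat_lit 14217581923) (nat_lit 76) (nat_lit 1757664195) (nat_lit 13) (nat_lit 4) (nat_lit 14) (nat_lit 5)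 (nat_lit 14) (nat_lit 4) (nat_lit 276) (nat_lit 261) (nat_lit 243))) (XT.nd (nat_lit 78) (nat_lit 76) (nat_lit 0) (XT.lf (nat_lit 0) (nat_lit 2434723689) (nat_lit 152) (nat_lit 7368131409) (nat_lit 76) (nat_lit 8657147237) (nat_lit 12) (nat_lit 5) (nat_lit 14) (nat_lit 5) (nat_lit 13) (nat_lit 4) (nat_lit 277) (nat_lit 261) (nat_lit 242)) (XT.nd (nat_lit 78) (nat_lit 0) (nat_lit 0) (XT.lf (nat_lit 0) (nat_lit 2481810187) (nat_lit 76) (nat_lit 4592065149) (nat_lit 152) (nat_lit 13240489690) (nat_lit 11) (nat_lit 5) (nat_lit 12) (nat_lit 5) (nat_lit 13) (nat_lit 4) (nat_lit 278) (nat_lit 261) (nat_lit 241)) (XT.lf (nat_lit 0) (nat_lit 12768569986) (nat_lit 152) (nat_lit 8016832400) (nat_lit 0) (nat_lit 1607655429) (nat_lit 11) (nat_lit 5) (nat_lit 13) (nat_lit 4) (nat_lit 11) (nat_lit 4) (nat_lit 279) (nat_lit 261) (nat_lit 240))))) (XT.nd (nat_lit 234) (nat_lit 76) (nat_lit 0) (XT.nd (nat_lit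 78) (nat_lit 152) (nat_lit 0) (XT.lf (nat_lit 0) (nat_lit 3170759076) (nat_lit 76) (nat_lit 16408145301) (nat_lit 76) (nat_lit 5165544579) (nat_lit 10) (nat_lit 4) (nat_lit 11) (nat_lit 5) (nat_lit 11) (nat_lit 4) (nat_lit 280) (nat_lit 261) (nat_lit 239)) (XT.nd (nat_lit 78) (nat_lit 76) (nat_lit 0) (XT.lf (nat_lit 0) (nat_lit 317089561) (nat_lit 152) (nat_lit 10631889613) (nat_lit 76) (nat_lit 16447163962) (nat_lit 9) (nat_lit 5) (nat_lit 11) (nat_lit 5) (nat_lit 10) (nat_lit 4) (nat_lit 281) (nat_lit 261) (nat_lit 238)) (XT.lf (nat_lit 0) (nat_lit 1714079647) (nat_lit 76) (nat_lit 4374049791) (nat_lit 152) (nat_lit 24321407832) (nat_lit 8) (nat_lit 5) (nat_lit 9) (nat_lit 5) (nat_lit 10) (nat_lit 4) (nat_lit 282) (nat_lit 261) (nat_lit 237)))) (XT.nd (nat_lit 78) (nat_lit 76) (nat_lit 0) (XT.lf (nat_lit 0) (nat_lit 13364449310) (nat_lit 152) (nat_lit 16988516391) (nat_lit 0) (nat_lit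 3426093982) (nat_lit 8) (nat_lit 5) (nat_lit 10) (nat_lit 4) (nat_lit 8) (nat_lit 4) (nat_lit 283) (nat_lit 261) (nat_lit 236)) (XT.nd (nat_lit 78) (nat_lit 76) (nat_lit 0) (XT.lf (nat_lit 0) (nat_lit 21875661493) (nat_lit 152) (nat_lit 3860193181) (nat_lit 0) (nat_lit 11896693705) (nat_lit 8) (nat_lit 5) (nat_lit 10) (nat_lit 4) (nat_lit 8) (nat_lit 4) (nat_lit 284) (nat_lit 261) (nat_lit 235)) (XT.lf (nat_lit 0) (nat_lit 12214949881) (nat_lit 76) (nat_lit 19898014777) (nat_lit 76) (nat_lit 9883731804) (nat_lit 7) (nat_lit 4) (nat_lit 8) (nat_lit 5) (nat_lit 8) (nat_lit 4) (nat_lit 285) (nat_lit 261) (nat_lit 234))))))))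
noncomputable def xc50 : XT := (XT.nd (nat_lit 1560) (nat_lit 76) (nat_lit 0) (XT.nd (nat_lit 780) (nat_lit 152) (nat_lit 0) (XT.nd (nat_lit 390) (nat_lit 76) (nat_lit 0) (XT.nd (nat_lit 156) (nat_lit 76) (nat_lit 0) (XT.nd (nat_lit 78) (nat_lit 76) (nat_lit 0) (XT.lf (nat_lit 0) (nat_lit 31030304451) (nat_lit 76) (nat_lit 13003967082) (nat_lit 76) (nat_lit 2958975255) (nat_lit 7) (nat_lit 4) (nat_lit 8) (nat_lit 5) (nat_lit 8) (nat_lit 4) (nat_lit 286) (nat_lit 261) (nat_lit 233)) (XT.lf (nat_lit 0) (nat_lit 4510304542) (nat_lit 152) (nat_lit 374540413) (nat_lit 76) (nat_lit 47830680416) (nat_lit 6) (nat_lit 5) (nat_lit 8) (nat_lit 5) (nat_lit 7) (nat_lit 4) (nat_lit 287) (nat_lit 261) (nat_lit 232))) (XT.nd (nat_lit 78) (nat_lit 0) (nat_lit 0) (XT.lf (nat_lit 0) (nat_lit 13769213958) (nat_lit 152) (nat_lit 40368969746) (nat_lit 0) (nat_lit 4991026579) (nat_lit 5) (nat_lit 5) (nat_lit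 7) (nat_lit 4) (nat_lit 5) (nat_lit 4) (nat_lit 288) (nat_lit 261) (nat_lit 231)) (XT.nd (nat_lit 78) (nat_lit 0) (nat_lit 0) (XT.lf (nat_lit 0) (nat_lit 24628352588) (nat_lit 152) (nat_lit 26012302696) (nat_lit 0) (nat_lit 15832607321) (nat_lit 5) (nat_lit 5) (nat_lit 7) (nat_lit 4) (nat_lit 5) (nat_lit 4) (nat_lit 289) (nat_lit 261) (nat_lit 230)) (XT.lf (nat_lit 0) (nat_lit 37080075570) (nat_lit 152) (nat_lit 9575248114) (nat_lit 0) (nat_lit 28269062575) (nat_lit 5) (nat_lit 5) (nat_lit 7) (nat_lit 4) (nat_lit 5) (nat_lit 4) (nat_lit 290) (nat_lit 261) (nat_lit 229))))) (XT.nd (nat_lit 156) (nat_lit 0) (nat_lit 0) (XT.nd (nat_lit 78) (nat_lit 0) (nat_lit 0) (XT.lf (nat_lit 0) (nat_lit 10169113335) (nat_lit 76) (nat_lit 41619971533) (nat_lit 76) (nat_lit 32795682252) (nat_lit 4) (nat_lit 4) (nat_lit 5) (nat_lit 5) (nat_lit 5) (nat_lit 4) (nat_lit 291) (nat_lit 261) (nat_lit 228)) (XT.lf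 (nat_lit 0) (nat_lit 33890570032) (nat_lit 76) (nat_lit 35284449208) (nat_lit 76) (nat_lit 26448615331) (nat_lit 4) (nat_lit 4) (nat_lit 5) (nat_lit 5) (nat_lit 5) (nat_lit 4) (nat_lit 292) (nat_lit 261) (nat_lit 227))) (XT.nd (nat_lit 78) (nat_lit 0) (nat_lit 0) (XT.lf (nat_lit 0) (nat_lit 61117474551) (nat_lit 76) (nat_lit 28025325171) (nat_lit 76) (nat_lit 19179452515) (nat_lit 4) (nat_lit 4) (nat_lit 5) (nat_lit 5) (nat_lit 5) (nat_lit 4) (nat_lit 293) (nat_lit 261) (nat_lit 226)) (XT.nd (nat_lit 78) (nat_lit 0) (nat_lit 0) (XT.lf (nat_lit 0) (nat_lit 92382527197) (nat_lit 76) (nat_lit 19700573082) (nat_lit 76) (nat_lit 10845971053) (nat_lit 4) (nat_lit 4) (nat_lit 5) (nat_lit 5) (nat_lit 5) (nat_lit 4) (nat_lit 294) (nat_lit 261) (nat_lit 225)) (XT.lf (nat_lit 0) (nat_lit 128297435521) (nat_lit 76) (nat_lit 10147317357) (nat_lit 76) (nat_lit 1285124569) (nat_lit 4) (nat_lit 4) (nat_lit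 5) (nat_lit 5) (nat_lit 5) (nat_lit 4) (nat_lit 295) (nat_lit 261) (nat_lit 224)))))) (XT.nd (nat_lit 390) (nat_lit 0) (nat_lit 0) (XT.nd (nat_lit 156) (nat_lit 0) (nat_lit 0) (XT.nd (nat_lit 78) (nat_lit 0) (nat_lit 0) (XT.lf (nat_lit 0) (nat_lit 9362021225) (nat_lit 152) (nat_lit 147900962891) (nat_lit 0) (nat_lit 1650026922) (nat_lit 2) (nat_lit 5) (nat_lit 4) (nat_lit 4) (nat_lit 2) (nat_lit 4) (nat_lit 296) (nat_lit 261) (nat_lit 223)) (XT.lf (nat_lit 0) (nat_lit 22566151379) (nat_lit 152) (nat_lit 143385401789) (nat_lit 0) (nat_lit 14849166029) (nat_lit 2) (nat_lit 5) (nat_lit 4) (nat_lit 4) (nat_lit 2) (nat_lit 4) (nat_lit 297) (nat_lit 261) (nat_lit 222))) (XT.nd (nat_lit 78) (nat_lit 0) (nat_lit 0) (XT.lf (nat_lit 0) (nat_lit 37735437478) (nat_lit 152) (nat_lit 138224359386) (nat_lit 0) (nat_lit 30014112086) (nat_lit 2) (nat_lit 5) (nat_lit 4) (nat_lit 4) (nat_lit 2) (nat_lit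 4) (nat_lit 298) (nat_lit 261) (nat_lit 221)) (XT.nd (nat_lit 78) (nat_lit 0) (nat_lit 0) (XT.lf (nat_lit 0) (nat_lit 55166669899) (nat_lit 152) (nat_lit 132316858766) (nat_lit 0) (nat_lit 47441570558) (nat_lit 2) (nat_lit 5) (nat_lit 4) (nat_lit 4) (nat_lit 2) (nat_lit 4) (nat_lit 299) (nat_lit 261) (nat_lit 220)) (XT.lf (nat_lit 0) (nat_lit 75200894497) (nat_lit 152) (nat_lit 125547318395) (nat_lit 0) (nat_lit 67472513461) (nat_lit 2) (nat_lit 5) (nat_lit 4) (nat_lit 4) (nat_lit 2) (nat_lit 4) (nat_lit 300) (nat_lit 261) (nat_lit 219))))) (XT.nd (nat_lit 156) (nat_lit 0) (nat_lit 0) (XT.nd (nat_lit 78) (nat_lit 0) (nat_lit 0) (XT.lf (nat_lit 0) (nat_lit 98230085229) (nat_lit 152) (nat_lit 117783290744) (nat_lit 0) (nat_lit 90498850546) (nat_lit 2) (nat_lit 5) (nat_lit 4) (nat_lit 4) (nat_lit 2) (nat_lit 4) (nat_lit 301) (nat_lit 261) (nat_lit 218)) (XT.lf (nat_lit 0) (nat_lit 124704813220)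 (nat_lit 152) (nat_lit 108872870925) (nat_lit 0) (nat_lit 116971097103) (nat_lit 2) (nat_lit 5) (nat_lit 4) (nat_lit 4) (nat_lit 2) (nat_lit 4) (nat_lit 302) (nat_lit 261) (nat_lit 217))) (XT.nd (nat_lit 78) (nat_lit 0) (nat_lit 0) (XT.lf (nat_lit 0) (nat_lit 155143062276) (nat_lit 152) (nat_lit 98641724635) (nat_lit 0) (nat_lit 147407188393) (nat_lit 2) (nat_lit 5) (nat_lit 4) (nat_lit 4) (nat_lit 2) (nat_lit 4) (nat_lit 303) (nat_lit 261) (nat_lit 216)) (XT.nd (nat_lit 78) (nat_lit 0) (nat_lit 0) (XT.lf (nat_lit 0) (nat_lit 190140363360) (nat_lit 152) (nat_lit 86889677275) (nat_lit 0) (nat_lit 182402613156) (nat_lit 2) (nat_lit 5) (nat_lit 4) (nat_lit 4) (nat_lit 2) (nat_lit 4) (nat_lit 304) (nat_lit 261) (nat_lit 215)) (XT.lf (nat_lit 0) (nat_lit 230381446273) (nat_lit 152) (nat_lit 73386797483) (nat_lit 0) (nat_lit 222642064487) (nat_lit 2) (nat_lit 5) (nat_lit 4) (nat_lit 4) (nat_lit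 2) (nat_lit 4) (nat_lit 305) (nat_lit 261) (nat_lit 214))))))) (XT.nd (nat_lit 780) (nat_lit 0) (nat_lit 0) (XT.nd (nat_lit 390) (nat_lit 0) (nat_lit 0) (XT.nd (nat_lit 156) (nat_lit 76) (nat_lit 0) (XT.nd (nat_lit 78) (nat_lit 0) (nat_lit 0) (XT.lf (nat_lit 0) (nat_lit 276653636552) (nat_lit 152) (nat_lit 57868898479) (nat_lit 0) (nat_lit 268912835999) (nat_lit 2) (nat_lit 5) (nat_lit 4) (nat_lit 4) (nat_lit 2) (nat_lit 4) (nat_lit 306) (nat_lit 261) (nat_lit 213)) (XT.lf (nat_lit 0) (nat_lit 329862259658) (nat_lit 152) (nat_lit 40032369198) (nat_lit 0) (nat_lit 322120225394) (nat_lit 2) (nat_lit 5) (nat_lit 4) (nat_lit 4) (nat_lit 2) (nat_lit 4) (nat_lit 307) (nat_lit 261) (nat_lit 212))) (XT.nd (nat_lit 78) (nat_lit 76) (nat_lit 0) (XT.lf (nat_lit 0) (nat_lit 391048353869) (nat_lit 152) (nat_lit 19528234065) (nat_lit 0) (nat_lit 383305246814) (nat_lit 2) (nat_lit 5) (nat_lit 4) (nat_lit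 4) (nat_lit 2) (nat_lit 4) (nat_lit 308) (nat_lit 261) (nat_lit 211)) (XT.nd (nat_lit 78) (nat_lit 0) (nat_lit 0) (XT.lf (nat_lit 0) (nat_lit 4439949815) (nat_lit 76) (nat_lit 457152937459) (nat_lit 76) (nat_lit 449408897542) (nat_lit 1) (nat_lit 4) (nat_lit 2) (nat_lit 5) (nat_lit 2) (nat_lit 4) (nat_lit 309) (nat_lit 261) (nat_lit 210)) (XT.lf (nat_lit 0) (nat_lit 34191533142) (nat_lit 76) (nat_lit 509545200733) (nat_lit 76) (nat_lit 501800349630) (nat_lit 1) (nat_lit 4) (nat_lit 2) (nat_lit 5) (nat_lit 2) (nat_lit 4) (nat_lit 310) (nat_lit 261) (nat_lit 209))))) (XT.nd (nat_lit 156) (nat_lit 0) (nat_lit 0) (XT.nd (nat_lit 78) (nat_lit 0) (nat_lit 0) (XT.lf (nat_lit 0) (nat_lit 68400171055) (nat_lit 76) (nat_lit 569799237829) (nat_lit 76) (nat_lit 562053681349) (nat_lit 1) (nat_lit 4) (nat_lit 2) (nat_lit 5) (nat_lit 2) (nat_lit 4) (nat_lit 311) (nat_lit 261) (nat_lit 208)) (XT.lf (nat_lit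 0) (nat_lit 107735162992) (nat_lit 76) (nat_lit 639093932083) (nat_lit 76) (nat_lit 631347762231) (nat_lit 1) (nat_lit 4) (nat_lit 2) (nat_lit 5) (nat_lit 2) (nat_lit 4) (nat_lit 312) (nat_lit 261) (nat_lit 207))) (XT.nd (nat_lit 78) (nat_lit 0) (nat_lit 0) (XT.lf (nat_lit 0) (nat_lit 152966106620) (nat_lit 76) (nat_lit 718785049252) (nat_lit 76) (nat_lit 711038346032) (nat_lit 1) (nat_lit 4) (nat_lit 2) (nat_lit 5) (nat_lit 2) (nat_lit 4) (nat_lit 313) (nat_lit 261) (nat_lit 206)) (XT.nd (nat_lit 78) (nat_lit 0) (nat_lit 0) (XT.lf (nat_lit 0) (nat_lit 204977955185) (nat_lit 76) (nat_lit 810431763367) (nat_lit 76) (nat_lit 802684596350) (nat_lit 1) (nat_lit 4) (nat_lit 2) (nat_lit 5) (nat_lit 2) (nat_lit 4) (nat_lit 314) (nat_lit 261) (nat_lit 205)) (XT.lf (nat_lit 0) (nat_lit 264788331810) (nat_lit 76) (nat_lit 915827162313) (nat_lit 76) (nat_lit 908079591993) (nat_lit 1) (nat_lit 4)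 (nat_lit 2) (nat_lit 5) (nat_lit 2) (nat_lit 4) (nat_lit 315) (nat_lit 261) (nat_lit 204)))))) (XT.nd (nat_lit 390) (nat_lit 0) (nat_lit 0) (XT.nd (nat_lit 156) (nat_lit 0) (nat_lit 0) (XT.nd (nat_lit 78) (nat_lit 0) (nat_lit 0) (XT.lf (nat_lit 0) (nat_lit 333567439517) (nat_lit 76) (nat_lit 1037033329982) (nat_lit 76) (nat_lit 1029285408965) (nat_lit 1) (nat_lit 4) (nat_lit 2) (nat_lit 5) (nat_lit 2) (nat_lit 4) (nat_lit 316) (nat_lit 261) (nat_lit 203)) (XT.lf (nat_lit 0) (nat_lit 412660956499) (nat_lit 76) (nat_lit 1176421691395) (nat_lit 76) (nat_lit 1168673465423) (nat_lit 1) (nat_lit 4) (nat_lit 2) (nat_lit 5) (nat_lit 2) (nat_lit 4) (nat_lit 317) (nat_lit 261) (nat_lit 202))) (XT.nd (nat_lit 78) (nat_lit 0) (nat_lit 0) (XT.lf (nat_lit 0) (nat_lit 503616364611) (nat_lit 76) (nat_lit 1336719410143) (nat_lit 76) (nat_lit 1328970918994) (nat_lit 1) (nat_lit 4) (nat_lit 2) (nat_lit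 5) (nat_lit 2) (nat_lit 4) (nat_lit 318) (nat_lit 261) (nat_lit 201)) (XT.nd (nat_lit 78) (nat_lit 0) (nat_lit 0) (XT.lf (nat_lit 0) (nat_lit 608213226186) (nat_lit 76) (nat_lit 1521062745942) (nat_lit 76) (nat_lit 1513314024204) (nat_lit 1) (nat_lit 4) (nat_lit 2) (nat_lit 5) (nat_lit 2) (nat_lit 4) (nat_lit 319) (nat_lit 261) (nat_lit 200)) (XT.lf (nat_lit 0) (nat_lit 728498001558) (nat_lit 76) (nat_lit 1733058416231) (nat_lit 76) (nat_lit 1725309493980) (nat_lit 1) (nat_lit 4) (nat_lit 2) (nat_lit 5) (nat_lit 2) (nat_lit 4) (nat_lit 320) (nat_lit 261) (nat_lit 199))))) (XT.nd (nat_lit 156) (nat_lit 0) (nat_lit 0) (XT.nd (nat_lit 78) (nat_lit 0) (nat_lit 0) (XT.lf (nat_lit 0) (nat_lit 866824088507) (nat_lit 76) (nat_lit 1976854162386) (nat_lit 76) (nat_lit 1969105065776) (nat_lit 1) (nat_lit 4) (nat_lit 2) (nat_lit 5) (nat_lit 2) (nat_lit 4) (nat_lit 321) (nat_lit 261) (nat_lit 198))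 (XT.lf (nat_lit 0) (nat_lit 1025897866995) (nat_lit 76) (nat_lit 2257219901178) (nat_lit 76) (nat_lit 2249470652952) (nat_lit 1) (nat_lit 4) (nat_lit 2) (nat_lit 5) (nat_lit 2) (nat_lit 4) (nat_lit 322) (nat_lit 261) (nat_lit 197))) (XT.nd (nat_lit 78) (nat_lit 0) (nat_lit 0) (XT.lf (nat_lit 0) (nat_lit 1208831650078) (nat_lit 76) (nat_lit 2579641049237) (nat_lit 76) (nat_lit 2571891669171) (nat_lit 1) (nat_lit 4) (nat_lit 2) (nat_lit 5) (nat_lit 2) (nat_lit 4) (nat_lit 323) (nat_lit 261) (nat_lit 196)) (XT.nd (nat_lit 78) (nat_lit 0) (nat_lit 0) (XT.lf (nat_lit 0) (nat_lit 1419204576992) (nat_lit 76) (nat_lit 2950425846416) (nat_lit 76) (nat_lit 2942676351706) (nat_lit 1) (nat_lit 4) (nat_lit 2) (nat_lit 5) (nat_lit 2) (nat_lit 4) (nat_lit 324) (nat_lit 261) (nat_lit 195)) (XT.lf (nat_lit 0) (nat_lit 1661132639784) (nat_lit 76) (nat_lit 3376828777877) (nat_lit 76) (nat_lit 3369079183477)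 (nat_lit 1) (nat_lit 4) (nat_lit 2) (nat_lit 5) (nat_lit 2) (nat_lit 4) (nat_lit 325) (nat_lit 261) (nat_lit 194))))))))
noncomputable def xc51 : XT := (XT.nd (nat_lit 35880) (nat_lit 0) (nat_lit 532) (XT.nd (nat_lit 780) (nat_lit 0) (nat_lit 0) (XT.nd (nat_lit 390) (nat_lit 0) (nat_lit 0) (XT.nd (nat_lit 156) (nat_lit 0) (nat_lit 0) (XT.nd (nat_lit 78) (nat_lit 0) (nat_lit 0) (XT.lf (nat_lit 0) (nat_lit 1939349213597) (nat_lit 76) (nat_lit 3867192509670) (nat_lit 76) (nat_lit 3859442828583) (nat_lit 1) (nat_lit 4) (nat_lit 2) (nat_lit 5) (nat_lit 2) (nat_lit 4) (nat_lit 326) (nat_lit 261) (nat_lit 193)) (XT.lf (nat_lit 0) (nat_lit 2259297666178) (nat_lit 76) (nat_lit 4431111114808) (nat_lit 76) (nat_lit 4423361358341) (nat_lit 1) (nat_lit 4) (nat_lit 2) (nat_lit 5) (nat_lit 2) (nat_lit 4) (nat_lit 327) (nat_lit 261) (nat_lit 192))) (XT.nd (nat_lit 78) (nat_lit 0) (nat_lit 0) (XT.lf (nat_lit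 0) (nat_lit 2627237858556) (nat_lit 76) (nat_lit 5079617783393) (nat_lit 76) (nat_lit 5071867961378) (nat_lit 1) (nat_lit 4) (nat_lit 2) (nat_lit 5) (nat_lit 2) (nat_lit 4) (nat_lit 328) (nat_lit 261) (nat_lit 191)) (XT.nd (nat_lit 78) (nat_lit 0) (nat_lit 0) (XT.lf (nat_lit 0) (nat_lit 3050368620583) (nat_lit 76) (nat_lit 5825400689375) (nat_lit 76) (nat_lit 5817650810362) (nat_lit 1) (nat_lit 4) (nat_lit 2) (nat_lit 5) (nat_lit 2) (nat_lit 4) (nat_lit 329) (nat_lit 261) (nat_lit 190)) (XT.lf (nat_lit 0) (nat_lit 3536968597602) (nat_lit 76) (nat_lit 6683051237436) (nat_lit 76) (nat_lit 6675301308859) (nat_lit 1) (nat_lit 4) (nat_lit 2) (nat_lit 5) (nat_lit 2) (nat_lit 4) (nat_lit 330) (nat_lit 261) (nat_lit 189))))) (XT.nd (nat_lit 156) (nat_lit 0) (nat_lit 0) (XT.nd (nat_lit 78) (nat_lit 0) (nat_lit 0) (XT.lf (nat_lit 0) (nat_lit 4096558223947) (nat_lit 76) (nat_lit 7669349546994) (nat_lit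 76) (nat_lit 7661599575319) (nat_lit 1) (nat_lit 4) (nat_lit 2) (nat_lit 5) (nat_lit 2) (nat_lit 4) (nat_lit 331) (nat_lit 261) (nat_lit 188)) (XT.lf (nat_lit 0) (nat_lit 4740085992306) (nat_lit 76) (nat_lit 8803592758889) (nat_lit 76) (nat_lit 8795842749736) (nat_lit 1) (nat_lit 4) (nat_lit 2) (nat_lit 5) (nat_lit 2) (nat_lit 4) (nat_lit 332) (nat_lit 261) (nat_lit 187))) (XT.nd (nat_lit 78) (nat_lit 0) (nat_lit 0) (XT.lf (nat_lit 0) (nat_lit 5480142663365) (nat_lit 76) (nat_lit 10107972588136) (nat_lit 76) (nat_lit 10100222546395) (nat_lit 1) (nat_lit 4) (nat_lit 2) (nat_lit 5) (nat_lit 2) (nat_lit 4) (nat_lit 333) (nat_lit 261) (nat_lit 186)) (XT.nd (nat_lit 78) (nat_lit 0) (nat_lit 0) (XT.lf (nat_lit 0) (nat_lit 6331207606775) (nat_lit 76) (nat_lit 11608009509656) (nat_lit 76) (nat_lit 11600259439576) (nat_lit 1) (nat_lit 4) (nat_lit 2) (nat_lit 5) (nat_lit 2) (nat_lit 4) (nat_lit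 334) (nat_lit 261) (nat_lit 185)) (XT.lf (nat_lit 0) (nat_lit 7309932093167) (nat_lit 76) (nat_lit 13333052071912) (nat_lit 76) (nat_lit 13325301977190) (nat_lit 1) (nat_lit 4) (nat_lit 2) (nat_lit 5) (nat_lit 2) (nat_lit 4) (nat_lit 335) (nat_lit 261) (nat_lit 184)))))) (XT.nd (nat_lit 390) (nat_lit 0) (nat_lit 0) (XT.nd (nat_lit 156) (nat_lit 0) (nat_lit 0) (XT.nd (nat_lit 78) (nat_lit 0) (nat_lit 0) (XT.lf (nat_lit 0) (nat_lit 8435465079886) (nat_lit 76) (nat_lit 15316851107645) (nat_lit 76) (nat_lit 15309100991495) (nat_lit 1) (nat_lit 4) (nat_lit 2) (nat_lit 5) (nat_lit 2) (nat_lit 4) (nat_lit 336) (nat_lit 261) (nat_lit 183)) (XT.lf (nat_lit 0) (nat_lit 9729827864496) (nat_lit 76) (nat_lit 17598220076248) (nat_lit 76) (nat_lit 17590469941466) (nat_lit 1) (nat_lit 4) (nat_lit 2) (nat_lit 5) (nat_lit 2) (nat_lit 4) (nat_lit 337) (nat_lit 261) (nat_lit 182))) (XT.nd (nat_lit 78) (nat_lit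 0) (nat_lit 0) (XT.lf (nat_lit 0) (nat_lit 11218344936262) (nat_lit 76) (nat_lit 20221794457544) (nat_lit 76) (nat_lit 20214044306560) (nat_lit 1) (nat_lit 4) (nat_lit 2) (nat_lit 5) (nat_lit 2) (nat_lit 4) (nat_lit 338) (nat_lit 261) (nat_lit 181)) (XT.nd (nat_lit 78) (nat_lit 0) (nat_lit 0) (XT.lf (nat_lit 0) (nat_lit 12930139455283) (nat_lit 76) (nat_lit 23238905054644) (nat_lit 76) (nat_lit 23231154889570) (nat_lit 1) (nat_lit 4) (nat_lit 2) (nat_lit 5) (nat_lit 2) (nat_lit 4) (nat_lit 339) (nat_lit 261) (nat_lit 180)) (XT.lf (nat_lit 0) (nat_lit 14898703053454) (nat_lit 76) (nat_lit 26708582292274) (nat_lit 76) (nat_lit 26700832114949) (nat_lit 1) (nat_lit 4) (nat_lit 2) (nat_lit 5) (nat_lit 2) (nat_lit 4) (nat_lit 340) (nat_lit 261) (nat_lit 179))))) (XT.nd (nat_lit 34476) (nat_lit 0) (nat_lit 2052) (XT.nd (nat_lit 78) (nat_lit 0) (nat_lit 0) (XT.lf (nat_lit 0) (nat_lit 17162551105522)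 (nat_lit 76) (nat_lit 30698711159865) (nat_lit 76) (nat_lit 30690960971887) (nat_lit 1) (nat_lit 4) (nat_lit 2) (nat_lit 5) (nat_lit 2) (nat_lit 4) (nat_lit 341) (nat_lit 261) (nat_lit 178)) (XT.lf (nat_lit 0) (nat_lit 19765976290765) (nat_lit 76) (nat_lit 35287359396132) (nat_lit 76) (nat_lit 35279609198890) (nat_lit 1) (nat_lit 4) (nat_lit 2) (nat_lit 5) (nat_lit 2) (nat_lit 4) (nat_lit 342) (nat_lit 261) (nat_lit 177))) (XT.nd (nat_lit 78) (nat_lit 228) (nat_lit 0) (XT.lf (nat_lit 0) (nat_lit 1798998526) (nat_lit 228) (nat_lit 803761220) (nat_lit 228) (nat_lit 803761220) (nat_lit 31) (nat_lit 3) (nat_lit 34) (nat_lit 3) (nat_lit 34) (nat_lit 5) (nat_lit 262) (nat_lit 262) (nat_lit 256)) (XT.nd (nat_lit 78) (nat_lit 228) (nat_lit 0) (XT.lf (nat_lit 76) (nat_lit 1811017314) (nat_lit 0) (nat_lit 3909087478) (nat_lit 228) (nat_lit 1317303059) (nat_lit 32) (nat_lit 5) (nat_lit 31) (nat_lit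 3) (nat_lit 34) (nat_lit 5) (nat_lit 263) (nat_lit 262) (nat_lit 255)) (XT.lf (nat_lit 0) (nat_lit 534470560) (nat_lit 228) (nat_lit 1634990261) (nat_lit 304) (nat_lit 5159994785) (nat_lit 28) (nat_lit 5) (nat_lit 31) (nat_lit 3) (nat_lit 32) (nat_lit 5) (nat_lit 264) (nat_lit 262) (nat_lit 254))))))) (XT.nd (nat_lit 780) (nat_lit 532) (nat_lit 0) (XT.nd (nat_lit 390) (nat_lit 456) (nat_lit 0) (XT.nd (nat_lit 156) (nat_lit 608) (nat_lit 0) (XT.nd (nat_lit 78) (nat_lit 0) (nat_lit 0) (XT.lf (nat_lit 0) (nat_lit 2337966608) (nat_lit 228) (nat_lit 5245643132) (nat_lit 76) (nat_lit 102149228) (nat_lit 29) (nat_lit 5) (nat_lit 32) (nat_lit 5) (nat_lit 30) (nat_lit 5) (nat_lit 265) (nat_lit 262) (nat_lit 253)) (XT.lf (nat_lit 0) (nat_lit 4341352744) (nat_lit 228) (nat_lit 1119105344) (nat_lit 76) (nat_lit 2646672039) (nat_lit 29) (nat_lit 5) (nat_lit 32) (nat_lit 5) (nat_lit 30) (nat_lit 5)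 (nat_lit 266) (nat_lit 262) (nat_lit 252))) (XT.nd (nat_lit 78) (nat_lit 380) (nat_lit 0) (XT.lf (nat_lit 0) (nat_lit 3752410520) (nat_lit 228) (nat_lit 2819105026) (nat_lit 304) (nat_lit 2032144274) (nat_lit 26) (nat_lit 5) (nat_lit 29) (nat_lit 5) (nat_lit 30) (nat_lit 5) (nat_lit 267) (nat_lit 262) (nat_lit 251)) (XT.nd (nat_lit 78) (nat_lit 76) (nat_lit 0) (XT.lf (nat_lit 0) (nat_lit 78849468) (nat_lit 304) (nat_lit 8923863649) (nat_lit 380) (nat_lit 192755967) (nat_lit 22) (nat_lit 5) (nat_lit 26) (nat_lit 5) (nat_lit 27) (nat_lit 4) (nat_lit 268) (nat_lit 262) (nat_lit 250)) (XT.lf (nat_lit 0) (nat_lit 1952465899) (nat_lit 380) (nat_lit 4010655666) (nat_lit 76) (nat_lit 3871411727) (nat_lit 21) (nat_lit 5) (nat_lit 26) (nat_lit 5) (nat_lit 22) (nat_lit 5) (nat_lit 269) (nat_lit 262) (nat_lit 249))))) (XT.nd (nat_lit 156) (nat_lit 304) (nat_lit 0) (XT.nd (nat_lit 78) (nat_lit 0)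 (nat_lit 0) (XT.lf (nat_lit 0) (nat_lit 1803549868) (nat_lit 152) (nat_lit 2497977726) (nat_lit 228) (nat_lit 6281794718) (nat_lit 19) (nat_lit 5) (nat_lit 21) (nat_lit 5) (nat_lit 22) (nat_lit 5) (nat_lit 270) (nat_lit 262) (nat_lit 248)) (XT.lf (nat_lit 0) (nat_lit 7123853979) (nat_lit 228) (nat_lit 2765983548) (nat_lit 76) (nat_lit 1536900407) (nat_lit 19) (nat_lit 5) (nat_lit 22) (nat_lit 5) (nat_lit 20) (nat_lit 4) (nat_lit 271) (nat_lit 262) (nat_lit 247))) (XT.nd (nat_lit 78) (nat_lit 228) (nat_lit 0) (XT.lf (nat_lit 0) (nat_lit 4212871644) (nat_lit 76) (nat_lit 6310666656) (nat_lit 152) (nat_lit 1850412395) (nat_lit 18) (nat_lit 5) (nat_lit 19) (nat_lit 5) (nat_lit 20) (nat_lit 4) (nat_lit 272) (nat_lit 262) (nat_lit 246)) (XT.nd (nat_lit 78) (nat_lit 152) (nat_lit 0) (XT.lf (nat_lit 0) (nat_lit 899769361) (nat_lit 152) (nat_lit 1137035961) (nat_lit 76) (nat_lit 11418279218) (nat_lit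 17) (nat_lit 5) (nat_lit 19) (nat_lit 5) (nat_lit 18) (nat_lit 5) (nat_lit 273) (nat_lit 262) (nat_lit 245)) (XT.lf (nat_lit 0) (nat_lit 4194633389) (nat_lit 228) (nat_lit 7459779406) (nat_lit 76) (nat_lit 2982772032) (nat_lit 15) (nat_lit 5) (nat_lit 18) (nat_lit 5) (nat_lit 16) (nat_lit 4) (nat_lit 274) (nat_lit 262) (nat_lit 244)))))) (XT.nd (nat_lit 390) (nat_lit 228) (nat_lit 0) (XT.nd (nat_lit 156) (nat_lit 228) (nat_lit 0) (XT.nd (nat_lit 78) (nat_lit 0) (nat_lit 0) (XT.lf (nat_lit 0) (nat_lit 659485825) (nat_lit 76) (nat_lit 7399431422) (nat_lit 152) (nat_lit 7926625154) (nat_lit 14) (nat_lit 5) (nat_lit 15) (nat_lit 5) (nat_lit 16) (nat_lit 4) (nat_lit 275) (nat_lit 262) (nat_lit 243)) (XT.lf (nat_lit 0) (nat_lit 10664612166) (nat_lit 76) (nat_lit 2124270847) (nat_lit 152) (nat_lit 4704556681) (nat_lit 14) (nat_lit 5) (nat_lit 15) (nat_lit 5) (nat_lit 16) (nat_lit 4) (nat_lit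 276) (nat_lit 262) (nat_lit 242))) (XT.nd (nat_lit 78) (nat_lit 152) (nat_lit 0) (XT.lf (nat_lit 0) (nat_lit 2876314356) (nat_lit 76) (nat_lit 15541622354) (nat_lit 76) (nat_lit 781312851) (nat_lit 13) (nat_lit 4) (nat_lit 14) (nat_lit 5) (nat_lit 14) (nat_lit 4) (nat_lit 277) (nat_lit 262) (nat_lit 241)) (XT.nd (nat_lit 78) (nat_lit 76) (nat_lit 0) (XT.lf (nat_lit 0) (nat_lit 3782199644) (nat_lit 152) (nat_lit 6736610220) (nat_lit 76) (nat_lit 10561493529) (nat_lit 12) (nat_lit 5) (nat_lit 14) (nat_lit 5) (nat_lit 13) (nat_lit 4) (nat_lit 278) (nat_lit 262) (nat_lit 240)) (XT.lf (nat_lit 0) (nat_lit 4511879847) (nat_lit 76) (nat_lit 4545868242) (nat_lit 152) (nat_lit 14164171077) (nat_lit 11) (nat_lit 5) (nat_lit 12) (nat_lit 5) (nat_lit 13) (nat_lit 4) (nat_lit 279) (nat_lit 262) (nat_lit 239))))) (XT.nd (nat_lit 234) (nat_lit 76) (nat_lit 0) (XT.nd (nat_lit 78) (nat_lit 152) (nat_lit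 0) (XT.lf (nat_lit 0) (nat_lit 15512748103) (nat_lit 152) (nat_lit 7682867097) (nat_lit 0) (nat_lit 2431039659) (nat_lit 11) (nat_lit 5) (nat_lit 13) (nat_lit 4) (nat_lit 11) (nat_lit 4) (nat_lit 280) (nat_lit 262) (nat_lit 238)) (XT.nd (nat_lit 78) (nat_lit 76) (nat_lit 0) (XT.lf (nat_lit 0) (nat_lit 5113022639) (nat_lit 76) (nat_lit 18184224422) (nat_lit 76) (nat_lit 5040749501) (nat_lit 10) (nat_lit 4) (nat_lit 11) (nat_lit 5) (nat_lit 11) (nat_lit 4) (nat_lit 281) (nat_lit 262) (nat_lit 237)) (XT.lf (nat_lit 0) (nat_lit 1077292794) (nat_lit 152) (nat_lit 10881005391) (nat_lit 76) (nat_lit 19439694698) (nat_lit 9) (nat_lit 5) (nat_lit 11) (nat_lit 5) (nat_lit 10) (nat_lit 4) (nat_lit 282) (nat_lit 262) (nat_lit 236)))) (XT.nd (nat_lit 78) (nat_lit 0) (nat_lit 0) (XT.lf (nat_lit 0) (nat_lit 3255692546) (nat_lit 76) (nat_lit 4418531536) (nat_lit 152) (nat_lit 27195224885) (nat_lit 8)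 (nat_lit 5) (nat_lit 9) (nat_lit 5) (nat_lit 10) (nat_lit 4) (nat_lit 283) (nat_lit 262) (nat_lit 235)) (XT.nd (nat_lit 78) (nat_lit 0) (nat_lit 0) (XT.lf (nat_lit 0) (nat_lit 15976248310) (nat_lit 152) (nat_lit 18353581910) (nat_lit 0) (nat_lit 4424507708) (nat_lit 8) (nat_lit 5) (nat_lit 10) (nat_lit 4) (nat_lit 8) (nat_lit 4) (nat_lit 284) (nat_lit 262) (nat_lit 234)) (XT.lf (nat_lit 0) (nat_lit 25684951242) (nat_lit 152) (nat_lit 3410342211) (nat_lit 0) (nat_lit 14102501786) (nat_lit 8) (nat_lit 5) (nat_lit 10) (nat_lit 4) (nat_lit 8) (nat_lit 4) (nat_lit 285) (nat_lit 262) (nat_lit 233))))))))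
noncomputable def xc52 : XT := (XT.nd (nat_lit 1560) (nat_lit 76) (nat_lit 0) (XT.nd (nat_lit 780) (nat_lit 152) (nat_lit 0) (XT.nd (nat_lit 390) (nat_lit 76) (nat_lit 0) (XT.nd (nat_lit 156) (nat_lit 152) (nat_lit 0) (XT.nd (nat_lit 78) (nat_lit 0) (nat_lit 0) (XT.lf (nat_lit 0) (nat_lit 15029305040) (nat_lit 76) (nat_lit 22400350225) (nat_lit 76) (nat_lit 10791197416) (nat_lit 7) (nat_lit 4) (nat_lit 8) (nat_lit 5) (nat_lit 8) (nat_lit 4) (nat_lit 286) (nat_lit 262) (nat_lit 232)) (XT.lf (nat_lit 0) (nat_lit 36538861142) (nat_lit 76) (nat_lit 14535112781) (nat_lit 76) (nat_lit 2902739665) (nat_lit 7) (nat_lit 4) (nat_lit 8) (nat_lit 5) (nat_lit 8) (nat_lit 4) (nat_lit 287) (nat_lit 262) (nat_lit 231))) (XT.nd (nat_lit 78) (nat_lit 0) (nat_lit 0) (XT.lf (nat_lit 0) (nat_lit 385153573) (nat_lit 76) (nat_lit 5213785151) (nat_lit 152) (nat_lit 54961848136) (nat_lit 5) (nat_lit 5) (nat_lit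 6) (nat_lit 5) (nat_lit 7) (nat_lit 4) (nat_lit 288) (nat_lit 262) (nat_lit 230)) (XT.nd (nat_lit 78) (nat_lit 0) (nat_lit 0) (XT.lf (nat_lit 0) (nat_lit 16225308215) (nat_lit 152) (nat_lit 45637080339) (nat_lit 0) (nat_lit 6077375542) (nat_lit 5) (nat_lit 5) (nat_lit 7) (nat_lit 4) (nat_lit 5) (nat_lit 4) (nat_lit 289) (nat_lit 262) (nat_lit 229)) (XT.lf (nat_lit 0) (nat_lit 28662355184) (nat_lit 152) (nat_lit 29229596040) (nat_lit 0) (nat_lit 18501146226) (nat_lit 5) (nat_lit 5) (nat_lit 7) (nat_lit 4) (nat_lit 5) (nat_lit 4) (nat_lit 290) (nat_lit 262) (nat_lit 228))))) (XT.nd (nat_lit 156) (nat_lit 0) (nat_lit 0) (XT.nd (nat_lit 78) (nat_lit 76) (nat_lit 0) (XT.lf (nat_lit 0) (nat_lit 42937521434) (nat_lit 152) (nat_lit 10416272670) (nat_lit 0) (nat_lit 32764767879) (nat_lit 5) (nat_lit 5) (nat_lit 7) (nat_lit 4) (nat_lit 5) (nat_lit 4) (nat_lit 291) (nat_lit 262) (nat_lit 227)) (XT.lf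 (nat_lit 0) (nat_lit 12262685603) (nat_lit 76) (nat_lit 47575189753) (nat_lit 76) (nat_lit 37392397420) (nat_lit 4) (nat_lit 4) (nat_lit 5) (nat_lit 5) (nat_lit 5) (nat_lit 4) (nat_lit 292) (nat_lit 262) (nat_lit 226))) (XT.nd (nat_lit 78) (nat_lit 0) (nat_lit 0) (XT.lf (nat_lit 0) (nat_lit 39468247075) (nat_lit 76) (nat_lit 40326875276) (nat_lit 76) (nat_lit 30135353569) (nat_lit 4) (nat_lit 4) (nat_lit 5) (nat_lit 5) (nat_lit 5) (nat_lit 4) (nat_lit 293) (nat_lit 262) (nat_lit 225)) (XT.nd (nat_lit 78) (nat_lit 0) (nat_lit 0) (XT.lf (nat_lit 0) (nat_lit 70714740549) (nat_lit 76) (nat_lit 32011522805) (nat_lit 76) (nat_lit 21812410339) (nat_lit 4) (nat_lit 4) (nat_lit 5) (nat_lit 5) (nat_lit 5) (nat_lit 4) (nat_lit 294) (nat_lit 262) (nat_lit 224)) (XT.lf (nat_lit 0) (nat_lit 106613510463) (nat_lit 76) (nat_lit 22466440661) (nat_lit 76) (nat_lit 12260727534) (nat_lit 4) (nat_lit 4) (nat_lit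 5) (nat_lit 5) (nat_lit 5) (nat_lit 4) (nat_lit 295) (nat_lit 262) (nat_lit 223)))))) (XT.nd (nat_lit 390) (nat_lit 0) (nat_lit 0) (XT.nd (nat_lit 156) (nat_lit 0) (nat_lit 0) (XT.nd (nat_lit 78) (nat_lit 152) (nat_lit 0) (XT.lf (nat_lit 0) (nat_lit 147866924055) (nat_lit 76) (nat_lit 11504877236) (nat_lit 76) (nat_lit 1293424405) (nat_lit 4) (nat_lit 4) (nat_lit 5) (nat_lit 5) (nat_lit 5) (nat_lit 4) (nat_lit 296) (nat_lit 262) (nat_lit 222)) (XT.lf (nat_lit 0) (nat_lit 10932827603) (nat_lit 152) (nat_lit 169743133455) (nat_lit 0) (nat_lit 2048963361) (nat_lit 2) (nat_lit 5) (nat_lit 4) (nat_lit 4) (nat_lit 2) (nat_lit 4) (nat_lit 297) (nat_lit 262) (nat_lit 221))) (XT.nd (nat_lit 78) (nat_lit 0) (nat_lit 0) (XT.lf (nat_lit 0) (nat_lit 26095859473) (nat_lit 152) (nat_lit 164594973909) (nat_lit 0) (nat_lit 17208221282) (nat_lit 2) (nat_lit 5) (nat_lit 4) (nat_lit 4) (nat_lit 2) (nat_lit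 4) (nat_lit 298) (nat_lit 262) (nat_lit 220)) (XT.nd (nat_lit 78) (nat_lit 0) (nat_lit 0) (XT.lf (nat_lit 0) (nat_lit 43521653436) (nat_lit 152) (nat_lit 158698675774) (nat_lit 0) (nat_lit 34630733550) (nat_lit 2) (nat_lit 5) (nat_lit 4) (nat_lit 4) (nat_lit 2) (nat_lit 4) (nat_lit 299) (nat_lit 262) (nat_lit 219)) (XT.lf (nat_lit 0) (nat_lit 63551148938) (nat_lit 152) (nat_lit 151938876694) (nat_lit 0) (nat_lit 54657375404) (nat_lit 2) (nat_lit 5) (nat_lit 4) (nat_lit 4) (nat_lit 2) (nat_lit 4) (nat_lit 300) (nat_lit 262) (nat_lit 218))))) (XT.nd (nat_lit 156) (nat_lit 0) (nat_lit 0) (XT.nd (nat_lit 78) (nat_lit 0) (nat_lit 0) (XT.lf (nat_lit 0) (nat_lit 86576227413) (nat_lit 152) (nat_lit 144183319731) (nat_lit 0) (nat_lit 77679972447) (nat_lit 2) (nat_lit 5) (nat_lit 4) (nat_lit 4) (nat_lit 2) (nat_lit 4) (nat_lit 301) (nat_lit 262) (nat_lit 217)) (XT.lf (nat_lit 0) (nat_lit 113047379528)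 (nat_lit 152) (nat_lit 135280265727) (nat_lit 0) (nat_lit 104148966795) (nat_lit 2) (nat_lit 5) (nat_lit 4) (nat_lit 4) (nat_lit 2) (nat_lit 4) (nat_lit 302) (nat_lit 262) (nat_lit 216))) (XT.nd (nat_lit 78) (nat_lit 0) (nat_lit 0) (XT.lf (nat_lit 0) (nat_lit 143482519128) (nat_lit 152) (nat_lit 125055524495) (nat_lit 0) (nat_lit 134582230075) (nat_lit 2) (nat_lit 5) (nat_lit 4) (nat_lit 4) (nat_lit 2) (nat_lit 4) (nat_lit 303) (nat_lit 262) (nat_lit 215)) (XT.nd (nat_lit 78) (nat_lit 0) (nat_lit 0) (XT.lf (nat_lit 0) (nat_lit 178477116336) (nat_lit 152) (nat_lit 113309046749) (nat_lit 0) (nat_lit 169575195700) (nat_lit 2) (nat_lit 5) (nat_lit 4) (nat_lit 4) (nat_lit 2) (nat_lit 4) (nat_lit 304) (nat_lit 262) (nat_lit 214)) (XT.lf (nat_lit 0) (nat_lit 218715848053) (nat_lit 152) (nat_lit 99811010100) (nat_lit 0) (nat_lit 209812508650) (nat_lit 2) (nat_lit 5) (nat_lit 4) (nat_lit 4) (nat_lit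 2) (nat_lit 4) (nat_lit 305) (nat_lit 262) (nat_lit 213))))))) (XT.nd (nat_lit 780) (nat_lit 0) (nat_lit 0) (XT.nd (nat_lit 390) (nat_lit 0) (nat_lit 0) (XT.nd (nat_lit 156) (nat_lit 76) (nat_lit 0) (XT.nd (nat_lit 78) (nat_lit 0) (nat_lit 0) (XT.lf (nat_lit 0) (nat_lit 264985993814) (nat_lit 152) (nat_lit 84297322526) (nat_lit 0) (nat_lit 256081420700) (nat_lit 2) (nat_lit 5) (nat_lit 4) (nat_lit 4) (nat_lit 2) (nat_lit 4) (nat_lit 306) (nat_lit 262) (nat_lit 212)) (XT.lf (nat_lit 0) (nat_lit 318192839078) (nat_lit 152) (nat_lit 66464455356) (nat_lit 0) (nat_lit 309287193172) (nat_lit 2) (nat_lit 5) (nat_lit 4) (nat_lit 4) (nat_lit 2) (nat_lit 4) (nat_lit 307) (nat_lit 262) (nat_lit 211))) (XT.nd (nat_lit 78) (nat_lit 76) (nat_lit 0) (XT.lf (nat_lit 0) (nat_lit 379377387340) (nat_lit 152) (nat_lit 45963504669) (nat_lit 0) (nat_lit 370470808572) (nat_lit 2) (nat_lit 5) (nat_lit 4) (nat_lit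 4) (nat_lit 2) (nat_lit 4) (nat_lit 308) (nat_lit 262) (nat_lit 210)) (XT.nd (nat_lit 78) (nat_lit 76) (nat_lit 0) (XT.lf (nat_lit 0) (nat_lit 449736727587) (nat_lit 152) (nat_lit 22393364906) (nat_lit 0) (nat_lit 440829337635) (nat_lit 2) (nat_lit 5) (nat_lit 4) (nat_lit 4) (nat_lit 2) (nat_lit 4) (nat_lit 309) (nat_lit 262) (nat_lit 209)) (XT.lf (nat_lit 0) (nat_lit 5167132725) (nat_lit 76) (nat_lit 525694282829) (nat_lit 76) (nat_lit 516786187499) (nat_lit 1) (nat_lit 4) (nat_lit 2) (nat_lit 5) (nat_lit 2) (nat_lit 4) (nat_lit 310) (nat_lit 262) (nat_lit 208))))) (XT.nd (nat_lit 156) (nat_lit 0) (nat_lit 0) (XT.nd (nat_lit 78) (nat_lit 0) (nat_lit 0) (XT.lf (nat_lit 0) (nat_lit 39373472190) (nat_lit 76) (nat_lit 585949506713) (nat_lit 76) (nat_lit 577040798011) (nat_lit 1) (nat_lit 4) (nat_lit 2) (nat_lit 5) (nat_lit 2) (nat_lit 4) (nat_lit 311) (nat_lit 262) (nat_lit 207)) (XT.lf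 (nat_lit 0) (nat_lit 78706465476) (nat_lit 76) (nat_lit 655245232957) (nat_lit 76) (nat_lit 646335990887) (nat_lit 1) (nat_lit 4) (nat_lit 2) (nat_lit 5) (nat_lit 2) (nat_lit 4) (nat_lit 312) (nat_lit 262) (nat_lit 206))) (XT.nd (nat_lit 78) (nat_lit 0) (nat_lit 0) (XT.lf (nat_lit 0) (nat_lit 123935671147) (nat_lit 76) (nat_lit 734937247507) (nat_lit 76) (nat_lit 726027541640) (nat_lit 1) (nat_lit 4) (nat_lit 2) (nat_lit 5) (nat_lit 2) (nat_lit 4) (nat_lit 313) (nat_lit 262) (nat_lit 205)) (XT.nd (nat_lit 78) (nat_lit 0) (nat_lit 0) (XT.lf (nat_lit 0) (nat_lit 175946008445) (nat_lit 76) (nat_lit 826584741954) (nat_lit 76) (nat_lit 817674632784) (nat_lit 1) (nat_lit 4) (nat_lit 2) (nat_lit 5) (nat_lit 2) (nat_lit 4) (nat_lit 314) (nat_lit 262) (nat_lit 204)) (XT.lf (nat_lit 0) (nat_lit 235755070925) (nat_lit 76) (nat_lit 931980819449) (nat_lit 76) (nat_lit 923070359582) (nat_lit 1) (nat_lit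 4) (nat_lit 2) (nat_lit 5) (nat_lit 2) (nat_lit 4) (nat_lit 315) (nat_lit 262) (nat_lit 203)))))) (XT.nd (nat_lit 390) (nat_lit 0) (nat_lit 0) (XT.nd (nat_lit 156) (nat_lit 0) (nat_lit 0) (XT.nd (nat_lit 78) (nat_lit 0) (nat_lit 0) (XT.lf (nat_lit 0) (nat_lit 304533035897) (nat_lit 76) (nat_lit 1053187577162) (nat_lit 76) (nat_lit 1044276812340) (nat_lit 1) (nat_lit 4) (nat_lit 2) (nat_lit 5) (nat_lit 2) (nat_lit 4) (nat_lit 316) (nat_lit 262) (nat_lit 202)) (XT.lf (nat_lit 0) (nat_lit 383625559196) (nat_lit 76) (nat_lit 1192576451655) (nat_lit 76) (nat_lit 1183665421656) (nat_lit 1) (nat_lit 4) (nat_lit 2) (nat_lit 5) (nat_lit 2) (nat_lit 4) (nat_lit 317) (nat_lit 262) (nat_lit 201))) (XT.nd (nat_lit 78) (nat_lit 0) (nat_lit 0) (XT.lf (nat_lit 0) (nat_lit 474580103237) (nat_lit 76) (nat_lit 1352874616561) (nat_lit 76) (nat_lit 1343963355973) (nat_lit 1) (nat_lit 4) (nat_lit 2) (nat_lit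 5) (nat_lit 2) (nat_lit 4) (nat_lit 318) (nat_lit 262) (nat_lit 200)) (XT.nd (nat_lit 78) (nat_lit 0) (nat_lit 0) (XT.lf (nat_lit 0) (nat_lit 579176213445) (nat_lit 76) (nat_lit 1537218340323) (nat_lit 76) (nat_lit 1528306879222) (nat_lit 1) (nat_lit 4) (nat_lit 2) (nat_lit 5) (nat_lit 2) (nat_lit 4) (nat_lit 319) (nat_lit 262) (nat_lit 199)) (XT.lf (nat_lit 0) (nat_lit 699460335455) (nat_lit 76) (nat_lit 1749214347971) (nat_lit 76) (nat_lit 1740302712512) (nat_lit 1) (nat_lit 4) (nat_lit 2) (nat_lit 5) (nat_lit 2) (nat_lit 4) (nat_lit 320) (nat_lit 262) (nat_lit 198))))) (XT.nd (nat_lit 156) (nat_lit 0) (nat_lit 0) (XT.nd (nat_lit 78) (nat_lit 0) (nat_lit 0) (XT.lf (nat_lit 0) (nat_lit 837785854262) (nat_lit 76) (nat_lit 1993010387481) (nat_lit 76) (nat_lit 1984098600406) (nat_lit 1) (nat_lit 4) (nat_lit 2) (nat_lit 5) (nat_lit 2) (nat_lit 4) (nat_lit 321) (nat_lit 262) (nat_lit 197))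 (XT.lf (nat_lit 0) (nat_lit 996859138714) (nat_lit 76) (nat_lit 2273376381366) (nat_lit 76) (nat_lit 2264464462450) (nat_lit 1) (nat_lit 4) (nat_lit 2) (nat_lit 5) (nat_lit 2) (nat_lit 4) (nat_lit 322) (nat_lit 262) (nat_lit 196))) (XT.nd (nat_lit 78) (nat_lit 0) (nat_lit 0) (XT.lf (nat_lit 0) (nat_lit 1179792492201) (nat_lit 76) (nat_lit 2595797751244) (nat_lit 76) (nat_lit 2586885717684) (nat_lit 1) (nat_lit 4) (nat_lit 2) (nat_lit 5) (nat_lit 2) (nat_lit 4) (nat_lit 323) (nat_lit 262) (nat_lit 195)) (XT.nd (nat_lit 78) (nat_lit 0) (nat_lit 0) (XT.lf (nat_lit 0) (nat_lit 1390165045553) (nat_lit 76) (nat_lit 2966582741309) (nat_lit 76) (nat_lit 2957670608059) (nat_lit 1) (nat_lit 4) (nat_lit 2) (nat_lit 5) (nat_lit 2) (nat_lit 4) (nat_lit 324) (nat_lit 262) (nat_lit 194)) (XT.lf (nat_lit 0) (nat_lit 1632092783508) (nat_lit 76) (nat_lit 3392985840496) (nat_lit 76) (nat_lit 3384073620559)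 (nat_lit 1) (nat_lit 4) (nat_lit 2) (nat_lit 5) (nat_lit 2) (nat_lit 4) (nat_lit 325) (nat_lit 262) (nat_lit 193))))))))
noncomputable def xc53 : XT := (XT.nd (nat_lit 35880) (nat_lit 0) (nat_lit 532) (XT.nd (nat_lit 780) (nat_lit 0) (nat_lit 0) (XT.nd (nat_lit 390) (nat_lit 0) (nat_lit 0) (XT.nd (nat_lit 156) (nat_lit 0) (nat_lit 0) (XT.nd (nat_lit 78) (nat_lit 0) (nat_lit 0) (XT.lf (nat_lit 0) (nat_lit 1910309074854) (nat_lit 76) (nat_lit 3883349718139) (nat_lit 76) (nat_lit 3874437422822) (nat_lit 1) (nat_lit 4) (nat_lit 2) (nat_lit 5) (nat_lit 2) (nat_lit 4) (nat_lit 326) (nat_lit 262) (nat_lit 192)) (XT.lf (nat_lit 0) (nat_lit 2230257281812) (nat_lit 76) (nat_lit 4447268450104) (nat_lit 76) (nat_lit 4438356089239) (nat_lit 1) (nat_lit 4) (nat_lit 2) (nat_lit 5) (nat_lit 2) (nat_lit 4) (nat_lit 327) (nat_lit 262) (nat_lit 191))) (XT.nd (nat_lit 78) (nat_lit 0) (nat_lit 0) (XT.lf (nat_lit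 0) (nat_lit 2598197260605) (nat_lit 76) (nat_lit 5095775228972) (nat_lit 76) (nat_lit 5086862811109) (nat_lit 1) (nat_lit 4) (nat_lit 2) (nat_lit 5) (nat_lit 2) (nat_lit 4) (nat_lit 328) (nat_lit 262) (nat_lit 190)) (XT.nd (nat_lit 78) (nat_lit 0) (nat_lit 0) (XT.lf (nat_lit 0) (nat_lit 3021327836906) (nat_lit 76) (nat_lit 5841558230852) (nat_lit 76) (nat_lit 5832645763425) (nat_lit 1) (nat_lit 4) (nat_lit 2) (nat_lit 5) (nat_lit 2) (nat_lit 4) (nat_lit 329) (nat_lit 262) (nat_lit 189)) (XT.lf (nat_lit 0) (nat_lit 3507927652424) (nat_lit 76) (nat_lit 6699208862303) (nat_lit 76) (nat_lit 6690296351777) (nat_lit 1) (nat_lit 4) (nat_lit 2) (nat_lit 5) (nat_lit 2) (nat_lit 4) (nat_lit 330) (nat_lit 262) (nat_lit 188))))) (XT.nd (nat_lit 156) (nat_lit 0) (nat_lit 0) (XT.nd (nat_lit 78) (nat_lit 0) (nat_lit 0) (XT.lf (nat_lit 0) (nat_lit 4067517138332) (nat_lit 76) (nat_lit 7685507244374) (nat_lit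 76) (nat_lit 7676594696371) (nat_lit 1) (nat_lit 4) (nat_lit 2) (nat_lit 5) (nat_lit 2) (nat_lit 4) (nat_lit 331) (nat_lit 262) (nat_lit 187)) (XT.lf (nat_lit 0) (nat_lit 4711044784573) (nat_lit 76) (nat_lit 8819750519324) (nat_lit 76) (nat_lit 8810837938732) (nat_lit 1) (nat_lit 4) (nat_lit 2) (nat_lit 5) (nat_lit 2) (nat_lit 4) (nat_lit 332) (nat_lit 262) (nat_lit 186))) (XT.nd (nat_lit 78) (nat_lit 0) (nat_lit 0) (XT.lf (nat_lit 0) (nat_lit 5451101349442) (nat_lit 76) (nat_lit 10124130403402) (nat_lit 76) (nat_lit 10115217794472) (nat_lit 1) (nat_lit 4) (nat_lit 2) (nat_lit 5) (nat_lit 2) (nat_lit 4) (nat_lit 333) (nat_lit 262) (nat_lit 185)) (XT.nd (nat_lit 78) (nat_lit 0) (nat_lit 0) (XT.lf (nat_lit 0) (nat_lit 6302166200513) (nat_lit 76) (nat_lit 11624167372599) (nat_lit 76) (nat_lit 11615254739028) (nat_lit 1) (nat_lit 4) (nat_lit 2) (nat_lit 5) (nat_lit 2) (nat_lit 4) (nat_lit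 334) (nat_lit 262) (nat_lit 184)) (XT.lf (nat_lit 0) (nat_lit 7280890606612) (nat_lit 76) (nat_lit 13349209976315) (nat_lit 76) (nat_lit 13340297321316) (nat_lit 1) (nat_lit 4) (nat_lit 2) (nat_lit 5) (nat_lit 2) (nat_lit 4) (nat_lit 335) (nat_lit 262) (nat_lit 183)))))) (XT.nd (nat_lit 390) (nat_lit 0) (nat_lit 0) (XT.nd (nat_lit 156) (nat_lit 0) (nat_lit 0) (XT.nd (nat_lit 78) (nat_lit 0) (nat_lit 0) (XT.lf (nat_lit 0) (nat_lit 8406423523509) (nat_lit 76) (nat_lit 15333009048100) (nat_lit 76) (nat_lit 15324096374468) (nat_lit 1) (nat_lit 4) (nat_lit 2) (nat_lit 5) (nat_lit 2) (nat_lit 4) (nat_lit 336) (nat_lit 262) (nat_lit 182)) (XT.lf (nat_lit 0) (nat_lit 9700786247405) (nat_lit 76) (nat_lit 17614378048053) (nat_lit 76) (nat_lit 17605465358218) (nat_lit 1) (nat_lit 4) (nat_lit 2) (nat_lit 5) (nat_lit 2) (nat_lit 4) (nat_lit 337) (nat_lit 262) (nat_lit 181))) (XT.nd (nat_lit 78) (nat_lit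 0) (nat_lit 0) (XT.lf (nat_lit 0) (nat_lit 11189303266375) (nat_lit 76) (nat_lit 20237952456609) (nat_lit 76) (nat_lit 20229039752685) (nat_lit 1) (nat_lit 4) (nat_lit 2) (nat_lit 5) (nat_lit 2) (nat_lit 4) (nat_lit 338) (nat_lit 262) (nat_lit 180)) (XT.nd (nat_lit 78) (nat_lit 0) (nat_lit 0) (XT.lf (nat_lit 0) (nat_lit 12901097739488) (nat_lit 76) (nat_lit 23255063077413) (nat_lit 76) (nat_lit 23246150361238) (nat_lit 1) (nat_lit 4) (nat_lit 2) (nat_lit 5) (nat_lit 2) (nat_lit 4) (nat_lit 339) (nat_lit 262) (nat_lit 179)) (XT.lf (nat_lit 0) (nat_lit 14869661297738) (nat_lit 76) (nat_lit 26724740335656) (nat_lit 76) (nat_lit 26715827608827) (nat_lit 1) (nat_lit 4) (nat_lit 2) (nat_lit 5) (nat_lit 2) (nat_lit 4) (nat_lit 340) (nat_lit 262) (nat_lit 178))))) (XT.nd (nat_lit 156) (nat_lit 0) (nat_lit 0) (XT.nd (nat_lit 78) (nat_lit 0) (nat_lit 0) (XT.lf (nat_lit 0) (nat_lit 17133509315092)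 (nat_lit 76) (nat_lit 30714869221171) (nat_lit 76) (nat_lit 30705956485079) (nat_lit 1) (nat_lit 4) (nat_lit 2) (nat_lit 5) (nat_lit 2) (nat_lit 4) (nat_lit 341) (nat_lit 262) (nat_lit 177)) (XT.lf (nat_lit 0) (nat_lit 19736934470150) (nat_lit 76) (nat_lit 35303517473025) (nat_lit 76) (nat_lit 35294604728877) (nat_lit 1) (nat_lit 4) (nat_lit 2) (nat_lit 5) (nat_lit 2) (nat_lit 4) (nat_lit 342) (nat_lit 262) (nat_lit 176))) (XT.nd (nat_lit 34398) (nat_lit 0) (nat_lit 2052) (XT.lf (nat_lit 0) (nat_lit 22730873342031) (nat_lit 76) (nat_lit 40580462991795) (nat_lit 76) (nat_lit 40571550240643) (nat_lit 1) (nat_lit 4) (nat_lit 2) (nat_lit 5) (nat_lit 2) (nat_lit 4) (nat_lit 343) (nat_lit 262) (nat_lit 175)) (XT.nd (nat_lit 78) (nat_lit 0) (nat_lit 0) (XT.lf (nat_lit 0) (nat_lit 56788476) (nat_lit 0) (nat_lit 56788476) (nat_lit 228) (nat_lit 3538443997) (nat_lit 28) (nat_lit 5) (nat_lit 28)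 (nat_lit 3) (nat_lit 31) (nat_lit 3) (nat_lit 263) (nat_lit 263) (nat_lit 254)) (XT.lf (nat_lit 0) (nat_lit 1818771855) (nat_lit 228) (nat_lit 3744093164) (nat_lit 304) (nat_lit 2047024069) (nat_lit 28) (nat_lit 5) (nat_lit 31) (nat_lit 3) (nat_lit 32) (nat_lit 5) (nat_lit 264) (nat_lit 263) (nat_lit 253))))))) (XT.nd (nat_lit 780) (nat_lit 532) (nat_lit 0) (XT.nd (nat_lit 390) (nat_lit 456) (nat_lit 0) (XT.nd (nat_lit 156) (nat_lit 532) (nat_lit 0) (XT.nd (nat_lit 78) (nat_lit 0) (nat_lit 0) (XT.lf (nat_lit 76) (nat_lit 39377496) (nat_lit 0) (nat_lit 3358462561) (nat_lit 304) (nat_lit 4602494312) (nat_lit 29) (nat_lit 5) (nat_lit 28) (nat_lit 5) (nat_lit 32) (nat_lit 5) (nat_lit 265) (nat_lit 263) (nat_lit 252)) (XT.lf (nat_lit 76) (nat_lit 4641288475) (nat_lit 0) (nat_lit 536524212) (nat_lit 304) (nat_lit 3277820296) (nat_lit 29) (nat_lit 5) (nat_lit 28) (nat_lit 5) (nat_lit 32) (nat_lit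 5) (nat_lit 266) (nat_lit 263) (nat_lit 251))) (XT.nd (nat_lit 78) (nat_lit 380) (nat_lit 0) (XT.lf (nat_lit 0) (nat_lit 725783480) (nat_lit 228) (nat_lit 6441985987) (nat_lit 304) (nat_lit 1820785354) (nat_lit 26) (nat_lit 5) (nat_lit 29) (nat_lit 5) (nat_lit 30) (nat_lit 5) (nat_lit 267) (nat_lit 263) (nat_lit 250)) (XT.nd (nat_lit 78) (nat_lit 380) (nat_lit 0) (XT.lf (nat_lit 0) (nat_lit 6174860626) (nat_lit 228) (nat_lit 3324740948) (nat_lit 304) (nat_lit 95981456) (nat_lit 26) (nat_lit 5) (nat_lit 29) (nat_lit 5) (nat_lit 30) (nat_lit 5) (nat_lit 268) (nat_lit 263) (nat_lit 249)) (XT.lf (nat_lit 0) (nat_lit 1659648915) (nat_lit 380) (nat_lit 8224122366) (nat_lit 76) (nat_lit 407658788) (nat_lit 21) (nat_lit 5) (nat_lit 26) (nat_lit 5) (nat_lit 22) (nat_lit 5) (nat_lit 269) (nat_lit 263) (nat_lit 248))))) (XT.nd (nat_lit 156) (nat_lit 304) (nat_lit 0) (XT.nd (nat_lit 78) (nat_lit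 152) (nat_lit 0) (XT.lf (nat_lit 0) (nat_lit 3864104253) (nat_lit 380) (nat_lit 2655026765) (nat_lit 76) (nat_lit 4542985566) (nat_lit 21) (nat_lit 5) (nat_lit 26) (nat_lit 5) (nat_lit 22) (nat_lit 5) (nat_lit 270) (nat_lit 263) (nat_lit 247)) (XT.lf (nat_lit 0) (nat_lit 3942344724) (nat_lit 152) (nat_lit 2489397526) (nat_lit 228) (nat_lit 5512172816) (nat_lit 19) (nat_lit 5) (nat_lit 21) (nat_lit 5) (nat_lit 22) (nat_lit 5) (nat_lit 271) (nat_lit 263) (nat_lit 246))) (XT.nd (nat_lit 78) (nat_lit 304) (nat_lit 0) (XT.lf (nat_lit 0) (nat_lit 9497524419) (nat_lit 228) (nat_lit 1372796479) (nat_lit 76) (nat_lit 2071048427) (nat_lit 19) (nat_lit 5) (nat_lit 22) (nat_lit 5) (nat_lit 20) (nat_lit 4) (nat_lit 272) (nat_lit 263) (nat_lit 245)) (XT.nd (nat_lit 78) (nat_lit 228) (nat_lit 0) (XT.lf (nat_lit 0) (nat_lit 6570701328) (nat_lit 76) (nat_lit 6737696418) (nat_lit 152) (nat_lit 737552379)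 (nat_lit 18) (nat_lit 5) (nat_lit 19) (nat_lit 5) (nat_lit 20) (nat_lit 4) (nat_lit 273) (nat_lit 263) (nat_lit 244)) (XT.lf (nat_lit 0) (nat_lit 332838208) (nat_lit 152) (nat_lit 1817102072) (nat_lit 228) (nat_lit 13153748897) (nat_lit 15) (nat_lit 5) (nat_lit 17) (nat_lit 5) (nat_lit 18) (nat_lit 5) (nat_lit 274) (nat_lit 263) (nat_lit 243)))))) (XT.nd (nat_lit 390) (nat_lit 304) (nat_lit 0) (XT.nd (nat_lit 156) (nat_lit 152) (nat_lit 0) (XT.nd (nat_lit 78) (nat_lit 76) (nat_lit 0) (XT.lf (nat_lit 0) (nat_lit 5866628553) (nat_lit 228) (nat_lit 6907257927) (nat_lit 76) (nat_lit 3900388904) (nat_lit 15) (nat_lit 5) (nat_lit 18) (nat_lit 5) (nat_lit 16) (nat_lit 4) (nat_lit 275) (nat_lit 263) (nat_lit 242)) (XT.lf (nat_lit 0) (nat_lit 2353920345) (nat_lit 76) (nat_lit 7886683969) (nat_lit 152) (nat_lit 7995044510) (nat_lit 14) (nat_lit 5) (nat_lit 15) (nat_lit 5) (nat_lit 16) (nat_lit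 4) (nat_lit 276) (nat_lit 263) (nat_lit 241))) (XT.nd (nat_lit 78) (nat_lit 152) (nat_lit 0) (XT.lf (nat_lit 0) (nat_lit 13651705422) (nat_lit 76) (nat_lit 1901466112) (nat_lit 152) (nat_lit 4435827646) (nat_lit 14) (nat_lit 5) (nat_lit 15) (nat_lit 5) (nat_lit 16) (nat_lit 4) (nat_lit 277) (nat_lit 263) (nat_lit 240)) (XT.nd (nat_lit 78) (nat_lit 0) (nat_lit 0) (XT.lf (nat_lit 0) (nat_lit 35627341) (nat_lit 152) (nat_lit 17223960634) (nat_lit 76) (nat_lit 4695826095) (nat_lit 12) (nat_lit 5) (nat_lit 14) (nat_lit 5) (nat_lit 13) (nat_lit 4) (nat_lit 278) (nat_lit 263) (nat_lit 239)) (XT.lf (nat_lit 0) (nat_lit 5092264866) (nat_lit 152) (nat_lit 6433876119) (nat_lit 76) (nat_lit 12603769890) (nat_lit 12) (nat_lit 5) (nat_lit 14) (nat_lit 5) (nat_lit 13) (nat_lit 4) (nat_lit 279) (nat_lit 263) (nat_lit 238))))) (XT.nd (nat_lit 234) (nat_lit 152) (nat_lit 0) (XT.nd (nat_lit 78) (nat_lit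 76) (nat_lit 0) (XT.lf (nat_lit 0) (nat_lit 6442195384) (nat_lit 76) (nat_lit 4671977832) (nat_lit 152) (nat_lit 15485475705) (nat_lit 11) (nat_lit 5) (nat_lit 12) (nat_lit 5) (nat_lit 13) (nat_lit 4) (nat_lit 280) (nat_lit 263) (nat_lit 237)) (XT.nd (nat_lit 78) (nat_lit 76) (nat_lit 0) (XT.lf (nat_lit 0) (nat_lit 18466422223) (nat_lit 152) (nat_lit 7673489855) (nat_lit 0) (nat_lit 3235949608) (nat_lit 11) (nat_lit 5) (nat_lit 13) (nat_lit 4) (nat_lit 11) (nat_lit 4) (nat_lit 281) (nat_lit 263) (nat_lit 236)) (XT.lf (nat_lit 0) (nat_lit 6988973919) (nat_lit 76) (nat_lit 20393791791) (nat_lit 76) (nat_lit 5116614846) (nat_lit 10) (nat_lit 4) (nat_lit 11) (nat_lit 5) (nat_lit 11) (nat_lit 4) (nat_lit 282) (nat_lit 263) (nat_lit 235)))) (XT.nd (nat_lit 78) (nat_lit 76) (nat_lit 0) (XT.lf (nat_lit 0) (nat_lit 1777744784) (nat_lit 152) (nat_lit 11495638118) (nat_lit 76) (nat_lit 22752969237)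 (nat_lit 9) (nat_lit 5) (nat_lit 11) (nat_lit 5) (nat_lit 10) (nat_lit 4) (nat_lit 283) (nat_lit 263) (nat_lit 234)) (XT.nd (nat_lit 78) (nat_lit 0) (nat_lit 0) (XT.lf (nat_lit 0) (nat_lit 4715313688) (nat_lit 76) (nat_lit 4618834348) (nat_lit 152) (nat_lit 30688955406) (nat_lit 8) (nat_lit 5) (nat_lit 9) (nat_lit 5) (nat_lit 10) (nat_lit 4) (nat_lit 284) (nat_lit 263) (nat_lit 233)) (XT.lf (nat_lit 0) (nat_lit 18831764273) (nat_lit 152) (nat_lit 20211940981) (nat_lit 0) (nat_lit 5454535191) (nat_lit 8) (nat_lit 5) (nat_lit 10) (nat_lit 4) (nat_lit 8) (nat_lit 4) (nat_lit 285) (nat_lit 263) (nat_lit 232))))))))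
noncomputable def xc54 : XT := (XT.nd (nat_lit 1560) (nat_lit 76) (nat_lit 0) (XT.nd (nat_lit 780) (nat_lit 152) (nat_lit 0) (XT.nd (nat_lit 390) (nat_lit 76) (nat_lit 0) (XT.nd (nat_lit 156) (nat_lit 152) (nat_lit 0) (XT.nd (nat_lit 78) (nat_lit 76) (nat_lit 0) (XT.lf (nat_lit 0) (nat_lit 29936892813) (nat_lit 152) (nat_lit 3143912486) (nat_lit 0) (nat_lit 16536443424) (nat_lit 8) (nat_lit 5) (nat_lit 10) (nat_lit 4) (nat_lit 8) (nat_lit 4) (nat_lit 286) (nat_lit 263) (nat_lit 231)) (XT.lf (nat_lit 0) (nat_lit 18026319078) (nat_lit 76) (nat_lit 25395664182) (nat_lit 76) (nat_lit 11975023222) (nat_lit 7) (nat_lit 4) (nat_lit 8) (nat_lit 5) (nat_lit 8) (nat_lit 4) (nat_lit 287) (nat_lit 263) (nat_lit 230))) (XT.nd (nat_lit 78) (nat_lit 152) (nat_lit 0) (XT.lf (nat_lit 0) (nat_lit 42665445340) (nat_lit 76) (nat_lit 16398215718) (nat_lit 76) (nat_lit 2960016871) (nat_lit 7) (nat_lit 4) (nat_lit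 8) (nat_lit 5) (nat_lit 8) (nat_lit 4) (nat_lit 288) (nat_lit 263) (nat_lit 229)) (XT.nd (nat_lit 78) (nat_lit 0) (nat_lit 0) (XT.lf (nat_lit 0) (nat_lit 1091673894) (nat_lit 76) (nat_lit 5673507719) (nat_lit 152) (nat_lit 62830570873) (nat_lit 5) (nat_lit 5) (nat_lit 6) (nat_lit 5) (nat_lit 7) (nat_lit 4) (nat_lit 289) (nat_lit 263) (nat_lit 228)) (XT.lf (nat_lit 0) (nat_lit 18954538976) (nat_lit 152) (nat_lit 51887379728) (nat_lit 0) (nat_lit 7244327792) (nat_lit 5) (nat_lit 5) (nat_lit 7) (nat_lit 4) (nat_lit 5) (nat_lit 4) (nat_lit 290) (nat_lit 263) (nat_lit 227))))) (XT.nd (nat_lit 156) (nat_lit 76) (nat_lit 0) (XT.nd (nat_lit 78) (nat_lit 0) (nat_lit 0) (XT.lf (nat_lit 0) (nat_lit 33218608051) (nat_lit 152) (nat_lit 33096415740) (nat_lit 0) (nat_lit 21498358088) (nat_lit 5) (nat_lit 5) (nat_lit 7) (nat_lit 4) (nat_lit 5) (nat_lit 4) (nat_lit 291) (nat_lit 263) (nat_lit 226)) (XT.lf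 (nat_lit 0) (nat_lit 49601540596) (nat_lit 152) (nat_lit 11528609478) (nat_lit 0) (nat_lit 37872561260) (nat_lit 5) (nat_lit 5) (nat_lit 7) (nat_lit 4) (nat_lit 5) (nat_lit 4) (nat_lit 292) (nat_lit 263) (nat_lit 225))) (XT.nd (nat_lit 78) (nat_lit 0) (nat_lit 0) (XT.lf (nat_lit 0) (nat_lit 14531733258) (nat_lit 76) (nat_lit 54493867075) (nat_lit 76) (nat_lit 42757296979) (nat_lit 4) (nat_lit 4) (nat_lit 5) (nat_lit 5) (nat_lit 5) (nat_lit 4) (nat_lit 293) (nat_lit 263) (nat_lit 224)) (XT.nd (nat_lit 78) (nat_lit 0) (nat_lit 0) (XT.lf (nat_lit 0) (nat_lit 45762088323) (nat_lit 76) (nat_lit 46186688184) (nat_lit 76) (nat_lit 34443517428) (nat_lit 4) (nat_lit 4) (nat_lit 5) (nat_lit 5) (nat_lit 5) (nat_lit 4) (nat_lit 294) (nat_lit 263) (nat_lit 223)) (XT.lf (nat_lit 0) (nat_lit 81646824837) (nat_lit 76) (nat_lit 36648713501) (nat_lit 76) (nat_lit 24899803040) (nat_lit 4) (nat_lit 4) (nat_lit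 5) (nat_lit 5) (nat_lit 5) (nat_lit 4) (nat_lit 295) (nat_lit 263) (nat_lit 222)))))) (XT.nd (nat_lit 390) (nat_lit 0) (nat_lit 0) (XT.nd (nat_lit 156) (nat_lit 152) (nat_lit 0) (XT.nd (nat_lit 78) (nat_lit 0) (nat_lit 0) (XT.lf (nat_lit 0) (nat_lit 122888035473) (nat_lit 76) (nat_lit 25693330477) (nat_lit 76) (nat_lit 13939428969) (nat_lit 4) (nat_lit 4) (nat_lit 5) (nat_lit 5) (nat_lit 5) (nat_lit 4) (nat_lit 296) (nat_lit 263) (nat_lit 221)) (XT.lf (nat_lit 0) (nat_lit 170292613481) (nat_lit 76) (nat_lit 13106194663) (nat_lit 76) (nat_lit 1347953113) (nat_lit 4) (nat_lit 4) (nat_lit 5) (nat_lit 5) (nat_lit 5) (nat_lit 4) (nat_lit 297) (nat_lit 263) (nat_lit 220))) (XT.nd (nat_lit 78) (nat_lit 0) (nat_lit 0) (XT.lf (nat_lit 0) (nat_lit 12698652080) (nat_lit 152) (nat_lit 194945265953) (nat_lit 0) (nat_lit 2470812517) (nat_lit 2) (nat_lit 5) (nat_lit 4) (nat_lit 4) (nat_lit 2) (nat_lit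 4) (nat_lit 298) (nat_lit 263) (nat_lit 219)) (XT.nd (nat_lit 78) (nat_lit 0) (nat_lit 0) (XT.lf (nat_lit 0) (nat_lit 30119716947) (nat_lit 152) (nat_lit 189058709109) (nat_lit 0) (nat_lit 19889023736) (nat_lit 2) (nat_lit 5) (nat_lit 4) (nat_lit 4) (nat_lit 2) (nat_lit 4) (nat_lit 299) (nat_lit 263) (nat_lit 218)) (XT.lf (nat_lit 0) (nat_lit 50145100193) (nat_lit 152) (nat_lit 182307380717) (nat_lit 0) (nat_lit 39911925549) (nat_lit 2) (nat_lit 5) (nat_lit 4) (nat_lit 4) (nat_lit 2) (nat_lit 4) (nat_lit 300) (nat_lit 263) (nat_lit 217))))) (XT.nd (nat_lit 156) (nat_lit 0) (nat_lit 0) (XT.nd (nat_lit 78) (nat_lit 0) (nat_lit 0) (XT.lf (nat_lit 0) (nat_lit 73166602793) (nat_lit 152) (nat_lit 174559189569) (nat_lit 0) (nat_lit 62931270382) (nat_lit 2) (nat_lit 5) (nat_lit 4) (nat_lit 4) (nat_lit 2) (nat_lit 4) (nat_lit 301) (nat_lit 263) (nat_lit 216)) (XT.lf (nat_lit 0) (nat_lit 99634645451)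 (nat_lit 152) (nat_lit 165662540622) (nat_lit 0) (nat_lit 89397436720) (nat_lit 2) (nat_lit 5) (nat_lit 4) (nat_lit 4) (nat_lit 2) (nat_lit 4) (nat_lit 302) (nat_lit 263) (nat_lit 215))) (XT.nd (nat_lit 78) (nat_lit 0) (nat_lit 0) (XT.lf (nat_lit 0) (nat_lit 130067081176) (nat_lit 152) (nat_lit 155443369005) (nat_lit 0) (nat_lit 119828240863) (nat_lit 2) (nat_lit 5) (nat_lit 4) (nat_lit 4) (nat_lit 2) (nat_lit 4) (nat_lit 303) (nat_lit 263) (nat_lit 214)) (XT.nd (nat_lit 78) (nat_lit 0) (nat_lit 0) (XT.lf (nat_lit 0) (nat_lit 165059327187) (nat_lit 152) (nat_lit 143701734403) (nat_lit 0) (nat_lit 154819068107) (nat_lit 2) (nat_lit 5) (nat_lit 4) (nat_lit 4) (nat_lit 2) (nat_lit 4) (nat_lit 304) (nat_lit 263) (nat_lit 213)) (XT.lf (nat_lit 0) (nat_lit 205296014386) (nat_lit 152) (nat_lit 130207909182) (nat_lit 0) (nat_lit 195054521595) (nat_lit 2) (nat_lit 5) (nat_lit 4) (nat_lit 4) (nat_lit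 2) (nat_lit 4) (nat_lit 305) (nat_lit 263) (nat_lit 212))))))) (XT.nd (nat_lit 780) (nat_lit 0) (nat_lit 0) (XT.nd (nat_lit 390) (nat_lit 76) (nat_lit 0) (XT.nd (nat_lit 156) (nat_lit 0) (nat_lit 0) (XT.nd (nat_lit 78) (nat_lit 0) (nat_lit 0) (XT.lf (nat_lit 0) (nat_lit 251564382304) (nat_lit 152) (nat_lit 114697883720) (nat_lit 0) (nat_lit 241321816722) (nat_lit 2) (nat_lit 5) (nat_lit 4) (nat_lit 4) (nat_lit 2) (nat_lit 4) (nat_lit 306) (nat_lit 263) (nat_lit 211)) (XT.lf (nat_lit 0) (nat_lit 304769681619) (nat_lit 152) (nat_lit 96868200996) (nat_lit 0) (nat_lit 294526183174) (nat_lit 2) (nat_lit 5) (nat_lit 4) (nat_lit 4) (nat_lit 2) (nat_lit 4) (nat_lit 307) (nat_lit 263) (nat_lit 210))) (XT.nd (nat_lit 78) (nat_lit 0) (nat_lit 0) (XT.lf (nat_lit 0) (nat_lit 365952885577) (nat_lit 152) (nat_lit 76370019391) (nat_lit 0) (nat_lit 355708575947) (nat_lit 2) (nat_lit 5) (nat_lit 4) (nat_lit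 4) (nat_lit 2) (nat_lit 4) (nat_lit 308) (nat_lit 263) (nat_lit 209)) (XT.nd (nat_lit 78) (nat_lit 0) (nat_lit 0) (XT.lf (nat_lit 0) (nat_lit 436311056865) (nat_lit 152) (nat_lit 52802287527) (nat_lit 0) (nat_lit 426066041856) (nat_lit 2) (nat_lit 5) (nat_lit 4) (nat_lit 4) (nat_lit 2) (nat_lit 4) (nat_lit 309) (nat_lit 263) (nat_lit 208)) (XT.lf (nat_lit 0) (nat_lit 517220768398) (nat_lit 152) (nat_lit 25703897605) (nat_lit 0) (nat_lit 506975140018) (nat_lit 2) (nat_lit 5) (nat_lit 4) (nat_lit 4) (nat_lit 2) (nat_lit 4) (nat_lit 310) (nat_lit 263) (nat_lit 207))))) (XT.nd (nat_lit 156) (nat_lit 0) (nat_lit 0) (XT.nd (nat_lit 78) (nat_lit 0) (nat_lit 0) (XT.lf (nat_lit 0) (nat_lit 5988471397) (nat_lit 76) (nat_lit 604524534707) (nat_lit 76) (nat_lit 594278372959) (nat_lit 1) (nat_lit 4) (nat_lit 2) (nat_lit 5) (nat_lit 2) (nat_lit 4) (nat_lit 311) (nat_lit 263) (nat_lit 206)) (XT.lf (nat_lit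 0) (nat_lit 45319726725) (nat_lit 76) (nat_lit 673821158332) (nat_lit 76) (nat_lit 663574532787) (nat_lit 1) (nat_lit 4) (nat_lit 2) (nat_lit 5) (nat_lit 2) (nat_lit 4) (nat_lit 312) (nat_lit 263) (nat_lit 205))) (XT.nd (nat_lit 78) (nat_lit 0) (nat_lit 0) (XT.lf (nat_lit 0) (nat_lit 90547421129) (nat_lit 76) (nat_lit 753513953214) (nat_lit 76) (nat_lit 743266924367) (nat_lit 1) (nat_lit 4) (nat_lit 2) (nat_lit 5) (nat_lit 2) (nat_lit 4) (nat_lit 313) (nat_lit 263) (nat_lit 204)) (XT.nd (nat_lit 78) (nat_lit 0) (nat_lit 0) (XT.lf (nat_lit 0) (nat_lit 142556444282) (nat_lit 76) (nat_lit 845162126211) (nat_lit 76) (nat_lit 834914746666) (nat_lit 1) (nat_lit 4) (nat_lit 2) (nat_lit 5) (nat_lit 2) (nat_lit 4) (nat_lit 314) (nat_lit 263) (nat_lit 203)) (XT.lf (nat_lit 0) (nat_lit 202364364027) (nat_lit 76) (nat_lit 950558793749) (nat_lit 76) (nat_lit 940311109250) (nat_lit 1) (nat_lit 4) (nat_lit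 2) (nat_lit 5) (nat_lit 2) (nat_lit 4) (nat_lit 315) (nat_lit 263) (nat_lit 202)))))) (XT.nd (nat_lit 390) (nat_lit 0) (nat_lit 0) (XT.nd (nat_lit 156) (nat_lit 0) (nat_lit 0) (XT.nd (nat_lit 78) (nat_lit 0) (nat_lit 0) (XT.lf (nat_lit 0) (nat_lit 271141335316) (nat_lit 76) (nat_lit 1071766064543) (nat_lit 76) (nat_lit 1061518114866) (nat_lit 1) (nat_lit 4) (nat_lit 2) (nat_lit 5) (nat_lit 2) (nat_lit 4) (nat_lit 316) (nat_lit 263) (nat_lit 201)) (XT.lf (nat_lit 0) (nat_lit 350232994544) (nat_lit 76) (nat_lit 1211155385193) (nat_lit 76) (nat_lit 1200907204927) (nat_lit 1) (nat_lit 4) (nat_lit 2) (nat_lit 5) (nat_lit 2) (nat_lit 4) (nat_lit 317) (nat_lit 263) (nat_lit 200))) (XT.nd (nat_lit 78) (nat_lit 0) (nat_lit 0) (XT.lf (nat_lit 0) (nat_lit 441186787218) (nat_lit 76) (nat_lit 1371453938062) (nat_lit 76) (nat_lit 1361205557283) (nat_lit 1) (nat_lit 4) (nat_lit 2) (nat_lit 5) (nat_lit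 2) (nat_lit 4) (nat_lit 318) (nat_lit 263) (nat_lit 199)) (XT.nd (nat_lit 78) (nat_lit 0) (nat_lit 0) (XT.lf (nat_lit 0) (nat_lit 545782244063) (nat_lit 76) (nat_lit 1555797999183) (nat_lit 76) (nat_lit 1545549444046) (nat_lit 1) (nat_lit 4) (nat_lit 2) (nat_lit 5) (nat_lit 2) (nat_lit 4) (nat_lit 319) (nat_lit 263) (nat_lit 198)) (XT.lf (nat_lit 0) (nat_lit 666065797932) (nat_lit 76) (nat_lit 1767794300187) (nat_lit 76) (nat_lit 1757545593433) (nat_lit 1) (nat_lit 4) (nat_lit 2) (nat_lit 5) (nat_lit 2) (nat_lit 4) (nat_lit 320) (nat_lit 263) (nat_lit 197))))) (XT.nd (nat_lit 156) (nat_lit 0) (nat_lit 0) (XT.nd (nat_lit 78) (nat_lit 0) (nat_lit 0) (XT.lf (nat_lit 0) (nat_lit 804390822703) (nat_lit 76) (nat_lit 2011590594789) (nat_lit 76) (nat_lit 2001341756195) (nat_lit 1) (nat_lit 4) (nat_lit 2) (nat_lit 5) (nat_lit 2) (nat_lit 4) (nat_lit 321) (nat_lit 263) (nat_lit 196)) (XT.lf (nat_lit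 0) (nat_lit 963463677559) (nat_lit 76) (nat_lit 2291956810493) (nat_lit 76) (nat_lit 2281707857255) (nat_lit 1) (nat_lit 4) (nat_lit 2) (nat_lit 5) (nat_lit 2) (nat_lit 4) (nat_lit 322) (nat_lit 263) (nat_lit 195))) (XT.nd (nat_lit 78) (nat_lit 0) (nat_lit 0) (XT.lf (nat_lit 0) (nat_lit 1146396657484) (nat_lit 76) (nat_lit 2614378373257) (nat_lit 76) (nat_lit 2604129320329) (nat_lit 1) (nat_lit 4) (nat_lit 2) (nat_lit 5) (nat_lit 2) (nat_lit 4) (nat_lit 323) (nat_lit 263) (nat_lit 194)) (XT.nd (nat_lit 78) (nat_lit 0) (nat_lit 0) (XT.lf (nat_lit 0) (nat_lit 1356768885999) (nat_lit 76) (nat_lit 2985163531049) (nat_lit 76) (nat_lit 2974914391434) (nat_lit 1) (nat_lit 4) (nat_lit 2) (nat_lit 5) (nat_lit 2) (nat_lit 4) (nat_lit 324) (nat_lit 263) (nat_lit 193)) (XT.lf (nat_lit 0) (nat_lit 1598696341488) (nat_lit 76) (nat_lit 3411566776086) (nat_lit 76) (nat_lit 3401317561091) (nat_lit 1)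 (nat_lit 4) (nat_lit 2) (nat_lit 5) (nat_lit 2) (nat_lit 4) (nat_lit 325) (nat_lit 263) (nat_lit 192))))))))
noncomputable def xc55 : XT := (XT.nd (nat_lit 35958) (nat_lit 0) (nat_lit 532) (XT.nd (nat_lit 780) (nat_lit 0) (nat_lit 0) (XT.nd (nat_lit 390) (nat_lit 0) (nat_lit 0) (XT.nd (nat_lit 156) (nat_lit 0) (nat_lit 0) (XT.nd (nat_lit 78) (nat_lit 0) (nat_lit 0) (XT.lf (nat_lit 0) (nat_lit 1876912387210) (nat_lit 76) (nat_lit 3901930780554) (nat_lit 76) (nat_lit 3891681500012) (nat_lit 1) (nat_lit 4) (nat_lit 2) (nat_lit 5) (nat_lit 2) (nat_lit 4) (nat_lit 326) (nat_lit 263) (nat_lit 191)) (XT.lf (nat_lit 0) (nat_lit 2196860380583) (nat_lit 76) (nat_lit 4465849622802) (nat_lit 76) (nat_lit 4455600285261) (nat_lit 1) (nat_lit 4) (nat_lit 2) (nat_lit 5) (nat_lit 2) (nat_lit 4) (nat_lit 327) (nat_lit 263) (nat_lit 190))) (XT.nd (nat_lit 78) (nat_lit 0) (nat_lit 0) (XT.lf (nat_lit 0) (nat_lit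 2564800173650) (nat_lit 76) (nat_lit 5114356497569) (nat_lit 76) (nat_lit 5104107110465) (nat_lit 1) (nat_lit 4) (nat_lit 2) (nat_lit 5) (nat_lit 2) (nat_lit 4) (nat_lit 328) (nat_lit 263) (nat_lit 189)) (XT.nd (nat_lit 78) (nat_lit 0) (nat_lit 0) (XT.lf (nat_lit 0) (nat_lit 2987930588449) (nat_lit 76) (nat_lit 5860139582839) (nat_lit 76) (nat_lit 5849890152636) (nat_lit 1) (nat_lit 4) (nat_lit 2) (nat_lit 5) (nat_lit 2) (nat_lit 4) (nat_lit 329) (nat_lit 263) (nat_lit 188)) (XT.lf (nat_lit 0) (nat_lit 3474530263531) (nat_lit 76) (nat_lit 6717790286803) (nat_lit 76) (nat_lit 6707540819123) (nat_lit 1) (nat_lit 4) (nat_lit 2) (nat_lit 5) (nat_lit 2) (nat_lit 4) (nat_lit 330) (nat_lit 263) (nat_lit 187))))) (XT.nd (nat_lit 156) (nat_lit 0) (nat_lit 0) (XT.nd (nat_lit 78) (nat_lit 0) (nat_lit 0) (XT.lf (nat_lit 0) (nat_lit 4034119627321) (nat_lit 76) (nat_lit 7704088731929) (nat_lit 76)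 (nat_lit 7693839231660) (nat_lit 1) (nat_lit 4) (nat_lit 2) (nat_lit 5) (nat_lit 2) (nat_lit 4) (nat_lit 331) (nat_lit 263) (nat_lit 186)) (XT.lf (nat_lit 0) (nat_lit 4677647167373) (nat_lit 76) (nat_lit 8838332061709) (nat_lit 76) (nat_lit 8828082533102) (nat_lit 1) (nat_lit 4) (nat_lit 2) (nat_lit 5) (nat_lit 2) (nat_lit 4) (nat_lit 332) (nat_lit 263) (nat_lit 185))) (XT.nd (nat_lit 78) (nat_lit 0) (nat_lit 0) (XT.lf (nat_lit 0) (nat_lit 5417703639903) (nat_lit 76) (nat_lit 10142711993465) (nat_lit 76) (nat_lit 10132462440216) (nat_lit 1) (nat_lit 4) (nat_lit 2) (nat_lit 5) (nat_lit 2) (nat_lit 4) (nat_lit 333) (nat_lit 263) (nat_lit 184)) (XT.nd (nat_lit 78) (nat_lit 0) (nat_lit 0) (XT.lf (nat_lit 0) (nat_lit 6268768410680) (nat_lit 76) (nat_lit 11642749004123) (nat_lit 76) (nat_lit 11632499429446) (nat_lit 1) (nat_lit 4) (nat_lit 2) (nat_lit 5) (nat_lit 2) (nat_lit 4) (nat_lit 334)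 (nat_lit 263) (nat_lit 183)) (XT.lf (nat_lit 0) (nat_lit 7247492746956) (nat_lit 76) (nat_lit 13367791643890) (nat_lit 76) (nat_lit 13357542050581) (nat_lit 1) (nat_lit 4) (nat_lit 2) (nat_lit 5) (nat_lit 2) (nat_lit 4) (nat_lit 335) (nat_lit 263) (nat_lit 182)))))) (XT.nd (nat_lit 390) (nat_lit 0) (nat_lit 0) (XT.nd (nat_lit 156) (nat_lit 0) (nat_lit 0) (XT.nd (nat_lit 78) (nat_lit 0) (nat_lit 0) (XT.lf (nat_lit 0) (nat_lit 8373025603139) (nat_lit 76) (nat_lit 15351590747024) (nat_lit 76) (nat_lit 15341341137512) (nat_lit 1) (nat_lit 4) (nat_lit 2) (nat_lit 5) (nat_lit 2) (nat_lit 4) (nat_lit 336) (nat_lit 263) (nat_lit 181)) (XT.lf (nat_lit 0) (nat_lit 9667388274240) (nat_lit 76) (nat_lit 17632959774238) (nat_lit 76) (nat_lit 17622710150637) (nat_lit 1) (nat_lit 4) (nat_lit 2) (nat_lit 5) (nat_lit 2) (nat_lit 4) (nat_lit 337) (nat_lit 263) (nat_lit 180))) (XT.nd (nat_lit 78) (nat_lit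 0) (nat_lit 0) (XT.lf (nat_lit 0) (nat_lit 11155905247302) (nat_lit 76) (nat_lit 20256534206498) (nat_lit 76) (nat_lit 20246284570646) (nat_lit 1) (nat_lit 4) (nat_lit 2) (nat_lit 5) (nat_lit 2) (nat_lit 4) (nat_lit 338) (nat_lit 263) (nat_lit 179)) (XT.nd (nat_lit 78) (nat_lit 0) (nat_lit 0) (XT.lf (nat_lit 0) (nat_lit 12867699680494) (nat_lit 76) (nat_lit 23273644847916) (nat_lit 76) (nat_lit 23263395201410) (nat_lit 1) (nat_lit 4) (nat_lit 2) (nat_lit 5) (nat_lit 2) (nat_lit 4) (nat_lit 339) (nat_lit 263) (nat_lit 178)) (XT.lf (nat_lit 0) (nat_lit 14836263204031) (nat_lit 76) (nat_lit 26743322124082) (nat_lit 76) (nat_lit 26733072468312) (nat_lit 1) (nat_lit 4) (nat_lit 2) (nat_lit 5) (nat_lit 2) (nat_lit 4) (nat_lit 340) (nat_lit 263) (nat_lit 177))))) (XT.nd (nat_lit 156) (nat_lit 0) (nat_lit 0) (XT.nd (nat_lit 78) (nat_lit 0) (nat_lit 0) (XT.lf (nat_lit 0) (nat_lit 17100111191199)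 (nat_lit 76) (nat_lit 30733451025184) (nat_lit 76) (nat_lit 30723201361359) (nat_lit 1) (nat_lit 4) (nat_lit 2) (nat_lit 5) (nat_lit 2) (nat_lit 4) (nat_lit 341) (nat_lit 263) (nat_lit 176)) (XT.lf (nat_lit 0) (nat_lit 19703536320008) (nat_lit 76) (nat_lit 35322099290591) (nat_lit 76) (nat_lit 35311849619761) (nat_lit 1) (nat_lit 4) (nat_lit 2) (nat_lit 5) (nat_lit 2) (nat_lit 4) (nat_lit 342) (nat_lit 263) (nat_lit 175))) (XT.nd (nat_lit 34476) (nat_lit 0) (nat_lit 2052) (XT.lf (nat_lit 0) (nat_lit 22697475169065) (nat_lit 76) (nat_lit 40599044821147) (nat_lit 76) (nat_lit 40588795144226) (nat_lit 1) (nat_lit 4) (nat_lit 2) (nat_lit 5) (nat_lit 2) (nat_lit 4) (nat_lit 343) (nat_lit 263) (nat_lit 174)) (XT.nd (nat_lit 78) (nat_lit 0) (nat_lit 0) (XT.lf (nat_lit 0) (nat_lit 775400577) (nat_lit 0) (nat_lit 775400577) (nat_lit 228) (nat_lit 2430464918) (nat_lit 28) (nat_lit 5) (nat_lit 28)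 (nat_lit 3) (nat_lit 31) (nat_lit 3) (nat_lit 264) (nat_lit 264) (nat_lit 252)) (XT.lf (nat_lit 0) (nat_lit 4510342743) (nat_lit 228) (nat_lit 2639523973) (nat_lit 304) (nat_lit 1229075303) (nat_lit 28) (nat_lit 5) (nat_lit 31) (nat_lit 3) (nat_lit 32) (nat_lit 5) (nat_lit 265) (nat_lit 264) (nat_lit 251))))))) (XT.nd (nat_lit 780) (nat_lit 532) (nat_lit 0) (XT.nd (nat_lit 390) (nat_lit 456) (nat_lit 0) (XT.nd (nat_lit 156) (nat_lit 532) (nat_lit 0) (XT.nd (nat_lit 78) (nat_lit 0) (nat_lit 0) (XT.lf (nat_lit 76) (nat_lit 1635731687) (nat_lit 0) (nat_lit 4440906733) (nat_lit 304) (nat_lit 2790014998) (nat_lit 29) (nat_lit 5) (nat_lit 28) (nat_lit 5) (nat_lit 32) (nat_lit 5) (nat_lit 266) (nat_lit 264) (nat_lit 250)) (XT.lf (nat_lit 76) (nat_lit 6720479631) (nat_lit 0) (nat_lit 1120198311) (nat_lit 304) (nat_lit 1593099026) (nat_lit 29) (nat_lit 5) (nat_lit 28) (nat_lit 5) (nat_lit 32)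 (nat_lit 5) (nat_lit 267) (nat_lit 264) (nat_lit 249))) (XT.nd (nat_lit 78) (nat_lit 380) (nat_lit 0) (XT.lf (nat_lit 0) (nat_lit 2451684504) (nat_lit 228) (nat_lit 7480257945) (nat_lit 304) (nat_lit 145221019) (nat_lit 26) (nat_lit 5) (nat_lit 29) (nat_lit 5) (nat_lit 30) (nat_lit 5) (nat_lit 268) (nat_lit 264) (nat_lit 248)) (XT.nd (nat_lit 78) (nat_lit 304) (nat_lit 0) (XT.lf (nat_lit 0) (nat_lit 1443097545) (nat_lit 304) (nat_lit 2367506038) (nat_lit 76) (nat_lit 6988673619) (nat_lit 25) (nat_lit 5) (nat_lit 29) (nat_lit 5) (nat_lit 26) (nat_lit 5) (nat_lit 269) (nat_lit 264) (nat_lit 247)) (XT.lf (nat_lit 0) (nat_lit 3316221007) (nat_lit 380) (nat_lit 7755803982) (nat_lit 76) (nat_lit 547818111) (nat_lit 21) (nat_lit 5) (nat_lit 26) (nat_lit 5) (nat_lit 22) (nat_lit 5) (nat_lit 270) (nat_lit 264) (nat_lit 246))))) (XT.nd (nat_lit 156) (nat_lit 304) (nat_lit 0) (XT.nd (nat_lit 78)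 (nat_lit 152) (nat_lit 0) (XT.lf (nat_lit 0) (nat_lit 5667741417) (nat_lit 380) (nat_lit 1573335789) (nat_lit 76) (nat_lit 5293138188) (nat_lit 21) (nat_lit 5) (nat_lit 26) (nat_lit 5) (nat_lit 22) (nat_lit 5) (nat_lit 271) (nat_lit 264) (nat_lit 245)) (XT.lf (nat_lit 0) (nat_lit 5946371197) (nat_lit 152) (nat_lit 2572994784) (nat_lit 228) (nat_lit 5044563116) (nat_lit 19) (nat_lit 5) (nat_lit 21) (nat_lit 5) (nat_lit 22) (nat_lit 5) (nat_lit 272) (nat_lit 264) (nat_lit 244))) (XT.nd (nat_lit 78) (nat_lit 304) (nat_lit 0) (XT.lf (nat_lit 0) (nat_lit 11908990391) (nat_lit 228) (nat_lit 211544229) (nat_lit 76) (nat_lit 2611280707) (nat_lit 19) (nat_lit 5) (nat_lit 22) (nat_lit 5) (nat_lit 20) (nat_lit 4) (nat_lit 273) (nat_lit 264) (nat_lit 243)) (XT.nd (nat_lit 78) (nat_lit 152) (nat_lit 0) (XT.lf (nat_lit 0) (nat_lit 185085552) (nat_lit 152) (nat_lit 7160720657) (nat_lit 76) (nat_lit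 8666573601) (nat_lit 17) (nat_lit 5) (nat_lit 19) (nat_lit 5) (nat_lit 18) (nat_lit 5) (nat_lit 274) (nat_lit 264) (nat_lit 242)) (XT.lf (nat_lit 0) (nat_lit 1719789953) (nat_lit 152) (nat_lit 1640839091) (nat_lit 228) (nat_lit 14103586336) (nat_lit 15) (nat_lit 5) (nat_lit 17) (nat_lit 5) (nat_lit 18) (nat_lit 5) (nat_lit 275) (nat_lit 264) (nat_lit 241)))))) (XT.nd (nat_lit 390) (nat_lit 304) (nat_lit 0) (XT.nd (nat_lit 156) (nat_lit 152) (nat_lit 0) (XT.nd (nat_lit 78) (nat_lit 76) (nat_lit 0) (XT.lf (nat_lit 0) (nat_lit 7535129570) (nat_lit 228) (nat_lit 6679461254) (nat_lit 76) (nat_lit 4840986799) (nat_lit 15) (nat_lit 5) (nat_lit 18) (nat_lit 5) (nat_lit 16) (nat_lit 4) (nat_lit 276) (nat_lit 264) (nat_lit 240)) (XT.lf (nat_lit 0) (nat_lit 3913444423) (nat_lit 76) (nat_lit 8598864509) (nat_lit 152) (nat_lit 8346985937) (nat_lit 14) (nat_lit 5) (nat_lit 15) (nat_lit 5) (nat_lit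 16) (nat_lit 4) (nat_lit 277) (nat_lit 264) (nat_lit 239))) (XT.nd (nat_lit 78) (nat_lit 152) (nat_lit 0) (XT.lf (nat_lit 0) (nat_lit 16748536041) (nat_lit 76) (nat_lit 1777275546) (nat_lit 152) (nat_lit 4364405924) (nat_lit 14) (nat_lit 5) (nat_lit 15) (nat_lit 5) (nat_lit 16) (nat_lit 4) (nat_lit 278) (nat_lit 264) (nat_lit 238)) (XT.nd (nat_lit 78) (nat_lit 0) (nat_lit 0) (XT.lf (nat_lit 0) (nat_lit 686828203) (nat_lit 152) (nat_lit 18665619395) (nat_lit 76) (nat_lit 5798506383) (nat_lit 12) (nat_lit 5) (nat_lit 14) (nat_lit 5) (nat_lit 13) (nat_lit 4) (nat_lit 279) (nat_lit 264) (nat_lit 237)) (XT.lf (nat_lit 0) (nat_lit 6417719171) (nat_lit 152) (nat_lit 6405970290) (nat_lit 76) (nat_lit 14840688742) (nat_lit 12) (nat_lit 5) (nat_lit 14) (nat_lit 5) (nat_lit 13) (nat_lit 4) (nat_lit 280) (nat_lit 264) (nat_lit 236))))) (XT.nd (nat_lit 234) (nat_lit 152) (nat_lit 0) (XT.nd (nat_lit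 78) (nat_lit 76) (nat_lit 0) (XT.lf (nat_lit 0) (nat_lit 8356376154) (nat_lit 76) (nat_lit 4952532052) (nat_lit 152) (nat_lit 17200870949) (nat_lit 11) (nat_lit 5) (nat_lit 12) (nat_lit 5) (nat_lit 13) (nat_lit 4) (nat_lit 281) (nat_lit 264) (nat_lit 235)) (XT.nd (nat_lit 78) (nat_lit 76) (nat_lit 0) (XT.lf (nat_lit 0) (nat_lit 21710307602) (nat_lit 152) (nat_lit 7946020095) (nat_lit 0) (nat_lit 4054237324) (nat_lit 11) (nat_lit 5) (nat_lit 13) (nat_lit 4) (nat_lit 11) (nat_lit 4) (nat_lit 282) (nat_lit 264) (nat_lit 234)) (XT.lf (nat_lit 0) (nat_lit 8875881733) (nat_lit 76) (nat_lit 23061128012) (nat_lit 76) (nat_lit 5369742550) (nat_lit 10) (nat_lit 4) (nat_lit 11) (nat_lit 5) (nat_lit 11) (nat_lit 4) (nat_lit 283) (nat_lit 264) (nat_lit 233)))) (XT.nd (nat_lit 78) (nat_lit 76) (nat_lit 0) (XT.lf (nat_lit 0) (nat_lit 2451860620) (nat_lit 152) (nat_lit 12450593982) (nat_lit 76) (nat_lit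 26466345877) (nat_lit 9) (nat_lit 5) (nat_lit 11) (nat_lit 5) (nat_lit 10) (nat_lit 4) (nat_lit 284) (nat_lit 264) (nat_lit 232)) (XT.nd (nat_lit 78) (nat_lit 0) (nat_lit 0) (XT.lf (nat_lit 0) (nat_lit 6157028329) (nat_lit 76) (nat_lit 4961960507) (nat_lit 152) (nat_lit 34849536364) (nat_lit 8) (nat_lit 5) (nat_lit 9) (nat_lit 5) (nat_lit 10) (nat_lit 4) (nat_lit 285) (nat_lit 264) (nat_lit 231)) (XT.lf (nat_lit 0) (nat_lit 22003658379) (nat_lit 152) (nat_lit 22567226862) (nat_lit 0) (nat_lit 6549729705) (nat_lit 8) (nat_lit 5) (nat_lit 10) (nat_lit 4) (nat_lit 8) (nat_lit 4) (nat_lit 286) (nat_lit 264) (nat_lit 230))))))))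
noncomputable def xc56 : XT := (XT.nd (nat_lit 1560) (nat_lit 76) (nat_lit 0) (XT.nd (nat_lit 780) (nat_lit 152) (nat_lit 0) (XT.nd (nat_lit 390) (nat_lit 76) (nat_lit 0) (XT.nd (nat_lit 156) (nat_lit 152) (nat_lit 0) (XT.nd (nat_lit 78) (nat_lit 76) (nat_lit 0) (XT.lf (nat_lit 0) (nat_lit 34729278444) (nat_lit 152) (nat_lit 3027233910) (nat_lit 0) (nat_lit 19257791882) (nat_lit 8) (nat_lit 5) (nat_lit 10) (nat_lit 4) (nat_lit 8) (nat_lit 4) (nat_lit 287) (nat_lit 264) (nat_lit 229)) (XT.lf (nat_lit 0) (nat_lit 21291793050) (nat_lit 76) (nat_lit 28929219044) (nat_lit 76) (nat_lit 13442464753) (nat_lit 7) (nat_lit 4) (nat_lit 8) (nat_lit 5) (nat_lit 8) (nat_lit 4) (nat_lit 288) (nat_lit 264) (nat_lit 228))) (XT.nd (nat_lit 78) (nat_lit 152) (nat_lit 0) (XT.lf (nat_lit 0) (nat_lit 49553545716) (nat_lit 76) (nat_lit 18618126541) (nat_lit 76) (nat_lit 3118095965) (nat_lit 7) (nat_lit 4) (nat_lit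 8) (nat_lit 5) (nat_lit 8) (nat_lit 4) (nat_lit 289) (nat_lit 264) (nat_lit 227)) (XT.nd (nat_lit 78) (nat_lit 0) (nat_lit 0) (XT.lf (nat_lit 0) (nat_lit 1745971130) (nat_lit 76) (nat_lit 6280794591) (nat_lit 152) (nat_lit 71971183360) (nat_lit 5) (nat_lit 5) (nat_lit 6) (nat_lit 5) (nat_lit 7) (nat_lit 4) (nat_lit 290) (nat_lit 264) (nat_lit 226)) (XT.lf (nat_lit 0) (nat_lit 22021110770) (nat_lit 152) (nat_lit 59220382596) (nat_lit 0) (nat_lit 8524055160) (nat_lit 5) (nat_lit 5) (nat_lit 7) (nat_lit 4) (nat_lit 5) (nat_lit 4) (nat_lit 291) (nat_lit 264) (nat_lit 225))))) (XT.nd (nat_lit 156) (nat_lit 76) (nat_lit 0) (XT.nd (nat_lit 78) (nat_lit 0) (nat_lit 0) (XT.lf (nat_lit 0) (nat_lit 38395652257) (nat_lit 152) (nat_lit 37669483239) (nat_lit 0) (nat_lit 24891005888) (nat_lit 5) (nat_lit 5) (nat_lit 7) (nat_lit 4) (nat_lit 5) (nat_lit 4) (nat_lit 292) (nat_lit 264) (nat_lit 224)) (XT.lf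 (nat_lit 0) (nat_lit 57210687336) (nat_lit 152) (nat_lit 12917557542) (nat_lit 0) (nat_lit 43699440307) (nat_lit 5) (nat_lit 5) (nat_lit 7) (nat_lit 4) (nat_lit 5) (nat_lit 4) (nat_lit 293) (nat_lit 264) (nat_lit 223))) (XT.nd (nat_lit 78) (nat_lit 0) (nat_lit 0) (XT.lf (nat_lit 0) (nat_lit 17036366453) (nat_lit 76) (nat_lit 62503409411) (nat_lit 76) (nat_lit 48986422677) (nat_lit 4) (nat_lit 4) (nat_lit 5) (nat_lit 5) (nat_lit 5) (nat_lit 4) (nat_lit 294) (nat_lit 264) (nat_lit 222)) (XT.nd (nat_lit 78) (nat_lit 0) (nat_lit 0) (XT.lf (nat_lit 0) (nat_lit 52908900011) (nat_lit 76) (nat_lit 52971615129) (nat_lit 76) (nat_lit 39449637347) (nat_lit 4) (nat_lit 4) (nat_lit 5) (nat_lit 5) (nat_lit 5) (nat_lit 4) (nat_lit 295) (nat_lit 264) (nat_lit 221)) (XT.lf (nat_lit 0) (nat_lit 94139499380) (nat_lit 76) (nat_lit 42021606367) (nat_lit 76) (nat_lit 28495288544) (nat_lit 4) (nat_lit 4) (nat_lit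 5) (nat_lit 5) (nat_lit 5) (nat_lit 4) (nat_lit 296) (nat_lit 264) (nat_lit 220)))))) (XT.nd (nat_lit 390) (nat_lit 0) (nat_lit 0) (XT.nd (nat_lit 156) (nat_lit 152) (nat_lit 0) (XT.nd (nat_lit 78) (nat_lit 0) (nat_lit 0) (XT.lf (nat_lit 0) (nat_lit 141534850200) (nat_lit 76) (nat_lit 29439143823) (nat_lit 76) (nat_lit 15909052052) (nat_lit 4) (nat_lit 4) (nat_lit 5) (nat_lit 5) (nat_lit 5) (nat_lit 4) (nat_lit 297) (nat_lit 264) (nat_lit 219)) (XT.lf (nat_lit 0) (nat_lit 196022252813) (nat_lit 76) (nat_lit 14978048884) (nat_lit 76) (nat_lit 1444675417) (nat_lit 4) (nat_lit 4) (nat_lit 5) (nat_lit 5) (nat_lit 5) (nat_lit 4) (nat_lit 298) (nat_lit 264) (nat_lit 218))) (XT.nd (nat_lit 78) (nat_lit 0) (nat_lit 0) (XT.lf (nat_lit 0) (nat_lit 14698648634) (nat_lit 152) (nat_lit 223990959423) (nat_lit 0) (nat_lit 2928016361) (nat_lit 2) (nat_lit 5) (nat_lit 4) (nat_lit 4) (nat_lit 2) (nat_lit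 4) (nat_lit 299) (nat_lit 264) (nat_lit 217)) (XT.nd (nat_lit 78) (nat_lit 0) (nat_lit 0) (XT.lf (nat_lit 0) (nat_lit 34720456004) (nat_lit 152) (nat_lit 217246996846) (nat_lit 0) (nat_lit 22947665964) (nat_lit 2) (nat_lit 5) (nat_lit 4) (nat_lit 4) (nat_lit 2) (nat_lit 4) (nat_lit 300) (nat_lit 264) (nat_lit 216)) (XT.lf (nat_lit 0) (nat_lit 57738849148) (nat_lit 152) (nat_lit 209505210756) (nat_lit 0) (nat_lit 45964182787) (nat_lit 2) (nat_lit 5) (nat_lit 4) (nat_lit 4) (nat_lit 2) (nat_lit 4) (nat_lit 301) (nat_lit 264) (nat_lit 215))))) (XT.nd (nat_lit 156) (nat_lit 0) (nat_lit 0) (XT.nd (nat_lit 78) (nat_lit 0) (nat_lit 0) (XT.lf (nat_lit 0) (nat_lit 84204187930) (nat_lit 152) (nat_lit 200614131424) (nat_lit 0) (nat_lit 72427889988) (nat_lit 2) (nat_lit 5) (nat_lit 4) (nat_lit 4) (nat_lit 2) (nat_lit 4) (nat_lit 302) (nat_lit 264) (nat_lit 214)) (XT.lf (nat_lit 0) (nat_lit 114634272459)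 (nat_lit 152) (nat_lit 190399802949) (nat_lit 0) (nat_lit 102856555749) (nat_lit 2) (nat_lit 5) (nat_lit 4) (nat_lit 4) (nat_lit 2) (nat_lit 4) (nat_lit 303) (nat_lit 264) (nat_lit 213))) (XT.nd (nat_lit 78) (nat_lit 0) (nat_lit 0) (XT.lf (nat_lit 0) (nat_lit 149624473952) (nat_lit 152) (nat_lit 178662379776) (nat_lit 0) (nat_lit 137845523532) (nat_lit 2) (nat_lit 5) (nat_lit 4) (nat_lit 4) (nat_lit 2) (nat_lit 4) (nat_lit 304) (nat_lit 264) (nat_lit 212)) (XT.nd (nat_lit 78) (nat_lit 0) (nat_lit 0) (XT.lf (nat_lit 0) (nat_lit 189859383309) (nat_lit 152) (nat_lit 165172216668) (nat_lit 0) (nat_lit 178079360097) (nat_lit 2) (nat_lit 5) (nat_lit 4) (nat_lit 4) (nat_lit 2) (nat_lit 4) (nat_lit 305) (nat_lit 264) (nat_lit 211)) (XT.lf (nat_lit 0) (nat_lit 236126205277) (nat_lit 152) (nat_lit 149665375651) (nat_lit 0) (nat_lit 224345249203) (nat_lit 2) (nat_lit 5) (nat_lit 4) (nat_lit 4) (nat_lit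 2) (nat_lit 4) (nat_lit 306) (nat_lit 264) (nat_lit 210))))))) (XT.nd (nat_lit 780) (nat_lit 0) (nat_lit 0) (XT.nd (nat_lit 390) (nat_lit 76) (nat_lit 0) (XT.nd (nat_lit 156) (nat_lit 0) (nat_lit 0) (XT.nd (nat_lit 78) (nat_lit 0) (nat_lit 0) (XT.lf (nat_lit 0) (nat_lit 289330160288) (nat_lit 152) (nat_lit 131838462009) (nat_lit 0) (nat_lit 277548393029) (nat_lit 2) (nat_lit 5) (nat_lit 4) (nat_lit 4) (nat_lit 2) (nat_lit 4) (nat_lit 307) (nat_lit 264) (nat_lit 209)) (XT.lf (nat_lit 0) (nat_lit 350512195286) (nat_lit 152) (nat_lit 111342688303) (nat_lit 0) (nat_lit 338729722648) (nat_lit 2) (nat_lit 5) (nat_lit 4) (nat_lit 4) (nat_lit 2) (nat_lit 4) (nat_lit 308) (nat_lit 264) (nat_lit 208))) (XT.nd (nat_lit 78) (nat_lit 0) (nat_lit 0) (XT.lf (nat_lit 0) (nat_lit 420869350087) (nat_lit 152) (nat_lit 87777050263) (nat_lit 0) (nat_lit 409086264077) (nat_lit 2) (nat_lit 5) (nat_lit 4) (nat_lit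 4) (nat_lit 2) (nat_lit 4) (nat_lit 309) (nat_lit 264) (nat_lit 207)) (XT.nd (nat_lit 78) (nat_lit 0) (nat_lit 0) (XT.lf (nat_lit 0) (nat_lit 501778177719) (nat_lit 152) (nat_lit 60680481059) (nat_lit 0) (nat_lit 489994558342) (nat_lit 2) (nat_lit 5) (nat_lit 4) (nat_lit 4) (nat_lit 2) (nat_lit 4) (nat_lit 310) (nat_lit 264) (nat_lit 206)) (XT.lf (nat_lit 0) (nat_lit 594821676984) (nat_lit 152) (nat_lit 29522830423) (nat_lit 0) (nat_lit 583037593810) (nat_lit 2) (nat_lit 5) (nat_lit 4) (nat_lit 4) (nat_lit 2) (nat_lit 4) (nat_lit 311) (nat_lit 264) (nat_lit 205))))) (XT.nd (nat_lit 156) (nat_lit 0) (nat_lit 0) (XT.nd (nat_lit 78) (nat_lit 0) (nat_lit 0) (XT.lf (nat_lit 0) (nat_lit 6921727938) (nat_lit 76) (nat_lit 695185150227) (nat_lit 76) (nat_lit 683400663750) (nat_lit 1) (nat_lit 4) (nat_lit 2) (nat_lit 5) (nat_lit 2) (nat_lit 4) (nat_lit 312) (nat_lit 264) (nat_lit 204)) (XT.lf (nat_lit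 0) (nat_lit 52148108197) (nat_lit 76) (nat_lit 774878623659) (nat_lit 76) (nat_lit 763093786485) (nat_lit 1) (nat_lit 4) (nat_lit 2) (nat_lit 5) (nat_lit 2) (nat_lit 4) (nat_lit 313) (nat_lit 264) (nat_lit 203))) (XT.nd (nat_lit 78) (nat_lit 0) (nat_lit 0) (XT.lf (nat_lit 0) (nat_lit 104155988614) (nat_lit 76) (nat_lit 866527386698) (nat_lit 76) (nat_lit 854742244570) (nat_lit 1) (nat_lit 4) (nat_lit 2) (nat_lit 5) (nat_lit 2) (nat_lit 4) (nat_lit 314) (nat_lit 264) (nat_lit 202)) (XT.nd (nat_lit 78) (nat_lit 0) (nat_lit 0) (XT.lf (nat_lit 0) (nat_lit 163962914676) (nat_lit 76) (nat_lit 971924567318) (nat_lit 76) (nat_lit 960139160012) (nat_lit 1) (nat_lit 4) (nat_lit 2) (nat_lit 5) (nat_lit 2) (nat_lit 4) (nat_lit 315) (nat_lit 264) (nat_lit 201)) (XT.lf (nat_lit 0) (nat_lit 232739021894) (nat_lit 76) (nat_lit 1093132284269) (nat_lit 76) (nat_lit 1081346646373) (nat_lit 1) (nat_lit 4)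 (nat_lit 2) (nat_lit 5) (nat_lit 2) (nat_lit 4) (nat_lit 316) (nat_lit 264) (nat_lit 200)))))) (XT.nd (nat_lit 390) (nat_lit 0) (nat_lit 0) (XT.nd (nat_lit 156) (nat_lit 0) (nat_lit 0) (XT.nd (nat_lit 78) (nat_lit 0) (nat_lit 0) (XT.lf (nat_lit 0) (nat_lit 311829929755) (nat_lit 76) (nat_lit 1232521992883) (nat_lit 76) (nat_lit 1220736154475) (nat_lit 1) (nat_lit 4) (nat_lit 2) (nat_lit 5) (nat_lit 2) (nat_lit 4) (nat_lit 317) (nat_lit 264) (nat_lit 199)) (XT.lf (nat_lit 0) (nat_lit 402783069066) (nat_lit 76) (nat_lit 1392820883110) (nat_lit 76) (nat_lit 1381034870344) (nat_lit 1) (nat_lit 4) (nat_lit 2) (nat_lit 5) (nat_lit 2) (nat_lit 4) (nat_lit 318) (nat_lit 264) (nat_lit 198))) (XT.nd (nat_lit 78) (nat_lit 0) (nat_lit 0) (XT.lf (nat_lit 0) (nat_lit 507377957770) (nat_lit 76) (nat_lit 1577165237587) (nat_lit 76) (nat_lit 1565379073204) (nat_lit 1) (nat_lit 4) (nat_lit 2) (nat_lit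 5) (nat_lit 2) (nat_lit 4) (nat_lit 319) (nat_lit 264) (nat_lit 197)) (XT.nd (nat_lit 78) (nat_lit 0) (nat_lit 0) (XT.lf (nat_lit 0) (nat_lit 627661017603) (nat_lit 76) (nat_lit 1789161793683) (nat_lit 76) (nat_lit 1777375497460) (nat_lit 1) (nat_lit 4) (nat_lit 2) (nat_lit 5) (nat_lit 2) (nat_lit 4) (nat_lit 320) (nat_lit 264) (nat_lit 196)) (XT.lf (nat_lit 0) (nat_lit 765985612778) (nat_lit 76) (nat_lit 2032958310104) (nat_lit 76) (nat_lit 2021171899237) (nat_lit 1) (nat_lit 4) (nat_lit 2) (nat_lit 5) (nat_lit 2) (nat_lit 4) (nat_lit 321) (nat_lit 264) (nat_lit 195))))) (XT.nd (nat_lit 156) (nat_lit 0) (nat_lit 0) (XT.nd (nat_lit 78) (nat_lit 0) (nat_lit 0) (XT.lf (nat_lit 0) (nat_lit 925058094071) (nat_lit 76) (nat_lit 2313324718693) (nat_lit 76) (nat_lit 2301538208137) (nat_lit 1) (nat_lit 4) (nat_lit 2) (nat_lit 5) (nat_lit 2) (nat_lit 4) (nat_lit 322) (nat_lit 264) (nat_lit 194))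 (XT.lf (nat_lit 0) (nat_lit 1107990749160) (nat_lit 76) (nat_lit 2635746449185) (nat_lit 76) (nat_lit 2623959851941) (nat_lit 1) (nat_lit 4) (nat_lit 2) (nat_lit 5) (nat_lit 2) (nat_lit 4) (nat_lit 323) (nat_lit 264) (nat_lit 193))) (XT.nd (nat_lit 78) (nat_lit 0) (nat_lit 0) (XT.lf (nat_lit 0) (nat_lit 1318362695208) (nat_lit 76) (nat_lit 3006531752826) (nat_lit 76) (nat_lit 2994745080202) (nat_lit 1) (nat_lit 4) (nat_lit 2) (nat_lit 5) (nat_lit 2) (nat_lit 4) (nat_lit 324) (nat_lit 264) (nat_lit 192)) (XT.nd (nat_lit 78) (nat_lit 0) (nat_lit 0) (XT.lf (nat_lit 0) (nat_lit 1560289905074) (nat_lit 76) (nat_lit 3432935124689) (nat_lit 76) (nat_lit 3421148386518) (nat_lit 1) (nat_lit 4) (nat_lit 2) (nat_lit 5) (nat_lit 2) (nat_lit 4) (nat_lit 325) (nat_lit 264) (nat_lit 191)) (XT.lf (nat_lit 0) (nat_lit 1838505737212) (nat_lit 76) (nat_lit 3923299239441) (nat_lit 76) (nat_lit 3911512444271)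 (nat_lit 1) (nat_lit 4) (nat_lit 2) (nat_lit 5) (nat_lit 2) (nat_lit 4) (nat_lit 326) (nat_lit 264) (nat_lit 190))))))))
noncomputable def xc57 : XT := (XT.nd (nat_lit 35880) (nat_lit 0) (nat_lit 532) (XT.nd (nat_lit 780) (nat_lit 0) (nat_lit 0) (XT.nd (nat_lit 390) (nat_lit 0) (nat_lit 0) (XT.nd (nat_lit 156) (nat_lit 0) (nat_lit 0) (XT.nd (nat_lit 78) (nat_lit 0) (nat_lit 0) (XT.lf (nat_lit 0) (nat_lit 2158453544858) (nat_lit 76) (nat_lit 4487218177587) (nat_lit 76) (nat_lit 4475431332854) (nat_lit 1) (nat_lit 4) (nat_lit 2) (nat_lit 5) (nat_lit 2) (nat_lit 4) (nat_lit 327) (nat_lit 264) (nat_lit 189)) (XT.lf (nat_lit 0) (nat_lit 2526393176423) (nat_lit 76) (nat_lit 5135725135744) (nat_lit 76) (nat_lit 5123938247912) (nat_lit 1) (nat_lit 4) (nat_lit 2) (nat_lit 5) (nat_lit 2) (nat_lit 4) (nat_lit 328) (nat_lit 264) (nat_lit 188))) (XT.nd (nat_lit 78) (nat_lit 0) (nat_lit 0) (XT.lf (nat_lit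 0) (nat_lit 2949523450787) (nat_lit 76) (nat_lit 5881508293527) (nat_lit 76) (nat_lit 5869721368218) (nat_lit 1) (nat_lit 4) (nat_lit 2) (nat_lit 5) (nat_lit 2) (nat_lit 4) (nat_lit 329) (nat_lit 264) (nat_lit 187)) (XT.nd (nat_lit 78) (nat_lit 0) (nat_lit 0) (XT.lf (nat_lit 0) (nat_lit 3436123003751) (nat_lit 76) (nat_lit 6739159060546) (nat_lit 76) (nat_lit 6727372102647) (nat_lit 1) (nat_lit 4) (nat_lit 2) (nat_lit 5) (nat_lit 2) (nat_lit 4) (nat_lit 330) (nat_lit 264) (nat_lit 186)) (XT.lf (nat_lit 0) (nat_lit 3995712261351) (nat_lit 76) (nat_lit 7725457560502) (nat_lit 76) (nat_lit 7713670574266) (nat_lit 1) (nat_lit 4) (nat_lit 2) (nat_lit 5) (nat_lit 2) (nat_lit 4) (nat_lit 331) (nat_lit 264) (nat_lit 185))))) (XT.nd (nat_lit 156) (nat_lit 0) (nat_lit 0) (XT.nd (nat_lit 78) (nat_lit 0) (nat_lit 0) (XT.lf (nat_lit 0) (nat_lit 4639239709064) (nat_lit 76) (nat_lit 8859700937961) (nat_lit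 76) (nat_lit 8847913927083) (nat_lit 1) (nat_lit 4) (nat_lit 2) (nat_lit 5) (nat_lit 2) (nat_lit 4) (nat_lit 332) (nat_lit 264) (nat_lit 184)) (XT.lf (nat_lit 0) (nat_lit 5379296101300) (nat_lit 76) (nat_lit 10164080911177) (nat_lit 76) (nat_lit 10152293878871) (nat_lit 1) (nat_lit 4) (nat_lit 2) (nat_lit 5) (nat_lit 2) (nat_lit 4) (nat_lit 333) (nat_lit 264) (nat_lit 183))) (XT.nd (nat_lit 78) (nat_lit 0) (nat_lit 0) (XT.lf (nat_lit 0) (nat_lit 6230360802255) (nat_lit 76) (nat_lit 11664117957886) (nat_lit 76) (nat_lit 11652330906947) (nat_lit 1) (nat_lit 4) (nat_lit 2) (nat_lit 5) (nat_lit 2) (nat_lit 4) (nat_lit 334) (nat_lit 264) (nat_lit 182)) (XT.nd (nat_lit 78) (nat_lit 0) (nat_lit 0) (XT.lf (nat_lit 0) (nat_lit 7209085077817) (nat_lit 76) (nat_lit 13389160629003) (nat_lit 76) (nat_lit 13377373561862) (nat_lit 1) (nat_lit 4) (nat_lit 2) (nat_lit 5) (nat_lit 2) (nat_lit 4) (nat_lit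 335) (nat_lit 264) (nat_lit 181)) (XT.lf (nat_lit 0) (nat_lit 8334617881205) (nat_lit 76) (nat_lit 15372959759397) (nat_lit 76) (nat_lit 15361172678167) (nat_lit 1) (nat_lit 4) (nat_lit 2) (nat_lit 5) (nat_lit 2) (nat_lit 4) (nat_lit 336) (nat_lit 264) (nat_lit 180)))))) (XT.nd (nat_lit 390) (nat_lit 0) (nat_lit 0) (XT.nd (nat_lit 156) (nat_lit 0) (nat_lit 0) (XT.nd (nat_lit 78) (nat_lit 0) (nat_lit 0) (XT.lf (nat_lit 0) (nat_lit 9628980506397) (nat_lit 76) (nat_lit 17654328810315) (nat_lit 76) (nat_lit 17642541716834) (nat_lit 1) (nat_lit 4) (nat_lit 2) (nat_lit 5) (nat_lit 2) (nat_lit 4) (nat_lit 337) (nat_lit 264) (nat_lit 179)) (XT.lf (nat_lit 0) (nat_lit 11117497439539) (nat_lit 76) (nat_lit 20277903263189) (nat_lit 76) (nat_lit 20266116159054) (nat_lit 1) (nat_lit 4) (nat_lit 2) (nat_lit 5) (nat_lit 2) (nat_lit 4) (nat_lit 338) (nat_lit 264) (nat_lit 178))) (XT.nd (nat_lit 78) (nat_lit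 0) (nat_lit 0) (XT.lf (nat_lit 0) (nat_lit 12829291838017) (nat_lit 76) (nat_lit 23295013922530) (nat_lit 76) (nat_lit 23283226809131) (nat_lit 1) (nat_lit 4) (nat_lit 2) (nat_lit 5) (nat_lit 2) (nat_lit 4) (nat_lit 339) (nat_lit 264) (nat_lit 177)) (XT.nd (nat_lit 78) (nat_lit 0) (nat_lit 0) (XT.lf (nat_lit 0) (nat_lit 14797855331368) (nat_lit 76) (nat_lit 26764691214283) (nat_lit 76) (nat_lit 26752904092828) (nat_lit 1) (nat_lit 4) (nat_lit 2) (nat_lit 5) (nat_lit 2) (nat_lit 4) (nat_lit 340) (nat_lit 264) (nat_lit 176)) (XT.lf (nat_lit 0) (nat_lit 17061703292288) (nat_lit 76) (nat_lit 30754820128938) (nat_lit 76) (nat_lit 30743033000479) (nat_lit 1) (nat_lit 4) (nat_lit 2) (nat_lit 5) (nat_lit 2) (nat_lit 4) (nat_lit 341) (nat_lit 264) (nat_lit 175))))) (XT.nd (nat_lit 468) (nat_lit 0) (nat_lit 0) (XT.nd (nat_lit 78) (nat_lit 0) (nat_lit 0) (XT.lf (nat_lit 0) (nat_lit 19665128398272)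 (nat_lit 76) (nat_lit 35343468406130) (nat_lit 76) (nat_lit 35331681271579) (nat_lit 1) (nat_lit 4) (nat_lit 2) (nat_lit 5) (nat_lit 2) (nat_lit 4) (nat_lit 342) (nat_lit 264) (nat_lit 174)) (XT.lf (nat_lit 0) (nat_lit 22659067227481) (nat_lit 76) (nat_lit 40620413946934) (nat_lit 76) (nat_lit 40608626807087) (nat_lit 1) (nat_lit 4) (nat_lit 2) (nat_lit 5) (nat_lit 2) (nat_lit 4) (nat_lit 343) (nat_lit 264) (nat_lit 173))) (XT.nd (nat_lit 78) (nat_lit 0) (nat_lit 0) (XT.lf (nat_lit 0) (nat_lit 45873285224641) (nat_lit 76) (nat_lit 81536469719983) (nat_lit 76) (nat_lit 81524682562381) (nat_lit 1) (nat_lit 4) (nat_lit 2) (nat_lit 5) (nat_lit 2) (nat_lit 4) (nat_lit 348) (nat_lit 264) (nat_lit 168)) (XT.nd (nat_lit 34086) (nat_lit 0) (nat_lit 2052) (XT.lf (nat_lit 0) (nat_lit 52798447416313) (nat_lit 76) (nat_lit 93742365541251) (nat_lit 76) (nat_lit 93730578381360) (nat_lit 1) (nat_lit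 4) (nat_lit 2) (nat_lit 5) (nat_lit 2) (nat_lit 4) (nat_lit 349) (nat_lit 264) (nat_lit 167)) (XT.lf (nat_lit 0) (nat_lit 1428643616) (nat_lit 0) (nat_lit 1428643616) (nat_lit 228) (nat_lit 1555907488) (nat_lit 28) (nat_lit 5) (nat_lit 28) (nat_lit 3) (nat_lit 31) (nat_lit 3) (nat_lit 265) (nat_lit 265) (nat_lit 250))))))) (XT.nd (nat_lit 780) (nat_lit 684) (nat_lit 0) (XT.nd (nat_lit 390) (nat_lit 608) (nat_lit 0) (XT.nd (nat_lit 156) (nat_lit 228) (nat_lit 0) (XT.nd (nat_lit 78) (nat_lit 0) (nat_lit 0) (XT.lf (nat_lit 0) (nat_lit 7015820513) (nat_lit 228) (nat_lit 1775578720) (nat_lit 304) (nat_lit 562773176) (nat_lit 28) (nat_lit 5) (nat_lit 31) (nat_lit 3) (nat_lit 32) (nat_lit 5) (nat_lit 266) (nat_lit 265) (nat_lit 249)) (XT.lf (nat_lit 76) (nat_lit 3083698296) (nat_lit 0) (nat_lit 5544604019) (nat_lit 304) (nat_lit 1316000453) (nat_lit 29) (nat_lit 5) (nat_lit 28) (nat_lit 5) (nat_lit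 32) (nat_lit 5) (nat_lit 267) (nat_lit 265) (nat_lit 248))) (XT.nd (nat_lit 78) (nat_lit 228) (nat_lit 0) (XT.lf (nat_lit 76) (nat_lit 8774296668) (nat_lit 0) (nat_lit 1668716124) (nat_lit 304) (nat_lit 186397102) (nat_lit 29) (nat_lit 5) (nat_lit 28) (nat_lit 5) (nat_lit 32) (nat_lit 5) (nat_lit 268) (nat_lit 265) (nat_lit 247)) (XT.nd (nat_lit 78) (nat_lit 0) (nat_lit 0) (XT.lf (nat_lit 0) (nat_lit 1190167648) (nat_lit 304) (nat_lit 7404338408) (nat_lit 76) (nat_lit 2789765865) (nat_lit 25) (nat_lit 5) (nat_lit 29) (nat_lit 5) (nat_lit 26) (nat_lit 5) (nat_lit 269) (nat_lit 265) (nat_lit 246)) (XT.lf (nat_lit 0) (nat_lit 2826783007) (nat_lit 304) (nat_lit 1541721410) (nat_lit 76) (nat_lit 7871965792) (nat_lit 25) (nat_lit 5) (nat_lit 29) (nat_lit 5) (nat_lit 26) (nat_lit 5) (nat_lit 270) (nat_lit 265) (nat_lit 245))))) (XT.nd (nat_lit 156) (nat_lit 304) (nat_lit 0) (XT.nd (nat_lit 78)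 (nat_lit 0) (nat_lit 0) (XT.lf (nat_lit 0) (nat_lit 4878020703) (nat_lit 380) (nat_lit 7632265891) (nat_lit 76) (nat_lit 689734121) (nat_lit 21) (nat_lit 5) (nat_lit 26) (nat_lit 5) (nat_lit 22) (nat_lit 5) (nat_lit 271) (nat_lit 265) (nat_lit 244)) (XT.lf (nat_lit 0) (nat_lit 7443438755) (nat_lit 380) (nat_lit 690285125) (nat_lit 76) (nat_lit 6139059606) (nat_lit 21) (nat_lit 5) (nat_lit 26) (nat_lit 5) (nat_lit 22) (nat_lit 5) (nat_lit 272) (nat_lit 265) (nat_lit 243))) (XT.nd (nat_lit 78) (nat_lit 152) (nat_lit 0) (XT.lf (nat_lit 0) (nat_lit 7906511953) (nat_lit 152) (nat_lit 2739804214) (nat_lit 228) (nat_lit 4822468286) (nat_lit 19) (nat_lit 5) (nat_lit 21) (nat_lit 5) (nat_lit 22) (nat_lit 5) (nat_lit 273) (nat_lit 265) (nat_lit 242)) (XT.nd (nat_lit 78) (nat_lit 76) (nat_lit 0) (XT.lf (nat_lit 0) (nat_lit 867756016) (nat_lit 76) (nat_lit 13609705642) (nat_lit 152) (nat_lit 2344740418)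 (nat_lit 18) (nat_lit 5) (nat_lit 19) (nat_lit 5) (nat_lit 20) (nat_lit 4) (nat_lit 274) (nat_lit 265) (nat_lit 241)) (XT.lf (nat_lit 0) (nat_lit 937052145) (nat_lit 152) (nat_lit 7175702920) (nat_lit 76) (nat_lit 10191288094) (nat_lit 17) (nat_lit 5) (nat_lit 19) (nat_lit 5) (nat_lit 18) (nat_lit 5) (nat_lit 275) (nat_lit 265) (nat_lit 240)))))) (XT.nd (nat_lit 390) (nat_lit 304) (nat_lit 0) (XT.nd (nat_lit 156) (nat_lit 228) (nat_lit 0) (XT.nd (nat_lit 78) (nat_lit 0) (nat_lit 0) (XT.lf (nat_lit 0) (nat_lit 2988742198) (nat_lit 152) (nat_lit 1547586284) (nat_lit 228) (nat_lit 15445419260) (nat_lit 15) (nat_lit 5) (nat_lit 17) (nat_lit 5) (nat_lit 18) (nat_lit 5) (nat_lit 276) (nat_lit 265) (nat_lit 239)) (XT.lf (nat_lit 0) (nat_lit 9261623378) (nat_lit 228) (nat_lit 6725701530) (nat_lit 76) (nat_lit 5835973806) (nat_lit 15) (nat_lit 5) (nat_lit 18) (nat_lit 5) (nat_lit 16) (nat_lit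 4) (nat_lit 277) (nat_lit 265) (nat_lit 238))) (XT.nd (nat_lit 78) (nat_lit 152) (nat_lit 0) (XT.lf (nat_lit 0) (nat_lit 5412700049) (nat_lit 76) (nat_lit 9532685071) (nat_lit 152) (nat_lit 8958341768) (nat_lit 14) (nat_lit 5) (nat_lit 15) (nat_lit 5) (nat_lit 16) (nat_lit 4) (nat_lit 278) (nat_lit 265) (nat_lit 237)) (XT.nd (nat_lit 78) (nat_lit 152) (nat_lit 0) (XT.lf (nat_lit 0) (nat_lit 20054067719) (nat_lit 76) (nat_lit 1734293735) (nat_lit 152) (nat_lit 4461943282) (nat_lit 14) (nat_lit 5) (nat_lit 15) (nat_lit 5) (nat_lit 16) (nat_lit 4) (nat_lit 279) (nat_lit 265) (nat_lit 236)) (XT.lf (nat_lit 0) (nat_lit 1278212934) (nat_lit 152) (nat_lit 20601995133) (nat_lit 76) (nat_lit 6969459184) (nat_lit 12) (nat_lit 5) (nat_lit 14) (nat_lit 5) (nat_lit 13) (nat_lit 4) (nat_lit 280) (nat_lit 265) (nat_lit 235))))) (XT.nd (nat_lit 234) (nat_lit 228) (nat_lit 0) (XT.nd (nat_lit 78) (nat_lit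 76) (nat_lit 0) (XT.lf (nat_lit 0) (nat_lit 7805038352) (nat_lit 152) (nat_lit 6616024816) (nat_lit 76) (nat_lit 17328684960) (nat_lit 12) (nat_lit 5) (nat_lit 14) (nat_lit 5) (nat_lit 13) (nat_lit 4) (nat_lit 281) (nat_lit 265) (nat_lit 234)) (XT.nd (nat_lit 78) (nat_lit 0) (nat_lit 0) (XT.lf (nat_lit 0) (nat_lit 10326544459) (nat_lit 76) (nat_lit 5377648188) (nat_lit 152) (nat_lit 19321700183) (nat_lit 11) (nat_lit 5) (nat_lit 12) (nat_lit 5) (nat_lit 13) (nat_lit 4) (nat_lit 282) (nat_lit 265) (nat_lit 233)) (XT.lf (nat_lit 0) (nat_lit 25325206895) (nat_lit 152) (nat_lit 8473656011) (nat_lit 0) (nat_lit 4914089576) (nat_lit 11) (nat_lit 5) (nat_lit 13) (nat_lit 4) (nat_lit 11) (nat_lit 4) (nat_lit 283) (nat_lit 265) (nat_lit 232)))) (XT.nd (nat_lit 78) (nat_lit 152) (nat_lit 0) (XT.lf (nat_lit 0) (nat_lit 10841337133) (nat_lit 76) (nat_lit 26224091128) (nat_lit 76) (nat_lit 5786270456)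 (nat_lit 10) (nat_lit 4) (nat_lit 11) (nat_lit 5) (nat_lit 11) (nat_lit 4) (nat_lit 284) (nat_lit 265) (nat_lit 231)) (XT.nd (nat_lit 78) (nat_lit 76) (nat_lit 0) (XT.lf (nat_lit 0) (nat_lit 3127733564) (nat_lit 152) (nat_lit 13736413813) (nat_lit 76) (nat_lit 30663466949) (nat_lit 9) (nat_lit 5) (nat_lit 11) (nat_lit 5) (nat_lit 10) (nat_lit 4) (nat_lit 285) (nat_lit 265) (nat_lit 230)) (XT.lf (nat_lit 0) (nat_lit 7635907787) (nat_lit 76) (nat_lit 5441831903) (nat_lit 152) (nat_lit 39742174869) (nat_lit 8) (nat_lit 5) (nat_lit 9) (nat_lit 5) (nat_lit 10) (nat_lit 4) (nat_lit 286) (nat_lit 265) (nat_lit 229))))))))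
noncomputable def xc58 : XT := (XT.nd (nat_lit 1560) (nat_lit 76) (nat_lit 0) (XT.nd (nat_lit 780) (nat_lit 152) (nat_lit 0) (XT.nd (nat_lit 390) (nat_lit 76) (nat_lit 0) (XT.nd (nat_lit 156) (nat_lit 228) (nat_lit 0) (XT.nd (nat_lit 78) (nat_lit 0) (nat_lit 0) (XT.lf (nat_lit 0) (nat_lit 25566686883) (nat_lit 152) (nat_lit 25440775718) (nat_lit 0) (nat_lit 7741651720) (nat_lit 8) (nat_lit 5) (nat_lit 10) (nat_lit 4) (nat_lit 8) (nat_lit 4) (nat_lit 287) (nat_lit 265) (nat_lit 228)) (XT.lf (nat_lit 0) (nat_lit 40166913468) (nat_lit 152) (nat_lit 3036505803) (nat_lit 0) (nat_lit 22328602020) (nat_lit 8) (nat_lit 5) (nat_lit 10) (nat_lit 4) (nat_lit 8) (nat_lit 4) (nat_lit 288) (nat_lit 265) (nat_lit 227))) (XT.nd (nat_lit 78) (nat_lit 152) (nat_lit 0) (XT.lf (nat_lit 0) (nat_lit 24910156420) (nat_lit 76) (nat_lit 33060061435) (nat_lit 76) (nat_lit 15210205391) (nat_lit 7) (nat_lit 4) (nat_lit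 8) (nat_lit 5) (nat_lit 8) (nat_lit 4) (nat_lit 289) (nat_lit 265) (nat_lit 226)) (XT.nd (nat_lit 78) (nat_lit 152) (nat_lit 0) (XT.lf (nat_lit 0) (nat_lit 57355790106) (nat_lit 76) (nat_lit 21229505987) (nat_lit 76) (nat_lit 3369611164) (nat_lit 7) (nat_lit 4) (nat_lit 8) (nat_lit 5) (nat_lit 8) (nat_lit 4) (nat_lit 290) (nat_lit 265) (nat_lit 225)) (XT.lf (nat_lit 0) (nat_lit 2378790165) (nat_lit 76) (nat_lit 7038611863) (nat_lit 152) (nat_lit 82552136370) (nat_lit 5) (nat_lit 5) (nat_lit 6) (nat_lit 5) (nat_lit 7) (nat_lit 4) (nat_lit 291) (nat_lit 265) (nat_lit 224))))) (XT.nd (nat_lit 156) (nat_lit 76) (nat_lit 0) (XT.nd (nat_lit 78) (nat_lit 0) (nat_lit 0) (XT.lf (nat_lit 0) (nat_lit 25493193036) (nat_lit 152) (nat_lit 67763096626) (nat_lit 0) (nat_lit 9948658292) (nat_lit 5) (nat_lit 5) (nat_lit 7) (nat_lit 4) (nat_lit 5) (nat_lit 4) (nat_lit 292) (nat_lit 265) (nat_lit 223)) (XT.lf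 (nat_lit 0) (nat_lit 44301883270) (nat_lit 152) (nat_lit 43023954978) (nat_lit 0) (nat_lit 28751608821) (nat_lit 5) (nat_lit 5) (nat_lit 7) (nat_lit 4) (nat_lit 5) (nat_lit 4) (nat_lit 293) (nat_lit 265) (nat_lit 222))) (XT.nd (nat_lit 78) (nat_lit 76) (nat_lit 0) (XT.lf (nat_lit 0) (nat_lit 65920014936) (nat_lit 152) (nat_lit 14597842697) (nat_lit 0) (nat_lit 50364749440) (nat_lit 5) (nat_lit 5) (nat_lit 7) (nat_lit 4) (nat_lit 5) (nat_lit 4) (nat_lit 294) (nat_lit 265) (nat_lit 221)) (XT.nd (nat_lit 78) (nat_lit 0) (nat_lit 0) (XT.lf (nat_lit 0) (nat_lit 19837472239) (nat_lit 76) (nat_lit 71754506664) (nat_lit 76) (nat_lit 56194901126) (nat_lit 4) (nat_lit 4) (nat_lit 5) (nat_lit 5) (nat_lit 5) (nat_lit 4) (nat_lit 295) (nat_lit 265) (nat_lit 220)) (XT.lf (nat_lit 0) (nat_lit 61058844420) (nat_lit 76) (nat_lit 60809171173) (nat_lit 76) (nat_lit 45245791687) (nat_lit 4) (nat_lit 4) (nat_lit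 5) (nat_lit 5) (nat_lit 5) (nat_lit 4) (nat_lit 296) (nat_lit 265) (nat_lit 219)))))) (XT.nd (nat_lit 390) (nat_lit 0) (nat_lit 0) (XT.nd (nat_lit 156) (nat_lit 152) (nat_lit 0) (XT.nd (nat_lit 78) (nat_lit 0) (nat_lit 0) (XT.lf (nat_lit 0) (nat_lit 108446171597) (nat_lit 76) (nat_lit 48230772344) (nat_lit 76) (nat_lit 32664111162) (nat_lit 4) (nat_lit 4) (nat_lit 5) (nat_lit 5) (nat_lit 5) (nat_lit 4) (nat_lit 297) (nat_lit 265) (nat_lit 218)) (XT.lf (nat_lit 0) (nat_lit 162926597130) (nat_lit 76) (nat_lit 33773211068) (nat_lit 76) (nat_lit 18203696239) (nat_lit 4) (nat_lit 4) (nat_lit 5) (nat_lit 5) (nat_lit 5) (nat_lit 4) (nat_lit 298) (nat_lit 265) (nat_lit 217))) (XT.nd (nat_lit 78) (nat_lit 152) (nat_lit 0) (XT.lf (nat_lit 0) (nat_lit 225566042387) (nat_lit 76) (nat_lit 17153622017) (nat_lit 76) (nat_lit 1581625756) (nat_lit 4) (nat_lit 4) (nat_lit 5) (nat_lit 5) (nat_lit 5) (nat_lit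 4) (nat_lit 299) (nat_lit 265) (nat_lit 216)) (XT.nd (nat_lit 78) (nat_lit 0) (nat_lit 0) (XT.lf (nat_lit 0) (nat_lit 16975429855) (nat_lit 152) (nat_lit 257441326268) (nat_lit 0) (nat_lit 3432687221) (nat_lit 2) (nat_lit 5) (nat_lit 4) (nat_lit 4) (nat_lit 2) (nat_lit 4) (nat_lit 300) (nat_lit 265) (nat_lit 215)) (XT.lf (nat_lit 0) (nat_lit 39991119123) (nat_lit 152) (nat_lit 249705109792) (nat_lit 0) (nat_lit 26446744907) (nat_lit 2) (nat_lit 5) (nat_lit 4) (nat_lit 4) (nat_lit 2) (nat_lit 4) (nat_lit 301) (nat_lit 265) (nat_lit 214))))) (XT.nd (nat_lit 156) (nat_lit 0) (nat_lit 0) (XT.nd (nat_lit 78) (nat_lit 0) (nat_lit 0) (XT.lf (nat_lit 0) (nat_lit 66454106710) (nat_lit 152) (nat_lit 240818873603) (nat_lit 0) (nat_lit 52908313726) (nat_lit 2) (nat_lit 5) (nat_lit 4) (nat_lit 4) (nat_lit 2) (nat_lit 4) (nat_lit 302) (nat_lit 265) (nat_lit 213)) (XT.lf (nat_lit 0) (nat_lit 96882146720)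 (nat_lit 152) (nat_lit 230608756558) (nat_lit 0) (nat_lit 83335120026) (nat_lit 2) (nat_lit 5) (nat_lit 4) (nat_lit 4) (nat_lit 2) (nat_lit 4) (nat_lit 303) (nat_lit 265) (nat_lit 212))) (XT.nd (nat_lit 78) (nat_lit 0) (nat_lit 0) (XT.lf (nat_lit 0) (nat_lit 131870570371) (nat_lit 152) (nat_lit 218874995496) (nat_lit 0) (nat_lit 118322470885) (nat_lit 2) (nat_lit 5) (nat_lit 4) (nat_lit 4) (nat_lit 2) (nat_lit 4) (nat_lit 304) (nat_lit 265) (nat_lit 211)) (XT.nd (nat_lit 78) (nat_lit 0) (nat_lit 0) (XT.lf (nat_lit 0) (nat_lit 172103933778) (nat_lit 152) (nat_lit 205388016834) (nat_lit 0) (nat_lit 158554901430) (nat_lit 2) (nat_lit 5) (nat_lit 4) (nat_lit 4) (nat_lit 2) (nat_lit 4) (nat_lit 305) (nat_lit 265) (nat_lit 210)) (XT.lf (nat_lit 0) (nat_lit 218369411443) (nat_lit 152) (nat_lit 189883944899) (nat_lit 0) (nat_lit 204819567910) (nat_lit 2) (nat_lit 5) (nat_lit 4) (nat_lit 4) (nat_lit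 2) (nat_lit 4) (nat_lit 306) (nat_lit 265) (nat_lit 209))))))) (XT.nd (nat_lit 780) (nat_lit 0) (nat_lit 0) (XT.nd (nat_lit 390) (nat_lit 76) (nat_lit 0) (XT.nd (nat_lit 156) (nat_lit 0) (nat_lit 0) (XT.nd (nat_lit 78) (nat_lit 0) (nat_lit 0) (XT.lf (nat_lit 0) (nat_lit 271572197493) (nat_lit 152) (nat_lit 172059439156) (nat_lit 0) (nat_lit 258021648582) (nat_lit 2) (nat_lit 5) (nat_lit 4) (nat_lit 4) (nat_lit 2) (nat_lit 4) (nat_lit 307) (nat_lit 265) (nat_lit 208)) (XT.lf (nat_lit 0) (nat_lit 332753216004) (nat_lit 152) (nat_lit 151565759274) (nat_lit 0) (nat_lit 319202053721) (nat_lit 2) (nat_lit 5) (nat_lit 4) (nat_lit 4) (nat_lit 2) (nat_lit 4) (nat_lit 308) (nat_lit 265) (nat_lit 207))) (XT.nd (nat_lit 78) (nat_lit 0) (nat_lit 0) (XT.lf (nat_lit 0) (nat_lit 403109486903) (nat_lit 152) (nat_lit 128001941951) (nat_lit 0) (nat_lit 389557791253) (nat_lit 2) (nat_lit 5) (nat_lit 4) (nat_lit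 4) (nat_lit 2) (nat_lit 4) (nat_lit 309) (nat_lit 265) (nat_lit 206)) (XT.nd (nat_lit 78) (nat_lit 0) (nat_lit 0) (XT.lf (nat_lit 0) (nat_lit 484017545925) (nat_lit 152) (nat_lit 100906955979) (nat_lit 0) (nat_lit 470465386477) (nat_lit 2) (nat_lit 5) (nat_lit 4) (nat_lit 4) (nat_lit 2) (nat_lit 4) (nat_lit 310) (nat_lit 265) (nat_lit 205)) (XT.lf (nat_lit 0) (nat_lit 577060376834) (nat_lit 152) (nat_lit 69750682066) (nat_lit 0) (nat_lit 563507814083) (nat_lit 2) (nat_lit 5) (nat_lit 4) (nat_lit 4) (nat_lit 2) (nat_lit 4) (nat_lit 311) (nat_lit 265) (nat_lit 204))))) (XT.nd (nat_lit 156) (nat_lit 0) (nat_lit 0) (XT.nd (nat_lit 78) (nat_lit 76) (nat_lit 0) (XT.lf (nat_lit 0) (nat_lit 684058382842) (nat_lit 152) (nat_lit 33923540942) (nat_lit 0) (nat_lit 670505469394) (nat_lit 2) (nat_lit 5) (nat_lit 4) (nat_lit 4) (nat_lit 2) (nat_lit 4) (nat_lit 312) (nat_lit 265) (nat_lit 203)) (XT.lf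 (nat_lit 0) (nat_lit 7986441444) (nat_lit 76) (nat_lit 799449263263) (nat_lit 76) (nat_lit 785896044861) (nat_lit 1) (nat_lit 4) (nat_lit 2) (nat_lit 5) (nat_lit 2) (nat_lit 4) (nat_lit 313) (nat_lit 265) (nat_lit 202))) (XT.nd (nat_lit 78) (nat_lit 0) (nat_lit 0) (XT.lf (nat_lit 0) (nat_lit 59993328178) (nat_lit 76) (nat_lit 891098539383) (nat_lit 76) (nat_lit 877545055804) (nat_lit 1) (nat_lit 4) (nat_lit 2) (nat_lit 5) (nat_lit 2) (nat_lit 4) (nat_lit 314) (nat_lit 265) (nat_lit 201)) (XT.nd (nat_lit 78) (nat_lit 0) (nat_lit 0) (XT.lf (nat_lit 0) (nat_lit 119799390169) (nat_lit 76) (nat_lit 996496166160) (nat_lit 76) (nat_lit 982942451991) (nat_lit 1) (nat_lit 4) (nat_lit 2) (nat_lit 5) (nat_lit 2) (nat_lit 4) (nat_lit 315) (nat_lit 265) (nat_lit 200)) (XT.lf (nat_lit 0) (nat_lit 188574746019) (nat_lit 76) (nat_lit 1117704271074) (nat_lit 76) (nat_lit 1104150356393) (nat_lit 1) (nat_lit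 4) (nat_lit 2) (nat_lit 5) (nat_lit 2) (nat_lit 4) (nat_lit 316) (nat_lit 265) (nat_lit 199)))))) (XT.nd (nat_lit 390) (nat_lit 0) (nat_lit 0) (XT.nd (nat_lit 156) (nat_lit 0) (nat_lit 0) (XT.nd (nat_lit 78) (nat_lit 0) (nat_lit 0) (XT.lf (nat_lit 0) (nat_lit 267665000518) (nat_lit 76) (nat_lit 1257094317047) (nat_lit 76) (nat_lit 1243540228007) (nat_lit 1) (nat_lit 4) (nat_lit 2) (nat_lit 5) (nat_lit 2) (nat_lit 4) (nat_lit 317) (nat_lit 265) (nat_lit 198)) (XT.lf (nat_lit 0) (nat_lit 358617571688) (nat_lit 76) (nat_lit 1417393500630) (nat_lit 76) (nat_lit 1403839259974) (nat_lit 1) (nat_lit 4) (nat_lit 2) (nat_lit 5) (nat_lit 2) (nat_lit 4) (nat_lit 318) (nat_lit 265) (nat_lit 197))) (XT.nd (nat_lit 78) (nat_lit 0) (nat_lit 0) (XT.lf (nat_lit 0) (nat_lit 463211966357) (nat_lit 76) (nat_lit 1601738110199) (nat_lit 76) (nat_lit 1588183737702) (nat_lit 1) (nat_lit 4) (nat_lit 2) (nat_lit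 5) (nat_lit 2) (nat_lit 4) (nat_lit 319) (nat_lit 265) (nat_lit 196)) (XT.nd (nat_lit 78) (nat_lit 0) (nat_lit 0) (XT.lf (nat_lit 0) (nat_lit 583494596593) (nat_lit 76) (nat_lit 1813734888114) (nat_lit 76) (nat_lit 1800180400974) (nat_lit 1) (nat_lit 4) (nat_lit 2) (nat_lit 5) (nat_lit 2) (nat_lit 4) (nat_lit 320) (nat_lit 265) (nat_lit 195)) (XT.lf (nat_lit 0) (nat_lit 721818818206) (nat_lit 76) (nat_lit 2057531597421) (nat_lit 76) (nat_lit 2043977010591) (nat_lit 1) (nat_lit 4) (nat_lit 2) (nat_lit 5) (nat_lit 2) (nat_lit 4) (nat_lit 321) (nat_lit 265) (nat_lit 194))))) (XT.nd (nat_lit 156) (nat_lit 0) (nat_lit 0) (XT.nd (nat_lit 78) (nat_lit 0) (nat_lit 0) (XT.lf (nat_lit 0) (nat_lit 880890974663) (nat_lit 76) (nat_lit 2337898173738) (nat_lit 76) (nat_lit 2324343500220) (nat_lit 1) (nat_lit 4) (nat_lit 2) (nat_lit 5) (nat_lit 2) (nat_lit 4) (nat_lit 322) (nat_lit 265) (nat_lit 193))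 (XT.lf (nat_lit 0) (nat_lit 1063823347284) (nat_lit 76) (nat_lit 2660320050079) (nat_lit 76) (nat_lit 2646765301181) (nat_lit 1) (nat_lit 4) (nat_lit 2) (nat_lit 5) (nat_lit 2) (nat_lit 4) (nat_lit 323) (nat_lit 265) (nat_lit 192))) (XT.nd (nat_lit 78) (nat_lit 0) (nat_lit 0) (XT.lf (nat_lit 0) (nat_lit 1274195047710) (nat_lit 76) (nat_lit 3031105480546) (nat_lit 76) (nat_lit 3017550666100) (nat_lit 1) (nat_lit 4) (nat_lit 2) (nat_lit 5) (nat_lit 2) (nat_lit 4) (nat_lit 324) (nat_lit 265) (nat_lit 191)) (XT.nd (nat_lit 78) (nat_lit 0) (nat_lit 0) (XT.lf (nat_lit 0) (nat_lit 1516122043990) (nat_lit 76) (nat_lit 3457508962692) (nat_lit 76) (nat_lit 3443954091249) (nat_lit 1) (nat_lit 4) (nat_lit 2) (nat_lit 5) (nat_lit 2) (nat_lit 4) (nat_lit 325) (nat_lit 265) (nat_lit 190)) (XT.lf (nat_lit 0) (nat_lit 1794337690401) (nat_lit 76) (nat_lit 3947873173343) (nat_lit 76) (nat_lit 3934318252335)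 (nat_lit 1) (nat_lit 4) (nat_lit 2) (nat_lit 5) (nat_lit 2) (nat_lit 4) (nat_lit 326) (nat_lit 265) (nat_lit 189))))))))
noncomputable def xc59 : XT := (XT.nd (nat_lit 1794) (nat_lit 0) (nat_lit 0) (XT.nd (nat_lit 780) (nat_lit 0) (nat_lit 0) (XT.nd (nat_lit 390) (nat_lit 0) (nat_lit 0) (XT.nd (nat_lit 156) (nat_lit 0) (nat_lit 0) (XT.nd (nat_lit 78) (nat_lit 0) (nat_lit 0) (XT.lf (nat_lit 0) (nat_lit 2114285336546) (nat_lit 76) (nat_lit 4511792194879) (nat_lit 76) (nat_lit 4498237230773) (nat_lit 1) (nat_lit 4) (nat_lit 2) (nat_lit 5) (nat_lit 2) (nat_lit 4) (nat_lit 327) (nat_lit 265) (nat_lit 188)) (XT.lf (nat_lit 0) (nat_lit 2482224827676) (nat_lit 76) (nat_lit 5160299225549) (nat_lit 76) (nat_lit 5146744223965) (nat_lit 1) (nat_lit 4) (nat_lit 2) (nat_lit 5) (nat_lit 2) (nat_lit 4) (nat_lit 328) (nat_lit 265) (nat_lit 187))) (XT.nd (nat_lit 78) (nat_lit 0) (nat_lit 0) (XT.lf (nat_lit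 0) (nat_lit 2905354979921) (nat_lit 76) (nat_lit 5906082446387) (nat_lit 76) (nat_lit 5892527412215) (nat_lit 1) (nat_lit 4) (nat_lit 2) (nat_lit 5) (nat_lit 2) (nat_lit 4) (nat_lit 329) (nat_lit 265) (nat_lit 186)) (XT.nd (nat_lit 78) (nat_lit 0) (nat_lit 0) (XT.lf (nat_lit 0) (nat_lit 3391954426696) (nat_lit 76) (nat_lit 6763733268236) (nat_lit 76) (nat_lit 6750178205725) (nat_lit 1) (nat_lit 4) (nat_lit 2) (nat_lit 5) (nat_lit 2) (nat_lit 4) (nat_lit 330) (nat_lit 265) (nat_lit 185)) (XT.lf (nat_lit 0) (nat_lit 3951543591957) (nat_lit 76) (nat_lit 7750031815871) (nat_lit 76) (nat_lit 7736476728718) (nat_lit 1) (nat_lit 4) (nat_lit 2) (nat_lit 5) (nat_lit 2) (nat_lit 4) (nat_lit 331) (nat_lit 265) (nat_lit 184))))) (XT.nd (nat_lit 156) (nat_lit 0) (nat_lit 0) (XT.nd (nat_lit 78) (nat_lit 0) (nat_lit 0) (XT.lf (nat_lit 0) (nat_lit 4595070959375) (nat_lit 76) (nat_lit 8884275234789) (nat_lit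 76) (nat_lit 8870720126209) (nat_lit 1) (nat_lit 4) (nat_lit 2) (nat_lit 5) (nat_lit 2) (nat_lit 4) (nat_lit 332) (nat_lit 265) (nat_lit 183)) (XT.lf (nat_lit 0) (nat_lit 5335127281790) (nat_lit 76) (nat_lit 10188655244056) (nat_lit 76) (nat_lit 10175100116844) (nat_lit 1) (nat_lit 4) (nat_lit 2) (nat_lit 5) (nat_lit 2) (nat_lit 4) (nat_lit 333) (nat_lit 265) (nat_lit 182))) (XT.nd (nat_lit 78) (nat_lit 0) (nat_lit 0) (XT.lf (nat_lit 0) (nat_lit 6186191922030) (nat_lit 76) (nat_lit 11688692322115) (nat_lit 76) (nat_lit 11675137178700) (nat_lit 1) (nat_lit 4) (nat_lit 2) (nat_lit 5) (nat_lit 2) (nat_lit 4) (nat_lit 334) (nat_lit 265) (nat_lit 181)) (XT.nd (nat_lit 78) (nat_lit 0) (nat_lit 0) (XT.lf (nat_lit 0) (nat_lit 7164916144798) (nat_lit 76) (nat_lit 13413735020492) (nat_lit 76) (nat_lit 13400179862988) (nat_lit 1) (nat_lit 4) (nat_lit 2) (nat_lit 5) (nat_lit 2) (nat_lit 4) (nat_lit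 335) (nat_lit 265) (nat_lit 180)) (XT.lf (nat_lit 0) (nat_lit 8290448902277) (nat_lit 76) (nat_lit 15397534174591) (nat_lit 76) (nat_lit 15383979004836) (nat_lit 1) (nat_lit 4) (nat_lit 2) (nat_lit 5) (nat_lit 2) (nat_lit 4) (nat_lit 336) (nat_lit 265) (nat_lit 179)))))) (XT.nd (nat_lit 390) (nat_lit 0) (nat_lit 0) (XT.nd (nat_lit 156) (nat_lit 0) (nat_lit 0) (XT.nd (nat_lit 78) (nat_lit 0) (nat_lit 0) (XT.lf (nat_lit 0) (nat_lit 9584811487548) (nat_lit 76) (nat_lit 17678903246122) (nat_lit 76) (nat_lit 17665348065713) (nat_lit 1) (nat_lit 4) (nat_lit 2) (nat_lit 5) (nat_lit 2) (nat_lit 4) (nat_lit 337) (nat_lit 265) (nat_lit 178)) (XT.lf (nat_lit 0) (nat_lit 11073328385976) (nat_lit 76) (nat_lit 20302477716920) (nat_lit 76) (nat_lit 20288922527247) (nat_lit 1) (nat_lit 4) (nat_lit 2) (nat_lit 5) (nat_lit 2) (nat_lit 4) (nat_lit 338) (nat_lit 265) (nat_lit 177))) (XT.nd (nat_lit 78) (nat_lit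 0) (nat_lit 0) (XT.lf (nat_lit 0) (nat_lit 12785122754269) (nat_lit 76) (nat_lit 23319588391847) (nat_lit 76) (nat_lit 23306033194119) (nat_lit 1) (nat_lit 4) (nat_lit 2) (nat_lit 5) (nat_lit 2) (nat_lit 4) (nat_lit 339) (nat_lit 265) (nat_lit 176)) (XT.nd (nat_lit 78) (nat_lit 0) (nat_lit 0) (XT.lf (nat_lit 0) (nat_lit 14753686221372) (nat_lit 76) (nat_lit 26789265697153) (nat_lit 76) (nat_lit 26775710492420) (nat_lit 1) (nat_lit 4) (nat_lit 2) (nat_lit 5) (nat_lit 2) (nat_lit 4) (nat_lit 340) (nat_lit 265) (nat_lit 175)) (XT.lf (nat_lit 0) (nat_lit 17017534159466) (nat_lit 76) (nat_lit 30779394623593) (nat_lit 76) (nat_lit 30765839412769) (nat_lit 1) (nat_lit 4) (nat_lit 2) (nat_lit 5) (nat_lit 2) (nat_lit 4) (nat_lit 341) (nat_lit 265) (nat_lit 174))))) (XT.nd (nat_lit 390) (nat_lit 0) (nat_lit 0) (XT.nd (nat_lit 78) (nat_lit 0) (nat_lit 0) (XT.lf (nat_lit 0) (nat_lit 19620959245603)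 (nat_lit 76) (nat_lit 35368042911034) (nat_lit 76) (nat_lit 35354487694913) (nat_lit 1) (nat_lit 4) (nat_lit 2) (nat_lit 5) (nat_lit 2) (nat_lit 4) (nat_lit 342) (nat_lit 265) (nat_lit 173)) (XT.lf (nat_lit 0) (nat_lit 22614898057554) (nat_lit 76) (nat_lit 40644988460749) (nat_lit 76) (nat_lit 40631433240023) (nat_lit 1) (nat_lit 4) (nat_lit 2) (nat_lit 5) (nat_lit 2) (nat_lit 4) (nat_lit 343) (nat_lit 265) (nat_lit 172))) (XT.nd (nat_lit 78) (nat_lit 0) (nat_lit 0) (XT.lf (nat_lit 0) (nat_lit 39807235822726) (nat_lit 76) (nat_lit 70947221814247) (nat_lit 76) (nat_lit 70933666580372) (nat_lit 1) (nat_lit 4) (nat_lit 2) (nat_lit 5) (nat_lit 2) (nat_lit 4) (nat_lit 347) (nat_lit 265) (nat_lit 168)) (XT.nd (nat_lit 78) (nat_lit 0) (nat_lit 0) (XT.lf (nat_lit 0) (nat_lit 45829115996859) (nat_lit 76) (nat_lit 81561044263671) (nat_lit 76) (nat_lit 81547489027506) (nat_lit 1) (nat_lit 4) (nat_lit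 2) (nat_lit 5) (nat_lit 2) (nat_lit 4) (nat_lit 348) (nat_lit 265) (nat_lit 167)) (XT.lf (nat_lit 0) (nat_lit 52754278181069) (nat_lit 76) (nat_lit 93766940088792) (nat_lit 76) (nat_lit 93753384850635) (nat_lit 1) (nat_lit 4) (nat_lit 2) (nat_lit 5) (nat_lit 2) (nat_lit 4) (nat_lit 349) (nat_lit 265) (nat_lit 166))))))) (XT.nd (nat_lit 34788) (nat_lit 0) (nat_lit 684) (XT.nd (nat_lit 34398) (nat_lit 0) (nat_lit 1368) (XT.nd (nat_lit 34164) (nat_lit 0) (nat_lit 1748) (XT.nd (nat_lit 34086) (nat_lit 0) (nat_lit 2052) (XT.lf (nat_lit 0) (nat_lit 60718214678962) (nat_lit 76) (nat_lit 107803720294883) (nat_lit 76) (nat_lit 107790165054995) (nat_lit 1) (nat_lit 4) (nat_lit 2) (nat_lit 5) (nat_lit 2) (nat_lit 4) (nat_lit 350) (nat_lit 265) (nat_lit 165)) (XT.lf (nat_lit 0) (nat_lit 2048938610) (nat_lit 0) (nat_lit 2048938610) (nat_lit 228) (nat_lit 852335451) (nat_lit 28) (nat_lit 5) (nat_lit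 28) (nat_lit 3) (nat_lit 31) (nat_lit 3) (nat_lit 266) (nat_lit 266) (nat_lit 248))) (XT.nd (nat_lit 78) (nat_lit 304) (nat_lit 0) (XT.lf (nat_lit 0) (nat_lit 9451124674) (nat_lit 228) (nat_lit 1089269896) (nat_lit 304) (nat_lit 3965393) (nat_lit 28) (nat_lit 5) (nat_lit 31) (nat_lit 3) (nat_lit 32) (nat_lit 5) (nat_lit 267) (nat_lit 266) (nat_lit 247)) (XT.nd (nat_lit 78) (nat_lit 304) (nat_lit 0) (XT.lf (nat_lit 76) (nat_lit 4455596599) (nat_lit 0) (nat_lit 6707153810) (nat_lit 304) (nat_lit 82385931) (nat_lit 29) (nat_lit 5) (nat_lit 28) (nat_lit 5) (nat_lit 32) (nat_lit 5) (nat_lit 268) (nat_lit 266) (nat_lit 246)) (XT.lf (nat_lit 0) (nat_lit 938305779) (nat_lit 304) (nat_lit 1219373602) (nat_lit 380) (nat_lit 9893821116) (nat_lit 24) (nat_lit 5) (nat_lit 28) (nat_lit 5) (nat_lit 29) (nat_lit 5) (nat_lit 269) (nat_lit 266) (nat_lit 245))))) (XT.nd (nat_lit 156) (nat_lit 456) (nat_lit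 0) (XT.nd (nat_lit 78) (nat_lit 0) (nat_lit 0) (XT.lf (nat_lit 0) (nat_lit 2383667430) (nat_lit 304) (nat_lit 7488110444) (nat_lit 76) (nat_lit 3064744772) (nat_lit 25) (nat_lit 5) (nat_lit 29) (nat_lit 5) (nat_lit 26) (nat_lit 5) (nat_lit 270) (nat_lit 266) (nat_lit 244)) (XT.lf (nat_lit 0) (nat_lit 4133387097) (nat_lit 304) (nat_lit 880041600) (nat_lit 76) (nat_lit 8927990250) (nat_lit 25) (nat_lit 5) (nat_lit 29) (nat_lit 5) (nat_lit 26) (nat_lit 5) (nat_lit 271) (nat_lit 266) (nat_lit 243))) (XT.nd (nat_lit 78) (nat_lit 152) (nat_lit 0) (XT.lf (nat_lit 0) (nat_lit 6414537830) (nat_lit 380) (nat_lit 7804017920) (nat_lit 76) (nat_lit 838368752) (nat_lit 21) (nat_lit 5) (nat_lit 26) (nat_lit 5) (nat_lit 22) (nat_lit 5) (nat_lit 272) (nat_lit 266) (nat_lit 242)) (XT.nd (nat_lit 78) (nat_lit 0) (nat_lit 0) (XT.lf (nat_lit 0) (nat_lit 57450058) (nat_lit 152) (nat_lit 9204721674) (nat_lit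 228) (nat_lit 7044129557) (nat_lit 19) (nat_lit 5) (nat_lit 21) (nat_lit 5) (nat_lit 22) (nat_lit 5) (nat_lit 273) (nat_lit 266) (nat_lit 241)) (XT.lf (nat_lit 0) (nat_lit 9900190128) (nat_lit 152) (nat_lit 2985073683) (nat_lit 228) (nat_lit 4805740761) (nat_lit 19) (nat_lit 5) (nat_lit 21) (nat_lit 5) (nat_lit 22) (nat_lit 5) (nat_lit 274) (nat_lit 266) (nat_lit 240)))))) (XT.nd (nat_lit 390) (nat_lit 304) (nat_lit 0) (XT.nd (nat_lit 156) (nat_lit 228) (nat_lit 0) (XT.nd (nat_lit 78) (nat_lit 76) (nat_lit 0) (XT.lf (nat_lit 0) (nat_lit 1855996217) (nat_lit 76) (nat_lit 15392843254) (nat_lit 152) (nat_lit 2005166073) (nat_lit 18) (nat_lit 5) (nat_lit 19) (nat_lit 5) (nat_lit 20) (nat_lit 4) (nat_lit 275) (nat_lit 266) (nat_lit 239)) (XT.lf (nat_lit 0) (nat_lit 1625212055) (nat_lit 152) (nat_lit 7451207064) (nat_lit 76) (nat_lit 11889908304) (nat_lit 17) (nat_lit 5) (nat_lit 19) (nat_lit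 5) (nat_lit 18) (nat_lit 5) (nat_lit 276) (nat_lit 266) (nat_lit 238))) (XT.nd (nat_lit 78) (nat_lit 76) (nat_lit 0) (XT.lf (nat_lit 0) (nat_lit 4201502490) (nat_lit 152) (nat_lit 1523105195) (nat_lit 228) (nat_lit 17177199994) (nat_lit 15) (nat_lit 5) (nat_lit 17) (nat_lit 5) (nat_lit 18) (nat_lit 5) (nat_lit 277) (nat_lit 266) (nat_lit 237)) (XT.nd (nat_lit 78) (nat_lit 76) (nat_lit 0) (XT.lf (nat_lit 0) (nat_lit 11101698169) (nat_lit 228) (nat_lit 7011926202) (nat_lit 76) (nat_lit 6914650774) (nat_lit 15) (nat_lit 5) (nat_lit 18) (nat_lit 5) (nat_lit 16) (nat_lit 4) (nat_lit 278) (nat_lit 266) (nat_lit 236)) (XT.lf (nat_lit 0) (nat_lit 6914388770) (nat_lit 76) (nat_lit 10693393794) (nat_lit 152) (nat_lit 9817637789) (nat_lit 14) (nat_lit 5) (nat_lit 15) (nat_lit 5) (nat_lit 16) (nat_lit 4) (nat_lit 279) (nat_lit 266) (nat_lit 235))))) (XT.nd (nat_lit 234) (nat_lit 152) (nat_lit 0)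 (XT.nd (nat_lit 78) (nat_lit 152) (nat_lit 0) (XT.lf (nat_lit 0) (nat_lit 23661989802) (nat_lit 76) (nat_lit 1760356023) (nat_lit 152) (nat_lit 4709969345) (nat_lit 14) (nat_lit 5) (nat_lit 15) (nat_lit 5) (nat_lit 16) (nat_lit 4) (nat_lit 280) (nat_lit 266) (nat_lit 234)) (XT.nd (nat_lit 78) (nat_lit 0) (nat_lit 0) (XT.lf (nat_lit 0) (nat_lit 1839215574) (nat_lit 152) (nat_lit 23039389170) (nat_lit 76) (nat_lit 8242611023) (nat_lit 12) (nat_lit 5) (nat_lit 14) (nat_lit 5) (nat_lit 13) (nat_lit 4) (nat_lit 281) (nat_lit 266) (nat_lit 233)) (XT.lf (nat_lit 0) (nat_lit 9296899061) (nat_lit 152) (nat_lit 7040684857) (nat_lit 76) (nat_lit 20126016367) (nat_lit 12) (nat_lit 5) (nat_lit 14) (nat_lit 5) (nat_lit 13) (nat_lit 4) (nat_lit 282) (nat_lit 266) (nat_lit 232)))) (XT.nd (nat_lit 78) (nat_lit 76) (nat_lit 0) (XT.lf (nat_lit 0) (nat_lit 12417463278) (nat_lit 76) (nat_lit 5944020429) (nat_lit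 152) (nat_lit 21872657359) (nat_lit 11) (nat_lit 5) (nat_lit 12) (nat_lit 5) (nat_lit 13) (nat_lit 4) (nat_lit 283) (nat_lit 266) (nat_lit 231)) (XT.nd (nat_lit 78) (nat_lit 76) (nat_lit 0) (XT.lf (nat_lit 0) (nat_lit 29394954397) (nat_lit 152) (nat_lit 9242423053) (nat_lit 0) (nat_lit 5841536966) (nat_lit 11) (nat_lit 5) (nat_lit 13) (nat_lit 4) (nat_lit 11) (nat_lit 4) (nat_lit 284) (nat_lit 266) (nat_lit 230)) (XT.lf (nat_lit 0) (nat_lit 12946988092) (nat_lit 76) (nat_lit 29933730442) (nat_lit 76) (nat_lit 6360121440) (nat_lit 10) (nat_lit 4) (nat_lit 11) (nat_lit 5) (nat_lit 11) (nat_lit 4) (nat_lit 285) (nat_lit 266) (nat_lit 229))))))))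
noncomputable def xc60 : XT := (XT.nd (nat_lit 1560) (nat_lit 76) (nat_lit 0) (XT.nd (nat_lit 780) (nat_lit 228) (nat_lit 0) (XT.nd (nat_lit 390) (nat_lit 152) (nat_lit 0) (XT.nd (nat_lit 156) (nat_lit 76) (nat_lit 0) (XT.nd (nat_lit 78) (nat_lit 76) (nat_lit 0) (XT.lf (nat_lit 0) (nat_lit 3829856813) (nat_lit 152) (nat_lit 15356974739) (nat_lit 76) (nat_lit 35434759536) (nat_lit 9) (nat_lit 5) (nat_lit 11) (nat_lit 5) (nat_lit 10) (nat_lit 4) (nat_lit 286) (nat_lit 266) (nat_lit 228)) (XT.lf (nat_lit 0) (nat_lit 9201199595) (nat_lit 76) (nat_lit 6058165155) (nat_lit 152) (nat_lit 45450350287) (nat_lit 8) (nat_lit 5) (nat_lit 9) (nat_lit 5) (nat_lit 10) (nat_lit 4) (nat_lit 287) (nat_lit 266) (nat_lit 227))) (XT.nd (nat_lit 78) (nat_lit 76) (nat_lit 0) (XT.lf (nat_lit 0) (nat_lit 29600162313) (nat_lit 152) (nat_lit 28870097994) (nat_lit 0) (nat_lit 9061283267) (nat_lit 8) (nat_lit 5)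 (nat_lit 10) (nat_lit 4) (nat_lit 8) (nat_lit 4) (nat_lit 288) (nat_lit 266) (nat_lit 226)) (XT.nd (nat_lit 78) (nat_lit 76) (nat_lit 0) (XT.lf (nat_lit 0) (nat_lit 46364535182) (nat_lit 152) (nat_lit 3155638993) (nat_lit 0) (nat_lit 25815617356) (nat_lit 8) (nat_lit 5) (nat_lit 10) (nat_lit 4) (nat_lit 8) (nat_lit 4) (nat_lit 289) (nat_lit 266) (nat_lit 225)) (XT.lf (nat_lit 0) (nat_lit 28967734259) (nat_lit 76) (nat_lit 37861384098) (nat_lit 76) (nat_lit 17303736899) (nat_lit 7) (nat_lit 4) (nat_lit 8) (nat_lit 5) (nat_lit 8) (nat_lit 4) (nat_lit 290) (nat_lit 266) (nat_lit 224))))) (XT.nd (nat_lit 156) (nat_lit 0) (nat_lit 0) (XT.nd (nat_lit 78) (nat_lit 152) (nat_lit 0) (XT.lf (nat_lit 0) (nat_lit 66238336340) (nat_lit 76) (nat_lit 24276813144) (nat_lit 76) (nat_lit 3711575185) (nat_lit 7) (nat_lit 4) (nat_lit 8) (nat_lit 5) (nat_lit 8) (nat_lit 4) (nat_lit 291) (nat_lit 266) (nat_lit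 223)) (XT.lf (nat_lit 0) (nat_lit 3016080044) (nat_lit 76) (nat_lit 7955044915) (nat_lit 152) (nat_lit 94772594259) (nat_lit 5) (nat_lit 5) (nat_lit 6) (nat_lit 5) (nat_lit 7) (nat_lit 4) (nat_lit 292) (nat_lit 266) (nat_lit 222))) (XT.nd (nat_lit 78) (nat_lit 0) (nat_lit 0) (XT.lf (nat_lit 0) (nat_lit 29444896490) (nat_lit 152) (nat_lit 77670212645) (nat_lit 0) (nat_lit 11551350122) (nat_lit 5) (nat_lit 5) (nat_lit 7) (nat_lit 4) (nat_lit 5) (nat_lit 4) (nat_lit 293) (nat_lit 266) (nat_lit 221)) (XT.nd (nat_lit 78) (nat_lit 0) (nat_lit 0) (XT.lf (nat_lit 0) (nat_lit 51058230542) (nat_lit 152) (nat_lit 49253766942) (nat_lit 0) (nat_lit 33160344133) (nat_lit 5) (nat_lit 5) (nat_lit 7) (nat_lit 4) (nat_lit 5) (nat_lit 4) (nat_lit 294) (nat_lit 266) (nat_lit 220)) (XT.lf (nat_lit 0) (nat_lit 75904595248) (nat_lit 152) (nat_lit 16592926682) (nat_lit 0) (nat_lit 58002934890) (nat_lit 5) (nat_lit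 5) (nat_lit 7) (nat_lit 4) (nat_lit 5) (nat_lit 4) (nat_lit 295) (nat_lit 266) (nat_lit 219)))))) (XT.nd (nat_lit 390) (nat_lit 152) (nat_lit 0) (XT.nd (nat_lit 156) (nat_lit 0) (nat_lit 0) (XT.nd (nat_lit 78) (nat_lit 0) (nat_lit 0) (XT.lf (nat_lit 0) (nat_lit 22998840385) (nat_lit 76) (nat_lit 82423607685) (nat_lit 76) (nat_lit 64518665632) (nat_lit 4) (nat_lit 4) (nat_lit 5) (nat_lit 5) (nat_lit 5) (nat_lit 4) (nat_lit 296) (nat_lit 266) (nat_lit 218)) (XT.lf (nat_lit 0) (nat_lit 70379190483) (nat_lit 76) (nat_lit 69848742520) (nat_lit 76) (nat_lit 51940946819) (nat_lit 4) (nat_lit 4) (nat_lit 5) (nat_lit 5) (nat_lit 5) (nat_lit 4) (nat_lit 297) (nat_lit 266) (nat_lit 217))) (XT.nd (nat_lit 78) (nat_lit 0) (nat_lit 0) (XT.lf (nat_lit 0) (nat_lit 124853548989) (nat_lit 76) (nat_lit 55394253996) (nat_lit 76) (nat_lit 37483976863) (nat_lit 4) (nat_lit 4) (nat_lit 5) (nat_lit 5) (nat_lit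 5) (nat_lit 4) (nat_lit 298) (nat_lit 266) (nat_lit 216)) (XT.nd (nat_lit 78) (nat_lit 0) (nat_lit 0) (XT.lf (nat_lit 0) (nat_lit 187487718571) (nat_lit 76) (nat_lit 38777336903) (nat_lit 76) (nat_lit 20864902002) (nat_lit 4) (nat_lit 4) (nat_lit 5) (nat_lit 5) (nat_lit 5) (nat_lit 4) (nat_lit 299) (nat_lit 266) (nat_lit 215)) (XT.lf (nat_lit 0) (nat_lit 259507150373) (nat_lit 76) (nat_lit 19672877646) (nat_lit 76) (nat_lit 1758566425) (nat_lit 4) (nat_lit 4) (nat_lit 5) (nat_lit 5) (nat_lit 5) (nat_lit 4) (nat_lit 300) (nat_lit 266) (nat_lit 214))))) (XT.nd (nat_lit 156) (nat_lit 0) (nat_lit 0) (XT.nd (nat_lit 78) (nat_lit 0) (nat_lit 0) (XT.lf (nat_lit 0) (nat_lit 19576174523) (nat_lit 152) (nat_lit 295945406442) (nat_lit 0) (nat_lit 3997093825) (nat_lit 2) (nat_lit 5) (nat_lit 4) (nat_lit 4) (nat_lit 2) (nat_lit 4) (nat_lit 301) (nat_lit 266) (nat_lit 213)) (XT.lf (nat_lit 0) (nat_lit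 46037117591) (nat_lit 152) (nat_lit 287063381681) (nat_lit 0) (nat_lit 30456803183) (nat_lit 2) (nat_lit 5) (nat_lit 4) (nat_lit 4) (nat_lit 2) (nat_lit 4) (nat_lit 302) (nat_lit 266) (nat_lit 212))) (XT.nd (nat_lit 78) (nat_lit 0) (nat_lit 0) (XT.lf (nat_lit 0) (nat_lit 76463379759) (nat_lit 152) (nat_lit 276856926748) (nat_lit 0) (nat_lit 60881992559) (nat_lit 2) (nat_lit 5) (nat_lit 4) (nat_lit 4) (nat_lit 2) (nat_lit 4) (nat_lit 303) (nat_lit 266) (nat_lit 211)) (XT.nd (nat_lit 78) (nat_lit 0) (nat_lit 0) (XT.lf (nat_lit 0) (nat_lit 111450257461) (nat_lit 152) (nat_lit 265126350132) (nat_lit 0) (nat_lit 95867937398) (nat_lit 2) (nat_lit 5) (nat_lit 4) (nat_lit 4) (nat_lit 2) (nat_lit 4) (nat_lit 304) (nat_lit 266) (nat_lit 210)) (XT.lf (nat_lit 0) (nat_lit 151682276564) (nat_lit 152) (nat_lit 251642140552) (nat_lit 0) (nat_lit 136099145316) (nat_lit 2) (nat_lit 5) (nat_lit 4) (nat_lit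 4) (nat_lit 2) (nat_lit 4) (nat_lit 305) (nat_lit 266) (nat_lit 209))))))) (XT.nd (nat_lit 780) (nat_lit 0) (nat_lit 0) (XT.nd (nat_lit 390) (nat_lit 76) (nat_lit 0) (XT.nd (nat_lit 156) (nat_lit 0) (nat_lit 0) (XT.nd (nat_lit 78) (nat_lit 0) (nat_lit 0) (XT.lf (nat_lit 0) (nat_lit 197946585269) (nat_lit 152) (nat_lit 236140476516) (nat_lit 0) (nat_lit 182362748643) (nat_lit 2) (nat_lit 5) (nat_lit 4) (nat_lit 4) (nat_lit 2) (nat_lit 4) (nat_lit 306) (nat_lit 266) (nat_lit 208)) (XT.lf (nat_lit 0) (nat_lit 251148354832) (nat_lit 152) (nat_lit 218318064598) (nat_lit 0) (nat_lit 235563904834) (nat_lit 2) (nat_lit 5) (nat_lit 4) (nat_lit 4) (nat_lit 2) (nat_lit 4) (nat_lit 307) (nat_lit 266) (nat_lit 207))) (XT.nd (nat_lit 78) (nat_lit 0) (nat_lit 0) (XT.lf (nat_lit 0) (nat_lit 312328489442) (nat_lit 152) (nat_lit 197826205433) (nat_lit 0) (nat_lit 296743506076) (nat_lit 2) (nat_lit 5) (nat_lit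 4) (nat_lit 4) (nat_lit 2) (nat_lit 4) (nat_lit 308) (nat_lit 266) (nat_lit 206)) (XT.nd (nat_lit 78) (nat_lit 0) (nat_lit 0) (XT.lf (nat_lit 0) (nat_lit 382683991730) (nat_lit 152) (nat_lit 174263971342) (nat_lit 0) (nat_lit 367098544568) (nat_lit 2) (nat_lit 5) (nat_lit 4) (nat_lit 4) (nat_lit 2) (nat_lit 4) (nat_lit 309) (nat_lit 266) (nat_lit 205)) (XT.lf (nat_lit 0) (nat_lit 463591382396) (nat_lit 152) (nat_lit 147170362093) (nat_lit 0) (nat_lit 448005531931) (nat_lit 2) (nat_lit 5) (nat_lit 4) (nat_lit 4) (nat_lit 2) (nat_lit 4) (nat_lit 310) (nat_lit 266) (nat_lit 204))))) (XT.nd (nat_lit 156) (nat_lit 76) (nat_lit 0) (XT.nd (nat_lit 78) (nat_lit 0) (nat_lit 0) (XT.lf (nat_lit 0) (nat_lit 556633632124) (nat_lit 152) (nat_lit 116015285331) (nat_lit 0) (nat_lit 541047430962) (nat_lit 2) (nat_lit 5) (nat_lit 4) (nat_lit 4) (nat_lit 2) (nat_lit 4) (nat_lit 311) (nat_lit 266) (nat_lit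 203)) (XT.lf (nat_lit 0) (nat_lit 663631132759) (nat_lit 152) (nat_lit 80189185207) (nat_lit 0) (nat_lit 648044626642) (nat_lit 2) (nat_lit 5) (nat_lit 4) (nat_lit 4) (nat_lit 2) (nat_lit 4) (nat_lit 312) (nat_lit 266) (nat_lit 202))) (XT.nd (nat_lit 78) (nat_lit 76) (nat_lit 0) (XT.lf (nat_lit 0) (nat_lit 786677313660) (nat_lit 152) (nat_lit 38991116284) (nat_lit 0) (nat_lit 771090542365) (nat_lit 2) (nat_lit 5) (nat_lit 4) (nat_lit 4) (nat_lit 2) (nat_lit 4) (nat_lit 313) (nat_lit 266) (nat_lit 201)) (XT.nd (nat_lit 78) (nat_lit 0) (nat_lit 0) (XT.lf (nat_lit 0) (nat_lit 9204410923) (nat_lit 76) (nat_lit 919356324210) (nat_lit 76) (nat_lit 903769322326) (nat_lit 1) (nat_lit 4) (nat_lit 2) (nat_lit 5) (nat_lit 2) (nat_lit 4) (nat_lit 314) (nat_lit 266) (nat_lit 200)) (XT.lf (nat_lit 0) (nat_lit 69009721547) (nat_lit 76) (nat_lit 1024754338949) (nat_lit 76) (nat_lit 1009167136553) (nat_lit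 1) (nat_lit 4) (nat_lit 2) (nat_lit 5) (nat_lit 2) (nat_lit 4) (nat_lit 315) (nat_lit 266) (nat_lit 199)))))) (XT.nd (nat_lit 390) (nat_lit 0) (nat_lit 0) (XT.nd (nat_lit 156) (nat_lit 0) (nat_lit 0) (XT.nd (nat_lit 78) (nat_lit 0) (nat_lit 0) (XT.lf (nat_lit 0) (nat_lit 137784424035) (nat_lit 76) (nat_lit 1145962781222) (nat_lit 76) (nat_lit 1130375404467) (nat_lit 1) (nat_lit 4) (nat_lit 2) (nat_lit 5) (nat_lit 2) (nat_lit 4) (nat_lit 316) (nat_lit 266) (nat_lit 198)) (XT.lf (nat_lit 0) (nat_lit 216874110392) (nat_lit 76) (nat_lit 1285353120551) (nat_lit 76) (nat_lit 1269765592180) (nat_lit 1) (nat_lit 4) (nat_lit 2) (nat_lit 5) (nat_lit 2) (nat_lit 4) (nat_lit 317) (nat_lit 266) (nat_lit 197))) (XT.nd (nat_lit 78) (nat_lit 0) (nat_lit 0) (XT.lf (nat_lit 0) (nat_lit 307826187527) (nat_lit 76) (nat_lit 1445652559226) (nat_lit 76) (nat_lit 1430064899015) (nat_lit 1) (nat_lit 4) (nat_lit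 2) (nat_lit 5) (nat_lit 2) (nat_lit 4) (nat_lit 318) (nat_lit 266) (nat_lit 196)) (XT.nd (nat_lit 78) (nat_lit 0) (nat_lit 0) (XT.lf (nat_lit 0) (nat_lit 412420152598) (nat_lit 76) (nat_lit 1629997390614) (nat_lit 76) (nat_lit 1614409615759) (nat_lit 1) (nat_lit 4) (nat_lit 2) (nat_lit 5) (nat_lit 2) (nat_lit 4) (nat_lit 319) (nat_lit 266) (nat_lit 195)) (XT.lf (nat_lit 0) (nat_lit 532702409273) (nat_lit 76) (nat_lit 1841994361415) (nat_lit 76) (nat_lit 1826406486870) (nat_lit 1) (nat_lit 4) (nat_lit 2) (nat_lit 5) (nat_lit 2) (nat_lit 4) (nat_lit 320) (nat_lit 266) (nat_lit 194))))) (XT.nd (nat_lit 156) (nat_lit 0) (nat_lit 0) (XT.nd (nat_lit 78) (nat_lit 0) (nat_lit 0) (XT.lf (nat_lit 0) (nat_lit 671026306049) (nat_lit 76) (nat_lit 2085791238449) (nat_lit 76) (nat_lit 2070203277217) (nat_lit 1) (nat_lit 4) (nat_lit 2) (nat_lit 5) (nat_lit 2) (nat_lit 4) (nat_lit 321) (nat_lit 266) (nat_lit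 193)) (XT.lf (nat_lit 0) (nat_lit 830098180039) (nat_lit 76) (nat_lit 2366157960615) (nat_lit 76) (nat_lit 2350569924003) (nat_lit 1) (nat_lit 4) (nat_lit 2) (nat_lit 5) (nat_lit 2) (nat_lit 4) (nat_lit 322) (nat_lit 266) (nat_lit 192))) (XT.nd (nat_lit 78) (nat_lit 0) (nat_lit 0) (XT.lf (nat_lit 0) (nat_lit 1013030307038) (nat_lit 76) (nat_lit 2688579963782) (nat_lit 76) (nat_lit 2672991861622) (nat_lit 1) (nat_lit 4) (nat_lit 2) (nat_lit 5) (nat_lit 2) (nat_lit 4) (nat_lit 323) (nat_lit 266) (nat_lit 191)) (XT.nd (nat_lit 78) (nat_lit 0) (nat_lit 0) (XT.lf (nat_lit 0) (nat_lit 1223401793878) (nat_lit 76) (nat_lit 3059365504533) (nat_lit 76) (nat_lit 3043777345374) (nat_lit 1) (nat_lit 4) (nat_lit 2) (nat_lit 5) (nat_lit 2) (nat_lit 4) (nat_lit 324) (nat_lit 266) (nat_lit 190)) (XT.lf (nat_lit 0) (nat_lit 1465328604432) (nat_lit 76) (nat_lit 3485769082578) (nat_lit 76) (nat_lit 3470180873856)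 (nat_lit 1) (nat_lit 4) (nat_lit 2) (nat_lit 5) (nat_lit 2) (nat_lit 4) (nat_lit 325) (nat_lit 266) (nat_lit 189))))))))
noncomputable def xc61 : XT := (XT.nd (nat_lit 1716) (nat_lit 0) (nat_lit 0) (XT.nd (nat_lit 780) (nat_lit 0) (nat_lit 0) (XT.nd (nat_lit 390) (nat_lit 0) (nat_lit 0) (XT.nd (nat_lit 156) (nat_lit 0) (nat_lit 0) (XT.nd (nat_lit 78) (nat_lit 0) (nat_lit 0) (XT.lf (nat_lit 0) (nat_lit 1743544089342) (nat_lit 76) (nat_lit 3976133376618) (nat_lit 76) (nat_lit 3960545124797) (nat_lit 1) (nat_lit 4) (nat_lit 2) (nat_lit 5) (nat_lit 2) (nat_lit 4) (nat_lit 326) (nat_lit 266) (nat_lit 188)) (XT.lf (nat_lit 0) (nat_lit 2063491595051) (nat_lit 76) (nat_lit 4540052470667) (nat_lit 76) (nat_lit 4524464181369) (nat_lit 1) (nat_lit 4) (nat_lit 2) (nat_lit 5) (nat_lit 2) (nat_lit 4) (nat_lit 327) (nat_lit 266) (nat_lit 187))) (XT.nd (nat_lit 78) (nat_lit 0) (nat_lit 0) (XT.lf (nat_lit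 0) (nat_lit 2431430964063) (nat_lit 76) (nat_lit 5188559564392) (nat_lit 76) (nat_lit 5172971242505) (nat_lit 1) (nat_lit 4) (nat_lit 2) (nat_lit 5) (nat_lit 2) (nat_lit 4) (nat_lit 328) (nat_lit 266) (nat_lit 186)) (XT.nd (nat_lit 78) (nat_lit 0) (nat_lit 0) (XT.lf (nat_lit 0) (nat_lit 2854561010118) (nat_lit 76) (nat_lit 5934342840060) (nat_lit 76) (nat_lit 5918754489835) (nat_lit 1) (nat_lit 4) (nat_lit 2) (nat_lit 5) (nat_lit 2) (nat_lit 4) (nat_lit 329) (nat_lit 266) (nat_lit 185)) (XT.lf (nat_lit 0) (nat_lit 3341160364554) (nat_lit 76) (nat_lit 6791993709587) (nat_lit 76) (nat_lit 6776405334721) (nat_lit 1) (nat_lit 4) (nat_lit 2) (nat_lit 5) (nat_lit 2) (nat_lit 4) (nat_lit 330) (nat_lit 266) (nat_lit 184))))) (XT.nd (nat_lit 156) (nat_lit 0) (nat_lit 0) (XT.nd (nat_lit 78) (nat_lit 0) (nat_lit 0) (XT.lf (nat_lit 0) (nat_lit 3900749449521) (nat_lit 76) (nat_lit 7778292298682) (nat_lit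 76) (nat_lit 7762703902387) (nat_lit 1) (nat_lit 4) (nat_lit 2) (nat_lit 5) (nat_lit 2) (nat_lit 4) (nat_lit 331) (nat_lit 266) (nat_lit 183)) (XT.lf (nat_lit 0) (nat_lit 4544276747117) (nat_lit 76) (nat_lit 8912535753652) (nat_lit 76) (nat_lit 8896947338725) (nat_lit 1) (nat_lit 4) (nat_lit 2) (nat_lit 5) (nat_lit 2) (nat_lit 4) (nat_lit 332) (nat_lit 266) (nat_lit 182))) (XT.nd (nat_lit 78) (nat_lit 0) (nat_lit 0) (XT.lf (nat_lit 0) (nat_lit 5284333008817) (nat_lit 76) (nat_lit 10216915794269) (nat_lit 76) (nat_lit 10201327363139) (nat_lit 1) (nat_lit 4) (nat_lit 2) (nat_lit 5) (nat_lit 2) (nat_lit 4) (nat_lit 333) (nat_lit 266) (nat_lit 181)) (XT.nd (nat_lit 78) (nat_lit 0) (nat_lit 0) (XT.lf (nat_lit 0) (nat_lit 6135397596263) (nat_lit 76) (nat_lit 11716952899588) (nat_lit 76) (nat_lit 11701364454369) (nat_lit 1) (nat_lit 4) (nat_lit 2) (nat_lit 5) (nat_lit 2) (nat_lit 4) (nat_lit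 334) (nat_lit 266) (nat_lit 180)) (XT.lf (nat_lit 0) (nat_lit 7114121773122) (nat_lit 76) (nat_lit 13441995621670) (nat_lit 76) (nat_lit 13426407164200) (nat_lit 1) (nat_lit 4) (nat_lit 2) (nat_lit 5) (nat_lit 2) (nat_lit 4) (nat_lit 335) (nat_lit 266) (nat_lit 179)))))) (XT.nd (nat_lit 390) (nat_lit 0) (nat_lit 0) (XT.nd (nat_lit 156) (nat_lit 0) (nat_lit 0) (XT.nd (nat_lit 78) (nat_lit 0) (nat_lit 0) (XT.lf (nat_lit 0) (nat_lit 8239654490680) (nat_lit 76) (nat_lit 15425794796381) (nat_lit 76) (nat_lit 15410206328258) (nat_lit 1) (nat_lit 4) (nat_lit 2) (nat_lit 5) (nat_lit 2) (nat_lit 4) (nat_lit 336) (nat_lit 266) (nat_lit 178)) (XT.lf (nat_lit 0) (nat_lit 9534017041238) (nat_lit 76) (nat_lit 17707163885836) (nat_lit 76) (nat_lit 17691575408449) (nat_lit 1) (nat_lit 4) (nat_lit 2) (nat_lit 5) (nat_lit 2) (nat_lit 4) (nat_lit 337) (nat_lit 266) (nat_lit 177))) (XT.nd (nat_lit 78) (nat_lit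 0) (nat_lit 0) (XT.lf (nat_lit 0) (nat_lit 11022533909480) (nat_lit 76) (nat_lit 20330738372220) (nat_lit 76) (nat_lit 20315149886777) (nat_lit 1) (nat_lit 4) (nat_lit 2) (nat_lit 5) (nat_lit 2) (nat_lit 4) (nat_lit 338) (nat_lit 266) (nat_lit 176)) (XT.nd (nat_lit 78) (nat_lit 0) (nat_lit 0) (XT.lf (nat_lit 0) (nat_lit 12734328251525) (nat_lit 76) (nat_lit 23347849060701) (nat_lit 76) (nat_lit 23332260568253) (nat_lit 1) (nat_lit 4) (nat_lit 2) (nat_lit 5) (nat_lit 2) (nat_lit 4) (nat_lit 339) (nat_lit 266) (nat_lit 175)) (XT.lf (nat_lit 0) (nat_lit 14702891695802) (nat_lit 76) (nat_lit 26817526377792) (nat_lit 76) (nat_lit 26801937879253) (nat_lit 1) (nat_lit 4) (nat_lit 2) (nat_lit 5) (nat_lit 2) (nat_lit 4) (nat_lit 340) (nat_lit 266) (nat_lit 174))))) (XT.nd (nat_lit 156) (nat_lit 0) (nat_lit 0) (XT.nd (nat_lit 78) (nat_lit 0) (nat_lit 0) (XT.lf (nat_lit 0) (nat_lit 16966739614050)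 (nat_lit 76) (nat_lit 30807655314481) (nat_lit 76) (nat_lit 30792066810645) (nat_lit 1) (nat_lit 4) (nat_lit 2) (nat_lit 5) (nat_lit 2) (nat_lit 4) (nat_lit 341) (nat_lit 266) (nat_lit 173)) (XT.lf (nat_lit 0) (nat_lit 19570164682927) (nat_lit 76) (nat_lit 35396303610832) (nat_lit 76) (nat_lit 35380715102391) (nat_lit 1) (nat_lit 4) (nat_lit 2) (nat_lit 5) (nat_lit 2) (nat_lit 4) (nat_lit 342) (nat_lit 266) (nat_lit 172))) (XT.nd (nat_lit 234) (nat_lit 0) (nat_lit 0) (XT.lf (nat_lit 0) (nat_lit 22564103479870) (nat_lit 76) (nat_lit 40673249168297) (nat_lit 76) (nat_lit 40657660655851) (nat_lit 1) (nat_lit 4) (nat_lit 2) (nat_lit 5) (nat_lit 2) (nat_lit 4) (nat_lit 343) (nat_lit 266) (nat_lit 171)) (XT.nd (nat_lit 78) (nat_lit 0) (nat_lit 0) (XT.lf (nat_lit 0) (nat_lit 34520023652011) (nat_lit 76) (nat_lit 61746071722186) (nat_lit 76) (nat_lit 61730483200595) (nat_lit 1) (nat_lit 4) (nat_lit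 2) (nat_lit 5) (nat_lit 2) (nat_lit 4) (nat_lit 346) (nat_lit 266) (nat_lit 168)) (XT.lf (nat_lit 0) (nat_lit 39756441202196) (nat_lit 76) (nat_lit 70975482543919) (nat_lit 76) (nat_lit 70959894020039) (nat_lit 1) (nat_lit 4) (nat_lit 2) (nat_lit 5) (nat_lit 2) (nat_lit 4) (nat_lit 347) (nat_lit 266) (nat_lit 167))))))) (XT.nd (nat_lit 34866) (nat_lit 0) (nat_lit 760) (XT.nd (nat_lit 34476) (nat_lit 0) (nat_lit 1520) (XT.nd (nat_lit 156) (nat_lit 0) (nat_lit 0) (XT.nd (nat_lit 78) (nat_lit 0) (nat_lit 0) (XT.lf (nat_lit 0) (nat_lit 45778321368868) (nat_lit 76) (nat_lit 81589304997195) (nat_lit 76) (nat_lit 81573716471324) (nat_lit 1) (nat_lit 4) (nat_lit 2) (nat_lit 5) (nat_lit 2) (nat_lit 4) (nat_lit 348) (nat_lit 266) (nat_lit 166)) (XT.lf (nat_lit 0) (nat_lit 52703483546590) (nat_lit 76) (nat_lit 93795200825666) (nat_lit 76) (nat_lit 93779612298063) (nat_lit 1) (nat_lit 4) (nat_lit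 2) (nat_lit 5) (nat_lit 2) (nat_lit 4) (nat_lit 349) (nat_lit 266) (nat_lit 165))) (XT.nd (nat_lit 34164) (nat_lit 0) (nat_lit 2052) (XT.lf (nat_lit 0) (nat_lit 60667420038841) (nat_lit 76) (nat_lit 107831981034671) (nat_lit 76) (nat_lit 107816392505562) (nat_lit 1) (nat_lit 4) (nat_lit 2) (nat_lit 5) (nat_lit 2) (nat_lit 4) (nat_lit 350) (nat_lit 266) (nat_lit 164)) (XT.nd (nat_lit 78) (nat_lit 0) (nat_lit 0) (XT.lf (nat_lit 0) (nat_lit 2663272560) (nat_lit 0) (nat_lit 2663272560) (nat_lit 228) (nat_lit 271710790) (nat_lit 28) (nat_lit 5) (nat_lit 28) (nat_lit 3) (nat_lit 31) (nat_lit 3) (nat_lit 267) (nat_lit 267) (nat_lit 246)) (XT.lf (nat_lit 0) (nat_lit 11407493096) (nat_lit 0) (nat_lit 528895286) (nat_lit 228) (nat_lit 25328557) (nat_lit 28) (nat_lit 5) (nat_lit 28) (nat_lit 3) (nat_lit 31) (nat_lit 3) (nat_lit 268) (nat_lit 267) (nat_lit 245))))) (XT.nd (nat_lit 156) (nat_lit 228)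 (nat_lit 0) (XT.nd (nat_lit 78) (nat_lit 0) (nat_lit 0) (XT.lf (nat_lit 0) (nat_lit 899411741) (nat_lit 304) (nat_lit 7016977515) (nat_lit 380) (nat_lit 4865104016) (nat_lit 24) (nat_lit 5) (nat_lit 28) (nat_lit 5) (nat_lit 29) (nat_lit 5) (nat_lit 269) (nat_lit 267) (nat_lit 244)) (XT.lf (nat_lit 0) (nat_lit 1936200179) (nat_lit 304) (nat_lit 717870905) (nat_lit 380) (nat_lit 11073848409) (nat_lit 24) (nat_lit 5) (nat_lit 28) (nat_lit 5) (nat_lit 29) (nat_lit 5) (nat_lit 270) (nat_lit 267) (nat_lit 243))) (XT.nd (nat_lit 78) (nat_lit 304) (nat_lit 0) (XT.lf (nat_lit 0) (nat_lit 3508684187) (nat_lit 304) (nat_lit 7834859166) (nat_lit 76) (nat_lit 3415960477) (nat_lit 25) (nat_lit 5) (nat_lit 29) (nat_lit 5) (nat_lit 26) (nat_lit 5) (nat_lit 271) (nat_lit 267) (nat_lit 242)) (XT.nd (nat_lit 78) (nat_lit 304) (nat_lit 0) (XT.lf (nat_lit 0) (nat_lit 5420757459) (nat_lit 304) (nat_lit 336858410)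 (nat_lit 76) (nat_lit 10172844430) (nat_lit 25) (nat_lit 5) (nat_lit 29) (nat_lit 5) (nat_lit 26) (nat_lit 5) (nat_lit 272) (nat_lit 267) (nat_lit 241)) (XT.lf (nat_lit 0) (nat_lit 7985273531) (nat_lit 380) (nat_lit 8238826390) (nat_lit 76) (nat_lit 998282486) (nat_lit 21) (nat_lit 5) (nat_lit 26) (nat_lit 5) (nat_lit 22) (nat_lit 5) (nat_lit 273) (nat_lit 267) (nat_lit 240)))))) (XT.nd (nat_lit 390) (nat_lit 304) (nat_lit 0) (XT.nd (nat_lit 156) (nat_lit 304) (nat_lit 0) (XT.nd (nat_lit 78) (nat_lit 0) (nat_lit 0) (XT.lf (nat_lit 0) (nat_lit 768416594) (nat_lit 152) (nat_lit 10441341957) (nat_lit 228) (nat_lit 7457185714) (nat_lit 19) (nat_lit 5) (nat_lit 21) (nat_lit 5) (nat_lit 22) (nat_lit 5) (nat_lit 274) (nat_lit 267) (nat_lit 239)) (XT.lf (nat_lit 0) (nat_lit 11995956931) (nat_lit 152) (nat_lit 3307540850) (nat_lit 228) (nat_lit 4966981635) (nat_lit 19) (nat_lit 5) (nat_lit 21)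 (nat_lit 5) (nat_lit 22) (nat_lit 5) (nat_lit 275) (nat_lit 267) (nat_lit 238))) (XT.nd (nat_lit 78) (nat_lit 228) (nat_lit 0) (XT.lf (nat_lit 0) (nat_lit 2783224988) (nat_lit 76) (nat_lit 17506444046) (nat_lit 152) (nat_lit 1783229900) (nat_lit 18) (nat_lit 5) (nat_lit 19) (nat_lit 5) (nat_lit 20) (nat_lit 4) (nat_lit 276) (nat_lit 267) (nat_lit 237)) (XT.nd (nat_lit 78) (nat_lit 152) (nat_lit 0) (XT.lf (nat_lit 0) (nat_lit 2283059714) (nat_lit 152) (nat_lit 7963329489) (nat_lit 76) (nat_lit 13801883772) (nat_lit 17) (nat_lit 5) (nat_lit 19) (nat_lit 5) (nat_lit 18) (nat_lit 5) (nat_lit 277) (nat_lit 267) (nat_lit 236)) (XT.lf (nat_lit 0) (nat_lit 5409761106) (nat_lit 152) (nat_lit 1557530118) (nat_lit 228) (nat_lit 19311411634) (nat_lit 15) (nat_lit 5) (nat_lit 17) (nat_lit 5) (nat_lit 18) (nat_lit 5) (nat_lit 278) (nat_lit 267) (nat_lit 235))))) (XT.nd (nat_lit 234) (nat_lit 228) (nat_lit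 0) (XT.nd (nat_lit 78) (nat_lit 76) (nat_lit 0) (XT.lf (nat_lit 0) (nat_lit 13107846115) (nat_lit 228) (nat_lit 7517302613) (nat_lit 76) (nat_lit 8105557953) (nat_lit 15) (nat_lit 5) (nat_lit 18) (nat_lit 5) (nat_lit 16) (nat_lit 4) (nat_lit 279) (nat_lit 267) (nat_lit 234)) (XT.nd (nat_lit 78) (nat_lit 0) (nat_lit 0) (XT.lf (nat_lit 0) (nat_lit 8473122673) (nat_lit 76) (nat_lit 12093853496) (nat_lit 152) (nat_lit 10923965693) (nat_lit 14) (nat_lit 5) (nat_lit 15) (nat_lit 5) (nat_lit 16) (nat_lit 4) (nat_lit 280) (nat_lit 267) (nat_lit 233)) (XT.lf (nat_lit 0) (nat_lit 27664832261) (nat_lit 76) (nat_lit 1847409977) (nat_lit 152) (nat_lit 5097927560) (nat_lit 14) (nat_lit 5) (nat_lit 15) (nat_lit 5) (nat_lit 16) (nat_lit 4) (nat_lit 281) (nat_lit 267) (nat_lit 232)))) (XT.nd (nat_lit 78) (nat_lit 76) (nat_lit 0) (XT.lf (nat_lit 0) (nat_lit 2394319611) (nat_lit 152) (nat_lit 26001607388)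 (nat_lit 76) (nat_lit 9651201514) (nat_lit 12) (nat_lit 5) (nat_lit 14) (nat_lit 5) (nat_lit 13) (nat_lit 4) (nat_lit 282) (nat_lit 267) (nat_lit 231)) (XT.nd (nat_lit 78) (nat_lit 76) (nat_lit 0) (XT.lf (nat_lit 0) (nat_lit 10934235399) (nat_lit 152) (nat_lit 7667491796) (nat_lit 76) (nat_lit 23294656942) (nat_lit 12) (nat_lit 5) (nat_lit 14) (nat_lit 5) (nat_lit 13) (nat_lit 4) (nat_lit 283) (nat_lit 267) (nat_lit 230)) (XT.lf (nat_lit 0) (nat_lit 14689865114) (nat_lit 76) (nat_lit 6653941083) (nat_lit 152) (nat_lit 24890948893) (nat_lit 11) (nat_lit 5) (nat_lit 12) (nat_lit 5) (nat_lit 13) (nat_lit 4) (nat_lit 284) (nat_lit 267) (nat_lit 229))))))))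
noncomputable def xc62 : XT := (XT.nd (nat_lit 1560) (nat_lit 76) (nat_lit 0) (XT.nd (nat_lit 780) (nat_lit 228) (nat_lit 0) (XT.nd (nat_lit 390) (nat_lit 228) (nat_lit 0) (XT.nd (nat_lit 156) (nat_lit 152) (nat_lit 0) (XT.nd (nat_lit 78) (nat_lit 76) (nat_lit 0) (XT.lf (nat_lit 0) (nat_lit 34009087135) (nat_lit 152) (nat_lit 10248989642) (nat_lit 0) (nat_lit 6861687324) (nat_lit 11) (nat_lit 5) (nat_lit 13) (nat_lit 4) (nat_lit 11) (nat_lit 4) (nat_lit 285) (nat_lit 267) (nat_lit 228)) (XT.lf (nat_lit 0) (nat_lit 15251569681) (nat_lit 76) (nat_lit 34254433218) (nat_lit 76) (nat_lit 7091765679) (nat_lit 10) (nat_lit 4) (nat_lit 11) (nat_lit 5) (nat_lit 11) (nat_lit 4) (nat_lit 286) (nat_lit 267) (nat_lit 227))) (XT.nd (nat_lit 78) (nat_lit 76) (nat_lit 0) (XT.lf (nat_lit 0) (nat_lit 4580488995) (nat_lit 152) (nat_lit 17327892484) (nat_lit 76) (nat_lit 40879858188) (nat_lit 9) (nat_lit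 5) (nat_lit 11) (nat_lit 5) (nat_lit 10) (nat_lit 4) (nat_lit 287) (nat_lit 267) (nat_lit 226)) (XT.nd (nat_lit 78) (nat_lit 0) (nat_lit 0) (XT.lf (nat_lit 0) (nat_lit 10898888524) (nat_lit 76) (nat_lit 6815705403) (nat_lit 152) (nat_lit 52076484447) (nat_lit 8) (nat_lit 5) (nat_lit 9) (nat_lit 5) (nat_lit 10) (nat_lit 4) (nat_lit 288) (nat_lit 267) (nat_lit 225)) (XT.lf (nat_lit 0) (nat_lit 34190260307) (nat_lit 152) (nat_lit 32908140798) (nat_lit 0) (nat_lit 10540236655) (nat_lit 8) (nat_lit 5) (nat_lit 10) (nat_lit 4) (nat_lit 8) (nat_lit 4) (nat_lit 289) (nat_lit 267) (nat_lit 224))))) (XT.nd (nat_lit 156) (nat_lit 152) (nat_lit 0) (XT.nd (nat_lit 78) (nat_lit 76) (nat_lit 0) (XT.lf (nat_lit 0) (nat_lit 53449714283) (nat_lit 152) (nat_lit 3374661455) (nat_lit 0) (nat_lit 29792099872) (nat_lit 8) (nat_lit 5) (nat_lit 10) (nat_lit 4) (nat_lit 8) (nat_lit 4) (nat_lit 290) (nat_lit 267)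 (nat_lit 223)) (XT.lf (nat_lit 0) (nat_lit 33555657632) (nat_lit 76) (nat_lit 43421358025) (nat_lit 76) (nat_lit 19757142954) (nat_lit 7) (nat_lit 4) (nat_lit 8) (nat_lit 5) (nat_lit 8) (nat_lit 4) (nat_lit 291) (nat_lit 267) (nat_lit 222))) (XT.nd (nat_lit 78) (nat_lit 152) (nat_lit 0) (XT.lf (nat_lit 0) (nat_lit 76385185255) (nat_lit 76) (nat_lit 27814653648) (nat_lit 76) (nat_lit 4144698871) (nat_lit 7) (nat_lit 4) (nat_lit 8) (nat_lit 5) (nat_lit 8) (nat_lit 4) (nat_lit 292) (nat_lit 267) (nat_lit 221)) (XT.nd (nat_lit 78) (nat_lit 0) (nat_lit 0) (XT.lf (nat_lit 0) (nat_lit 3680568689) (nat_lit 76) (nat_lit 9042926433) (nat_lit 152) (nat_lit 108865713971) (nat_lit 5) (nat_lit 5) (nat_lit 6) (nat_lit 5) (nat_lit 7) (nat_lit 4) (nat_lit 293) (nat_lit 267) (nat_lit 220)) (XT.lf (nat_lit 0) (nat_lit 33958209035) (nat_lit 152) (nat_lit 89126152122) (nat_lit 0) (nat_lit 13367525674) (nat_lit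 5) (nat_lit 5) (nat_lit 7) (nat_lit 4) (nat_lit 5) (nat_lit 4) (nat_lit 294) (nat_lit 267) (nat_lit 219)))))) (XT.nd (nat_lit 390) (nat_lit 152) (nat_lit 0) (XT.nd (nat_lit 156) (nat_lit 76) (nat_lit 0) (XT.nd (nat_lit 78) (nat_lit 0) (nat_lit 0) (XT.lf (nat_lit 0) (nat_lit 58800946055) (nat_lit 152) (nat_lit 56472621184) (nat_lit 0) (nat_lit 38206980999) (nat_lit 5) (nat_lit 5) (nat_lit 7) (nat_lit 4) (nat_lit 5) (nat_lit 4) (nat_lit 295) (nat_lit 267) (nat_lit 218)) (XT.lf (nat_lit 0) (nat_lit 87363311432) (nat_lit 152) (nat_lit 18934725859) (nat_lit 0) (nat_lit 66766492729) (nat_lit 5) (nat_lit 5) (nat_lit 7) (nat_lit 4) (nat_lit 5) (nat_lit 4) (nat_lit 296) (nat_lit 267) (nat_lit 217))) (XT.nd (nat_lit 78) (nat_lit 0) (nat_lit 0) (XT.lf (nat_lit 0) (nat_lit 26589118094) (nat_lit 76) (nat_lit 94716014639) (nat_lit 76) (nat_lit 74116714503) (nat_lit 4) (nat_lit 4) (nat_lit 5) (nat_lit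 5) (nat_lit 5) (nat_lit 4) (nat_lit 297) (nat_lit 267) (nat_lit 216)) (XT.nd (nat_lit 78) (nat_lit 0) (nat_lit 0) (XT.lf (nat_lit 0) (nat_lit 81058200926) (nat_lit 76) (nat_lit 80264198073) (nat_lit 76) (nat_lit 59662740169) (nat_lit 4) (nat_lit 4) (nat_lit 5) (nat_lit 5) (nat_lit 5) (nat_lit 4) (nat_lit 298) (nat_lit 267) (nat_lit 215)) (XT.lf (nat_lit 0) (nat_lit 143687782965) (nat_lit 76) (nat_lit 63649604421) (nat_lit 76) (nat_lit 43046270198) (nat_lit 4) (nat_lit 4) (nat_lit 5) (nat_lit 5) (nat_lit 5) (nat_lit 4) (nat_lit 299) (nat_lit 267) (nat_lit 214))))) (XT.nd (nat_lit 156) (nat_lit 152) (nat_lit 0) (XT.nd (nat_lit 78) (nat_lit 0) (nat_lit 0) (XT.lf (nat_lit 0) (nat_lit 215703225598) (nat_lit 76) (nat_lit 44547165548) (nat_lit 76) (nat_lit 23942199742) (nat_lit 4) (nat_lit 4) (nat_lit 5) (nat_lit 5) (nat_lit 5) (nat_lit 4) (nat_lit 300) (nat_lit 267) (nat_lit 213)) (XT.lf (nat_lit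 0) (nat_lit 298513526616) (nat_lit 76) (nat_lit 22583138083) (nat_lit 76) (nat_lit 1976753511) (nat_lit 4) (nat_lit 4) (nat_lit 5) (nat_lit 5) (nat_lit 5) (nat_lit 4) (nat_lit 301) (nat_lit 267) (nat_lit 212))) (XT.nd (nat_lit 78) (nat_lit 0) (nat_lit 0) (XT.lf (nat_lit 0) (nat_lit 22553757745) (nat_lit 152) (nat_lit 340252439513) (nat_lit 0) (nat_lit 4634089672) (nat_lit 2) (nat_lit 5) (nat_lit 4) (nat_lit 4) (nat_lit 2) (nat_lit 4) (nat_lit 302) (nat_lit 267) (nat_lit 211)) (XT.nd (nat_lit 78) (nat_lit 0) (nat_lit 0) (XT.lf (nat_lit 0) (nat_lit 52978473963) (nat_lit 152) (nat_lit 330049169025) (nat_lit 0) (nat_lit 35057873028) (nat_lit 2) (nat_lit 5) (nat_lit 4) (nat_lit 4) (nat_lit 2) (nat_lit 4) (nat_lit 303) (nat_lit 267) (nat_lit 210)) (XT.lf (nat_lit 0) (nat_lit 87964007361) (nat_lit 152) (nat_lit 318321361492) (nat_lit 0) (nat_lit 70042595241) (nat_lit 2) (nat_lit 5) (nat_lit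 4) (nat_lit 4) (nat_lit 2) (nat_lit 4) (nat_lit 304) (nat_lit 267) (nat_lit 209))))))) (XT.nd (nat_lit 780) (nat_lit 76) (nat_lit 0) (XT.nd (nat_lit 390) (nat_lit 0) (nat_lit 0) (XT.nd (nat_lit 156) (nat_lit 0) (nat_lit 0) (XT.nd (nat_lit 78) (nat_lit 0) (nat_lit 0) (XT.lf (nat_lit 0) (nat_lit 128194857504) (nat_lit 152) (nat_lit 304839559810) (nat_lit 0) (nat_lit 110272740006) (nat_lit 2) (nat_lit 5) (nat_lit 4) (nat_lit 4) (nat_lit 2) (nat_lit 4) (nat_lit 305) (nat_lit 267) (nat_lit 208)) (XT.lf (nat_lit 0) (nat_lit 174458149722) (nat_lit 152) (nat_lit 289339989598) (nat_lit 0) (nat_lit 156535418852) (nat_lit 2) (nat_lit 5) (nat_lit 4) (nat_lit 4) (nat_lit 2) (nat_lit 4) (nat_lit 306) (nat_lit 267) (nat_lit 207))) (XT.nd (nat_lit 78) (nat_lit 0) (nat_lit 0) (XT.lf (nat_lit 0) (nat_lit 227659035384) (nat_lit 152) (nat_lit 271519398397) (nat_lit 0) (nat_lit 209735771147) (nat_lit 2) (nat_lit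 5) (nat_lit 4) (nat_lit 4) (nat_lit 2) (nat_lit 4) (nat_lit 307) (nat_lit 267) (nat_lit 206)) (XT.nd (nat_lit 78) (nat_lit 0) (nat_lit 0) (XT.lf (nat_lit 0) (nat_lit 288838401383) (nat_lit 152) (nat_lit 251029122464) (nat_lit 0) (nat_lit 270914673348) (nat_lit 2) (nat_lit 5) (nat_lit 4) (nat_lit 4) (nat_lit 2) (nat_lit 4) (nat_lit 308) (nat_lit 267) (nat_lit 205)) (XT.lf (nat_lit 0) (nat_lit 359193235315) (nat_lit 152) (nat_lit 227468265096) (nat_lit 0) (nat_lit 341269103978) (nat_lit 2) (nat_lit 5) (nat_lit 4) (nat_lit 4) (nat_lit 2) (nat_lit 4) (nat_lit 309) (nat_lit 267) (nat_lit 204))))) (XT.nd (nat_lit 156) (nat_lit 0) (nat_lit 0) (XT.nd (nat_lit 78) (nat_lit 0) (nat_lit 0) (XT.lf (nat_lit 0) (nat_lit 440100044800) (nat_lit 152) (nat_lit 200375852999) (nat_lit 0) (nat_lit 422175562766) (nat_lit 2) (nat_lit 5) (nat_lit 4) (nat_lit 4) (nat_lit 2) (nat_lit 4) (nat_lit 310) (nat_lit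 267) (nat_lit 203)) (XT.lf (nat_lit 0) (nat_lit 533141789155) (nat_lit 152) (nat_lit 169221817238) (nat_lit 0) (nat_lit 515217002167) (nat_lit 2) (nat_lit 5) (nat_lit 4) (nat_lit 4) (nat_lit 2) (nat_lit 4) (nat_lit 311) (nat_lit 267) (nat_lit 202))) (XT.nd (nat_lit 78) (nat_lit 0) (nat_lit 0) (XT.lf (nat_lit 0) (nat_lit 640138850335) (nat_lit 152) (nat_lit 133396622332) (nat_lit 0) (nat_lit 622213798168) (nat_lit 2) (nat_lit 5) (nat_lit 4) (nat_lit 4) (nat_lit 2) (nat_lit 4) (nat_lit 312) (nat_lit 267) (nat_lit 201)) (XT.nd (nat_lit 78) (nat_lit 0) (nat_lit 0) (XT.lf (nat_lit 0) (nat_lit 763184649100) (nat_lit 152) (nat_lit 92199340555) (nat_lit 0) (nat_lit 745259366345) (nat_lit 2) (nat_lit 5) (nat_lit 4) (nat_lit 4) (nat_lit 2) (nat_lit 4) (nat_lit 313) (nat_lit 267) (nat_lit 200)) (XT.lf (nat_lit 0) (nat_lit 904686603255) (nat_lit 152) (nat_lit 44823938132) (nat_lit 0) (nat_lit 886761119986)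 (nat_lit 2) (nat_lit 5) (nat_lit 4) (nat_lit 4) (nat_lit 2) (nat_lit 4) (nat_lit 314) (nat_lit 267) (nat_lit 199)))))) (XT.nd (nat_lit 390) (nat_lit 0) (nat_lit 0) (XT.nd (nat_lit 156) (nat_lit 0) (nat_lit 0) (XT.nd (nat_lit 78) (nat_lit 0) (nat_lit 0) (XT.lf (nat_lit 0) (nat_lit 10600197902) (nat_lit 76) (nat_lit 1057251962979) (nat_lit 76) (nat_lit 1039326305352) (nat_lit 1) (nat_lit 4) (nat_lit 2) (nat_lit 5) (nat_lit 2) (nat_lit 4) (nat_lit 315) (nat_lit 267) (nat_lit 198)) (XT.lf (nat_lit 0) (nat_lit 79374332249) (nat_lit 76) (nat_lit 1178460698607) (nat_lit 76) (nat_lit 1160534889364) (nat_lit 1) (nat_lit 4) (nat_lit 2) (nat_lit 5) (nat_lit 2) (nat_lit 4) (nat_lit 316) (nat_lit 267) (nat_lit 197))) (XT.nd (nat_lit 78) (nat_lit 0) (nat_lit 0) (XT.lf (nat_lit 0) (nat_lit 158463524571) (nat_lit 76) (nat_lit 1317851293028) (nat_lit 76) (nat_lit 1299925351945) (nat_lit 1) (nat_lit 4)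 (nat_lit 2) (nat_lit 5) (nat_lit 2) (nat_lit 4) (nat_lit 317) (nat_lit 267) (nat_lit 196)) (XT.nd (nat_lit 78) (nat_lit 0) (nat_lit 0) (XT.lf (nat_lit 0) (nat_lit 249415172108) (nat_lit 76) (nat_lit 1478150953522) (nat_lit 76) (nat_lit 1460224897795) (nat_lit 1) (nat_lit 4) (nat_lit 2) (nat_lit 5) (nat_lit 2) (nat_lit 4) (nat_lit 318) (nat_lit 267) (nat_lit 195)) (XT.lf (nat_lit 0) (nat_lit 354008763618) (nat_lit 76) (nat_lit 1662495977796) (nat_lit 76) (nat_lit 1644569822379) (nat_lit 1) (nat_lit 4) (nat_lit 2) (nat_lit 5) (nat_lit 2) (nat_lit 4) (nat_lit 319) (nat_lit 267) (nat_lit 194))))) (XT.nd (nat_lit 156) (nat_lit 0) (nat_lit 0) (XT.nd (nat_lit 78) (nat_lit 0) (nat_lit 0) (XT.lf (nat_lit 0) (nat_lit 474290695456) (nat_lit 76) (nat_lit 1874493116324) (nat_lit 76) (nat_lit 1856566874220) (nat_lit 1) (nat_lit 4) (nat_lit 2) (nat_lit 5) (nat_lit 2) (nat_lit 4) (nat_lit 320) (nat_lit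 267) (nat_lit 193)) (XT.lf (nat_lit 0) (nat_lit 612614309766) (nat_lit 76) (nat_lit 2118290139208) (nat_lit 76) (nat_lit 2100363821724) (nat_lit 1) (nat_lit 4) (nat_lit 2) (nat_lit 5) (nat_lit 2) (nat_lit 4) (nat_lit 321) (nat_lit 267) (nat_lit 192))) (XT.nd (nat_lit 78) (nat_lit 0) (nat_lit 0) (XT.lf (nat_lit 0) (nat_lit 771685938132) (nat_lit 76) (nat_lit 2398656988200) (nat_lit 76) (nat_lit 2380730605168) (nat_lit 1) (nat_lit 4) (nat_lit 2) (nat_lit 5) (nat_lit 2) (nat_lit 4) (nat_lit 322) (nat_lit 267) (nat_lit 191)) (XT.nd (nat_lit 78) (nat_lit 0) (nat_lit 0) (XT.lf (nat_lit 0) (nat_lit 954617851546) (nat_lit 76) (nat_lit 2721079101650) (nat_lit 76) (nat_lit 2703152661620) (nat_lit 1) (nat_lit 4) (nat_lit 2) (nat_lit 5) (nat_lit 2) (nat_lit 4) (nat_lit 323) (nat_lit 267) (nat_lit 190)) (XT.lf (nat_lit 0) (nat_lit 1164989152659) (nat_lit 76) (nat_lit 3091864738299) (nat_lit 76) (nat_lit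 3073938248705) (nat_lit 1) (nat_lit 4) (nat_lit 2) (nat_lit 5) (nat_lit 2) (nat_lit 4) (nat_lit 324) (nat_lit 267) (nat_lit 189))))))))
noncomputable def xc63 : XT := (XT.nd (nat_lit 1638) (nat_lit 0) (nat_lit 0) (XT.nd (nat_lit 780) (nat_lit 0) (nat_lit 0) (XT.nd (nat_lit 390) (nat_lit 0) (nat_lit 0) (XT.nd (nat_lit 156) (nat_lit 0) (nat_lit 0) (XT.nd (nat_lit 78) (nat_lit 0) (nat_lit 0) (XT.lf (nat_lit 0) (nat_lit 1406915801712) (nat_lit 76) (nat_lit 3518268399734) (nat_lit 76) (nat_lit 3500341867041) (nat_lit 1) (nat_lit 4) (nat_lit 2) (nat_lit 5) (nat_lit 2) (nat_lit 4) (nat_lit 325) (nat_lit 267) (nat_lit 188)) (XT.lf (nat_lit 0) (nat_lit 1685131146186) (nat_lit 76) (nat_lit 4008632766287) (nat_lit 76) (nat_lit 3990706196118) (nat_lit 1) (nat_lit 4) (nat_lit 2) (nat_lit 5) (nat_lit 2) (nat_lit 4) (nat_lit 326) (nat_lit 267) (nat_lit 187))) (XT.nd (nat_lit 78) (nat_lit 0) (nat_lit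 0) (XT.lf (nat_lit 0) (nat_lit 2005078529777) (nat_lit 76) (nat_lit 4572551923391) (nat_lit 76) (nat_lit 4554625320633) (nat_lit 1) (nat_lit 4) (nat_lit 2) (nat_lit 5) (nat_lit 2) (nat_lit 4) (nat_lit 327) (nat_lit 267) (nat_lit 186)) (XT.nd (nat_lit 78) (nat_lit 0) (nat_lit 0) (XT.lf (nat_lit 0) (nat_lit 2373017792599) (nat_lit 76) (nat_lit 5221059071946) (nat_lit 76) (nat_lit 5203132440849) (nat_lit 1) (nat_lit 4) (nat_lit 2) (nat_lit 5) (nat_lit 2) (nat_lit 4) (nat_lit 328) (nat_lit 267) (nat_lit 185)) (XT.lf (nat_lit 0) (nat_lit 2796147746316) (nat_lit 76) (nat_lit 5966842395293) (nat_lit 76) (nat_lit 5948915739554) (nat_lit 1) (nat_lit 4) (nat_lit 2) (nat_lit 5) (nat_lit 2) (nat_lit 4) (nat_lit 329) (nat_lit 267) (nat_lit 184))))) (XT.nd (nat_lit 156) (nat_lit 0) (nat_lit 0) (XT.nd (nat_lit 78) (nat_lit 0) (nat_lit 0) (XT.lf (nat_lit 0) (nat_lit 3282747020457) (nat_lit 76) (nat_lit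 6824493306280) (nat_lit 76) (nat_lit 6806566629114) (nat_lit 1) (nat_lit 4) (nat_lit 2) (nat_lit 5) (nat_lit 2) (nat_lit 4) (nat_lit 330) (nat_lit 267) (nat_lit 183)) (XT.lf (nat_lit 0) (nat_lit 3842336035603) (nat_lit 76) (nat_lit 7810791931426) (nat_lit 76) (nat_lit 7792865235627) (nat_lit 1) (nat_lit 4) (nat_lit 2) (nat_lit 5) (nat_lit 2) (nat_lit 4) (nat_lit 331) (nat_lit 267) (nat_lit 182))) (XT.nd (nat_lit 78) (nat_lit 0) (nat_lit 0) (XT.lf (nat_lit 0) (nat_lit 4485863272485) (nat_lit 76) (nat_lit 8945035417746) (nat_lit 76) (nat_lit 8927108705744) (nat_lit 1) (nat_lit 4) (nat_lit 2) (nat_lit 5) (nat_lit 2) (nat_lit 4) (nat_lit 332) (nat_lit 267) (nat_lit 181)) (XT.nd (nat_lit 78) (nat_lit 0) (nat_lit 0) (XT.lf (nat_lit 0) (nat_lit 5225919481390) (nat_lit 76) (nat_lit 10249415485623) (nat_lit 76) (nat_lit 10231488759532) (nat_lit 1) (nat_lit 4) (nat_lit 2) (nat_lit 5) (nat_lit 2)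 (nat_lit 4) (nat_lit 333) (nat_lit 267) (nat_lit 180)) (XT.lf (nat_lit 0) (nat_lit 6076984022927) (nat_lit 76) (nat_lit 11749452614647) (nat_lit 76) (nat_lit 11731525876305) (nat_lit 1) (nat_lit 4) (nat_lit 2) (nat_lit 5) (nat_lit 2) (nat_lit 4) (nat_lit 334) (nat_lit 267) (nat_lit 179)))))) (XT.nd (nat_lit 390) (nat_lit 0) (nat_lit 0) (XT.nd (nat_lit 156) (nat_lit 0) (nat_lit 0) (XT.nd (nat_lit 78) (nat_lit 0) (nat_lit 0) (XT.lf (nat_lit 0) (nat_lit 7055708159865) (nat_lit 76) (nat_lit 13474495357341) (nat_lit 76) (nat_lit 13456568608346) (nat_lit 1) (nat_lit 4) (nat_lit 2) (nat_lit 5) (nat_lit 2) (nat_lit 4) (nat_lit 335) (nat_lit 267) (nat_lit 178)) (XT.lf (nat_lit 0) (nat_lit 8181240842710) (nat_lit 76) (nat_lit 15458294549977) (nat_lit 76) (nat_lit 15440367791718) (nat_lit 1) (nat_lit 4) (nat_lit 2) (nat_lit 5) (nat_lit 2) (nat_lit 4) (nat_lit 336) (nat_lit 267) (nat_lit 177))) (XT.nd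 (nat_lit 78) (nat_lit 0) (nat_lit 0) (XT.lf (nat_lit 0) (nat_lit 9475603363082) (nat_lit 76) (nat_lit 17739663655018) (nat_lit 76) (nat_lit 17721736888704) (nat_lit 1) (nat_lit 4) (nat_lit 2) (nat_lit 5) (nat_lit 2) (nat_lit 4) (nat_lit 337) (nat_lit 267) (nat_lit 176)) (XT.nd (nat_lit 78) (nat_lit 0) (nat_lit 0) (XT.lf (nat_lit 0) (nat_lit 10964120205076) (nat_lit 76) (nat_lit 20363238154955) (nat_lit 76) (nat_lit 20345311381636) (nat_lit 1) (nat_lit 4) (nat_lit 2) (nat_lit 5) (nat_lit 2) (nat_lit 4) (nat_lit 338) (nat_lit 267) (nat_lit 175)) (XT.lf (nat_lit 0) (nat_lit 12675914524295) (nat_lit 76) (nat_lit 23380348855221) (nat_lit 76) (nat_lit 23362422075811) (nat_lit 1) (nat_lit 4) (nat_lit 2) (nat_lit 5) (nat_lit 2) (nat_lit 4) (nat_lit 339) (nat_lit 267) (nat_lit 174))))) (XT.nd (nat_lit 156) (nat_lit 0) (nat_lit 0) (XT.nd (nat_lit 78) (nat_lit 0) (nat_lit 0) (XT.lf (nat_lit 0) (nat_lit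 14644477948726) (nat_lit 76) (nat_lit 26850026182561) (nat_lit 76) (nat_lit 26832099397854) (nat_lit 1) (nat_lit 4) (nat_lit 2) (nat_lit 5) (nat_lit 2) (nat_lit 4) (nat_lit 340) (nat_lit 267) (nat_lit 173)) (XT.lf (nat_lit 0) (nat_lit 16908325849714) (nat_lit 76) (nat_lit 30840155128161) (nat_lit 76) (nat_lit 30822228338848) (nat_lit 1) (nat_lit 4) (nat_lit 2) (nat_lit 5) (nat_lit 2) (nat_lit 4) (nat_lit 341) (nat_lit 267) (nat_lit 172))) (XT.nd (nat_lit 78) (nat_lit 0) (nat_lit 0) (XT.lf (nat_lit 0) (nat_lit 19511750903584) (nat_lit 76) (nat_lit 35428803432262) (nat_lit 76) (nat_lit 35410876638944) (nat_lit 1) (nat_lit 4) (nat_lit 2) (nat_lit 5) (nat_lit 2) (nat_lit 4) (nat_lit 342) (nat_lit 267) (nat_lit 171)) (XT.nd (nat_lit 156) (nat_lit 0) (nat_lit 0) (XT.lf (nat_lit 0) (nat_lit 22505689687477) (nat_lit 76) (nat_lit 40705748996465) (nat_lit 76) (nat_lit 40687822199664) (nat_lit 1)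 (nat_lit 4) (nat_lit 2) (nat_lit 5) (nat_lit 2) (nat_lit 4) (nat_lit 343) (nat_lit 267) (nat_lit 170)) (XT.lf (nat_lit 0) (nat_lit 29908203256981) (nat_lit 76) (nat_lit 53752996941997) (nat_lit 76) (nat_lit 53735070139534) (nat_lit 1) (nat_lit 4) (nat_lit 2) (nat_lit 5) (nat_lit 2) (nat_lit 4) (nat_lit 345) (nat_lit 267) (nat_lit 168))))))) (XT.nd (nat_lit 34944) (nat_lit 0) (nat_lit 836) (XT.nd (nat_lit 34554) (nat_lit 0) (nat_lit 1672) (XT.nd (nat_lit 156) (nat_lit 0) (nat_lit 0) (XT.nd (nat_lit 78) (nat_lit 0) (nat_lit 0) (XT.lf (nat_lit 0) (nat_lit 34461609829821) (nat_lit 76) (nat_lit 61778571565738) (nat_lit 76) (nat_lit 61760644760986) (nat_lit 1) (nat_lit 4) (nat_lit 2) (nat_lit 5) (nat_lit 2) (nat_lit 4) (nat_lit 346) (nat_lit 267) (nat_lit 167)) (XT.lf (nat_lit 0) (nat_lit 39698027372545) (nat_lit 76) (nat_lit 71007982391324) (nat_lit 76) (nat_lit 70990055584581) (nat_lit 1)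 (nat_lit 4) (nat_lit 2) (nat_lit 5) (nat_lit 2) (nat_lit 4) (nat_lit 347) (nat_lit 267) (nat_lit 166))) (XT.nd (nat_lit 78) (nat_lit 0) (nat_lit 0) (XT.lf (nat_lit 0) (nat_lit 45719907532728) (nat_lit 76) (nat_lit 81621804847951) (nat_lit 76) (nat_lit 81603878039476) (nat_lit 1) (nat_lit 4) (nat_lit 2) (nat_lit 5) (nat_lit 2) (nat_lit 4) (nat_lit 348) (nat_lit 267) (nat_lit 165)) (XT.nd (nat_lit 78) (nat_lit 0) (nat_lit 0) (XT.lf (nat_lit 0) (nat_lit 52645069704808) (nat_lit 76) (nat_lit 93827700679335) (nat_lit 76) (nat_lit 93809773869354) (nat_lit 1) (nat_lit 4) (nat_lit 2) (nat_lit 5) (nat_lit 2) (nat_lit 4) (nat_lit 349) (nat_lit 267) (nat_lit 164)) (XT.lf (nat_lit 0) (nat_lit 60609006192153) (nat_lit 76) (nat_lit 107864480890873) (nat_lit 76) (nat_lit 107846554079583) (nat_lit 1) (nat_lit 4) (nat_lit 2) (nat_lit 5) (nat_lit 2) (nat_lit 4) (nat_lit 350) (nat_lit 267) (nat_lit 163)))))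 (XT.nd (nat_lit 156) (nat_lit 0) (nat_lit 76) (XT.nd (nat_lit 78) (nat_lit 0) (nat_lit 0) (XT.lf (nat_lit 0) (nat_lit 203366961) (nat_lit 380) (nat_lit 3080896869) (nat_lit 380) (nat_lit 3080896869) (nat_lit 23) (nat_lit 3) (nat_lit 28) (nat_lit 3) (nat_lit 28) (nat_lit 5) (nat_lit 268) (nat_lit 268) (nat_lit 244)) (XT.lf (nat_lit 0) (nat_lit 822189426) (nat_lit 380) (nat_lit 146768038) (nat_lit 380) (nat_lit 12657155519) (nat_lit 23) (nat_lit 3) (nat_lit 28) (nat_lit 3) (nat_lit 28) (nat_lit 5) (nat_lit 269) (nat_lit 268) (nat_lit 243))) (XT.nd (nat_lit 78) (nat_lit 0) (nat_lit 0) (XT.lf (nat_lit 0) (nat_lit 1779670053) (nat_lit 304) (nat_lit 7474386109) (nat_lit 380) (nat_lit 5330481902) (nat_lit 24) (nat_lit 5) (nat_lit 28) (nat_lit 5) (nat_lit 29) (nat_lit 5) (nat_lit 270) (nat_lit 268) (nat_lit 242)) (XT.nd (nat_lit 78) (nat_lit 0) (nat_lit 76) (XT.lf (nat_lit 0) (nat_lit 2874757641)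 (nat_lit 304) (nat_lit 308040208) (nat_lit 380) (nat_lit 12505023308) (nat_lit 24) (nat_lit 5) (nat_lit 28) (nat_lit 5) (nat_lit 29) (nat_lit 5) (nat_lit 271) (nat_lit 268) (nat_lit 241)) (XT.lf (nat_lit 0) (nat_lit 4615301856) (nat_lit 304) (nat_lit 8422966797) (nat_lit 76) (nat_lit 3846315978) (nat_lit 25) (nat_lit 5) (nat_lit 29) (nat_lit 5) (nat_lit 26) (nat_lit 5) (nat_lit 272) (nat_lit 268) (nat_lit 240)))))) (XT.nd (nat_lit 390) (nat_lit 456) (nat_lit 0) (XT.nd (nat_lit 156) (nat_lit 228) (nat_lit 0) (XT.nd (nat_lit 78) (nat_lit 0) (nat_lit 0) (XT.lf (nat_lit 0) (nat_lit 135188451) (nat_lit 304) (nat_lit 6608902268) (nat_lit 380) (nat_lit 11497842622) (nat_lit 21) (nat_lit 5) (nat_lit 25) (nat_lit 5) (nat_lit 26) (nat_lit 5) (nat_lit 273) (nat_lit 268) (nat_lit 239)) (XT.lf (nat_lit 0) (nat_lit 9643219590) (nat_lit 380) (nat_lit 8918284209) (nat_lit 76) (nat_lit 1173853533) (nat_lit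 21) (nat_lit 5) (nat_lit 26) (nat_lit 5) (nat_lit 22) (nat_lit 5) (nat_lit 274) (nat_lit 268) (nat_lit 238))) (XT.nd (nat_lit 78) (nat_lit 76) (nat_lit 0) (XT.lf (nat_lit 0) (nat_lit 1414755853) (nat_lit 152) (nat_lit 11898592046) (nat_lit 228) (nat_lit 8089137276) (nat_lit 19) (nat_lit 5) (nat_lit 21) (nat_lit 5) (nat_lit 22) (nat_lit 5) (nat_lit 275) (nat_lit 268) (nat_lit 237)) (XT.nd (nat_lit 78) (nat_lit 76) (nat_lit 0) (XT.lf (nat_lit 0) (nat_lit 14257156357) (nat_lit 152) (nat_lit 3708931800) (nat_lit 228) (nat_lit 5288875579) (nat_lit 19) (nat_lit 5) (nat_lit 21) (nat_lit 5) (nat_lit 22) (nat_lit 5) (nat_lit 276) (nat_lit 268) (nat_lit 236)) (XT.lf (nat_lit 0) (nat_lit 3691316931) (nat_lit 76) (nat_lit 19984716364) (nat_lit 152) (nat_lit 1655469709) (nat_lit 18) (nat_lit 5) (nat_lit 19) (nat_lit 5) (nat_lit 20) (nat_lit 4) (nat_lit 277) (nat_lit 268) (nat_lit 235))))) (XT.nd (nat_lit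 234) (nat_lit 228) (nat_lit 0) (XT.nd (nat_lit 78) (nat_lit 152) (nat_lit 0) (XT.lf (nat_lit 0) (nat_lit 2938611942) (nat_lit 152) (nat_lit 8699939586) (nat_lit 76) (nat_lit 15969322650) (nat_lit 17) (nat_lit 5) (nat_lit 19) (nat_lit 5) (nat_lit 18) (nat_lit 5) (nat_lit 278) (nat_lit 268) (nat_lit 234)) (XT.nd (nat_lit 78) (nat_lit 0) (nat_lit 0) (XT.lf (nat_lit 0) (nat_lit 6658301447) (nat_lit 152) (nat_lit 1644436871) (nat_lit 228) (nat_lit 21873629345) (nat_lit 15) (nat_lit 5) (nat_lit 17) (nat_lit 5) (nat_lit 18) (nat_lit 5) (nat_lit 279) (nat_lit 268) (nat_lit 233)) (XT.lf (nat_lit 0) (nat_lit 15331787282) (nat_lit 228) (nat_lit 8231731638) (nat_lit 76) (nat_lit 9437618159) (nat_lit 15) (nat_lit 5) (nat_lit 18) (nat_lit 5) (nat_lit 16) (nat_lit 4) (nat_lit 280) (nat_lit 268) (nat_lit 232)))) (XT.nd (nat_lit 78) (nat_lit 152) (nat_lit 0) (XT.lf (nat_lit 0) (nat_lit 10138477151) (nat_lit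 76) (nat_lit 13754018955) (nat_lit 152) (nat_lit 12285571689) (nat_lit 14) (nat_lit 5) (nat_lit 15) (nat_lit 5) (nat_lit 16) (nat_lit 4) (nat_lit 281) (nat_lit 268) (nat_lit 231)) (XT.nd (nat_lit 78) (nat_lit 152) (nat_lit 0) (XT.lf (nat_lit 0) (nat_lit 32157501515) (nat_lit 76) (nat_lit 1990684461) (nat_lit 152) (nat_lit 5621756818) (nat_lit 14) (nat_lit 5) (nat_lit 15) (nat_lit 5) (nat_lit 16) (nat_lit 4) (nat_lit 282) (nat_lit 268) (nat_lit 230)) (XT.lf (nat_lit 0) (nat_lit 2964599273) (nat_lit 152) (nat_lit 29528547810) (nat_lit 76) (nat_lit 11229088802) (nat_lit 12) (nat_lit 5) (nat_lit 14) (nat_lit 5) (nat_lit 13) (nat_lit 4) (nat_lit 283) (nat_lit 268) (nat_lit 229))))))))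
noncomputable def xc64 : XT := (XT.nd (nat_lit 1560) (nat_lit 76) (nat_lit 0) (XT.nd (nat_lit 780) (nat_lit 380) (nat_lit 0) (XT.nd (nat_lit 390) (nat_lit 152) (nat_lit 0) (XT.nd (nat_lit 156) (nat_lit 152) (nat_lit 0) (XT.nd (nat_lit 78) (nat_lit 76) (nat_lit 0) (XT.lf (nat_lit 0) (nat_lit 12757963509) (nat_lit 152) (nat_lit 8493006274) (nat_lit 76) (nat_lit 26902079014) (nat_lit 12) (nat_lit 5) (nat_lit 14) (nat_lit 5) (nat_lit 13) (nat_lit 4) (nat_lit 284) (nat_lit 268) (nat_lit 228)) (XT.lf (nat_lit 0) (nat_lit 17203199205) (nat_lit 76) (nat_lit 7514654242) (nat_lit 152) (nat_lit 28426022553) (nat_lit 11) (nat_lit 5) (nat_lit 12) (nat_lit 5) (nat_lit 13) (nat_lit 4) (nat_lit 285) (nat_lit 268) (nat_lit 227))) (XT.nd (nat_lit 78) (nat_lit 152) (nat_lit 0) (XT.lf (nat_lit 0) (nat_lit 39265376162) (nat_lit 152) (nat_lit 11499157090) (nat_lit 0) (nat_lit 7999764479) (nat_lit 11) (nat_lit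 5) (nat_lit 13) (nat_lit 4) (nat_lit 11) (nat_lit 4) (nat_lit 286) (nat_lit 268) (nat_lit 226)) (XT.nd (nat_lit 78) (nat_lit 76) (nat_lit 0) (XT.lf (nat_lit 0) (nat_lit 17813432449) (nat_lit 76) (nat_lit 39264540136) (nat_lit 76) (nat_lit 7987383856) (nat_lit 10) (nat_lit 4) (nat_lit 11) (nat_lit 5) (nat_lit 11) (nat_lit 4) (nat_lit 287) (nat_lit 268) (nat_lit 225)) (XT.lf (nat_lit 0) (nat_lit 5400759818) (nat_lit 152) (nat_lit 19675561449) (nat_lit 76) (nat_lit 47110048427) (nat_lit 9) (nat_lit 5) (nat_lit 11) (nat_lit 5) (nat_lit 10) (nat_lit 4) (nat_lit 288) (nat_lit 268) (nat_lit 224))))) (XT.nd (nat_lit 156) (nat_lit 76) (nat_lit 0) (XT.nd (nat_lit 78) (nat_lit 0) (nat_lit 0) (XT.lf (nat_lit 0) (nat_lit 12773804215) (nat_lit 76) (nat_lit 7723743992) (nat_lit 152) (nat_lit 59743217316) (nat_lit 8) (nat_lit 5) (nat_lit 9) (nat_lit 5) (nat_lit 10) (nat_lit 4) (nat_lit 289) (nat_lit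 268) (nat_lit 223)) (XT.lf (nat_lit 0) (nat_lit 39432276591) (nat_lit 152) (nat_lit 37623211146) (nat_lit 0) (nat_lit 12211828599) (nat_lit 8) (nat_lit 5) (nat_lit 10) (nat_lit 4) (nat_lit 8) (nat_lit 4) (nat_lit 290) (nat_lit 268) (nat_lit 222))) (XT.nd (nat_lit 78) (nat_lit 76) (nat_lit 0) (XT.lf (nat_lit 0) (nat_lit 61565847285) (nat_lit 152) (nat_lit 3688555655) (nat_lit 0) (nat_lit 34339659587) (nat_lit 8) (nat_lit 5) (nat_lit 10) (nat_lit 4) (nat_lit 8) (nat_lit 4) (nat_lit 291) (nat_lit 268) (nat_lit 221)) (XT.nd (nat_lit 78) (nat_lit 0) (nat_lit 0) (XT.lf (nat_lit 0) (nat_lit 38772570158) (nat_lit 76) (nat_lit 49844403931) (nat_lit 76) (nat_lit 22613225186) (nat_lit 7) (nat_lit 4) (nat_lit 8) (nat_lit 5) (nat_lit 8) (nat_lit 4) (nat_lit 292) (nat_lit 268) (nat_lit 220)) (XT.lf (nat_lit 0) (nat_lit 88002583810) (nat_lit 76) (nat_lit 31908453610) (nat_lit 76) (nat_lit 4672934824)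 (nat_lit 7) (nat_lit 4) (nat_lit 8) (nat_lit 5) (nat_lit 8) (nat_lit 4) (nat_lit 293) (nat_lit 268) (nat_lit 219)))))) (XT.nd (nat_lit 390) (nat_lit 152) (nat_lit 0) (XT.nd (nat_lit 156) (nat_lit 76) (nat_lit 0) (XT.nd (nat_lit 78) (nat_lit 0) (nat_lit 0) (XT.lf (nat_lit 0) (nat_lit 4393014399) (nat_lit 76) (nat_lit 10319686593) (nat_lit 152) (nat_lit 125102739742) (nat_lit 5) (nat_lit 5) (nat_lit 6) (nat_lit 5) (nat_lit 7) (nat_lit 4) (nat_lit 294) (nat_lit 268) (nat_lit 218)) (XT.lf (nat_lit 0) (nat_lit 39124967288) (nat_lit 152) (nat_lit 102347935114) (nat_lit 0) (nat_lit 15435772131) (nat_lit 5) (nat_lit 5) (nat_lit 7) (nat_lit 4) (nat_lit 5) (nat_lit 4) (nat_lit 295) (nat_lit 268) (nat_lit 217))) (XT.nd (nat_lit 78) (nat_lit 76) (nat_lit 0) (XT.lf (nat_lit 0) (nat_lit 67684589613) (nat_lit 152) (nat_lit 64815566686) (nat_lit 0) (nat_lit 43992913024) (nat_lit 5) (nat_lit 5) (nat_lit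 7) (nat_lit 4) (nat_lit 5) (nat_lit 4) (nat_lit 296) (nat_lit 268) (nat_lit 216)) (XT.nd (nat_lit 78) (nat_lit 76) (nat_lit 0) (XT.lf (nat_lit 0) (nat_lit 100523026973) (nat_lit 152) (nat_lit 21663675890) (nat_lit 0) (nat_lit 76829192616) (nat_lit 5) (nat_lit 5) (nat_lit 7) (nat_lit 4) (nat_lit 5) (nat_lit 4) (nat_lit 297) (nat_lit 268) (nat_lit 215)) (XT.lf (nat_lit 0) (nat_lit 30683687436) (nat_lit 76) (nat_lit 108869629160) (nat_lit 76) (nat_lit 85173918484) (nat_lit 4) (nat_lit 4) (nat_lit 5) (nat_lit 5) (nat_lit 5) (nat_lit 4) (nat_lit 298) (nat_lit 268) (nat_lit 214))))) (XT.nd (nat_lit 156) (nat_lit 152) (nat_lit 0) (XT.nd (nat_lit 78) (nat_lit 0) (nat_lit 0) (XT.lf (nat_lit 0) (nat_lit 93309280307) (nat_lit 76) (nat_lit 92257055893) (nat_lit 76) (nat_lit 68559713634) (nat_lit 4) (nat_lit 4) (nat_lit 5) (nat_lit 5) (nat_lit 5) (nat_lit 4) (nat_lit 299) (nat_lit 268) (nat_lit 213))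 (XT.lf (nat_lit 0) (nat_lit 165321254098) (nat_lit 76) (nat_lit 73156373875) (nat_lit 76) (nat_lit 49457612850) (nat_lit 4) (nat_lit 4) (nat_lit 5) (nat_lit 5) (nat_lit 5) (nat_lit 4) (nat_lit 300) (nat_lit 268) (nat_lit 212))) (XT.nd (nat_lit 78) (nat_lit 152) (nat_lit 0) (XT.lf (nat_lit 0) (nat_lit 248128538732) (nat_lit 76) (nat_lit 51193874111) (nat_lit 76) (nat_lit 27493879375) (nat_lit 4) (nat_lit 4) (nat_lit 5) (nat_lit 5) (nat_lit 5) (nat_lit 4) (nat_lit 301) (nat_lit 268) (nat_lit 211)) (XT.nd (nat_lit 78) (nat_lit 152) (nat_lit 0) (XT.lf (nat_lit 0) (nat_lit 343351276734) (nat_lit 76) (nat_lit 25939855518) (nat_lit 76) (nat_lit 2238787990) (nat_lit 4) (nat_lit 4) (nat_lit 5) (nat_lit 5) (nat_lit 5) (nat_lit 4) (nat_lit 302) (nat_lit 268) (nat_lit 210)) (XT.lf (nat_lit 0) (nat_lit 25967942044) (nat_lit 152) (nat_lit 391226201171) (nat_lit 0) (nat_lit 5357506922) (nat_lit 2) (nat_lit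 5) (nat_lit 4) (nat_lit 4) (nat_lit 2) (nat_lit 4) (nat_lit 303) (nat_lit 268) (nat_lit 209))))))) (XT.nd (nat_lit 780) (nat_lit 76) (nat_lit 0) (XT.nd (nat_lit 390) (nat_lit 0) (nat_lit 0) (XT.nd (nat_lit 156) (nat_lit 0) (nat_lit 0) (XT.nd (nat_lit 78) (nat_lit 0) (nat_lit 0) (XT.lf (nat_lit 0) (nat_lit 60952306482) (nat_lit 152) (nat_lit 379500801536) (nat_lit 0) (nat_lit 40341165982) (nat_lit 2) (nat_lit 5) (nat_lit 4) (nat_lit 4) (nat_lit 2) (nat_lit 4) (nat_lit 304) (nat_lit 268) (nat_lit 208)) (XT.lf (nat_lit 0) (nat_lit 101182140138) (nat_lit 152) (nat_lit 366021093679) (nat_lit 0) (nat_lit 80570386266) (nat_lit 2) (nat_lit 5) (nat_lit 4) (nat_lit 4) (nat_lit 2) (nat_lit 4) (nat_lit 305) (nat_lit 268) (nat_lit 207))) (XT.nd (nat_lit 78) (nat_lit 0) (nat_lit 0) (XT.lf (nat_lit 0) (nat_lit 147444548454) (nat_lit 152) (nat_lit 350523344184) (nat_lit 0) (nat_lit 126832261214) (nat_lit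 2) (nat_lit 5) (nat_lit 4) (nat_lit 4) (nat_lit 2) (nat_lit 4) (nat_lit 306) (nat_lit 268) (nat_lit 206)) (XT.nd (nat_lit 78) (nat_lit 0) (nat_lit 0) (XT.lf (nat_lit 0) (nat_lit 200644665506) (nat_lit 152) (nat_lit 332704336215) (nat_lit 0) (nat_lit 180031914469) (nat_lit 2) (nat_lit 5) (nat_lit 4) (nat_lit 4) (nat_lit 2) (nat_lit 4) (nat_lit 307) (nat_lit 268) (nat_lit 205)) (XT.lf (nat_lit 0) (nat_lit 261823363148) (nat_lit 152) (nat_lit 312215437005) (nat_lit 0) (nat_lit 241210208809) (nat_lit 2) (nat_lit 5) (nat_lit 4) (nat_lit 4) (nat_lit 2) (nat_lit 4) (nat_lit 308) (nat_lit 268) (nat_lit 204))))) (XT.nd (nat_lit 156) (nat_lit 0) (nat_lit 0) (XT.nd (nat_lit 78) (nat_lit 0) (nat_lit 0) (XT.lf (nat_lit 0) (nat_lit 332177615901) (nat_lit 152) (nat_lit 288655776789) (nat_lit 0) (nat_lit 311564110864) (nat_lit 2) (nat_lit 5) (nat_lit 4) (nat_lit 4) (nat_lit 2) (nat_lit 4) (nat_lit 309)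 (nat_lit 268) (nat_lit 203)) (XT.lf (nat_lit 0) (nat_lit 413083920013) (nat_lit 152) (nat_lit 261564405692) (nat_lit 0) (nat_lit 392470110021) (nat_lit 2) (nat_lit 5) (nat_lit 4) (nat_lit 4) (nat_lit 2) (nat_lit 4) (nat_lit 310) (nat_lit 268) (nat_lit 202))) (XT.nd (nat_lit 78) (nat_lit 0) (nat_lit 0) (XT.lf (nat_lit 0) (nat_lit 506125224912) (nat_lit 152) (nat_lit 230411275149) (nat_lit 0) (nat_lit 485511149743) (nat_lit 2) (nat_lit 5) (nat_lit 4) (nat_lit 4) (nat_lit 2) (nat_lit 4) (nat_lit 311) (nat_lit 268) (nat_lit 201)) (XT.nd (nat_lit 78) (nat_lit 0) (nat_lit 0) (XT.lf (nat_lit 0) (nat_lit 613121903956) (nat_lit 152) (nat_lit 194586867390) (nat_lit 0) (nat_lit 592507598198) (nat_lit 2) (nat_lit 5) (nat_lit 4) (nat_lit 4) (nat_lit 2) (nat_lit 4) (nat_lit 312) (nat_lit 268) (nat_lit 200)) (XT.lf (nat_lit 0) (nat_lit 736167370431) (nat_lit 152) (nat_lit 153390270087) (nat_lit 0) (nat_lit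 715552864160) (nat_lit 2) (nat_lit 5) (nat_lit 4) (nat_lit 4) (nat_lit 2) (nat_lit 4) (nat_lit 313) (nat_lit 268) (nat_lit 199)))))) (XT.nd (nat_lit 390) (nat_lit 0) (nat_lit 0) (XT.nd (nat_lit 156) (nat_lit 76) (nat_lit 0) (XT.nd (nat_lit 78) (nat_lit 0) (nat_lit 0) (XT.lf (nat_lit 0) (nat_lit 877669035636) (nat_lit 152) (nat_lit 106015462860) (nat_lit 0) (nat_lit 857054355006) (nat_lit 2) (nat_lit 5) (nat_lit 4) (nat_lit 4) (nat_lit 2) (nat_lit 4) (nat_lit 314) (nat_lit 268) (nat_lit 198)) (XT.lf (nat_lit 0) (nat_lit 1040395410412) (nat_lit 152) (nat_lit 51535547305) (nat_lit 0) (nat_lit 1019780578167) (nat_lit 2) (nat_lit 5) (nat_lit 4) (nat_lit 4) (nat_lit 2) (nat_lit 4) (nat_lit 315) (nat_lit 268) (nat_lit 197))) (XT.nd (nat_lit 78) (nat_lit 0) (nat_lit 0) (XT.lf (nat_lit 0) (nat_lit 12201664518) (nat_lit 76) (nat_lit 1215833852048) (nat_lit 76) (nat_lit 1195218887962) (nat_lit 1)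 (nat_lit 4) (nat_lit 2) (nat_lit 5) (nat_lit 2) (nat_lit 4) (nat_lit 316) (nat_lit 268) (nat_lit 196)) (XT.nd (nat_lit 78) (nat_lit 0) (nat_lit 0) (XT.lf (nat_lit 0) (nat_lit 91290427243) (nat_lit 76) (nat_lit 1355224668287) (nat_lit 76) (nat_lit 1334609589558) (nat_lit 1) (nat_lit 4) (nat_lit 2) (nat_lit 5) (nat_lit 2) (nat_lit 4) (nat_lit 317) (nat_lit 268) (nat_lit 195)) (XT.lf (nat_lit 0) (nat_lit 182241701219) (nat_lit 76) (nat_lit 1515524521668) (nat_lit 76) (nat_lit 1494909343248) (nat_lit 1) (nat_lit 4) (nat_lit 2) (nat_lit 5) (nat_lit 2) (nat_lit 4) (nat_lit 318) (nat_lit 268) (nat_lit 194))))) (XT.nd (nat_lit 156) (nat_lit 0) (nat_lit 0) (XT.nd (nat_lit 78) (nat_lit 0) (nat_lit 0) (XT.lf (nat_lit 0) (nat_lit 286834967892) (nat_lit 76) (nat_lit 1699869713669) (nat_lit 76) (nat_lit 1679254448562) (nat_lit 1) (nat_lit 4) (nat_lit 2) (nat_lit 5) (nat_lit 2) (nat_lit 4) (nat_lit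 319) (nat_lit 268) (nat_lit 193)) (XT.lf (nat_lit 0) (nat_lit 407116617263) (nat_lit 76) (nat_lit 1911866998047) (nat_lit 76) (nat_lit 1891251657560) (nat_lit 1) (nat_lit 4) (nat_lit 2) (nat_lit 5) (nat_lit 2) (nat_lit 4) (nat_lit 320) (nat_lit 268) (nat_lit 192))) (XT.nd (nat_lit 78) (nat_lit 0) (nat_lit 0) (XT.lf (nat_lit 0) (nat_lit 545439985950) (nat_lit 76) (nat_lit 2155664147756) (nat_lit 76) (nat_lit 2135048741722) (nat_lit 1) (nat_lit 4) (nat_lit 2) (nat_lit 5) (nat_lit 2) (nat_lit 4) (nat_lit 321) (nat_lit 268) (nat_lit 191)) (XT.nd (nat_lit 78) (nat_lit 0) (nat_lit 0) (XT.lf (nat_lit 0) (nat_lit 704511400731) (nat_lit 76) (nat_lit 2436031107032) (nat_lit 76) (nat_lit 2415415643999) (nat_lit 1) (nat_lit 4) (nat_lit 2) (nat_lit 5) (nat_lit 2) (nat_lit 4) (nat_lit 322) (nat_lit 268) (nat_lit 190)) (XT.lf (nat_lit 0) (nat_lit 887443128418) (nat_lit 76) (nat_lit 2758453316380) (nat_lit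 76) (nat_lit 2737837803783) (nat_lit 1) (nat_lit 4) (nat_lit 2) (nat_lit 5) (nat_lit 2) (nat_lit 4) (nat_lit 323) (nat_lit 268) (nat_lit 189))))))))
noncomputable def xc65 : XT := (XT.nd (nat_lit 1560) (nat_lit 0) (nat_lit 0) (XT.nd (nat_lit 780) (nat_lit 0) (nat_lit 0) (XT.nd (nat_lit 390) (nat_lit 0) (nat_lit 0) (XT.nd (nat_lit 156) (nat_lit 0) (nat_lit 0) (XT.nd (nat_lit 78) (nat_lit 0) (nat_lit 0) (XT.lf (nat_lit 0) (nat_lit 1097814268031) (nat_lit 76) (nat_lit 3129239036419) (nat_lit 76) (nat_lit 3108623480724) (nat_lit 1) (nat_lit 4) (nat_lit 2) (nat_lit 5) (nat_lit 2) (nat_lit 4) (nat_lit 324) (nat_lit 268) (nat_lit 188)) (XT.lf (nat_lit 0) (nat_lit 1339740776648) (nat_lit 76) (nat_lit 3555642770367) (nat_lit 76) (nat_lit 3535027177195) (nat_lit 1) (nat_lit 4) (nat_lit 2) (nat_lit 5) (nat_lit 2) (nat_lit 4) (nat_lit 325) (nat_lit 268) (nat_lit 187))) (XT.nd (nat_lit 78) (nat_lit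 0) (nat_lit 0) (XT.lf (nat_lit 0) (nat_lit 1617955999004) (nat_lit 76) (nat_lit 4046007199975) (nat_lit 76) (nat_lit 4025391574214) (nat_lit 1) (nat_lit 4) (nat_lit 2) (nat_lit 5) (nat_lit 2) (nat_lit 4) (nat_lit 326) (nat_lit 268) (nat_lit 186)) (XT.nd (nat_lit 78) (nat_lit 0) (nat_lit 0) (XT.lf (nat_lit 0) (nat_lit 1937903276405) (nat_lit 76) (nat_lit 4609926411910) (nat_lit 76) (nat_lit 4589310757810) (nat_lit 1) (nat_lit 4) (nat_lit 2) (nat_lit 5) (nat_lit 2) (nat_lit 4) (nat_lit 327) (nat_lit 268) (nat_lit 185)) (XT.lf (nat_lit 0) (nat_lit 2305842446888) (nat_lit 76) (nat_lit 5258433608143) (nat_lit 76) (nat_lit 5237817929402) (nat_lit 1) (nat_lit 4) (nat_lit 2) (nat_lit 5) (nat_lit 2) (nat_lit 4) (nat_lit 328) (nat_lit 268) (nat_lit 184))))) (XT.nd (nat_lit 156) (nat_lit 0) (nat_lit 0) (XT.nd (nat_lit 78) (nat_lit 0) (nat_lit 0) (XT.lf (nat_lit 0) (nat_lit 2728972320310) (nat_lit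 76) (nat_lit 6004216972949) (nat_lit 76) (nat_lit 5983601272780) (nat_lit 1) (nat_lit 4) (nat_lit 2) (nat_lit 5) (nat_lit 2) (nat_lit 4) (nat_lit 329) (nat_lit 268) (nat_lit 183)) (XT.lf (nat_lit 0) (nat_lit 3215571524630) (nat_lit 76) (nat_lit 6861867919988) (nat_lit 76) (nat_lit 6841252201186) (nat_lit 1) (nat_lit 4) (nat_lit 2) (nat_lit 5) (nat_lit 2) (nat_lit 4) (nat_lit 330) (nat_lit 268) (nat_lit 182))) (XT.nd (nat_lit 78) (nat_lit 0) (nat_lit 0) (XT.lf (nat_lit 0) (nat_lit 3775160479061) (nat_lit 76) (nat_lit 7848166576484) (nat_lit 76) (nat_lit 7827550841479) (nat_lit 1) (nat_lit 4) (nat_lit 2) (nat_lit 5) (nat_lit 2) (nat_lit 4) (nat_lit 331) (nat_lit 268) (nat_lit 181)) (XT.nd (nat_lit 78) (nat_lit 0) (nat_lit 0) (XT.lf (nat_lit 0) (nat_lit 4418687663148) (nat_lit 76) (nat_lit 8982410090064) (nat_lit 76) (nat_lit 8961794340970) (nat_lit 1) (nat_lit 4) (nat_lit 2) (nat_lit 5)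 (nat_lit 2) (nat_lit 4) (nat_lit 332) (nat_lit 268) (nat_lit 180)) (XT.lf (nat_lit 0) (nat_lit 5158743826144) (nat_lit 76) (nat_lit 10286790181645) (nat_lit 76) (nat_lit 10266174420301) (nat_lit 1) (nat_lit 4) (nat_lit 2) (nat_lit 5) (nat_lit 2) (nat_lit 4) (nat_lit 333) (nat_lit 268) (nat_lit 179)))))) (XT.nd (nat_lit 390) (nat_lit 0) (nat_lit 0) (XT.nd (nat_lit 156) (nat_lit 0) (nat_lit 0) (XT.nd (nat_lit 78) (nat_lit 0) (nat_lit 0) (XT.lf (nat_lit 0) (nat_lit 6009808327761) (nat_lit 76) (nat_lit 11786827331282) (nat_lit 76) (nat_lit 11766211559284) (nat_lit 1) (nat_lit 4) (nat_lit 2) (nat_lit 5) (nat_lit 2) (nat_lit 4) (nat_lit 334) (nat_lit 268) (nat_lit 178)) (XT.lf (nat_lit 0) (nat_lit 6988532429985) (nat_lit 76) (nat_lit 13511870091901) (nat_lit 76) (nat_lit 13491254310639) (nat_lit 1) (nat_lit 4) (nat_lit 2) (nat_lit 5) (nat_lit 2) (nat_lit 4) (nat_lit 335) (nat_lit 268) (nat_lit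 177))) (XT.nd (nat_lit 78) (nat_lit 0) (nat_lit 0) (XT.lf (nat_lit 0) (nat_lit 8114065082645) (nat_lit 76) (nat_lit 15495669300122) (nat_lit 76) (nat_lit 15475053510805) (nat_lit 1) (nat_lit 4) (nat_lit 2) (nat_lit 5) (nat_lit 2) (nat_lit 4) (nat_lit 336) (nat_lit 268) (nat_lit 176)) (XT.nd (nat_lit 78) (nat_lit 0) (nat_lit 0) (XT.lf (nat_lit 0) (nat_lit 9408427576768) (nat_lit 76) (nat_lit 17777038418717) (nat_lit 76) (nat_lit 17756422622395) (nat_lit 1) (nat_lit 4) (nat_lit 2) (nat_lit 5) (nat_lit 2) (nat_lit 4) (nat_lit 337) (nat_lit 268) (nat_lit 175)) (XT.lf (nat_lit 0) (nat_lit 10896944395937) (nat_lit 76) (nat_lit 20400612930439) (nat_lit 76) (nat_lit 20379997128026) (nat_lit 1) (nat_lit 4) (nat_lit 2) (nat_lit 5) (nat_lit 2) (nat_lit 4) (nat_lit 338) (nat_lit 268) (nat_lit 174))))) (XT.nd (nat_lit 156) (nat_lit 0) (nat_lit 0) (XT.nd (nat_lit 78) (nat_lit 0) (nat_lit 0) (XT.lf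 (nat_lit 0) (nat_lit 12608738695309) (nat_lit 76) (nat_lit 23417723640954) (nat_lit 76) (nat_lit 23397107833244) (nat_lit 1) (nat_lit 4) (nat_lit 2) (nat_lit 5) (nat_lit 2) (nat_lit 4) (nat_lit 339) (nat_lit 268) (nat_lit 173)) (XT.lf (nat_lit 0) (nat_lit 14577302102481) (nat_lit 76) (nat_lit 26887400977204) (nat_lit 76) (nat_lit 26866785164889) (nat_lit 1) (nat_lit 4) (nat_lit 2) (nat_lit 5) (nat_lit 2) (nat_lit 4) (nat_lit 340) (nat_lit 268) (nat_lit 172))) (XT.nd (nat_lit 78) (nat_lit 0) (nat_lit 0) (XT.lf (nat_lit 0) (nat_lit 16841149988461) (nat_lit 76) (nat_lit 30877529930554) (nat_lit 76) (nat_lit 30856914114233) (nat_lit 1) (nat_lit 4) (nat_lit 2) (nat_lit 5) (nat_lit 2) (nat_lit 4) (nat_lit 341) (nat_lit 268) (nat_lit 171)) (XT.nd (nat_lit 78) (nat_lit 0) (nat_lit 0) (XT.lf (nat_lit 0) (nat_lit 19444575029281) (nat_lit 76) (nat_lit 35466178241393) (nat_lit 76) (nat_lit 35445562421589)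 (nat_lit 1) (nat_lit 4) (nat_lit 2) (nat_lit 5) (nat_lit 2) (nat_lit 4) (nat_lit 342) (nat_lit 268) (nat_lit 170)) (XT.lf (nat_lit 0) (nat_lit 22438513801826) (nat_lit 76) (nat_lit 40743123811455) (nat_lit 76) (nat_lit 40722507988624) (nat_lit 1) (nat_lit 4) (nat_lit 2) (nat_lit 5) (nat_lit 2) (nat_lit 4) (nat_lit 343) (nat_lit 268) (nat_lit 169))))))) (XT.nd (nat_lit 35022) (nat_lit 0) (nat_lit 1064) (XT.nd (nat_lit 390) (nat_lit 0) (nat_lit 0) (XT.nd (nat_lit 156) (nat_lit 0) (nat_lit 0) (XT.nd (nat_lit 78) (nat_lit 0) (nat_lit 0) (XT.lf (nat_lit 0) (nat_lit 25881543369037) (nat_lit 76) (nat_lit 46811611227982) (nat_lit 76) (nat_lit 46790995402517) (nat_lit 1) (nat_lit 4) (nat_lit 2) (nat_lit 5) (nat_lit 2) (nat_lit 4) (nat_lit 344) (nat_lit 268) (nat_lit 168)) (XT.lf (nat_lit 0) (nat_lit 29841027352882) (nat_lit 76) (nat_lit 53790371766513) (nat_lit 76) (nat_lit 53769755938758) (nat_lit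 1) (nat_lit 4) (nat_lit 2) (nat_lit 5) (nat_lit 2) (nat_lit 4) (nat_lit 345) (nat_lit 268) (nat_lit 167))) (XT.nd (nat_lit 78) (nat_lit 0) (nat_lit 0) (XT.lf (nat_lit 0) (nat_lit 34394433918260) (nat_lit 76) (nat_lit 61815946394107) (nat_lit 76) (nat_lit 61795330564361) (nat_lit 1) (nat_lit 4) (nat_lit 2) (nat_lit 5) (nat_lit 2) (nat_lit 4) (nat_lit 346) (nat_lit 268) (nat_lit 166)) (XT.nd (nat_lit 78) (nat_lit 0) (nat_lit 0) (XT.lf (nat_lit 0) (nat_lit 39630851454496) (nat_lit 76) (nat_lit 71045357223043) (nat_lit 76) (nat_lit 71024741391566) (nat_lit 1) (nat_lit 4) (nat_lit 2) (nat_lit 5) (nat_lit 2) (nat_lit 4) (nat_lit 347) (nat_lit 268) (nat_lit 165)) (XT.lf (nat_lit 0) (nat_lit 45652731609038) (nat_lit 76) (nat_lit 81659179682583) (nat_lit 76) (nat_lit 81638563849600) (nat_lit 1) (nat_lit 4) (nat_lit 2) (nat_lit 5) (nat_lit 2) (nat_lit 4) (nat_lit 348) (nat_lit 268) (nat_lit 164)))))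 (XT.nd (nat_lit 34398) (nat_lit 0) (nat_lit 1672) (XT.nd (nat_lit 78) (nat_lit 0) (nat_lit 0) (XT.lf (nat_lit 0) (nat_lit 52577893776212) (nat_lit 76) (nat_lit 93865075516500) (nat_lit 76) (nat_lit 93844459682208) (nat_lit 1) (nat_lit 4) (nat_lit 2) (nat_lit 5) (nat_lit 2) (nat_lit 4) (nat_lit 349) (nat_lit 268) (nat_lit 163)) (XT.lf (nat_lit 0) (nat_lit 60541830259290) (nat_lit 76) (nat_lit 107901855730241) (nat_lit 76) (nat_lit 107881239894810) (nat_lit 1) (nat_lit 4) (nat_lit 2) (nat_lit 5) (nat_lit 2) (nat_lit 4) (nat_lit 350) (nat_lit 268) (nat_lit 162))) (XT.nd (nat_lit 78) (nat_lit 0) (nat_lit 0) (XT.lf (nat_lit 0) (nat_lit 602882487) (nat_lit 380) (nat_lit 3330256068) (nat_lit 380) (nat_lit 3330256068) (nat_lit 23) (nat_lit 3) (nat_lit 28) (nat_lit 3) (nat_lit 28) (nat_lit 5) (nat_lit 269) (nat_lit 269) (nat_lit 242)) (XT.nd (nat_lit 78) (nat_lit 0) (nat_lit 76) (XT.lf (nat_lit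 76) (nat_lit 220929479) (nat_lit 0) (nat_lit 1375493938) (nat_lit 380) (nat_lit 13973903533) (nat_lit 24) (nat_lit 5) (nat_lit 23) (nat_lit 3) (nat_lit 28) (nat_lit 5) (nat_lit 270) (nat_lit 269) (nat_lit 241)) (XT.lf (nat_lit 0) (nat_lit 2610209635) (nat_lit 304) (nat_lit 8145534171) (nat_lit 380) (nat_lit 5930139090) (nat_lit 24) (nat_lit 5) (nat_lit 28) (nat_lit 5) (nat_lit 29) (nat_lit 5) (nat_lit 271) (nat_lit 269) (nat_lit 240)))))) (XT.nd (nat_lit 390) (nat_lit 304) (nat_lit 0) (XT.nd (nat_lit 156) (nat_lit 380) (nat_lit 0) (XT.nd (nat_lit 78) (nat_lit 0) (nat_lit 76) (XT.lf (nat_lit 76) (nat_lit 40689102) (nat_lit 0) (nat_lit 3757044489) (nat_lit 380) (nat_lit 14167933335) (nat_lit 25) (nat_lit 5) (nat_lit 24) (nat_lit 5) (nat_lit 29) (nat_lit 5) (nat_lit 272) (nat_lit 269) (nat_lit 239)) (XT.lf (nat_lit 0) (nat_lit 5746398679) (nat_lit 304) (nat_lit 9242463807) (nat_lit 76) (nat_lit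 4361230429) (nat_lit 25) (nat_lit 5) (nat_lit 29) (nat_lit 5) (nat_lit 26) (nat_lit 5) (nat_lit 273) (nat_lit 269) (nat_lit 238))) (XT.nd (nat_lit 78) (nat_lit 152) (nat_lit 0) (XT.lf (nat_lit 0) (nat_lit 579235274) (nat_lit 304) (nat_lit 7575582964) (nat_lit 380) (nat_lit 12762356119) (nat_lit 21) (nat_lit 5) (nat_lit 25) (nat_lit 5) (nat_lit 26) (nat_lit 5) (nat_lit 274) (nat_lit 269) (nat_lit 237)) (XT.nd (nat_lit 78) (nat_lit 152) (nat_lit 0) (XT.lf (nat_lit 0) (nat_lit 11437645840) (nat_lit 380) (nat_lit 9835334108) (nat_lit 76) (nat_lit 1369461752) (nat_lit 21) (nat_lit 5) (nat_lit 26) (nat_lit 5) (nat_lit 22) (nat_lit 5) (nat_lit 275) (nat_lit 269) (nat_lit 236)) (XT.lf (nat_lit 0) (nat_lit 2028539566) (nat_lit 152) (nat_lit 13600998090) (nat_lit 228) (nat_lit 8934548475) (nat_lit 19) (nat_lit 5) (nat_lit 21) (nat_lit 5) (nat_lit 22) (nat_lit 5) (nat_lit 276) (nat_lit 269) (nat_lit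 235))))) (XT.nd (nat_lit 156) (nat_lit 228) (nat_lit 0) (XT.nd (nat_lit 78) (nat_lit 76) (nat_lit 0) (XT.lf (nat_lit 0) (nat_lit 16744921407) (nat_lit 152) (nat_lit 4193634384) (nat_lit 228) (nat_lit 5762242227) (nat_lit 19) (nat_lit 5) (nat_lit 21) (nat_lit 5) (nat_lit 22) (nat_lit 5) (nat_lit 277) (nat_lit 269) (nat_lit 234)) (XT.lf (nat_lit 0) (nat_lit 4615984751) (nat_lit 76) (nat_lit 22870745717) (nat_lit 152) (nat_lit 1604928407) (nat_lit 18) (nat_lit 5) (nat_lit 19) (nat_lit 5) (nat_lit 20) (nat_lit 4) (nat_lit 278) (nat_lit 269) (nat_lit 233))) (XT.nd (nat_lit 78) (nat_lit 152) (nat_lit 0) (XT.lf (nat_lit 0) (nat_lit 3616147228) (nat_lit 152) (nat_lit 9658700410) (nat_lit 76) (nat_lit 18438185177) (nat_lit 17) (nat_lit 5) (nat_lit 19) (nat_lit 5) (nat_lit 18) (nat_lit 5) (nat_lit 279) (nat_lit 269) (nat_lit 232)) (XT.nd (nat_lit 78) (nat_lit 0) (nat_lit 0) (XT.lf (nat_lit 0) (nat_lit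 7987539046) (nat_lit 152) (nat_lit 1780158912) (nat_lit 228) (nat_lit 24901748201) (nat_lit 15) (nat_lit 5) (nat_lit 17) (nat_lit 5) (nat_lit 18) (nat_lit 5) (nat_lit 280) (nat_lit 269) (nat_lit 231)) (XT.lf (nat_lit 0) (nat_lit 17826462180) (nat_lit 228) (nat_lit 9154078252) (nat_lit 76) (nat_lit 10941144824) (nat_lit 15) (nat_lit 5) (nat_lit 18) (nat_lit 5) (nat_lit 16) (nat_lit 4) (nat_lit 281) (nat_lit 269) (nat_lit 230))))))))
noncomputable def xc66 : XT := (XT.nd (nat_lit 1560) (nat_lit 228) (nat_lit 0) (XT.nd (nat_lit 780) (nat_lit 304) (nat_lit 0) (XT.nd (nat_lit 390) (nat_lit 228) (nat_lit 0) (XT.nd (nat_lit 156) (nat_lit 228) (nat_lit 0) (XT.nd (nat_lit 78) (nat_lit 0) (nat_lit 0) (XT.lf (nat_lit 0) (nat_lit 11957461259) (nat_lit 76) (nat_lit 15700741788) (nat_lit 152) (nat_lit 13918964071) (nat_lit 14) (nat_lit 5) (nat_lit 15) (nat_lit 5) (nat_lit 16) (nat_lit 4) (nat_lit 282)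 (nat_lit 269) (nat_lit 229)) (XT.lf (nat_lit 0) (nat_lit 37240441990) (nat_lit 76) (nat_lit 2188087120) (nat_lit 152) (nat_lit 6282895670) (nat_lit 14) (nat_lit 5) (nat_lit 15) (nat_lit 5) (nat_lit 16) (nat_lit 4) (nat_lit 283) (nat_lit 269) (nat_lit 228))) (XT.nd (nat_lit 78) (nat_lit 76) (nat_lit 0) (XT.lf (nat_lit 0) (nat_lit 3568935078) (nat_lit 152) (nat_lit 33675561032) (nat_lit 76) (nat_lit 13011907366) (nat_lit 12) (nat_lit 5) (nat_lit 14) (nat_lit 5) (nat_lit 13) (nat_lit 4) (nat_lit 284) (nat_lit 269) (nat_lit 227)) (XT.nd (nat_lit 78) (nat_lit 76) (nat_lit 0) (XT.lf (nat_lit 0) (nat_lit 14810480570) (nat_lit 152) (nat_lit 9521505954) (nat_lit 76) (nat_lit 31023004121) (nat_lit 12) (nat_lit 5) (nat_lit 14) (nat_lit 5) (nat_lit 13) (nat_lit 4) (nat_lit 285) (nat_lit 269) (nat_lit 226)) (XT.lf (nat_lit 0) (nat_lit 20017973471) (nat_lit 76) (nat_lit 8537974871) (nat_lit 152) (nat_lit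 32539779491) (nat_lit 11) (nat_lit 5) (nat_lit 12) (nat_lit 5) (nat_lit 13) (nat_lit 4) (nat_lit 286) (nat_lit 269) (nat_lit 225))))) (XT.nd (nat_lit 156) (nat_lit 152) (nat_lit 0) (XT.nd (nat_lit 78) (nat_lit 76) (nat_lit 0) (XT.lf (nat_lit 0) (nat_lit 45272328868) (nat_lit 152) (nat_lit 13006880561) (nat_lit 0) (nat_lit 9282015771) (nat_lit 11) (nat_lit 5) (nat_lit 13) (nat_lit 4) (nat_lit 11) (nat_lit 4) (nat_lit 287) (nat_lit 269) (nat_lit 224)) (XT.lf (nat_lit 0) (nat_lit 20692726951) (nat_lit 76) (nat_lit 45057390861) (nat_lit 76) (nat_lit 9058348391) (nat_lit 10) (nat_lit 4) (nat_lit 11) (nat_lit 5) (nat_lit 11) (nat_lit 4) (nat_lit 288) (nat_lit 269) (nat_lit 223))) (XT.nd (nat_lit 78) (nat_lit 76) (nat_lit 0) (XT.lf (nat_lit 0) (nat_lit 6311590217) (nat_lit 152) (nat_lit 22436714261) (nat_lit 76) (nat_lit 54250817702) (nat_lit 9) (nat_lit 5) (nat_lit 11) (nat_lit 5) (nat_lit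 10) (nat_lit 4) (nat_lit 289) (nat_lit 269) (nat_lit 222)) (XT.nd (nat_lit 78) (nat_lit 0) (nat_lit 0) (XT.lf (nat_lit 0) (nat_lit 14871411643) (nat_lit 76) (nat_lit 8795865348) (nat_lit 152) (nat_lit 68595255831) (nat_lit 8) (nat_lit 5) (nat_lit 9) (nat_lit 5) (nat_lit 10) (nat_lit 4) (nat_lit 290) (nat_lit 269) (nat_lit 221)) (XT.lf (nat_lit 0) (nat_lit 45432923175) (nat_lit 152) (nat_lit 43099471063) (nat_lit 0) (nat_lit 14112076571) (nat_lit 8) (nat_lit 5) (nat_lit 10) (nat_lit 4) (nat_lit 8) (nat_lit 4) (nat_lit 291) (nat_lit 269) (nat_lit 220)))))) (XT.nd (nat_lit 390) (nat_lit 76) (nat_lit 0) (XT.nd (nat_lit 156) (nat_lit 152) (nat_lit 0) (XT.nd (nat_lit 78) (nat_lit 76) (nat_lit 0) (XT.lf (nat_lit 0) (nat_lit 70875337503) (nat_lit 152) (nat_lit 4096428781) (nat_lit 0) (nat_lit 39550150858) (nat_lit 8) (nat_lit 5) (nat_lit 10) (nat_lit 4) (nat_lit 8) (nat_lit 4) (nat_lit 292) (nat_lit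 269) (nat_lit 219)) (XT.lf (nat_lit 0) (nat_lit 44727256349) (nat_lit 76) (nat_lit 57252892273) (nat_lit 76) (nat_lit 25923931679) (nat_lit 7) (nat_lit 4) (nat_lit 8) (nat_lit 5) (nat_lit 8) (nat_lit 4) (nat_lit 293) (nat_lit 269) (nat_lit 218))) (XT.nd (nat_lit 78) (nat_lit 152) (nat_lit 0) (XT.lf (nat_lit 0) (nat_lit 101323667614) (nat_lit 76) (nat_lit 36635441436) (nat_lit 76) (nat_lit 5303199147) (nat_lit 7) (nat_lit 4) (nat_lit 8) (nat_lit 5) (nat_lit 8) (nat_lit 4) (nat_lit 294) (nat_lit 269) (nat_lit 217)) (XT.nd (nat_lit 78) (nat_lit 0) (nat_lit 0) (XT.lf (nat_lit 0) (nat_lit 5173222065) (nat_lit 76) (nat_lit 11807390958) (nat_lit 152) (nat_lit 143797956885) (nat_lit 5) (nat_lit 5) (nat_lit 6) (nat_lit 5) (nat_lit 7) (nat_lit 4) (nat_lit 295) (nat_lit 269) (nat_lit 216)) (XT.lf (nat_lit 0) (nat_lit 45048931207) (nat_lit 152) (nat_lit 117588866533) (nat_lit 0) (nat_lit 17798863929)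 (nat_lit 5) (nat_lit 5) (nat_lit 7) (nat_lit 4) (nat_lit 5) (nat_lit 4) (nat_lit 296) (nat_lit 269) (nat_lit 215))))) (XT.nd (nat_lit 156) (nat_lit 76) (nat_lit 0) (XT.nd (nat_lit 78) (nat_lit 0) (nat_lit 0) (XT.lf (nat_lit 0) (nat_lit 77885294425) (nat_lit 152) (nat_lit 74441154865) (nat_lit 0) (nat_lit 50633350828) (nat_lit 5) (nat_lit 5) (nat_lit 7) (nat_lit 4) (nat_lit 5) (nat_lit 4) (nat_lit 297) (nat_lit 269) (nat_lit 214)) (XT.lf (nat_lit 0) (nat_lit 115643234384) (nat_lit 152) (nat_lit 24829099600) (nat_lit 0) (nat_lit 88389659205) (nat_lit 5) (nat_lit 5) (nat_lit 7) (nat_lit 4) (nat_lit 5) (nat_lit 4) (nat_lit 298) (nat_lit 269) (nat_lit 213))) (XT.nd (nat_lit 78) (nat_lit 0) (nat_lit 0) (XT.lf (nat_lit 0) (nat_lit 35366544239) (nat_lit 76) (nat_lit 125159402325) (nat_lit 76) (nat_lit 97904408378) (nat_lit 4) (nat_lit 4) (nat_lit 5) (nat_lit 5) (nat_lit 5) (nat_lit 4) (nat_lit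 299) (nat_lit 269) (nat_lit 212)) (XT.nd (nat_lit 78) (nat_lit 0) (nat_lit 0) (XT.lf (nat_lit 0) (nat_lit 107375501647) (nat_lit 76) (nat_lit 106060248008) (nat_lit 76) (nat_lit 78804020351) (nat_lit 4) (nat_lit 4) (nat_lit 5) (nat_lit 5) (nat_lit 5) (nat_lit 4) (nat_lit 300) (nat_lit 269) (nat_lit 211)) (XT.lf (nat_lit 0) (nat_lit 190180163338) (nat_lit 76) (nat_lit 84099076679) (nat_lit 76) (nat_lit 56841776230) (nat_lit 4) (nat_lit 4) (nat_lit 5) (nat_lit 5) (nat_lit 5) (nat_lit 4) (nat_lit 301) (nat_lit 269) (nat_lit 210))))))) (XT.nd (nat_lit 780) (nat_lit 76) (nat_lit 0) (XT.nd (nat_lit 390) (nat_lit 0) (nat_lit 0) (XT.nd (nat_lit 156) (nat_lit 152) (nat_lit 0) (XT.nd (nat_lit 78) (nat_lit 0) (nat_lit 0) (XT.lf (nat_lit 0) (nat_lit 285400620520) (nat_lit 76) (nat_lit 58846213248) (nat_lit 76) (nat_lit 31587979936) (nat_lit 4) (nat_lit 4) (nat_lit 5) (nat_lit 5) (nat_lit 5) (nat_lit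 4) (nat_lit 302) (nat_lit 269) (nat_lit 209)) (XT.lf (nat_lit 0) (nat_lit 394899882138) (nat_lit 76) (nat_lit 29807579950) (nat_lit 76) (nat_lit 2548535454) (nat_lit 4) (nat_lit 4) (nat_lit 5) (nat_lit 5) (nat_lit 5) (nat_lit 4) (nat_lit 303) (nat_lit 269) (nat_lit 208))) (XT.nd (nat_lit 78) (nat_lit 0) (nat_lit 0) (XT.lf (nat_lit 0) (nat_lit 29886665024) (nat_lit 152) (nat_lit 449861659310) (nat_lit 0) (nat_lit 6182534698) (nat_lit 2) (nat_lit 5) (nat_lit 4) (nat_lit 4) (nat_lit 2) (nat_lit 4) (nat_lit 304) (nat_lit 269) (nat_lit 207)) (XT.nd (nat_lit 78) (nat_lit 0) (nat_lit 0) (XT.lf (nat_lit 0) (nat_lit 70115614779) (nat_lit 152) (nat_lit 436383772170) (nat_lit 0) (nat_lit 46410951086) (nat_lit 2) (nat_lit 5) (nat_lit 4) (nat_lit 4) (nat_lit 2) (nat_lit 4) (nat_lit 305) (nat_lit 269) (nat_lit 206)) (XT.lf (nat_lit 0) (nat_lit 116377254484) (nat_lit 152) (nat_lit 420887605907) (nat_lit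 0) (nat_lit 92672126994) (nat_lit 2) (nat_lit 5) (nat_lit 4) (nat_lit 4) (nat_lit 2) (nat_lit 4) (nat_lit 306) (nat_lit 269) (nat_lit 205))))) (XT.nd (nat_lit 156) (nat_lit 0) (nat_lit 0) (XT.nd (nat_lit 78) (nat_lit 0) (nat_lit 0) (XT.lf (nat_lit 0) (nat_lit 169576703179) (nat_lit 152) (nat_lit 403069974661) (nat_lit 0) (nat_lit 145871172387) (nat_lit 2) (nat_lit 5) (nat_lit 4) (nat_lit 4) (nat_lit 2) (nat_lit 4) (nat_lit 307) (nat_lit 269) (nat_lit 204)) (XT.lf (nat_lit 0) (nat_lit 230754819642) (nat_lit 152) (nat_lit 382582272603) (nat_lit 0) (nat_lit 207048938152) (nat_lit 2) (nat_lit 5) (nat_lit 4) (nat_lit 4) (nat_lit 2) (nat_lit 4) (nat_lit 308) (nat_lit 269) (nat_lit 203))) (XT.nd (nat_lit 78) (nat_lit 0) (nat_lit 0) (XT.lf (nat_lit 0) (nat_lit 301108567021) (nat_lit 152) (nat_lit 359023653387) (nat_lit 0) (nat_lit 277402380576) (nat_lit 2) (nat_lit 5) (nat_lit 4) (nat_lit 4)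 (nat_lit 2) (nat_lit 4) (nat_lit 309) (nat_lit 269) (nat_lit 202)) (XT.nd (nat_lit 78) (nat_lit 0) (nat_lit 0) (XT.lf (nat_lit 0) (nat_lit 382014431677) (nat_lit 152) (nat_lit 331933187508) (nat_lit 0) (nat_lit 358307980055) (nat_lit 2) (nat_lit 5) (nat_lit 4) (nat_lit 4) (nat_lit 2) (nat_lit 4) (nat_lit 310) (nat_lit 269) (nat_lit 201)) (XT.lf (nat_lit 0) (nat_lit 475055354442) (nat_lit 152) (nat_lit 300780844112) (nat_lit 0) (nat_lit 451348672231) (nat_lit 2) (nat_lit 5) (nat_lit 4) (nat_lit 4) (nat_lit 2) (nat_lit 4) (nat_lit 311) (nat_lit 269) (nat_lit 200)))))) (XT.nd (nat_lit 390) (nat_lit 76) (nat_lit 0) (XT.nd (nat_lit 156) (nat_lit 0) (nat_lit 0) (XT.nd (nat_lit 78) (nat_lit 0) (nat_lit 0) (XT.lf (nat_lit 0) (nat_lit 582051701195) (nat_lit 152) (nat_lit 264957120827) (nat_lit 0) (nat_lit 558344818471) (nat_lit 2) (nat_lit 5) (nat_lit 4) (nat_lit 4) (nat_lit 2) (nat_lit 4) (nat_lit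 312) (nat_lit 269) (nat_lit 199)) (XT.lf (nat_lit 0) (nat_lit 705096878720) (nat_lit 152) (nat_lit 223761118720) (nat_lit 0) (nat_lit 681389821637) (nat_lit 2) (nat_lit 5) (nat_lit 4) (nat_lit 4) (nat_lit 2) (nat_lit 4) (nat_lit 313) (nat_lit 269) (nat_lit 198))) (XT.nd (nat_lit 78) (nat_lit 0) (nat_lit 0) (XT.lf (nat_lit 0) (nat_lit 846598292665) (nat_lit 152) (nat_lit 176386829054) (nat_lit 0) (nat_lit 822891083966) (nat_lit 2) (nat_lit 5) (nat_lit 4) (nat_lit 4) (nat_lit 2) (nat_lit 4) (nat_lit 314) (nat_lit 269) (nat_lit 197)) (XT.nd (nat_lit 78) (nat_lit 0) (nat_lit 0) (XT.lf (nat_lit 0) (nat_lit 1009324448955) (nat_lit 152) (nat_lit 121907363553) (nat_lit 0) (nat_lit 985617108416) (nat_lit 2) (nat_lit 5) (nat_lit 4) (nat_lit 4) (nat_lit 2) (nat_lit 4) (nat_lit 315) (nat_lit 269) (nat_lit 196)) (XT.lf (nat_lit 0) (nat_lit 1196459120212) (nat_lit 152) (nat_lit 59256819631) (nat_lit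 0) (nat_lit 1172751665030) (nat_lit 2) (nat_lit 5) (nat_lit 4) (nat_lit 4) (nat_lit 2) (nat_lit 4) (nat_lit 316) (nat_lit 269) (nat_lit 195))))) (XT.nd (nat_lit 156) (nat_lit 0) (nat_lit 0) (XT.nd (nat_lit 78) (nat_lit 0) (nat_lit 0) (XT.lf (nat_lit 0) (nat_lit 14040562158) (nat_lit 76) (nat_lit 1398204464541) (nat_lit 76) (nat_lit 1374496909668) (nat_lit 1) (nat_lit 4) (nat_lit 2) (nat_lit 5) (nat_lit 2) (nat_lit 4) (nat_lit 317) (nat_lit 269) (nat_lit 194)) (XT.lf (nat_lit 0) (nat_lit 104991511297) (nat_lit 76) (nat_lit 1558504485649) (nat_lit 76) (nat_lit 1534796844089) (nat_lit 1) (nat_lit 4) (nat_lit 2) (nat_lit 5) (nat_lit 2) (nat_lit 4) (nat_lit 318) (nat_lit 269) (nat_lit 193))) (XT.nd (nat_lit 78) (nat_lit 0) (nat_lit 0) (XT.lf (nat_lit 0) (nat_lit 209584495504) (nat_lit 76) (nat_lit 1742849823499) (nat_lit 76) (nat_lit 1719142106559) (nat_lit 1) (nat_lit 4) (nat_lit 2) (nat_lit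 5) (nat_lit 2) (nat_lit 4) (nat_lit 319) (nat_lit 269) (nat_lit 192)) (XT.nd (nat_lit 78) (nat_lit 0) (nat_lit 0) (XT.lf (nat_lit 0) (nat_lit 329865899252) (nat_lit 76) (nat_lit 1954847234703) (nat_lit 76) (nat_lit 1931139452215) (nat_lit 1) (nat_lit 4) (nat_lit 2) (nat_lit 5) (nat_lit 2) (nat_lit 4) (nat_lit 320) (nat_lit 269) (nat_lit 191)) (XT.lf (nat_lit 0) (nat_lit 468189054353) (nat_lit 76) (nat_lit 2198644494696) (nat_lit 76) (nat_lit 2174936655210) (nat_lit 1) (nat_lit 4) (nat_lit 2) (nat_lit 5) (nat_lit 2) (nat_lit 4) (nat_lit 321) (nat_lit 269) (nat_lit 190))))))))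
noncomputable def xc67 : XT := (XT.nd (nat_lit 1560) (nat_lit 0) (nat_lit 0) (XT.nd (nat_lit 780) (nat_lit 0) (nat_lit 0) (XT.nd (nat_lit 390) (nat_lit 0) (nat_lit 0) (XT.nd (nat_lit 156) (nat_lit 0) (nat_lit 0) (XT.nd (nat_lit 78) (nat_lit 0) (nat_lit 0) (XT.lf (nat_lit 0) (nat_lit 627260283408) (nat_lit 76) (nat_lit 2479011549870) (nat_lit 76) (nat_lit 2455303660820) (nat_lit 1) (nat_lit 4) (nat_lit 2) (nat_lit 5) (nat_lit 2) (nat_lit 4) (nat_lit 322) (nat_lit 269) (nat_lit 189)) (XT.lf (nat_lit 0) (nat_lit 810191849594) (nat_lit 76) (nat_lit 2801433842608) (nat_lit 76) (nat_lit 2777725910460) (nat_lit 1) (nat_lit 4) (nat_lit 2) (nat_lit 5) (nat_lit 2) (nat_lit 4) (nat_lit 323) (nat_lit 269) (nat_lit 188))) (XT.nd (nat_lit 78) (nat_lit 0) (nat_lit 0) (XT.lf (nat_lit 0) (nat_lit 1020562848770) (nat_lit 76) (nat_lit 3172219635160) (nat_lit 76) (nat_lit 3148511665534) (nat_lit 1) (nat_lit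 4) (nat_lit 2) (nat_lit 5) (nat_lit 2) (nat_lit 4) (nat_lit 324) (nat_lit 269) (nat_lit 187)) (XT.nd (nat_lit 78) (nat_lit 0) (nat_lit 0) (XT.lf (nat_lit 0) (nat_lit 1262489235269) (nat_lit 76) (nat_lit 3598623432163) (nat_lit 76) (nat_lit 3574915429948) (nat_lit 1) (nat_lit 4) (nat_lit 2) (nat_lit 5) (nat_lit 2) (nat_lit 4) (nat_lit 325) (nat_lit 269) (nat_lit 186)) (XT.lf (nat_lit 0) (nat_lit 1540704351436) (nat_lit 76) (nat_lit 4088987916601) (nat_lit 76) (nat_lit 4065279886049) (nat_lit 1) (nat_lit 4) (nat_lit 2) (nat_lit 5) (nat_lit 2) (nat_lit 4) (nat_lit 326) (nat_lit 269) (nat_lit 185))))) (XT.nd (nat_lit 156) (nat_lit 0) (nat_lit 0) (XT.nd (nat_lit 78) (nat_lit 0) (nat_lit 0) (XT.lf (nat_lit 0) (nat_lit 1860651536498) (nat_lit 76) (nat_lit 4652907176214) (nat_lit 76) (nat_lit 4629199121020) (nat_lit 1) (nat_lit 4) (nat_lit 2) (nat_lit 5) (nat_lit 2) (nat_lit 4) (nat_lit 327)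 (nat_lit 269) (nat_lit 184)) (XT.lf (nat_lit 0) (nat_lit 2228590626687) (nat_lit 76) (nat_lit 5301414413907) (nat_lit 76) (nat_lit 5277706337285) (nat_lit 1) (nat_lit 4) (nat_lit 2) (nat_lit 5) (nat_lit 2) (nat_lit 4) (nat_lit 328) (nat_lit 269) (nat_lit 183))) (XT.nd (nat_lit 78) (nat_lit 0) (nat_lit 0) (XT.lf (nat_lit 0) (nat_lit 2651720430287) (nat_lit 76) (nat_lit 6047197814765) (nat_lit 76) (nat_lit 6023489719510) (nat_lit 1) (nat_lit 4) (nat_lit 2) (nat_lit 5) (nat_lit 2) (nat_lit 4) (nat_lit 329) (nat_lit 269) (nat_lit 182)) (XT.nd (nat_lit 78) (nat_lit 0) (nat_lit 0) (XT.lf (nat_lit 0) (nat_lit 3138319573893) (nat_lit 76) (nat_lit 6904848793153) (nat_lit 76) (nat_lit 6881140681696) (nat_lit 1) (nat_lit 4) (nat_lit 2) (nat_lit 5) (nat_lit 2) (nat_lit 4) (nat_lit 330) (nat_lit 269) (nat_lit 181)) (XT.lf (nat_lit 0) (nat_lit 3697908475529) (nat_lit 76) (nat_lit 7891147476910) (nat_lit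 76) (nat_lit 7867439351363) (nat_lit 1) (nat_lit 4) (nat_lit 2) (nat_lit 5) (nat_lit 2) (nat_lit 4) (nat_lit 331) (nat_lit 269) (nat_lit 180)))))) (XT.nd (nat_lit 390) (nat_lit 0) (nat_lit 0) (XT.nd (nat_lit 156) (nat_lit 0) (nat_lit 0) (XT.nd (nat_lit 78) (nat_lit 0) (nat_lit 0) (XT.lf (nat_lit 0) (nat_lit 4341435613707) (nat_lit 76) (nat_lit 9025391014194) (nat_lit 76) (nat_lit 9001682876396) (nat_lit 1) (nat_lit 4) (nat_lit 2) (nat_lit 5) (nat_lit 2) (nat_lit 4) (nat_lit 332) (nat_lit 269) (nat_lit 179)) (XT.lf (nat_lit 0) (nat_lit 5081491736783) (nat_lit 76) (nat_lit 10329771126389) (nat_lit 76) (nat_lit 10306062977937) (nat_lit 1) (nat_lit 4) (nat_lit 2) (nat_lit 5) (nat_lit 2) (nat_lit 4) (nat_lit 333) (nat_lit 269) (nat_lit 178))) (XT.nd (nat_lit 78) (nat_lit 0) (nat_lit 0) (XT.lf (nat_lit 0) (nat_lit 5932556203686) (nat_lit 76) (nat_lit 11829808293949) (nat_lit 76) (nat_lit 11806100136234)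 (nat_lit 1) (nat_lit 4) (nat_lit 2) (nat_lit 5) (nat_lit 2) (nat_lit 4) (nat_lit 334) (nat_lit 269) (nat_lit 177)) (XT.nd (nat_lit 78) (nat_lit 0) (nat_lit 0) (XT.lf (nat_lit 0) (nat_lit 6911280275725) (nat_lit 76) (nat_lit 13554851070154) (nat_lit 76) (nat_lit 13531142904383) (nat_lit 1) (nat_lit 4) (nat_lit 2) (nat_lit 5) (nat_lit 2) (nat_lit 4) (nat_lit 335) (nat_lit 269) (nat_lit 176)) (XT.lf (nat_lit 0) (nat_lit 8036812902135) (nat_lit 76) (nat_lit 15538650291929) (nat_lit 76) (nat_lit 15514942119154) (nat_lit 1) (nat_lit 4) (nat_lit 2) (nat_lit 5) (nat_lit 2) (nat_lit 4) (nat_lit 336) (nat_lit 269) (nat_lit 175))))) (XT.nd (nat_lit 156) (nat_lit 0) (nat_lit 0) (XT.nd (nat_lit 78) (nat_lit 0) (nat_lit 0) (XT.lf (nat_lit 0) (nat_lit 9331175373434) (nat_lit 76) (nat_lit 17820019422309) (nat_lit 76) (nat_lit 17796311243443) (nat_lit 1) (nat_lit 4) (nat_lit 2) (nat_lit 5) (nat_lit 2)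 (nat_lit 4) (nat_lit 337) (nat_lit 269) (nat_lit 174)) (XT.lf (nat_lit 0) (nat_lit 10819692172756) (nat_lit 76) (nat_lit 20443593944279) (nat_lit 76) (nat_lit 20419885760116) (nat_lit 1) (nat_lit 4) (nat_lit 2) (nat_lit 5) (nat_lit 2) (nat_lit 4) (nat_lit 338) (nat_lit 269) (nat_lit 173))) (XT.nd (nat_lit 78) (nat_lit 0) (nat_lit 0) (XT.lf (nat_lit 0) (nat_lit 12531486454869) (nat_lit 76) (nat_lit 23460704663705) (nat_lit 76) (nat_lit 23436996474936) (nat_lit 1) (nat_lit 4) (nat_lit 2) (nat_lit 5) (nat_lit 2) (nat_lit 4) (nat_lit 339) (nat_lit 269) (nat_lit 172)) (XT.nd (nat_lit 78) (nat_lit 0) (nat_lit 0) (XT.lf (nat_lit 0) (nat_lit 14500049847033) (nat_lit 76) (nat_lit 26930382007705) (nat_lit 76) (nat_lit 26906673814931) (nat_lit 1) (nat_lit 4) (nat_lit 2) (nat_lit 5) (nat_lit 2) (nat_lit 4) (nat_lit 340) (nat_lit 269) (nat_lit 171)) (XT.lf (nat_lit 0) (nat_lit 16763897719963) (nat_lit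 76) (nat_lit 30920510967793) (nat_lit 76) (nat_lit 30896802771536) (nat_lit 1) (nat_lit 4) (nat_lit 2) (nat_lit 5) (nat_lit 2) (nat_lit 4) (nat_lit 341) (nat_lit 269) (nat_lit 170))))))) (XT.nd (nat_lit 35178) (nat_lit 0) (nat_lit 1064) (XT.nd (nat_lit 390) (nat_lit 0) (nat_lit 0) (XT.nd (nat_lit 156) (nat_lit 0) (nat_lit 0) (XT.nd (nat_lit 78) (nat_lit 0) (nat_lit 0) (XT.lf (nat_lit 0) (nat_lit 19367322749435) (nat_lit 76) (nat_lit 35509159284491) (nat_lit 76) (nat_lit 35485451085206) (nat_lit 1) (nat_lit 4) (nat_lit 2) (nat_lit 5) (nat_lit 2) (nat_lit 4) (nat_lit 342) (nat_lit 269) (nat_lit 169)) (XT.lf (nat_lit 0) (nat_lit 22361261512112) (nat_lit 76) (nat_lit 40786104859649) (nat_lit 76) (nat_lit 40762396657731) (nat_lit 1) (nat_lit 4) (nat_lit 2) (nat_lit 5) (nat_lit 2) (nat_lit 4) (nat_lit 343) (nat_lit 269) (nat_lit 168))) (XT.nd (nat_lit 78) (nat_lit 0) (nat_lit 0) (XT.lf (nat_lit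 0) (nat_lit 25804291070743) (nat_lit 76) (nat_lit 46854592280606) (nat_lit 76) (nat_lit 46830884076398) (nat_lit 1) (nat_lit 4) (nat_lit 2) (nat_lit 5) (nat_lit 2) (nat_lit 4) (nat_lit 344) (nat_lit 269) (nat_lit 167)) (XT.nd (nat_lit 78) (nat_lit 0) (nat_lit 0) (XT.lf (nat_lit 0) (nat_lit 29763775047126) (nat_lit 76) (nat_lit 53833352822990) (nat_lit 76) (nat_lit 53809644616791) (nat_lit 1) (nat_lit 4) (nat_lit 2) (nat_lit 5) (nat_lit 2) (nat_lit 4) (nat_lit 345) (nat_lit 269) (nat_lit 166)) (XT.lf (nat_lit 0) (nat_lit 34317181606016) (nat_lit 76) (nat_lit 61858927453934) (nat_lit 76) (nat_lit 61835219246004) (nat_lit 1) (nat_lit 4) (nat_lit 2) (nat_lit 5) (nat_lit 2) (nat_lit 4) (nat_lit 346) (nat_lit 269) (nat_lit 165))))) (XT.nd (nat_lit 156) (nat_lit 0) (nat_lit 0) (XT.nd (nat_lit 78) (nat_lit 0) (nat_lit 0) (XT.lf (nat_lit 0) (nat_lit 39553599136610) (nat_lit 76) (nat_lit 71088338285783)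 (nat_lit 76) (nat_lit 71064630076347) (nat_lit 1) (nat_lit 4) (nat_lit 2) (nat_lit 5) (nat_lit 2) (nat_lit 4) (nat_lit 347) (nat_lit 269) (nat_lit 164)) (XT.lf (nat_lit 0) (nat_lit 45575479286245) (nat_lit 76) (nat_lit 81702160747856) (nat_lit 76) (nat_lit 81678452537111) (nat_lit 1) (nat_lit 4) (nat_lit 2) (nat_lit 5) (nat_lit 2) (nat_lit 4) (nat_lit 348) (nat_lit 269) (nat_lit 163))) (XT.nd (nat_lit 34476) (nat_lit 0) (nat_lit 1672) (XT.lf (nat_lit 0) (nat_lit 52500641449154) (nat_lit 76) (nat_lit 93908056583976) (nat_lit 76) (nat_lit 93884348372092) (nat_lit 1) (nat_lit 4) (nat_lit 2) (nat_lit 5) (nat_lit 2) (nat_lit 4) (nat_lit 349) (nat_lit 269) (nat_lit 162)) (XT.nd (nat_lit 78) (nat_lit 0) (nat_lit 0) (XT.lf (nat_lit 0) (nat_lit 972339798) (nat_lit 380) (nat_lit 3668905760) (nat_lit 380) (nat_lit 3668905760) (nat_lit 23) (nat_lit 3) (nat_lit 28) (nat_lit 3) (nat_lit 28) (nat_lit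 5) (nat_lit 270) (nat_lit 270) (nat_lit 240)) (XT.lf (nat_lit 76) (nat_lit 561220091) (nat_lit 0) (nat_lit 1772646077) (nat_lit 380) (nat_lit 15495749881) (nat_lit 24) (nat_lit 5) (nat_lit 23) (nat_lit 3) (nat_lit 28) (nat_lit 5) (nat_lit 271) (nat_lit 270) (nat_lit 239)))))) (XT.nd (nat_lit 390) (nat_lit 456) (nat_lit 0) (XT.nd (nat_lit 156) (nat_lit 228) (nat_lit 0) (XT.nd (nat_lit 78) (nat_lit 0) (nat_lit 0) (XT.lf (nat_lit 0) (nat_lit 3427895389) (nat_lit 304) (nat_lit 9027092194) (nat_lit 380) (nat_lit 6668495419) (nat_lit 24) (nat_lit 5) (nat_lit 28) (nat_lit 5) (nat_lit 29) (nat_lit 5) (nat_lit 272) (nat_lit 270) (nat_lit 238)) (XT.lf (nat_lit 76) (nat_lit 371597656) (nat_lit 0) (nat_lit 4379814430) (nat_lit 380) (nat_lit 15850320216) (nat_lit 25) (nat_lit 5) (nat_lit 24) (nat_lit 5) (nat_lit 29) (nat_lit 5) (nat_lit 273) (nat_lit 270) (nat_lit 237))) (XT.nd (nat_lit 78) (nat_lit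 304) (nat_lit 0) (XT.lf (nat_lit 0) (nat_lit 6940155489) (nat_lit 304) (nat_lit 10293144901) (nat_lit 76) (nat_lit 4968509174) (nat_lit 25) (nat_lit 5) (nat_lit 29) (nat_lit 5) (nat_lit 26) (nat_lit 5) (nat_lit 274) (nat_lit 270) (nat_lit 236)) (XT.nd (nat_lit 78) (nat_lit 0) (nat_lit 0) (XT.lf (nat_lit 0) (nat_lit 986550474) (nat_lit 304) (nat_lit 8693277957) (nat_lit 380) (nat_lit 14328760278) (nat_lit 21) (nat_lit 5) (nat_lit 25) (nat_lit 5) (nat_lit 26) (nat_lit 5) (nat_lit 275) (nat_lit 270) (nat_lit 235)) (XT.lf (nat_lit 0) (nat_lit 13416387848) (nat_lit 380) (nat_lit 10992530078) (nat_lit 76) (nat_lit 1589648643) (nat_lit 21) (nat_lit 5) (nat_lit 26) (nat_lit 5) (nat_lit 22) (nat_lit 5) (nat_lit 276) (nat_lit 270) (nat_lit 234))))) (XT.nd (nat_lit 234) (nat_lit 228) (nat_lit 0) (XT.nd (nat_lit 78) (nat_lit 76) (nat_lit 0) (XT.lf (nat_lit 0) (nat_lit 2636465368) (nat_lit 152) (nat_lit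 15578854599) (nat_lit 228) (nat_lit 9996500582) (nat_lit 19) (nat_lit 5) (nat_lit 21) (nat_lit 5) (nat_lit 22) (nat_lit 5) (nat_lit 277) (nat_lit 270) (nat_lit 233)) (XT.nd (nat_lit 78) (nat_lit 76) (nat_lit 0) (XT.lf (nat_lit 0) (nat_lit 19520698633) (nat_lit 152) (nat_lit 4768511538) (nat_lit 228) (nat_lit 6384639288) (nat_lit 19) (nat_lit 5) (nat_lit 21) (nat_lit 5) (nat_lit 22) (nat_lit 5) (nat_lit 278) (nat_lit 270) (nat_lit 232)) (XT.lf (nat_lit 0) (nat_lit 5588889291) (nat_lit 76) (nat_lit 26216912886) (nat_lit 152) (nat_lit 1619685242) (nat_lit 18) (nat_lit 5) (nat_lit 19) (nat_lit 5) (nat_lit 20) (nat_lit 4) (nat_lit 279) (nat_lit 270) (nat_lit 231)))) (XT.nd (nat_lit 78) (nat_lit 152) (nat_lit 0) (XT.lf (nat_lit 0) (nat_lit 4337581406) (nat_lit 152) (nat_lit 10845705763) (nat_lit 76) (nat_lit 21259462390) (nat_lit 17) (nat_lit 5) (nat_lit 19) (nat_lit 5) (nat_lit 18) (nat_lit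 5) (nat_lit 280) (nat_lit 270) (nat_lit 230)) (XT.nd (nat_lit 78) (nat_lit 0) (nat_lit 0) (XT.lf (nat_lit 0) (nat_lit 9435569625) (nat_lit 152) (nat_lit 1963293532) (nat_lit 228) (nat_lit 28445762382) (nat_lit 15) (nat_lit 5) (nat_lit 17) (nat_lit 5) (nat_lit 18) (nat_lit 5) (nat_lit 281) (nat_lit 270) (nat_lit 229)) (XT.lf (nat_lit 0) (nat_lit 20647809053) (nat_lit 228) (nat_lit 10290960779) (nat_lit 76) (nat_lit 12648769434) (nat_lit 15) (nat_lit 5) (nat_lit 18) (nat_lit 5) (nat_lit 16) (nat_lit 4) (nat_lit 282) (nat_lit 270) (nat_lit 228))))))))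
noncomputable def xc68 : XT := (XT.nd (nat_lit 1560) (nat_lit 228) (nat_lit 0) (XT.nd (nat_lit 780) (nat_lit 304) (nat_lit 0) (XT.nd (nat_lit 390) (nat_lit 228) (nat_lit 0) (XT.nd (nat_lit 156) (nat_lit 228) (nat_lit 0) (XT.nd (nat_lit 78) (nat_lit 0) (nat_lit 0) (XT.lf (nat_lit 0) (nat_lit 13976571967) (nat_lit 76) (nat_lit 17967853047) (nat_lit 152) (nat_lit 15848439403) (nat_lit 14) (nat_lit 5) (nat_lit 15) (nat_lit 5) (nat_lit 16) (nat_lit 4) (nat_lit 283) (nat_lit 270) (nat_lit 227)) (XT.lf (nat_lit 0) (nat_lit 43022587871) (nat_lit 76) (nat_lit 2439778442) (nat_lit 152) (nat_lit 7087617605) (nat_lit 14) (nat_lit 5) (nat_lit 15) (nat_lit 5) (nat_lit 16) (nat_lit 4) (nat_lit 284) (nat_lit 270) (nat_lit 226))) (XT.nd (nat_lit 78) (nat_lit 76) (nat_lit 0) (XT.lf (nat_lit 0) (nat_lit 4224990587) (nat_lit 152) (nat_lit 38513459308) (nat_lit 76) (nat_lit 15038139781) (nat_lit 12) (nat_lit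 5) (nat_lit 14) (nat_lit 5) (nat_lit 13) (nat_lit 4) (nat_lit 285) (nat_lit 270) (nat_lit 225)) (XT.nd (nat_lit 78) (nat_lit 76) (nat_lit 0) (XT.lf (nat_lit 0) (nat_lit 17137022435) (nat_lit 152) (nat_lit 10764135431) (nat_lit 76) (nat_lit 35741190661) (nat_lit 12) (nat_lit 5) (nat_lit 14) (nat_lit 5) (nat_lit 13) (nat_lit 4) (nat_lit 286) (nat_lit 270) (nat_lit 224)) (XT.lf (nat_lit 0) (nat_lit 23197829708) (nat_lit 76) (nat_lit 9740124782) (nat_lit 152) (nat_lit 37307214131) (nat_lit 11) (nat_lit 5) (nat_lit 12) (nat_lit 5) (nat_lit 13) (nat_lit 4) (nat_lit 287) (nat_lit 270) (nat_lit 223))))) (XT.nd (nat_lit 156) (nat_lit 152) (nat_lit 0) (XT.nd (nat_lit 78) (nat_lit 76) (nat_lit 0) (XT.lf (nat_lit 0) (nat_lit 52151757617) (nat_lit 152) (nat_lit 14793715978) (nat_lit 0) (nat_lit 10736538644) (nat_lit 11) (nat_lit 5) (nat_lit 13) (nat_lit 4) (nat_lit 11) (nat_lit 4) (nat_lit 288) (nat_lit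 270) (nat_lit 222)) (XT.lf (nat_lit 0) (nat_lit 23953369176) (nat_lit 76) (nat_lit 51742781876) (nat_lit 76) (nat_lit 10320962242) (nat_lit 10) (nat_lit 4) (nat_lit 11) (nat_lit 5) (nat_lit 11) (nat_lit 4) (nat_lit 289) (nat_lit 270) (nat_lit 221))) (XT.nd (nat_lit 78) (nat_lit 76) (nat_lit 0) (XT.lf (nat_lit 0) (nat_lit 7334484838) (nat_lit 152) (nat_lit 25658416935) (nat_lit 76) (nat_lit 62444593107) (nat_lit 9) (nat_lit 5) (nat_lit 11) (nat_lit 5) (nat_lit 10) (nat_lit 4) (nat_lit 290) (nat_lit 270) (nat_lit 220)) (XT.nd (nat_lit 78) (nat_lit 0) (nat_lit 0) (XT.lf (nat_lit 0) (nat_lit 17239391288) (nat_lit 76) (nat_lit 10049883908) (nat_lit 152) (nat_lit 78801788756) (nat_lit 8) (nat_lit 5) (nat_lit 9) (nat_lit 5) (nat_lit 10) (nat_lit 4) (nat_lit 291) (nat_lit 270) (nat_lit 219)) (XT.lf (nat_lit 0) (nat_lit 52312742630) (nat_lit 152) (nat_lit 49437948051) (nat_lit 0) (nat_lit 16280663998)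 (nat_lit 8) (nat_lit 5) (nat_lit 10) (nat_lit 4) (nat_lit 8) (nat_lit 4) (nat_lit 292) (nat_lit 270) (nat_lit 218)))))) (XT.nd (nat_lit 390) (nat_lit 76) (nat_lit 0) (XT.nd (nat_lit 156) (nat_lit 152) (nat_lit 0) (XT.nd (nat_lit 78) (nat_lit 76) (nat_lit 0) (XT.lf (nat_lit 0) (nat_lit 81563056371) (nat_lit 152) (nat_lit 4600942079) (nat_lit 0) (nat_lit 45527696044) (nat_lit 8) (nat_lit 5) (nat_lit 10) (nat_lit 4) (nat_lit 8) (nat_lit 4) (nat_lit 293) (nat_lit 270) (nat_lit 217)) (XT.lf (nat_lit 0) (nat_lit 51541298046) (nat_lit 76) (nat_lit 65789278100) (nat_lit 76) (nat_lit 29751064126) (nat_lit 7) (nat_lit 4) (nat_lit 8) (nat_lit 5) (nat_lit 8) (nat_lit 4) (nat_lit 294) (nat_lit 270) (nat_lit 216))) (XT.nd (nat_lit 78) (nat_lit 152) (nat_lit 0) (XT.lf (nat_lit 0) (nat_lit 116613481447) (nat_lit 76) (nat_lit 42085933291) (nat_lit 76) (nat_lit 6045237884) (nat_lit 7) (nat_lit 4) (nat_lit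 8) (nat_lit 5) (nat_lit 8) (nat_lit 4) (nat_lit 295) (nat_lit 270) (nat_lit 215)) (XT.nd (nat_lit 78) (nat_lit 0) (nat_lit 0) (XT.lf (nat_lit 0) (nat_lit 6040891958) (nat_lit 76) (nat_lit 13532942987) (nat_lit 152) (nat_lit 165314573807) (nat_lit 5) (nat_lit 5) (nat_lit 6) (nat_lit 5) (nat_lit 7) (nat_lit 4) (nat_lit 296) (nat_lit 270) (nat_lit 214)) (XT.lf (nat_lit 0) (nat_lit 51848024253) (nat_lit 152) (nat_lit 135143068840) (nat_lit 0) (nat_lit 20504781214) (nat_lit 5) (nat_lit 5) (nat_lit 7) (nat_lit 4) (nat_lit 5) (nat_lit 4) (nat_lit 297) (nat_lit 270) (nat_lit 213))))) (XT.nd (nat_lit 156) (nat_lit 76) (nat_lit 0) (XT.nd (nat_lit 78) (nat_lit 0) (nat_lit 0) (XT.lf (nat_lit 0) (nat_lit 89604395863) (nat_lit 152) (nat_lit 85534173597) (nat_lit 0) (nat_lit 58259734057) (nat_lit 5) (nat_lit 5) (nat_lit 7) (nat_lit 4) (nat_lit 5) (nat_lit 4) (nat_lit 298) (nat_lit 270) (nat_lit 212))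 (XT.lf (nat_lit 0) (nat_lit 133021291085) (nat_lit 152) (nat_lit 28489851933) (nat_lit 0) (nat_lit 101675395568) (nat_lit 5) (nat_lit 5) (nat_lit 7) (nat_lit 4) (nat_lit 5) (nat_lit 4) (nat_lit 299) (nat_lit 270) (nat_lit 211))) (XT.nd (nat_lit 78) (nat_lit 0) (nat_lit 0) (XT.lf (nat_lit 0) (nat_lit 40732247000) (nat_lit 76) (nat_lit 143902559397) (nat_lit 76) (nat_lit 112555591088) (nat_lit 4) (nat_lit 4) (nat_lit 5) (nat_lit 5) (nat_lit 5) (nat_lit 4) (nat_lit 300) (nat_lit 270) (nat_lit 210)) (XT.nd (nat_lit 78) (nat_lit 0) (nat_lit 0) (XT.lf (nat_lit 0) (nat_lit 123534627872) (nat_lit 76) (nat_lit 121942543229) (nat_lit 76) (nat_lit 90594642058) (nat_lit 4) (nat_lit 4) (nat_lit 5) (nat_lit 5) (nat_lit 5) (nat_lit 4) (nat_lit 301) (nat_lit 270) (nat_lit 209)) (XT.lf (nat_lit 0) (nat_lit 218753101733) (nat_lit 76) (nat_lit 96690684285) (nat_lit 76) (nat_lit 65341971930) (nat_lit 4)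 (nat_lit 4) (nat_lit 5) (nat_lit 5) (nat_lit 5) (nat_lit 4) (nat_lit 302) (nat_lit 270) (nat_lit 208))))))) (XT.nd (nat_lit 780) (nat_lit 76) (nat_lit 0) (XT.nd (nat_lit 390) (nat_lit 0) (nat_lit 0) (XT.nd (nat_lit 156) (nat_lit 152) (nat_lit 0) (XT.nd (nat_lit 78) (nat_lit 0) (nat_lit 0) (XT.lf (nat_lit 0) (nat_lit 328250638724) (nat_lit 76) (nat_lit 67652924456) (nat_lit 76) (nat_lit 36303506722) (nat_lit 4) (nat_lit 4) (nat_lit 5) (nat_lit 5) (nat_lit 5) (nat_lit 4) (nat_lit 303) (nat_lit 270) (nat_lit 207)) (XT.lf (nat_lit 0) (nat_lit 454169581960) (nat_lit 76) (nat_lit 34261133657) (nat_lit 76) (nat_lit 2911102551) (nat_lit 4) (nat_lit 4) (nat_lit 5) (nat_lit 5) (nat_lit 5) (nat_lit 4) (nat_lit 304) (nat_lit 270) (nat_lit 206))) (XT.nd (nat_lit 78) (nat_lit 0) (nat_lit 0) (XT.lf (nat_lit 0) (nat_lit 34387458103) (nat_lit 152) (nat_lit 517304256383) (nat_lit 0) (nat_lit 7126097692)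 (nat_lit 2) (nat_lit 5) (nat_lit 4) (nat_lit 4) (nat_lit 2) (nat_lit 4) (nat_lit 305) (nat_lit 270) (nat_lit 205)) (XT.nd (nat_lit 78) (nat_lit 0) (nat_lit 0) (XT.lf (nat_lit 0) (nat_lit 80648429452) (nat_lit 152) (nat_lit 501809466844) (nat_lit 0) (nat_lit 53386665739) (nat_lit 2) (nat_lit 5) (nat_lit 4) (nat_lit 4) (nat_lit 2) (nat_lit 4) (nat_lit 306) (nat_lit 270) (nat_lit 204)) (XT.lf (nat_lit 0) (nat_lit 133847296968) (nat_lit 152) (nat_lit 483993032749) (nat_lit 0) (nat_lit 106585182557) (nat_lit 2) (nat_lit 5) (nat_lit 4) (nat_lit 4) (nat_lit 2) (nat_lit 4) (nat_lit 307) (nat_lit 270) (nat_lit 203))))) (XT.nd (nat_lit 156) (nat_lit 0) (nat_lit 0) (XT.nd (nat_lit 78) (nat_lit 0) (nat_lit 0) (XT.lf (nat_lit 0) (nat_lit 195024908057) (nat_lit 152) (nat_lit 463506371691) (nat_lit 0) (nat_lit 167762488691) (nat_lit 2) (nat_lit 5) (nat_lit 4) (nat_lit 4) (nat_lit 2) (nat_lit 4) (nat_lit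 308) (nat_lit 270) (nat_lit 202)) (XT.lf (nat_lit 0) (nat_lit 265378215980) (nat_lit 152) (nat_lit 439948657694) (nat_lit 0) (nat_lit 238115531437) (nat_lit 2) (nat_lit 5) (nat_lit 4) (nat_lit 4) (nat_lit 2) (nat_lit 4) (nat_lit 309) (nat_lit 270) (nat_lit 201))) (XT.nd (nat_lit 78) (nat_lit 0) (nat_lit 0) (XT.lf (nat_lit 0) (nat_lit 346283698502) (nat_lit 152) (nat_lit 412858978961) (nat_lit 0) (nat_lit 319020783369) (nat_lit 2) (nat_lit 5) (nat_lit 4) (nat_lit 4) (nat_lit 2) (nat_lit 4) (nat_lit 310) (nat_lit 270) (nat_lit 200)) (XT.nd (nat_lit 78) (nat_lit 0) (nat_lit 0) (XT.lf (nat_lit 0) (nat_lit 439324288975) (nat_lit 152) (nat_lit 381707320040) (nat_lit 0) (nat_lit 412061173330) (nat_lit 2) (nat_lit 5) (nat_lit 4) (nat_lit 4) (nat_lit 2) (nat_lit 4) (nat_lit 311) (nat_lit 270) (nat_lit 199)) (XT.lf (nat_lit 0) (nat_lit 546320346779) (nat_lit 152) (nat_lit 345884191951) (nat_lit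 0) (nat_lit 519057056775) (nat_lit 2) (nat_lit 5) (nat_lit 4) (nat_lit 4) (nat_lit 2) (nat_lit 4) (nat_lit 312) (nat_lit 270) (nat_lit 198)))))) (XT.nd (nat_lit 390) (nat_lit 76) (nat_lit 0) (XT.nd (nat_lit 156) (nat_lit 0) (nat_lit 0) (XT.nd (nat_lit 78) (nat_lit 0) (nat_lit 0) (XT.lf (nat_lit 0) (nat_lit 669365273044) (nat_lit 152) (nat_lit 304688707405) (nat_lit 0) (nat_lit 642101831424) (nat_lit 2) (nat_lit 5) (nat_lit 4) (nat_lit 4) (nat_lit 2) (nat_lit 4) (nat_lit 313) (nat_lit 270) (nat_lit 197)) (XT.lf (nat_lit 0) (nat_lit 810866468502) (nat_lit 152) (nat_lit 257314867793) (nat_lit 0) (nat_lit 783602895042) (nat_lit 2) (nat_lit 5) (nat_lit 4) (nat_lit 4) (nat_lit 2) (nat_lit 4) (nat_lit 314) (nat_lit 270) (nat_lit 196))) (XT.nd (nat_lit 78) (nat_lit 0) (nat_lit 0) (XT.lf (nat_lit 0) (nat_lit 973592434803) (nat_lit 152) (nat_lit 202835793642) (nat_lit 0) (nat_lit 946328746699)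 (nat_lit 2) (nat_lit 5) (nat_lit 4) (nat_lit 4) (nat_lit 2) (nat_lit 4) (nat_lit 315) (nat_lit 270) (nat_lit 195)) (XT.nd (nat_lit 78) (nat_lit 0) (nat_lit 0) (XT.lf (nat_lit 0) (nat_lit 1160726940853) (nat_lit 152) (nat_lit 140185590025) (nat_lit 0) (nat_lit 1133463153059) (nat_lit 2) (nat_lit 5) (nat_lit 4) (nat_lit 4) (nat_lit 2) (nat_lit 4) (nat_lit 316) (nat_lit 270) (nat_lit 194)) (XT.lf (nat_lit 0) (nat_lit 1375931313944) (nat_lit 152) (nat_lit 68138492088) (nat_lit 0) (nat_lit 1348667439463) (nat_lit 2) (nat_lit 5) (nat_lit 4) (nat_lit 4) (nat_lit 2) (nat_lit 4) (nat_lit 317) (nat_lit 270) (nat_lit 193))))) (XT.nd (nat_lit 156) (nat_lit 0) (nat_lit 0) (XT.nd (nat_lit 78) (nat_lit 0) (nat_lit 0) (XT.lf (nat_lit 0) (nat_lit 16153185584) (nat_lit 76) (nat_lit 1607931757803) (nat_lit 76) (nat_lit 1580667807942) (nat_lit 1) (nat_lit 4) (nat_lit 2) (nat_lit 5) (nat_lit 2) (nat_lit 4)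 (nat_lit 318) (nat_lit 270) (nat_lit 192)) (XT.lf (nat_lit 0) (nat_lit 120745924168) (nat_lit 76) (nat_lit 1792277222480) (nat_lit 76) (nat_lit 1765013207071) (nat_lit 1) (nat_lit 4) (nat_lit 2) (nat_lit 5) (nat_lit 2) (nat_lit 4) (nat_lit 319) (nat_lit 270) (nat_lit 191))) (XT.nd (nat_lit 78) (nat_lit 0) (nat_lit 0) (XT.lf (nat_lit 0) (nat_lit 241027114330) (nat_lit 76) (nat_lit 2004274743966) (nat_lit 76) (nat_lit 1977010671559) (nat_lit 1) (nat_lit 4) (nat_lit 2) (nat_lit 5) (nat_lit 2) (nat_lit 4) (nat_lit 320) (nat_lit 270) (nat_lit 190)) (XT.nd (nat_lit 78) (nat_lit 0) (nat_lit 0) (XT.lf (nat_lit 0) (nat_lit 379350083705) (nat_lit 76) (nat_lit 2248072099858) (nat_lit 76) (nat_lit 2220807977887) (nat_lit 1) (nat_lit 4) (nat_lit 2) (nat_lit 5) (nat_lit 2) (nat_lit 4) (nat_lit 321) (nat_lit 270) (nat_lit 189)) (XT.lf (nat_lit 0) (nat_lit 538421151259) (nat_lit 76) (nat_lit 2528439238422)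 (nat_lit 76) (nat_lit 2501175073352) (nat_lit 1) (nat_lit 4) (nat_lit 2) (nat_lit 5) (nat_lit 2) (nat_lit 4) (nat_lit 322) (nat_lit 270) (nat_lit 188))))))))
noncomputable def xc69 : XT := (XT.nd (nat_lit 1560) (nat_lit 0) (nat_lit 0) (XT.nd (nat_lit 780) (nat_lit 0) (nat_lit 0) (XT.nd (nat_lit 390) (nat_lit 0) (nat_lit 0) (XT.nd (nat_lit 156) (nat_lit 0) (nat_lit 0) (XT.nd (nat_lit 78) (nat_lit 0) (nat_lit 0) (XT.lf (nat_lit 0) (nat_lit 721352577009) (nat_lit 76) (nat_lit 2850861603673) (nat_lit 76) (nat_lit 2823597401126) (nat_lit 1) (nat_lit 4) (nat_lit 2) (nat_lit 5) (nat_lit 2) (nat_lit 4) (nat_lit 323) (nat_lit 270) (nat_lit 187)) (XT.lf (nat_lit 0) (nat_lit 931723454067) (nat_lit 76) (nat_lit 3221647459280) (nat_lit 76) (nat_lit 3194383224145) (nat_lit 1) (nat_lit 4) (nat_lit 2) (nat_lit 5) (nat_lit 2) (nat_lit 4) (nat_lit 324) (nat_lit 270) (nat_lit 186))) (XT.nd (nat_lit 78)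 (nat_lit 0) (nat_lit 0) (XT.lf (nat_lit 0) (nat_lit 1173649734377) (nat_lit 76) (nat_lit 3648051311113) (nat_lit 76) (nat_lit 3620787047640) (nat_lit 1) (nat_lit 4) (nat_lit 2) (nat_lit 5) (nat_lit 2) (nat_lit 4) (nat_lit 325) (nat_lit 270) (nat_lit 185)) (XT.nd (nat_lit 78) (nat_lit 0) (nat_lit 0) (XT.lf (nat_lit 0) (nat_lit 1451864758204) (nat_lit 76) (nat_lit 4138415843230) (nat_lit 76) (nat_lit 4111151555115) (nat_lit 1) (nat_lit 4) (nat_lit 2) (nat_lit 5) (nat_lit 2) (nat_lit 4) (nat_lit 326) (nat_lit 270) (nat_lit 184)) (XT.lf (nat_lit 0) (nat_lit 1771811862972) (nat_lit 76) (nat_lit 4702335144303) (nat_lit 76) (nat_lit 4675070834759) (nat_lit 1) (nat_lit 4) (nat_lit 2) (nat_lit 5) (nat_lit 2) (nat_lit 4) (nat_lit 327) (nat_lit 270) (nat_lit 183))))) (XT.nd (nat_lit 156) (nat_lit 0) (nat_lit 0) (XT.nd (nat_lit 78) (nat_lit 0) (nat_lit 0) (XT.lf (nat_lit 0) (nat_lit 2139750883339)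 (nat_lit 76) (nat_lit 5350842418047) (nat_lit 76) (nat_lit 5323578089871) (nat_lit 1) (nat_lit 4) (nat_lit 2) (nat_lit 5) (nat_lit 2) (nat_lit 4) (nat_lit 328) (nat_lit 270) (nat_lit 182)) (XT.lf (nat_lit 0) (nat_lit 2562880626225) (nat_lit 76) (nat_lit 6096625850255) (nat_lit 76) (nat_lit 6069361505876) (nat_lit 1) (nat_lit 4) (nat_lit 2) (nat_lit 5) (nat_lit 2) (nat_lit 4) (nat_lit 329) (nat_lit 270) (nat_lit 181))) (XT.nd (nat_lit 78) (nat_lit 0) (nat_lit 0) (XT.lf (nat_lit 0) (nat_lit 3049479717036) (nat_lit 76) (nat_lit 6954276855903) (nat_lit 76) (nat_lit 6927012497436) (nat_lit 1) (nat_lit 4) (nat_lit 2) (nat_lit 5) (nat_lit 2) (nat_lit 4) (nat_lit 330) (nat_lit 270) (nat_lit 180)) (XT.nd (nat_lit 78) (nat_lit 0) (nat_lit 0) (XT.lf (nat_lit 0) (nat_lit 3609068572763) (nat_lit 76) (nat_lit 7940575563364) (nat_lit 76) (nat_lit 7913311192645) (nat_lit 1) (nat_lit 4) (nat_lit 2) (nat_lit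 5) (nat_lit 2) (nat_lit 4) (nat_lit 331) (nat_lit 270) (nat_lit 179)) (XT.lf (nat_lit 0) (nat_lit 4252595671021) (nat_lit 76) (nat_lit 9074819121261) (nat_lit 76) (nat_lit 9047554739889) (nat_lit 1) (nat_lit 4) (nat_lit 2) (nat_lit 5) (nat_lit 2) (nat_lit 4) (nat_lit 332) (nat_lit 270) (nat_lit 178)))))) (XT.nd (nat_lit 390) (nat_lit 0) (nat_lit 0) (XT.nd (nat_lit 156) (nat_lit 0) (nat_lit 0) (XT.nd (nat_lit 78) (nat_lit 0) (nat_lit 0) (XT.lf (nat_lit 0) (nat_lit 4992651759383) (nat_lit 76) (nat_lit 10379199251380) (nat_lit 76) (nat_lit 10351934860744) (nat_lit 1) (nat_lit 4) (nat_lit 2) (nat_lit 5) (nat_lit 2) (nat_lit 4) (nat_lit 333) (nat_lit 270) (nat_lit 177)) (XT.lf (nat_lit 0) (nat_lit 5843716196100) (nat_lit 76) (nat_lit 11879236434527) (nat_lit 76) (nat_lit 11851972035835) (nat_lit 1) (nat_lit 4) (nat_lit 2) (nat_lit 5) (nat_lit 2) (nat_lit 4) (nat_lit 334) (nat_lit 270) (nat_lit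 176))) (XT.nd (nat_lit 78) (nat_lit 0) (nat_lit 0) (XT.lf (nat_lit 0) (nat_lit 6822440241891) (nat_lit 76) (nat_lit 13604279224285) (nat_lit 76) (nat_lit 13577014818588) (nat_lit 1) (nat_lit 4) (nat_lit 2) (nat_lit 5) (nat_lit 2) (nat_lit 4) (nat_lit 335) (nat_lit 270) (nat_lit 175)) (XT.nd (nat_lit 78) (nat_lit 0) (nat_lit 0) (XT.lf (nat_lit 0) (nat_lit 7947972845476) (nat_lit 76) (nat_lit 15588078457845) (nat_lit 76) (nat_lit 15560814046058) (nat_lit 1) (nat_lit 4) (nat_lit 2) (nat_lit 5) (nat_lit 2) (nat_lit 4) (nat_lit 336) (nat_lit 270) (nat_lit 174)) (XT.lf (nat_lit 0) (nat_lit 9242335296928) (nat_lit 76) (nat_lit 17869447598473) (nat_lit 76) (nat_lit 17842183181389) (nat_lit 1) (nat_lit 4) (nat_lit 2) (nat_lit 5) (nat_lit 2) (nat_lit 4) (nat_lit 337) (nat_lit 270) (nat_lit 173))))) (XT.nd (nat_lit 156) (nat_lit 0) (nat_lit 0) (XT.nd (nat_lit 78) (nat_lit 0) (nat_lit 0) (XT.lf (nat_lit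 0) (nat_lit 10730852078990) (nat_lit 76) (nat_lit 20493022129355) (nat_lit 76) (nat_lit 20465757707665) (nat_lit 1) (nat_lit 4) (nat_lit 2) (nat_lit 5) (nat_lit 2) (nat_lit 4) (nat_lit 338) (nat_lit 270) (nat_lit 172)) (XT.lf (nat_lit 0) (nat_lit 12442646346096) (nat_lit 76) (nat_lit 23510132856530) (nat_lit 76) (nat_lit 23482868430835) (nat_lit 1) (nat_lit 4) (nat_lit 2) (nat_lit 5) (nat_lit 2) (nat_lit 4) (nat_lit 339) (nat_lit 270) (nat_lit 171))) (XT.nd (nat_lit 78) (nat_lit 0) (nat_lit 0) (XT.lf (nat_lit 0) (nat_lit 14411209725210) (nat_lit 76) (nat_lit 26979810207268) (nat_lit 76) (nat_lit 26952545778091) (nat_lit 1) (nat_lit 4) (nat_lit 2) (nat_lit 5) (nat_lit 2) (nat_lit 4) (nat_lit 340) (nat_lit 270) (nat_lit 170)) (XT.nd (nat_lit 78) (nat_lit 0) (nat_lit 0) (XT.lf (nat_lit 0) (nat_lit 16675057586792) (nat_lit 76) (nat_lit 30969939173215) (nat_lit 76) (nat_lit 30942674741010)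 (nat_lit 1) (nat_lit 4) (nat_lit 2) (nat_lit 5) (nat_lit 2) (nat_lit 4) (nat_lit 341) (nat_lit 270) (nat_lit 169)) (XT.lf (nat_lit 0) (nat_lit 19278482606397) (nat_lit 76) (nat_lit 35558587495009) (nat_lit 76) (nat_lit 35531323060170) (nat_lit 1) (nat_lit 4) (nat_lit 2) (nat_lit 5) (nat_lit 2) (nat_lit 4) (nat_lit 342) (nat_lit 270) (nat_lit 168))))))) (XT.nd (nat_lit 35256) (nat_lit 0) (nat_lit 988) (XT.nd (nat_lit 390) (nat_lit 0) (nat_lit 0) (XT.nd (nat_lit 156) (nat_lit 0) (nat_lit 0) (XT.nd (nat_lit 78) (nat_lit 0) (nat_lit 0) (XT.lf (nat_lit 0) (nat_lit 22272421360493) (nat_lit 76) (nat_lit 40835533074597) (nat_lit 76) (nat_lit 40808268637468) (nat_lit 1) (nat_lit 4) (nat_lit 2) (nat_lit 5) (nat_lit 2) (nat_lit 4) (nat_lit 343) (nat_lit 270) (nat_lit 167)) (XT.lf (nat_lit 0) (nat_lit 25715450911662) (nat_lit 76) (nat_lit 46904020499407) (nat_lit 76) (nat_lit 46876756060287) (nat_lit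 1) (nat_lit 4) (nat_lit 2) (nat_lit 5) (nat_lit 2) (nat_lit 4) (nat_lit 344) (nat_lit 270) (nat_lit 166))) (XT.nd (nat_lit 78) (nat_lit 0) (nat_lit 0) (XT.lf (nat_lit 0) (nat_lit 29674934881556) (nat_lit 76) (nat_lit 53882781045141) (nat_lit 76) (nat_lit 53855516604289) (nat_lit 1) (nat_lit 4) (nat_lit 2) (nat_lit 5) (nat_lit 2) (nat_lit 4) (nat_lit 345) (nat_lit 270) (nat_lit 165)) (XT.nd (nat_lit 78) (nat_lit 0) (nat_lit 0) (XT.lf (nat_lit 0) (nat_lit 34228341434805) (nat_lit 76) (nat_lit 61908355678998) (nat_lit 76) (nat_lit 61881091236641) (nat_lit 1) (nat_lit 4) (nat_lit 2) (nat_lit 5) (nat_lit 2) (nat_lit 4) (nat_lit 346) (nat_lit 270) (nat_lit 164)) (XT.lf (nat_lit 0) (nat_lit 39464758960493) (nat_lit 76) (nat_lit 71137766513381) (nat_lit 76) (nat_lit 71110502069714) (nat_lit 1) (nat_lit 4) (nat_lit 2) (nat_lit 5) (nat_lit 2) (nat_lit 4) (nat_lit 347) (nat_lit 270) (nat_lit 163)))))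 (XT.nd (nat_lit 34632) (nat_lit 0) (nat_lit 1672) (XT.nd (nat_lit 78) (nat_lit 0) (nat_lit 0) (XT.lf (nat_lit 0) (nat_lit 45486639105862) (nat_lit 76) (nat_lit 81751588977657) (nat_lit 76) (nat_lit 81724324532852) (nat_lit 1) (nat_lit 4) (nat_lit 2) (nat_lit 5) (nat_lit 2) (nat_lit 4) (nat_lit 348) (nat_lit 270) (nat_lit 162)) (XT.lf (nat_lit 0) (nat_lit 52411801265061) (nat_lit 76) (nat_lit 93957484815692) (nat_lit 76) (nat_lit 93930220369897) (nat_lit 1) (nat_lit 4) (nat_lit 2) (nat_lit 5) (nat_lit 2) (nat_lit 4) (nat_lit 349) (nat_lit 270) (nat_lit 161))) (XT.nd (nat_lit 78) (nat_lit 0) (nat_lit 0) (XT.lf (nat_lit 0) (nat_lit 1329173708) (nat_lit 380) (nat_lit 4097586638) (nat_lit 380) (nat_lit 4097586638) (nat_lit 23) (nat_lit 3) (nat_lit 28) (nat_lit 3) (nat_lit 28) (nat_lit 5) (nat_lit 271) (nat_lit 271) (nat_lit 238)) (XT.nd (nat_lit 78) (nat_lit 0) (nat_lit 76) (XT.lf (nat_lit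 76) (nat_lit 877653533) (nat_lit 0) (nat_lit 2182836408) (nat_lit 380) (nat_lit 17385905042) (nat_lit 24) (nat_lit 5) (nat_lit 23) (nat_lit 3) (nat_lit 28) (nat_lit 5) (nat_lit 272) (nat_lit 271) (nat_lit 237)) (XT.lf (nat_lit 0) (nat_lit 4264313580) (nat_lit 304) (nat_lit 10123861429) (nat_lit 380) (nat_lit 7554467626) (nat_lit 24) (nat_lit 5) (nat_lit 28) (nat_lit 5) (nat_lit 29) (nat_lit 5) (nat_lit 273) (nat_lit 271) (nat_lit 236)))))) (XT.nd (nat_lit 390) (nat_lit 380) (nat_lit 0) (XT.nd (nat_lit 156) (nat_lit 380) (nat_lit 0) (XT.nd (nat_lit 78) (nat_lit 0) (nat_lit 76) (XT.lf (nat_lit 76) (nat_lit 672936691) (nat_lit 0) (nat_lit 5081560331) (nat_lit 380) (nat_lit 17893045473) (nat_lit 25) (nat_lit 5) (nat_lit 24) (nat_lit 5) (nat_lit 29) (nat_lit 5) (nat_lit 274) (nat_lit 271) (nat_lit 235)) (XT.lf (nat_lit 0) (nat_lit 8232065019) (nat_lit 304) (nat_lit 11583287920) (nat_lit 76)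 (nat_lit 5678318012) (nat_lit 25) (nat_lit 5) (nat_lit 29) (nat_lit 5) (nat_lit 26) (nat_lit 5) (nat_lit 275) (nat_lit 271) (nat_lit 234))) (XT.nd (nat_lit 78) (nat_lit 152) (nat_lit 0) (XT.lf (nat_lit 0) (nat_lit 1376824092) (nat_lit 304) (nat_lit 9983173278) (nat_lit 380) (nat_lit 16214974691) (nat_lit 21) (nat_lit 5) (nat_lit 25) (nat_lit 5) (nat_lit 26) (nat_lit 5) (nat_lit 276) (nat_lit 271) (nat_lit 233)) (XT.nd (nat_lit 78) (nat_lit 152) (nat_lit 0) (XT.lf (nat_lit 0) (nat_lit 15627783743) (nat_lit 380) (nat_lit 12400877154) (nat_lit 76) (nat_lit 1839262388) (nat_lit 21) (nat_lit 5) (nat_lit 26) (nat_lit 5) (nat_lit 22) (nat_lit 5) (nat_lit 277) (nat_lit 271) (nat_lit 232)) (XT.lf (nat_lit 0) (nat_lit 3261534316) (nat_lit 152) (nat_lit 17868580176) (nat_lit 228) (nat_lit 11285593693) (nat_lit 19) (nat_lit 5) (nat_lit 21) (nat_lit 5) (nat_lit 22) (nat_lit 5) (nat_lit 278) (nat_lit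 271) (nat_lit 231))))) (XT.nd (nat_lit 234) (nat_lit 228) (nat_lit 0) (XT.nd (nat_lit 78) (nat_lit 152) (nat_lit 0) (XT.lf (nat_lit 0) (nat_lit 22648454856) (nat_lit 152) (nat_lit 5442829475) (nat_lit 228) (nat_lit 7159394332) (nat_lit 19) (nat_lit 5) (nat_lit 21) (nat_lit 5) (nat_lit 22) (nat_lit 5) (nat_lit 279) (nat_lit 271) (nat_lit 230)) (XT.nd (nat_lit 78) (nat_lit 76) (nat_lit 0) (XT.lf (nat_lit 0) (nat_lit 6639326147) (nat_lit 76) (nat_lit 30085597502) (nat_lit 152) (nat_lit 1691762848) (nat_lit 18) (nat_lit 5) (nat_lit 19) (nat_lit 5) (nat_lit 20) (nat_lit 4) (nat_lit 280) (nat_lit 271) (nat_lit 229)) (XT.lf (nat_lit 0) (nat_lit 5123577478) (nat_lit 152) (nat_lit 12274603435) (nat_lit 76) (nat_lit 24490385104) (nat_lit 17) (nat_lit 5) (nat_lit 19) (nat_lit 5) (nat_lit 18) (nat_lit 5) (nat_lit 281) (nat_lit 271) (nat_lit 228)))) (XT.nd (nat_lit 78) (nat_lit 76) (nat_lit 0) (XT.lf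 (nat_lit 0) (nat_lit 11039865161) (nat_lit 152) (nat_lit 2194355261) (nat_lit 228) (nat_lit 32568015738) (nat_lit 15) (nat_lit 5) (nat_lit 17) (nat_lit 5) (nat_lit 18) (nat_lit 5) (nat_lit 282) (nat_lit 271) (nat_lit 227)) (XT.nd (nat_lit 78) (nat_lit 76) (nat_lit 0) (XT.lf (nat_lit 0) (nat_lit 23856419010) (nat_lit 228) (nat_lit 11655981674) (nat_lit 76) (nat_lit 14596332778) (nat_lit 15) (nat_lit 5) (nat_lit 18) (nat_lit 5) (nat_lit 16) (nat_lit 4) (nat_lit 283) (nat_lit 271) (nat_lit 226)) (XT.lf (nat_lit 0) (nat_lit 16243561747) (nat_lit 76) (nat_lit 20596490356) (nat_lit 152) (nat_lit 18105955387) (nat_lit 14) (nat_lit 5) (nat_lit 15) (nat_lit 5) (nat_lit 16) (nat_lit 4) (nat_lit 284) (nat_lit 271) (nat_lit 225))))))))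
noncomputable def xc70 : XT := (XT.nd (nat_lit 1560) (nat_lit 228) (nat_lit 0) (XT.nd (nat_lit 780) (nat_lit 304) (nat_lit 0) (XT.nd (nat_lit 390) (nat_lit 228) (nat_lit 0) (XT.nd (nat_lit 156) (nat_lit 76) (nat_lit 0) (XT.nd (nat_lit 78) (nat_lit 152) (nat_lit 0) (XT.lf (nat_lit 0) (nat_lit 49624240387) (nat_lit 76) (nat_lit 2747883774) (nat_lit 152) (nat_lit 8046629874) (nat_lit 14) (nat_lit 5) (nat_lit 15) (nat_lit 5) (nat_lit 16) (nat_lit 4) (nat_lit 285) (nat_lit 271) (nat_lit 224)) (XT.lf (nat_lit 0) (nat_lit 4950017244) (nat_lit 152) (nat_lit 44129090016) (nat_lit 76) (nat_lit 17350152853) (nat_lit 12) (nat_lit 5) (nat_lit 14) (nat_lit 5) (nat_lit 13) (nat_lit 4) (nat_lit 286) (nat_lit 271) (nat_lit 223))) (XT.nd (nat_lit 78) (nat_lit 76) (nat_lit 0) (XT.lf (nat_lit 0) (nat_lit 19786948034) (nat_lit 152) (nat_lit 12238418190) (nat_lit 76) (nat_lit 41151318917) (nat_lit 12) (nat_lit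 5) (nat_lit 14) (nat_lit 5) (nat_lit 13) (nat_lit 4) (nat_lit 287) (nat_lit 271) (nat_lit 222)) (XT.nd (nat_lit 78) (nat_lit 0) (nat_lit 0) (XT.lf (nat_lit 0) (nat_lit 26811462739) (nat_lit 76) (nat_lit 11141751197) (nat_lit 152) (nat_lit 42817449533) (nat_lit 11) (nat_lit 5) (nat_lit 12) (nat_lit 5) (nat_lit 13) (nat_lit 4) (nat_lit 288) (nat_lit 271) (nat_lit 221)) (XT.lf (nat_lit 0) (nat_lit 60041500027) (nat_lit 152) (nat_lit 16888617105) (nat_lit 0) (nat_lit 12394067083) (nat_lit 11) (nat_lit 5) (nat_lit 13) (nat_lit 4) (nat_lit 11) (nat_lit 4) (nat_lit 289) (nat_lit 271) (nat_lit 220))))) (XT.nd (nat_lit 156) (nat_lit 76) (nat_lit 0) (XT.nd (nat_lit 78) (nat_lit 76) (nat_lit 0) (XT.lf (nat_lit 0) (nat_lit 27664887356) (nat_lit 76) (nat_lit 59448836123) (nat_lit 76) (nat_lit 11796412131) (nat_lit 10) (nat_lit 4) (nat_lit 11) (nat_lit 5) (nat_lit 11) (nat_lit 4) (nat_lit 290) (nat_lit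 271) (nat_lit 219)) (XT.lf (nat_lit 0) (nat_lit 8492242507) (nat_lit 152) (nat_lit 29398442640) (nat_lit 76) (nat_lit 71853741619) (nat_lit 9) (nat_lit 5) (nat_lit 11) (nat_lit 5) (nat_lit 10) (nat_lit 4) (nat_lit 291) (nat_lit 271) (nat_lit 218))) (XT.nd (nat_lit 78) (nat_lit 0) (nat_lit 0) (XT.lf (nat_lit 0) (nat_lit 19929094233) (nat_lit 76) (nat_lit 11507944005) (nat_lit 152) (nat_lit 90559482060) (nat_lit 8) (nat_lit 5) (nat_lit 9) (nat_lit 5) (nat_lit 10) (nat_lit 4) (nat_lit 292) (nat_lit 271) (nat_lit 217)) (XT.nd (nat_lit 78) (nat_lit 0) (nat_lit 0) (XT.lf (nat_lit 0) (nat_lit 60208713366) (nat_lit 152) (nat_lit 56758030677) (nat_lit 0) (nat_lit 18761913648) (nat_lit 8) (nat_lit 5) (nat_lit 10) (nat_lit 4) (nat_lit 8) (nat_lit 4) (nat_lit 293) (nat_lit 271) (nat_lit 216)) (XT.lf (nat_lit 0) (nat_lit 93840175124) (nat_lit 152) (nat_lit 5207944625) (nat_lit 0) (nat_lit 52390893973)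 (nat_lit 8) (nat_lit 5) (nat_lit 10) (nat_lit 4) (nat_lit 8) (nat_lit 4) (nat_lit 294) (nat_lit 271) (nat_lit 215)))))) (XT.nd (nat_lit 390) (nat_lit 76) (nat_lit 0) (XT.nd (nat_lit 156) (nat_lit 152) (nat_lit 0) (XT.nd (nat_lit 78) (nat_lit 0) (nat_lit 0) (XT.lf (nat_lit 0) (nat_lit 59351852485) (nat_lit 76) (nat_lit 75618692111) (nat_lit 76) (nat_lit 34167253193) (nat_lit 7) (nat_lit 4) (nat_lit 8) (nat_lit 5) (nat_lit 8) (nat_lit 4) (nat_lit 295) (nat_lit 271) (nat_lit 214)) (XT.lf (nat_lit 0) (nat_lit 134174512126) (nat_lit 76) (nat_lit 48364929629) (nat_lit 76) (nat_lit 6911614391) (nat_lit 7) (nat_lit 4) (nat_lit 8) (nat_lit 5) (nat_lit 8) (nat_lit 4) (nat_lit 296) (nat_lit 271) (nat_lit 213))) (XT.nd (nat_lit 78) (nat_lit 0) (nat_lit 0) (XT.lf (nat_lit 0) (nat_lit 7016353981) (nat_lit 76) (nat_lit 15528437089) (nat_lit 152) (nat_lit 190071626334) (nat_lit 5) (nat_lit 5) (nat_lit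 6) (nat_lit 5) (nat_lit 7) (nat_lit 4) (nat_lit 297) (nat_lit 271) (nat_lit 212)) (XT.nd (nat_lit 78) (nat_lit 0) (nat_lit 0) (XT.lf (nat_lit 0) (nat_lit 59656799434) (nat_lit 152) (nat_lit 155350916559) (nat_lit 0) (nat_lit 23607785879) (nat_lit 5) (nat_lit 5) (nat_lit 7) (nat_lit 4) (nat_lit 5) (nat_lit 4) (nat_lit 298) (nat_lit 271) (nat_lit 211)) (XT.lf (nat_lit 0) (nat_lit 103072508758) (nat_lit 152) (nat_lit 98308984326) (nat_lit 0) (nat_lit 67022422412) (nat_lit 5) (nat_lit 5) (nat_lit 7) (nat_lit 4) (nat_lit 5) (nat_lit 4) (nat_lit 299) (nat_lit 271) (nat_lit 210))))) (XT.nd (nat_lit 156) (nat_lit 0) (nat_lit 0) (XT.nd (nat_lit 78) (nat_lit 76) (nat_lit 0) (XT.lf (nat_lit 0) (nat_lit 152998357370) (nat_lit 152) (nat_lit 32715229453) (nat_lit 0) (nat_lit 116947338161) (nat_lit 5) (nat_lit 5) (nat_lit 7) (nat_lit 4) (nat_lit 5) (nat_lit 4) (nat_lit 300) (nat_lit 271) (nat_lit 209))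 (XT.lf (nat_lit 0) (nat_lit 46887997945) (nat_lit 76) (nat_lit 165464689411) (nat_lit 76) (nat_lit 129412859017) (nat_lit 4) (nat_lit 4) (nat_lit 5) (nat_lit 5) (nat_lit 5) (nat_lit 4) (nat_lit 301) (nat_lit 271) (nat_lit 208))) (XT.nd (nat_lit 78) (nat_lit 0) (nat_lit 0) (XT.lf (nat_lit 0) (nat_lit 142104747178) (nat_lit 76) (nat_lit 140213703935) (nat_lit 76) (nat_lit 104161168163) (nat_lit 4) (nat_lit 4) (nat_lit 5) (nat_lit 5) (nat_lit 5) (nat_lit 4) (nat_lit 302) (nat_lit 271) (nat_lit 207)) (XT.nd (nat_lit 78) (nat_lit 0) (nat_lit 0) (XT.lf (nat_lit 0) (nat_lit 251600784493) (nat_lit 76) (nat_lit 111176703642) (nat_lit 76) (nat_lit 75123554498) (nat_lit 4) (nat_lit 4) (nat_lit 5) (nat_lit 5) (nat_lit 5) (nat_lit 4) (nat_lit 303) (nat_lit 271) (nat_lit 206)) (XT.lf (nat_lit 0) (nat_lit 377518423663) (nat_lit 76) (nat_lit 77785573310) (nat_lit 76) (nat_lit 41731890799) (nat_lit 4)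 (nat_lit 4) (nat_lit 5) (nat_lit 5) (nat_lit 5) (nat_lit 4) (nat_lit 304) (nat_lit 271) (nat_lit 205))))))) (XT.nd (nat_lit 780) (nat_lit 76) (nat_lit 0) (XT.nd (nat_lit 390) (nat_lit 0) (nat_lit 0) (XT.nd (nat_lit 156) (nat_lit 0) (nat_lit 0) (XT.nd (nat_lit 78) (nat_lit 152) (nat_lit 0) (XT.lf (nat_lit 0) (nat_lit 522321270672) (nat_lit 76) (nat_lit 39387008215) (nat_lit 76) (nat_lit 3332861906) (nat_lit 4) (nat_lit 4) (nat_lit 5) (nat_lit 5) (nat_lit 5) (nat_lit 4) (nat_lit 305) (nat_lit 271) (nat_lit 204)) (XT.lf (nat_lit 0) (nat_lit 39559031129) (nat_lit 152) (nat_lit 594872180796) (nat_lit 0) (nat_lit 8207248859) (nat_lit 2) (nat_lit 5) (nat_lit 4) (nat_lit 4) (nat_lit 2) (nat_lit 4) (nat_lit 306) (nat_lit 271) (nat_lit 203))) (XT.nd (nat_lit 78) (nat_lit 0) (nat_lit 0) (XT.lf (nat_lit 0) (nat_lit 92757393271) (nat_lit 152) (nat_lit 577056787702) (nat_lit 0) (nat_lit 61405306046)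 (nat_lit 2) (nat_lit 5) (nat_lit 4) (nat_lit 4) (nat_lit 2) (nat_lit 4) (nat_lit 307) (nat_lit 271) (nat_lit 202)) (XT.nd (nat_lit 78) (nat_lit 0) (nat_lit 0) (XT.lf (nat_lit 0) (nat_lit 153934564904) (nat_lit 152) (nat_lit 556571031862) (nat_lit 0) (nat_lit 122582212502) (nat_lit 2) (nat_lit 5) (nat_lit 4) (nat_lit 4) (nat_lit 2) (nat_lit 4) (nat_lit 308) (nat_lit 271) (nat_lit 201)) (XT.lf (nat_lit 0) (nat_lit 224287490693) (nat_lit 152) (nat_lit 533014105011) (nat_lit 0) (nat_lit 192934907701) (nat_lit 2) (nat_lit 5) (nat_lit 4) (nat_lit 4) (nat_lit 2) (nat_lit 4) (nat_lit 309) (nat_lit 271) (nat_lit 200))))) (XT.nd (nat_lit 156) (nat_lit 0) (nat_lit 0) (XT.nd (nat_lit 78) (nat_lit 0) (nat_lit 0) (XT.lf (nat_lit 0) (nat_lit 305192640923) (nat_lit 152) (nat_lit 505925110753) (nat_lit 0) (nat_lit 273839857419) (nat_lit 2) (nat_lit 5) (nat_lit 4) (nat_lit 4) (nat_lit 2) (nat_lit 4) (nat_lit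 310) (nat_lit 271) (nat_lit 199)) (XT.lf (nat_lit 0) (nat_lit 398232942447) (nat_lit 152) (nat_lit 474774047027) (nat_lit 0) (nat_lit 366879984584) (nat_lit 2) (nat_lit 5) (nat_lit 4) (nat_lit 4) (nat_lit 2) (nat_lit 4) (nat_lit 311) (nat_lit 271) (nat_lit 198))) (XT.nd (nat_lit 78) (nat_lit 0) (nat_lit 0) (XT.lf (nat_lit 0) (nat_lit 505228748991) (nat_lit 152) (nat_lit 438951436500) (nat_lit 0) (nat_lit 473875639512) (nat_lit 2) (nat_lit 5) (nat_lit 4) (nat_lit 4) (nat_lit 2) (nat_lit 4) (nat_lit 312) (nat_lit 271) (nat_lit 197)) (XT.nd (nat_lit 78) (nat_lit 0) (nat_lit 0) (XT.lf (nat_lit 0) (nat_lit 628273456769) (nat_lit 152) (nat_lit 397756402008) (nat_lit 0) (nat_lit 596920215450) (nat_lit 2) (nat_lit 5) (nat_lit 4) (nat_lit 4) (nat_lit 2) (nat_lit 4) (nat_lit 313) (nat_lit 271) (nat_lit 196)) (XT.lf (nat_lit 0) (nat_lit 769774462238) (nat_lit 152) (nat_lit 350382953746) (nat_lit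 0) (nat_lit 738421106275) (nat_lit 2) (nat_lit 5) (nat_lit 4) (nat_lit 4) (nat_lit 2) (nat_lit 4) (nat_lit 314) (nat_lit 271) (nat_lit 195)))))) (XT.nd (nat_lit 390) (nat_lit 0) (nat_lit 0) (XT.nd (nat_lit 156) (nat_lit 76) (nat_lit 0) (XT.nd (nat_lit 78) (nat_lit 0) (nat_lit 0) (XT.lf (nat_lit 0) (nat_lit 932500263332) (nat_lit 152) (nat_lit 295904219900) (nat_lit 0) (nat_lit 901146807679) (nat_lit 2) (nat_lit 5) (nat_lit 4) (nat_lit 4) (nat_lit 2) (nat_lit 4) (nat_lit 315) (nat_lit 271) (nat_lit 194)) (XT.lf (nat_lit 0) (nat_lit 1119634625723) (nat_lit 152) (nat_lit 233254312201) (nat_lit 0) (nat_lit 1088281083383) (nat_lit 2) (nat_lit 5) (nat_lit 4) (nat_lit 4) (nat_lit 2) (nat_lit 4) (nat_lit 316) (nat_lit 271) (nat_lit 193))) (XT.nd (nat_lit 78) (nat_lit 76) (nat_lit 0) (XT.lf (nat_lit 0) (nat_lit 1334838873894) (nat_lit 152) (nat_lit 161207471583) (nat_lit 0) (nat_lit 1303485256174)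 (nat_lit 2) (nat_lit 5) (nat_lit 4) (nat_lit 4) (nat_lit 2) (nat_lit 4) (nat_lit 317) (nat_lit 271) (nat_lit 192)) (XT.nd (nat_lit 78) (nat_lit 76) (nat_lit 0) (XT.lf (nat_lit 0) (nat_lit 1582323525743) (nat_lit 152) (nat_lit 78354085948) (nat_lit 0) (nat_lit 1550969842475) (nat_lit 2) (nat_lit 5) (nat_lit 4) (nat_lit 4) (nat_lit 2) (nat_lit 4) (nat_lit 318) (nat_lit 271) (nat_lit 191)) (XT.lf (nat_lit 0) (nat_lit 18581107922) (nat_lit 76) (nat_lit 1849118968416) (nat_lit 76) (nat_lit 1817765228150) (nat_lit 1) (nat_lit 4) (nat_lit 2) (nat_lit 5) (nat_lit 2) (nat_lit 4) (nat_lit 319) (nat_lit 271) (nat_lit 190))))) (XT.nd (nat_lit 156) (nat_lit 0) (nat_lit 0) (XT.nd (nat_lit 78) (nat_lit 0) (nat_lit 0) (XT.lf (nat_lit 0) (nat_lit 138862112358) (nat_lit 76) (nat_lit 2061116585801) (nat_lit 76) (nat_lit 2029762795972) (nat_lit 1) (nat_lit 4) (nat_lit 2) (nat_lit 5) (nat_lit 2) (nat_lit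 4) (nat_lit 320) (nat_lit 271) (nat_lit 189)) (XT.lf (nat_lit 0) (nat_lit 277184920232) (nat_lit 76) (nat_lit 2304914025083) (nat_lit 76) (nat_lit 2273560192154) (nat_lit 1) (nat_lit 4) (nat_lit 2) (nat_lit 5) (nat_lit 2) (nat_lit 4) (nat_lit 321) (nat_lit 271) (nat_lit 188))) (XT.nd (nat_lit 78) (nat_lit 0) (nat_lit 0) (XT.lf (nat_lit 0) (nat_lit 436255847350) (nat_lit 76) (nat_lit 2585281236160) (nat_lit 76) (nat_lit 2553927365754) (nat_lit 1) (nat_lit 4) (nat_lit 2) (nat_lit 5) (nat_lit 2) (nat_lit 4) (nat_lit 322) (nat_lit 271) (nat_lit 187)) (XT.nd (nat_lit 78) (nat_lit 0) (nat_lit 0) (XT.lf (nat_lit 0) (nat_lit 619187150982) (nat_lit 76) (nat_lit 2907703664466) (nat_lit 76) (nat_lit 2876349761471) (nat_lit 1) (nat_lit 4) (nat_lit 2) (nat_lit 5) (nat_lit 2) (nat_lit 4) (nat_lit 323) (nat_lit 271) (nat_lit 186)) (XT.lf (nat_lit 0) (nat_lit 829557921851) (nat_lit 76) (nat_lit 3278489574903)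 (nat_lit 76) (nat_lit 3247135643570) (nat_lit 1) (nat_lit 4) (nat_lit 2) (nat_lit 5) (nat_lit 2) (nat_lit 4) (nat_lit 324) (nat_lit 271) (nat_lit 185))))))))
noncomputable def xc71 : XT := (XT.nd (nat_lit 1560) (nat_lit 0) (nat_lit 0) (XT.nd (nat_lit 780) (nat_lit 0) (nat_lit 0) (XT.nd (nat_lit 390) (nat_lit 0) (nat_lit 0) (XT.nd (nat_lit 156) (nat_lit 0) (nat_lit 0) (XT.nd (nat_lit 78) (nat_lit 0) (nat_lit 0) (XT.lf (nat_lit 0) (nat_lit 1071484109822) (nat_lit 76) (nat_lit 3704893474415) (nat_lit 76) (nat_lit 3673539518440) (nat_lit 1) (nat_lit 4) (nat_lit 2) (nat_lit 5) (nat_lit 2) (nat_lit 4) (nat_lit 325) (nat_lit 271) (nat_lit 184)) (XT.lf (nat_lit 0) (nat_lit 1349699053354) (nat_lit 76) (nat_lit 4195258047991) (nat_lit 76) (nat_lit 4163904070589) (nat_lit 1) (nat_lit 4) (nat_lit 2) (nat_lit 5) (nat_lit 2) (nat_lit 4) (nat_lit 326) (nat_lit 271) (nat_lit 183))) (XT.nd (nat_lit 78)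 (nat_lit 0) (nat_lit 0) (XT.lf (nat_lit 0) (nat_lit 1669646088301) (nat_lit 76) (nat_lit 4759177385116) (nat_lit 76) (nat_lit 4727823389080) (nat_lit 1) (nat_lit 4) (nat_lit 2) (nat_lit 5) (nat_lit 2) (nat_lit 4) (nat_lit 327) (nat_lit 271) (nat_lit 182)) (XT.nd (nat_lit 78) (nat_lit 0) (nat_lit 0) (XT.lf (nat_lit 0) (nat_lit 2037585047954) (nat_lit 76) (nat_lit 5407684690210) (nat_lit 76) (nat_lit 5376330677972) (nat_lit 1) (nat_lit 4) (nat_lit 2) (nat_lit 5) (nat_lit 2) (nat_lit 4) (nat_lit 328) (nat_lit 271) (nat_lit 181)) (XT.lf (nat_lit 0) (nat_lit 2460714738045) (nat_lit 76) (nat_lit 6153468149678) (nat_lit 76) (nat_lit 6122114123351) (nat_lit 1) (nat_lit 4) (nat_lit 2) (nat_lit 5) (nat_lit 2) (nat_lit 4) (nat_lit 329) (nat_lit 271) (nat_lit 180))))) (XT.nd (nat_lit 156) (nat_lit 0) (nat_lit 0) (XT.nd (nat_lit 78) (nat_lit 0) (nat_lit 0) (XT.lf (nat_lit 0) (nat_lit 2947313782946)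 (nat_lit 76) (nat_lit 7011119179031) (nat_lit 76) (nat_lit 6979765140453) (nat_lit 1) (nat_lit 4) (nat_lit 2) (nat_lit 5) (nat_lit 2) (nat_lit 4) (nat_lit 330) (nat_lit 271) (nat_lit 179)) (XT.lf (nat_lit 0) (nat_lit 3506902598753) (nat_lit 76) (nat_lit 7997417907104) (nat_lit 76) (nat_lit 7966063857873) (nat_lit 1) (nat_lit 4) (nat_lit 2) (nat_lit 5) (nat_lit 2) (nat_lit 4) (nat_lit 331) (nat_lit 271) (nat_lit 178))) (XT.nd (nat_lit 78) (nat_lit 0) (nat_lit 0) (XT.lf (nat_lit 0) (nat_lit 4150429662298) (nat_lit 76) (nat_lit 9131661482925) (nat_lit 76) (nat_lit 9100307424430) (nat_lit 1) (nat_lit 4) (nat_lit 2) (nat_lit 5) (nat_lit 2) (nat_lit 4) (nat_lit 332) (nat_lit 271) (nat_lit 177)) (XT.nd (nat_lit 78) (nat_lit 0) (nat_lit 0) (XT.lf (nat_lit 0) (nat_lit 4890485720474) (nat_lit 76) (nat_lit 10436041628630) (nat_lit 76) (nat_lit 10404687562080) (nat_lit 1) (nat_lit 4) (nat_lit 2)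 (nat_lit 5) (nat_lit 2) (nat_lit 4) (nat_lit 333) (nat_lit 271) (nat_lit 176)) (XT.lf (nat_lit 0) (nat_lit 5741550130942) (nat_lit 76) (nat_lit 11936078825330) (nat_lit 76) (nat_lit 11904724751775) (nat_lit 1) (nat_lit 4) (nat_lit 2) (nat_lit 5) (nat_lit 2) (nat_lit 4) (nat_lit 334) (nat_lit 271) (nat_lit 175)))))) (XT.nd (nat_lit 390) (nat_lit 0) (nat_lit 0) (XT.nd (nat_lit 156) (nat_lit 0) (nat_lit 0) (XT.nd (nat_lit 78) (nat_lit 0) (nat_lit 0) (XT.lf (nat_lit 0) (nat_lit 6720274153908) (nat_lit 76) (nat_lit 13661121626874) (nat_lit 76) (nat_lit 13629767547227) (nat_lit 1) (nat_lit 4) (nat_lit 2) (nat_lit 5) (nat_lit 2) (nat_lit 4) (nat_lit 335) (nat_lit 271) (nat_lit 174)) (XT.lf (nat_lit 0) (nat_lit 7845806737646) (nat_lit 76) (nat_lit 15644920870682) (nat_lit 76) (nat_lit 15613566785739) (nat_lit 1) (nat_lit 4) (nat_lit 2) (nat_lit 5) (nat_lit 2) (nat_lit 4) (nat_lit 336) (nat_lit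 271) (nat_lit 173))) (XT.nd (nat_lit 78) (nat_lit 0) (nat_lit 0) (XT.lf (nat_lit 0) (nat_lit 9140169171839) (nat_lit 76) (nat_lit 17926290020222) (nat_lit 76) (nat_lit 17894935930673) (nat_lit 1) (nat_lit 4) (nat_lit 2) (nat_lit 5) (nat_lit 2) (nat_lit 4) (nat_lit 337) (nat_lit 271) (nat_lit 172)) (XT.nd (nat_lit 78) (nat_lit 0) (nat_lit 0) (XT.lf (nat_lit 0) (nat_lit 10628685938894) (nat_lit 76) (nat_lit 20549864558853) (nat_lit 76) (nat_lit 20518510465299) (nat_lit 1) (nat_lit 4) (nat_lit 2) (nat_lit 5) (nat_lit 2) (nat_lit 4) (nat_lit 338) (nat_lit 271) (nat_lit 171)) (XT.lf (nat_lit 0) (nat_lit 12340480192949) (nat_lit 76) (nat_lit 23566975292766) (nat_lit 76) (nat_lit 23535621195729) (nat_lit 1) (nat_lit 4) (nat_lit 2) (nat_lit 5) (nat_lit 2) (nat_lit 4) (nat_lit 339) (nat_lit 271) (nat_lit 170))))) (XT.nd (nat_lit 156) (nat_lit 0) (nat_lit 0) (XT.nd (nat_lit 78) (nat_lit 0) (nat_lit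 0) (XT.lf (nat_lit 0) (nat_lit 14309043560715) (nat_lit 76) (nat_lit 27036652649364) (nat_lit 76) (nat_lit 27005298549299) (nat_lit 1) (nat_lit 4) (nat_lit 2) (nat_lit 5) (nat_lit 2) (nat_lit 4) (nat_lit 340) (nat_lit 271) (nat_lit 169)) (XT.lf (nat_lit 0) (nat_lit 16572891412430) (nat_lit 76) (nat_lit 31026781620406) (nat_lit 76) (nat_lit 30995427517708) (nat_lit 1) (nat_lit 4) (nat_lit 2) (nat_lit 5) (nat_lit 2) (nat_lit 4) (nat_lit 341) (nat_lit 271) (nat_lit 168))) (XT.nd (nat_lit 78) (nat_lit 0) (nat_lit 0) (XT.lf (nat_lit 0) (nat_lit 19176316423454) (nat_lit 76) (nat_lit 35615429946630) (nat_lit 76) (nat_lit 35584075841642) (nat_lit 1) (nat_lit 4) (nat_lit 2) (nat_lit 5) (nat_lit 2) (nat_lit 4) (nat_lit 342) (nat_lit 271) (nat_lit 167)) (XT.nd (nat_lit 78) (nat_lit 0) (nat_lit 0) (XT.lf (nat_lit 0) (nat_lit 22170255170089) (nat_lit 76) (nat_lit 40892375530071) (nat_lit 76) (nat_lit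 40861021423092) (nat_lit 1) (nat_lit 4) (nat_lit 2) (nat_lit 5) (nat_lit 2) (nat_lit 4) (nat_lit 343) (nat_lit 271) (nat_lit 166)) (XT.lf (nat_lit 0) (nat_lit 25613284714769) (nat_lit 76) (nat_lit 46960862958231) (nat_lit 76) (nat_lit 46929508849520) (nat_lit 1) (nat_lit 4) (nat_lit 2) (nat_lit 5) (nat_lit 2) (nat_lit 4) (nat_lit 344) (nat_lit 271) (nat_lit 165))))))) (XT.nd (nat_lit 35412) (nat_lit 0) (nat_lit 836) (XT.nd (nat_lit 35022) (nat_lit 0) (nat_lit 1520) (XT.nd (nat_lit 156) (nat_lit 0) (nat_lit 0) (XT.nd (nat_lit 78) (nat_lit 0) (nat_lit 0) (XT.lf (nat_lit 0) (nat_lit 29572768679022) (nat_lit 76) (nat_lit 53939623506878) (nat_lit 76) (nat_lit 53908269396662) (nat_lit 1) (nat_lit 4) (nat_lit 2) (nat_lit 5) (nat_lit 2) (nat_lit 4) (nat_lit 345) (nat_lit 271) (nat_lit 164)) (XT.lf (nat_lit 0) (nat_lit 34126175227365) (nat_lit 76) (nat_lit 61965198143269) (nat_lit 76) (nat_lit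 61933844031743) (nat_lit 1) (nat_lit 4) (nat_lit 2) (nat_lit 5) (nat_lit 2) (nat_lit 4) (nat_lit 346) (nat_lit 271) (nat_lit 163))) (XT.nd (nat_lit 78) (nat_lit 0) (nat_lit 0) (XT.lf (nat_lit 0) (nat_lit 39362592748787) (nat_lit 76) (nat_lit 71194608979854) (nat_lit 76) (nat_lit 71163254867190) (nat_lit 1) (nat_lit 4) (nat_lit 2) (nat_lit 5) (nat_lit 2) (nat_lit 4) (nat_lit 347) (nat_lit 271) (nat_lit 162)) (XT.nd (nat_lit 34710) (nat_lit 0) (nat_lit 1672) (XT.lf (nat_lit 0) (nat_lit 45384472890446) (nat_lit 76) (nat_lit 81808431446045) (nat_lit 76) (nat_lit 81777077332391) (nat_lit 1) (nat_lit 4) (nat_lit 2) (nat_lit 5) (nat_lit 2) (nat_lit 4) (nat_lit 348) (nat_lit 271) (nat_lit 161)) (XT.lf (nat_lit 0) (nat_lit 1688083179) (nat_lit 380) (nat_lit 4620235987) (nat_lit 380) (nat_lit 4620235987) (nat_lit 23) (nat_lit 3) (nat_lit 28) (nat_lit 3) (nat_lit 28) (nat_lit 5) (nat_lit 272) (nat_lit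 272) (nat_lit 236))))) (XT.nd (nat_lit 156) (nat_lit 152) (nat_lit 0) (XT.nd (nat_lit 78) (nat_lit 0) (nat_lit 76) (XT.lf (nat_lit 76) (nat_lit 1184916253) (nat_lit 0) (nat_lit 2619368425) (nat_lit 380) (nat_lit 19665467682) (nat_lit 24) (nat_lit 5) (nat_lit 23) (nat_lit 3) (nat_lit 28) (nat_lit 5) (nat_lit 273) (nat_lit 272) (nat_lit 235)) (XT.lf (nat_lit 0) (nat_lit 5147615727) (nat_lit 304) (nat_lit 11447888964) (nat_lit 380) (nat_lit 8601208956) (nat_lit 24) (nat_lit 5) (nat_lit 28) (nat_lit 5) (nat_lit 29) (nat_lit 5) (nat_lit 274) (nat_lit 272) (nat_lit 234))) (XT.nd (nat_lit 78) (nat_lit 228) (nat_lit 0) (XT.lf (nat_lit 76) (nat_lit 959585615) (nat_lit 0) (nat_lit 5877649758) (nat_lit 380) (nat_lit 20323828174) (nat_lit 25) (nat_lit 5) (nat_lit 24) (nat_lit 5) (nat_lit 29) (nat_lit 5) (nat_lit 275) (nat_lit 272) (nat_lit 233)) (XT.nd (nat_lit 78) (nat_lit 304) (nat_lit 0) (XT.lf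 (nat_lit 0) (nat_lit 9656580788) (nat_lit 304) (nat_lit 13128850132) (nat_lit 76) (nat_lit 6503247159) (nat_lit 25) (nat_lit 5) (nat_lit 29) (nat_lit 5) (nat_lit 26) (nat_lit 5) (nat_lit 276) (nat_lit 272) (nat_lit 232)) (XT.lf (nat_lit 0) (nat_lit 1766554547) (nat_lit 304) (nat_lit 11469990387) (nat_lit 380) (nat_lit 18448279777) (nat_lit 21) (nat_lit 5) (nat_lit 25) (nat_lit 5) (nat_lit 26) (nat_lit 5) (nat_lit 277) (nat_lit 272) (nat_lit 231)))))) (XT.nd (nat_lit 390) (nat_lit 380) (nat_lit 0) (XT.nd (nat_lit 156) (nat_lit 152) (nat_lit 0) (XT.nd (nat_lit 78) (nat_lit 152) (nat_lit 0) (XT.lf (nat_lit 0) (nat_lit 18122376800) (nat_lit 380) (nat_lit 14079131650) (nat_lit 76) (nat_lit 2123595186) (nat_lit 21) (nat_lit 5) (nat_lit 26) (nat_lit 5) (nat_lit 22) (nat_lit 5) (nat_lit 278) (nat_lit 272) (nat_lit 230)) (XT.lf (nat_lit 0) (nat_lit 3924374401) (nat_lit 152) (nat_lit 20513250861)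 (nat_lit 228) (nat_lit 12819353748) (nat_lit 19) (nat_lit 5) (nat_lit 21) (nat_lit 5) (nat_lit 22) (nat_lit 5) (nat_lit 279) (nat_lit 272) (nat_lit 229))) (XT.nd (nat_lit 78) (nat_lit 152) (nat_lit 0) (XT.lf (nat_lit 0) (nat_lit 26196688248) (nat_lit 152) (nat_lit 6228283164) (nat_lit 228) (nat_lit 8094973917) (nat_lit 19) (nat_lit 5) (nat_lit 21) (nat_lit 5) (nat_lit 22) (nat_lit 5) (nat_lit 280) (nat_lit 272) (nat_lit 228)) (XT.nd (nat_lit 78) (nat_lit 76) (nat_lit 0) (XT.lf (nat_lit 0) (nat_lit 7795605758) (nat_lit 76) (nat_lit 34550155602) (nat_lit 152) (nat_lit 1816321089) (nat_lit 18) (nat_lit 5) (nat_lit 19) (nat_lit 5) (nat_lit 20) (nat_lit 4) (nat_lit 281) (nat_lit 272) (nat_lit 227)) (XT.lf (nat_lit 0) (nat_lit 5994464846) (nat_lit 152) (nat_lit 13966109118) (nat_lit 76) (nat_lit 28195703440) (nat_lit 17) (nat_lit 5) (nat_lit 19) (nat_lit 5) (nat_lit 18) (nat_lit 5) (nat_lit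 282) (nat_lit 272) (nat_lit 226))))) (XT.nd (nat_lit 234) (nat_lit 152) (nat_lit 0) (XT.nd (nat_lit 78) (nat_lit 76) (nat_lit 0) (XT.lf (nat_lit 0) (nat_lit 12838725912) (nat_lit 152) (nat_lit 2475544619) (nat_lit 228) (nat_lit 37343871406) (nat_lit 15) (nat_lit 5) (nat_lit 17) (nat_lit 5) (nat_lit 18) (nat_lit 5) (nat_lit 283) (nat_lit 272) (nat_lit 225)) (XT.nd (nat_lit 78) (nat_lit 76) (nat_lit 0) (XT.lf (nat_lit 0) (nat_lit 27519145452) (nat_lit 228) (nat_lit 13269314107) (nat_lit 76) (nat_lit 16823777347) (nat_lit 15) (nat_lit 5) (nat_lit 18) (nat_lit 5) (nat_lit 16) (nat_lit 4) (nat_lit 284) (nat_lit 272) (nat_lit 224)) (XT.lf (nat_lit 0) (nat_lit 18809021517) (nat_lit 76) (nat_lit 23635649618) (nat_lit 152) (nat_lit 20731300546) (nat_lit 14) (nat_lit 5) (nat_lit 15) (nat_lit 5) (nat_lit 16) (nat_lit 4) (nat_lit 285) (nat_lit 272) (nat_lit 223)))) (XT.nd (nat_lit 78) (nat_lit 152)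 (nat_lit 0) (XT.lf (nat_lit 0) (nat_lit 57179985582) (nat_lit 76) (nat_lit 3116314783) (nat_lit 152) (nat_lit 9174886834) (nat_lit 14) (nat_lit 5) (nat_lit 15) (nat_lit 5) (nat_lit 16) (nat_lit 4) (nat_lit 286) (nat_lit 272) (nat_lit 222)) (XT.nd (nat_lit 78) (nat_lit 0) (nat_lit 0) (XT.lf (nat_lit 0) (nat_lit 5761539165) (nat_lit 152) (nat_lit 50626420862) (nat_lit 76) (nat_lit 19995240700) (nat_lit 12) (nat_lit 5) (nat_lit 14) (nat_lit 5) (nat_lit 13) (nat_lit 4) (nat_lit 287) (nat_lit 272) (nat_lit 221)) (XT.lf (nat_lit 0) (nat_lit 22815007052) (nat_lit 152) (nat_lit 13968065565) (nat_lit 76) (nat_lit 47361029728) (nat_lit 12) (nat_lit 5) (nat_lit 14) (nat_lit 5) (nat_lit 13) (nat_lit 4) (nat_lit 288) (nat_lit 272) (nat_lit 220))))))))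
noncomputable def xc72 : XT := (XT.nd (nat_lit 1560) (nat_lit 76) (nat_lit 0) (XT.nd (nat_lit 780) (nat_lit 228) (nat_lit 0) (XT.nd (nat_lit 390) (nat_lit 228) (nat_lit 0) (XT.nd (nat_lit 156) (nat_lit 228) (nat_lit 0) (XT.nd (nat_lit 78) (nat_lit 0) (nat_lit 0) (XT.lf (nat_lit 0) (nat_lit 30934474079) (nat_lit 76) (nat_lit 12768104763) (nat_lit 152) (nat_lit 49175154512) (nat_lit 11) (nat_lit 5) (nat_lit 12) (nat_lit 5) (nat_lit 13) (nat_lit 4) (nat_lit 289) (nat_lit 272) (nat_lit 219)) (XT.lf (nat_lit 0) (nat_lit 69098370601) (nat_lit 152) (nat_lit 19328029693) (nat_lit 0) (nat_lit 14288751922) (nat_lit 11) (nat_lit 5) (nat_lit 13) (nat_lit 4) (nat_lit 11) (nat_lit 4) (nat_lit 290) (nat_lit 272) (nat_lit 218))) (XT.nd (nat_lit 78) (nat_lit 152) (nat_lit 0) (XT.lf (nat_lit 0) (nat_lit 31904233165) (nat_lit 76) (nat_lit 68324299133) (nat_lit 76) (nat_lit 13510906505) (nat_lit 10) (nat_lit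 4) (nat_lit 11) (nat_lit 5) (nat_lit 11) (nat_lit 4) (nat_lit 291) (nat_lit 272) (nat_lit 217)) (XT.nd (nat_lit 78) (nat_lit 76) (nat_lit 0) (XT.lf (nat_lit 0) (nat_lit 9809621374) (nat_lit 152) (nat_lit 33725988366) (nat_lit 76) (nat_lit 82663908379) (nat_lit 9) (nat_lit 5) (nat_lit 11) (nat_lit 5) (nat_lit 10) (nat_lit 4) (nat_lit 292) (nat_lit 272) (nat_lit 216)) (XT.lf (nat_lit 0) (nat_lit 22996941735) (nat_lit 76) (nat_lit 13196765104) (nat_lit 152) (nat_lit 104096088673) (nat_lit 8) (nat_lit 5) (nat_lit 9) (nat_lit 5) (nat_lit 10) (nat_lit 4) (nat_lit 293) (nat_lit 272) (nat_lit 215))))) (XT.nd (nat_lit 156) (nat_lit 228) (nat_lit 0) (XT.nd (nat_lit 78) (nat_lit 0) (nat_lit 0) (XT.lf (nat_lit 0) (nat_lit 69277116281) (nat_lit 152) (nat_lit 65199440699) (nat_lit 0) (nat_lit 21605803757) (nat_lit 8) (nat_lit 5) (nat_lit 10) (nat_lit 4) (nat_lit 8) (nat_lit 4) (nat_lit 294) (nat_lit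 272) (nat_lit 214)) (XT.lf (nat_lit 0) (nat_lit 107948458706) (nat_lit 152) (nat_lit 5926271467) (nat_lit 0) (nat_lit 60275269862) (nat_lit 8) (nat_lit 5) (nat_lit 10) (nat_lit 4) (nat_lit 8) (nat_lit 4) (nat_lit 295) (nat_lit 272) (nat_lit 213))) (XT.nd (nat_lit 78) (nat_lit 152) (nat_lit 0) (XT.lf (nat_lit 0) (nat_lit 68314637716) (nat_lit 76) (nat_lit 86932023184) (nat_lit 76) (nat_lit 39257202758) (nat_lit 7) (nat_lit 4) (nat_lit 8) (nat_lit 5) (nat_lit 8) (nat_lit 4) (nat_lit 296) (nat_lit 272) (nat_lit 212)) (XT.nd (nat_lit 78) (nat_lit 152) (nat_lit 0) (XT.lf (nat_lit 0) (nat_lit 154352869257) (nat_lit 76) (nat_lit 55594040601) (nat_lit 76) (nat_lit 7917801407) (nat_lit 7) (nat_lit 4) (nat_lit 8) (nat_lit 5) (nat_lit 8) (nat_lit 4) (nat_lit 297) (nat_lit 272) (nat_lit 211)) (XT.lf (nat_lit 0) (nat_lit 8121229180) (nat_lit 76) (nat_lit 17831655509) (nat_lit 152) (nat_lit 218552023560)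 (nat_lit 5) (nat_lit 5) (nat_lit 6) (nat_lit 5) (nat_lit 7) (nat_lit 4) (nat_lit 298) (nat_lit 272) (nat_lit 210)))))) (XT.nd (nat_lit 390) (nat_lit 152) (nat_lit 0) (XT.nd (nat_lit 156) (nat_lit 76) (nat_lit 0) (XT.nd (nat_lit 78) (nat_lit 0) (nat_lit 0) (XT.lf (nat_lit 0) (nat_lit 68629191971) (nat_lit 152) (nat_lit 178605453773) (nat_lit 0) (nat_lit 27169587018) (nat_lit 5) (nat_lit 5) (nat_lit 7) (nat_lit 4) (nat_lit 5) (nat_lit 4) (nat_lit 299) (nat_lit 272) (nat_lit 209)) (XT.lf (nat_lit 0) (nat_lit 118554143874) (nat_lit 152) (nat_lit 113013505653) (nat_lit 0) (nat_lit 77093727737) (nat_lit 5) (nat_lit 5) (nat_lit 7) (nat_lit 4) (nat_lit 5) (nat_lit 4) (nat_lit 300) (nat_lit 272) (nat_lit 208))) (XT.nd (nat_lit 78) (nat_lit 76) (nat_lit 0) (XT.lf (nat_lit 0) (nat_lit 175966162108) (nat_lit 152) (nat_lit 37586143156) (nat_lit 0) (nat_lit 134505040592) (nat_lit 5) (nat_lit 5) (nat_lit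 7) (nat_lit 4) (nat_lit 5) (nat_lit 4) (nat_lit 301) (nat_lit 272) (nat_lit 207)) (XT.nd (nat_lit 78) (nat_lit 0) (nat_lit 0) (XT.lf (nat_lit 0) (nat_lit 53955915137) (nat_lit 76) (nat_lit 190266809536) (nat_lit 76) (nat_lit 148805074648) (nat_lit 4) (nat_lit 4) (nat_lit 5) (nat_lit 5) (nat_lit 5) (nat_lit 4) (nat_lit 302) (nat_lit 272) (nat_lit 206)) (XT.lf (nat_lit 0) (nat_lit 163450648386) (nat_lit 76) (nat_lit 161230469711) (nat_lit 76) (nat_lit 119768201456) (nat_lit 4) (nat_lit 4) (nat_lit 5) (nat_lit 5) (nat_lit 5) (nat_lit 4) (nat_lit 303) (nat_lit 272) (nat_lit 205))))) (XT.nd (nat_lit 156) (nat_lit 152) (nat_lit 0) (XT.nd (nat_lit 78) (nat_lit 0) (nat_lit 0) (XT.lf (nat_lit 0) (nat_lit 289367153585) (nat_lit 76) (nat_lit 127839913698) (nat_lit 76) (nat_lit 86377181646) (nat_lit 4) (nat_lit 4) (nat_lit 5) (nat_lit 5) (nat_lit 5) (nat_lit 4) (nat_lit 304) (nat_lit 272) (nat_lit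 204)) (XT.lf (nat_lit 0) (nat_lit 434169014533) (nat_lit 76) (nat_lit 89441848011) (nat_lit 76) (nat_lit 47978712656) (nat_lit 4) (nat_lit 4) (nat_lit 5) (nat_lit 5) (nat_lit 5) (nat_lit 4) (nat_lit 305) (nat_lit 272) (nat_lit 203))) (XT.nd (nat_lit 78) (nat_lit 152) (nat_lit 0) (XT.lf (nat_lit 0) (nat_lit 600689311116) (nat_lit 76) (nat_lit 45285006146) (nat_lit 76) (nat_lit 3821520094) (nat_lit 4) (nat_lit 4) (nat_lit 5) (nat_lit 5) (nat_lit 5) (nat_lit 4) (nat_lit 306) (nat_lit 272) (nat_lit 202)) (XT.nd (nat_lit 78) (nat_lit 0) (nat_lit 0) (XT.lf (nat_lit 0) (nat_lit 45503059190) (nat_lit 152) (nat_lit 684082052117) (nat_lit 0) (nat_lit 9447588750) (nat_lit 2) (nat_lit 5) (nat_lit 4) (nat_lit 4) (nat_lit 2) (nat_lit 4) (nat_lit 307) (nat_lit 272) (nat_lit 201)) (XT.lf (nat_lit 0) (nat_lit 106679848689) (nat_lit 152) (nat_lit 663597083423) (nat_lit 0) (nat_lit 70624147659) (nat_lit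 2) (nat_lit 5) (nat_lit 4) (nat_lit 4) (nat_lit 2) (nat_lit 4) (nat_lit 308) (nat_lit 272) (nat_lit 200))))))) (XT.nd (nat_lit 780) (nat_lit 76) (nat_lit 0) (XT.nd (nat_lit 390) (nat_lit 0) (nat_lit 0) (XT.nd (nat_lit 156) (nat_lit 0) (nat_lit 0) (XT.nd (nat_lit 78) (nat_lit 0) (nat_lit 0) (XT.lf (nat_lit 0) (nat_lit 177032442186) (nat_lit 152) (nat_lit 640040841047) (nat_lit 0) (nat_lit 140976540644) (nat_lit 2) (nat_lit 5) (nat_lit 4) (nat_lit 4) (nat_lit 2) (nat_lit 4) (nat_lit 309) (nat_lit 272) (nat_lit 199)) (XT.lf (nat_lit 0) (nat_lit 257937303467) (nat_lit 152) (nat_lit 612952441985) (nat_lit 0) (nat_lit 221881227566) (nat_lit 2) (nat_lit 5) (nat_lit 4) (nat_lit 4) (nat_lit 2) (nat_lit 4) (nat_lit 310) (nat_lit 272) (nat_lit 198))) (XT.nd (nat_lit 78) (nat_lit 0) (nat_lit 0) (XT.lf (nat_lit 0) (nat_lit 350977353731) (nat_lit 152) (nat_lit 581801895820) (nat_lit 0) (nat_lit 314921126214)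 (nat_lit 2) (nat_lit 5) (nat_lit 4) (nat_lit 4) (nat_lit 2) (nat_lit 4) (nat_lit 311) (nat_lit 272) (nat_lit 197)) (XT.nd (nat_lit 78) (nat_lit 0) (nat_lit 0) (XT.lf (nat_lit 0) (nat_lit 457972941788) (nat_lit 152) (nat_lit 545979735346) (nat_lit 0) (nat_lit 421916582430) (nat_lit 2) (nat_lit 5) (nat_lit 4) (nat_lit 4) (nat_lit 2) (nat_lit 4) (nat_lit 312) (nat_lit 272) (nat_lit 196)) (XT.lf (nat_lit 0) (nat_lit 581017459577) (nat_lit 152) (nat_lit 504785092204) (nat_lit 0) (nat_lit 544960985576) (nat_lit 2) (nat_lit 5) (nat_lit 4) (nat_lit 4) (nat_lit 2) (nat_lit 4) (nat_lit 313) (nat_lit 272) (nat_lit 195))))) (XT.nd (nat_lit 156) (nat_lit 0) (nat_lit 0) (XT.nd (nat_lit 78) (nat_lit 0) (nat_lit 0) (XT.lf (nat_lit 0) (nat_lit 722518299839) (nat_lit 152) (nat_lit 457411984248) (nat_lit 0) (nat_lit 686461726148) (nat_lit 2) (nat_lit 5) (nat_lit 4) (nat_lit 4) (nat_lit 2) (nat_lit 4) (nat_lit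 314) (nat_lit 272) (nat_lit 194)) (XT.lf (nat_lit 0) (nat_lit 885243957274) (nat_lit 152) (nat_lit 402933546320) (nat_lit 0) (nat_lit 849187296896) (nat_lit 2) (nat_lit 5) (nat_lit 4) (nat_lit 4) (nat_lit 2) (nat_lit 4) (nat_lit 315) (nat_lit 272) (nat_lit 193))) (XT.nd (nat_lit 78) (nat_lit 0) (nat_lit 0) (XT.lf (nat_lit 0) (nat_lit 1072378194745) (nat_lit 152) (nat_lit 340283895940) (nat_lit 0) (nat_lit 1036321458986) (nat_lit 2) (nat_lit 5) (nat_lit 4) (nat_lit 4) (nat_lit 2) (nat_lit 4) (nat_lit 316) (nat_lit 272) (nat_lit 192)) (XT.nd (nat_lit 78) (nat_lit 0) (nat_lit 0) (XT.lf (nat_lit 0) (nat_lit 1287582334289) (nat_lit 152) (nat_lit 268237279078) (nat_lit 0) (nat_lit 1251525532982) (nat_lit 2) (nat_lit 5) (nat_lit 4) (nat_lit 4) (nat_lit 2) (nat_lit 4) (nat_lit 317) (nat_lit 272) (nat_lit 191)) (XT.lf (nat_lit 0) (nat_lit 1535066891679) (nat_lit 152) (nat_lit 185384088013) (nat_lit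 0) (nat_lit 1499010033375) (nat_lit 2) (nat_lit 5) (nat_lit 4) (nat_lit 4) (nat_lit 2) (nat_lit 4) (nat_lit 318) (nat_lit 272) (nat_lit 190)))))) (XT.nd (nat_lit 390) (nat_lit 0) (nat_lit 0) (XT.nd (nat_lit 156) (nat_lit 0) (nat_lit 0) (XT.nd (nat_lit 78) (nat_lit 76) (nat_lit 0) (XT.lf (nat_lit 0) (nat_lit 1819673956084) (nat_lit 152) (nat_lit 90103282052) (nat_lit 0) (nat_lit 1783617048216) (nat_lit 2) (nat_lit 5) (nat_lit 4) (nat_lit 4) (nat_lit 2) (nat_lit 4) (nat_lit 319) (nat_lit 272) (nat_lit 189)) (XT.lf (nat_lit 0) (nat_lit 21372012864) (nat_lit 76) (nat_lit 2126484883200) (nat_lit 76) (nat_lit 2090427932233) (nat_lit 1) (nat_lit 4) (nat_lit 2) (nat_lit 5) (nat_lit 2) (nat_lit 4) (nat_lit 320) (nat_lit 272) (nat_lit 188))) (XT.nd (nat_lit 78) (nat_lit 0) (nat_lit 0) (XT.lf (nat_lit 0) (nat_lit 159694680302) (nat_lit 76) (nat_lit 2370282394995) (nat_lit 76) (nat_lit 2334225406551)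 (nat_lit 1) (nat_lit 4) (nat_lit 2) (nat_lit 5) (nat_lit 2) (nat_lit 4) (nat_lit 321) (nat_lit 272) (nat_lit 187)) (XT.nd (nat_lit 78) (nat_lit 0) (nat_lit 0) (XT.lf (nat_lit 0) (nat_lit 318765485302) (nat_lit 76) (nat_lit 2650649669126) (nat_lit 76) (nat_lit 2614592648094) (nat_lit 1) (nat_lit 4) (nat_lit 2) (nat_lit 5) (nat_lit 2) (nat_lit 4) (nat_lit 322) (nat_lit 272) (nat_lit 186)) (XT.lf (nat_lit 0) (nat_lit 501696682744) (nat_lit 76) (nat_lit 2973072152263) (nat_lit 76) (nat_lit 2937015102892) (nat_lit 1) (nat_lit 4) (nat_lit 2) (nat_lit 5) (nat_lit 2) (nat_lit 4) (nat_lit 323) (nat_lit 272) (nat_lit 185))))) (XT.nd (nat_lit 156) (nat_lit 0) (nat_lit 0) (XT.nd (nat_lit 78) (nat_lit 0) (nat_lit 0) (XT.lf (nat_lit 0) (nat_lit 712067361274) (nat_lit 76) (nat_lit 3343858110379) (nat_lit 76) (nat_lit 3307801036366) (nat_lit 1) (nat_lit 4) (nat_lit 2) (nat_lit 5) (nat_lit 2) (nat_lit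 4) (nat_lit 324) (nat_lit 272) (nat_lit 184)) (XT.lf (nat_lit 0) (nat_lit 953993468950) (nat_lit 76) (nat_lit 3770262051350) (nat_lit 76) (nat_lit 3734204955909) (nat_lit 1) (nat_lit 4) (nat_lit 2) (nat_lit 5) (nat_lit 2) (nat_lit 4) (nat_lit 325) (nat_lit 272) (nat_lit 183))) (XT.nd (nat_lit 78) (nat_lit 0) (nat_lit 0) (XT.lf (nat_lit 0) (nat_lit 1232208342661) (nat_lit 76) (nat_lit 4260626660978) (nat_lit 76) (nat_lit 4224569546905) (nat_lit 1) (nat_lit 4) (nat_lit 2) (nat_lit 5) (nat_lit 2) (nat_lit 4) (nat_lit 326) (nat_lit 272) (nat_lit 182)) (XT.nd (nat_lit 78) (nat_lit 0) (nat_lit 0) (XT.lf (nat_lit 0) (nat_lit 1552155316893) (nat_lit 76) (nat_lit 4824546029452) (nat_lit 76) (nat_lit 4788488899176) (nat_lit 1) (nat_lit 4) (nat_lit 2) (nat_lit 5) (nat_lit 2) (nat_lit 4) (nat_lit 327) (nat_lit 272) (nat_lit 181)) (XT.lf (nat_lit 0) (nat_lit 1920094223751) (nat_lit 76) (nat_lit 5473053361806)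 (nat_lit 76) (nat_lit 5436996217441) (nat_lit 1) (nat_lit 4) (nat_lit 2) (nat_lit 5) (nat_lit 2) (nat_lit 4) (nat_lit 328) (nat_lit 272) (nat_lit 180))))))))
noncomputable def xc73 : XT := (XT.nd (nat_lit 36426) (nat_lit 0) (nat_lit 532) (XT.nd (nat_lit 780) (nat_lit 0) (nat_lit 0) (XT.nd (nat_lit 390) (nat_lit 0) (nat_lit 0) (XT.nd (nat_lit 156) (nat_lit 0) (nat_lit 0) (XT.nd (nat_lit 78) (nat_lit 0) (nat_lit 0) (XT.lf (nat_lit 0) (nat_lit 2343223867934) (nat_lit 76) (nat_lit 6218836844979) (nat_lit 76) (nat_lit 6182779688362) (nat_lit 1) (nat_lit 4) (nat_lit 2) (nat_lit 5) (nat_lit 2) (nat_lit 4) (nat_lit 329) (nat_lit 272) (nat_lit 179)) (XT.lf (nat_lit 0) (nat_lit 2829822872914) (nat_lit 76) (nat_lit 7076487894945) (nat_lit 76) (nat_lit 7040430727675) (nat_lit 1) (nat_lit 4) (nat_lit 2) (nat_lit 5) (nat_lit 2) (nat_lit 4) (nat_lit 330) (nat_lit 272) (nat_lit 178))) (XT.nd (nat_lit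 78) (nat_lit 0) (nat_lit 0) (XT.lf (nat_lit 0) (nat_lit 3389411654008) (nat_lit 76) (nat_lit 8062786640942) (nat_lit 76) (nat_lit 8026729464409) (nat_lit 1) (nat_lit 4) (nat_lit 2) (nat_lit 5) (nat_lit 2) (nat_lit 4) (nat_lit 331) (nat_lit 272) (nat_lit 177)) (XT.nd (nat_lit 78) (nat_lit 0) (nat_lit 0) (XT.lf (nat_lit 0) (nat_lit 4032938687366) (nat_lit 76) (nat_lit 9197030232350) (nat_lit 76) (nat_lit 9160973047761) (nat_lit 1) (nat_lit 4) (nat_lit 2) (nat_lit 5) (nat_lit 2) (nat_lit 4) (nat_lit 332) (nat_lit 272) (nat_lit 176)) (XT.lf (nat_lit 0) (nat_lit 4772994719294) (nat_lit 76) (nat_lit 10501410391608) (nat_lit 76) (nat_lit 10465353200014) (nat_lit 1) (nat_lit 4) (nat_lit 2) (nat_lit 5) (nat_lit 2) (nat_lit 4) (nat_lit 333) (nat_lit 272) (nat_lit 175))))) (XT.nd (nat_lit 156) (nat_lit 0) (nat_lit 0) (XT.nd (nat_lit 78) (nat_lit 0) (nat_lit 0) (XT.lf (nat_lit 0) (nat_lit 5624059106938)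 (nat_lit 76) (nat_lit 12001447600093) (nat_lit 76) (nat_lit 11965390402408) (nat_lit 1) (nat_lit 4) (nat_lit 2) (nat_lit 5) (nat_lit 2) (nat_lit 4) (nat_lit 334) (nat_lit 272) (nat_lit 174)) (XT.lf (nat_lit 0) (nat_lit 6602783110056) (nat_lit 76) (nat_lit 13726490411885) (nat_lit 76) (nat_lit 13690433208903) (nat_lit 1) (nat_lit 4) (nat_lit 2) (nat_lit 5) (nat_lit 2) (nat_lit 4) (nat_lit 335) (nat_lit 272) (nat_lit 173))) (XT.nd (nat_lit 78) (nat_lit 0) (nat_lit 0) (XT.lf (nat_lit 0) (nat_lit 7728315676535) (nat_lit 76) (nat_lit 15710289664605) (nat_lit 76) (nat_lit 15674232457018) (nat_lit 1) (nat_lit 4) (nat_lit 2) (nat_lit 5) (nat_lit 2) (nat_lit 4) (nat_lit 336) (nat_lit 272) (nat_lit 172)) (XT.nd (nat_lit 78) (nat_lit 0) (nat_lit 0) (XT.lf (nat_lit 0) (nat_lit 9022678095720) (nat_lit 76) (nat_lit 17991658821893) (nat_lit 76) (nat_lit 17955601610301) (nat_lit 1) (nat_lit 4) (nat_lit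 2) (nat_lit 5) (nat_lit 2) (nat_lit 4) (nat_lit 337) (nat_lit 272) (nat_lit 171)) (XT.lf (nat_lit 0) (nat_lit 10511194849725) (nat_lit 76) (nat_lit 20615233367263) (nat_lit 76) (nat_lit 20579176152188) (nat_lit 1) (nat_lit 4) (nat_lit 2) (nat_lit 5) (nat_lit 2) (nat_lit 4) (nat_lit 338) (nat_lit 272) (nat_lit 170)))))) (XT.nd (nat_lit 390) (nat_lit 0) (nat_lit 0) (XT.nd (nat_lit 156) (nat_lit 0) (nat_lit 0) (XT.nd (nat_lit 78) (nat_lit 0) (nat_lit 0) (XT.lf (nat_lit 0) (nat_lit 12222989092433) (nat_lit 76) (nat_lit 23632344107035) (nat_lit 76) (nat_lit 23596286888932) (nat_lit 1) (nat_lit 4) (nat_lit 2) (nat_lit 5) (nat_lit 2) (nat_lit 4) (nat_lit 339) (nat_lit 272) (nat_lit 169)) (XT.lf (nat_lit 0) (nat_lit 14191552450331) (nat_lit 76) (nat_lit 27102021468728) (nat_lit 76) (nat_lit 27065964247992) (nat_lit 1) (nat_lit 4) (nat_lit 2) (nat_lit 5) (nat_lit 2) (nat_lit 4) (nat_lit 340) (nat_lit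 272) (nat_lit 168))) (XT.nd (nat_lit 78) (nat_lit 0) (nat_lit 0) (XT.lf (nat_lit 0) (nat_lit 16455400293465) (nat_lit 76) (nat_lit 31092150444201) (nat_lit 76) (nat_lit 31056093221175) (nat_lit 1) (nat_lit 4) (nat_lit 2) (nat_lit 5) (nat_lit 2) (nat_lit 4) (nat_lit 341) (nat_lit 272) (nat_lit 167)) (XT.nd (nat_lit 78) (nat_lit 0) (nat_lit 0) (XT.lf (nat_lit 0) (nat_lit 19058825297027) (nat_lit 76) (nat_lit 35680798774278) (nat_lit 76) (nat_lit 35644741549260) (nat_lit 1) (nat_lit 4) (nat_lit 2) (nat_lit 5) (nat_lit 2) (nat_lit 4) (nat_lit 342) (nat_lit 272) (nat_lit 166)) (XT.lf (nat_lit 0) (nat_lit 22052764037174) (nat_lit 76) (nat_lit 40957744361069) (nat_lit 76) (nat_lit 40921687134320) (nat_lit 1) (nat_lit 4) (nat_lit 2) (nat_lit 5) (nat_lit 2) (nat_lit 4) (nat_lit 343) (nat_lit 272) (nat_lit 165))))) (XT.nd (nat_lit 156) (nat_lit 0) (nat_lit 0) (XT.nd (nat_lit 78) (nat_lit 0) (nat_lit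 0) (XT.lf (nat_lit 0) (nat_lit 25495793576213) (nat_lit 76) (nat_lit 47026231792142) (nat_lit 76) (nat_lit 46990174563887) (nat_lit 1) (nat_lit 4) (nat_lit 2) (nat_lit 5) (nat_lit 2) (nat_lit 4) (nat_lit 344) (nat_lit 272) (nat_lit 164)) (XT.lf (nat_lit 0) (nat_lit 29455277535559) (nat_lit 76) (nat_lit 54004992343322) (nat_lit 76) (nat_lit 53968935113759) (nat_lit 1) (nat_lit 4) (nat_lit 2) (nat_lit 5) (nat_lit 2) (nat_lit 4) (nat_lit 345) (nat_lit 272) (nat_lit 163))) (XT.nd (nat_lit 34944) (nat_lit 0) (nat_lit 1672) (XT.lf (nat_lit 0) (nat_lit 34008684079636) (nat_lit 76) (nat_lit 62030566981916) (nat_lit 76) (nat_lit 61994509751214) (nat_lit 1) (nat_lit 4) (nat_lit 2) (nat_lit 5) (nat_lit 2) (nat_lit 4) (nat_lit 346) (nat_lit 272) (nat_lit 162)) (XT.nd (nat_lit 78) (nat_lit 0) (nat_lit 0) (XT.lf (nat_lit 0) (nat_lit 2061925836) (nat_lit 380) (nat_lit 5243714752) (nat_lit 380) (nat_lit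 5243714752) (nat_lit 23) (nat_lit 3) (nat_lit 28) (nat_lit 3) (nat_lit 28) (nat_lit 5) (nat_lit 273) (nat_lit 273) (nat_lit 234)) (XT.lf (nat_lit 76) (nat_lit 1495443626) (nat_lit 0) (nat_lit 3094773920) (nat_lit 380) (nat_lit 22367028389) (nat_lit 24) (nat_lit 5) (nat_lit 23) (nat_lit 3) (nat_lit 28) (nat_lit 5) (nat_lit 274) (nat_lit 273) (nat_lit 233))))))) (XT.nd (nat_lit 780) (nat_lit 532) (nat_lit 0) (XT.nd (nat_lit 390) (nat_lit 456) (nat_lit 0) (XT.nd (nat_lit 156) (nat_lit 228) (nat_lit 0) (XT.nd (nat_lit 78) (nat_lit 0) (nat_lit 0) (XT.lf (nat_lit 0) (nat_lit 6103996354) (nat_lit 304) (nat_lit 13017963289) (nat_lit 380) (nat_lit 9826037700) (nat_lit 24) (nat_lit 5) (nat_lit 28) (nat_lit 5) (nat_lit 29) (nat_lit 5) (nat_lit 275) (nat_lit 273) (nat_lit 232)) (XT.lf (nat_lit 76) (nat_lit 1243945703) (nat_lit 0) (nat_lit 6784896751) (nat_lit 380) (nat_lit 23180966392) (nat_lit 25)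 (nat_lit 5) (nat_lit 24) (nat_lit 5) (nat_lit 29) (nat_lit 5) (nat_lit 276) (nat_lit 273) (nat_lit 231))) (XT.nd (nat_lit 78) (nat_lit 304) (nat_lit 0) (XT.lf (nat_lit 0) (nat_lit 11248512910) (nat_lit 304) (nat_lit 14953050260) (nat_lit 76) (nat_lit 7458455553) (nat_lit 25) (nat_lit 5) (nat_lit 29) (nat_lit 5) (nat_lit 26) (nat_lit 5) (nat_lit 277) (nat_lit 273) (nat_lit 230)) (XT.nd (nat_lit 78) (nat_lit 0) (nat_lit 0) (XT.lf (nat_lit 0) (nat_lit 2170068422) (nat_lit 304) (nat_lit 13182429298) (nat_lit 380) (nat_lit 21065093676) (nat_lit 21) (nat_lit 5) (nat_lit 25) (nat_lit 5) (nat_lit 26) (nat_lit 5) (nat_lit 278) (nat_lit 273) (nat_lit 229)) (XT.lf (nat_lit 0) (nat_lit 20954476606) (nat_lit 380) (nat_lit 16053476197) (nat_lit 76) (nat_lit 2448518917) (nat_lit 21) (nat_lit 5) (nat_lit 26) (nat_lit 5) (nat_lit 22) (nat_lit 5) (nat_lit 279) (nat_lit 273) (nat_lit 228))))) (XT.nd (nat_lit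 156) (nat_lit 304) (nat_lit 0) (XT.nd (nat_lit 78) (nat_lit 0) (nat_lit 0) (XT.lf (nat_lit 0) (nat_lit 4644304617) (nat_lit 152) (nat_lit 23563307419) (nat_lit 228) (nat_lit 14621970232) (nat_lit 19) (nat_lit 5) (nat_lit 21) (nat_lit 5) (nat_lit 22) (nat_lit 5) (nat_lit 280) (nat_lit 273) (nat_lit 227)) (XT.lf (nat_lit 0) (nat_lit 30240342838) (nat_lit 152) (nat_lit 7139107316) (nat_lit 228) (nat_lit 9204622981) (nat_lit 19) (nat_lit 5) (nat_lit 21) (nat_lit 5) (nat_lit 22) (nat_lit 5) (nat_lit 281) (nat_lit 273) (nat_lit 226))) (XT.nd (nat_lit 78) (nat_lit 228) (nat_lit 0) (XT.lf (nat_lit 0) (nat_lit 9086217464) (nat_lit 76) (nat_lit 39696171173) (nat_lit 152) (nat_lit 1991070814) (nat_lit 18) (nat_lit 5) (nat_lit 19) (nat_lit 5) (nat_lit 20) (nat_lit 4) (nat_lit 282) (nat_lit 273) (nat_lit 225)) (XT.nd (nat_lit 78) (nat_lit 152) (nat_lit 0) (XT.lf (nat_lit 0) (nat_lit 6971026441) (nat_lit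 152) (nat_lit 15947842247) (nat_lit 76) (nat_lit 32449074510) (nat_lit 17) (nat_lit 5) (nat_lit 19) (nat_lit 5) (nat_lit 18) (nat_lit 5) (nat_lit 283) (nat_lit 273) (nat_lit 224)) (XT.lf (nat_lit 0) (nat_lit 14872573345) (nat_lit 152) (nat_lit 2810608688) (nat_lit 228) (nat_lit 42862770308) (nat_lit 15) (nat_lit 5) (nat_lit 17) (nat_lit 5) (nat_lit 18) (nat_lit 5) (nat_lit 284) (nat_lit 273) (nat_lit 223)))))) (XT.nd (nat_lit 390) (nat_lit 304) (nat_lit 0) (XT.nd (nat_lit 156) (nat_lit 152) (nat_lit 0) (XT.nd (nat_lit 78) (nat_lit 76) (nat_lit 0) (XT.lf (nat_lit 0) (nat_lit 31710732650) (nat_lit 228) (nat_lit 15157582816) (nat_lit 76) (nat_lit 19376073366) (nat_lit 15) (nat_lit 5) (nat_lit 18) (nat_lit 5) (nat_lit 16) (nat_lit 4) (nat_lit 285) (nat_lit 273) (nat_lit 222)) (XT.lf (nat_lit 0) (nat_lit 21727860951) (nat_lit 76) (nat_lit 27142952229) (nat_lit 152) (nat_lit 23772528219) (nat_lit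 14) (nat_lit 5) (nat_lit 15) (nat_lit 5) (nat_lit 16) (nat_lit 4) (nat_lit 286) (nat_lit 273) (nat_lit 221))) (XT.nd (nat_lit 78) (nat_lit 152) (nat_lit 0) (XT.lf (nat_lit 0) (nat_lit 65841754034) (nat_lit 76) (nat_lit 3550679538) (nat_lit 152) (nat_lit 10491582982) (nat_lit 14) (nat_lit 5) (nat_lit 15) (nat_lit 5) (nat_lit 16) (nat_lit 4) (nat_lit 287) (nat_lit 273) (nat_lit 220)) (XT.nd (nat_lit 78) (nat_lit 0) (nat_lit 0) (XT.lf (nat_lit 0) (nat_lit 6677958572) (nat_lit 152) (nat_lit 58128109771) (nat_lit 76) (nat_lit 23026711999) (nat_lit 12) (nat_lit 5) (nat_lit 14) (nat_lit 5) (nat_lit 13) (nat_lit 4) (nat_lit 288) (nat_lit 273) (nat_lit 219)) (XT.lf (nat_lit 0) (nat_lit 26282639442) (nat_lit 152) (nat_lit 15983036948) (nat_lit 76) (nat_lit 54493171312) (nat_lit 12) (nat_lit 5) (nat_lit 14) (nat_lit 5) (nat_lit 13) (nat_lit 4) (nat_lit 289) (nat_lit 273) (nat_lit 218))))) (XT.nd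 (nat_lit 234) (nat_lit 152) (nat_lit 0) (XT.nd (nat_lit 78) (nat_lit 76) (nat_lit 0) (XT.lf (nat_lit 0) (nat_lit 35651236441) (nat_lit 76) (nat_lit 14649362736) (nat_lit 152) (nat_lit 56502344550) (nat_lit 11) (nat_lit 5) (nat_lit 12) (nat_lit 5) (nat_lit 13) (nat_lit 4) (nat_lit 290) (nat_lit 273) (nat_lit 217)) (XT.nd (nat_lit 78) (nat_lit 76) (nat_lit 0) (XT.lf (nat_lit 0) (nat_lit 79501421519) (nat_lit 152) (nat_lit 22156247396) (nat_lit 0) (nat_lit 16458964353) (nat_lit 11) (nat_lit 5) (nat_lit 13) (nat_lit 4) (nat_lit 11) (nat_lit 4) (nat_lit 291) (nat_lit 273) (nat_lit 216)) (XT.lf (nat_lit 0) (nat_lit 36757628220) (nat_lit 76) (nat_lit 78541290007) (nat_lit 76) (nat_lit 15495979194) (nat_lit 10) (nat_lit 4) (nat_lit 11) (nat_lit 5) (nat_lit 11) (nat_lit 4) (nat_lit 292) (nat_lit 273) (nat_lit 215)))) (XT.nd (nat_lit 78) (nat_lit 76) (nat_lit 0) (XT.lf (nat_lit 0) (nat_lit 11313988959)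 (nat_lit 152) (nat_lit 38722715983) (nat_lit 76) (nat_lit 95087771019) (nat_lit 9) (nat_lit 5) (nat_lit 11) (nat_lit 5) (nat_lit 10) (nat_lit 4) (nat_lit 293) (nat_lit 273) (nat_lit 214)) (XT.nd (nat_lit 78) (nat_lit 0) (nat_lit 0) (XT.lf (nat_lit 0) (nat_lit 26505827696) (nat_lit 76) (nat_lit 15148022401) (nat_lit 152) (nat_lit 119674724509) (nat_lit 8) (nat_lit 5) (nat_lit 9) (nat_lit 5) (nat_lit 10) (nat_lit 4) (nat_lit 294) (nat_lit 273) (nat_lit 213)) (XT.lf (nat_lit 0) (nat_lit 79696733561) (nat_lit 152) (nat_lit 74924691716) (nat_lit 0) (nat_lit 24869058489) (nat_lit 8) (nat_lit 5) (nat_lit 10) (nat_lit 4) (nat_lit 8) (nat_lit 4) (nat_lit 295) (nat_lit 273) (nat_lit 212))))))))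
noncomputable def xc74 : XT := (XT.nd (nat_lit 1560) (nat_lit 76) (nat_lit 0) (XT.nd (nat_lit 780) (nat_lit 152) (nat_lit 0) (XT.nd (nat_lit 390) (nat_lit 76) (nat_lit 0) (XT.nd (nat_lit 156) (nat_lit 152) (nat_lit 0) (XT.nd (nat_lit 78) (nat_lit 76) (nat_lit 0) (XT.lf (nat_lit 0) (nat_lit 124165118675) (nat_lit 152) (nat_lit 6767677327) (nat_lit 0) (nat_lit 69336024836) (nat_lit 8) (nat_lit 5) (nat_lit 10) (nat_lit 4) (nat_lit 8) (nat_lit 4) (nat_lit 296) (nat_lit 273) (nat_lit 211)) (XT.lf (nat_lit 0) (nat_lit 78607207557) (nat_lit 76) (nat_lit 99949541033) (nat_lit 76) (nat_lit 45119213483) (nat_lit 7) (nat_lit 4) (nat_lit 8) (nat_lit 5) (nat_lit 8) (nat_lit 4) (nat_lit 297) (nat_lit 273) (nat_lit 210))) (XT.nd (nat_lit 78) (nat_lit 152) (nat_lit 0) (XT.lf (nat_lit 0) (nat_lit 177545255458) (nat_lit 76) (nat_lit 63913767883) (nat_lit 76) (nat_lit 9082367541) (nat_lit 7) (nat_lit 4)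 (nat_lit 8) (nat_lit 5) (nat_lit 8) (nat_lit 4) (nat_lit 298) (nat_lit 273) (nat_lit 209)) (XT.nd (nat_lit 78) (nat_lit 0) (nat_lit 0) (XT.lf (nat_lit 0) (nat_lit 9379052197) (nat_lit 76) (nat_lit 20486708454) (nat_lit 152) (nat_lit 251311880610) (nat_lit 5) (nat_lit 5) (nat_lit 6) (nat_lit 5) (nat_lit 7) (nat_lit 4) (nat_lit 299) (nat_lit 273) (nat_lit 208)) (XT.lf (nat_lit 0) (nat_lit 78941621899) (nat_lit 152) (nat_lit 205359901125) (nat_lit 0) (nat_lit 31260626778) (nat_lit 5) (nat_lit 5) (nat_lit 7) (nat_lit 4) (nat_lit 5) (nat_lit 4) (nat_lit 300) (nat_lit 273) (nat_lit 207))))) (XT.nd (nat_lit 156) (nat_lit 76) (nat_lit 0) (XT.nd (nat_lit 78) (nat_lit 0) (nat_lit 0) (XT.lf (nat_lit 0) (nat_lit 136352962092) (nat_lit 152) (nat_lit 129933904792) (nat_lit 0) (nat_lit 88671353599) (nat_lit 5) (nat_lit 5) (nat_lit 7) (nat_lit 4) (nat_lit 5) (nat_lit 4) (nat_lit 301) (nat_lit 273) (nat_lit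 206)) (XT.lf (nat_lit 0) (nat_lit 202374735673) (nat_lit 152) (nat_lit 43196563144) (nat_lit 0) (nat_lit 154692593813) (nat_lit 5) (nat_lit 5) (nat_lit 7) (nat_lit 4) (nat_lit 5) (nat_lit 4) (nat_lit 302) (nat_lit 273) (nat_lit 205))) (XT.nd (nat_lit 78) (nat_lit 0) (nat_lit 0) (XT.lf (nat_lit 0) (nat_lit 62075553826) (nat_lit 76) (nat_lit 218793535476) (nat_lit 76) (nat_lit 171110929818) (nat_lit 4) (nat_lit 4) (nat_lit 5) (nat_lit 5) (nat_lit 5) (nat_lit 4) (nat_lit 303) (nat_lit 273) (nat_lit 204)) (XT.nd (nat_lit 78) (nat_lit 0) (nat_lit 0) (XT.lf (nat_lit 0) (nat_lit 187991072964) (nat_lit 76) (nat_lit 185403478871) (nat_lit 76) (nat_lit 137720469912) (nat_lit 4) (nat_lit 4) (nat_lit 5) (nat_lit 5) (nat_lit 5) (nat_lit 4) (nat_lit 304) (nat_lit 273) (nat_lit 203)) (XT.lf (nat_lit 0) (nat_lit 332792076466) (nat_lit 76) (nat_lit 147005847452) (nat_lit 76) (nat_lit 99322487795) (nat_lit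 4) (nat_lit 4) (nat_lit 5) (nat_lit 5) (nat_lit 5) (nat_lit 4) (nat_lit 305) (nat_lit 273) (nat_lit 202)))))) (XT.nd (nat_lit 390) (nat_lit 0) (nat_lit 0) (XT.nd (nat_lit 156) (nat_lit 152) (nat_lit 0) (XT.nd (nat_lit 78) (nat_lit 0) (nat_lit 0) (XT.lf (nat_lit 0) (nat_lit 499311627446) (nat_lit 76) (nat_lit 102849383212) (nat_lit 76) (nat_lit 55165718600) (nat_lit 4) (nat_lit 4) (nat_lit 5) (nat_lit 5) (nat_lit 5) (nat_lit 4) (nat_lit 306) (nat_lit 273) (nat_lit 201)) (XT.lf (nat_lit 0) (nat_lit 690807717117) (nat_lit 76) (nat_lit 52070155329) (nat_lit 76) (nat_lit 4386225539) (nat_lit 4) (nat_lit 4) (nat_lit 5) (nat_lit 5) (nat_lit 5) (nat_lit 4) (nat_lit 307) (nat_lit 273) (nat_lit 200))) (XT.nd (nat_lit 78) (nat_lit 0) (nat_lit 0) (XT.lf (nat_lit 0) (nat_lit 52336210615) (nat_lit 152) (nat_lit 786678514339) (nat_lit 0) (nat_lit 10871723329) (nat_lit 2) (nat_lit 5) (nat_lit 4) (nat_lit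 4) (nat_lit 2) (nat_lit 4) (nat_lit 308) (nat_lit 273) (nat_lit 199)) (XT.nd (nat_lit 78) (nat_lit 0) (nat_lit 0) (XT.lf (nat_lit 0) (nat_lit 122688515163) (nat_lit 152) (nat_lit 763122867159) (nat_lit 0) (nat_lit 81223853518) (nat_lit 2) (nat_lit 5) (nat_lit 4) (nat_lit 4) (nat_lit 2) (nat_lit 4) (nat_lit 309) (nat_lit 273) (nat_lit 198)) (XT.lf (nat_lit 0) (nat_lit 203593125184) (nat_lit 152) (nat_lit 736034985658) (nat_lit 0) (nat_lit 162128311923) (nat_lit 2) (nat_lit 5) (nat_lit 4) (nat_lit 4) (nat_lit 2) (nat_lit 4) (nat_lit 310) (nat_lit 273) (nat_lit 197))))) (XT.nd (nat_lit 156) (nat_lit 0) (nat_lit 0) (XT.nd (nat_lit 78) (nat_lit 0) (nat_lit 0) (XT.lf (nat_lit 0) (nat_lit 296632956961) (nat_lit 152) (nat_lit 704884889547) (nat_lit 0) (nat_lit 255168011860) (nat_lit 2) (nat_lit 5) (nat_lit 4) (nat_lit 4) (nat_lit 2) (nat_lit 4) (nat_lit 311) (nat_lit 273) (nat_lit 196)) (XT.lf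 (nat_lit 0) (nat_lit 403628355029) (nat_lit 152) (nat_lit 669063120423) (nat_lit 0) (nat_lit 362163295284) (nat_lit 2) (nat_lit 5) (nat_lit 4) (nat_lit 4) (nat_lit 2) (nat_lit 4) (nat_lit 312) (nat_lit 273) (nat_lit 195))) (XT.nd (nat_lit 78) (nat_lit 0) (nat_lit 0) (XT.lf (nat_lit 0) (nat_lit 526672707611) (nat_lit 152) (nat_lit 627868817587) (nat_lit 0) (nat_lit 485207548176) (nat_lit 2) (nat_lit 5) (nat_lit 4) (nat_lit 4) (nat_lit 2) (nat_lit 4) (nat_lit 313) (nat_lit 273) (nat_lit 194)) (XT.nd (nat_lit 78) (nat_lit 0) (nat_lit 0) (XT.lf (nat_lit 0) (nat_lit 668173404214) (nat_lit 152) (nat_lit 580496005547) (nat_lit 0) (nat_lit 626708158092) (nat_lit 2) (nat_lit 5) (nat_lit 4) (nat_lit 4) (nat_lit 2) (nat_lit 4) (nat_lit 314) (nat_lit 273) (nat_lit 193)) (XT.lf (nat_lit 0) (nat_lit 830898936728) (nat_lit 152) (nat_lit 526017824939) (nat_lit 0) (nat_lit 789433615226) (nat_lit 2) (nat_lit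 5) (nat_lit 4) (nat_lit 4) (nat_lit 2) (nat_lit 4) (nat_lit 315) (nat_lit 273) (nat_lit 192))))))) (XT.nd (nat_lit 780) (nat_lit 0) (nat_lit 0) (XT.nd (nat_lit 390) (nat_lit 76) (nat_lit 0) (XT.nd (nat_lit 156) (nat_lit 0) (nat_lit 0) (XT.nd (nat_lit 78) (nat_lit 0) (nat_lit 0) (XT.lf (nat_lit 0) (nat_lit 1018033065572) (nat_lit 152) (nat_lit 463368398315) (nat_lit 0) (nat_lit 976567678522) (nat_lit 2) (nat_lit 5) (nat_lit 4) (nat_lit 4) (nat_lit 2) (nat_lit 4) (nat_lit 316) (nat_lit 273) (nat_lit 191)) (XT.lf (nat_lit 0) (nat_lit 1233237110658) (nat_lit 152) (nat_lit 391321976024) (nat_lit 0) (nat_lit 1191771666610) (nat_lit 2) (nat_lit 5) (nat_lit 4) (nat_lit 4) (nat_lit 2) (nat_lit 4) (nat_lit 317) (nat_lit 273) (nat_lit 190))) (XT.nd (nat_lit 78) (nat_lit 0) (nat_lit 0) (XT.lf (nat_lit 0) (nat_lit 1480721585912) (nat_lit 152) (nat_lit 308468954151) (nat_lit 0) (nat_lit 1439256092300)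 (nat_lit 2) (nat_lit 5) (nat_lit 4) (nat_lit 4) (nat_lit 2) (nat_lit 4) (nat_lit 318) (nat_lit 273) (nat_lit 189)) (XT.nd (nat_lit 78) (nat_lit 0) (nat_lit 0) (XT.lf (nat_lit 0) (nat_lit 1765328578892) (nat_lit 152) (nat_lit 213188295312) (nat_lit 0) (nat_lit 1723863042181) (nat_lit 2) (nat_lit 5) (nat_lit 4) (nat_lit 4) (nat_lit 2) (nat_lit 4) (nat_lit 319) (nat_lit 273) (nat_lit 188)) (XT.lf (nat_lit 0) (nat_lit 2092626487288) (nat_lit 152) (nat_lit 103615812704) (nat_lit 0) (nat_lit 2051160913100) (nat_lit 2) (nat_lit 5) (nat_lit 4) (nat_lit 4) (nat_lit 2) (nat_lit 4) (nat_lit 320) (nat_lit 273) (nat_lit 187))))) (XT.nd (nat_lit 156) (nat_lit 0) (nat_lit 0) (XT.nd (nat_lit 78) (nat_lit 0) (nat_lit 0) (XT.lf (nat_lit 0) (nat_lit 24580641828) (nat_lit 76) (nat_lit 2445456155961) (nat_lit 76) (nat_lit 2403990549184) (nat_lit 1) (nat_lit 4) (nat_lit 2) (nat_lit 5) (nat_lit 2) (nat_lit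 4) (nat_lit 321) (nat_lit 273) (nat_lit 186)) (XT.lf (nat_lit 0) (nat_lit 183651340638) (nat_lit 76) (nat_lit 2725823484923) (nat_lit 76) (nat_lit 2684357849808) (nat_lit 1) (nat_lit 4) (nat_lit 2) (nat_lit 5) (nat_lit 2) (nat_lit 4) (nat_lit 322) (nat_lit 273) (nat_lit 185))) (XT.nd (nat_lit 78) (nat_lit 0) (nat_lit 0) (XT.lf (nat_lit 0) (nat_lit 366582445741) (nat_lit 76) (nat_lit 3048246015738) (nat_lit 76) (nat_lit 3006780355981) (nat_lit 1) (nat_lit 4) (nat_lit 2) (nat_lit 5) (nat_lit 2) (nat_lit 4) (nat_lit 323) (nat_lit 273) (nat_lit 184)) (XT.nd (nat_lit 78) (nat_lit 0) (nat_lit 0) (XT.lf (nat_lit 0) (nat_lit 576953043976) (nat_lit 76) (nat_lit 3419032015313) (nat_lit 76) (nat_lit 3377566334129) (nat_lit 1) (nat_lit 4) (nat_lit 2) (nat_lit 5) (nat_lit 2) (nat_lit 4) (nat_lit 324) (nat_lit 273) (nat_lit 183)) (XT.lf (nat_lit 0) (nat_lit 818879081831) (nat_lit 76) (nat_lit 3845435992336)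 (nat_lit 76) (nat_lit 3803970292519) (nat_lit 1) (nat_lit 4) (nat_lit 2) (nat_lit 5) (nat_lit 2) (nat_lit 4) (nat_lit 325) (nat_lit 273) (nat_lit 182)))))) (XT.nd (nat_lit 390) (nat_lit 0) (nat_lit 0) (XT.nd (nat_lit 156) (nat_lit 0) (nat_lit 0) (XT.nd (nat_lit 78) (nat_lit 0) (nat_lit 0) (XT.lf (nat_lit 0) (nat_lit 1097093894828) (nat_lit 76) (nat_lit 4335800633314) (nat_lit 76) (nat_lit 4294334917294) (nat_lit 1) (nat_lit 4) (nat_lit 2) (nat_lit 5) (nat_lit 2) (nat_lit 4) (nat_lit 326) (nat_lit 273) (nat_lit 181)) (XT.lf (nat_lit 0) (nat_lit 1417040816265) (nat_lit 76) (nat_lit 4899720029048) (nat_lit 76) (nat_lit 4858254298939) (nat_lit 1) (nat_lit 4) (nat_lit 2) (nat_lit 5) (nat_lit 2) (nat_lit 4) (nat_lit 327) (nat_lit 273) (nat_lit 180))) (XT.nd (nat_lit 78) (nat_lit 0) (nat_lit 0) (XT.lf (nat_lit 0) (nat_lit 1784979677214) (nat_lit 76) (nat_lit 5548227385107) (nat_lit 76) (nat_lit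 5506761642747) (nat_lit 1) (nat_lit 4) (nat_lit 2) (nat_lit 5) (nat_lit 2) (nat_lit 4) (nat_lit 328) (nat_lit 273) (nat_lit 179)) (XT.nd (nat_lit 78) (nat_lit 0) (nat_lit 0) (XT.lf (nat_lit 0) (nat_lit 2208109281476) (nat_lit 76) (nat_lit 6294010888892) (nat_lit 76) (nat_lit 6252545135879) (nat_lit 1) (nat_lit 4) (nat_lit 2) (nat_lit 5) (nat_lit 2) (nat_lit 4) (nat_lit 329) (nat_lit 273) (nat_lit 178)) (XT.lf (nat_lit 0) (nat_lit 2694708251743) (nat_lit 76) (nat_lit 7151661956782) (nat_lit 76) (nat_lit 7110196194505) (nat_lit 1) (nat_lit 4) (nat_lit 2) (nat_lit 5) (nat_lit 2) (nat_lit 4) (nat_lit 330) (nat_lit 273) (nat_lit 177))))) (XT.nd (nat_lit 156) (nat_lit 0) (nat_lit 0) (XT.nd (nat_lit 78) (nat_lit 0) (nat_lit 0) (XT.lf (nat_lit 0) (nat_lit 3254297002651) (nat_lit 76) (nat_lit 8137960718366) (nat_lit 76) (nat_lit 8096494948033) (nat_lit 1) (nat_lit 4) (nat_lit 2) (nat_lit 5) (nat_lit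 2) (nat_lit 4) (nat_lit 331) (nat_lit 273) (nat_lit 176)) (XT.lf (nat_lit 0) (nat_lit 3897824009761) (nat_lit 76) (nat_lit 9272204323327) (nat_lit 76) (nat_lit 9230738545989) (nat_lit 1) (nat_lit 4) (nat_lit 2) (nat_lit 5) (nat_lit 2) (nat_lit 4) (nat_lit 332) (nat_lit 273) (nat_lit 175))) (XT.nd (nat_lit 78) (nat_lit 0) (nat_lit 0) (XT.lf (nat_lit 0) (nat_lit 4637880018864) (nat_lit 76) (nat_lit 10576584494370) (nat_lit 76) (nat_lit 10535118710942) (nat_lit 1) (nat_lit 4) (nat_lit 2) (nat_lit 5) (nat_lit 2) (nat_lit 4) (nat_lit 333) (nat_lit 273) (nat_lit 174)) (XT.nd (nat_lit 78) (nat_lit 0) (nat_lit 0) (XT.lf (nat_lit 0) (nat_lit 5488944386660) (nat_lit 76) (nat_lit 12076621713104) (nat_lit 76) (nat_lit 12035155924379) (nat_lit 1) (nat_lit 4) (nat_lit 2) (nat_lit 5) (nat_lit 2) (nat_lit 4) (nat_lit 334) (nat_lit 273) (nat_lit 173)) (XT.lf (nat_lit 0) (nat_lit 6467668372520) (nat_lit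 76) (nat_lit 13801664533807) (nat_lit 76) (nat_lit 13760198740476) (nat_lit 1) (nat_lit 4) (nat_lit 2) (nat_lit 5) (nat_lit 2) (nat_lit 4) (nat_lit 335) (nat_lit 273) (nat_lit 172))))))))
noncomputable def xc75 : XT := (XT.nd (nat_lit 36816) (nat_lit 0) (nat_lit 228) (XT.nd (nat_lit 36036) (nat_lit 0) (nat_lit 1064) (XT.nd (nat_lit 390) (nat_lit 0) (nat_lit 0) (XT.nd (nat_lit 156) (nat_lit 0) (nat_lit 0) (XT.nd (nat_lit 78) (nat_lit 0) (nat_lit 0) (XT.lf (nat_lit 0) (nat_lit 7593200923991) (nat_lit 76) (nat_lit 15785463794276) (nat_lit 76) (nat_lit 15743997996940) (nat_lit 1) (nat_lit 4) (nat_lit 2) (nat_lit 5) (nat_lit 2) (nat_lit 4) (nat_lit 336) (nat_lit 273) (nat_lit 171)) (XT.lf (nat_lit 0) (nat_lit 8887563330126) (nat_lit 76) (nat_lit 18066832958303) (nat_lit 76) (nat_lit 18025367157484) (nat_lit 1) (nat_lit 4) (nat_lit 2) (nat_lit 5) (nat_lit 2) (nat_lit 4) (nat_lit 337) (nat_lit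 273) (nat_lit 170))) (XT.nd (nat_lit 78) (nat_lit 0) (nat_lit 0) (XT.lf (nat_lit 0) (nat_lit 10376080072783) (nat_lit 76) (nat_lit 20690407509532) (nat_lit 76) (nat_lit 20648941705685) (nat_lit 1) (nat_lit 4) (nat_lit 2) (nat_lit 5) (nat_lit 2) (nat_lit 4) (nat_lit 338) (nat_lit 273) (nat_lit 169)) (XT.nd (nat_lit 78) (nat_lit 0) (nat_lit 0) (XT.lf (nat_lit 0) (nat_lit 12087874305623) (nat_lit 76) (nat_lit 23707518254399) (nat_lit 76) (nat_lit 23666052447919) (nat_lit 1) (nat_lit 4) (nat_lit 2) (nat_lit 5) (nat_lit 2) (nat_lit 4) (nat_lit 339) (nat_lit 273) (nat_lit 168)) (XT.lf (nat_lit 0) (nat_lit 14056437654940) (nat_lit 76) (nat_lit 27177195620523) (nat_lit 76) (nat_lit 27135729811753) (nat_lit 1) (nat_lit 4) (nat_lit 2) (nat_lit 5) (nat_lit 2) (nat_lit 4) (nat_lit 340) (nat_lit 273) (nat_lit 167))))) (XT.nd (nat_lit 35412) (nat_lit 0) (nat_lit 1672) (XT.nd (nat_lit 78) (nat_lit 0)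 (nat_lit 0) (XT.lf (nat_lit 0) (nat_lit 16320285490613) (nat_lit 76) (nat_lit 31167324599848) (nat_lit 76) (nat_lit 31125858789087) (nat_lit 1) (nat_lit 4) (nat_lit 2) (nat_lit 5) (nat_lit 2) (nat_lit 4) (nat_lit 341) (nat_lit 273) (nat_lit 166)) (XT.lf (nat_lit 0) (nat_lit 18923710487687) (nat_lit 76) (nat_lit 35755972933275) (nat_lit 76) (nat_lit 35714507120783) (nat_lit 1) (nat_lit 4) (nat_lit 2) (nat_lit 5) (nat_lit 2) (nat_lit 4) (nat_lit 342) (nat_lit 273) (nat_lit 165))) (XT.nd (nat_lit 78) (nat_lit 0) (nat_lit 0) (XT.lf (nat_lit 0) (nat_lit 2462428459) (nat_lit 380) (nat_lit 5977677157) (nat_lit 380) (nat_lit 5977677157) (nat_lit 23) (nat_lit 3) (nat_lit 28) (nat_lit 3) (nat_lit 28) (nat_lit 5) (nat_lit 274) (nat_lit 274) (nat_lit 232)) (XT.nd (nat_lit 78) (nat_lit 0) (nat_lit 76) (XT.lf (nat_lit 76) (nat_lit 1820168440) (nat_lit 0) (nat_lit 3621372035) (nat_lit 380) (nat_lit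 25534362841) (nat_lit 24) (nat_lit 5) (nat_lit 23) (nat_lit 3) (nat_lit 28) (nat_lit 5) (nat_lit 275) (nat_lit 274) (nat_lit 231)) (XT.lf (nat_lit 0) (nat_lit 7158906407) (nat_lit 304) (nat_lit 14859422229) (nat_lit 380) (nat_lit 11250527400) (nat_lit 24) (nat_lit 5) (nat_lit 28) (nat_lit 5) (nat_lit 29) (nat_lit 5) (nat_lit 276) (nat_lit 274) (nat_lit 230)))))) (XT.nd (nat_lit 390) (nat_lit 304) (nat_lit 0) (XT.nd (nat_lit 156) (nat_lit 380) (nat_lit 0) (XT.nd (nat_lit 78) (nat_lit 0) (nat_lit 76) (XT.lf (nat_lit 76) (nat_lit 1536716951) (nat_lit 0) (nat_lit 7821988185) (nat_lit 380) (nat_lit 26513358225) (nat_lit 25) (nat_lit 5) (nat_lit 24) (nat_lit 5) (nat_lit 29) (nat_lit 5) (nat_lit 277) (nat_lit 274) (nat_lit 229)) (XT.lf (nat_lit 0) (nat_lit 13044254877) (nat_lit 304) (nat_lit 17086270641) (nat_lit 76) (nat_lit 8561890290) (nat_lit 25) (nat_lit 5) (nat_lit 29) (nat_lit 5) (nat_lit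 26) (nat_lit 5) (nat_lit 278) (nat_lit 274) (nat_lit 228))) (XT.nd (nat_lit 78) (nat_lit 152) (nat_lit 0) (XT.lf (nat_lit 0) (nat_lit 2600327791) (nat_lit 304) (nat_lit 15153699442) (nat_lit 380) (nat_lit 24111112498) (nat_lit 21) (nat_lit 5) (nat_lit 25) (nat_lit 5) (nat_lit 26) (nat_lit 5) (nat_lit 279) (nat_lit 274) (nat_lit 227)) (XT.nd (nat_lit 78) (nat_lit 152) (nat_lit 0) (XT.lf (nat_lit 0) (nat_lit 24183654362) (nat_lit 380) (nat_lit 18357508817) (nat_lit 76) (nat_lit 2820624319) (nat_lit 21) (nat_lit 5) (nat_lit 26) (nat_lit 5) (nat_lit 22) (nat_lit 5) (nat_lit 280) (nat_lit 274) (nat_lit 226)) (XT.lf (nat_lit 0) (nat_lit 5440212355) (nat_lit 152) (nat_lit 27077439772) (nat_lit 228) (nat_lit 16724311832) (nat_lit 19) (nat_lit 5) (nat_lit 21) (nat_lit 5) (nat_lit 22) (nat_lit 5) (nat_lit 281) (nat_lit 274) (nat_lit 225))))) (XT.nd (nat_lit 156) (nat_lit 228) (nat_lit 0) (XT.nd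 (nat_lit 78) (nat_lit 76) (nat_lit 0) (XT.lf (nat_lit 0) (nat_lit 34862709086) (nat_lit 152) (nat_lit 8192265797) (nat_lit 228) (nat_lit 10506226050) (nat_lit 19) (nat_lit 5) (nat_lit 21) (nat_lit 5) (nat_lit 22) (nat_lit 5) (nat_lit 282) (nat_lit 274) (nat_lit 224)) (XT.lf (nat_lit 0) (nat_lit 10540848264) (nat_lit 76) (nat_lit 45622991730) (nat_lit 152) (nat_lit 2215857380) (nat_lit 18) (nat_lit 5) (nat_lit 19) (nat_lit 5) (nat_lit 20) (nat_lit 4) (nat_lit 283) (nat_lit 274) (nat_lit 223))) (XT.nd (nat_lit 78) (nat_lit 152) (nat_lit 0) (XT.lf (nat_lit 0) (nat_lit 8075199778) (nat_lit 152) (nat_lit 18254435795) (nat_lit 76) (nat_lit 37334594896) (nat_lit 17) (nat_lit 5) (nat_lit 19) (nat_lit 5) (nat_lit 18) (nat_lit 5) (nat_lit 284) (nat_lit 274) (nat_lit 222)) (XT.nd (nat_lit 78) (nat_lit 0) (nat_lit 0) (XT.lf (nat_lit 0) (nat_lit 17185152009) (nat_lit 152) (nat_lit 3204776457) (nat_lit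 228) (nat_lit 49229666527) (nat_lit 15) (nat_lit 5) (nat_lit 17) (nat_lit 5) (nat_lit 18) (nat_lit 5) (nat_lit 285) (nat_lit 274) (nat_lit 221)) (XT.lf (nat_lit 0) (nat_lit 36515520529) (nat_lit 228) (nat_lit 17353996490) (nat_lit 76) (nat_lit 22304207937) (nat_lit 15) (nat_lit 5) (nat_lit 18) (nat_lit 5) (nat_lit 16) (nat_lit 4) (nat_lit 286) (nat_lit 274) (nat_lit 220))))))) (XT.nd (nat_lit 780) (nat_lit 304) (nat_lit 0) (XT.nd (nat_lit 390) (nat_lit 228) (nat_lit 0) (XT.nd (nat_lit 156) (nat_lit 228) (nat_lit 0) (XT.nd (nat_lit 78) (nat_lit 0) (nat_lit 0) (XT.lf (nat_lit 0) (nat_lit 25060753672) (nat_lit 76) (nat_lit 31185627705) (nat_lit 152) (nat_lit 27286636253) (nat_lit 14) (nat_lit 5) (nat_lit 15) (nat_lit 5) (nat_lit 16) (nat_lit 4) (nat_lit 287) (nat_lit 274) (nat_lit 219)) (XT.lf (nat_lit 0) (nat_lit 75782115903) (nat_lit 76) (nat_lit 4058266374) (nat_lit 152) (nat_lit 12020301996)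 (nat_lit 14) (nat_lit 5) (nat_lit 15) (nat_lit 5) (nat_lit 16) (nat_lit 4) (nat_lit 288) (nat_lit 274) (nat_lit 218))) (XT.nd (nat_lit 78) (nat_lit 76) (nat_lit 0) (XT.lf (nat_lit 0) (nat_lit 7719114386) (nat_lit 152) (nat_lit 66777553669) (nat_lit 76) (nat_lit 26505055430) (nat_lit 12) (nat_lit 5) (nat_lit 14) (nat_lit 5) (nat_lit 13) (nat_lit 4) (nat_lit 289) (nat_lit 274) (nat_lit 217)) (XT.nd (nat_lit 78) (nat_lit 76) (nat_lit 0) (XT.lf (nat_lit 0) (nat_lit 30259350166) (nat_lit 152) (nat_lit 18319820692) (nat_lit 76) (nat_lit 62688309296) (nat_lit 12) (nat_lit 5) (nat_lit 14) (nat_lit 5) (nat_lit 13) (nat_lit 4) (nat_lit 290) (nat_lit 274) (nat_lit 216)) (XT.lf (nat_lit 0) (nat_lit 41056835896) (nat_lit 76) (nat_lit 16821090216) (nat_lit 152) (nat_lit 64940582327) (nat_lit 11) (nat_lit 5) (nat_lit 12) (nat_lit 5) (nat_lit 13) (nat_lit 4) (nat_lit 291) (nat_lit 274) (nat_lit 215)))))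 (XT.nd (nat_lit 156) (nat_lit 152) (nat_lit 0) (XT.nd (nat_lit 78) (nat_lit 76) (nat_lit 0) (XT.lf (nat_lit 0) (nat_lit 91455591516) (nat_lit 152) (nat_lit 25426008324) (nat_lit 0) (nat_lit 18948149000) (nat_lit 11) (nat_lit 5) (nat_lit 13) (nat_lit 4) (nat_lit 11) (nat_lit 4) (nat_lit 292) (nat_lit 274) (nat_lit 214)) (XT.lf (nat_lit 0) (nat_lit 42322508809) (nat_lit 76) (nat_lit 90298548541) (nat_lit 76) (nat_lit 17788948258) (nat_lit 10) (nat_lit 4) (nat_lit 11) (nat_lit 5) (nat_lit 11) (nat_lit 4) (nat_lit 293) (nat_lit 274) (nat_lit 213))) (XT.nd (nat_lit 78) (nat_lit 76) (nat_lit 0) (XT.lf (nat_lit 0) (nat_lit 13035982863) (nat_lit 152) (nat_lit 44484113446) (nat_lit 76) (nat_lit 109369293105) (nat_lit 9) (nat_lit 5) (nat_lit 11) (nat_lit 5) (nat_lit 10) (nat_lit 4) (nat_lit 294) (nat_lit 274) (nat_lit 212)) (XT.nd (nat_lit 78) (nat_lit 0) (nat_lit 0) (XT.lf (nat_lit 0) (nat_lit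 30526574970) (nat_lit 76) (nat_lit 17398859055) (nat_lit 152) (nat_lit 137598880282) (nat_lit 8) (nat_lit 5) (nat_lit 9) (nat_lit 5) (nat_lit 10) (nat_lit 4) (nat_lit 295) (nat_lit 274) (nat_lit 211)) (XT.lf (nat_lit 0) (nat_lit 91672453303) (nat_lit 152) (nat_lit 86122060813) (nat_lit 0) (nat_lit 28616342910) (nat_lit 8) (nat_lit 5) (nat_lit 10) (nat_lit 4) (nat_lit 8) (nat_lit 4) (nat_lit 296) (nat_lit 274) (nat_lit 210)))))) (XT.nd (nat_lit 390) (nat_lit 76) (nat_lit 0) (XT.nd (nat_lit 156) (nat_lit 152) (nat_lit 0) (XT.nd (nat_lit 78) (nat_lit 76) (nat_lit 0) (XT.lf (nat_lit 0) (nat_lit 142808329700) (nat_lit 152) (nat_lit 7746885743) (nat_lit 0) (nat_lit 79751146515) (nat_lit 8) (nat_lit 5) (nat_lit 10) (nat_lit 4) (nat_lit 8) (nat_lit 4) (nat_lit 297) (nat_lit 274) (nat_lit 209)) (XT.lf (nat_lit 0) (nat_lit 90432598093) (nat_lit 76) (nat_lit 114925121051) (nat_lit 76) (nat_lit 51867005003)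 (nat_lit 7) (nat_lit 4) (nat_lit 8) (nat_lit 5) (nat_lit 8) (nat_lit 4) (nat_lit 298) (nat_lit 274) (nat_lit 208))) (XT.nd (nat_lit 78) (nat_lit 152) (nat_lit 0) (XT.lf (nat_lit 0) (nat_lit 204206878040) (nat_lit 76) (nat_lit 73486179903) (nat_lit 76) (nat_lit 10427252671) (nat_lit 7) (nat_lit 4) (nat_lit 8) (nat_lit 5) (nat_lit 8) (nat_lit 4) (nat_lit 299) (nat_lit 274) (nat_lit 207)) (XT.nd (nat_lit 78) (nat_lit 0) (nat_lit 0) (XT.lf (nat_lit 0) (nat_lit 10815882534) (nat_lit 76) (nat_lit 23544822184) (nat_lit 152) (nat_lit 288991311864) (nat_lit 5) (nat_lit 5) (nat_lit 6) (nat_lit 5) (nat_lit 7) (nat_lit 4) (nat_lit 300) (nat_lit 274) (nat_lit 206)) (XT.lf (nat_lit 0) (nat_lit 90796514433) (nat_lit 152) (nat_lit 236136384808) (nat_lit 0) (nat_lit 35961517927) (nat_lit 5) (nat_lit 5) (nat_lit 7) (nat_lit 4) (nat_lit 5) (nat_lit 4) (nat_lit 301) (nat_lit 274) (nat_lit 205))))) (XT.nd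 (nat_lit 234) (nat_lit 0) (nat_lit 0) (XT.nd (nat_lit 78) (nat_lit 76) (nat_lit 0) (XT.lf (nat_lit 0) (nat_lit 156817775318) (nat_lit 152) (nat_lit 149400076176) (nat_lit 0) (nat_lit 101982315014) (nat_lit 5) (nat_lit 5) (nat_lit 7) (nat_lit 4) (nat_lit 5) (nat_lit 4) (nat_lit 302) (nat_lit 274) (nat_lit 204)) (XT.nd (nat_lit 78) (nat_lit 76) (nat_lit 0) (XT.lf (nat_lit 0) (nat_lit 232741266817) (nat_lit 152) (nat_lit 49655252542) (nat_lit 0) (nat_lit 177905403211) (nat_lit 5) (nat_lit 5) (nat_lit 7) (nat_lit 4) (nat_lit 5) (nat_lit 4) (nat_lit 303) (nat_lit 274) (nat_lit 203)) (XT.lf (nat_lit 0) (nat_lit 71406736743) (nat_lit 76) (nat_lit 251602512497) (nat_lit 76) (nat_lit 196766298193) (nat_lit 4) (nat_lit 4) (nat_lit 5) (nat_lit 5) (nat_lit 5) (nat_lit 4) (nat_lit 304) (nat_lit 274) (nat_lit 202)))) (XT.nd (nat_lit 78) (nat_lit 0) (nat_lit 0) (XT.lf (nat_lit 0) (nat_lit 216206994642)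 (nat_lit 76) (nat_lit 213205258702) (nat_lit 76) (nat_lit 158368739443) (nat_lit 4) (nat_lit 4) (nat_lit 5) (nat_lit 5) (nat_lit 5) (nat_lit 4) (nat_lit 305) (nat_lit 274) (nat_lit 201)) (XT.nd (nat_lit 78) (nat_lit 0) (nat_lit 0) (XT.lf (nat_lit 0) (nat_lit 382725897270) (nat_lit 76) (nat_lit 169049122830) (nat_lit 76) (nat_lit 114212338394) (nat_lit 4) (nat_lit 4) (nat_lit 5) (nat_lit 5) (nat_lit 5) (nat_lit 4) (nat_lit 306) (nat_lit 274) (nat_lit 200)) (XT.lf (nat_lit 0) (nat_lit 574221423157) (nat_lit 76) (nat_lit 118270180485) (nat_lit 76) (nat_lit 63433165460) (nat_lit 4) (nat_lit 4) (nat_lit 5) (nat_lit 5) (nat_lit 5) (nat_lit 4) (nat_lit 307) (nat_lit 274) (nat_lit 199))))))))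
noncomputable def xc76 : XT := (XT.nd (nat_lit 1560) (nat_lit 0) (nat_lit 0) (XT.nd (nat_lit 780) (nat_lit 76) (nat_lit 0) (XT.nd (nat_lit 390) (nat_lit 0) (nat_lit 0) (XT.nd (nat_lit 156) (nat_lit 0) (nat_lit 0) (XT.nd (nat_lit 78) (nat_lit 152) (nat_lit 0) (XT.lf (nat_lit 0) (nat_lit 794440223897) (nat_lit 76) (nat_lit 59874930621) (nat_lit 76) (nat_lit 5037715083) (nat_lit 4) (nat_lit 4) (nat_lit 5) (nat_lit 5) (nat_lit 5) (nat_lit 4) (nat_lit 308) (nat_lit 274) (nat_lit 198)) (XT.lf (nat_lit 0) (nat_lit 60192458877) (nat_lit 152) (nat_lit 904668309944) (nat_lit 0) (nat_lit 12507772010) (nat_lit 2) (nat_lit 5) (nat_lit 4) (nat_lit 4) (nat_lit 2) (nat_lit 4) (nat_lit 309) (nat_lit 274) (nat_lit 197))) (XT.nd (nat_lit 78) (nat_lit 0) (nat_lit 0) (XT.lf (nat_lit 0) (nat_lit 141096850411) (nat_lit 152) (nat_lit 877580878497) (nat_lit 0) (nat_lit 93412031704) (nat_lit 2) (nat_lit 5) (nat_lit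 4) (nat_lit 4) (nat_lit 2) (nat_lit 4) (nat_lit 310) (nat_lit 274) (nat_lit 196)) (XT.nd (nat_lit 78) (nat_lit 0) (nat_lit 0) (XT.lf (nat_lit 0) (nat_lit 234136492199) (nat_lit 152) (nat_lit 846431173736) (nat_lit 0) (nat_lit 186451558849) (nat_lit 2) (nat_lit 5) (nat_lit 4) (nat_lit 4) (nat_lit 2) (nat_lit 4) (nat_lit 311) (nat_lit 274) (nat_lit 195)) (XT.lf (nat_lit 0) (nat_lit 341131725060) (nat_lit 152) (nat_lit 810609744918) (nat_lit 0) (nat_lit 293446692019) (nat_lit 2) (nat_lit 5) (nat_lit 4) (nat_lit 4) (nat_lit 2) (nat_lit 4) (nat_lit 312) (nat_lit 274) (nat_lit 194))))) (XT.nd (nat_lit 156) (nat_lit 0) (nat_lit 0) (XT.nd (nat_lit 78) (nat_lit 0) (nat_lit 0) (XT.lf (nat_lit 0) (nat_lit 464175933983) (nat_lit 152) (nat_lit 769415737999) (nat_lit 0) (nat_lit 416490814256) (nat_lit 2) (nat_lit 5) (nat_lit 4) (nat_lit 4) (nat_lit 2) (nat_lit 4) (nat_lit 313) (nat_lit 274) (nat_lit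 193)) (XT.lf (nat_lit 0) (nat_lit 605676505665) (nat_lit 152) (nat_lit 722043183279) (nat_lit 0) (nat_lit 557991310558) (nat_lit 2) (nat_lit 5) (nat_lit 4) (nat_lit 4) (nat_lit 2) (nat_lit 4) (nat_lit 314) (nat_lit 274) (nat_lit 192))) (XT.nd (nat_lit 78) (nat_lit 0) (nat_lit 0) (XT.lf (nat_lit 0) (nat_lit 768401929553) (nat_lit 152) (nat_lit 667565226426) (nat_lit 0) (nat_lit 720716668897) (nat_lit 2) (nat_lit 5) (nat_lit 4) (nat_lit 4) (nat_lit 2) (nat_lit 4) (nat_lit 315) (nat_lit 274) (nat_lit 191)) (XT.nd (nat_lit 78) (nat_lit 0) (nat_lit 0) (XT.lf (nat_lit 0) (nat_lit 955535963939) (nat_lit 152) (nat_lit 604915994373) (nat_lit 0) (nat_lit 907850646285) (nat_lit 2) (nat_lit 5) (nat_lit 4) (nat_lit 4) (nat_lit 2) (nat_lit 4) (nat_lit 316) (nat_lit 274) (nat_lit 190)) (XT.lf (nat_lit 0) (nat_lit 1170739926887) (nat_lit 152) (nat_lit 532869741273) (nat_lit 0) (nat_lit 1123054559670)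 (nat_lit 2) (nat_lit 5) (nat_lit 4) (nat_lit 4) (nat_lit 2) (nat_lit 4) (nat_lit 317) (nat_lit 274) (nat_lit 189)))))) (XT.nd (nat_lit 390) (nat_lit 0) (nat_lit 0) (XT.nd (nat_lit 156) (nat_lit 76) (nat_lit 0) (XT.nd (nat_lit 78) (nat_lit 0) (nat_lit 0) (XT.lf (nat_lit 0) (nat_lit 1418224330717) (nat_lit 152) (nat_lit 450016866524) (nat_lit 0) (nat_lit 1370538920401) (nat_lit 2) (nat_lit 5) (nat_lit 4) (nat_lit 4) (nat_lit 2) (nat_lit 4) (nat_lit 318) (nat_lit 274) (nat_lit 188)) (XT.lf (nat_lit 0) (nat_lit 1702831261590) (nat_lit 152) (nat_lit 354736335619) (nat_lit 0) (nat_lit 1655145813797) (nat_lit 2) (nat_lit 5) (nat_lit 4) (nat_lit 4) (nat_lit 2) (nat_lit 4) (nat_lit 319) (nat_lit 274) (nat_lit 187))) (XT.nd (nat_lit 78) (nat_lit 76) (nat_lit 0) (XT.lf (nat_lit 0) (nat_lit 2030129115980) (nat_lit 152) (nat_lit 245163964257) (nat_lit 0) (nat_lit 1982443635598) (nat_lit 2) (nat_lit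 5) (nat_lit 4) (nat_lit 4) (nat_lit 2) (nat_lit 4) (nat_lit 320) (nat_lit 274) (nat_lit 186)) (XT.nd (nat_lit 78) (nat_lit 76) (nat_lit 0) (XT.lf (nat_lit 0) (nat_lit 2406521547559) (nat_lit 152) (nat_lit 119155945173) (nat_lit 0) (nat_lit 2358836038838) (nat_lit 2) (nat_lit 5) (nat_lit 4) (nat_lit 4) (nat_lit 2) (nat_lit 4) (nat_lit 321) (nat_lit 274) (nat_lit 185)) (XT.lf (nat_lit 0) (nat_lit 28269875746) (nat_lit 76) (nat_lit 2812273475598) (nat_lit 76) (nat_lit 2764587942236) (nat_lit 1) (nat_lit 4) (nat_lit 2) (nat_lit 5) (nat_lit 2) (nat_lit 4) (nat_lit 322) (nat_lit 274) (nat_lit 184))))) (XT.nd (nat_lit 156) (nat_lit 0) (nat_lit 0) (XT.nd (nat_lit 78) (nat_lit 0) (nat_lit 0) (XT.lf (nat_lit 0) (nat_lit 211200900554) (nat_lit 76) (nat_lit 3134696047873) (nat_lit 76) (nat_lit 3087010493083) (nat_lit 1) (nat_lit 4) (nat_lit 2) (nat_lit 5) (nat_lit 2) (nat_lit 4) (nat_lit 323) (nat_lit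 274) (nat_lit 183)) (XT.lf (nat_lit 0) (nat_lit 421571428968) (nat_lit 76) (nat_lit 3505482083500) (nat_lit 76) (nat_lit 3457796510077) (nat_lit 1) (nat_lit 4) (nat_lit 2) (nat_lit 5) (nat_lit 2) (nat_lit 4) (nat_lit 324) (nat_lit 274) (nat_lit 182))) (XT.nd (nat_lit 78) (nat_lit 0) (nat_lit 0) (XT.lf (nat_lit 0) (nat_lit 663497406109) (nat_lit 76) (nat_lit 3931886091872) (nat_lit 76) (nat_lit 3884200502247) (nat_lit 1) (nat_lit 4) (nat_lit 2) (nat_lit 5) (nat_lit 2) (nat_lit 4) (nat_lit 325) (nat_lit 274) (nat_lit 181)) (XT.nd (nat_lit 78) (nat_lit 0) (nat_lit 0) (XT.lf (nat_lit 0) (nat_lit 941712166310) (nat_lit 76) (nat_lit 4422250760110) (nat_lit 76) (nat_lit 4374565156396) (nat_lit 1) (nat_lit 4) (nat_lit 2) (nat_lit 5) (nat_lit 2) (nat_lit 4) (nat_lit 326) (nat_lit 274) (nat_lit 180)) (XT.lf (nat_lit 0) (nat_lit 1261659041839) (nat_lit 76) (nat_lit 4986170179549) (nat_lit 76) (nat_lit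 4938484563583) (nat_lit 1) (nat_lit 4) (nat_lit 2) (nat_lit 5) (nat_lit 2) (nat_lit 4) (nat_lit 327) (nat_lit 274) (nat_lit 179))))))) (XT.nd (nat_lit 780) (nat_lit 0) (nat_lit 0) (XT.nd (nat_lit 390) (nat_lit 0) (nat_lit 0) (XT.nd (nat_lit 156) (nat_lit 0) (nat_lit 0) (XT.nd (nat_lit 78) (nat_lit 0) (nat_lit 0) (XT.lf (nat_lit 0) (nat_lit 1629597862867) (nat_lit 76) (nat_lit 5634677556220) (nat_lit 76) (nat_lit 5586991929602) (nat_lit 1) (nat_lit 4) (nat_lit 2) (nat_lit 5) (nat_lit 2) (nat_lit 4) (nat_lit 328) (nat_lit 274) (nat_lit 178)) (XT.lf (nat_lit 0) (nat_lit 2052727432416) (nat_lit 76) (nat_lit 6380461077930) (nat_lit 76) (nat_lit 6332775442047) (nat_lit 1) (nat_lit 4) (nat_lit 2) (nat_lit 5) (nat_lit 2) (nat_lit 4) (nat_lit 329) (nat_lit 274) (nat_lit 177))) (XT.nd (nat_lit 78) (nat_lit 0) (nat_lit 0) (XT.lf (nat_lit 0) (nat_lit 2539326372497) (nat_lit 76) (nat_lit 7238112161406)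 (nat_lit 76) (nat_lit 7190426517468) (nat_lit 1) (nat_lit 4) (nat_lit 2) (nat_lit 5) (nat_lit 2) (nat_lit 4) (nat_lit 330) (nat_lit 274) (nat_lit 176)) (XT.nd (nat_lit 78) (nat_lit 0) (nat_lit 0) (XT.lf (nat_lit 0) (nat_lit 3098915097157) (nat_lit 76) (nat_lit 8224410936543) (nat_lit 76) (nat_lit 8176725285600) (nat_lit 1) (nat_lit 4) (nat_lit 2) (nat_lit 5) (nat_lit 2) (nat_lit 4) (nat_lit 331) (nat_lit 274) (nat_lit 175)) (XT.lf (nat_lit 0) (nat_lit 3742442081442) (nat_lit 76) (nat_lit 9358654553289) (nat_lit 76) (nat_lit 9310968896255) (nat_lit 1) (nat_lit 4) (nat_lit 2) (nat_lit 5) (nat_lit 2) (nat_lit 4) (nat_lit 332) (nat_lit 274) (nat_lit 174))))) (XT.nd (nat_lit 156) (nat_lit 0) (nat_lit 0) (XT.nd (nat_lit 78) (nat_lit 0) (nat_lit 0) (XT.lf (nat_lit 0) (nat_lit 4482498070697) (nat_lit 76) (nat_lit 10663034734581) (nat_lit 76) (nat_lit 10615349072250) (nat_lit 1) (nat_lit 4) (nat_lit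 2) (nat_lit 5) (nat_lit 2) (nat_lit 4) (nat_lit 333) (nat_lit 274) (nat_lit 173)) (XT.lf (nat_lit 0) (nat_lit 5333562421235) (nat_lit 76) (nat_lit 12163071962226) (nat_lit 76) (nat_lit 12115386295289) (nat_lit 1) (nat_lit 4) (nat_lit 2) (nat_lit 5) (nat_lit 2) (nat_lit 4) (nat_lit 334) (nat_lit 274) (nat_lit 172))) (XT.nd (nat_lit 78) (nat_lit 0) (nat_lit 0) (XT.lf (nat_lit 0) (nat_lit 6312286392086) (nat_lit 76) (nat_lit 13888114790678) (nat_lit 76) (nat_lit 13840429119737) (nat_lit 1) (nat_lit 4) (nat_lit 2) (nat_lit 5) (nat_lit 2) (nat_lit 4) (nat_lit 335) (nat_lit 274) (nat_lit 171)) (XT.nd (nat_lit 78) (nat_lit 0) (nat_lit 0) (XT.lf (nat_lit 0) (nat_lit 7437818930508) (nat_lit 76) (nat_lit 15871914057885) (nat_lit 76) (nat_lit 15824228383462) (nat_lit 1) (nat_lit 4) (nat_lit 2) (nat_lit 5) (nat_lit 2) (nat_lit 4) (nat_lit 336) (nat_lit 274) (nat_lit 170)) (XT.lf (nat_lit 0) (nat_lit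 8732181325295) (nat_lit 76) (nat_lit 18153283227772) (nat_lit 76) (nat_lit 18105597550320) (nat_lit 1) (nat_lit 4) (nat_lit 2) (nat_lit 5) (nat_lit 2) (nat_lit 4) (nat_lit 337) (nat_lit 274) (nat_lit 169)))))) (XT.nd (nat_lit 1482) (nat_lit 0) (nat_lit 0) (XT.nd (nat_lit 156) (nat_lit 0) (nat_lit 0) (XT.nd (nat_lit 78) (nat_lit 0) (nat_lit 0) (XT.lf (nat_lit 0) (nat_lit 10220698058084) (nat_lit 76) (nat_lit 20776857784096) (nat_lit 76) (nat_lit 20729172104010) (nat_lit 1) (nat_lit 4) (nat_lit 2) (nat_lit 5) (nat_lit 2) (nat_lit 4) (nat_lit 338) (nat_lit 274) (nat_lit 168)) (XT.lf (nat_lit 0) (nat_lit 11932492282343) (nat_lit 76) (nat_lit 23793968533394) (nat_lit 76) (nat_lit 23746282851019) (nat_lit 1) (nat_lit 4) (nat_lit 2) (nat_lit 5) (nat_lit 2) (nat_lit 4) (nat_lit 339) (nat_lit 274) (nat_lit 167))) (XT.nd (nat_lit 78) (nat_lit 0) (nat_lit 0) (XT.lf (nat_lit 0) (nat_lit 13901055624199)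 (nat_lit 76) (nat_lit 27263645903370) (nat_lit 76) (nat_lit 27215960219004) (nat_lit 1) (nat_lit 4) (nat_lit 2) (nat_lit 5) (nat_lit 2) (nat_lit 4) (nat_lit 340) (nat_lit 274) (nat_lit 166)) (XT.nd (nat_lit 1170) (nat_lit 0) (nat_lit 0) (XT.lf (nat_lit 0) (nat_lit 16164903453384) (nat_lit 76) (nat_lit 31253774886046) (nat_lit 76) (nat_lit 31206089199947) (nat_lit 1) (nat_lit 4) (nat_lit 2) (nat_lit 5) (nat_lit 2) (nat_lit 4) (nat_lit 341) (nat_lit 274) (nat_lit 165)) (XT.lf (nat_lit 0) (nat_lit 140036932655022) (nat_lit 76) (nat_lit 249583548819597) (nat_lit 76) (nat_lit 249535863123375) (nat_lit 1) (nat_lit 4) (nat_lit 2) (nat_lit 5) (nat_lit 2) (nat_lit 4) (nat_lit 356) (nat_lit 274) (nat_lit 150))))) (XT.nd (nat_lit 34320) (nat_lit 0) (nat_lit 1672) (XT.nd (nat_lit 34242) (nat_lit 0) (nat_lit 1672) (XT.lf (nat_lit 0) (nat_lit 161221161955770) (nat_lit 76) (nat_lit 286921663282594)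 (nat_lit 76) (nat_lit 286873977586186) (nat_lit 1) (nat_lit 4) (nat_lit 2) (nat_lit 5) (nat_lit 2) (nat_lit 4) (nat_lit 357) (nat_lit 274) (nat_lit 149)) (XT.lf (nat_lit 0) (nat_lit 2900763426) (nat_lit 380) (nat_lit 6834559500) (nat_lit 380) (nat_lit 6834559500) (nat_lit 23) (nat_lit 3) (nat_lit 28) (nat_lit 3) (nat_lit 28) (nat_lit 5) (nat_lit 275) (nat_lit 275) (nat_lit 230))) (XT.nd (nat_lit 78) (nat_lit 0) (nat_lit 76) (XT.lf (nat_lit 76) (nat_lit 2169116782) (nat_lit 0) (nat_lit 4211747615) (nat_lit 380) (nat_lit 29222574123) (nat_lit 24) (nat_lit 5) (nat_lit 23) (nat_lit 3) (nat_lit 28) (nat_lit 5) (nat_lit 276) (nat_lit 275) (nat_lit 229)) (XT.nd (nat_lit 78) (nat_lit 0) (nat_lit 0) (XT.lf (nat_lit 0) (nat_lit 8338081196) (nat_lit 304) (nat_lit 17004225504) (nat_lit 380) (nat_lit 12900740949) (nat_lit 24) (nat_lit 5) (nat_lit 28) (nat_lit 5) (nat_lit 29) (nat_lit 5) (nat_lit 277)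 (nat_lit 275) (nat_lit 228)) (XT.lf (nat_lit 76) (nat_lit 1847511369) (nat_lit 0) (nat_lit 9009923027) (nat_lit 380) (nat_lit 30380907800) (nat_lit 25) (nat_lit 5) (nat_lit 24) (nat_lit 5) (nat_lit 29) (nat_lit 5) (nat_lit 278) (nat_lit 275) (nat_lit 227))))))))
noncomputable def xc77 : XT := (XT.nd (nat_lit 1560) (nat_lit 456) (nat_lit 0) (XT.nd (nat_lit 780) (nat_lit 456) (nat_lit 0) (XT.nd (nat_lit 390) (nat_lit 380) (nat_lit 0) (XT.nd (nat_lit 156) (nat_lit 152) (nat_lit 0) (XT.nd (nat_lit 78) (nat_lit 304) (nat_lit 0) (XT.lf (nat_lit 0) (nat_lit 15082908255) (nat_lit 304) (nat_lit 19566234180) (nat_lit 76) (nat_lit 9834579433) (nat_lit 25) (nat_lit 5) (nat_lit 29) (nat_lit 5) (nat_lit 26) (nat_lit 5) (nat_lit 279) (nat_lit 275) (nat_lit 226)) (XT.lf (nat_lit 0) (nat_lit 3069582333) (nat_lit 304) (nat_lit 17422146229) (nat_lit 380) (nat_lit 27641771637) (nat_lit 21) (nat_lit 5) (nat_lit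 25) (nat_lit 5) (nat_lit 26) (nat_lit 5) (nat_lit 280) (nat_lit 275) (nat_lit 225))) (XT.nd (nat_lit 78) (nat_lit 152) (nat_lit 0) (XT.lf (nat_lit 0) (nat_lit 27876235609) (nat_lit 380) (nat_lit 21032504660) (nat_lit 76) (nat_lit 3247368298) (nat_lit 21) (nat_lit 5) (nat_lit 26) (nat_lit 5) (nat_lit 22) (nat_lit 5) (nat_lit 281) (nat_lit 275) (nat_lit 224)) (XT.nd (nat_lit 78) (nat_lit 0) (nat_lit 0) (XT.lf (nat_lit 0) (nat_lit 6331300575) (nat_lit 152) (nat_lit 31123657811) (nat_lit 228) (nat_lit 19164184366) (nat_lit 19) (nat_lit 5) (nat_lit 21) (nat_lit 5) (nat_lit 22) (nat_lit 5) (nat_lit 282) (nat_lit 275) (nat_lit 223)) (XT.lf (nat_lit 0) (nat_lit 40157381855) (nat_lit 152) (nat_lit 9407716164) (nat_lit 228) (nat_lit 12022356270) (nat_lit 19) (nat_lit 5) (nat_lit 21) (nat_lit 5) (nat_lit 22) (nat_lit 5) (nat_lit 283) (nat_lit 275) (nat_lit 222))))) (XT.nd (nat_lit 156) (nat_lit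 228) (nat_lit 0) (XT.nd (nat_lit 78) (nat_lit 76) (nat_lit 0) (XT.lf (nat_lit 0) (nat_lit 12191312501) (nat_lit 76) (nat_lit 52445567054) (nat_lit 152) (nat_lit 2492376587) (nat_lit 18) (nat_lit 5) (nat_lit 19) (nat_lit 5) (nat_lit 20) (nat_lit 4) (nat_lit 284) (nat_lit 275) (nat_lit 221)) (XT.lf (nat_lit 0) (nat_lit 9330728796) (nat_lit 152) (nat_lit 20927888280) (nat_lit 76) (nat_lit 42948515102) (nat_lit 17) (nat_lit 5) (nat_lit 19) (nat_lit 5) (nat_lit 18) (nat_lit 5) (nat_lit 285) (nat_lit 275) (nat_lit 220))) (XT.nd (nat_lit 78) (nat_lit 76) (nat_lit 0) (XT.lf (nat_lit 0) (nat_lit 19824696200) (nat_lit 152) (nat_lit 3664756795) (nat_lit 228) (nat_lit 56566842914) (nat_lit 15) (nat_lit 5) (nat_lit 17) (nat_lit 5) (nat_lit 18) (nat_lit 5) (nat_lit 286) (nat_lit 275) (nat_lit 219)) (XT.nd (nat_lit 78) (nat_lit 76) (nat_lit 0) (XT.lf (nat_lit 0) (nat_lit 42029278084) (nat_lit 228) (nat_lit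 19898703715) (nat_lit 76) (nat_lit 25666265265) (nat_lit 15) (nat_lit 5) (nat_lit 18) (nat_lit 5) (nat_lit 16) (nat_lit 4) (nat_lit 287) (nat_lit 275) (nat_lit 218)) (XT.lf (nat_lit 0) (nat_lit 28875604778) (nat_lit 76) (nat_lit 35841719604) (nat_lit 152) (nat_lit 31340485228) (nat_lit 14) (nat_lit 5) (nat_lit 15) (nat_lit 5) (nat_lit 16) (nat_lit 4) (nat_lit 288) (nat_lit 275) (nat_lit 217)))))) (XT.nd (nat_lit 390) (nat_lit 228) (nat_lit 0) (XT.nd (nat_lit 156) (nat_lit 76) (nat_lit 0) (XT.nd (nat_lit 78) (nat_lit 152) (nat_lit 0) (XT.lf (nat_lit 0) (nat_lit 87197901162) (nat_lit 76) (nat_lit 4648091325) (nat_lit 152) (nat_lit 13789306892) (nat_lit 14) (nat_lit 5) (nat_lit 15) (nat_lit 5) (nat_lit 16) (nat_lit 4) (nat_lit 289) (nat_lit 275) (nat_lit 216)) (XT.lf (nat_lit 0) (nat_lit 8906820507) (nat_lit 152) (nat_lit 76741428635) (nat_lit 76) (nat_lit 30499215734) (nat_lit 12) (nat_lit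 5) (nat_lit 14) (nat_lit 5) (nat_lit 13) (nat_lit 4) (nat_lit 290) (nat_lit 275) (nat_lit 215))) (XT.nd (nat_lit 78) (nat_lit 76) (nat_lit 0) (XT.lf (nat_lit 0) (nat_lit 34824199615) (nat_lit 152) (nat_lit 21021917200) (nat_lit 76) (nat_lit 72107557420) (nat_lit 12) (nat_lit 5) (nat_lit 14) (nat_lit 5) (nat_lit 13) (nat_lit 4) (nat_lit 291) (nat_lit 275) (nat_lit 214)) (XT.nd (nat_lit 78) (nat_lit 0) (nat_lit 0) (XT.lf (nat_lit 0) (nat_lit 47259152576) (nat_lit 76) (nat_lit 19324838299) (nat_lit 152) (nat_lit 74653606232) (nat_lit 11) (nat_lit 5) (nat_lit 12) (nat_lit 5) (nat_lit 13) (nat_lit 4) (nat_lit 292) (nat_lit 275) (nat_lit 213)) (XT.lf (nat_lit 0) (nat_lit 105195825721) (nat_lit 152) (nat_lit 29199322668) (nat_lit 0) (nat_lit 21805751308) (nat_lit 11) (nat_lit 5) (nat_lit 13) (nat_lit 4) (nat_lit 11) (nat_lit 4) (nat_lit 293) (nat_lit 275) (nat_lit 212))))) (XT.nd (nat_lit 156)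 (nat_lit 76) (nat_lit 0) (XT.nd (nat_lit 78) (nat_lit 76) (nat_lit 0) (XT.lf (nat_lit 0) (nat_lit 48709627176) (nat_lit 76) (nat_lit 103825232547) (nat_lit 76) (nat_lit 20433526552) (nat_lit 10) (nat_lit 4) (nat_lit 11) (nat_lit 5) (nat_lit 11) (nat_lit 4) (nat_lit 294) (nat_lit 275) (nat_lit 211)) (XT.lf (nat_lit 0) (nat_lit 15010204913) (nat_lit 152) (nat_lit 51121184198) (nat_lit 76) (nat_lit 125788567172) (nat_lit 9) (nat_lit 5) (nat_lit 11) (nat_lit 5) (nat_lit 10) (nat_lit 4) (nat_lit 295) (nat_lit 275) (nat_lit 210))) (XT.nd (nat_lit 78) (nat_lit 0) (nat_lit 0) (XT.lf (nat_lit 0) (nat_lit 35139491740) (nat_lit 76) (nat_lit 19992531614) (nat_lit 152) (nat_lit 158218256443) (nat_lit 8) (nat_lit 5) (nat_lit 9) (nat_lit 5) (nat_lit 10) (nat_lit 4) (nat_lit 296) (nat_lit 275) (nat_lit 209)) (XT.nd (nat_lit 78) (nat_lit 0) (nat_lit 0) (XT.lf (nat_lit 0) (nat_lit 105439358884) (nat_lit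 152) (nat_lit 99009114993) (nat_lit 0) (nat_lit 32921592567) (nat_lit 8) (nat_lit 5) (nat_lit 10) (nat_lit 4) (nat_lit 8) (nat_lit 4) (nat_lit 297) (nat_lit 275) (nat_lit 208)) (XT.lf (nat_lit 0) (nat_lit 164243524882) (nat_lit 152) (nat_lit 8881740395) (nat_lit 0) (nat_lit 91724947380) (nat_lit 8) (nat_lit 5) (nat_lit 10) (nat_lit 4) (nat_lit 8) (nat_lit 4) (nat_lit 298) (nat_lit 275) (nat_lit 207))))))) (XT.nd (nat_lit 780) (nat_lit 152) (nat_lit 0) (XT.nd (nat_lit 390) (nat_lit 76) (nat_lit 0) (XT.nd (nat_lit 156) (nat_lit 152) (nat_lit 0) (XT.nd (nat_lit 78) (nat_lit 0) (nat_lit 0) (XT.lf (nat_lit 0) (nat_lit 104023430644) (nat_lit 76) (nat_lit 132151147328) (nat_lit 76) (nat_lit 59631864448) (nat_lit 7) (nat_lit 4) (nat_lit 8) (nat_lit 5) (nat_lit 8) (nat_lit 4) (nat_lit 299) (nat_lit 275) (nat_lit 206)) (XT.lf (nat_lit 0) (nat_lit 234860468734) (nat_lit 76) (nat_lit 84498026993)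 (nat_lit 76) (nat_lit 11978130741) (nat_lit 7) (nat_lit 4) (nat_lit 8) (nat_lit 5) (nat_lit 8) (nat_lit 4) (nat_lit 300) (nat_lit 275) (nat_lit 205))) (XT.nd (nat_lit 78) (nat_lit 0) (nat_lit 0) (XT.lf (nat_lit 0) (nat_lit 12460928435) (nat_lit 76) (nat_lit 27065284613) (nat_lit 152) (nat_lit 332326888917) (nat_lit 5) (nat_lit 5) (nat_lit 6) (nat_lit 5) (nat_lit 7) (nat_lit 4) (nat_lit 301) (nat_lit 275) (nat_lit 204)) (XT.nd (nat_lit 78) (nat_lit 0) (nat_lit 0) (XT.lf (nat_lit 0) (nat_lit 104426312392) (nat_lit 152) (nat_lit 271536047455) (nat_lit 0) (nat_lit 41364665942) (nat_lit 5) (nat_lit 5) (nat_lit 7) (nat_lit 4) (nat_lit 5) (nat_lit 4) (nat_lit 302) (nat_lit 275) (nat_lit 203)) (XT.lf (nat_lit 0) (nat_lit 180349416219) (nat_lit 152) (nat_lit 171792004929) (nat_lit 0) (nat_lit 117287419072) (nat_lit 5) (nat_lit 5) (nat_lit 7) (nat_lit 4) (nat_lit 5) (nat_lit 4) (nat_lit 303) (nat_lit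 275) (nat_lit 202))))) (XT.nd (nat_lit 156) (nat_lit 0) (nat_lit 0) (XT.nd (nat_lit 78) (nat_lit 76) (nat_lit 0) (XT.lf (nat_lit 0) (nat_lit 267660260843) (nat_lit 152) (nat_lit 57087816359) (nat_lit 0) (nat_lit 204597958741) (nat_lit 5) (nat_lit 5) (nat_lit 7) (nat_lit 4) (nat_lit 5) (nat_lit 4) (nat_lit 304) (nat_lit 275) (nat_lit 201)) (XT.lf (nat_lit 0) (nat_lit 82132756588) (nat_lit 76) (nat_lit 289335287631) (nat_lit 76) (nat_lit 226272720352) (nat_lit 4) (nat_lit 4) (nat_lit 5) (nat_lit 5) (nat_lit 5) (nat_lit 4) (nat_lit 305) (nat_lit 275) (nat_lit 200))) (XT.nd (nat_lit 78) (nat_lit 0) (nat_lit 0) (XT.lf (nat_lit 0) (nat_lit 248651095433) (nat_lit 76) (nat_lit 245179437298) (nat_lit 76) (nat_lit 182116639430) (nat_lit 4) (nat_lit 4) (nat_lit 5) (nat_lit 5) (nat_lit 5) (nat_lit 4) (nat_lit 306) (nat_lit 275) (nat_lit 199)) (XT.nd (nat_lit 78) (nat_lit 0) (nat_lit 0) (XT.lf (nat_lit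 0) (nat_lit 440146131073) (nat_lit 76) (nat_lit 194400743247) (nat_lit 76) (nat_lit 131337744867) (nat_lit 4) (nat_lit 4) (nat_lit 5) (nat_lit 5) (nat_lit 5) (nat_lit 4) (nat_lit 307) (nat_lit 275) (nat_lit 198)) (XT.lf (nat_lit 0) (nat_lit 660364505511) (nat_lit 76) (nat_lit 136005709291) (nat_lit 76) (nat_lit 72942536551) (nat_lit 4) (nat_lit 4) (nat_lit 5) (nat_lit 5) (nat_lit 5) (nat_lit 4) (nat_lit 308) (nat_lit 275) (nat_lit 197)))))) (XT.nd (nat_lit 390) (nat_lit 0) (nat_lit 0) (XT.nd (nat_lit 156) (nat_lit 0) (nat_lit 0) (XT.nd (nat_lit 78) (nat_lit 152) (nat_lit 0) (XT.lf (nat_lit 0) (nat_lit 913614839117) (nat_lit 76) (nat_lit 68851823894) (nat_lit 76) (nat_lit 5788499539) (nat_lit 4) (nat_lit 4) (nat_lit 5) (nat_lit 5) (nat_lit 5) (nat_lit 4) (nat_lit 309) (nat_lit 275) (nat_lit 196)) (XT.lf (nat_lit 0) (nat_lit 69225725946) (nat_lit 152) (nat_lit 1040359496666) (nat_lit 0)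 (nat_lit 14387937950) (nat_lit 2) (nat_lit 5) (nat_lit 4) (nat_lit 4) (nat_lit 2) (nat_lit 4) (nat_lit 310) (nat_lit 275) (nat_lit 195))) (XT.nd (nat_lit 78) (nat_lit 0) (nat_lit 0) (XT.lf (nat_lit 0) (nat_lit 162265202527) (nat_lit 152) (nat_lit 1009210132210) (nat_lit 0) (nat_lit 107427314841) (nat_lit 2) (nat_lit 5) (nat_lit 4) (nat_lit 4) (nat_lit 2) (nat_lit 4) (nat_lit 311) (nat_lit 275) (nat_lit 194)) (XT.nd (nat_lit 78) (nat_lit 0) (nat_lit 0) (XT.lf (nat_lit 0) (nat_lit 269260291729) (nat_lit 152) (nat_lit 973388999309) (nat_lit 0) (nat_lit 214422317355) (nat_lit 2) (nat_lit 5) (nat_lit 4) (nat_lit 4) (nat_lit 2) (nat_lit 4) (nat_lit 312) (nat_lit 275) (nat_lit 193)) (XT.lf (nat_lit 0) (nat_lit 392304375731) (nat_lit 152) (nat_lit 932195249709) (nat_lit 0) (nat_lit 337466325978) (nat_lit 2) (nat_lit 5) (nat_lit 4) (nat_lit 4) (nat_lit 2) (nat_lit 4) (nat_lit 313) (nat_lit 275)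 (nat_lit 192))))) (XT.nd (nat_lit 234) (nat_lit 0) (nat_lit 0) (XT.nd (nat_lit 78) (nat_lit 0) (nat_lit 0) (XT.lf (nat_lit 0) (nat_lit 533804838787) (nat_lit 152) (nat_lit 884822918746) (nat_lit 0) (nat_lit 478966723486) (nat_lit 2) (nat_lit 5) (nat_lit 4) (nat_lit 4) (nat_lit 2) (nat_lit 4) (nat_lit 314) (nat_lit 275) (nat_lit 191)) (XT.nd (nat_lit 78) (nat_lit 0) (nat_lit 0) (XT.lf (nat_lit 0) (nat_lit 696530168217) (nat_lit 152) (nat_lit 830345156464) (nat_lit 0) (nat_lit 641691995917) (nat_lit 2) (nat_lit 5) (nat_lit 4) (nat_lit 4) (nat_lit 2) (nat_lit 4) (nat_lit 315) (nat_lit 275) (nat_lit 190)) (XT.lf (nat_lit 0) (nat_lit 883664120465) (nat_lit 152) (nat_lit 767696093602) (nat_lit 0) (nat_lit 828825898602) (nat_lit 2) (nat_lit 5) (nat_lit 4) (nat_lit 4) (nat_lit 2) (nat_lit 4) (nat_lit 316) (nat_lit 275) (nat_lit 189)))) (XT.nd (nat_lit 78) (nat_lit 0) (nat_lit 0) (XT.lf (nat_lit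 0) (nat_lit 1098868011990) (nat_lit 152) (nat_lit 695649987626) (nat_lit 0) (nat_lit 1044029747028) (nat_lit 2) (nat_lit 5) (nat_lit 4) (nat_lit 4) (nat_lit 2) (nat_lit 4) (nat_lit 317) (nat_lit 275) (nat_lit 188)) (XT.nd (nat_lit 78) (nat_lit 0) (nat_lit 0) (XT.lf (nat_lit 0) (nat_lit 1346352353712) (nat_lit 152) (nat_lit 612797240809) (nat_lit 0) (nat_lit 1291514051273) (nat_lit 2) (nat_lit 5) (nat_lit 4) (nat_lit 4) (nat_lit 2) (nat_lit 4) (nat_lit 318) (nat_lit 275) (nat_lit 187)) (XT.lf (nat_lit 0) (nat_lit 1630959230579) (nat_lit 152) (nat_lit 517516821150) (nat_lit 0) (nat_lit 1576120895550) (nat_lit 2) (nat_lit 5) (nat_lit 4) (nat_lit 4) (nat_lit 2) (nat_lit 4) (nat_lit 319) (nat_lit 275) (nat_lit 186))))))))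
noncomputable def xc78 : XT := (XT.nd (nat_lit 1560) (nat_lit 0) (nat_lit 0) (XT.nd (nat_lit 780) (nat_lit 0) (nat_lit 0) (XT.nd (nat_lit 390) (nat_lit 0) (nat_lit 0) (XT.nd (nat_lit 156) (nat_lit 76) (nat_lit 0) (XT.nd (nat_lit 78) (nat_lit 0) (nat_lit 0) (XT.lf (nat_lit 0) (nat_lit 1958257038006) (nat_lit 152) (nat_lit 407944546525) (nat_lit 0) (nat_lit 1903418674639) (nat_lit 2) (nat_lit 5) (nat_lit 4) (nat_lit 4) (nat_lit 2) (nat_lit 4) (nat_lit 320) (nat_lit 275) (nat_lit 185)) (XT.lf (nat_lit 0) (nat_lit 2334649428748) (nat_lit 152) (nat_lit 281936611559) (nat_lit 0) (nat_lit 2279811040740) (nat_lit 2) (nat_lit 5) (nat_lit 4) (nat_lit 4) (nat_lit 2) (nat_lit 4) (nat_lit 321) (nat_lit 275) (nat_lit 184))) (XT.nd (nat_lit 78) (nat_lit 76) (nat_lit 0) (XT.lf (nat_lit 0) (nat_lit 2767500601755) (nat_lit 152) (nat_lit 137027643614) (nat_lit 0) (nat_lit 2712662192319) (nat_lit 2) (nat_lit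 5) (nat_lit 4) (nat_lit 4) (nat_lit 2) (nat_lit 4) (nat_lit 322) (nat_lit 275) (nat_lit 183)) (XT.nd (nat_lit 78) (nat_lit 0) (nat_lit 0) (XT.lf (nat_lit 0) (nat_lit 32511973474) (nat_lit 76) (nat_lit 3234113662339) (nat_lit 76) (nat_lit 3179275234270) (nat_lit 1) (nat_lit 4) (nat_lit 2) (nat_lit 5) (nat_lit 2) (nat_lit 4) (nat_lit 323) (nat_lit 275) (nat_lit 182)) (XT.lf (nat_lit 0) (nat_lit 242882441173) (nat_lit 76) (nat_lit 3604899729315) (nat_lit 76) (nat_lit 3550061285044) (nat_lit 1) (nat_lit 4) (nat_lit 2) (nat_lit 5) (nat_lit 2) (nat_lit 4) (nat_lit 324) (nat_lit 275) (nat_lit 181))))) (XT.nd (nat_lit 156) (nat_lit 0) (nat_lit 0) (XT.nd (nat_lit 78) (nat_lit 0) (nat_lit 0) (XT.lf (nat_lit 0) (nat_lit 484808365519) (nat_lit 76) (nat_lit 4031303764948) (nat_lit 76) (nat_lit 3976465306588) (nat_lit 1) (nat_lit 4) (nat_lit 2) (nat_lit 5) (nat_lit 2) (nat_lit 4) (nat_lit 325) (nat_lit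 275) (nat_lit 180)) (XT.lf (nat_lit 0) (nat_lit 763023079812) (nat_lit 76) (nat_lit 4521668456890) (nat_lit 76) (nat_lit 4466829986279) (nat_lit 1) (nat_lit 4) (nat_lit 2) (nat_lit 5) (nat_lit 2) (nat_lit 4) (nat_lit 326) (nat_lit 275) (nat_lit 179))) (XT.nd (nat_lit 78) (nat_lit 0) (nat_lit 0) (XT.lf (nat_lit 0) (nat_lit 1082969915420) (nat_lit 76) (nat_lit 5085587896942) (nat_lit 76) (nat_lit 5030749415677) (nat_lit 1) (nat_lit 4) (nat_lit 2) (nat_lit 5) (nat_lit 2) (nat_lit 4) (nat_lit 327) (nat_lit 275) (nat_lit 178)) (XT.nd (nat_lit 78) (nat_lit 0) (nat_lit 0) (XT.lf (nat_lit 0) (nat_lit 1450908701734) (nat_lit 76) (nat_lit 5734095291538) (nat_lit 76) (nat_lit 5679256801009) (nat_lit 1) (nat_lit 4) (nat_lit 2) (nat_lit 5) (nat_lit 2) (nat_lit 4) (nat_lit 328) (nat_lit 275) (nat_lit 177)) (XT.lf (nat_lit 0) (nat_lit 1874038241097) (nat_lit 76) (nat_lit 6479878828833) (nat_lit 76)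 (nat_lit 6425040330249) (nat_lit 1) (nat_lit 4) (nat_lit 2) (nat_lit 5) (nat_lit 2) (nat_lit 4) (nat_lit 329) (nat_lit 275) (nat_lit 176)))))) (XT.nd (nat_lit 390) (nat_lit 0) (nat_lit 0) (XT.nd (nat_lit 156) (nat_lit 0) (nat_lit 0) (XT.nd (nat_lit 78) (nat_lit 0) (nat_lit 0) (XT.lf (nat_lit 0) (nat_lit 2360637154930) (nat_lit 76) (nat_lit 7337529925863) (nat_lit 76) (nat_lit 7282691420274) (nat_lit 1) (nat_lit 4) (nat_lit 2) (nat_lit 5) (nat_lit 2) (nat_lit 4) (nat_lit 330) (nat_lit 275) (nat_lit 175)) (XT.lf (nat_lit 0) (nat_lit 2920225856765) (nat_lit 76) (nat_lit 8323828712785) (nat_lit 76) (nat_lit 8268990201105) (nat_lit 1) (nat_lit 4) (nat_lit 2) (nat_lit 5) (nat_lit 2) (nat_lit 4) (nat_lit 331) (nat_lit 275) (nat_lit 174))) (XT.nd (nat_lit 78) (nat_lit 0) (nat_lit 0) (XT.lf (nat_lit 0) (nat_lit 3563752821202) (nat_lit 76) (nat_lit 9458072339779) (nat_lit 76) (nat_lit 9403233822803)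 (nat_lit 1) (nat_lit 4) (nat_lit 2) (nat_lit 5) (nat_lit 2) (nat_lit 4) (nat_lit 332) (nat_lit 275) (nat_lit 173)) (XT.nd (nat_lit 78) (nat_lit 0) (nat_lit 0) (XT.lf (nat_lit 0) (nat_lit 4303808793199) (nat_lit 76) (nat_lit 10762452529982) (nat_lit 76) (nat_lit 10707614008400) (nat_lit 1) (nat_lit 4) (nat_lit 2) (nat_lit 5) (nat_lit 2) (nat_lit 4) (nat_lit 333) (nat_lit 275) (nat_lit 172)) (XT.lf (nat_lit 0) (nat_lit 5154873128729) (nat_lit 76) (nat_lit 12262489765376) (nat_lit 76) (nat_lit 12207651239789) (nat_lit 1) (nat_lit 4) (nat_lit 2) (nat_lit 5) (nat_lit 2) (nat_lit 4) (nat_lit 334) (nat_lit 275) (nat_lit 171))))) (XT.nd (nat_lit 156) (nat_lit 0) (nat_lit 0) (XT.nd (nat_lit 78) (nat_lit 0) (nat_lit 0) (XT.lf (nat_lit 0) (nat_lit 6133597086530) (nat_lit 76) (nat_lit 13987532600567) (nat_lit 76) (nat_lit 13932694071497) (nat_lit 1) (nat_lit 4) (nat_lit 2) (nat_lit 5) (nat_lit 2)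 (nat_lit 4) (nat_lit 335) (nat_lit 275) (nat_lit 170)) (XT.lf (nat_lit 0) (nat_lit 7259129613604) (nat_lit 76) (nat_lit 15971331873634) (nat_lit 76) (nat_lit 15916493341536) (nat_lit 1) (nat_lit 4) (nat_lit 2) (nat_lit 5) (nat_lit 2) (nat_lit 4) (nat_lit 336) (nat_lit 275) (nat_lit 169))) (XT.nd (nat_lit 78) (nat_lit 0) (nat_lit 0) (XT.lf (nat_lit 0) (nat_lit 8553491998523) (nat_lit 76) (nat_lit 18252701048615) (nat_lit 76) (nat_lit 18197862513884) (nat_lit 1) (nat_lit 4) (nat_lit 2) (nat_lit 5) (nat_lit 2) (nat_lit 4) (nat_lit 337) (nat_lit 275) (nat_lit 168)) (XT.nd (nat_lit 78) (nat_lit 0) (nat_lit 0) (XT.lf (nat_lit 0) (nat_lit 10042008722732) (nat_lit 76) (nat_lit 20876275609370) (nat_lit 76) (nat_lit 20821437072348) (nat_lit 1) (nat_lit 4) (nat_lit 2) (nat_lit 5) (nat_lit 2) (nat_lit 4) (nat_lit 338) (nat_lit 275) (nat_lit 167)) (XT.lf (nat_lit 0) (nat_lit 11753802939529) (nat_lit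 76) (nat_lit 23893386362521) (nat_lit 76) (nat_lit 23838547823508) (nat_lit 1) (nat_lit 4) (nat_lit 2) (nat_lit 5) (nat_lit 2) (nat_lit 4) (nat_lit 339) (nat_lit 275) (nat_lit 166))))))) (XT.nd (nat_lit 36114) (nat_lit 0) (nat_lit 836) (XT.nd (nat_lit 35724) (nat_lit 0) (nat_lit 1520) (XT.nd (nat_lit 1248) (nat_lit 0) (nat_lit 0) (XT.nd (nat_lit 1170) (nat_lit 0) (nat_lit 0) (XT.lf (nat_lit 0) (nat_lit 13722366274897) (nat_lit 76) (nat_lit 27363063735847) (nat_lit 76) (nat_lit 27308225195103) (nat_lit 1) (nat_lit 4) (nat_lit 2) (nat_lit 5) (nat_lit 2) (nat_lit 4) (nat_lit 340) (nat_lit 275) (nat_lit 165)) (XT.lf (nat_lit 0) (nat_lit 121437174309313) (nat_lit 76) (nat_lit 217215041052336) (nat_lit 76) (nat_lit 217160202501467) (nat_lit 1) (nat_lit 4) (nat_lit 2) (nat_lit 5) (nat_lit 2) (nat_lit 4) (nat_lit 355) (nat_lit 275) (nat_lit 150))) (XT.nd (nat_lit 78) (nat_lit 0) (nat_lit 0) (XT.lf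 (nat_lit 0) (nat_lit 139858243267088) (nat_lit 76) (nat_lit 249682966672022) (nat_lit 76) (nat_lit 249628128120968) (nat_lit 1) (nat_lit 4) (nat_lit 2) (nat_lit 5) (nat_lit 2) (nat_lit 4) (nat_lit 356) (nat_lit 275) (nat_lit 149)) (XT.nd (nat_lit 34320) (nat_lit 0) (nat_lit 1672) (XT.lf (nat_lit 0) (nat_lit 161042472567233) (nat_lit 76) (nat_lit 287021081135330) (nat_lit 76) (nat_lit 286966242584115) (nat_lit 1) (nat_lit 4) (nat_lit 2) (nat_lit 5) (nat_lit 2) (nat_lit 4) (nat_lit 357) (nat_lit 275) (nat_lit 148)) (XT.lf (nat_lit 0) (nat_lit 3388029696) (nat_lit 380) (nat_lit 7829672173) (nat_lit 380) (nat_lit 7829672173) (nat_lit 23) (nat_lit 3) (nat_lit 28) (nat_lit 3) (nat_lit 28) (nat_lit 5) (nat_lit 276) (nat_lit 276) (nat_lit 228))))) (XT.nd (nat_lit 156) (nat_lit 152) (nat_lit 0) (XT.nd (nat_lit 78) (nat_lit 0) (nat_lit 76) (XT.lf (nat_lit 76) (nat_lit 2551893053) (nat_lit 0) (nat_lit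 4879176884) (nat_lit 380) (nat_lit 33498630833) (nat_lit 24) (nat_lit 5) (nat_lit 23) (nat_lit 3) (nat_lit 28) (nat_lit 5) (nat_lit 277) (nat_lit 276) (nat_lit 227)) (XT.lf (nat_lit 0) (nat_lit 9668444662) (nat_lit 304) (nat_lit 19491260041) (nat_lit 380) (nat_lit 14807598359) (nat_lit 24) (nat_lit 5) (nat_lit 28) (nat_lit 5) (nat_lit 29) (nat_lit 5) (nat_lit 278) (nat_lit 276) (nat_lit 226))) (XT.nd (nat_lit 78) (nat_lit 228) (nat_lit 0) (XT.lf (nat_lit 76) (nat_lit 2185346486) (nat_lit 0) (nat_lit 10372478864) (nat_lit 380) (nat_lit 34855280901) (nat_lit 25) (nat_lit 5) (nat_lit 24) (nat_lit 5) (nat_lit 29) (nat_lit 5) (nat_lit 279) (nat_lit 276) (nat_lit 225)) (XT.nd (nat_lit 78) (nat_lit 304) (nat_lit 0) (XT.lf (nat_lit 0) (nat_lit 17407359726) (nat_lit 304) (nat_lit 22438426730) (nat_lit 76) (nat_lit 11300999315) (nat_lit 25) (nat_lit 5) (nat_lit 29) (nat_lit 5) (nat_lit 26) (nat_lit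 5) (nat_lit 280) (nat_lit 276) (nat_lit 224)) (XT.lf (nat_lit 0) (nat_lit 3589910324) (nat_lit 304) (nat_lit 20031983756) (nat_lit 380) (nat_lit 31723003178) (nat_lit 21) (nat_lit 5) (nat_lit 25) (nat_lit 5) (nat_lit 26) (nat_lit 5) (nat_lit 281) (nat_lit 276) (nat_lit 223)))))) (XT.nd (nat_lit 390) (nat_lit 380) (nat_lit 0) (XT.nd (nat_lit 156) (nat_lit 152) (nat_lit 0) (XT.nd (nat_lit 78) (nat_lit 152) (nat_lit 0) (XT.lf (nat_lit 0) (nat_lit 32106845311) (nat_lit 380) (nat_lit 24127924420) (nat_lit 76) (nat_lit 3737233719) (nat_lit 21) (nat_lit 5) (nat_lit 26) (nat_lit 5) (nat_lit 22) (nat_lit 5) (nat_lit 282) (nat_lit 276) (nat_lit 222)) (XT.lf (nat_lit 0) (nat_lit 7337749058) (nat_lit 152) (nat_lit 35780563437) (nat_lit 228) (nat_lit 21986808814) (nat_lit 19) (nat_lit 5) (nat_lit 21) (nat_lit 5) (nat_lit 22) (nat_lit 5) (nat_lit 283) (nat_lit 276) (nat_lit 221))) (XT.nd (nat_lit 78)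 (nat_lit 152) (nat_lit 0) (XT.lf (nat_lit 0) (nat_lit 46230339913) (nat_lit 152) (nat_lit 10808749202) (nat_lit 228) (nat_lit 13780489530) (nat_lit 19) (nat_lit 5) (nat_lit 21) (nat_lit 5) (nat_lit 22) (nat_lit 5) (nat_lit 284) (nat_lit 276) (nat_lit 220)) (XT.nd (nat_lit 78) (nat_lit 76) (nat_lit 0) (XT.lf (nat_lit 0) (nat_lit 14072438108) (nat_lit 76) (nat_lit 60296618797) (nat_lit 152) (nat_lit 2823995344) (nat_lit 18) (nat_lit 5) (nat_lit 19) (nat_lit 5) (nat_lit 20) (nat_lit 4) (nat_lit 285) (nat_lit 276) (nat_lit 219)) (XT.lf (nat_lit 0) (nat_lit 10763796756) (nat_lit 152) (nat_lit 24018139285) (nat_lit 76) (nat_lit 49401174954) (nat_lit 17) (nat_lit 5) (nat_lit 19) (nat_lit 5) (nat_lit 18) (nat_lit 5) (nat_lit 286) (nat_lit 276) (nat_lit 218))))) (XT.nd (nat_lit 156) (nat_lit 228) (nat_lit 0) (XT.nd (nat_lit 78) (nat_lit 0) (nat_lit 0) (XT.lf (nat_lit 0) (nat_lit 22845108674) (nat_lit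 152) (nat_lit 4198790820) (nat_lit 228) (nat_lit 65016123723) (nat_lit 15) (nat_lit 5) (nat_lit 17) (nat_lit 5) (nat_lit 18) (nat_lit 5) (nat_lit 287) (nat_lit 276) (nat_lit 217)) (XT.lf (nat_lit 0) (nat_lit 48361215714) (nat_lit 228) (nat_lit 22839356344) (nat_lit 76) (nat_lit 29528625574) (nat_lit 15) (nat_lit 5) (nat_lit 18) (nat_lit 5) (nat_lit 16) (nat_lit 4) (nat_lit 288) (nat_lit 276) (nat_lit 216))) (XT.nd (nat_lit 78) (nat_lit 152) (nat_lit 0) (XT.lf (nat_lit 0) (nat_lit 33249091472) (nat_lit 76) (nat_lit 41201529714) (nat_lit 152) (nat_lit 36011957661) (nat_lit 14) (nat_lit 5) (nat_lit 15) (nat_lit 5) (nat_lit 16) (nat_lit 4) (nat_lit 289) (nat_lit 276) (nat_lit 215)) (XT.nd (nat_lit 78) (nat_lit 152) (nat_lit 0) (XT.lf (nat_lit 0) (nat_lit 100314235012) (nat_lit 76) (nat_lit 5331002562) (nat_lit 152) (nat_lit 15831963491) (nat_lit 14) (nat_lit 5) (nat_lit 15) (nat_lit 5) (nat_lit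 16) (nat_lit 4) (nat_lit 290) (nat_lit 276) (nat_lit 214)) (XT.lf (nat_lit 0) (nat_lit 10265406126) (nat_lit 152) (nat_lit 88212750238) (nat_lit 76) (nat_lit 35088012641) (nat_lit 12) (nat_lit 5) (nat_lit 14) (nat_lit 5) (nat_lit 13) (nat_lit 4) (nat_lit 291) (nat_lit 276) (nat_lit 213))))))))
noncomputable def xc79 : XT := (XT.nd (nat_lit 1560) (nat_lit 76) (nat_lit 0) (XT.nd (nat_lit 780) (nat_lit 380) (nat_lit 0) (XT.nd (nat_lit 390) (nat_lit 152) (nat_lit 0) (XT.nd (nat_lit 156) (nat_lit 152) (nat_lit 0) (XT.nd (nat_lit 78) (nat_lit 76) (nat_lit 0) (XT.lf (nat_lit 0) (nat_lit 40067449160) (nat_lit 152) (nat_lit 24140515483) (nat_lit 76) (nat_lit 82935790640) (nat_lit 12) (nat_lit 5) (nat_lit 14) (nat_lit 5) (nat_lit 13) (nat_lit 4) (nat_lit 292) (nat_lit 276) (nat_lit 212)) (XT.lf (nat_lit 0) (nat_lit 54381137973) (nat_lit 76) (nat_lit 22208883175) (nat_lit 152) (nat_lit 85830427171)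 (nat_lit 11) (nat_lit 5) (nat_lit 12) (nat_lit 5) (nat_lit 13) (nat_lit 4) (nat_lit 293) (nat_lit 276) (nat_lit 211))) (XT.nd (nat_lit 78) (nat_lit 152) (nat_lit 0) (XT.lf (nat_lit 0) (nat_lit 120991755705) (nat_lit 152) (nat_lit 33548531537) (nat_lit 0) (nat_lit 25088243462) (nat_lit 11) (nat_lit 5) (nat_lit 13) (nat_lit 4) (nat_lit 11) (nat_lit 4) (nat_lit 294) (nat_lit 276) (nat_lit 210)) (XT.nd (nat_lit 78) (nat_lit 76) (nat_lit 0) (XT.lf (nat_lit 0) (nat_lit 56045365805) (nat_lit 76) (nat_lit 119385332534) (nat_lit 76) (nat_lit 23480586580) (nat_lit 10) (nat_lit 4) (nat_lit 11) (nat_lit 5) (nat_lit 11) (nat_lit 4) (nat_lit 295) (nat_lit 276) (nat_lit 209)) (XT.lf (nat_lit 0) (nat_lit 17275969767) (nat_lit 152) (nat_lit 58762483745) (nat_lit 76) (nat_lit 144667347598) (nat_lit 9) (nat_lit 5) (nat_lit 11) (nat_lit 5) (nat_lit 10) (nat_lit 4) (nat_lit 296) (nat_lit 276) (nat_lit 208)))))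 (XT.nd (nat_lit 156) (nat_lit 76) (nat_lit 0) (XT.nd (nat_lit 78) (nat_lit 0) (nat_lit 0) (XT.lf (nat_lit 0) (nat_lit 40436071853) (nat_lit 76) (nat_lit 22979194872) (nat_lit 152) (nat_lit 181935527324) (nat_lit 8) (nat_lit 5) (nat_lit 9) (nat_lit 5) (nat_lit 10) (nat_lit 4) (nat_lit 297) (nat_lit 276) (nat_lit 207)) (XT.lf (nat_lit 0) (nat_lit 121267389435) (nat_lit 152) (nat_lit 113836849016) (nat_lit 0) (nat_lit 37869508746) (nat_lit 8) (nat_lit 5) (nat_lit 10) (nat_lit 4) (nat_lit 8) (nat_lit 4) (nat_lit 298) (nat_lit 276) (nat_lit 206))) (XT.nd (nat_lit 78) (nat_lit 76) (nat_lit 0) (XT.lf (nat_lit 0) (nat_lit 188890598587) (nat_lit 152) (nat_lit 10193450822) (nat_lit 0) (nat_lit 105492104525) (nat_lit 8) (nat_lit 5) (nat_lit 10) (nat_lit 4) (nat_lit 8) (nat_lit 4) (nat_lit 299) (nat_lit 276) (nat_lit 205)) (XT.nd (nat_lit 78) (nat_lit 0) (nat_lit 0) (XT.lf (nat_lit 0) (nat_lit 119646561753)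 (nat_lit 76) (nat_lit 151964184735) (nat_lit 76) (nat_lit 68565157306) (nat_lit 7) (nat_lit 4) (nat_lit 8) (nat_lit 5) (nat_lit 8) (nat_lit 4) (nat_lit 300) (nat_lit 276) (nat_lit 204)) (XT.lf (nat_lit 0) (nat_lit 270106596881) (nat_lit 76) (nat_lit 97164353048) (nat_lit 76) (nat_lit 13764861821) (nat_lit 7) (nat_lit 4) (nat_lit 8) (nat_lit 5) (nat_lit 8) (nat_lit 4) (nat_lit 301) (nat_lit 276) (nat_lit 203)))))) (XT.nd (nat_lit 390) (nat_lit 152) (nat_lit 0) (XT.nd (nat_lit 156) (nat_lit 76) (nat_lit 0) (XT.nd (nat_lit 78) (nat_lit 0) (nat_lit 0) (XT.lf (nat_lit 0) (nat_lit 14347204578) (nat_lit 76) (nat_lit 31116562448) (nat_lit 152) (nat_lit 382166001856) (nat_lit 5) (nat_lit 5) (nat_lit 6) (nat_lit 5) (nat_lit 7) (nat_lit 4) (nat_lit 302) (nat_lit 276) (nat_lit 202)) (XT.lf (nat_lit 0) (nat_lit 120098063253) (nat_lit 152) (nat_lit 312250730510) (nat_lit 0) (nat_lit 47576110882) (nat_lit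 5) (nat_lit 5) (nat_lit 7) (nat_lit 4) (nat_lit 5) (nat_lit 4) (nat_lit 303) (nat_lit 276) (nat_lit 201))) (XT.nd (nat_lit 78) (nat_lit 76) (nat_lit 0) (XT.lf (nat_lit 0) (nat_lit 207408614741) (nat_lit 152) (nat_lit 197547132570) (nat_lit 0) (nat_lit 134886397192) (nat_lit 5) (nat_lit 5) (nat_lit 7) (nat_lit 4) (nat_lit 5) (nat_lit 4) (nat_lit 304) (nat_lit 276) (nat_lit 200)) (XT.nd (nat_lit 78) (nat_lit 76) (nat_lit 0) (XT.lf (nat_lit 0) (nat_lit 307815200916) (nat_lit 152) (nat_lit 65639099162) (nat_lit 0) (nat_lit 235292752778) (nat_lit 5) (nat_lit 5) (nat_lit 7) (nat_lit 4) (nat_lit 5) (nat_lit 4) (nat_lit 305) (nat_lit 276) (nat_lit 199)) (XT.lf (nat_lit 0) (nat_lit 94464019289) (nat_lit 76) (nat_lit 332729832769) (nat_lit 76) (nat_lit 260207184118) (nat_lit 4) (nat_lit 4) (nat_lit 5) (nat_lit 5) (nat_lit 5) (nat_lit 4) (nat_lit 306) (nat_lit 276) (nat_lit 198))))) (XT.nd (nat_lit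 156) (nat_lit 152) (nat_lit 0) (XT.nd (nat_lit 78) (nat_lit 0) (nat_lit 0) (XT.lf (nat_lit 0) (nat_lit 285958628628) (nat_lit 76) (nat_lit 281951354626) (nat_lit 76) (nat_lit 209428531617) (nat_lit 4) (nat_lit 4) (nat_lit 5) (nat_lit 5) (nat_lit 5) (nat_lit 4) (nat_lit 307) (nat_lit 276) (nat_lit 197)) (XT.lf (nat_lit 0) (nat_lit 506176632369) (nat_lit 76) (nat_lit 223556508415) (nat_lit 76) (nat_lit 151033533790) (nat_lit 4) (nat_lit 4) (nat_lit 5) (nat_lit 5) (nat_lit 5) (nat_lit 4) (nat_lit 308) (nat_lit 276) (nat_lit 196))) (XT.nd (nat_lit 78) (nat_lit 152) (nat_lit 0) (XT.lf (nat_lit 0) (nat_lit 759426643630) (nat_lit 76) (nat_lit 156402786276) (nat_lit 76) (nat_lit 83879679811) (nat_lit 4) (nat_lit 4) (nat_lit 5) (nat_lit 5) (nat_lit 5) (nat_lit 4) (nat_lit 309) (nat_lit 276) (nat_lit 195)) (XT.nd (nat_lit 78) (nat_lit 152) (nat_lit 0) (XT.lf (nat_lit 0) (nat_lit 1050663553934)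 (nat_lit 76) (nat_lit 79176311037) (nat_lit 76) (nat_lit 6653089928) (nat_lit 4) (nat_lit 4) (nat_lit 5) (nat_lit 5) (nat_lit 5) (nat_lit 4) (nat_lit 310) (nat_lit 276) (nat_lit 194)) (XT.lf (nat_lit 0) (nat_lit 79612910538) (nat_lit 152) (nat_lit 1196406570677) (nat_lit 0) (nat_lit 16549153321) (nat_lit 2) (nat_lit 5) (nat_lit 4) (nat_lit 4) (nat_lit 2) (nat_lit 4) (nat_lit 311) (nat_lit 276) (nat_lit 193))))))) (XT.nd (nat_lit 780) (nat_lit 76) (nat_lit 0) (XT.nd (nat_lit 390) (nat_lit 0) (nat_lit 0) (XT.nd (nat_lit 156) (nat_lit 0) (nat_lit 0) (XT.nd (nat_lit 78) (nat_lit 0) (nat_lit 0) (XT.lf (nat_lit 0) (nat_lit 186607874819) (nat_lit 152) (nat_lit 1160585695096) (nat_lit 0) (nat_lit 123544042222) (nat_lit 2) (nat_lit 5) (nat_lit 4) (nat_lit 4) (nat_lit 2) (nat_lit 4) (nat_lit 312) (nat_lit 276) (nat_lit 192)) (XT.lf (nat_lit 0) (nat_lit 309651850195) (nat_lit 152) (nat_lit 1119392169252)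 (nat_lit 0) (nat_lit 246587952050) (nat_lit 2) (nat_lit 5) (nat_lit 4) (nat_lit 4) (nat_lit 2) (nat_lit 4) (nat_lit 313) (nat_lit 276) (nat_lit 191))) (XT.nd (nat_lit 78) (nat_lit 0) (nat_lit 0) (XT.lf (nat_lit 0) (nat_lit 451152218793) (nat_lit 152) (nat_lit 1072020032859) (nat_lit 0) (nat_lit 388088263650) (nat_lit 2) (nat_lit 5) (nat_lit 4) (nat_lit 4) (nat_lit 2) (nat_lit 4) (nat_lit 314) (nat_lit 276) (nat_lit 190)) (XT.nd (nat_lit 78) (nat_lit 0) (nat_lit 0) (XT.lf (nat_lit 0) (nat_lit 613877466085) (nat_lit 152) (nat_lit 1017542439769) (nat_lit 0) (nat_lit 550813461379) (nat_lit 2) (nat_lit 5) (nat_lit 4) (nat_lit 4) (nat_lit 2) (nat_lit 4) (nat_lit 315) (nat_lit 276) (nat_lit 189)) (XT.lf (nat_lit 0) (nat_lit 801011346910) (nat_lit 152) (nat_lit 954893524030) (nat_lit 0) (nat_lit 737947299105) (nat_lit 2) (nat_lit 5) (nat_lit 4) (nat_lit 4) (nat_lit 2) (nat_lit 4) (nat_lit 316)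 (nat_lit 276) (nat_lit 188))))) (XT.nd (nat_lit 156) (nat_lit 0) (nat_lit 0) (XT.nd (nat_lit 78) (nat_lit 0) (nat_lit 0) (XT.lf (nat_lit 0) (nat_lit 1016215176327) (nat_lit 152) (nat_lit 882847545987) (nat_lit 0) (nat_lit 953151091045) (nat_lit 2) (nat_lit 5) (nat_lit 4) (nat_lit 4) (nat_lit 2) (nat_lit 4) (nat_lit 317) (nat_lit 276) (nat_lit 187)) (XT.lf (nat_lit 0) (nat_lit 1263699464043) (nat_lit 152) (nat_lit 799994910417) (nat_lit 0) (nat_lit 1200635346171) (nat_lit 2) (nat_lit 5) (nat_lit 4) (nat_lit 4) (nat_lit 2) (nat_lit 4) (nat_lit 318) (nat_lit 276) (nat_lit 186))) (XT.nd (nat_lit 78) (nat_lit 0) (nat_lit 0) (XT.lf (nat_lit 0) (nat_lit 1548306293947) (nat_lit 152) (nat_lit 704714587494) (nat_lit 0) (nat_lit 1485242147737) (nat_lit 2) (nat_lit 5) (nat_lit 4) (nat_lit 4) (nat_lit 2) (nat_lit 4) (nat_lit 319) (nat_lit 276) (nat_lit 185)) (XT.nd (nat_lit 78) (nat_lit 0) (nat_lit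 0) (XT.lf (nat_lit 0) (nat_lit 1875604060537) (nat_lit 152) (nat_lit 595142396987) (nat_lit 0) (nat_lit 1812539889686) (nat_lit 2) (nat_lit 5) (nat_lit 4) (nat_lit 4) (nat_lit 2) (nat_lit 4) (nat_lit 320) (nat_lit 276) (nat_lit 184)) (XT.lf (nat_lit 0) (nat_lit 2251996415769) (nat_lit 152) (nat_lit 469134535168) (nat_lit 0) (nat_lit 2188932223490) (nat_lit 2) (nat_lit 5) (nat_lit 4) (nat_lit 4) (nat_lit 2) (nat_lit 4) (nat_lit 321) (nat_lit 276) (nat_lit 183)))))) (XT.nd (nat_lit 390) (nat_lit 0) (nat_lit 0) (XT.nd (nat_lit 156) (nat_lit 76) (nat_lit 0) (XT.nd (nat_lit 78) (nat_lit 0) (nat_lit 0) (XT.lf (nat_lit 0) (nat_lit 2684847557897) (nat_lit 152) (nat_lit 324225630827) (nat_lit 0) (nat_lit 2621783346985) (nat_lit 2) (nat_lit 5) (nat_lit 4) (nat_lit 4) (nat_lit 2) (nat_lit 4) (nat_lit 322) (nat_lit 276) (nat_lit 182)) (XT.lf (nat_lit 0) (nat_lit 3182626313615) (nat_lit 152) (nat_lit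 157580509751) (nat_lit 0) (nat_lit 3119562086501) (nat_lit 2) (nat_lit 5) (nat_lit 4) (nat_lit 4) (nat_lit 2) (nat_lit 4) (nat_lit 323) (nat_lit 276) (nat_lit 181))) (XT.nd (nat_lit 78) (nat_lit 0) (nat_lit 0) (XT.lf (nat_lit 0) (nat_lit 37389991700) (nat_lit 76) (nat_lit 3719230080613) (nat_lit 76) (nat_lit 3656165839409) (nat_lit 1) (nat_lit 4) (nat_lit 2) (nat_lit 5) (nat_lit 2) (nat_lit 4) (nat_lit 324) (nat_lit 276) (nat_lit 180)) (XT.nd (nat_lit 78) (nat_lit 0) (nat_lit 0) (XT.lf (nat_lit 0) (nat_lit 279315870136) (nat_lit 76) (nat_lit 4145634139950) (nat_lit 76) (nat_lit 4082569886495) (nat_lit 1) (nat_lit 4) (nat_lit 2) (nat_lit 5) (nat_lit 2) (nat_lit 4) (nat_lit 325) (nat_lit 276) (nat_lit 179)) (XT.lf (nat_lit 0) (nat_lit 557530544509) (nat_lit 76) (nat_lit 4635998852505) (nat_lit 76) (nat_lit 4572934588397) (nat_lit 1) (nat_lit 4) (nat_lit 2) (nat_lit 5) (nat_lit 2) (nat_lit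 4) (nat_lit 326) (nat_lit 276) (nat_lit 178))))) (XT.nd (nat_lit 234) (nat_lit 0) (nat_lit 0) (XT.nd (nat_lit 78) (nat_lit 0) (nat_lit 0) (XT.lf (nat_lit 0) (nat_lit 877477345403) (nat_lit 76) (nat_lit 5199918310481) (nat_lit 76) (nat_lit 5136854037109) (nat_lit 1) (nat_lit 4) (nat_lit 2) (nat_lit 5) (nat_lit 2) (nat_lit 4) (nat_lit 327) (nat_lit 276) (nat_lit 177)) (XT.nd (nat_lit 78) (nat_lit 0) (nat_lit 0) (XT.lf (nat_lit 0) (nat_lit 1245416101532) (nat_lit 76) (nat_lit 5848425720663) (nat_lit 76) (nat_lit 5785361439236) (nat_lit 1) (nat_lit 4) (nat_lit 2) (nat_lit 5) (nat_lit 2) (nat_lit 4) (nat_lit 328) (nat_lit 276) (nat_lit 176)) (XT.lf (nat_lit 0) (nat_lit 1668545614647) (nat_lit 76) (nat_lit 6594209271512) (nat_lit 76) (nat_lit 6531144983080) (nat_lit 1) (nat_lit 4) (nat_lit 2) (nat_lit 5) (nat_lit 2) (nat_lit 4) (nat_lit 329) (nat_lit 276) (nat_lit 175)))) (XT.nd (nat_lit 78)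 (nat_lit 0) (nat_lit 0) (XT.lf (nat_lit 0) (nat_lit 2155144505655) (nat_lit 76) (nat_lit 7451860380326) (nat_lit 76) (nat_lit 7388796085803) (nat_lit 1) (nat_lit 4) (nat_lit 2) (nat_lit 5) (nat_lit 2) (nat_lit 4) (nat_lit 330) (nat_lit 276) (nat_lit 174)) (XT.nd (nat_lit 78) (nat_lit 0) (nat_lit 0) (XT.lf (nat_lit 0) (nat_lit 2714733187642) (nat_lit 76) (nat_lit 8438159177497) (nat_lit 76) (nat_lit 8375094877677) (nat_lit 1) (nat_lit 4) (nat_lit 2) (nat_lit 5) (nat_lit 2) (nat_lit 4) (nat_lit 331) (nat_lit 276) (nat_lit 173)) (XT.lf (nat_lit 0) (nat_lit 3358260134821) (nat_lit 76) (nat_lit 9572402813403) (nat_lit 76) (nat_lit 9509338508977) (nat_lit 1) (nat_lit 4) (nat_lit 2) (nat_lit 5) (nat_lit 2) (nat_lit 4) (nat_lit 332) (nat_lit 276) (nat_lit 172))))))))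
noncomputable def xc80 : XT := (XT.nd (nat_lit 36894) (nat_lit 0) (nat_lit 304) (XT.nd (nat_lit 1794) (nat_lit 0) (nat_lit 0) (XT.nd (nat_lit 390) (nat_lit 0) (nat_lit 0) (XT.nd (nat_lit 156) (nat_lit 0) (nat_lit 0) (XT.nd (nat_lit 78) (nat_lit 0) (nat_lit 0) (XT.lf (nat_lit 0) (nat_lit 4098316091810) (nat_lit 76) (nat_lit 10876783011355) (nat_lit 76) (nat_lit 10813718702924) (nat_lit 1) (nat_lit 4) (nat_lit 2) (nat_lit 5) (nat_lit 2) (nat_lit 4) (nat_lit 333) (nat_lit 276) (nat_lit 171)) (XT.lf (nat_lit 0) (nat_lit 4949380414289) (nat_lit 76) (nat_lit 12376820253487) (nat_lit 76) (nat_lit 12313755941574) (nat_lit 1) (nat_lit 4) (nat_lit 2) (nat_lit 5) (nat_lit 2) (nat_lit 4) (nat_lit 334) (nat_lit 276) (nat_lit 170))) (XT.nd (nat_lit 78) (nat_lit 0) (nat_lit 0) (XT.lf (nat_lit 0) (nat_lit 5928104360743) (nat_lit 76) (nat_lit 14101863094537) (nat_lit 76) (nat_lit 14038798779596) (nat_lit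 1) (nat_lit 4) (nat_lit 2) (nat_lit 5) (nat_lit 2) (nat_lit 4) (nat_lit 335) (nat_lit 276) (nat_lit 169)) (XT.nd (nat_lit 78) (nat_lit 0) (nat_lit 0) (XT.lf (nat_lit 0) (nat_lit 7053636877949) (nat_lit 76) (nat_lit 16085662372699) (nat_lit 76) (nat_lit 16022598055124) (nat_lit 1) (nat_lit 4) (nat_lit 2) (nat_lit 5) (nat_lit 2) (nat_lit 4) (nat_lit 336) (nat_lit 276) (nat_lit 168)) (XT.lf (nat_lit 0) (nat_lit 8347999254287) (nat_lit 76) (nat_lit 18367031552111) (nat_lit 76) (nat_lit 18303967232247) (nat_lit 1) (nat_lit 4) (nat_lit 2) (nat_lit 5) (nat_lit 2) (nat_lit 4) (nat_lit 337) (nat_lit 276) (nat_lit 167))))) (XT.nd (nat_lit 156) (nat_lit 0) (nat_lit 0) (XT.nd (nat_lit 78) (nat_lit 0) (nat_lit 0) (XT.lf (nat_lit 0) (nat_lit 9836515971034) (nat_lit 76) (nat_lit 20990606116719) (nat_lit 76) (nat_lit 20927541794863) (nat_lit 1) (nat_lit 4) (nat_lit 2) (nat_lit 5) (nat_lit 2) (nat_lit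 4) (nat_lit 338) (nat_lit 276) (nat_lit 166)) (XT.lf (nat_lit 0) (nat_lit 11548310181344) (nat_lit 76) (nat_lit 24007716873220) (nat_lit 76) (nat_lit 23944652549632) (nat_lit 1) (nat_lit 4) (nat_lit 2) (nat_lit 5) (nat_lit 2) (nat_lit 4) (nat_lit 339) (nat_lit 276) (nat_lit 165))) (XT.nd (nat_lit 1092) (nat_lit 0) (nat_lit 0) (XT.lf (nat_lit 0) (nat_lit 13516873511069) (nat_lit 76) (nat_lit 27477394249459) (nat_lit 76) (nat_lit 27414329924366) (nat_lit 1) (nat_lit 4) (nat_lit 2) (nat_lit 5) (nat_lit 2) (nat_lit 4) (nat_lit 340) (nat_lit 276) (nat_lit 164)) (XT.nd (nat_lit 78) (nat_lit 0) (nat_lit 0) (XT.lf (nat_lit 0) (nat_lit 105213360679043) (nat_lit 76) (nat_lit 189096392783567) (nat_lit 76) (nat_lit 189033328449855) (nat_lit 1) (nat_lit 4) (nat_lit 2) (nat_lit 5) (nat_lit 2) (nat_lit 4) (nat_lit 354) (nat_lit 276) (nat_lit 150)) (XT.lf (nat_lit 0) (nat_lit 121231681512494) (nat_lit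 76) (nat_lit 217329371582982) (nat_lit 76) (nat_lit 217266307249085) (nat_lit 1) (nat_lit 4) (nat_lit 2) (nat_lit 5) (nat_lit 2) (nat_lit 4) (nat_lit 355) (nat_lit 276) (nat_lit 149)))))) (XT.nd (nat_lit 34710) (nat_lit 0) (nat_lit 1368) (XT.nd (nat_lit 34476) (nat_lit 0) (nat_lit 1672) (XT.nd (nat_lit 78) (nat_lit 0) (nat_lit 0) (XT.lf (nat_lit 0) (nat_lit 139652750469667) (nat_lit 76) (nat_lit 249797297202979) (nat_lit 76) (nat_lit 249734232868922) (nat_lit 1) (nat_lit 4) (nat_lit 2) (nat_lit 5) (nat_lit 2) (nat_lit 4) (nat_lit 356) (nat_lit 276) (nat_lit 148)) (XT.lf (nat_lit 0) (nat_lit 160836979769288) (nat_lit 76) (nat_lit 287135411666558) (nat_lit 76) (nat_lit 287072347332360) (nat_lit 1) (nat_lit 4) (nat_lit 2) (nat_lit 5) (nat_lit 2) (nat_lit 4) (nat_lit 357) (nat_lit 276) (nat_lit 147))) (XT.nd (nat_lit 78) (nat_lit 0) (nat_lit 0) (XT.lf (nat_lit 0) (nat_lit 3935668370) (nat_lit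 380) (nat_lit 8981384812) (nat_lit 380) (nat_lit 8981384812) (nat_lit 23) (nat_lit 3) (nat_lit 28) (nat_lit 3) (nat_lit 28) (nat_lit 5) (nat_lit 277) (nat_lit 277) (nat_lit 226)) (XT.nd (nat_lit 78) (nat_lit 0) (nat_lit 76) (XT.lf (nat_lit 76) (nat_lit 2978086277) (nat_lit 0) (nat_lit 5638022889) (nat_lit 380) (nat_lit 38442269005) (nat_lit 24) (nat_lit 5) (nat_lit 23) (nat_lit 3) (nat_lit 28) (nat_lit 5) (nat_lit 278) (nat_lit 277) (nat_lit 225)) (XT.lf (nat_lit 0) (nat_lit 11178939179) (nat_lit 304) (nat_lit 22366858847) (nat_lit 380) (nat_lit 17007374232) (nat_lit 24) (nat_lit 5) (nat_lit 28) (nat_lit 5) (nat_lit 29) (nat_lit 5) (nat_lit 279) (nat_lit 277) (nat_lit 224))))) (XT.nd (nat_lit 156) (nat_lit 380) (nat_lit 0) (XT.nd (nat_lit 78) (nat_lit 0) (nat_lit 76) (XT.lf (nat_lit 76) (nat_lit 2559052741) (nat_lit 0) (nat_lit 11936719225) (nat_lit 380) (nat_lit 40020992265) (nat_lit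 25) (nat_lit 5) (nat_lit 24) (nat_lit 5) (nat_lit 29) (nat_lit 5) (nat_lit 280) (nat_lit 277) (nat_lit 223)) (XT.lf (nat_lit 0) (nat_lit 20065356111) (nat_lit 304) (nat_lit 25756748338) (nat_lit 76) (nat_lit 12989520076) (nat_lit 25) (nat_lit 5) (nat_lit 29) (nat_lit 5) (nat_lit 26) (nat_lit 5) (nat_lit 281) (nat_lit 277) (nat_lit 222))) (XT.nd (nat_lit 78) (nat_lit 152) (nat_lit 0) (XT.lf (nat_lit 0) (nat_lit 4173682802) (nat_lit 304) (nat_lit 23034146607) (nat_lit 380) (nat_lit 36432278453) (nat_lit 21) (nat_lit 5) (nat_lit 25) (nat_lit 5) (nat_lit 26) (nat_lit 5) (nat_lit 282) (nat_lit 277) (nat_lit 221)) (XT.nd (nat_lit 78) (nat_lit 152) (nat_lit 0) (XT.lf (nat_lit 0) (nat_lit 36960054990) (nat_lit 380) (nat_lit 27702155851) (nat_lit 76) (nat_lit 4299905866) (nat_lit 21) (nat_lit 5) (nat_lit 26) (nat_lit 5) (nat_lit 22) (nat_lit 5) (nat_lit 283) (nat_lit 277) (nat_lit 220)) (XT.lf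 (nat_lit 0) (nat_lit 8481325139) (nat_lit 152) (nat_lit 41138844138) (nat_lit 228) (nat_lit 25245508240) (nat_lit 19) (nat_lit 5) (nat_lit 21) (nat_lit 5) (nat_lit 22) (nat_lit 5) (nat_lit 284) (nat_lit 277) (nat_lit 219))))))) (XT.nd (nat_lit 780) (nat_lit 456) (nat_lit 0) (XT.nd (nat_lit 390) (nat_lit 304) (nat_lit 0) (XT.nd (nat_lit 156) (nat_lit 228) (nat_lit 0) (XT.nd (nat_lit 78) (nat_lit 76) (nat_lit 0) (XT.lf (nat_lit 0) (nat_lit 53202207179) (nat_lit 152) (nat_lit 12422406091) (nat_lit 228) (nat_lit 15813370007) (nat_lit 19) (nat_lit 5) (nat_lit 21) (nat_lit 5) (nat_lit 22) (nat_lit 5) (nat_lit 285) (nat_lit 277) (nat_lit 218)) (XT.lf (nat_lit 0) (nat_lit 16222947478) (nat_lit 76) (nat_lit 69329177161) (nat_lit 152) (nat_lit 3215656853) (nat_lit 18) (nat_lit 5) (nat_lit 19) (nat_lit 5) (nat_lit 20) (nat_lit 4) (nat_lit 286) (nat_lit 277) (nat_lit 217))) (XT.nd (nat_lit 78) (nat_lit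 152) (nat_lit 0) (XT.lf (nat_lit 0) (nat_lit 12403665809) (nat_lit 152) (nat_lit 27583860376) (nat_lit 76) (nat_lit 56819201925) (nat_lit 17) (nat_lit 5) (nat_lit 19) (nat_lit 5) (nat_lit 18) (nat_lit 5) (nat_lit 287) (nat_lit 277) (nat_lit 216)) (XT.nd (nat_lit 78) (nat_lit 0) (nat_lit 0) (XT.lf (nat_lit 0) (nat_lit 26307192968) (nat_lit 152) (nat_lit 4816753492) (nat_lit 228) (nat_lit 74741513451) (nat_lit 15) (nat_lit 5) (nat_lit 17) (nat_lit 5) (nat_lit 18) (nat_lit 5) (nat_lit 288) (nat_lit 277) (nat_lit 215)) (XT.lf (nat_lit 0) (nat_lit 55636226742) (nat_lit 228) (nat_lit 26231873839) (nat_lit 76) (nat_lit 33967311108) (nat_lit 15) (nat_lit 5) (nat_lit 18) (nat_lit 5) (nat_lit 16) (nat_lit 4) (nat_lit 289) (nat_lit 277) (nat_lit 214))))) (XT.nd (nat_lit 156) (nat_lit 228) (nat_lit 0) (XT.nd (nat_lit 78) (nat_lit 0) (nat_lit 0) (XT.lf (nat_lit 0) (nat_lit 38268323607) (nat_lit 76)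 (nat_lit 47369322248) (nat_lit 152) (nat_lit 41391369193) (nat_lit 14) (nat_lit 5) (nat_lit 15) (nat_lit 5) (nat_lit 16) (nat_lit 4) (nat_lit 290) (nat_lit 277) (nat_lit 213)) (XT.lf (nat_lit 0) (nat_lit 115389081928) (nat_lit 76) (nat_lit 6119838231) (nat_lit 152) (nat_lit 18187295303) (nat_lit 14) (nat_lit 5) (nat_lit 15) (nat_lit 5) (nat_lit 16) (nat_lit 4) (nat_lit 291) (nat_lit 277) (nat_lit 212))) (XT.nd (nat_lit 78) (nat_lit 76) (nat_lit 0) (XT.lf (nat_lit 0) (nat_lit 11822277569) (nat_lit 152) (nat_lit 101414498168) (nat_lit 76) (nat_lit 40361735934) (nat_lit 12) (nat_lit 5) (nat_lit 14) (nat_lit 5) (nat_lit 13) (nat_lit 4) (nat_lit 292) (nat_lit 277) (nat_lit 211)) (XT.nd (nat_lit 78) (nat_lit 76) (nat_lit 0) (XT.lf (nat_lit 0) (nat_lit 46092401772) (nat_lit 152) (nat_lit 27735362713) (nat_lit 76) (nat_lit 95385308277) (nat_lit 12) (nat_lit 5) (nat_lit 14) (nat_lit 5) (nat_lit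 13) (nat_lit 4) (nat_lit 293) (nat_lit 277) (nat_lit 210)) (XT.lf (nat_lit 0) (nat_lit 62563346485) (nat_lit 76) (nat_lit 25529114806) (nat_lit 152) (nat_lit 98688945882) (nat_lit 11) (nat_lit 5) (nat_lit 12) (nat_lit 5) (nat_lit 13) (nat_lit 4) (nat_lit 294) (nat_lit 277) (nat_lit 209)))))) (XT.nd (nat_lit 390) (nat_lit 228) (nat_lit 0) (XT.nd (nat_lit 156) (nat_lit 152) (nat_lit 0) (XT.nd (nat_lit 78) (nat_lit 76) (nat_lit 0) (XT.lf (nat_lit 0) (nat_lit 139153037872) (nat_lit 152) (nat_lit 38557605572) (nat_lit 0) (nat_lit 28860273522) (nat_lit 11) (nat_lit 5) (nat_lit 13) (nat_lit 4) (nat_lit 11) (nat_lit 4) (nat_lit 295) (nat_lit 277) (nat_lit 208)) (XT.lf (nat_lit 0) (nat_lit 64474321566) (nat_lit 76) (nat_lit 137282784667) (nat_lit 76) (nat_lit 26989087455) (nat_lit 10) (nat_lit 4) (nat_lit 11) (nat_lit 5) (nat_lit 11) (nat_lit 4) (nat_lit 296) (nat_lit 277) (nat_lit 207))) (XT.nd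 (nat_lit 78) (nat_lit 76) (nat_lit 0) (XT.lf (nat_lit 0) (nat_lit 19878128270) (nat_lit 152) (nat_lit 67556532615) (nat_lit 76) (nat_lit 166375385731) (nat_lit 9) (nat_lit 5) (nat_lit 11) (nat_lit 5) (nat_lit 10) (nat_lit 4) (nat_lit 297) (nat_lit 277) (nat_lit 206)) (XT.nd (nat_lit 78) (nat_lit 0) (nat_lit 0) (XT.lf (nat_lit 0) (nat_lit 46520882519) (nat_lit 76) (nat_lit 26416836687) (nat_lit 152) (nat_lit 209214160706) (nat_lit 8) (nat_lit 5) (nat_lit 9) (nat_lit 5) (nat_lit 10) (nat_lit 4) (nat_lit 298) (nat_lit 277) (nat_lit 205)) (XT.lf (nat_lit 0) (nat_lit 139466667392) (nat_lit 152) (nat_lit 130894506254) (nat_lit 0) (nat_lit 43557252482) (nat_lit 8) (nat_lit 5) (nat_lit 10) (nat_lit 4) (nat_lit 8) (nat_lit 4) (nat_lit 299) (nat_lit 277) (nat_lit 204))))) (XT.nd (nat_lit 156) (nat_lit 152) (nat_lit 0) (XT.nd (nat_lit 78) (nat_lit 76) (nat_lit 0) (XT.lf (nat_lit 0) (nat_lit 217232161890)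 (nat_lit 152) (nat_lit 11706929216) (nat_lit 0) (nat_lit 121322283182) (nat_lit 8) (nat_lit 5) (nat_lit 10) (nat_lit 4) (nat_lit 8) (nat_lit 4) (nat_lit 300) (nat_lit 277) (nat_lit 203)) (XT.lf (nat_lit 0) (nat_lit 137608378917) (nat_lit 76) (nat_lit 174751527234) (nat_lit 76) (nat_lit 78841245223) (nat_lit 7) (nat_lit 4) (nat_lit 8) (nat_lit 5) (nat_lit 8) (nat_lit 4) (nat_lit 301) (nat_lit 277) (nat_lit 202))) (XT.nd (nat_lit 78) (nat_lit 152) (nat_lit 0) (XT.lf (nat_lit 0) (nat_lit 310635484588) (nat_lit 76) (nat_lit 111732671039) (nat_lit 76) (nat_lit 15822038331) (nat_lit 7) (nat_lit 4) (nat_lit 8) (nat_lit 5) (nat_lit 8) (nat_lit 4) (nat_lit 302) (nat_lit 277) (nat_lit 201)) (XT.nd (nat_lit 78) (nat_lit 0) (nat_lit 0) (XT.lf (nat_lit 0) (nat_lit 16512243207) (nat_lit 76) (nat_lit 35777608359) (nat_lit 152) (nat_lit 439483400889) (nat_lit 5) (nat_lit 5) (nat_lit 6) (nat_lit 5) (nat_lit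 7) (nat_lit 4) (nat_lit 303) (nat_lit 277) (nat_lit 200)) (XT.lf (nat_lit 0) (nat_lit 138118673688) (nat_lit 152) (nat_lit 359076450435) (nat_lit 0) (nat_lit 54717627740) (nat_lit 5) (nat_lit 5) (nat_lit 7) (nat_lit 4) (nat_lit 5) (nat_lit 4) (nat_lit 304) (nat_lit 277) (nat_lit 199))))))))
noncomputable def xc81 : XT := (XT.nd (nat_lit 1560) (nat_lit 76) (nat_lit 0) (XT.nd (nat_lit 780) (nat_lit 0) (nat_lit 0) (XT.nd (nat_lit 390) (nat_lit 152) (nat_lit 0) (XT.nd (nat_lit 156) (nat_lit 76) (nat_lit 0) (XT.nd (nat_lit 78) (nat_lit 0) (nat_lit 0) (XT.lf (nat_lit 0) (nat_lit 238525038211) (nat_lit 152) (nat_lit 227168863629) (nat_lit 0) (nat_lit 155123791750) (nat_lit 5) (nat_lit 5) (nat_lit 7) (nat_lit 4) (nat_lit 5) (nat_lit 4) (nat_lit 305) (nat_lit 277) (nat_lit 198)) (XT.lf (nat_lit 0) (nat_lit 353991943017) (nat_lit 152) (nat_lit 75475973752) (nat_lit 0) (nat_lit 270590522198) (nat_lit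 5) (nat_lit 5) (nat_lit 7) (nat_lit 4) (nat_lit 5) (nat_lit 4) (nat_lit 306) (nat_lit 277) (nat_lit 197))) (XT.nd (nat_lit 78) (nat_lit 0) (nat_lit 0) (XT.lf (nat_lit 0) (nat_lit 108642203817) (nat_lit 76) (nat_lit 382634961365) (nat_lit 76) (nat_lit 299233388930) (nat_lit 4) (nat_lit 4) (nat_lit 5) (nat_lit 5) (nat_lit 5) (nat_lit 4) (nat_lit 307) (nat_lit 277) (nat_lit 196)) (XT.nd (nat_lit 78) (nat_lit 0) (nat_lit 0) (XT.lf (nat_lit 0) (nat_lit 328859885214) (nat_lit 76) (nat_lit 324240278412) (nat_lit 76) (nat_lit 240838574136) (nat_lit 4) (nat_lit 4) (nat_lit 5) (nat_lit 5) (nat_lit 5) (nat_lit 4) (nat_lit 308) (nat_lit 277) (nat_lit 195)) (XT.lf (nat_lit 0) (nat_lit 582109616174) (nat_lit 76) (nat_lit 257086698236) (nat_lit 76) (nat_lit 173684879316) (nat_lit 4) (nat_lit 4) (nat_lit 5) (nat_lit 5) (nat_lit 5) (nat_lit 4) (nat_lit 309) (nat_lit 277) (nat_lit 194))))) (XT.nd (nat_lit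 156) (nat_lit 152) (nat_lit 0) (XT.nd (nat_lit 78) (nat_lit 0) (nat_lit 0) (XT.lf (nat_lit 0) (nat_lit 873346282738) (nat_lit 76) (nat_lit 179860346442) (nat_lit 76) (nat_lit 96458427833) (nat_lit 4) (nat_lit 4) (nat_lit 5) (nat_lit 5) (nat_lit 5) (nat_lit 4) (nat_lit 310) (nat_lit 277) (nat_lit 193)) (XT.lf (nat_lit 0) (nat_lit 1208267993601) (nat_lit 76) (nat_lit 91050272670) (nat_lit 76) (nat_lit 7648267374) (nat_lit 4) (nat_lit 4) (nat_lit 5) (nat_lit 5) (nat_lit 5) (nat_lit 4) (nat_lit 311) (nat_lit 277) (nat_lit 192))) (XT.nd (nat_lit 78) (nat_lit 0) (nat_lit 0) (XT.lf (nat_lit 0) (nat_lit 91557361825) (nat_lit 152) (nat_lit 1375862376326) (nat_lit 0) (nat_lit 19033813411) (nat_lit 2) (nat_lit 5) (nat_lit 4) (nat_lit 4) (nat_lit 2) (nat_lit 4) (nat_lit 312) (nat_lit 277) (nat_lit 191)) (XT.nd (nat_lit 78) (nat_lit 0) (nat_lit 0) (XT.lf (nat_lit 0) (nat_lit 214601242744) (nat_lit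 152) (nat_lit 1334669045053) (nat_lit 0) (nat_lit 142077637331) (nat_lit 2) (nat_lit 5) (nat_lit 4) (nat_lit 4) (nat_lit 2) (nat_lit 4) (nat_lit 313) (nat_lit 277) (nat_lit 190)) (XT.lf (nat_lit 0) (nat_lit 356101529204) (nat_lit 152) (nat_lit 1287297077852) (nat_lit 0) (nat_lit 283577874228) (nat_lit 2) (nat_lit 5) (nat_lit 4) (nat_lit 4) (nat_lit 2) (nat_lit 4) (nat_lit 314) (nat_lit 277) (nat_lit 189)))))) (XT.nd (nat_lit 390) (nat_lit 0) (nat_lit 0) (XT.nd (nat_lit 156) (nat_lit 0) (nat_lit 0) (XT.nd (nat_lit 78) (nat_lit 0) (nat_lit 0) (XT.lf (nat_lit 0) (nat_lit 518826705072) (nat_lit 152) (nat_lit 1232819631885) (nat_lit 0) (nat_lit 446303006998) (nat_lit 2) (nat_lit 5) (nat_lit 4) (nat_lit 4) (nat_lit 2) (nat_lit 4) (nat_lit 315) (nat_lit 277) (nat_lit 188)) (XT.lf (nat_lit 0) (nat_lit 705960523790) (nat_lit 152) (nat_lit 1170170844079) (nat_lit 0) (nat_lit 633436788238) (nat_lit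 2) (nat_lit 5) (nat_lit 4) (nat_lit 4) (nat_lit 2) (nat_lit 4) (nat_lit 316) (nat_lit 277) (nat_lit 187))) (XT.nd (nat_lit 78) (nat_lit 0) (nat_lit 0) (XT.lf (nat_lit 0) (nat_lit 921164299200) (nat_lit 152) (nat_lit 1098124977283) (nat_lit 0) (nat_lit 848640531059) (nat_lit 2) (nat_lit 5) (nat_lit 4) (nat_lit 4) (nat_lit 2) (nat_lit 4) (nat_lit 317) (nat_lit 277) (nat_lit 186)) (XT.nd (nat_lit 78) (nat_lit 0) (nat_lit 0) (XT.lf (nat_lit 0) (nat_lit 1168648539953) (nat_lit 152) (nat_lit 1015272438449) (nat_lit 0) (nat_lit 1096124743474) (nat_lit 2) (nat_lit 5) (nat_lit 4) (nat_lit 4) (nat_lit 2) (nat_lit 4) (nat_lit 318) (nat_lit 277) (nat_lit 185)) (XT.lf (nat_lit 0) (nat_lit 1453255329021) (nat_lit 152) (nat_lit 919992199644) (nat_lit 0) (nat_lit 1380731507900) (nat_lit 2) (nat_lit 5) (nat_lit 4) (nat_lit 4) (nat_lit 2) (nat_lit 4) (nat_lit 319) (nat_lit 277) (nat_lit 184))))) (XT.nd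 (nat_lit 156) (nat_lit 0) (nat_lit 0) (XT.nd (nat_lit 78) (nat_lit 0) (nat_lit 0) (XT.lf (nat_lit 0) (nat_lit 1780553060101) (nat_lit 152) (nat_lit 810420082283) (nat_lit 0) (nat_lit 1708029217552) (nat_lit 2) (nat_lit 5) (nat_lit 4) (nat_lit 4) (nat_lit 2) (nat_lit 4) (nat_lit 320) (nat_lit 277) (nat_lit 183)) (XT.lf (nat_lit 0) (nat_lit 2156945384454) (nat_lit 152) (nat_lit 684412284069) (nat_lit 0) (nat_lit 2084421523273) (nat_lit 2) (nat_lit 5) (nat_lit 4) (nat_lit 4) (nat_lit 2) (nat_lit 4) (nat_lit 321) (nat_lit 277) (nat_lit 182))) (XT.nd (nat_lit 78) (nat_lit 0) (nat_lit 0) (XT.lf (nat_lit 0) (nat_lit 2589796499731) (nat_lit 152) (nat_lit 539503435038) (nat_lit 0) (nat_lit 2517272622348) (nat_lit 2) (nat_lit 5) (nat_lit 4) (nat_lit 4) (nat_lit 2) (nat_lit 4) (nat_lit 322) (nat_lit 277) (nat_lit 181)) (XT.nd (nat_lit 78) (nat_lit 0) (nat_lit 0) (XT.lf (nat_lit 0) (nat_lit 3087575232101)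 (nat_lit 152) (nat_lit 372858362056) (nat_lit 0) (nat_lit 3015051340628) (nat_lit 2) (nat_lit 5) (nat_lit 4) (nat_lit 4) (nat_lit 2) (nat_lit 4) (nat_lit 323) (nat_lit 277) (nat_lit 180)) (XT.lf (nat_lit 0) (nat_lit 3660020730674) (nat_lit 152) (nat_lit 181216618043) (nat_lit 0) (nat_lit 3587496826950) (nat_lit 2) (nat_lit 5) (nat_lit 4) (nat_lit 4) (nat_lit 2) (nat_lit 4) (nat_lit 324) (nat_lit 277) (nat_lit 179))))))) (XT.nd (nat_lit 780) (nat_lit 0) (nat_lit 0) (XT.nd (nat_lit 390) (nat_lit 0) (nat_lit 0) (XT.nd (nat_lit 156) (nat_lit 0) (nat_lit 0) (XT.nd (nat_lit 78) (nat_lit 0) (nat_lit 0) (XT.lf (nat_lit 0) (nat_lit 42999414617) (nat_lit 76) (nat_lit 4277114115520) (nat_lit 76) (nat_lit 4204590201142) (nat_lit 1) (nat_lit 4) (nat_lit 2) (nat_lit 5) (nat_lit 2) (nat_lit 4) (nat_lit 325) (nat_lit 277) (nat_lit 178)) (XT.lf (nat_lit 0) (nat_lit 321214054276) (nat_lit 76) (nat_lit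 4767478845999) (nat_lit 76) (nat_lit 4694954922358) (nat_lit 1) (nat_lit 4) (nat_lit 2) (nat_lit 5) (nat_lit 2) (nat_lit 4) (nat_lit 326) (nat_lit 277) (nat_lit 177))) (XT.nd (nat_lit 78) (nat_lit 0) (nat_lit 0) (XT.lf (nat_lit 0) (nat_lit 641160824985) (nat_lit 76) (nat_lit 5331398319561) (nat_lit 76) (nat_lit 5258874387864) (nat_lit 1) (nat_lit 4) (nat_lit 2) (nat_lit 5) (nat_lit 2) (nat_lit 4) (nat_lit 327) (nat_lit 277) (nat_lit 176)) (XT.nd (nat_lit 78) (nat_lit 0) (nat_lit 0) (XT.lf (nat_lit 0) (nat_lit 1009099554866) (nat_lit 76) (nat_lit 5979905743296) (nat_lit 76) (nat_lit 5907381804595) (nat_lit 1) (nat_lit 4) (nat_lit 2) (nat_lit 5) (nat_lit 2) (nat_lit 4) (nat_lit 328) (nat_lit 277) (nat_lit 175)) (XT.lf (nat_lit 0) (nat_lit 1432229045155) (nat_lit 76) (nat_lit 6725689305930) (nat_lit 76) (nat_lit 6653165361138) (nat_lit 1) (nat_lit 4) (nat_lit 2) (nat_lit 5) (nat_lit 2) (nat_lit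 4) (nat_lit 329) (nat_lit 277) (nat_lit 174))))) (XT.nd (nat_lit 156) (nat_lit 0) (nat_lit 0) (XT.nd (nat_lit 78) (nat_lit 0) (nat_lit 0) (XT.lf (nat_lit 0) (nat_lit 1918827916316) (nat_lit 76) (nat_lit 7583340424993) (nat_lit 76) (nat_lit 7510816474904) (nat_lit 1) (nat_lit 4) (nat_lit 2) (nat_lit 5) (nat_lit 2) (nat_lit 4) (nat_lit 330) (nat_lit 277) (nat_lit 173)) (XT.lf (nat_lit 0) (nat_lit 2478416581044) (nat_lit 76) (nat_lit 8569639231075) (nat_lit 76) (nat_lit 8497115276380) (nat_lit 1) (nat_lit 4) (nat_lit 2) (nat_lit 5) (nat_lit 2) (nat_lit 4) (nat_lit 331) (nat_lit 277) (nat_lit 172))) (XT.nd (nat_lit 78) (nat_lit 0) (nat_lit 0) (XT.lf (nat_lit 0) (nat_lit 3121943513215) (nat_lit 76) (nat_lit 9703882874730) (nat_lit 76) (nat_lit 9631358916030) (nat_lit 1) (nat_lit 4) (nat_lit 2) (nat_lit 5) (nat_lit 2) (nat_lit 4) (nat_lit 332) (nat_lit 277) (nat_lit 171)) (XT.nd (nat_lit 78)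 (nat_lit 0) (nat_lit 0) (XT.lf (nat_lit 0) (nat_lit 3861999457154) (nat_lit 76) (nat_lit 11008263079421) (nat_lit 76) (nat_lit 10935739117238) (nat_lit 1) (nat_lit 4) (nat_lit 2) (nat_lit 5) (nat_lit 2) (nat_lit 4) (nat_lit 333) (nat_lit 277) (nat_lit 170)) (XT.lf (nat_lit 0) (nat_lit 4713063768286) (nat_lit 76) (nat_lit 12508300327412) (nat_lit 76) (nat_lit 12435776362201) (nat_lit 1) (nat_lit 4) (nat_lit 2) (nat_lit 5) (nat_lit 2) (nat_lit 4) (nat_lit 334) (nat_lit 277) (nat_lit 169)))))) (XT.nd (nat_lit 1404) (nat_lit 0) (nat_lit 0) (XT.nd (nat_lit 156) (nat_lit 0) (nat_lit 0) (XT.nd (nat_lit 78) (nat_lit 0) (nat_lit 0) (XT.lf (nat_lit 0) (nat_lit 5691787704872) (nat_lit 76) (nat_lit 14233343173558) (nat_lit 76) (nat_lit 14160819205713) (nat_lit 1) (nat_lit 4) (nat_lit 2) (nat_lit 5) (nat_lit 2) (nat_lit 4) (nat_lit 335) (nat_lit 277) (nat_lit 168)) (XT.lf (nat_lit 0) (nat_lit 6817320213497)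 (nat_lit 76) (nat_lit 16217142456150) (nat_lit 76) (nat_lit 16144618486016) (nat_lit 1) (nat_lit 4) (nat_lit 2) (nat_lit 5) (nat_lit 2) (nat_lit 4) (nat_lit 336) (nat_lit 277) (nat_lit 167))) (XT.nd (nat_lit 78) (nat_lit 0) (nat_lit 0) (XT.lf (nat_lit 0) (nat_lit 8111682582374) (nat_lit 76) (nat_lit 18498511639415) (nat_lit 76) (nat_lit 18425987667290) (nat_lit 1) (nat_lit 4) (nat_lit 2) (nat_lit 5) (nat_lit 2) (nat_lit 4) (nat_lit 337) (nat_lit 277) (nat_lit 166)) (XT.nd (nat_lit 78) (nat_lit 0) (nat_lit 0) (XT.lf (nat_lit 0) (nat_lit 9600199292633) (nat_lit 76) (nat_lit 21122086207372) (nat_lit 76) (nat_lit 21049562233515) (nat_lit 1) (nat_lit 4) (nat_lit 2) (nat_lit 5) (nat_lit 2) (nat_lit 4) (nat_lit 338) (nat_lit 277) (nat_lit 165)) (XT.lf (nat_lit 0) (nat_lit 11311993497300) (nat_lit 76) (nat_lit 24139196966787) (nat_lit 76) (nat_lit 24066672991424) (nat_lit 1) (nat_lit 4) (nat_lit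 2) (nat_lit 5) (nat_lit 2) (nat_lit 4) (nat_lit 339) (nat_lit 277) (nat_lit 164))))) (XT.nd (nat_lit 234) (nat_lit 0) (nat_lit 0) (XT.nd (nat_lit 78) (nat_lit 0) (nat_lit 0) (XT.lf (nat_lit 0) (nat_lit 91048069323623) (nat_lit 76) (nat_lit 164677456547162) (nat_lit 76) (nat_lit 164604932563180) (nat_lit 1) (nat_lit 4) (nat_lit 2) (nat_lit 5) (nat_lit 2) (nat_lit 4) (nat_lit 353) (nat_lit 277) (nat_lit 150)) (XT.nd (nat_lit 78) (nat_lit 0) (nat_lit 0) (XT.lf (nat_lit 0) (nat_lit 104977043962009) (nat_lit 76) (nat_lit 189227872894168) (nat_lit 76) (nat_lit 189155348910001) (nat_lit 1) (nat_lit 4) (nat_lit 2) (nat_lit 5) (nat_lit 2) (nat_lit 4) (nat_lit 354) (nat_lit 277) (nat_lit 149)) (XT.lf (nat_lit 0) (nat_lit 120995364794858) (nat_lit 76) (nat_lit 217460851693895) (nat_lit 76) (nat_lit 217388327709567) (nat_lit 1) (nat_lit 4) (nat_lit 2) (nat_lit 5) (nat_lit 2) (nat_lit 4) (nat_lit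 355) (nat_lit 277) (nat_lit 148)))) (XT.nd (nat_lit 78) (nat_lit 0) (nat_lit 0) (XT.lf (nat_lit 0) (nat_lit 139416433751506) (nat_lit 76) (nat_lit 249928777314162) (nat_lit 76) (nat_lit 249856253329696) (nat_lit 1) (nat_lit 4) (nat_lit 2) (nat_lit 5) (nat_lit 2) (nat_lit 4) (nat_lit 356) (nat_lit 277) (nat_lit 147)) (XT.nd (nat_lit 34476) (nat_lit 0) (nat_lit 1672) (XT.lf (nat_lit 0) (nat_lit 160600663050671) (nat_lit 76) (nat_lit 287266891777977) (nat_lit 76) (nat_lit 287194367793388) (nat_lit 1) (nat_lit 4) (nat_lit 2) (nat_lit 5) (nat_lit 2) (nat_lit 4) (nat_lit 357) (nat_lit 277) (nat_lit 146)) (XT.lf (nat_lit 0) (nat_lit 4555836562) (nat_lit 380) (nat_lit 10311399198) (nat_lit 380) (nat_lit 10311399198) (nat_lit 23) (nat_lit 3) (nat_lit 28) (nat_lit 3) (nat_lit 28) (nat_lit 5) (nat_lit 278) (nat_lit 278) (nat_lit 224))))))))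
noncomputable def xc82 : XT := (XT.nd (nat_lit 1560) (nat_lit 532) (nat_lit 0) (XT.nd (nat_lit 780) (nat_lit 608) (nat_lit 0) (XT.nd (nat_lit 390) (nat_lit 304) (nat_lit 0) (XT.nd (nat_lit 156) (nat_lit 152) (nat_lit 0) (XT.nd (nat_lit 78) (nat_lit 0) (nat_lit 76) (XT.lf (nat_lit 76) (nat_lit 3457622860) (nat_lit 0) (nat_lit 6504119117) (nat_lit 380) (nat_lit 44147243417) (nat_lit 24) (nat_lit 5) (nat_lit 23) (nat_lit 3) (nat_lit 28) (nat_lit 5) (nat_lit 279) (nat_lit 278) (nat_lit 223)) (XT.lf (nat_lit 0) (nat_lit 12901320938) (nat_lit 304) (nat_lit 25685524575) (nat_lit 380) (nat_lit 19542326204) (nat_lit 24) (nat_lit 5) (nat_lit 28) (nat_lit 5) (nat_lit 29) (nat_lit 5) (nat_lit 280) (nat_lit 278) (nat_lit 222))) (XT.nd (nat_lit 78) (nat_lit 228) (nat_lit 0) (XT.lf (nat_lit 76) (nat_lit 2977620884) (nat_lit 0) (nat_lit 13733554921) (nat_lit 380) (nat_lit 45976821052) (nat_lit 25) (nat_lit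 5) (nat_lit 24) (nat_lit 5) (nat_lit 29) (nat_lit 5) (nat_lit 281) (nat_lit 278) (nat_lit 221)) (XT.nd (nat_lit 78) (nat_lit 304) (nat_lit 0) (XT.lf (nat_lit 0) (nat_lit 23110616939) (nat_lit 304) (nat_lit 29584387317) (nat_lit 76) (nat_lit 14932935507) (nat_lit 25) (nat_lit 5) (nat_lit 29) (nat_lit 5) (nat_lit 26) (nat_lit 5) (nat_lit 282) (nat_lit 278) (nat_lit 220)) (XT.lf (nat_lit 0) (nat_lit 4833977891) (nat_lit 304) (nat_lit 26487276376) (nat_lit 380) (nat_lit 41859936704) (nat_lit 21) (nat_lit 5) (nat_lit 25) (nat_lit 5) (nat_lit 26) (nat_lit 5) (nat_lit 283) (nat_lit 278) (nat_lit 219))))) (XT.nd (nat_lit 156) (nat_lit 152) (nat_lit 0) (XT.nd (nat_lit 78) (nat_lit 152) (nat_lit 0) (XT.lf (nat_lit 0) (nat_lit 42532178839) (nat_lit 380) (nat_lit 31823485102) (nat_lit 76) (nat_lit 4946469885) (nat_lit 21) (nat_lit 5) (nat_lit 26) (nat_lit 5) (nat_lit 22) (nat_lit 5) (nat_lit 284)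 (nat_lit 278) (nat_lit 218)) (XT.lf (nat_lit 0) (nat_lit 9785972848) (nat_lit 152) (nat_lit 47303013809) (nat_lit 228) (nat_lit 29002601474) (nat_lit 19) (nat_lit 5) (nat_lit 21) (nat_lit 5) (nat_lit 22) (nat_lit 5) (nat_lit 285) (nat_lit 278) (nat_lit 217))) (XT.nd (nat_lit 78) (nat_lit 152) (nat_lit 0) (XT.lf (nat_lit 0) (nat_lit 61210754725) (nat_lit 152) (nat_lit 14279978353) (nat_lit 228) (nat_lit 18159520723) (nat_lit 19) (nat_lit 5) (nat_lit 21) (nat_lit 5) (nat_lit 22) (nat_lit 5) (nat_lit 286) (nat_lit 278) (nat_lit 216)) (XT.nd (nat_lit 78) (nat_lit 76) (nat_lit 0) (XT.lf (nat_lit 0) (nat_lit 18686365897) (nat_lit 76) (nat_lit 79719529574) (nat_lit 152) (nat_lit 3673855821) (nat_lit 18) (nat_lit 5) (nat_lit 19) (nat_lit 5) (nat_lit 20) (nat_lit 4) (nat_lit 287) (nat_lit 278) (nat_lit 215)) (XT.lf (nat_lit 0) (nat_lit 14283345766) (nat_lit 152) (nat_lit 31693462267) (nat_lit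 76) (nat_lit 65348018491) (nat_lit 17) (nat_lit 5) (nat_lit 19) (nat_lit 5) (nat_lit 18) (nat_lit 5) (nat_lit 288) (nat_lit 278) (nat_lit 214)))))) (XT.nd (nat_lit 390) (nat_lit 228) (nat_lit 0) (XT.nd (nat_lit 156) (nat_lit 228) (nat_lit 0) (XT.nd (nat_lit 78) (nat_lit 0) (nat_lit 0) (XT.lf (nat_lit 0) (nat_lit 30279977389) (nat_lit 152) (nat_lit 5530301714) (nat_lit 228) (nat_lit 85932302790) (nat_lit 15) (nat_lit 5) (nat_lit 17) (nat_lit 5) (nat_lit 18) (nat_lit 5) (nat_lit 289) (nat_lit 278) (nat_lit 213)) (XT.lf (nat_lit 0) (nat_lit 63997410221) (nat_lit 228) (nat_lit 30141410334) (nat_lit 76) (nat_lit 39069509246) (nat_lit 15) (nat_lit 5) (nat_lit 18) (nat_lit 5) (nat_lit 16) (nat_lit 4) (nat_lit 290) (nat_lit 278) (nat_lit 212))) (XT.nd (nat_lit 78) (nat_lit 152) (nat_lit 0) (XT.lf (nat_lit 0) (nat_lit 44032669247) (nat_lit 76) (nat_lit 54465316485) (nat_lit 152) (nat_lit 47583150476)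 (nat_lit 14) (nat_lit 5) (nat_lit 15) (nat_lit 5) (nat_lit 16) (nat_lit 4) (nat_lit 291) (nat_lit 278) (nat_lit 211)) (XT.nd (nat_lit 78) (nat_lit 152) (nat_lit 0) (XT.lf (nat_lit 0) (nat_lit 132718398217) (nat_lit 76) (nat_lit 7029636487) (nat_lit 152) (nat_lit 20900672993) (nat_lit 14) (nat_lit 5) (nat_lit 15) (nat_lit 5) (nat_lit 16) (nat_lit 4) (nat_lit 292) (nat_lit 278) (nat_lit 210)) (XT.lf (nat_lit 0) (nat_lit 13608519411) (nat_lit 152) (nat_lit 116603864117) (nat_lit 76) (nat_lit 46423952012) (nat_lit 12) (nat_lit 5) (nat_lit 14) (nat_lit 5) (nat_lit 13) (nat_lit 4) (nat_lit 293) (nat_lit 278) (nat_lit 209))))) (XT.nd (nat_lit 156) (nat_lit 152) (nat_lit 0) (XT.nd (nat_lit 78) (nat_lit 76) (nat_lit 0) (XT.lf (nat_lit 0) (nat_lit 53017479609) (nat_lit 152) (nat_lit 31875833402) (nat_lit 76) (nat_lit 109700022508) (nat_lit 12) (nat_lit 5) (nat_lit 14) (nat_lit 5) (nat_lit 13) (nat_lit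 4) (nat_lit 294) (nat_lit 278) (nat_lit 208)) (XT.lf (nat_lit 0) (nat_lit 71966780643) (nat_lit 76) (nat_lit 29350088192) (nat_lit 152) (nat_lit 113480155163) (nat_lit 11) (nat_lit 5) (nat_lit 12) (nat_lit 5) (nat_lit 13) (nat_lit 4) (nat_lit 295) (nat_lit 278) (nat_lit 207))) (XT.nd (nat_lit 78) (nat_lit 152) (nat_lit 0) (XT.lf (nat_lit 0) (nat_lit 160035459572) (nat_lit 152) (nat_lit 44323699569) (nat_lit 0) (nat_lit 33195963730) (nat_lit 11) (nat_lit 5) (nat_lit 13) (nat_lit 4) (nat_lit 11) (nat_lit 4) (nat_lit 296) (nat_lit 278) (nat_lit 206)) (XT.nd (nat_lit 78) (nat_lit 76) (nat_lit 0) (XT.lf (nat_lit 0) (nat_lit 74162219057) (nat_lit 76) (nat_lit 157867377984) (nat_lit 76) (nat_lit 31027176764) (nat_lit 10) (nat_lit 4) (nat_lit 11) (nat_lit 5) (nat_lit 11) (nat_lit 4) (nat_lit 297) (nat_lit 278) (nat_lit 205)) (XT.lf (nat_lit 0) (nat_lit 22867985913) (nat_lit 152) (nat_lit 77674644876)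 (nat_lit 76) (nat_lit 191337694341) (nat_lit 9) (nat_lit 5) (nat_lit 11) (nat_lit 5) (nat_lit 10) (nat_lit 4) (nat_lit 298) (nat_lit 278) (nat_lit 204))))))) (XT.nd (nat_lit 780) (nat_lit 152) (nat_lit 0) (XT.nd (nat_lit 390) (nat_lit 228) (nat_lit 0) (XT.nd (nat_lit 156) (nat_lit 76) (nat_lit 0) (XT.nd (nat_lit 78) (nat_lit 0) (nat_lit 0) (XT.lf (nat_lit 0) (nat_lit 53513684000) (nat_lit 76) (nat_lit 30372377376) (nat_lit 152) (nat_lit 240587441170) (nat_lit 8) (nat_lit 5) (nat_lit 9) (nat_lit 5) (nat_lit 10) (nat_lit 4) (nat_lit 299) (nat_lit 278) (nat_lit 203)) (XT.lf (nat_lit 0) (nat_lit 160393600992) (nat_lit 152) (nat_lit 150515169818) (nat_lit 0) (nat_lit 50096373378) (nat_lit 8) (nat_lit 5) (nat_lit 10) (nat_lit 4) (nat_lit 8) (nat_lit 4) (nat_lit 300) (nat_lit 278) (nat_lit 202))) (XT.nd (nat_lit 78) (nat_lit 76) (nat_lit 0) (XT.lf (nat_lit 0) (nat_lit 249823015296) (nat_lit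 152) (nat_lit 13451218708) (nat_lit 0) (nat_lit 139525436984) (nat_lit 8) (nat_lit 5) (nat_lit 10) (nat_lit 4) (nat_lit 8) (nat_lit 4) (nat_lit 301) (nat_lit 278) (nat_lit 201)) (XT.nd (nat_lit 78) (nat_lit 0) (nat_lit 0) (XT.lf (nat_lit 0) (nat_lit 158260851559) (nat_lit 76) (nat_lit 200958747652) (nat_lit 76) (nat_lit 90660864386) (nat_lit 7) (nat_lit 4) (nat_lit 8) (nat_lit 5) (nat_lit 8) (nat_lit 4) (nat_lit 302) (nat_lit 278) (nat_lit 200)) (XT.lf (nat_lit 0) (nat_lit 357240560150) (nat_lit 76) (nat_lit 128487781550) (nat_lit 76) (nat_lit 18189633106) (nat_lit 7) (nat_lit 4) (nat_lit 8) (nat_lit 5) (nat_lit 8) (nat_lit 4) (nat_lit 303) (nat_lit 278) (nat_lit 199))))) (XT.nd (nat_lit 156) (nat_lit 76) (nat_lit 0) (XT.nd (nat_lit 78) (nat_lit 0) (nat_lit 0) (XT.lf (nat_lit 0) (nat_lit 18998877753) (nat_lit 76) (nat_lit 41139381216) (nat_lit 152) (nat_lit 505400239002) (nat_lit 5) (nat_lit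 5) (nat_lit 6) (nat_lit 5) (nat_lit 7) (nat_lit 4) (nat_lit 304) (nat_lit 278) (nat_lit 198)) (XT.lf (nat_lit 0) (nat_lit 158840936705) (nat_lit 152) (nat_lit 412928927716) (nat_lit 0) (nat_lit 62929128405) (nat_lit 5) (nat_lit 5) (nat_lit 7) (nat_lit 4) (nat_lit 5) (nat_lit 4) (nat_lit 305) (nat_lit 278) (nat_lit 197))) (XT.nd (nat_lit 78) (nat_lit 76) (nat_lit 0) (XT.lf (nat_lit 0) (nat_lit 274307673911) (nat_lit 152) (nat_lit 261236375534) (nat_lit 0) (nat_lit 178395713994) (nat_lit 5) (nat_lit 5) (nat_lit 7) (nat_lit 4) (nat_lit 5) (nat_lit 4) (nat_lit 306) (nat_lit 278) (nat_lit 196)) (XT.nd (nat_lit 78) (nat_lit 76) (nat_lit 0) (XT.lf (nat_lit 0) (nat_lit 407094108356) (nat_lit 152) (nat_lit 86790571869) (nat_lit 0) (nat_lit 311182016599) (nat_lit 5) (nat_lit 5) (nat_lit 7) (nat_lit 4) (nat_lit 5) (nat_lit 4) (nat_lit 307) (nat_lit 278) (nat_lit 195)) (XT.lf (nat_lit 0) (nat_lit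 124945023339) (nat_lit 76) (nat_lit 440026919128) (nat_lit 76) (nat_lit 344114712727) (nat_lit 4) (nat_lit 4) (nat_lit 5) (nat_lit 5) (nat_lit 5) (nat_lit 4) (nat_lit 308) (nat_lit 278) (nat_lit 194)))))) (XT.nd (nat_lit 390) (nat_lit 0) (nat_lit 0) (XT.nd (nat_lit 156) (nat_lit 152) (nat_lit 0) (XT.nd (nat_lit 78) (nat_lit 0) (nat_lit 0) (XT.lf (nat_lit 0) (nat_lit 378194510560) (nat_lit 76) (nat_lit 372873462398) (nat_lit 76) (nat_lit 276961156307) (nat_lit 4) (nat_lit 4) (nat_lit 5) (nat_lit 5) (nat_lit 5) (nat_lit 4) (nat_lit 309) (nat_lit 278) (nat_lit 193)) (XT.lf (nat_lit 0) (nat_lit 669430965178) (nat_lit 76) (nat_lit 295647217949) (nat_lit 76) (nat_lit 199734825171) (nat_lit 4) (nat_lit 4) (nat_lit 5) (nat_lit 5) (nat_lit 5) (nat_lit 4) (nat_lit 310) (nat_lit 278) (nat_lit 192))) (XT.nd (nat_lit 78) (nat_lit 152) (nat_lit 0) (XT.lf (nat_lit 0) (nat_lit 1004352491739) (nat_lit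 76) (nat_lit 206837237520) (nat_lit 76) (nat_lit 110924769362) (nat_lit 4) (nat_lit 4) (nat_lit 5) (nat_lit 5) (nat_lit 5) (nat_lit 4) (nat_lit 311) (nat_lit 278) (nat_lit 191)) (XT.nd (nat_lit 78) (nat_lit 152) (nat_lit 0) (XT.lf (nat_lit 0) (nat_lit 1389511902719) (nat_lit 76) (nat_lit 104705934537) (nat_lit 76) (nat_lit 8793400831) (nat_lit 4) (nat_lit 4) (nat_lit 5) (nat_lit 5) (nat_lit 5) (nat_lit 4) (nat_lit 312) (nat_lit 278) (nat_lit 190)) (XT.lf (nat_lit 0) (nat_lit 105292867579) (nat_lit 152) (nat_lit 1582237815986) (nat_lit 0) (nat_lit 21890614793) (nat_lit 2) (nat_lit 5) (nat_lit 4) (nat_lit 4) (nat_lit 2) (nat_lit 4) (nat_lit 313) (nat_lit 278) (nat_lit 189))))) (XT.nd (nat_lit 156) (nat_lit 0) (nat_lit 0) (XT.nd (nat_lit 78) (nat_lit 0) (nat_lit 0) (XT.lf (nat_lit 0) (nat_lit 246793082616) (nat_lit 152) (nat_lit 1534865995908) (nat_lit 0) (nat_lit 163390786731) (nat_lit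 2) (nat_lit 5) (nat_lit 4) (nat_lit 4) (nat_lit 2) (nat_lit 4) (nat_lit 314) (nat_lit 278) (nat_lit 188)) (XT.lf (nat_lit 0) (nat_lit 409518196376) (nat_lit 152) (nat_lit 1480388677874) (nat_lit 0) (nat_lit 326115863014) (nat_lit 2) (nat_lit 5) (nat_lit 4) (nat_lit 4) (nat_lit 2) (nat_lit 4) (nat_lit 315) (nat_lit 278) (nat_lit 187))) (XT.nd (nat_lit 78) (nat_lit 0) (nat_lit 0) (XT.lf (nat_lit 0) (nat_lit 596651961087) (nat_lit 152) (nat_lit 1417740001315) (nat_lit 0) (nat_lit 513249595136) (nat_lit 2) (nat_lit 5) (nat_lit 4) (nat_lit 4) (nat_lit 2) (nat_lit 4) (nat_lit 316) (nat_lit 278) (nat_lit 186)) (XT.nd (nat_lit 78) (nat_lit 0) (nat_lit 0) (XT.lf (nat_lit 0) (nat_lit 811855689535) (nat_lit 152) (nat_lit 1345694231255) (nat_lit 0) (nat_lit 728453295246) (nat_lit 2) (nat_lit 5) (nat_lit 4) (nat_lit 4) (nat_lit 2) (nat_lit 4) (nat_lit 317) (nat_lit 278) (nat_lit 185)) (XT.lf (nat_lit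 0) (nat_lit 1059339889452) (nat_lit 152) (nat_lit 1262841776539) (nat_lit 0) (nat_lit 975937470521) (nat_lit 2) (nat_lit 5) (nat_lit 4) (nat_lit 4) (nat_lit 2) (nat_lit 4) (nat_lit 318) (nat_lit 278) (nat_lit 184))))))))
noncomputable def xc83 : XT := (XT.nd (nat_lit 1560) (nat_lit 0) (nat_lit 0) (XT.nd (nat_lit 780) (nat_lit 0) (nat_lit 0) (XT.nd (nat_lit 390) (nat_lit 76) (nat_lit 0) (XT.nd (nat_lit 156) (nat_lit 0) (nat_lit 0) (XT.nd (nat_lit 78) (nat_lit 0) (nat_lit 0) (XT.lf (nat_lit 0) (nat_lit 1343946643009) (nat_lit 152) (nat_lit 1167561610880) (nat_lit 0) (nat_lit 1260544202650) (nat_lit 2) (nat_lit 5) (nat_lit 4) (nat_lit 4) (nat_lit 2) (nat_lit 4) (nat_lit 319) (nat_lit 278) (nat_lit 183)) (XT.lf (nat_lit 0) (nat_lit 1671244343210) (nat_lit 152) (nat_lit 1057989557124) (nat_lit 0) (nat_lit 1587841884219) (nat_lit 2) (nat_lit 5) (nat_lit 4) (nat_lit 4) (nat_lit 2) (nat_lit 4)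 (nat_lit 320) (nat_lit 278) (nat_lit 182))) (XT.nd (nat_lit 78) (nat_lit 0) (nat_lit 0) (XT.lf (nat_lit 0) (nat_lit 2047636640713) (nat_lit 152) (nat_lit 931981814220) (nat_lit 0) (nat_lit 1964234165519) (nat_lit 2) (nat_lit 5) (nat_lit 4) (nat_lit 4) (nat_lit 2) (nat_lit 4) (nat_lit 321) (nat_lit 278) (nat_lit 181)) (XT.nd (nat_lit 78) (nat_lit 0) (nat_lit 0) (XT.lf (nat_lit 0) (nat_lit 2480487732642) (nat_lit 152) (nat_lit 787073013284) (nat_lit 0) (nat_lit 2397085243359) (nat_lit 2) (nat_lit 5) (nat_lit 4) (nat_lit 4) (nat_lit 2) (nat_lit 4) (nat_lit 322) (nat_lit 278) (nat_lit 180)) (XT.lf (nat_lit 0) (nat_lit 2978266444708) (nat_lit 152) (nat_lit 620427982123) (nat_lit 0) (nat_lit 2894863943174) (nat_lit 2) (nat_lit 5) (nat_lit 4) (nat_lit 4) (nat_lit 2) (nat_lit 4) (nat_lit 323) (nat_lit 278) (nat_lit 179))))) (XT.nd (nat_lit 156) (nat_lit 76) (nat_lit 0) (XT.nd (nat_lit 78) (nat_lit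 0) (nat_lit 0) (XT.lf (nat_lit 0) (nat_lit 3550711925626) (nat_lit 152) (nat_lit 428786274477) (nat_lit 0) (nat_lit 3467309413438) (nat_lit 2) (nat_lit 5) (nat_lit 4) (nat_lit 4) (nat_lit 2) (nat_lit 4) (nat_lit 324) (nat_lit 278) (nat_lit 178)) (XT.lf (nat_lit 0) (nat_lit 4209024195675) (nat_lit 152) (nat_lit 208398378674) (nat_lit 0) (nat_lit 4125621674224) (nat_lit 2) (nat_lit 5) (nat_lit 4) (nat_lit 4) (nat_lit 2) (nat_lit 4) (nat_lit 325) (nat_lit 278) (nat_lit 177))) (XT.nd (nat_lit 78) (nat_lit 0) (nat_lit 0) (XT.lf (nat_lit 0) (nat_lit 49450025610) (nat_lit 76) (nat_lit 4918680872028) (nat_lit 76) (nat_lit 4835278342521) (nat_lit 1) (nat_lit 4) (nat_lit 2) (nat_lit 5) (nat_lit 2) (nat_lit 4) (nat_lit 326) (nat_lit 278) (nat_lit 176)) (XT.nd (nat_lit 78) (nat_lit 0) (nat_lit 0) (XT.lf (nat_lit 0) (nat_lit 369396770070) (nat_lit 76) (nat_lit 5482600359143) (nat_lit 76) (nat_lit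 5399197822631) (nat_lit 1) (nat_lit 4) (nat_lit 2) (nat_lit 5) (nat_lit 2) (nat_lit 4) (nat_lit 327) (nat_lit 278) (nat_lit 175)) (XT.lf (nat_lit 0) (nat_lit 737335477126) (nat_lit 76) (nat_lit 6131107794663) (nat_lit 76) (nat_lit 6047705252060) (nat_lit 1) (nat_lit 4) (nat_lit 2) (nat_lit 5) (nat_lit 2) (nat_lit 4) (nat_lit 328) (nat_lit 278) (nat_lit 174)))))) (XT.nd (nat_lit 390) (nat_lit 0) (nat_lit 0) (XT.nd (nat_lit 156) (nat_lit 0) (nat_lit 0) (XT.nd (nat_lit 78) (nat_lit 0) (nat_lit 0) (XT.lf (nat_lit 0) (nat_lit 1160464947568) (nat_lit 76) (nat_lit 6876891367546) (nat_lit 76) (nat_lit 6793488819646) (nat_lit 1) (nat_lit 4) (nat_lit 2) (nat_lit 5) (nat_lit 2) (nat_lit 4) (nat_lit 329) (nat_lit 278) (nat_lit 173)) (XT.lf (nat_lit 0) (nat_lit 1647063801469) (nat_lit 76) (nat_lit 7734542495520) (nat_lit 76) (nat_lit 7651139943015) (nat_lit 1) (nat_lit 4) (nat_lit 2) (nat_lit 5) (nat_lit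 2) (nat_lit 4) (nat_lit 330) (nat_lit 278) (nat_lit 172))) (XT.nd (nat_lit 78) (nat_lit 0) (nat_lit 0) (XT.lf (nat_lit 0) (nat_lit 2206652451190) (nat_lit 76) (nat_lit 8720841309351) (nat_lit 76) (nat_lit 8637438752841) (nat_lit 1) (nat_lit 4) (nat_lit 2) (nat_lit 5) (nat_lit 2) (nat_lit 4) (nat_lit 331) (nat_lit 278) (nat_lit 171)) (XT.nd (nat_lit 78) (nat_lit 0) (nat_lit 0) (XT.lf (nat_lit 0) (nat_lit 2850179370311) (nat_lit 76) (nat_lit 9855084959744) (nat_lit 76) (nat_lit 9771682399751) (nat_lit 1) (nat_lit 4) (nat_lit 2) (nat_lit 5) (nat_lit 2) (nat_lit 4) (nat_lit 332) (nat_lit 278) (nat_lit 170)) (XT.lf (nat_lit 0) (nat_lit 3590235302902) (nat_lit 76) (nat_lit 11159465170294) (nat_lit 76) (nat_lit 11076062607273) (nat_lit 1) (nat_lit 4) (nat_lit 2) (nat_lit 5) (nat_lit 2) (nat_lit 4) (nat_lit 333) (nat_lit 278) (nat_lit 169))))) (XT.nd (nat_lit 156) (nat_lit 0) (nat_lit 0) (XT.nd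 (nat_lit 78) (nat_lit 0) (nat_lit 0) (XT.lf (nat_lit 0) (nat_lit 4441299604166) (nat_lit 76) (nat_lit 12659502423381) (nat_lit 76) (nat_lit 12576099857727) (nat_lit 1) (nat_lit 4) (nat_lit 2) (nat_lit 5) (nat_lit 2) (nat_lit 4) (nat_lit 334) (nat_lit 278) (nat_lit 168)) (XT.lf (nat_lit 0) (nat_lit 5420023532171) (nat_lit 76) (nat_lit 14384545273957) (nat_lit 76) (nat_lit 14301142706013) (nat_lit 1) (nat_lit 4) (nat_lit 2) (nat_lit 5) (nat_lit 2) (nat_lit 4) (nat_lit 335) (nat_lit 278) (nat_lit 167))) (XT.nd (nat_lit 78) (nat_lit 0) (nat_lit 0) (XT.lf (nat_lit 0) (nat_lit 6545556033335) (nat_lit 76) (nat_lit 16368344560402) (nat_lit 76) (nat_lit 16284941990467) (nat_lit 1) (nat_lit 4) (nat_lit 2) (nat_lit 5) (nat_lit 2) (nat_lit 4) (nat_lit 336) (nat_lit 278) (nat_lit 166)) (XT.nd (nat_lit 78) (nat_lit 0) (nat_lit 0) (XT.lf (nat_lit 0) (nat_lit 7839918395724) (nat_lit 76) (nat_lit 18649713747017)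 (nat_lit 76) (nat_lit 18566311175350) (nat_lit 1) (nat_lit 4) (nat_lit 2) (nat_lit 5) (nat_lit 2) (nat_lit 4) (nat_lit 337) (nat_lit 278) (nat_lit 165)) (XT.lf (nat_lit 0) (nat_lit 9328435100341) (nat_lit 76) (nat_lit 21273288317888) (nat_lit 76) (nat_lit 21189885744715) (nat_lit 1) (nat_lit 4) (nat_lit 2) (nat_lit 5) (nat_lit 2) (nat_lit 4) (nat_lit 338) (nat_lit 278) (nat_lit 164))))))) (XT.nd (nat_lit 36270) (nat_lit 0) (nat_lit 988) (XT.nd (nat_lit 1326) (nat_lit 0) (nat_lit 0) (XT.nd (nat_lit 1092) (nat_lit 0) (nat_lit 0) (XT.nd (nat_lit 1014) (nat_lit 0) (nat_lit 0) (XT.lf (nat_lit 0) (nat_lit 11040229300102) (nat_lit 76) (nat_lit 24290399079835) (nat_lit 76) (nat_lit 24206996505353) (nat_lit 1) (nat_lit 4) (nat_lit 2) (nat_lit 5) (nat_lit 2) (nat_lit 4) (nat_lit 339) (nat_lit 278) (nat_lit 163)) (XT.lf (nat_lit 0) (nat_lit 78664153238271) (nat_lit 76) (nat_lit 143480470547191)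 (nat_lit 76) (nat_lit 143397067965399) (nat_lit 1) (nat_lit 4) (nat_lit 2) (nat_lit 5) (nat_lit 2) (nat_lit 4) (nat_lit 352) (nat_lit 278) (nat_lit 150))) (XT.nd (nat_lit 78) (nat_lit 0) (nat_lit 0) (XT.lf (nat_lit 0) (nat_lit 90776305098340) (nat_lit 76) (nat_lit 164828658674711) (nat_lit 76) (nat_lit 164745256092735) (nat_lit 1) (nat_lit 4) (nat_lit 2) (nat_lit 5) (nat_lit 2) (nat_lit 4) (nat_lit 353) (nat_lit 278) (nat_lit 149)) (XT.nd (nat_lit 78) (nat_lit 0) (nat_lit 0) (XT.lf (nat_lit 0) (nat_lit 104705279736124) (nat_lit 76) (nat_lit 189379075022029) (nat_lit 76) (nat_lit 189295672439891) (nat_lit 1) (nat_lit 4) (nat_lit 2) (nat_lit 5) (nat_lit 2) (nat_lit 4) (nat_lit 354) (nat_lit 278) (nat_lit 148)) (XT.lf (nat_lit 0) (nat_lit 120723600568448) (nat_lit 76) (nat_lit 217612053822026) (nat_lit 76) (nat_lit 217528651239749) (nat_lit 1) (nat_lit 4) (nat_lit 2) (nat_lit 5) (nat_lit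 2) (nat_lit 4) (nat_lit 355) (nat_lit 278) (nat_lit 147))))) (XT.nd (nat_lit 34710) (nat_lit 0) (nat_lit 1672) (XT.nd (nat_lit 34632) (nat_lit 0) (nat_lit 1672) (XT.lf (nat_lit 0) (nat_lit 139144669524640) (nat_lit 76) (nat_lit 250079979442529) (nat_lit 76) (nat_lit 249996576860131) (nat_lit 1) (nat_lit 4) (nat_lit 2) (nat_lit 5) (nat_lit 2) (nat_lit 4) (nat_lit 356) (nat_lit 278) (nat_lit 146)) (XT.lf (nat_lit 0) (nat_lit 5261758689) (nat_lit 380) (nat_lit 11845108446) (nat_lit 380) (nat_lit 11845108446) (nat_lit 23) (nat_lit 3) (nat_lit 28) (nat_lit 3) (nat_lit 28) (nat_lit 5) (nat_lit 279) (nat_lit 279) (nat_lit 222))) (XT.nd (nat_lit 78) (nat_lit 0) (nat_lit 76) (XT.lf (nat_lit 76) (nat_lit 4001085677) (nat_lit 0) (nat_lit 7495156868) (nat_lit 380) (nat_lit 50722928465) (nat_lit 24) (nat_lit 5) (nat_lit 23) (nat_lit 3) (nat_lit 28) (nat_lit 5) (nat_lit 280) (nat_lit 279) (nat_lit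 221)) (XT.nd (nat_lit 78) (nat_lit 0) (nat_lit 0) (XT.lf (nat_lit 0) (nat_lit 14870954528) (nat_lit 304) (nat_lit 29510857534) (nat_lit 380) (nat_lit 22461460266) (nat_lit 24) (nat_lit 5) (nat_lit 28) (nat_lit 5) (nat_lit 29) (nat_lit 5) (nat_lit 281) (nat_lit 279) (nat_lit 220)) (XT.lf (nat_lit 76) (nat_lit 3450509938) (nat_lit 0) (nat_lit 15798372895) (nat_lit 380) (nat_lit 52837563451) (nat_lit 25) (nat_lit 5) (nat_lit 24) (nat_lit 5) (nat_lit 29) (nat_lit 5) (nat_lit 282) (nat_lit 279) (nat_lit 219)))))) (XT.nd (nat_lit 390) (nat_lit 380) (nat_lit 0) (XT.nd (nat_lit 156) (nat_lit 152) (nat_lit 0) (XT.nd (nat_lit 78) (nat_lit 304) (nat_lit 0) (XT.lf (nat_lit 0) (nat_lit 26604020376) (nat_lit 304) (nat_lit 33994920067) (nat_lit 76) (nat_lit 17169085603) (nat_lit 25) (nat_lit 5) (nat_lit 29) (nat_lit 5) (nat_lit 26) (nat_lit 5) (nat_lit 283) (nat_lit 279) (nat_lit 218)) (XT.lf (nat_lit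 0) (nat_lit 5584966951) (nat_lit 304) (nat_lit 30458861427) (nat_lit 380) (nat_lit 48110811128) (nat_lit 21) (nat_lit 5) (nat_lit 25) (nat_lit 5) (nat_lit 26) (nat_lit 5) (nat_lit 284) (nat_lit 279) (nat_lit 217))) (XT.nd (nat_lit 78) (nat_lit 152) (nat_lit 0) (XT.lf (nat_lit 0) (nat_lit 48933265099) (nat_lit 380) (nat_lit 36571303424) (nat_lit 76) (nat_lit 5689633667) (nat_lit 21) (nat_lit 5) (nat_lit 26) (nat_lit 5) (nat_lit 22) (nat_lit 5) (nat_lit 285) (nat_lit 279) (nat_lit 216)) (XT.nd (nat_lit 78) (nat_lit 0) (nat_lit 0) (XT.lf (nat_lit 0) (nat_lit 11278404835) (nat_lit 152) (nat_lit 54393432271) (nat_lit 228) (nat_lit 33330509274) (nat_lit 19) (nat_lit 5) (nat_lit 21) (nat_lit 5) (nat_lit 22) (nat_lit 5) (nat_lit 286) (nat_lit 279) (nat_lit 215)) (XT.lf (nat_lit 0) (nat_lit 70413703638) (nat_lit 152) (nat_lit 16417598054) (nat_lit 228) (nat_lit 20863898900) (nat_lit 19) (nat_lit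 5) (nat_lit 21) (nat_lit 5) (nat_lit 22) (nat_lit 5) (nat_lit 287) (nat_lit 279) (nat_lit 214))))) (XT.nd (nat_lit 234) (nat_lit 76) (nat_lit 0) (XT.nd (nat_lit 78) (nat_lit 228) (nat_lit 0) (XT.lf (nat_lit 0) (nat_lit 21511987169) (nat_lit 76) (nat_lit 91670635447) (nat_lit 152) (nat_lit 4206673657) (nat_lit 18) (nat_lit 5) (nat_lit 19) (nat_lit 5) (nat_lit 20) (nat_lit 4) (nat_lit 288) (nat_lit 279) (nat_lit 213)) (XT.nd (nat_lit 78) (nat_lit 152) (nat_lit 0) (XT.lf (nat_lit 0) (nat_lit 16440312725) (nat_lit 152) (nat_lit 36426326850) (nat_lit 76) (nat_lit 75154709944) (nat_lit 17) (nat_lit 5) (nat_lit 19) (nat_lit 5) (nat_lit 18) (nat_lit 5) (nat_lit 289) (nat_lit 279) (nat_lit 212)) (XT.lf (nat_lit 0) (nat_lit 34842167175) (nat_lit 152) (nat_lit 6353068293) (nat_lit 228) (nat_lit 98806694387) (nat_lit 15) (nat_lit 5) (nat_lit 17) (nat_lit 5) (nat_lit 18) (nat_lit 5) (nat_lit 290)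 (nat_lit 279) (nat_lit 211)))) (XT.nd (nat_lit 78) (nat_lit 76) (nat_lit 0) (XT.lf (nat_lit 0) (nat_lit 73608930615) (nat_lit 228) (nat_lit 34643533355) (nat_lit 76) (nat_lit 44935305367) (nat_lit 15) (nat_lit 5) (nat_lit 18) (nat_lit 5) (nat_lit 16) (nat_lit 4) (nat_lit 291) (nat_lit 279) (nat_lit 210)) (XT.nd (nat_lit 78) (nat_lit 0) (nat_lit 0) (XT.lf (nat_lit 0) (nat_lit 50655790503) (nat_lit 76) (nat_lit 62628003107) (nat_lit 152) (nat_lit 54707825999) (nat_lit 14) (nat_lit 5) (nat_lit 15) (nat_lit 5) (nat_lit 16) (nat_lit 4) (nat_lit 292) (nat_lit 279) (nat_lit 209)) (XT.lf (nat_lit 0) (nat_lit 152642002184) (nat_lit 76) (nat_lit 8077898611) (nat_lit 152) (nat_lit 24024646074) (nat_lit 14) (nat_lit 5) (nat_lit 15) (nat_lit 5) (nat_lit 16) (nat_lit 4) (nat_lit 293) (nat_lit 279) (nat_lit 208))))))))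
noncomputable def xc84 : XT := (XT.nd (nat_lit 1560) (nat_lit 228) (nat_lit 0) (XT.nd (nat_lit 780) (nat_lit 228) (nat_lit 0) (XT.nd (nat_lit 390) (nat_lit 228) (nat_lit 0) (XT.nd (nat_lit 156) (nat_lit 152) (nat_lit 0) (XT.nd (nat_lit 78) (nat_lit 0) (nat_lit 0) (XT.lf (nat_lit 0) (nat_lit 15659551733) (nat_lit 152) (nat_lit 134077197023) (nat_lit 76) (nat_lit 53393560457) (nat_lit 12) (nat_lit 5) (nat_lit 14) (nat_lit 5) (nat_lit 13) (nat_lit 4) (nat_lit 294) (nat_lit 279) (nat_lit 207)) (XT.lf (nat_lit 0) (nat_lit 60978583646) (nat_lit 152) (nat_lit 36642211272) (nat_lit 76) (nat_lit 126160256878) (nat_lit 12) (nat_lit 5) (nat_lit 14) (nat_lit 5) (nat_lit 13) (nat_lit 4) (nat_lit 295) (nat_lit 279) (nat_lit 206))) (XT.nd (nat_lit 78) (nat_lit 76) (nat_lit 0) (XT.lf (nat_lit 0) (nat_lit 82776113192) (nat_lit 76) (nat_lit 33746254477) (nat_lit 152) (nat_lit 130493004448) (nat_lit 11)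 (nat_lit 5) (nat_lit 12) (nat_lit 5) (nat_lit 13) (nat_lit 4) (nat_lit 296) (nat_lit 279) (nat_lit 205)) (XT.nd (nat_lit 78) (nat_lit 76) (nat_lit 0) (XT.lf (nat_lit 0) (nat_lit 184047936178) (nat_lit 152) (nat_lit 50958986574) (nat_lit 0) (nat_lit 38180386025) (nat_lit 11) (nat_lit 5) (nat_lit 13) (nat_lit 4) (nat_lit 11) (nat_lit 4) (nat_lit 297) (nat_lit 279) (nat_lit 204)) (XT.lf (nat_lit 0) (nat_lit 85299216759) (nat_lit 76) (nat_lit 181541568323) (nat_lit 76) (nat_lit 35673484803) (nat_lit 10) (nat_lit 4) (nat_lit 11) (nat_lit 5) (nat_lit 11) (nat_lit 4) (nat_lit 298) (nat_lit 279) (nat_lit 203))))) (XT.nd (nat_lit 156) (nat_lit 76) (nat_lit 0) (XT.nd (nat_lit 78) (nat_lit 76) (nat_lit 0) (XT.lf (nat_lit 0) (nat_lit 26304337602) (nat_lit 152) (nat_lit 89314221471) (nat_lit 76) (nat_lit 220042885922) (nat_lit 9) (nat_lit 5) (nat_lit 11) (nat_lit 5) (nat_lit 10) (nat_lit 4) (nat_lit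 299) (nat_lit 279) (nat_lit 202)) (XT.lf (nat_lit 0) (nat_lit 61551828548) (nat_lit 76) (nat_lit 34922952459) (nat_lit 152) (nat_lit 276668870282) (nat_lit 8) (nat_lit 5) (nat_lit 9) (nat_lit 5) (nat_lit 10) (nat_lit 4) (nat_lit 300) (nat_lit 279) (nat_lit 201))) (XT.nd (nat_lit 78) (nat_lit 76) (nat_lit 0) (XT.lf (nat_lit 0) (nat_lit 184457883856) (nat_lit 152) (nat_lit 173082227995) (nat_lit 0) (nat_lit 57615013146) (nat_lit 8) (nat_lit 5) (nat_lit 10) (nat_lit 4) (nat_lit 8) (nat_lit 4) (nat_lit 301) (nat_lit 279) (nat_lit 200)) (XT.nd (nat_lit 78) (nat_lit 76) (nat_lit 0) (XT.lf (nat_lit 0) (nat_lit 287301026473) (nat_lit 152) (nat_lit 15460016909) (nat_lit 0) (nat_lit 160457890585) (nat_lit 8) (nat_lit 5) (nat_lit 10) (nat_lit 4) (nat_lit 8) (nat_lit 4) (nat_lit 302) (nat_lit 279) (nat_lit 199)) (XT.lf (nat_lit 0) (nat_lit 182008460053) (nat_lit 76) (nat_lit 231098394457) (nat_lit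 76) (nat_lit 104255027979) (nat_lit 7) (nat_lit 4) (nat_lit 8) (nat_lit 5) (nat_lit 8) (nat_lit 4) (nat_lit 303) (nat_lit 279) (nat_lit 198)))))) (XT.nd (nat_lit 390) (nat_lit 76) (nat_lit 0) (XT.nd (nat_lit 156) (nat_lit 0) (nat_lit 0) (XT.nd (nat_lit 78) (nat_lit 152) (nat_lit 0) (XT.lf (nat_lit 0) (nat_lit 410834018746) (nat_lit 76) (nat_lit 147757326745) (nat_lit 76) (nat_lit 20913759755) (nat_lit 7) (nat_lit 4) (nat_lit 8) (nat_lit 5) (nat_lit 8) (nat_lit 4) (nat_lit 304) (nat_lit 279) (nat_lit 197)) (XT.lf (nat_lit 0) (nat_lit 21856118162) (nat_lit 76) (nat_lit 47306607191) (nat_lit 152) (nat_lit 581205985991) (nat_lit 5) (nat_lit 5) (nat_lit 6) (nat_lit 5) (nat_lit 7) (nat_lit 4) (nat_lit 305) (nat_lit 279) (nat_lit 196))) (XT.nd (nat_lit 78) (nat_lit 0) (nat_lit 0) (XT.lf (nat_lit 0) (nat_lit 182670451097) (nat_lit 152) (nat_lit 474861468927) (nat_lit 0) (nat_lit 72371413736)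 (nat_lit 5) (nat_lit 5) (nat_lit 7) (nat_lit 4) (nat_lit 5) (nat_lit 4) (nat_lit 306) (nat_lit 279) (nat_lit 195)) (XT.nd (nat_lit 78) (nat_lit 0) (nat_lit 0) (XT.lf (nat_lit 0) (nat_lit 315456758811) (nat_lit 152) (nat_lit 300415920607) (nat_lit 0) (nat_lit 205157606807) (nat_lit 5) (nat_lit 5) (nat_lit 7) (nat_lit 4) (nat_lit 5) (nat_lit 4) (nat_lit 307) (nat_lit 279) (nat_lit 194)) (XT.lf (nat_lit 0) (nat_lit 468160775751) (nat_lit 152) (nat_lit 99804017425) (nat_lit 0) (nat_lit 357861524057) (nat_lit 5) (nat_lit 5) (nat_lit 7) (nat_lit 4) (nat_lit 5) (nat_lit 4) (nat_lit 308) (nat_lit 279) (nat_lit 193))))) (XT.nd (nat_lit 156) (nat_lit 0) (nat_lit 0) (XT.nd (nat_lit 78) (nat_lit 0) (nat_lit 0) (XT.lf (nat_lit 0) (nat_lit 143691683418) (nat_lit 76) (nat_lit 506028471975) (nat_lit 76) (nat_lit 395729133593) (nat_lit 4) (nat_lit 4) (nat_lit 5) (nat_lit 5) (nat_lit 5) (nat_lit 4) (nat_lit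 309) (nat_lit 279) (nat_lit 192)) (XT.lf (nat_lit 0) (nat_lit 434927953733) (nat_lit 76) (nat_lit 428802320869) (nat_lit 76) (nat_lit 318502907107) (nat_lit 4) (nat_lit 4) (nat_lit 5) (nat_lit 5) (nat_lit 5) (nat_lit 4) (nat_lit 310) (nat_lit 279) (nat_lit 191))) (XT.nd (nat_lit 78) (nat_lit 0) (nat_lit 0) (XT.lf (nat_lit 0) (nat_lit 769849320032) (nat_lit 76) (nat_lit 339992421607) (nat_lit 76) (nat_lit 229692942298) (nat_lit 4) (nat_lit 4) (nat_lit 5) (nat_lit 5) (nat_lit 5) (nat_lit 4) (nat_lit 311) (nat_lit 279) (nat_lit 190)) (XT.nd (nat_lit 78) (nat_lit 0) (nat_lit 0) (XT.lf (nat_lit 0) (nat_lit 1155008591654) (nat_lit 76) (nat_lit 237861189205) (nat_lit 76) (nat_lit 127561652898) (nat_lit 4) (nat_lit 4) (nat_lit 5) (nat_lit 5) (nat_lit 5) (nat_lit 4) (nat_lit 312) (nat_lit 279) (nat_lit 189)) (XT.lf (nat_lit 0) (nat_lit 1597941493479) (nat_lit 76) (nat_lit 120410403898) (nat_lit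 76) (nat_lit 10110818027) (nat_lit 4) (nat_lit 4) (nat_lit 5) (nat_lit 5) (nat_lit 5) (nat_lit 4) (nat_lit 313) (nat_lit 279) (nat_lit 188))))))) (XT.nd (nat_lit 780) (nat_lit 76) (nat_lit 0) (XT.nd (nat_lit 390) (nat_lit 0) (nat_lit 0) (XT.nd (nat_lit 156) (nat_lit 0) (nat_lit 0) (XT.nd (nat_lit 78) (nat_lit 0) (nat_lit 0) (XT.lf (nat_lit 0) (nat_lit 121088235508) (nat_lit 152) (nat_lit 1819570526730) (nat_lit 0) (nat_lit 25175514664) (nat_lit 2) (nat_lit 5) (nat_lit 4) (nat_lit 4) (nat_lit 2) (nat_lit 4) (nat_lit 314) (nat_lit 279) (nat_lit 187)) (XT.lf (nat_lit 0) (nat_lit 283813295262) (nat_lit 152) (nat_lit 1765093319942) (nat_lit 0) (nat_lit 187900541829) (nat_lit 2) (nat_lit 5) (nat_lit 4) (nat_lit 4) (nat_lit 2) (nat_lit 4) (nat_lit 315) (nat_lit 279) (nat_lit 186))) (XT.nd (nat_lit 78) (nat_lit 0) (nat_lit 0) (XT.lf (nat_lit 0) (nat_lit 470947013010) (nat_lit 152) (nat_lit 1702444740119)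 (nat_lit 0) (nat_lit 375034231240) (nat_lit 2) (nat_lit 5) (nat_lit 4) (nat_lit 4) (nat_lit 2) (nat_lit 4) (nat_lit 316) (nat_lit 279) (nat_lit 185)) (XT.nd (nat_lit 78) (nat_lit 0) (nat_lit 0) (XT.lf (nat_lit 0) (nat_lit 686150700622) (nat_lit 152) (nat_lit 1630399054176) (nat_lit 0) (nat_lit 590237894209) (nat_lit 2) (nat_lit 5) (nat_lit 4) (nat_lit 4) (nat_lit 2) (nat_lit 4) (nat_lit 317) (nat_lit 279) (nat_lit 184)) (XT.lf (nat_lit 0) (nat_lit 933634865028) (nat_lit 152) (nat_lit 1547546672607) (nat_lit 0) (nat_lit 837722037188) (nat_lit 2) (nat_lit 5) (nat_lit 4) (nat_lit 4) (nat_lit 2) (nat_lit 4) (nat_lit 318) (nat_lit 279) (nat_lit 183))))) (XT.nd (nat_lit 156) (nat_lit 0) (nat_lit 0) (XT.nd (nat_lit 78) (nat_lit 0) (nat_lit 0) (XT.lf (nat_lit 0) (nat_lit 1218241587706) (nat_lit 152) (nat_lit 1452266570554) (nat_lit 0) (nat_lit 1122328741233) (nat_lit 2) (nat_lit 5) (nat_lit 4)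 (nat_lit 4) (nat_lit 2) (nat_lit 4) (nat_lit 319) (nat_lit 279) (nat_lit 182)) (XT.lf (nat_lit 0) (nat_lit 1545539261057) (nat_lit 152) (nat_lit 1342694572107) (nat_lit 0) (nat_lit 1449626398382) (nat_lit 2) (nat_lit 5) (nat_lit 4) (nat_lit 4) (nat_lit 2) (nat_lit 4) (nat_lit 320) (nat_lit 279) (nat_lit 181))) (XT.nd (nat_lit 78) (nat_lit 0) (nat_lit 0) (XT.lf (nat_lit 0) (nat_lit 1921931535211) (nat_lit 152) (nat_lit 1216686877297) (nat_lit 0) (nat_lit 1826018658447) (nat_lit 2) (nat_lit 5) (nat_lit 4) (nat_lit 4) (nat_lit 2) (nat_lit 4) (nat_lit 321) (nat_lit 279) (nat_lit 180)) (XT.nd (nat_lit 78) (nat_lit 0) (nat_lit 0) (XT.lf (nat_lit 0) (nat_lit 2354782606837) (nat_lit 152) (nat_lit 1071778118183) (nat_lit 0) (nat_lit 2258869717821) (nat_lit 2) (nat_lit 5) (nat_lit 4) (nat_lit 4) (nat_lit 2) (nat_lit 4) (nat_lit 322) (nat_lit 279) (nat_lit 179)) (XT.lf (nat_lit 0) (nat_lit 2852561301248)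 (nat_lit 152) (nat_lit 905133123389) (nat_lit 0) (nat_lit 2756648401579) (nat_lit 2) (nat_lit 5) (nat_lit 4) (nat_lit 4) (nat_lit 2) (nat_lit 4) (nat_lit 323) (nat_lit 279) (nat_lit 178)))))) (XT.nd (nat_lit 390) (nat_lit 0) (nat_lit 0) (XT.nd (nat_lit 156) (nat_lit 76) (nat_lit 0) (XT.nd (nat_lit 78) (nat_lit 0) (nat_lit 0) (XT.lf (nat_lit 0) (nat_lit 3425006766814) (nat_lit 152) (nat_lit 713491447366) (nat_lit 0) (nat_lit 3329093857881) (nat_lit 2) (nat_lit 5) (nat_lit 4) (nat_lit 4) (nat_lit 2) (nat_lit 4) (nat_lit 324) (nat_lit 279) (nat_lit 177)) (XT.lf (nat_lit 0) (nat_lit 4083319023514) (nat_lit 152) (nat_lit 493103579061) (nat_lit 0) (nat_lit 3987406106525) (nat_lit 2) (nat_lit 5) (nat_lit 4) (nat_lit 4) (nat_lit 2) (nat_lit 4) (nat_lit 325) (nat_lit 279) (nat_lit 176))) (XT.nd (nat_lit 78) (nat_lit 76) (nat_lit 0) (XT.lf (nat_lit 0) (nat_lit 4840378093760) (nat_lit 152) (nat_lit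 239657581921) (nat_lit 0) (nat_lit 4744465169767) (nat_lit 2) (nat_lit 5) (nat_lit 4) (nat_lit 4) (nat_lit 2) (nat_lit 4) (nat_lit 326) (nat_lit 279) (nat_lit 175)) (XT.nd (nat_lit 78) (nat_lit 0) (nat_lit 0) (XT.lf (nat_lit 0) (nat_lit 56868057844) (nat_lit 76) (nat_lit 5656482730000) (nat_lit 76) (nat_lit 5560569799916) (nat_lit 1) (nat_lit 4) (nat_lit 2) (nat_lit 5) (nat_lit 2) (nat_lit 4) (nat_lit 327) (nat_lit 279) (nat_lit 174)) (XT.lf (nat_lit 0) (nat_lit 424806745053) (nat_lit 76) (nat_lit 6304990175769) (nat_lit 76) (nat_lit 6209077240388) (nat_lit 1) (nat_lit 4) (nat_lit 2) (nat_lit 5) (nat_lit 2) (nat_lit 4) (nat_lit 328) (nat_lit 279) (nat_lit 173))))) (XT.nd (nat_lit 156) (nat_lit 0) (nat_lit 0) (XT.nd (nat_lit 78) (nat_lit 0) (nat_lit 0) (XT.lf (nat_lit 0) (nat_lit 847936198236) (nat_lit 76) (nat_lit 7050773757563) (nat_lit 76) (nat_lit 6954860817576) (nat_lit 1) (nat_lit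 4) (nat_lit 2) (nat_lit 5) (nat_lit 2) (nat_lit 4) (nat_lit 329) (nat_lit 279) (nat_lit 172)) (XT.lf (nat_lit 0) (nat_lit 1334535037130) (nat_lit 76) (nat_lit 7908424893286) (nat_lit 76) (nat_lit 7812511949294) (nat_lit 1) (nat_lit 4) (nat_lit 2) (nat_lit 5) (nat_lit 2) (nat_lit 4) (nat_lit 330) (nat_lit 279) (nat_lit 171))) (XT.nd (nat_lit 78) (nat_lit 0) (nat_lit 0) (XT.lf (nat_lit 0) (nat_lit 1894123673800) (nat_lit 76) (nat_lit 8894723713856) (nat_lit 76) (nat_lit 8798810766381) (nat_lit 1) (nat_lit 4) (nat_lit 2) (nat_lit 5) (nat_lit 2) (nat_lit 4) (nat_lit 331) (nat_lit 279) (nat_lit 170)) (XT.nd (nat_lit 78) (nat_lit 0) (nat_lit 0) (XT.lf (nat_lit 0) (nat_lit 2537650581573) (nat_lit 76) (nat_lit 10028967370108) (nat_lit 76) (nat_lit 9933054419605) (nat_lit 1) (nat_lit 4) (nat_lit 2) (nat_lit 5) (nat_lit 2) (nat_lit 4) (nat_lit 332) (nat_lit 279) (nat_lit 169)) (XT.lf (nat_lit 0)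 (nat_lit 3277706504297) (nat_lit 76) (nat_lit 11333347585753) (nat_lit 76) (nat_lit 11237434632617) (nat_lit 1) (nat_lit 4) (nat_lit 2) (nat_lit 5) (nat_lit 2) (nat_lit 4) (nat_lit 333) (nat_lit 279) (nat_lit 168))))))))
noncomputable def xc85 : XT := (XT.nd (nat_lit 37128) (nat_lit 0) (nat_lit 304) (XT.nd (nat_lit 1716) (nat_lit 0) (nat_lit 0) (XT.nd (nat_lit 390) (nat_lit 0) (nat_lit 0) (XT.nd (nat_lit 156) (nat_lit 0) (nat_lit 0) (XT.nd (nat_lit 78) (nat_lit 0) (nat_lit 0) (XT.lf (nat_lit 0) (nat_lit 4128770796980) (nat_lit 76) (nat_lit 12833384843271) (nat_lit 76) (nat_lit 12737471887845) (nat_lit 1) (nat_lit 4) (nat_lit 2) (nat_lit 5) (nat_lit 2) (nat_lit 4) (nat_lit 334) (nat_lit 279) (nat_lit 167)) (XT.lf (nat_lit 0) (nat_lit 5107494717524) (nat_lit 76) (nat_lit 14558427697699) (nat_lit 76) (nat_lit 14462514740282) (nat_lit 1) (nat_lit 4) (nat_lit 2) (nat_lit 5) (nat_lit 2) (nat_lit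 4) (nat_lit 335) (nat_lit 279) (nat_lit 166))) (XT.nd (nat_lit 78) (nat_lit 0) (nat_lit 0) (XT.lf (nat_lit 0) (nat_lit 6233027212199) (nat_lit 76) (nat_lit 16542226987495) (nat_lit 76) (nat_lit 16446314028346) (nat_lit 1) (nat_lit 4) (nat_lit 2) (nat_lit 5) (nat_lit 2) (nat_lit 4) (nat_lit 336) (nat_lit 279) (nat_lit 165)) (XT.nd (nat_lit 78) (nat_lit 0) (nat_lit 0) (XT.lf (nat_lit 0) (nat_lit 7527389568946) (nat_lit 76) (nat_lit 18823596177023) (nat_lit 76) (nat_lit 18727683216369) (nat_lit 1) (nat_lit 4) (nat_lit 2) (nat_lit 5) (nat_lit 2) (nat_lit 4) (nat_lit 337) (nat_lit 279) (nat_lit 164)) (XT.lf (nat_lit 0) (nat_lit 9015906268657) (nat_lit 76) (nat_lit 21447170750426) (nat_lit 76) (nat_lit 21351257788463) (nat_lit 1) (nat_lit 4) (nat_lit 2) (nat_lit 5) (nat_lit 2) (nat_lit 4) (nat_lit 338) (nat_lit 279) (nat_lit 163))))) (XT.nd (nat_lit 1092) (nat_lit 0) (nat_lit 0) (XT.nd (nat_lit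 1014) (nat_lit 0) (nat_lit 0) (XT.lf (nat_lit 0) (nat_lit 10727700464152) (nat_lit 76) (nat_lit 24464281514577) (nat_lit 76) (nat_lit 24368368551475) (nat_lit 1) (nat_lit 4) (nat_lit 2) (nat_lit 5) (nat_lit 2) (nat_lit 4) (nat_lit 339) (nat_lit 279) (nat_lit 162)) (XT.lf (nat_lit 0) (nat_lit 78351624378503) (nat_lit 76) (nat_lit 143654352994230) (nat_lit 76) (nat_lit 143558440024772) (nat_lit 1) (nat_lit 4) (nat_lit 2) (nat_lit 5) (nat_lit 2) (nat_lit 4) (nat_lit 352) (nat_lit 279) (nat_lit 149))) (XT.nd (nat_lit 78) (nat_lit 0) (nat_lit 0) (XT.lf (nat_lit 0) (nat_lit 90463776237969) (nat_lit 76) (nat_lit 165002541122063) (nat_lit 76) (nat_lit 164906628152443) (nat_lit 1) (nat_lit 4) (nat_lit 2) (nat_lit 5) (nat_lit 2) (nat_lit 4) (nat_lit 353) (nat_lit 279) (nat_lit 148)) (XT.nd (nat_lit 78) (nat_lit 0) (nat_lit 0) (XT.lf (nat_lit 0) (nat_lit 104392750875229) (nat_lit 76) (nat_lit 189552957469651)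 (nat_lit 76) (nat_lit 189457044499892) (nat_lit 1) (nat_lit 4) (nat_lit 2) (nat_lit 5) (nat_lit 2) (nat_lit 4) (nat_lit 354) (nat_lit 279) (nat_lit 147)) (XT.lf (nat_lit 0) (nat_lit 120411071707097) (nat_lit 76) (nat_lit 217785936269884) (nat_lit 76) (nat_lit 217690023300003) (nat_lit 1) (nat_lit 4) (nat_lit 2) (nat_lit 5) (nat_lit 2) (nat_lit 4) (nat_lit 355) (nat_lit 279) (nat_lit 146)))))) (XT.nd (nat_lit 35022) (nat_lit 0) (nat_lit 1368) (XT.nd (nat_lit 34788) (nat_lit 0) (nat_lit 1672) (XT.nd (nat_lit 34710) (nat_lit 0) (nat_lit 1672) (XT.lf (nat_lit 0) (nat_lit 138832140662893) (nat_lit 76) (nat_lit 250253861890592) (nat_lit 76) (nat_lit 250157948920605) (nat_lit 1) (nat_lit 4) (nat_lit 2) (nat_lit 5) (nat_lit 2) (nat_lit 4) (nat_lit 356) (nat_lit 279) (nat_lit 145)) (XT.lf (nat_lit 0) (nat_lit 6068070994) (nat_lit 380) (nat_lit 13612044367) (nat_lit 380) (nat_lit 13612044367) (nat_lit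 23) (nat_lit 3) (nat_lit 28) (nat_lit 3) (nat_lit 28) (nat_lit 5) (nat_lit 280) (nat_lit 280) (nat_lit 220))) (XT.nd (nat_lit 78) (nat_lit 0) (nat_lit 76) (XT.lf (nat_lit 76) (nat_lit 4620015553) (nat_lit 0) (nat_lit 8631090045) (nat_lit 380) (nat_lit 58296281560) (nat_lit 24) (nat_lit 5) (nat_lit 23) (nat_lit 3) (nat_lit 28) (nat_lit 5) (nat_lit 281) (nat_lit 280) (nat_lit 219)) (XT.nd (nat_lit 78) (nat_lit 0) (nat_lit 0) (XT.lf (nat_lit 0) (nat_lit 17127635854) (nat_lit 304) (nat_lit 33916695443) (nat_lit 380) (nat_lit 25821443111) (nat_lit 24) (nat_lit 5) (nat_lit 28) (nat_lit 5) (nat_lit 29) (nat_lit 5) (nat_lit 282) (nat_lit 280) (nat_lit 218)) (XT.lf (nat_lit 76) (nat_lit 3987932116) (nat_lit 0) (nat_lit 18171746776) (nat_lit 380) (nat_lit 60736142574) (nat_lit 25) (nat_lit 5) (nat_lit 24) (nat_lit 5) (nat_lit 29) (nat_lit 5) (nat_lit 283) (nat_lit 280) (nat_lit 217))))) (XT.nd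 (nat_lit 156) (nat_lit 152) (nat_lit 0) (XT.nd (nat_lit 78) (nat_lit 304) (nat_lit 0) (XT.lf (nat_lit 0) (nat_lit 30614896322) (nat_lit 304) (nat_lit 39073647417) (nat_lit 76) (nat_lit 19741582485) (nat_lit 25) (nat_lit 5) (nat_lit 29) (nat_lit 5) (nat_lit 26) (nat_lit 5) (nat_lit 284) (nat_lit 280) (nat_lit 216)) (XT.lf (nat_lit 0) (nat_lit 6442290351) (nat_lit 304) (nat_lit 35026551582) (nat_lit 380) (nat_lit 55306173001) (nat_lit 21) (nat_lit 5) (nat_lit 25) (nat_lit 5) (nat_lit 26) (nat_lit 5) (nat_lit 285) (nat_lit 280) (nat_lit 215))) (XT.nd (nat_lit 78) (nat_lit 152) (nat_lit 0) (XT.lf (nat_lit 0) (nat_lit 56289330049) (nat_lit 380) (nat_lit 42037562686) (nat_lit 76) (nat_lit 6543981024) (nat_lit 21) (nat_lit 5) (nat_lit 26) (nat_lit 5) (nat_lit 22) (nat_lit 5) (nat_lit 286) (nat_lit 280) (nat_lit 214)) (XT.nd (nat_lit 78) (nat_lit 0) (nat_lit 0) (XT.lf (nat_lit 0) (nat_lit 12988718346)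 (nat_lit 152) (nat_lit 62548640980) (nat_lit 228) (nat_lit 38313085724) (nat_lit 19) (nat_lit 5) (nat_lit 21) (nat_lit 5) (nat_lit 22) (nat_lit 5) (nat_lit 287) (nat_lit 280) (nat_lit 213)) (XT.lf (nat_lit 0) (nat_lit 80991892041) (nat_lit 152) (nat_lit 18876928082) (nat_lit 228) (nat_lit 23978701178) (nat_lit 19) (nat_lit 5) (nat_lit 21) (nat_lit 5) (nat_lit 22) (nat_lit 5) (nat_lit 288) (nat_lit 280) (nat_lit 212))))))) (XT.nd (nat_lit 780) (nat_lit 456) (nat_lit 0) (XT.nd (nat_lit 390) (nat_lit 228) (nat_lit 0) (XT.nd (nat_lit 156) (nat_lit 228) (nat_lit 0) (XT.nd (nat_lit 78) (nat_lit 76) (nat_lit 0) (XT.lf (nat_lit 0) (nat_lit 24755924290) (nat_lit 76) (nat_lit 105416071170) (nat_lit 152) (nat_lit 4823867116) (nat_lit 18) (nat_lit 5) (nat_lit 19) (nat_lit 5) (nat_lit 20) (nat_lit 4) (nat_lit 289) (nat_lit 280) (nat_lit 211)) (XT.lf (nat_lit 0) (nat_lit 18917297323) (nat_lit 152)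 (nat_lit 41874279843) (nat_lit 76) (nat_lit 86431310521) (nat_lit 17) (nat_lit 5) (nat_lit 19) (nat_lit 5) (nat_lit 18) (nat_lit 5) (nat_lit 290) (nat_lit 280) (nat_lit 210))) (XT.nd (nat_lit 78) (nat_lit 76) (nat_lit 0) (XT.lf (nat_lit 0) (nat_lit 40083761194) (nat_lit 152) (nat_lit 7300902883) (nat_lit 228) (nat_lit 113616013237) (nat_lit 15) (nat_lit 5) (nat_lit 17) (nat_lit 5) (nat_lit 18) (nat_lit 5) (nat_lit 291) (nat_lit 280) (nat_lit 209)) (XT.nd (nat_lit 78) (nat_lit 76) (nat_lit 0) (XT.lf (nat_lit 0) (nat_lit 84659275016) (nat_lit 228) (nat_lit 39825629687) (nat_lit 76) (nat_lit 51679661462) (nat_lit 15) (nat_lit 5) (nat_lit 18) (nat_lit 5) (nat_lit 16) (nat_lit 4) (nat_lit 292) (nat_lit 280) (nat_lit 208)) (XT.lf (nat_lit 0) (nat_lit 58267936674) (nat_lit 76) (nat_lit 72016826748) (nat_lit 152) (nat_lit 62904323492) (nat_lit 14) (nat_lit 5) (nat_lit 15) (nat_lit 5) (nat_lit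 16) (nat_lit 4) (nat_lit 293) (nat_lit 280) (nat_lit 207))))) (XT.nd (nat_lit 156) (nat_lit 76) (nat_lit 0) (XT.nd (nat_lit 78) (nat_lit 152) (nat_lit 0) (XT.lf (nat_lit 0) (nat_lit 175550283028) (nat_lit 76) (nat_lit 9284907903) (nat_lit 152) (nat_lit 27619928718) (nat_lit 14) (nat_lit 5) (nat_lit 15) (nat_lit 5) (nat_lit 16) (nat_lit 4) (nat_lit 294) (nat_lit 280) (nat_lit 206)) (XT.lf (nat_lit 0) (nat_lit 18015860228) (nat_lit 152) (nat_lit 154175735584) (nat_lit 76) (nat_lit 61407143216) (nat_lit 12) (nat_lit 5) (nat_lit 14) (nat_lit 5) (nat_lit 13) (nat_lit 4) (nat_lit 295) (nat_lit 280) (nat_lit 205))) (XT.nd (nat_lit 78) (nat_lit 76) (nat_lit 0) (XT.lf (nat_lit 0) (nat_lit 70131784876) (nat_lit 152) (nat_lit 42127202970) (nat_lit 76) (nat_lit 145088250793) (nat_lit 12) (nat_lit 5) (nat_lit 14) (nat_lit 5) (nat_lit 13) (nat_lit 4) (nat_lit 296) (nat_lit 280) (nat_lit 204)) (XT.nd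 (nat_lit 78) (nat_lit 0) (nat_lit 0) (XT.lf (nat_lit 0) (nat_lit 95203354710) (nat_lit 76) (nat_lit 38803393446) (nat_lit 152) (nat_lit 150060018261) (nat_lit 11) (nat_lit 5) (nat_lit 12) (nat_lit 5) (nat_lit 13) (nat_lit 4) (nat_lit 297) (nat_lit 280) (nat_lit 203)) (XT.lf (nat_lit 0) (nat_lit 211660538832) (nat_lit 152) (nat_lit 58592802097) (nat_lit 0) (nat_lit 43911245620) (nat_lit 11) (nat_lit 5) (nat_lit 13) (nat_lit 4) (nat_lit 11) (nat_lit 4) (nat_lit 298) (nat_lit 280) (nat_lit 202)))))) (XT.nd (nat_lit 390) (nat_lit 228) (nat_lit 0) (XT.nd (nat_lit 156) (nat_lit 76) (nat_lit 0) (XT.nd (nat_lit 78) (nat_lit 76) (nat_lit 0) (XT.lf (nat_lit 0) (nat_lit 98103675714) (nat_lit 76) (nat_lit 208768329955) (nat_lit 76) (nat_lit 41018633441) (nat_lit 10) (nat_lit 4) (nat_lit 11) (nat_lit 5) (nat_lit 11) (nat_lit 4) (nat_lit 299) (nat_lit 280) (nat_lit 201)) (XT.lf (nat_lit 0) (nat_lit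 30254641401) (nat_lit 152) (nat_lit 102702568199) (nat_lit 76) (nat_lit 253052749759) (nat_lit 9) (nat_lit 5) (nat_lit 11) (nat_lit 5) (nat_lit 10) (nat_lit 4) (nat_lit 300) (nat_lit 280) (nat_lit 200))) (XT.nd (nat_lit 78) (nat_lit 0) (nat_lit 0) (XT.lf (nat_lit 0) (nat_lit 70792989938) (nat_lit 76) (nat_lit 40157401738) (nat_lit 152) (nat_lit 318164144443) (nat_lit 8) (nat_lit 5) (nat_lit 9) (nat_lit 5) (nat_lit 10) (nat_lit 4) (nat_lit 301) (nat_lit 280) (nat_lit 199)) (XT.nd (nat_lit 78) (nat_lit 0) (nat_lit 0) (XT.lf (nat_lit 0) (nat_lit 212130530681) (nat_lit 152) (nat_lit 199036836451) (nat_lit 0) (nat_lit 66260428643) (nat_lit 8) (nat_lit 5) (nat_lit 10) (nat_lit 4) (nat_lit 8) (nat_lit 4) (nat_lit 302) (nat_lit 280) (nat_lit 198)) (XT.lf (nat_lit 0) (nat_lit 330399627615) (nat_lit 152) (nat_lit 17772301408) (nat_lit 0) (nat_lit 184529325064) (nat_lit 8) (nat_lit 5) (nat_lit 10)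 (nat_lit 4) (nat_lit 8) (nat_lit 4) (nat_lit 303) (nat_lit 280) (nat_lit 197))))) (XT.nd (nat_lit 234) (nat_lit 0) (nat_lit 0) (XT.nd (nat_lit 78) (nat_lit 152) (nat_lit 0) (XT.lf (nat_lit 0) (nat_lit 209316141733) (nat_lit 76) (nat_lit 265760004027) (nat_lit 76) (nat_lit 119889527118) (nat_lit 7) (nat_lit 4) (nat_lit 8) (nat_lit 5) (nat_lit 8) (nat_lit 4) (nat_lit 304) (nat_lit 280) (nat_lit 196)) (XT.nd (nat_lit 78) (nat_lit 152) (nat_lit 0) (XT.lf (nat_lit 0) (nat_lit 472464697795) (nat_lit 76) (nat_lit 169918186976) (nat_lit 76) (nat_lit 24047558450) (nat_lit 7) (nat_lit 4) (nat_lit 8) (nat_lit 5) (nat_lit 8) (nat_lit 4) (nat_lit 305) (nat_lit 280) (nat_lit 195)) (XT.lf (nat_lit 0) (nat_lit 25140137962) (nat_lit 76) (nat_lit 54399814748) (nat_lit 152) (nat_lit 668383640894) (nat_lit 5) (nat_lit 5) (nat_lit 6) (nat_lit 5) (nat_lit 7) (nat_lit 4) (nat_lit 306) (nat_lit 280) (nat_lit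 194)))) (XT.nd (nat_lit 78) (nat_lit 0) (nat_lit 0) (XT.lf (nat_lit 0) (nat_lit 210073569903) (nat_lit 152) (nat_lit 546085549041) (nat_lit 0) (nat_lit 83229330765) (nat_lit 5) (nat_lit 5) (nat_lit 7) (nat_lit 4) (nat_lit 5) (nat_lit 4) (nat_lit 307) (nat_lit 280) (nat_lit 193)) (XT.nd (nat_lit 78) (nat_lit 0) (nat_lit 0) (XT.lf (nat_lit 0) (nat_lit 362777491017) (nat_lit 152) (nat_lit 345473838938) (nat_lit 0) (nat_lit 235933165191) (nat_lit 5) (nat_lit 5) (nat_lit 7) (nat_lit 4) (nat_lit 5) (nat_lit 4) (nat_lit 308) (nat_lit 280) (nat_lit 192)) (XT.lf (nat_lit 0) (nat_lit 538386821144) (nat_lit 152) (nat_lit 114770733290) (nat_lit 0) (nat_lit 411542419938) (nat_lit 5) (nat_lit 5) (nat_lit 7) (nat_lit 4) (nat_lit 5) (nat_lit 4) (nat_lit 309) (nat_lit 280) (nat_lit 191))))))))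
noncomputable def xc86 : XT := (XT.nd (nat_lit 1560) (nat_lit 0) (nat_lit 0) (XT.nd (nat_lit 780) (nat_lit 76) (nat_lit 0) (XT.nd (nat_lit 390) (nat_lit 152) (nat_lit 0) (XT.nd (nat_lit 156) (nat_lit 0) (nat_lit 0) (XT.nd (nat_lit 78) (nat_lit 0) (nat_lit 0) (XT.lf (nat_lit 0) (nat_lit 165249146008) (nat_lit 76) (nat_lit 581930863737) (nat_lit 76) (nat_lit 455086396983) (nat_lit 4) (nat_lit 4) (nat_lit 5) (nat_lit 5) (nat_lit 5) (nat_lit 4) (nat_lit 310) (nat_lit 280) (nat_lit 190)) (XT.lf (nat_lit 0) (nat_lit 500170372948) (nat_lit 76) (nat_lit 493121035057) (nat_lit 76) (nat_lit 366276511305) (nat_lit 4) (nat_lit 4) (nat_lit 5) (nat_lit 5) (nat_lit 5) (nat_lit 4) (nat_lit 311) (nat_lit 280) (nat_lit 189))) (XT.nd (nat_lit 78) (nat_lit 0) (nat_lit 0) (XT.lf (nat_lit 0) (nat_lit 885329523389) (nat_lit 76) (nat_lit 390989864029) (nat_lit 76) (nat_lit 264145290713) (nat_lit 4) (nat_lit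 4) (nat_lit 5) (nat_lit 5) (nat_lit 5) (nat_lit 4) (nat_lit 312) (nat_lit 280) (nat_lit 188)) (XT.nd (nat_lit 78) (nat_lit 0) (nat_lit 0) (XT.lf (nat_lit 0) (nat_lit 1328262319838) (nat_lit 76) (nat_lit 273539132091) (nat_lit 76) (nat_lit 146694515677) (nat_lit 4) (nat_lit 4) (nat_lit 5) (nat_lit 5) (nat_lit 5) (nat_lit 4) (nat_lit 313) (nat_lit 280) (nat_lit 187)) (XT.lf (nat_lit 0) (nat_lit 1837634838750) (nat_lit 76) (nat_lit 138470890139) (nat_lit 76) (nat_lit 11626236248) (nat_lit 4) (nat_lit 4) (nat_lit 5) (nat_lit 5) (nat_lit 5) (nat_lit 4) (nat_lit 314) (nat_lit 280) (nat_lit 186))))) (XT.nd (nat_lit 156) (nat_lit 0) (nat_lit 0) (XT.nd (nat_lit 78) (nat_lit 0) (nat_lit 0) (XT.lf (nat_lit 0) (nat_lit 139252558011) (nat_lit 152) (nat_lit 2092503866302) (nat_lit 0) (nat_lit 28952830637) (nat_lit 2) (nat_lit 5) (nat_lit 4) (nat_lit 4) (nat_lit 2) (nat_lit 4) (nat_lit 315) (nat_lit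 280) (nat_lit 185)) (XT.lf (nat_lit 0) (nat_lit 326386234923) (nat_lit 152) (nat_lit 2029855370597) (nat_lit 0) (nat_lit 216086482906) (nat_lit 2) (nat_lit 5) (nat_lit 4) (nat_lit 4) (nat_lit 2) (nat_lit 4) (nat_lit 316) (nat_lit 280) (nat_lit 184))) (XT.nd (nat_lit 78) (nat_lit 0) (nat_lit 0) (XT.lf (nat_lit 0) (nat_lit 541589887024) (nat_lit 152) (nat_lit 1957809757801) (nat_lit 0) (nat_lit 431290113580) (nat_lit 2) (nat_lit 5) (nat_lit 4) (nat_lit 4) (nat_lit 2) (nat_lit 4) (nat_lit 317) (nat_lit 280) (nat_lit 183)) (XT.nd (nat_lit 78) (nat_lit 0) (nat_lit 0) (XT.lf (nat_lit 0) (nat_lit 789074020552) (nat_lit 152) (nat_lit 1874957439837) (nat_lit 0) (nat_lit 678774228475) (nat_lit 2) (nat_lit 5) (nat_lit 4) (nat_lit 4) (nat_lit 2) (nat_lit 4) (nat_lit 318) (nat_lit 280) (nat_lit 182)) (XT.lf (nat_lit 0) (nat_lit 1073680716379) (nat_lit 152) (nat_lit 1779677393093) (nat_lit 0) (nat_lit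 963380908100) (nat_lit 2) (nat_lit 5) (nat_lit 4) (nat_lit 4) (nat_lit 2) (nat_lit 4) (nat_lit 319) (nat_lit 280) (nat_lit 181)))))) (XT.nd (nat_lit 390) (nat_lit 76) (nat_lit 0) (XT.nd (nat_lit 156) (nat_lit 0) (nat_lit 0) (XT.nd (nat_lit 78) (nat_lit 0) (nat_lit 0) (XT.lf (nat_lit 0) (nat_lit 1400978366381) (nat_lit 152) (nat_lit 1670105442741) (nat_lit 0) (nat_lit 1290678544013) (nat_lit 2) (nat_lit 5) (nat_lit 4) (nat_lit 4) (nat_lit 2) (nat_lit 4) (nat_lit 320) (nat_lit 280) (nat_lit 180)) (XT.lf (nat_lit 0) (nat_lit 1777370620232) (nat_lit 152) (nat_lit 1544097789753) (nat_lit 0) (nat_lit 1667070785613) (nat_lit 2) (nat_lit 5) (nat_lit 4) (nat_lit 4) (nat_lit 2) (nat_lit 4) (nat_lit 321) (nat_lit 280) (nat_lit 179))) (XT.nd (nat_lit 78) (nat_lit 0) (nat_lit 0) (XT.lf (nat_lit 0) (nat_lit 2210221674203) (nat_lit 152) (nat_lit 1399189067005) (nat_lit 0) (nat_lit 2099921828930) (nat_lit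 2) (nat_lit 5) (nat_lit 4) (nat_lit 4) (nat_lit 2) (nat_lit 4) (nat_lit 322) (nat_lit 280) (nat_lit 178)) (XT.nd (nat_lit 78) (nat_lit 0) (nat_lit 0) (XT.lf (nat_lit 0) (nat_lit 2708000353262) (nat_lit 152) (nat_lit 1232544103834) (nat_lit 0) (nat_lit 2597700498726) (nat_lit 2) (nat_lit 5) (nat_lit 4) (nat_lit 4) (nat_lit 2) (nat_lit 4) (nat_lit 323) (nat_lit 280) (nat_lit 177)) (XT.lf (nat_lit 0) (nat_lit 3280445805479) (nat_lit 152) (nat_lit 1040902455310) (nat_lit 0) (nat_lit 3170145942887) (nat_lit 2) (nat_lit 5) (nat_lit 4) (nat_lit 4) (nat_lit 2) (nat_lit 4) (nat_lit 324) (nat_lit 280) (nat_lit 176))))) (XT.nd (nat_lit 156) (nat_lit 76) (nat_lit 0) (XT.nd (nat_lit 78) (nat_lit 0) (nat_lit 0) (XT.lf (nat_lit 0) (nat_lit 3938758050570) (nat_lit 152) (nat_lit 820514610917) (nat_lit 0) (nat_lit 3828458180973) (nat_lit 2) (nat_lit 5) (nat_lit 4) (nat_lit 4) (nat_lit 2) (nat_lit 4) (nat_lit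 325) (nat_lit 280) (nat_lit 175)) (XT.lf (nat_lit 0) (nat_lit 4695817110722) (nat_lit 152) (nat_lit 567068634569) (nat_lit 0) (nat_lit 4585517235034) (nat_lit 2) (nat_lit 5) (nat_lit 4) (nat_lit 4) (nat_lit 2) (nat_lit 4) (nat_lit 326) (nat_lit 280) (nat_lit 174))) (XT.nd (nat_lit 78) (nat_lit 76) (nat_lit 0) (XT.lf (nat_lit 0) (nat_lit 5566435011025) (nat_lit 152) (nat_lit 275605800642) (nat_lit 0) (nat_lit 5456135130041) (nat_lit 2) (nat_lit 5) (nat_lit 4) (nat_lit 4) (nat_lit 2) (nat_lit 4) (nat_lit 327) (nat_lit 280) (nat_lit 173)) (XT.nd (nat_lit 78) (nat_lit 0) (nat_lit 0) (XT.lf (nat_lit 0) (nat_lit 65398666062) (nat_lit 76) (nat_lit 6504954933200) (nat_lit 76) (nat_lit 6394655047609) (nat_lit 1) (nat_lit 4) (nat_lit 2) (nat_lit 5) (nat_lit 2) (nat_lit 4) (nat_lit 328) (nat_lit 280) (nat_lit 172)) (XT.lf (nat_lit 0) (nat_lit 488528104237) (nat_lit 76) (nat_lit 7250738522743) (nat_lit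 76) (nat_lit 7140438633147) (nat_lit 1) (nat_lit 4) (nat_lit 2) (nat_lit 5) (nat_lit 2) (nat_lit 4) (nat_lit 329) (nat_lit 280) (nat_lit 171))))))) (XT.nd (nat_lit 1716) (nat_lit 0) (nat_lit 0) (XT.nd (nat_lit 390) (nat_lit 0) (nat_lit 0) (XT.nd (nat_lit 156) (nat_lit 0) (nat_lit 0) (XT.nd (nat_lit 78) (nat_lit 0) (nat_lit 0) (XT.lf (nat_lit 0) (nat_lit 975126930081) (nat_lit 76) (nat_lit 8108389665205) (nat_lit 76) (nat_lit 7998089772127) (nat_lit 1) (nat_lit 4) (nat_lit 2) (nat_lit 5) (nat_lit 2) (nat_lit 4) (nat_lit 330) (nat_lit 280) (nat_lit 170)) (XT.lf (nat_lit 0) (nat_lit 1534715555404) (nat_lit 76) (nat_lit 9094688491633) (nat_lit 76) (nat_lit 8984388595527) (nat_lit 1) (nat_lit 4) (nat_lit 2) (nat_lit 5) (nat_lit 2) (nat_lit 4) (nat_lit 331) (nat_lit 280) (nat_lit 169))) (XT.nd (nat_lit 78) (nat_lit 0) (nat_lit 0) (XT.lf (nat_lit 0) (nat_lit 2178242453309) (nat_lit 76) (nat_lit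 10228932152981) (nat_lit 76) (nat_lit 10118632254241) (nat_lit 1) (nat_lit 4) (nat_lit 2) (nat_lit 5) (nat_lit 2) (nat_lit 4) (nat_lit 332) (nat_lit 280) (nat_lit 168)) (XT.nd (nat_lit 78) (nat_lit 0) (nat_lit 0) (XT.lf (nat_lit 0) (nat_lit 2918298367452) (nat_lit 76) (nat_lit 11533312373057) (nat_lit 76) (nat_lit 11423012472027) (nat_lit 1) (nat_lit 4) (nat_lit 2) (nat_lit 5) (nat_lit 2) (nat_lit 4) (nat_lit 333) (nat_lit 280) (nat_lit 167)) (XT.lf (nat_lit 0) (nat_lit 3769362652674) (nat_lit 76) (nat_lit 13033349634427) (nat_lit 76) (nat_lit 12923049731406) (nat_lit 1) (nat_lit 4) (nat_lit 2) (nat_lit 5) (nat_lit 2) (nat_lit 4) (nat_lit 334) (nat_lit 280) (nat_lit 166))))) (XT.nd (nat_lit 156) (nat_lit 0) (nat_lit 0) (XT.nd (nat_lit 78) (nat_lit 0) (nat_lit 0) (XT.lf (nat_lit 0) (nat_lit 4748086566729) (nat_lit 76) (nat_lit 14758392492205) (nat_lit 76) (nat_lit 14648092587453) (nat_lit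 1) (nat_lit 4) (nat_lit 2) (nat_lit 5) (nat_lit 2) (nat_lit 4) (nat_lit 335) (nat_lit 280) (nat_lit 165)) (XT.lf (nat_lit 0) (nat_lit 5873619055763) (nat_lit 76) (nat_lit 16742191784914) (nat_lit 76) (nat_lit 16631891878656) (nat_lit 1) (nat_lit 4) (nat_lit 2) (nat_lit 5) (nat_lit 2) (nat_lit 4) (nat_lit 336) (nat_lit 280) (nat_lit 164))) (XT.nd (nat_lit 78) (nat_lit 0) (nat_lit 0) (XT.lf (nat_lit 0) (nat_lit 7167981407604) (nat_lit 76) (nat_lit 19023560976975) (nat_lit 76) (nat_lit 18913261069408) (nat_lit 1) (nat_lit 4) (nat_lit 2) (nat_lit 5) (nat_lit 2) (nat_lit 4) (nat_lit 337) (nat_lit 280) (nat_lit 163)) (XT.nd (nat_lit 78) (nat_lit 0) (nat_lit 0) (XT.lf (nat_lit 0) (nat_lit 8656498103048) (nat_lit 76) (nat_lit 21647135552582) (nat_lit 76) (nat_lit 21536835643876) (nat_lit 1) (nat_lit 4) (nat_lit 2) (nat_lit 5) (nat_lit 2) (nat_lit 4) (nat_lit 338) (nat_lit 280) (nat_lit 162))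 (XT.lf (nat_lit 0) (nat_lit 10368292294834) (nat_lit 76) (nat_lit 24664246318648) (nat_lit 76) (nat_lit 24553946408952) (nat_lit 1) (nat_lit 4) (nat_lit 2) (nat_lit 5) (nat_lit 2) (nat_lit 4) (nat_lit 339) (nat_lit 280) (nat_lit 161)))))) (XT.nd (nat_lit 35256) (nat_lit 0) (nat_lit 1520) (XT.nd (nat_lit 156) (nat_lit 0) (nat_lit 0) (XT.nd (nat_lit 78) (nat_lit 0) (nat_lit 0) (XT.lf (nat_lit 0) (nat_lit 77992216188473) (nat_lit 76) (nat_lit 143854317808996) (nat_lit 76) (nat_lit 143744017893773) (nat_lit 1) (nat_lit 4) (nat_lit 2) (nat_lit 5) (nat_lit 2) (nat_lit 4) (nat_lit 352) (nat_lit 280) (nat_lit 148)) (XT.lf (nat_lit 0) (nat_lit 90104368047415) (nat_lit 76) (nat_lit 165202505937098) (nat_lit 76) (nat_lit 165092206021736) (nat_lit 1) (nat_lit 4) (nat_lit 2) (nat_lit 5) (nat_lit 2) (nat_lit 4) (nat_lit 353) (nat_lit 280) (nat_lit 147))) (XT.nd (nat_lit 34944) (nat_lit 0) (nat_lit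 1672) (XT.lf (nat_lit 0) (nat_lit 104033342684219) (nat_lit 76) (nat_lit 189752922284922) (nat_lit 76) (nat_lit 189642622369438) (nat_lit 1) (nat_lit 4) (nat_lit 2) (nat_lit 5) (nat_lit 2) (nat_lit 4) (nat_lit 354) (nat_lit 280) (nat_lit 146)) (XT.nd (nat_lit 78) (nat_lit 0) (nat_lit 0) (XT.lf (nat_lit 0) (nat_lit 6991172760) (nat_lit 380) (nat_lit 15646417869) (nat_lit 380) (nat_lit 15646417869) (nat_lit 23) (nat_lit 3) (nat_lit 28) (nat_lit 3) (nat_lit 28) (nat_lit 5) (nat_lit 281) (nat_lit 281) (nat_lit 218)) (XT.lf (nat_lit 76) (nat_lit 5327208451) (nat_lit 0) (nat_lit 9934569920) (nat_lit 380) (nat_lit 67014193606) (nat_lit 24) (nat_lit 5) (nat_lit 23) (nat_lit 3) (nat_lit 28) (nat_lit 5) (nat_lit 282) (nat_lit 281) (nat_lit 217))))) (XT.nd (nat_lit 156) (nat_lit 228) (nat_lit 0) (XT.nd (nat_lit 78) (nat_lit 0) (nat_lit 0) (XT.lf (nat_lit 0) (nat_lit 19716469813) (nat_lit 304) (nat_lit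 38988478988) (nat_lit 380) (nat_lit 29687675687) (nat_lit 24) (nat_lit 5) (nat_lit 28) (nat_lit 5) (nat_lit 29) (nat_lit 5) (nat_lit 283) (nat_lit 281) (nat_lit 216)) (XT.lf (nat_lit 76) (nat_lit 4601128125) (nat_lit 0) (nat_lit 20900244480) (nat_lit 380) (nat_lit 69826106196) (nat_lit 25) (nat_lit 5) (nat_lit 24) (nat_lit 5) (nat_lit 29) (nat_lit 5) (nat_lit 284) (nat_lit 281) (nat_lit 215))) (XT.nd (nat_lit 78) (nat_lit 304) (nat_lit 0) (XT.lf (nat_lit 0) (nat_lit 35222459988) (nat_lit 304) (nat_lit 44919185525) (nat_lit 76) (nat_lit 22700652782) (nat_lit 25) (nat_lit 5) (nat_lit 29) (nat_lit 5) (nat_lit 26) (nat_lit 5) (nat_lit 285) (nat_lit 281) (nat_lit 214)) (XT.nd (nat_lit 78) (nat_lit 0) (nat_lit 0) (XT.lf (nat_lit 0) (nat_lit 7423437954) (nat_lit 304) (nat_lit 40279673027) (nat_lit 380) (nat_lit 63586023490) (nat_lit 21) (nat_lit 5) (nat_lit 25) (nat_lit 5) (nat_lit 26) (nat_lit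 5) (nat_lit 286) (nat_lit 281) (nat_lit 213)) (XT.lf (nat_lit 0) (nat_lit 64744884707) (nat_lit 380) (nat_lit 48328500490) (nat_lit 76) (nat_lit 7526260451) (nat_lit 21) (nat_lit 5) (nat_lit 26) (nat_lit 5) (nat_lit 22) (nat_lit 5) (nat_lit 287) (nat_lit 281) (nat_lit 212))))))))
noncomputable def xc87 : XT := (XT.nd (nat_lit 1560) (nat_lit 228) (nat_lit 0) (XT.nd (nat_lit 780) (nat_lit 532) (nat_lit 0) (XT.nd (nat_lit 390) (nat_lit 228) (nat_lit 0) (XT.nd (nat_lit 156) (nat_lit 304) (nat_lit 0) (XT.nd (nat_lit 78) (nat_lit 0) (nat_lit 0) (XT.lf (nat_lit 0) (nat_lit 14951054670) (nat_lit 152) (nat_lit 71928059144) (nat_lit 228) (nat_lit 44047194186) (nat_lit 19) (nat_lit 5) (nat_lit 21) (nat_lit 5) (nat_lit 22) (nat_lit 5) (nat_lit 288) (nat_lit 281) (nat_lit 211)) (XT.lf (nat_lit 0) (nat_lit 93152874605) (nat_lit 152) (nat_lit 21705964701) (nat_lit 228) (nat_lit 27564328618) (nat_lit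 19) (nat_lit 5) (nat_lit 21) (nat_lit 5) (nat_lit 22) (nat_lit 5) (nat_lit 289) (nat_lit 281) (nat_lit 210))) (XT.nd (nat_lit 78) (nat_lit 228) (nat_lit 0) (XT.lf (nat_lit 0) (nat_lit 28482272515) (nat_lit 76) (nat_lit 121224580451) (nat_lit 152) (nat_lit 5537006663) (nat_lit 18) (nat_lit 5) (nat_lit 19) (nat_lit 5) (nat_lit 20) (nat_lit 4) (nat_lit 290) (nat_lit 281) (nat_lit 209)) (XT.nd (nat_lit 78) (nat_lit 152) (nat_lit 0) (XT.lf (nat_lit 0) (nat_lit 21763162385) (nat_lit 152) (nat_lit 48143326519) (nat_lit 76) (nat_lit 99398573516) (nat_lit 17) (nat_lit 5) (nat_lit 19) (nat_lit 5) (nat_lit 18) (nat_lit 5) (nat_lit 291) (nat_lit 281) (nat_lit 208)) (XT.lf (nat_lit 0) (nat_lit 46107870887) (nat_lit 152) (nat_lit 8392162584) (nat_lit 228) (nat_lit 130649579450) (nat_lit 15) (nat_lit 5) (nat_lit 17) (nat_lit 5) (nat_lit 18) (nat_lit 5) (nat_lit 292) (nat_lit 281) (nat_lit 207))))) (XT.nd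 (nat_lit 156) (nat_lit 152) (nat_lit 0) (XT.nd (nat_lit 78) (nat_lit 76) (nat_lit 0) (XT.lf (nat_lit 0) (nat_lit 97364975198) (nat_lit 228) (nat_lit 45788560212) (nat_lit 76) (nat_lit 59434680844) (nat_lit 15) (nat_lit 5) (nat_lit 18) (nat_lit 5) (nat_lit 16) (nat_lit 4) (nat_lit 293) (nat_lit 281) (nat_lit 206)) (XT.lf (nat_lit 0) (nat_lit 67018545016) (nat_lit 76) (nat_lit 82815285108) (nat_lit 152) (nat_lit 72332655261) (nat_lit 14) (nat_lit 5) (nat_lit 15) (nat_lit 5) (nat_lit 16) (nat_lit 4) (nat_lit 294) (nat_lit 281) (nat_lit 205))) (XT.nd (nat_lit 78) (nat_lit 152) (nat_lit 0) (XT.lf (nat_lit 0) (nat_lit 201891884475) (nat_lit 76) (nat_lit 10674108739) (nat_lit 152) (nat_lit 31756555631) (nat_lit 14) (nat_lit 5) (nat_lit 15) (nat_lit 5) (nat_lit 16) (nat_lit 4) (nat_lit 295) (nat_lit 281) (nat_lit 204)) (XT.nd (nat_lit 78) (nat_lit 0) (nat_lit 0) (XT.lf (nat_lit 0) (nat_lit 20723816378)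 (nat_lit 152) (nat_lit 177292235059) (nat_lit 76) (nat_lit 70621654162) (nat_lit 12) (nat_lit 5) (nat_lit 14) (nat_lit 5) (nat_lit 13) (nat_lit 4) (nat_lit 296) (nat_lit 281) (nat_lit 203)) (XT.lf (nat_lit 0) (nat_lit 80656402273) (nat_lit 152) (nat_lit 48437708752) (nat_lit 76) (nat_lit 166854479249) (nat_lit 12) (nat_lit 5) (nat_lit 14) (nat_lit 5) (nat_lit 13) (nat_lit 4) (nat_lit 297) (nat_lit 281) (nat_lit 202)))))) (XT.nd (nat_lit 390) (nat_lit 228) (nat_lit 0) (XT.nd (nat_lit 156) (nat_lit 228) (nat_lit 0) (XT.nd (nat_lit 78) (nat_lit 0) (nat_lit 0) (XT.lf (nat_lit 0) (nat_lit 109492042823) (nat_lit 76) (nat_lit 44620273577) (nat_lit 152) (nat_lit 172563775742) (nat_lit 11) (nat_lit 5) (nat_lit 12) (nat_lit 5) (nat_lit 13) (nat_lit 4) (nat_lit 298) (nat_lit 281) (nat_lit 201)) (XT.lf (nat_lit 0) (nat_lit 243413712078) (nat_lit 152) (nat_lit 67374136429) (nat_lit 0) (nat_lit 50500807087)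 (nat_lit 11) (nat_lit 5) (nat_lit 13) (nat_lit 4) (nat_lit 11) (nat_lit 4) (nat_lit 299) (nat_lit 281) (nat_lit 200))) (XT.nd (nat_lit 78) (nat_lit 152) (nat_lit 0) (XT.lf (nat_lit 0) (nat_lit 112826468236) (nat_lit 76) (nat_lit 240080196752) (nat_lit 76) (nat_lit 47166986806) (nat_lit 10) (nat_lit 4) (nat_lit 11) (nat_lit 5) (nat_lit 11) (nat_lit 4) (nat_lit 300) (nat_lit 281) (nat_lit 199)) (XT.nd (nat_lit 78) (nat_lit 76) (nat_lit 0) (XT.lf (nat_lit 0) (nat_lit 34796356067) (nat_lit 152) (nat_lit 118101309578) (nat_lit 76) (nat_lit 291013256513) (nat_lit 9) (nat_lit 5) (nat_lit 11) (nat_lit 5) (nat_lit 10) (nat_lit 4) (nat_lit 301) (nat_lit 281) (nat_lit 198)) (XT.lf (nat_lit 0) (nat_lit 81418280286) (nat_lit 76) (nat_lit 46177992271) (nat_lit 152) (nat_lit 365884942759) (nat_lit 8) (nat_lit 5) (nat_lit 9) (nat_lit 5) (nat_lit 10) (nat_lit 4) (nat_lit 302) (nat_lit 281) (nat_lit 197)))))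 (XT.nd (nat_lit 156) (nat_lit 228) (nat_lit 0) (XT.nd (nat_lit 78) (nat_lit 0) (nat_lit 0) (XT.lf (nat_lit 0) (nat_lit 243953107823) (nat_lit 152) (nat_lit 228886520147) (nat_lit 0) (nat_lit 76201885018) (nat_lit 8) (nat_lit 5) (nat_lit 10) (nat_lit 4) (nat_lit 8) (nat_lit 4) (nat_lit 303) (nat_lit 281) (nat_lit 196)) (XT.lf (nat_lit 0) (nat_lit 379962178313) (nat_lit 152) (nat_lit 20433066817) (nat_lit 0) (nat_lit 212210803892) (nat_lit 8) (nat_lit 5) (nat_lit 10) (nat_lit 4) (nat_lit 8) (nat_lit 4) (nat_lit 304) (nat_lit 281) (nat_lit 195))) (XT.nd (nat_lit 78) (nat_lit 152) (nat_lit 0) (XT.lf (nat_lit 0) (nat_lit 240718411895) (nat_lit 76) (nat_lit 305621623083) (nat_lit 76) (nat_lit 137870116822) (nat_lit 7) (nat_lit 4) (nat_lit 8) (nat_lit 5) (nat_lit 8) (nat_lit 4) (nat_lit 305) (nat_lit 281) (nat_lit 194)) (XT.nd (nat_lit 78) (nat_lit 152) (nat_lit 0) (XT.lf (nat_lit 0) (nat_lit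 543338618901) (nat_lit 76) (nat_lit 195403844110) (nat_lit 76) (nat_lit 27652223206) (nat_lit 7) (nat_lit 4) (nat_lit 8) (nat_lit 5) (nat_lit 8) (nat_lit 4) (nat_lit 306) (nat_lit 281) (nat_lit 193)) (XT.lf (nat_lit 0) (nat_lit 28915394631) (nat_lit 76) (nat_lit 62557682218) (nat_lit 152) (nat_lit 768638734857) (nat_lit 5) (nat_lit 5) (nat_lit 6) (nat_lit 5) (nat_lit 7) (nat_lit 4) (nat_lit 307) (nat_lit 281) (nat_lit 192))))))) (XT.nd (nat_lit 780) (nat_lit 0) (nat_lit 0) (XT.nd (nat_lit 390) (nat_lit 152) (nat_lit 0) (XT.nd (nat_lit 156) (nat_lit 76) (nat_lit 0) (XT.nd (nat_lit 78) (nat_lit 0) (nat_lit 0) (XT.lf (nat_lit 0) (nat_lit 241586534419) (nat_lit 152) (nat_lit 627994494650) (nat_lit 0) (nat_lit 95715397652) (nat_lit 5) (nat_lit 5) (nat_lit 7) (nat_lit 4) (nat_lit 5) (nat_lit 4) (nat_lit 308) (nat_lit 281) (nat_lit 191)) (XT.lf (nat_lit 0) (nat_lit 417195792087) (nat_lit 152)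 (nat_lit 397291534997) (nat_lit 0) (nat_lit 271324589773) (nat_lit 5) (nat_lit 5) (nat_lit 7) (nat_lit 4) (nat_lit 5) (nat_lit 4) (nat_lit 309) (nat_lit 281) (nat_lit 190))) (XT.nd (nat_lit 78) (nat_lit 76) (nat_lit 0) (XT.lf (nat_lit 0) (nat_lit 619146302940) (nat_lit 152) (nat_lit 131983404344) (nat_lit 0) (nat_lit 473275043627) (nat_lit 5) (nat_lit 5) (nat_lit 7) (nat_lit 4) (nat_lit 5) (nat_lit 4) (nat_lit 310) (nat_lit 281) (nat_lit 189)) (XT.nd (nat_lit 78) (nat_lit 0) (nat_lit 0) (XT.lf (nat_lit 0) (nat_lit 190039323261) (nat_lit 76) (nat_lit 669219072478) (nat_lit 76) (nat_lit 523347763602) (nat_lit 4) (nat_lit 4) (nat_lit 5) (nat_lit 5) (nat_lit 5) (nat_lit 4) (nat_lit 311) (nat_lit 281) (nat_lit 188)) (XT.lf (nat_lit 0) (nat_lit 575198368327) (nat_lit 76) (nat_lit 567087954820) (nat_lit 76) (nat_lit 421216602845) (nat_lit 4) (nat_lit 4) (nat_lit 5) (nat_lit 5) (nat_lit 5) (nat_lit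 4) (nat_lit 312) (nat_lit 281) (nat_lit 187))))) (XT.nd (nat_lit 156) (nat_lit 152) (nat_lit 0) (XT.nd (nat_lit 78) (nat_lit 0) (nat_lit 0) (XT.lf (nat_lit 0) (nat_lit 1018131073146) (nat_lit 76) (nat_lit 449637269290) (nat_lit 76) (nat_lit 303765879837) (nat_lit 4) (nat_lit 4) (nat_lit 5) (nat_lit 5) (nat_lit 5) (nat_lit 4) (nat_lit 313) (nat_lit 281) (nat_lit 186)) (XT.lf (nat_lit 0) (nat_lit 1527503512379) (nat_lit 76) (nat_lit 314569067693) (nat_lit 76) (nat_lit 168697645651) (nat_lit 4) (nat_lit 4) (nat_lit 5) (nat_lit 5) (nat_lit 5) (nat_lit 4) (nat_lit 314) (nat_lit 281) (nat_lit 185))) (XT.nd (nat_lit 78) (nat_lit 152) (nat_lit 0) (XT.lf (nat_lit 0) (nat_lit 2113281668532) (nat_lit 76) (nat_lit 159240711302) (nat_lit 76) (nat_lit 13369260922) (nat_lit 4) (nat_lit 4) (nat_lit 5) (nat_lit 5) (nat_lit 5) (nat_lit 4) (nat_lit 315) (nat_lit 281) (nat_lit 184)) (XT.nd (nat_lit 78) (nat_lit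 0) (nat_lit 0) (XT.lf (nat_lit 0) (nat_lit 160141263775) (nat_lit 152) (nat_lit 2406377752912) (nat_lit 0) (nat_lit 33296502887) (nat_lit 2) (nat_lit 5) (nat_lit 4) (nat_lit 4) (nat_lit 2) (nat_lit 4) (nat_lit 316) (nat_lit 281) (nat_lit 183)) (XT.lf (nat_lit 0) (nat_lit 375344884998) (nat_lit 152) (nat_lit 2334332203721) (nat_lit 0) (nat_lit 248500105477) (nat_lit 2) (nat_lit 5) (nat_lit 4) (nat_lit 4) (nat_lit 2) (nat_lit 4) (nat_lit 317) (nat_lit 281) (nat_lit 182)))))) (XT.nd (nat_lit 390) (nat_lit 0) (nat_lit 0) (XT.nd (nat_lit 156) (nat_lit 0) (nat_lit 0) (XT.nd (nat_lit 78) (nat_lit 0) (nat_lit 0) (XT.lf (nat_lit 0) (nat_lit 622828991675) (nat_lit 152) (nat_lit 2251479941066) (nat_lit 0) (nat_lit 495984195951) (nat_lit 2) (nat_lit 5) (nat_lit 4) (nat_lit 4) (nat_lit 2) (nat_lit 4) (nat_lit 318) (nat_lit 281) (nat_lit 181)) (XT.lf (nat_lit 0) (nat_lit 907435664154) (nat_lit 152)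 (nat_lit 2156199942417) (nat_lit 0) (nat_lit 780590854341) (nat_lit 2) (nat_lit 5) (nat_lit 4) (nat_lit 4) (nat_lit 2) (nat_lit 4) (nat_lit 319) (nat_lit 281) (nat_lit 180))) (XT.nd (nat_lit 78) (nat_lit 0) (nat_lit 0) (XT.lf (nat_lit 0) (nat_lit 1234733293853) (nat_lit 152) (nat_lit 2046628033887) (nat_lit 0) (nat_lit 1107888471789) (nat_lit 2) (nat_lit 5) (nat_lit 4) (nat_lit 4) (nat_lit 2) (nat_lit 4) (nat_lit 320) (nat_lit 281) (nat_lit 179)) (XT.nd (nat_lit 78) (nat_lit 0) (nat_lit 0) (XT.lf (nat_lit 0) (nat_lit 1611125530049) (nat_lit 152) (nat_lit 1920620417265) (nat_lit 0) (nat_lit 1484280697332) (nat_lit 2) (nat_lit 5) (nat_lit 4) (nat_lit 4) (nat_lit 2) (nat_lit 4) (nat_lit 321) (nat_lit 281) (nat_lit 178)) (XT.lf (nat_lit 0) (nat_lit 2043976568667) (nat_lit 152) (nat_lit 1775711726140) (nat_lit 0) (nat_lit 1917131726686) (nat_lit 2) (nat_lit 5) (nat_lit 4) (nat_lit 4) (nat_lit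 2) (nat_lit 4) (nat_lit 322) (nat_lit 281) (nat_lit 177))))) (XT.nd (nat_lit 234) (nat_lit 0) (nat_lit 0) (XT.nd (nat_lit 78) (nat_lit 0) (nat_lit 0) (XT.lf (nat_lit 0) (nat_lit 2541755234377) (nat_lit 152) (nat_lit 1609066790468) (nat_lit 0) (nat_lit 2414910384341) (nat_lit 2) (nat_lit 5) (nat_lit 4) (nat_lit 4) (nat_lit 2) (nat_lit 4) (nat_lit 323) (nat_lit 281) (nat_lit 176)) (XT.nd (nat_lit 78) (nat_lit 0) (nat_lit 0) (XT.lf (nat_lit 0) (nat_lit 3114200674985) (nat_lit 152) (nat_lit 1417425165855) (nat_lit 0) (nat_lit 2987355817944) (nat_lit 2) (nat_lit 5) (nat_lit 4) (nat_lit 4) (nat_lit 2) (nat_lit 4) (nat_lit 324) (nat_lit 281) (nat_lit 175)) (XT.lf (nat_lit 0) (nat_lit 3772512909982) (nat_lit 152) (nat_lit 1197037342255) (nat_lit 0) (nat_lit 3645668046850) (nat_lit 2) (nat_lit 5) (nat_lit 4) (nat_lit 4) (nat_lit 2) (nat_lit 4) (nat_lit 325) (nat_lit 281) (nat_lit 174)))) (XT.nd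 (nat_lit 78) (nat_lit 0) (nat_lit 0) (XT.lf (nat_lit 0) (nat_lit 4529571961357) (nat_lit 152) (nat_lit 943591383987) (nat_lit 0) (nat_lit 4402727092928) (nat_lit 2) (nat_lit 5) (nat_lit 4) (nat_lit 4) (nat_lit 2) (nat_lit 4) (nat_lit 326) (nat_lit 281) (nat_lit 173)) (XT.nd (nat_lit 78) (nat_lit 0) (nat_lit 0) (XT.lf (nat_lit 0) (nat_lit 5400189854027) (nat_lit 152) (nat_lit 652128565783) (nat_lit 0) (nat_lit 5273344980993) (nat_lit 2) (nat_lit 5) (nat_lit 4) (nat_lit 4) (nat_lit 2) (nat_lit 4) (nat_lit 327) (nat_lit 281) (nat_lit 172)) (XT.lf (nat_lit 0) (nat_lit 6401400416328) (nat_lit 152) (nat_lit 316946354242) (nat_lit 0) (nat_lit 6274555539289) (nat_lit 2) (nat_lit 5) (nat_lit 4) (nat_lit 4) (nat_lit 2) (nat_lit 4) (nat_lit 328) (nat_lit 281) (nat_lit 171))))))))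
noncomputable def xc88 : XT := (XT.nd (nat_lit 37518) (nat_lit 0) (nat_lit 304) (XT.nd (nat_lit 780) (nat_lit 0) (nat_lit 0) (XT.nd (nat_lit 390) (nat_lit 0) (nat_lit 0) (XT.nd (nat_lit 156) (nat_lit 0) (nat_lit 0) (XT.nd (nat_lit 78) (nat_lit 0) (nat_lit 0) (XT.lf (nat_lit 0) (nat_lit 75208768082) (nat_lit 76) (nat_lit 7480698017187) (nat_lit 76) (nat_lit 7353853136665) (nat_lit 1) (nat_lit 4) (nat_lit 2) (nat_lit 5) (nat_lit 2) (nat_lit 4) (nat_lit 329) (nat_lit 281) (nat_lit 170)) (XT.lf (nat_lit 0) (nat_lit 561807582578) (nat_lit 76) (nat_lit 8338349165509) (nat_lit 76) (nat_lit 8211504281958) (nat_lit 1) (nat_lit 4) (nat_lit 2) (nat_lit 5) (nat_lit 2) (nat_lit 4) (nat_lit 330) (nat_lit 281) (nat_lit 169))) (XT.nd (nat_lit 78) (nat_lit 0) (nat_lit 0) (XT.lf (nat_lit 0) (nat_lit 1121396198033) (nat_lit 76) (nat_lit 9324647997033) (nat_lit 76) (nat_lit 9197803110849) (nat_lit 1) (nat_lit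 4) (nat_lit 2) (nat_lit 5) (nat_lit 2) (nat_lit 4) (nat_lit 331) (nat_lit 281) (nat_lit 168)) (XT.nd (nat_lit 78) (nat_lit 0) (nat_lit 0) (XT.lf (nat_lit 0) (nat_lit 1764923087357) (nat_lit 76) (nat_lit 10458891662811) (nat_lit 76) (nat_lit 10332046774337) (nat_lit 1) (nat_lit 4) (nat_lit 2) (nat_lit 5) (nat_lit 2) (nat_lit 4) (nat_lit 332) (nat_lit 281) (nat_lit 167)) (XT.lf (nat_lit 0) (nat_lit 2504978994038) (nat_lit 76) (nat_lit 11763271886739) (nat_lit 76) (nat_lit 11636426996274) (nat_lit 1) (nat_lit 4) (nat_lit 2) (nat_lit 5) (nat_lit 2) (nat_lit 4) (nat_lit 333) (nat_lit 281) (nat_lit 166))))) (XT.nd (nat_lit 156) (nat_lit 0) (nat_lit 0) (XT.nd (nat_lit 78) (nat_lit 0) (nat_lit 0) (XT.lf (nat_lit 0) (nat_lit 3356043272772) (nat_lit 76) (nat_lit 13263309151459) (nat_lit 76) (nat_lit 13136464259263) (nat_lit 1) (nat_lit 4) (nat_lit 2) (nat_lit 5) (nat_lit 2) (nat_lit 4) (nat_lit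 334) (nat_lit 281) (nat_lit 165)) (XT.lf (nat_lit 0) (nat_lit 4334767181186) (nat_lit 76) (nat_lit 14988352012151) (nat_lit 76) (nat_lit 14861507118449) (nat_lit 1) (nat_lit 4) (nat_lit 2) (nat_lit 5) (nat_lit 2) (nat_lit 4) (nat_lit 335) (nat_lit 281) (nat_lit 164))) (XT.nd (nat_lit 78) (nat_lit 0) (nat_lit 0) (XT.lf (nat_lit 0) (nat_lit 5460299665313) (nat_lit 76) (nat_lit 16972151307393) (nat_lit 76) (nat_lit 16845306412382) (nat_lit 1) (nat_lit 4) (nat_lit 2) (nat_lit 5) (nat_lit 2) (nat_lit 4) (nat_lit 336) (nat_lit 281) (nat_lit 163)) (XT.nd (nat_lit 78) (nat_lit 0) (nat_lit 0) (XT.lf (nat_lit 0) (nat_lit 6754662012888) (nat_lit 76) (nat_lit 19253520501657) (nat_lit 76) (nat_lit 19126675605507) (nat_lit 1) (nat_lit 4) (nat_lit 2) (nat_lit 5) (nat_lit 2) (nat_lit 4) (nat_lit 337) (nat_lit 281) (nat_lit 162)) (XT.lf (nat_lit 0) (nat_lit 8243178704623) (nat_lit 76) (nat_lit 21877095079179)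 (nat_lit 76) (nat_lit 21750250182039) (nat_lit 1) (nat_lit 4) (nat_lit 2) (nat_lit 5) (nat_lit 2) (nat_lit 4) (nat_lit 338) (nat_lit 281) (nat_lit 161)))))) (XT.nd (nat_lit 36348) (nat_lit 0) (nat_lit 1520) (XT.nd (nat_lit 156) (nat_lit 0) (nat_lit 0) (XT.nd (nat_lit 78) (nat_lit 0) (nat_lit 0) (XT.lf (nat_lit 0) (nat_lit 9954972893183) (nat_lit 76) (nat_lit 24894205846910) (nat_lit 76) (nat_lit 24767360948910) (nat_lit 1) (nat_lit 4) (nat_lit 2) (nat_lit 5) (nat_lit 2) (nat_lit 4) (nat_lit 339) (nat_lit 281) (nat_lit 160)) (XT.lf (nat_lit 0) (nat_lit 11923536203996) (nat_lit 76) (nat_lit 28363883232915) (nat_lit 76) (nat_lit 28237038334166) (nat_lit 1) (nat_lit 4) (nat_lit 2) (nat_lit 5) (nat_lit 2) (nat_lit 4) (nat_lit 340) (nat_lit 281) (nat_lit 159))) (XT.nd (nat_lit 36036) (nat_lit 0) (nat_lit 1672) (XT.lf (nat_lit 0) (nat_lit 14187384006187) (nat_lit 76) (nat_lit 32354012229529)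 (nat_lit 76) (nat_lit 32227167330128) (nat_lit 1) (nat_lit 4) (nat_lit 2) (nat_lit 5) (nat_lit 2) (nat_lit 4) (nat_lit 341) (nat_lit 281) (nat_lit 158)) (XT.nd (nat_lit 78) (nat_lit 0) (nat_lit 0) (XT.lf (nat_lit 0) (nat_lit 8049596210) (nat_lit 380) (nat_lit 17987760017) (nat_lit 380) (nat_lit 17987760017) (nat_lit 23) (nat_lit 3) (nat_lit 28) (nat_lit 3) (nat_lit 28) (nat_lit 5) (nat_lit 282) (nat_lit 282) (nat_lit 216)) (XT.lf (nat_lit 76) (nat_lit 6137019826) (nat_lit 0) (nat_lit 11431421850) (nat_lit 380) (nat_lit 77046262013) (nat_lit 24) (nat_lit 5) (nat_lit 23) (nat_lit 3) (nat_lit 28) (nat_lit 5) (nat_lit 283) (nat_lit 282) (nat_lit 215))))) (XT.nd (nat_lit 156) (nat_lit 228) (nat_lit 0) (XT.nd (nat_lit 78) (nat_lit 0) (nat_lit 0) (XT.lf (nat_lit 0) (nat_lit 22688827680) (nat_lit 304) (nat_lit 44824863675) (nat_lit 380) (nat_lit 34135546216) (nat_lit 24) (nat_lit 5) (nat_lit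 28) (nat_lit 5) (nat_lit 29) (nat_lit 5) (nat_lit 284) (nat_lit 282) (nat_lit 214)) (XT.lf (nat_lit 76) (nat_lit 5302644180) (nat_lit 0) (nat_lit 24037349725) (nat_lit 380) (nat_lit 80284553116) (nat_lit 25) (nat_lit 5) (nat_lit 24) (nat_lit 5) (nat_lit 29) (nat_lit 5) (nat_lit 285) (nat_lit 282) (nat_lit 213))) (XT.nd (nat_lit 78) (nat_lit 304) (nat_lit 0) (XT.lf (nat_lit 0) (nat_lit 40517420077) (nat_lit 304) (nat_lit 51645336317) (nat_lit 76) (nat_lit 26104112078) (nat_lit 25) (nat_lit 5) (nat_lit 29) (nat_lit 5) (nat_lit 26) (nat_lit 5) (nat_lit 286) (nat_lit 282) (nat_lit 212)) (XT.nd (nat_lit 78) (nat_lit 0) (nat_lit 0) (XT.lf (nat_lit 0) (nat_lit 8548147636) (nat_lit 304) (nat_lit 46320972721) (nat_lit 380) (nat_lit 73111771656) (nat_lit 21) (nat_lit 5) (nat_lit 25) (nat_lit 5) (nat_lit 26) (nat_lit 5) (nat_lit 287) (nat_lit 282) (nat_lit 211)) (XT.lf (nat_lit 0) (nat_lit 74465808453)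 (nat_lit 380) (nat_lit 55566662823) (nat_lit 76) (nat_lit 8655715415) (nat_lit 21) (nat_lit 5) (nat_lit 26) (nat_lit 5) (nat_lit 22) (nat_lit 5) (nat_lit 288) (nat_lit 282) (nat_lit 210))))))) (XT.nd (nat_lit 780) (nat_lit 532) (nat_lit 0) (XT.nd (nat_lit 390) (nat_lit 228) (nat_lit 0) (XT.nd (nat_lit 156) (nat_lit 304) (nat_lit 0) (XT.nd (nat_lit 78) (nat_lit 0) (nat_lit 0) (XT.lf (nat_lit 0) (nat_lit 17204320486) (nat_lit 152) (nat_lit 82715091847) (nat_lit 228) (nat_lit 50644553542) (nat_lit 19) (nat_lit 5) (nat_lit 21) (nat_lit 5) (nat_lit 22) (nat_lit 5) (nat_lit 289) (nat_lit 282) (nat_lit 209)) (XT.lf (nat_lit 0) (nat_lit 107135029809) (nat_lit 152) (nat_lit 24959967086) (nat_lit 228) (nat_lit 31690525936) (nat_lit 19) (nat_lit 5) (nat_lit 21) (nat_lit 5) (nat_lit 22) (nat_lit 5) (nat_lit 290) (nat_lit 282) (nat_lit 208))) (XT.nd (nat_lit 78) (nat_lit 228) (nat_lit 0) (XT.lf (nat_lit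 0) (nat_lit 32764412697) (nat_lit 76) (nat_lit 139405317504) (nat_lit 152) (nat_lit 6359663128) (nat_lit 18) (nat_lit 5) (nat_lit 19) (nat_lit 5) (nat_lit 20) (nat_lit 4) (nat_lit 291) (nat_lit 282) (nat_lit 207)) (XT.nd (nat_lit 78) (nat_lit 152) (nat_lit 0) (XT.lf (nat_lit 0) (nat_lit 25033890402) (nat_lit 152) (nat_lit 55355679711) (nat_lit 76) (nat_lit 114310300123) (nat_lit 17) (nat_lit 5) (nat_lit 19) (nat_lit 5) (nat_lit 18) (nat_lit 5) (nat_lit 292) (nat_lit 282) (nat_lit 206)) (XT.lf (nat_lit 0) (nat_lit 53032781588) (nat_lit 152) (nat_lit 9648056362) (nat_lit 228) (nat_lit 150240335254) (nat_lit 15) (nat_lit 5) (nat_lit 17) (nat_lit 5) (nat_lit 18) (nat_lit 5) (nat_lit 293) (nat_lit 282) (nat_lit 205))))) (XT.nd (nat_lit 156) (nat_lit 152) (nat_lit 0) (XT.nd (nat_lit 78) (nat_lit 76) (nat_lit 0) (XT.lf (nat_lit 0) (nat_lit 111974870007) (nat_lit 228) (nat_lit 52648591746) (nat_lit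 76) (nat_lit 68352204454) (nat_lit 15) (nat_lit 5) (nat_lit 18) (nat_lit 5) (nat_lit 16) (nat_lit 4) (nat_lit 294) (nat_lit 282) (nat_lit 204)) (XT.lf (nat_lit 0) (nat_lit 77079204153) (nat_lit 76) (nat_lit 95234503657) (nat_lit 152) (nat_lit 83177021034) (nat_lit 14) (nat_lit 5) (nat_lit 15) (nat_lit 5) (nat_lit 16) (nat_lit 4) (nat_lit 295) (nat_lit 282) (nat_lit 203))) (XT.nd (nat_lit 78) (nat_lit 152) (nat_lit 0) (XT.lf (nat_lit 0) (nat_lit 232182517046) (nat_lit 76) (nat_lit 12272551817) (nat_lit 152) (nat_lit 36515228092) (nat_lit 14) (nat_lit 5) (nat_lit 15) (nat_lit 5) (nat_lit 16) (nat_lit 4) (nat_lit 296) (nat_lit 282) (nat_lit 202)) (XT.nd (nat_lit 78) (nat_lit 0) (nat_lit 0) (XT.lf (nat_lit 0) (nat_lit 23836605935) (nat_lit 152) (nat_lit 203878614088) (nat_lit 76) (nat_lit 81217503015) (nat_lit 12) (nat_lit 5) (nat_lit 14) (nat_lit 5) (nat_lit 13) (nat_lit 4) (nat_lit 297)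 (nat_lit 282) (nat_lit 201)) (XT.lf (nat_lit 0) (nat_lit 92758529658) (nat_lit 152) (nat_lit 55696881387) (nat_lit 76) (nat_lit 191884912640) (nat_lit 12) (nat_lit 5) (nat_lit 14) (nat_lit 5) (nat_lit 13) (nat_lit 4) (nat_lit 298) (nat_lit 282) (nat_lit 200)))))) (XT.nd (nat_lit 390) (nat_lit 228) (nat_lit 0) (XT.nd (nat_lit 156) (nat_lit 228) (nat_lit 0) (XT.nd (nat_lit 78) (nat_lit 0) (nat_lit 0) (XT.lf (nat_lit 0) (nat_lit 125922038211) (nat_lit 76) (nat_lit 51310570654) (nat_lit 152) (nat_lit 198444375934) (nat_lit 11) (nat_lit 5) (nat_lit 12) (nat_lit 5) (nat_lit 13) (nat_lit 4) (nat_lit 299) (nat_lit 282) (nat_lit 199)) (XT.lf (nat_lit 0) (nat_lit 279928863348) (nat_lit 152) (nat_lit 77474520801) (nat_lit 0) (nat_lit 58078101779) (nat_lit 11) (nat_lit 5) (nat_lit 13) (nat_lit 4) (nat_lit 11) (nat_lit 4) (nat_lit 300) (nat_lit 282) (nat_lit 198))) (XT.nd (nat_lit 78) (nat_lit 152)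 (nat_lit 0) (XT.lf (nat_lit 0) (nat_lit 129755913833) (nat_lit 76) (nat_lit 276089668459) (nat_lit 76) (nat_lit 54238676300) (nat_lit 10) (nat_lit 4) (nat_lit 11) (nat_lit 5) (nat_lit 11) (nat_lit 4) (nat_lit 301) (nat_lit 282) (nat_lit 197)) (XT.nd (nat_lit 78) (nat_lit 76) (nat_lit 0) (XT.lf (nat_lit 0) (nat_lit 40018469936) (nat_lit 152) (nat_lit 135811482309) (nat_lit 76) (nat_lit 334667206647) (nat_lit 9) (nat_lit 5) (nat_lit 11) (nat_lit 5) (nat_lit 10) (nat_lit 4) (nat_lit 302) (nat_lit 282) (nat_lit 196)) (XT.lf (nat_lit 0) (nat_lit 93635817685) (nat_lit 76) (nat_lit 53102407763) (nat_lit 152) (nat_lit 420764793171) (nat_lit 8) (nat_lit 5) (nat_lit 9) (nat_lit 5) (nat_lit 10) (nat_lit 4) (nat_lit 303) (nat_lit 282) (nat_lit 195))))) (XT.nd (nat_lit 156) (nat_lit 228) (nat_lit 0) (XT.nd (nat_lit 78) (nat_lit 0) (nat_lit 0) (XT.lf (nat_lit 0) (nat_lit 280548340567) (nat_lit 152)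 (nat_lit 263215080950) (nat_lit 0) (nat_lit 87633976526) (nat_lit 8) (nat_lit 5) (nat_lit 10) (nat_lit 4) (nat_lit 8) (nat_lit 4) (nat_lit 304) (nat_lit 282) (nat_lit 194)) (XT.lf (nat_lit 0) (nat_lit 436958475991) (nat_lit 152) (nat_lit 23494185780) (nat_lit 0) (nat_lit 244043997307) (nat_lit 8) (nat_lit 5) (nat_lit 10) (nat_lit 4) (nat_lit 8) (nat_lit 4) (nat_lit 305) (nat_lit 282) (nat_lit 193))) (XT.nd (nat_lit 78) (nat_lit 152) (nat_lit 0) (XT.lf (nat_lit 0) (nat_lit 276829840145) (nat_lit 76) (nat_lit 351463065752) (nat_lit 76) (nat_lit 158548487378) (nat_lit 7) (nat_lit 4) (nat_lit 8) (nat_lit 5) (nat_lit 8) (nat_lit 4) (nat_lit 306) (nat_lit 282) (nat_lit 192)) (XT.nd (nat_lit 78) (nat_lit 152) (nat_lit 0) (XT.lf (nat_lit 0) (nat_lit 624842599967) (nat_lit 76) (nat_lit 224712854820) (nat_lit 76) (nat_lit 31798189759) (nat_lit 7) (nat_lit 4) (nat_lit 8) (nat_lit 5) (nat_lit 8)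 (nat_lit 4) (nat_lit 307) (nat_lit 282) (nat_lit 191)) (XT.lf (nat_lit 0) (nat_lit 33255906830) (nat_lit 76) (nat_lit 71939743063) (nat_lit 152) (nat_lit 883932690893) (nat_lit 5) (nat_lit 5) (nat_lit 6) (nat_lit 5) (nat_lit 7) (nat_lit 4) (nat_lit 308) (nat_lit 282) (nat_lit 190))))))))
noncomputable def xc89 : XT := (XT.nd (nat_lit 1560) (nat_lit 76) (nat_lit 0) (XT.nd (nat_lit 780) (nat_lit 0) (nat_lit 0) (XT.nd (nat_lit 390) (nat_lit 152) (nat_lit 0) (XT.nd (nat_lit 156) (nat_lit 76) (nat_lit 0) (XT.nd (nat_lit 78) (nat_lit 0) (nat_lit 0) (XT.lf (nat_lit 0) (nat_lit 277825973206) (nat_lit 152) (nat_lit 722190729907) (nat_lit 0) (nat_lit 110073967998) (nat_lit 5) (nat_lit 5) (nat_lit 7) (nat_lit 4) (nat_lit 5) (nat_lit 4) (nat_lit 309) (nat_lit 282) (nat_lit 189)) (XT.lf (nat_lit 0) (nat_lit 479776429269) (nat_lit 152) (nat_lit 456882709647) (nat_lit 0) (nat_lit 312024374498) (nat_lit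 5) (nat_lit 5) (nat_lit 7) (nat_lit 4) (nat_lit 5) (nat_lit 4) (nat_lit 310) (nat_lit 282) (nat_lit 188))) (XT.nd (nat_lit 78) (nat_lit 76) (nat_lit 0) (XT.lf (nat_lit 0) (nat_lit 712019351310) (nat_lit 152) (nat_lit 151778692735) (nat_lit 0) (nat_lit 544267253440) (nat_lit 5) (nat_lit 5) (nat_lit 7) (nat_lit 4) (nat_lit 5) (nat_lit 4) (nat_lit 311) (nat_lit 282) (nat_lit 187)) (XT.nd (nat_lit 78) (nat_lit 0) (nat_lit 0) (XT.lf (nat_lit 0) (nat_lit 218547343000) (nat_lit 76) (nat_lit 769600859006) (nat_lit 76) (nat_lit 601848723659) (nat_lit 4) (nat_lit 4) (nat_lit 5) (nat_lit 5) (nat_lit 5) (nat_lit 4) (nat_lit 312) (nat_lit 282) (nat_lit 186)) (XT.lf (nat_lit 0) (nat_lit 661479968140) (nat_lit 76) (nat_lit 652150213831) (nat_lit 76) (nat_lit 484398045894) (nat_lit 4) (nat_lit 4) (nat_lit 5) (nat_lit 5) (nat_lit 5) (nat_lit 4) (nat_lit 313) (nat_lit 282) (nat_lit 185))))) (XT.nd (nat_lit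 156) (nat_lit 152) (nat_lit 0) (XT.nd (nat_lit 78) (nat_lit 0) (nat_lit 0) (XT.lf (nat_lit 0) (nat_lit 1170852338087) (nat_lit 76) (nat_lit 517082047325) (nat_lit 76) (nat_lit 349329851050) (nat_lit 4) (nat_lit 4) (nat_lit 5) (nat_lit 5) (nat_lit 5) (nat_lit 4) (nat_lit 314) (nat_lit 282) (nat_lit 184)) (XT.lf (nat_lit 0) (nat_lit 1756630433991) (nat_lit 76) (nat_lit 361753721448) (nat_lit 76) (nat_lit 194001500532) (nat_lit 4) (nat_lit 4) (nat_lit 5) (nat_lit 5) (nat_lit 5) (nat_lit 4) (nat_lit 315) (nat_lit 282) (nat_lit 183))) (XT.nd (nat_lit 78) (nat_lit 152) (nat_lit 0) (XT.lf (nat_lit 0) (nat_lit 2430275131642) (nat_lit 76) (nat_lit 183126203738) (nat_lit 76) (nat_lit 15373961394) (nat_lit 4) (nat_lit 4) (nat_lit 5) (nat_lit 5) (nat_lit 5) (nat_lit 4) (nat_lit 316) (nat_lit 282) (nat_lit 182)) (XT.nd (nat_lit 78) (nat_lit 0) (nat_lit 0) (XT.lf (nat_lit 0) (nat_lit 184163074938)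 (nat_lit 152) (nat_lit 2767333135444) (nat_lit 0) (nat_lit 38291543654) (nat_lit 2) (nat_lit 5) (nat_lit 4) (nat_lit 4) (nat_lit 2) (nat_lit 4) (nat_lit 317) (nat_lit 282) (nat_lit 181)) (XT.lf (nat_lit 0) (nat_lit 431647158267) (nat_lit 152) (nat_lit 2684480920884) (nat_lit 0) (nat_lit 285775612893) (nat_lit 2) (nat_lit 5) (nat_lit 4) (nat_lit 4) (nat_lit 2) (nat_lit 4) (nat_lit 318) (nat_lit 282) (nat_lit 180)))))) (XT.nd (nat_lit 390) (nat_lit 0) (nat_lit 0) (XT.nd (nat_lit 156) (nat_lit 0) (nat_lit 0) (XT.nd (nat_lit 78) (nat_lit 0) (nat_lit 0) (XT.lf (nat_lit 0) (nat_lit 716253810443) (nat_lit 152) (nat_lit 2589200964056) (nat_lit 0) (nat_lit 570382252818) (nat_lit 2) (nat_lit 5) (nat_lit 4) (nat_lit 4) (nat_lit 2) (nat_lit 4) (nat_lit 319) (nat_lit 282) (nat_lit 179)) (XT.lf (nat_lit 0) (nat_lit 1043551422487) (nat_lit 152) (nat_lit 2479629091892) (nat_lit 0) (nat_lit 897679854209)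 (nat_lit 2) (nat_lit 5) (nat_lit 4) (nat_lit 4) (nat_lit 2) (nat_lit 4) (nat_lit 320) (nat_lit 282) (nat_lit 178))) (XT.nd (nat_lit 78) (nat_lit 0) (nat_lit 0) (XT.lf (nat_lit 0) (nat_lit 1419943643331) (nat_lit 152) (nat_lit 2353621506894) (nat_lit 0) (nat_lit 1274072065789) (nat_lit 2) (nat_lit 5) (nat_lit 4) (nat_lit 4) (nat_lit 2) (nat_lit 4) (nat_lit 321) (nat_lit 282) (nat_lit 177)) (XT.nd (nat_lit 78) (nat_lit 0) (nat_lit 0) (XT.lf (nat_lit 0) (nat_lit 1852794668600) (nat_lit 152) (nat_lit 2208712843267) (nat_lit 0) (nat_lit 1706923083002) (nat_lit 2) (nat_lit 5) (nat_lit 4) (nat_lit 4) (nat_lit 2) (nat_lit 4) (nat_lit 322) (nat_lit 282) (nat_lit 176)) (XT.lf (nat_lit 0) (nat_lit 2350573322701) (nat_lit 152) (nat_lit 2042067931507) (nat_lit 0) (nat_lit 2204701730099) (nat_lit 2) (nat_lit 5) (nat_lit 4) (nat_lit 4) (nat_lit 2) (nat_lit 4) (nat_lit 323) (nat_lit 282) (nat_lit 175)))))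 (XT.nd (nat_lit 156) (nat_lit 0) (nat_lit 0) (XT.nd (nat_lit 78) (nat_lit 0) (nat_lit 0) (XT.lf (nat_lit 0) (nat_lit 2923018753215) (nat_lit 152) (nat_lit 1850426327687) (nat_lit 0) (nat_lit 2777147154522) (nat_lit 2) (nat_lit 5) (nat_lit 4) (nat_lit 4) (nat_lit 2) (nat_lit 4) (nat_lit 324) (nat_lit 282) (nat_lit 174)) (XT.lf (nat_lit 0) (nat_lit 3581330979434) (nat_lit 152) (nat_lit 1630038522167) (nat_lit 0) (nat_lit 3435459375445) (nat_lit 2) (nat_lit 5) (nat_lit 4) (nat_lit 4) (nat_lit 2) (nat_lit 4) (nat_lit 325) (nat_lit 282) (nat_lit 173))) (XT.nd (nat_lit 78) (nat_lit 0) (nat_lit 0) (XT.lf (nat_lit 0) (nat_lit 4338390023176) (nat_lit 152) (nat_lit 1376592579622) (nat_lit 0) (nat_lit 4192518414581) (nat_lit 2) (nat_lit 5) (nat_lit 4) (nat_lit 4) (nat_lit 2) (nat_lit 4) (nat_lit 326) (nat_lit 282) (nat_lit 172)) (XT.nd (nat_lit 78) (nat_lit 0) (nat_lit 0) (XT.lf (nat_lit 0) (nat_lit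 5209007909210) (nat_lit 152) (nat_lit 1085129775089) (nat_lit 0) (nat_lit 5063136296609) (nat_lit 2) (nat_lit 5) (nat_lit 4) (nat_lit 4) (nat_lit 2) (nat_lit 4) (nat_lit 327) (nat_lit 282) (nat_lit 171)) (XT.lf (nat_lit 0) (nat_lit 6210218465739) (nat_lit 152) (nat_lit 749947575436) (nat_lit 0) (nat_lit 6064346849656) (nat_lit 2) (nat_lit 5) (nat_lit 4) (nat_lit 4) (nat_lit 2) (nat_lit 4) (nat_lit 328) (nat_lit 282) (nat_lit 170))))))) (XT.nd (nat_lit 780) (nat_lit 0) (nat_lit 0) (XT.nd (nat_lit 390) (nat_lit 0) (nat_lit 0) (XT.nd (nat_lit 156) (nat_lit 0) (nat_lit 0) (XT.nd (nat_lit 78) (nat_lit 76) (nat_lit 0) (XT.lf (nat_lit 0) (nat_lit 7361610594959) (nat_lit 152) (nat_lit 364488068061) (nat_lit 0) (nat_lit 7215738975847) (nat_lit 2) (nat_lit 5) (nat_lit 4) (nat_lit 4) (nat_lit 2) (nat_lit 4) (nat_lit 329) (nat_lit 282) (nat_lit 169)) (XT.lf (nat_lit 0) (nat_lit 86490311733) (nat_lit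 76) (nat_lit 8602802601813) (nat_lit 76) (nat_lit 8456930980068) (nat_lit 1) (nat_lit 4) (nat_lit 2) (nat_lit 5) (nat_lit 2) (nat_lit 4) (nat_lit 330) (nat_lit 282) (nat_lit 168))) (XT.nd (nat_lit 78) (nat_lit 0) (nat_lit 0) (XT.lf (nat_lit 0) (nat_lit 646078918607) (nat_lit 76) (nat_lit 9589101437767) (nat_lit 76) (nat_lit 9443229813732) (nat_lit 1) (nat_lit 4) (nat_lit 2) (nat_lit 5) (nat_lit 2) (nat_lit 4) (nat_lit 331) (nat_lit 282) (nat_lit 167)) (XT.nd (nat_lit 78) (nat_lit 0) (nat_lit 0) (XT.lf (nat_lit 0) (nat_lit 1289605800470) (nat_lit 76) (nat_lit 10723345107398) (nat_lit 76) (nat_lit 10577473481372) (nat_lit 1) (nat_lit 4) (nat_lit 2) (nat_lit 5) (nat_lit 2) (nat_lit 4) (nat_lit 332) (nat_lit 282) (nat_lit 166)) (XT.lf (nat_lit 0) (nat_lit 2029661700663) (nat_lit 76) (nat_lit 12027725334677) (nat_lit 76) (nat_lit 11881853706919) (nat_lit 1) (nat_lit 4) (nat_lit 2) (nat_lit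 5) (nat_lit 2) (nat_lit 4) (nat_lit 333) (nat_lit 282) (nat_lit 165))))) (XT.nd (nat_lit 156) (nat_lit 0) (nat_lit 0) (XT.nd (nat_lit 78) (nat_lit 0) (nat_lit 0) (XT.lf (nat_lit 0) (nat_lit 2880725973755) (nat_lit 76) (nat_lit 13527762602310) (nat_lit 76) (nat_lit 13381890973047) (nat_lit 1) (nat_lit 4) (nat_lit 2) (nat_lit 5) (nat_lit 2) (nat_lit 4) (nat_lit 334) (nat_lit 282) (nat_lit 164)) (XT.lf (nat_lit 0) (nat_lit 3859449877262) (nat_lit 76) (nat_lit 15252805465535) (nat_lit 76) (nat_lit 15106933834963) (nat_lit 1) (nat_lit 4) (nat_lit 2) (nat_lit 5) (nat_lit 2) (nat_lit 4) (nat_lit 335) (nat_lit 282) (nat_lit 163))) (XT.nd (nat_lit 78) (nat_lit 0) (nat_lit 0) (XT.lf (nat_lit 0) (nat_lit 4984982357124) (nat_lit 76) (nat_lit 17236604762980) (nat_lit 76) (nat_lit 17090733131269) (nat_lit 1) (nat_lit 4) (nat_lit 2) (nat_lit 5) (nat_lit 2) (nat_lit 4) (nat_lit 336) (nat_lit 282) (nat_lit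 162)) (XT.nd (nat_lit 78) (nat_lit 0) (nat_lit 0) (XT.lf (nat_lit 0) (nat_lit 6279344700989) (nat_lit 76) (nat_lit 19517973959159) (nat_lit 76) (nat_lit 19372102326458) (nat_lit 1) (nat_lit 4) (nat_lit 2) (nat_lit 5) (nat_lit 2) (nat_lit 4) (nat_lit 337) (nat_lit 282) (nat_lit 161)) (XT.lf (nat_lit 0) (nat_lit 7767861389498) (nat_lit 76) (nat_lit 22141548538347) (nat_lit 76) (nat_lit 21995676904785) (nat_lit 1) (nat_lit 4) (nat_lit 2) (nat_lit 5) (nat_lit 2) (nat_lit 4) (nat_lit 338) (nat_lit 282) (nat_lit 160)))))) (XT.nd (nat_lit 36426) (nat_lit 0) (nat_lit 1368) (XT.nd (nat_lit 156) (nat_lit 0) (nat_lit 0) (XT.nd (nat_lit 78) (nat_lit 0) (nat_lit 0) (XT.lf (nat_lit 0) (nat_lit 9479655575253) (nat_lit 76) (nat_lit 25158659307526) (nat_lit 76) (nat_lit 25012787673216) (nat_lit 1) (nat_lit 4) (nat_lit 2) (nat_lit 5) (nat_lit 2) (nat_lit 4) (nat_lit 339) (nat_lit 282) (nat_lit 159)) (XT.lf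 (nat_lit 0) (nat_lit 11448218883627) (nat_lit 76) (nat_lit 28628336694791) (nat_lit 76) (nat_lit 28482465059830) (nat_lit 1) (nat_lit 4) (nat_lit 2) (nat_lit 5) (nat_lit 2) (nat_lit 4) (nat_lit 340) (nat_lit 282) (nat_lit 158))) (XT.nd (nat_lit 36114) (nat_lit 0) (nat_lit 1672) (XT.lf (nat_lit 0) (nat_lit 13712066683697) (nat_lit 76) (nat_lit 32618465692499) (nat_lit 76) (nat_lit 32472594056972) (nat_lit 1) (nat_lit 4) (nat_lit 2) (nat_lit 5) (nat_lit 2) (nat_lit 4) (nat_lit 341) (nat_lit 282) (nat_lit 157)) (XT.nd (nat_lit 78) (nat_lit 0) (nat_lit 0) (XT.lf (nat_lit 0) (nat_lit 9264406180) (nat_lit 380) (nat_lit 20681674090) (nat_lit 380) (nat_lit 20681674090) (nat_lit 23) (nat_lit 3) (nat_lit 28) (nat_lit 3) (nat_lit 28) (nat_lit 5) (nat_lit 283) (nat_lit 283) (nat_lit 214)) (XT.lf (nat_lit 76) (nat_lit 7065686302) (nat_lit 0) (nat_lit 13151175914) (nat_lit 380) (nat_lit 88588032593)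 (nat_lit 24) (nat_lit 5) (nat_lit 23) (nat_lit 3) (nat_lit 28) (nat_lit 5) (nat_lit 284) (nat_lit 283) (nat_lit 213))))) (XT.nd (nat_lit 234) (nat_lit 380) (nat_lit 0) (XT.nd (nat_lit 78) (nat_lit 0) (nat_lit 0) (XT.lf (nat_lit 0) (nat_lit 26103408841) (nat_lit 304) (nat_lit 51539604824) (nat_lit 380) (nat_lit 39251885086) (nat_lit 24) (nat_lit 5) (nat_lit 28) (nat_lit 5) (nat_lit 29) (nat_lit 5) (nat_lit 285) (nat_lit 283) (nat_lit 212)) (XT.nd (nat_lit 78) (nat_lit 0) (nat_lit 76) (XT.lf (nat_lit 76) (nat_lit 6106620645) (nat_lit 0) (nat_lit 27644516323) (nat_lit 380) (nat_lit 92315539290) (nat_lit 25) (nat_lit 5) (nat_lit 24) (nat_lit 5) (nat_lit 29) (nat_lit 5) (nat_lit 286) (nat_lit 283) (nat_lit 211)) (XT.lf (nat_lit 0) (nat_lit 46603797618) (nat_lit 304) (nat_lit 59383269441) (nat_lit 76) (nat_lit 30018489857) (nat_lit 25) (nat_lit 5) (nat_lit 29) (nat_lit 5) (nat_lit 26) (nat_lit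 5) (nat_lit 287) (nat_lit 283) (nat_lit 210)))) (XT.nd (nat_lit 78) (nat_lit 152) (nat_lit 0) (XT.lf (nat_lit 0) (nat_lit 9838834046) (nat_lit 304) (nat_lit 53268626182) (nat_lit 380) (nat_lit 84069346207) (nat_lit 21) (nat_lit 5) (nat_lit 25) (nat_lit 5) (nat_lit 26) (nat_lit 5) (nat_lit 288) (nat_lit 283) (nat_lit 209)) (XT.nd (nat_lit 78) (nat_lit 152) (nat_lit 0) (XT.lf (nat_lit 0) (nat_lit 85642629467) (nat_lit 380) (nat_lit 63893259418) (nat_lit 76) (nat_lit 9954462819) (nat_lit 21) (nat_lit 5) (nat_lit 26) (nat_lit 5) (nat_lit 22) (nat_lit 5) (nat_lit 289) (nat_lit 283) (nat_lit 208)) (XT.lf (nat_lit 0) (nat_lit 19792989441) (nat_lit 152) (nat_lit 95120710128) (nat_lit 228) (nat_lit 58233887030) (nat_lit 19) (nat_lit 5) (nat_lit 21) (nat_lit 5) (nat_lit 22) (nat_lit 5) (nat_lit 290) (nat_lit 283) (nat_lit 207))))))))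
noncomputable def xc90 : XT := (XT.nd (nat_lit 1560) (nat_lit 228) (nat_lit 0) (XT.nd (nat_lit 780) (nat_lit 456) (nat_lit 0) (XT.nd (nat_lit 390) (nat_lit 304) (nat_lit 0) (XT.nd (nat_lit 156) (nat_lit 228) (nat_lit 0) (XT.nd (nat_lit 78) (nat_lit 76) (nat_lit 0) (XT.lf (nat_lit 0) (nat_lit 123212258960) (nat_lit 152) (nat_lit 28702531283) (nat_lit 228) (nat_lit 36437713919) (nat_lit 19) (nat_lit 5) (nat_lit 21) (nat_lit 5) (nat_lit 22) (nat_lit 5) (nat_lit 291) (nat_lit 283) (nat_lit 206)) (XT.lf (nat_lit 0) (nat_lit 37686484283) (nat_lit 76) (nat_lit 160313884494) (nat_lit 152) (nat_lit 7307643195) (nat_lit 18) (nat_lit 5) (nat_lit 19) (nat_lit 5) (nat_lit 20) (nat_lit 4) (nat_lit 292) (nat_lit 283) (nat_lit 205))) (XT.nd (nat_lit 78) (nat_lit 152) (nat_lit 0) (XT.lf (nat_lit 0) (nat_lit 28793702627) (nat_lit 152) (nat_lit 63652116141) (nat_lit 76) (nat_lit 131458312499) (nat_lit 17)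 (nat_lit 5) (nat_lit 19) (nat_lit 5) (nat_lit 18) (nat_lit 5) (nat_lit 293) (nat_lit 283) (nat_lit 204)) (XT.nd (nat_lit 78) (nat_lit 0) (nat_lit 0) (XT.lf (nat_lit 0) (nat_lit 60994300011) (nat_lit 152) (nat_lit 11093048854) (nat_lit 228) (nat_lit 172771333660) (nat_lit 15) (nat_lit 5) (nat_lit 17) (nat_lit 5) (nat_lit 18) (nat_lit 5) (nat_lit 294) (nat_lit 283) (nat_lit 203)) (XT.lf (nat_lit 0) (nat_lit 128774993535) (nat_lit 228) (nat_lit 60539640434) (nat_lit 76) (nat_lit 78606790498) (nat_lit 15) (nat_lit 5) (nat_lit 18) (nat_lit 5) (nat_lit 16) (nat_lit 4) (nat_lit 295) (nat_lit 283) (nat_lit 202))))) (XT.nd (nat_lit 156) (nat_lit 228) (nat_lit 0) (XT.nd (nat_lit 78) (nat_lit 0) (nat_lit 0) (XT.lf (nat_lit 0) (nat_lit 88647041210) (nat_lit 76) (nat_lit 109517354656) (nat_lit 152) (nat_lit 95649390811) (nat_lit 14) (nat_lit 5) (nat_lit 15) (nat_lit 5) (nat_lit 16) (nat_lit 4) (nat_lit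 296) (nat_lit 283) (nat_lit 201)) (XT.lf (nat_lit 0) (nat_lit 267015074111) (nat_lit 76) (nat_lit 14111413242) (nat_lit 152) (nat_lit 41988874586) (nat_lit 14) (nat_lit 5) (nat_lit 15) (nat_lit 5) (nat_lit 16) (nat_lit 4) (nat_lit 297) (nat_lit 283) (nat_lit 200))) (XT.nd (nat_lit 78) (nat_lit 76) (nat_lit 0) (XT.lf (nat_lit 0) (nat_lit 27415285560) (nat_lit 152) (nat_lit 234454768221) (nat_lit 76) (nat_lit 93402094991) (nat_lit 12) (nat_lit 5) (nat_lit 14) (nat_lit 5) (nat_lit 13) (nat_lit 4) (nat_lit 298) (nat_lit 283) (nat_lit 199)) (XT.nd (nat_lit 78) (nat_lit 76) (nat_lit 0) (XT.lf (nat_lit 0) (nat_lit 106675081919) (nat_lit 152) (nat_lit 64046511004) (nat_lit 76) (nat_lit 220669359557) (nat_lit 12) (nat_lit 5) (nat_lit 14) (nat_lit 5) (nat_lit 13) (nat_lit 4) (nat_lit 299) (nat_lit 283) (nat_lit 198)) (XT.lf (nat_lit 0) (nat_lit 144815023690) (nat_lit 76) (nat_lit 59005081425) (nat_lit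 152) (nat_lit 228208033331) (nat_lit 11) (nat_lit 5) (nat_lit 12) (nat_lit 5) (nat_lit 13) (nat_lit 4) (nat_lit 300) (nat_lit 283) (nat_lit 197)))))) (XT.nd (nat_lit 390) (nat_lit 228) (nat_lit 0) (XT.nd (nat_lit 156) (nat_lit 152) (nat_lit 0) (XT.nd (nat_lit 78) (nat_lit 76) (nat_lit 0) (XT.lf (nat_lit 0) (nat_lit 321920532706) (nat_lit 152) (nat_lit 89091361611) (nat_lit 0) (nat_lit 66791460621) (nat_lit 11) (nat_lit 5) (nat_lit 13) (nat_lit 4) (nat_lit 11) (nat_lit 4) (nat_lit 301) (nat_lit 283) (nat_lit 196)) (XT.lf (nat_lit 0) (nat_lit 149223441068) (nat_lit 76) (nat_lit 317501184661) (nat_lit 76) (nat_lit 62371938217) (nat_lit 10) (nat_lit 4) (nat_lit 11) (nat_lit 5) (nat_lit 11) (nat_lit 4) (nat_lit 302) (nat_lit 283) (nat_lit 195))) (XT.nd (nat_lit 78) (nat_lit 76) (nat_lit 0) (XT.lf (nat_lit 0) (nat_lit 46023252115) (nat_lit 152) (nat_lit 156179406012) (nat_lit 76) (nat_lit 384868770937)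 (nat_lit 9) (nat_lit 5) (nat_lit 11) (nat_lit 5) (nat_lit 10) (nat_lit 4) (nat_lit 303) (nat_lit 283) (nat_lit 194)) (XT.nd (nat_lit 78) (nat_lit 0) (nat_lit 0) (XT.lf (nat_lit 0) (nat_lit 107684816315) (nat_lit 76) (nat_lit 61066042389) (nat_lit 152) (nat_lit 483877326134) (nat_lit 8) (nat_lit 5) (nat_lit 9) (nat_lit 5) (nat_lit 10) (nat_lit 4) (nat_lit 304) (nat_lit 283) (nat_lit 193)) (XT.lf (nat_lit 0) (nat_lit 322632305504) (nat_lit 152) (nat_lit 302694003040) (nat_lit 0) (nat_lit 100780440684) (nat_lit 8) (nat_lit 5) (nat_lit 10) (nat_lit 4) (nat_lit 8) (nat_lit 4) (nat_lit 305) (nat_lit 283) (nat_lit 192))))) (XT.nd (nat_lit 156) (nat_lit 152) (nat_lit 0) (XT.nd (nat_lit 78) (nat_lit 76) (nat_lit 0) (XT.lf (nat_lit 0) (nat_lit 502503737696) (nat_lit 152) (nat_lit 27015409253) (nat_lit 0) (nat_lit 280651786189) (nat_lit 8) (nat_lit 5) (nat_lit 10) (nat_lit 4) (nat_lit 8) (nat_lit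 4) (nat_lit 306) (nat_lit 283) (nat_lit 191)) (XT.lf (nat_lit 0) (nat_lit 318357088543) (nat_lit 76) (nat_lit 404181163957) (nat_lit 76) (nat_lit 182329137069) (nat_lit 7) (nat_lit 4) (nat_lit 8) (nat_lit 5) (nat_lit 8) (nat_lit 4) (nat_lit 307) (nat_lit 283) (nat_lit 190))) (XT.nd (nat_lit 78) (nat_lit 152) (nat_lit 0) (XT.lf (nat_lit 0) (nat_lit 718571400724) (nat_lit 76) (nat_lit 258418598993) (nat_lit 76) (nat_lit 36566506557) (nat_lit 7) (nat_lit 4) (nat_lit 8) (nat_lit 5) (nat_lit 8) (nat_lit 4) (nat_lit 308) (nat_lit 283) (nat_lit 189)) (XT.nd (nat_lit 78) (nat_lit 0) (nat_lit 0) (XT.lf (nat_lit 0) (nat_lit 38246714787) (nat_lit 76) (nat_lit 82729501129) (nat_lit 152) (nat_lit 1016521192490) (nat_lit 5) (nat_lit 5) (nat_lit 6) (nat_lit 5) (nat_lit 7) (nat_lit 4) (nat_lit 309) (nat_lit 283) (nat_lit 188)) (XT.lf (nat_lit 0) (nat_lit 319500972116) (nat_lit 152) (nat_lit 830517117133)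 (nat_lit 0) (nat_lit 126586016466) (nat_lit 5) (nat_lit 5) (nat_lit 7) (nat_lit 4) (nat_lit 5) (nat_lit 4) (nat_lit 310) (nat_lit 283) (nat_lit 187))))))) (XT.nd (nat_lit 780) (nat_lit 0) (nat_lit 0) (XT.nd (nat_lit 390) (nat_lit 152) (nat_lit 0) (XT.nd (nat_lit 156) (nat_lit 76) (nat_lit 0) (XT.nd (nat_lit 78) (nat_lit 0) (nat_lit 0) (XT.lf (nat_lit 0) (nat_lit 551743852729) (nat_lit 152) (nat_lit 525413183694) (nat_lit 0) (nat_lit 358828859602) (nat_lit 5) (nat_lit 5) (nat_lit 7) (nat_lit 4) (nat_lit 5) (nat_lit 4) (nat_lit 311) (nat_lit 283) (nat_lit 186)) (XT.lf (nat_lit 0) (nat_lit 818823087980) (nat_lit 152) (nat_lit 174543816297) (nat_lit 0) (nat_lit 625908062264) (nat_lit 5) (nat_lit 5) (nat_lit 7) (nat_lit 4) (nat_lit 5) (nat_lit 4) (nat_lit 312) (nat_lit 283) (nat_lit 185))) (XT.nd (nat_lit 78) (nat_lit 0) (nat_lit 0) (XT.lf (nat_lit 0) (nat_lit 251331048419) (nat_lit 76) (nat_lit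 885040175499) (nat_lit 76) (nat_lit 692125121445) (nat_lit 4) (nat_lit 4) (nat_lit 5) (nat_lit 5) (nat_lit 5) (nat_lit 4) (nat_lit 313) (nat_lit 283) (nat_lit 184)) (XT.nd (nat_lit 78) (nat_lit 0) (nat_lit 0) (XT.lf (nat_lit 0) (nat_lit 760703358117) (nat_lit 76) (nat_lit 749972039507) (nat_lit 76) (nat_lit 557056960811) (nat_lit 4) (nat_lit 4) (nat_lit 5) (nat_lit 5) (nat_lit 5) (nat_lit 4) (nat_lit 314) (nat_lit 283) (nat_lit 183)) (XT.lf (nat_lit 0) (nat_lit 1346481401631) (nat_lit 76) (nat_lit 594643740164) (nat_lit 76) (nat_lit 401728640041) (nat_lit 4) (nat_lit 4) (nat_lit 5) (nat_lit 5) (nat_lit 5) (nat_lit 4) (nat_lit 315) (nat_lit 283) (nat_lit 182))))) (XT.nd (nat_lit 156) (nat_lit 152) (nat_lit 0) (XT.nd (nat_lit 78) (nat_lit 0) (nat_lit 0) (XT.lf (nat_lit 0) (nat_lit 2020126053725) (nat_lit 76) (nat_lit 416016245527) (nat_lit 76) (nat_lit 223101126770) (nat_lit 4) (nat_lit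 4) (nat_lit 5) (nat_lit 5) (nat_lit 5) (nat_lit 4) (nat_lit 316) (nat_lit 283) (nat_lit 181)) (XT.lf (nat_lit 0) (nat_lit 2794817318463) (nat_lit 76) (nat_lit 210594669830) (nat_lit 76) (nat_lit 17679534871) (nat_lit 4) (nat_lit 4) (nat_lit 5) (nat_lit 5) (nat_lit 5) (nat_lit 4) (nat_lit 317) (nat_lit 283) (nat_lit 180))) (XT.nd (nat_lit 78) (nat_lit 0) (nat_lit 0) (XT.lf (nat_lit 0) (nat_lit 211788006196) (nat_lit 152) (nat_lit 3182432137590) (nat_lit 0) (nat_lit 44035702676) (nat_lit 2) (nat_lit 5) (nat_lit 4) (nat_lit 4) (nat_lit 2) (nat_lit 4) (nat_lit 318) (nat_lit 283) (nat_lit 179)) (XT.nd (nat_lit 78) (nat_lit 0) (nat_lit 0) (XT.lf (nat_lit 0) (nat_lit 496394640717) (nat_lit 152) (nat_lit 3087152217129) (nat_lit 0) (nat_lit 328642326544) (nat_lit 2) (nat_lit 5) (nat_lit 4) (nat_lit 4) (nat_lit 2) (nat_lit 4) (nat_lit 319) (nat_lit 283) (nat_lit 178)) (XT.lf (nat_lit 0) (nat_lit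 823692237409) (nat_lit 152) (nat_lit 2977580376589) (nat_lit 0) (nat_lit 655939913972) (nat_lit 2) (nat_lit 5) (nat_lit 4) (nat_lit 4) (nat_lit 2) (nat_lit 4) (nat_lit 320) (nat_lit 283) (nat_lit 177)))))) (XT.nd (nat_lit 390) (nat_lit 0) (nat_lit 0) (XT.nd (nat_lit 156) (nat_lit 0) (nat_lit 0) (XT.nd (nat_lit 78) (nat_lit 0) (nat_lit 0) (XT.lf (nat_lit 0) (nat_lit 1200084444904) (nat_lit 152) (nat_lit 2851572819089) (nat_lit 0) (nat_lit 1032332113411) (nat_lit 2) (nat_lit 5) (nat_lit 4) (nat_lit 4) (nat_lit 2) (nat_lit 4) (nat_lit 321) (nat_lit 283) (nat_lit 176)) (XT.lf (nat_lit 0) (nat_lit 1632935458564) (nat_lit 152) (nat_lit 2706664179374) (nat_lit 0) (nat_lit 1465183120067) (nat_lit 2) (nat_lit 5) (nat_lit 4) (nat_lit 4) (nat_lit 2) (nat_lit 4) (nat_lit 322) (nat_lit 283) (nat_lit 175))) (XT.nd (nat_lit 78) (nat_lit 0) (nat_lit 0) (XT.lf (nat_lit 0) (nat_lit 2130714102571) (nat_lit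 152) (nat_lit 2540019288406) (nat_lit 0) (nat_lit 1962961757983) (nat_lit 2) (nat_lit 5) (nat_lit 4) (nat_lit 4) (nat_lit 2) (nat_lit 4) (nat_lit 323) (nat_lit 283) (nat_lit 174)) (XT.nd (nat_lit 78) (nat_lit 0) (nat_lit 0) (XT.lf (nat_lit 0) (nat_lit 2703159524308) (nat_lit 152) (nat_lit 2348377702666) (nat_lit 0) (nat_lit 2535407174423) (nat_lit 2) (nat_lit 5) (nat_lit 4) (nat_lit 4) (nat_lit 2) (nat_lit 4) (nat_lit 324) (nat_lit 283) (nat_lit 173)) (XT.lf (nat_lit 0) (nat_lit 3361471742894) (nat_lit 152) (nat_lit 2127989912869) (nat_lit 0) (nat_lit 3193719388404) (nat_lit 2) (nat_lit 5) (nat_lit 4) (nat_lit 4) (nat_lit 2) (nat_lit 4) (nat_lit 325) (nat_lit 283) (nat_lit 172))))) (XT.nd (nat_lit 156) (nat_lit 0) (nat_lit 0) (XT.nd (nat_lit 78) (nat_lit 0) (nat_lit 0) (XT.lf (nat_lit 0) (nat_lit 4118530779999) (nat_lit 152) (nat_lit 1874543983995) (nat_lit 0) (nat_lit 3950778421503)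 (nat_lit 2) (nat_lit 5) (nat_lit 4) (nat_lit 4) (nat_lit 2) (nat_lit 4) (nat_lit 326) (nat_lit 283) (nat_lit 171)) (XT.lf (nat_lit 0) (nat_lit 4989148660261) (nat_lit 152) (nat_lit 1583081191351) (nat_lit 0) (nat_lit 4821396298283) (nat_lit 2) (nat_lit 5) (nat_lit 4) (nat_lit 4) (nat_lit 2) (nat_lit 4) (nat_lit 327) (nat_lit 283) (nat_lit 170))) (XT.nd (nat_lit 78) (nat_lit 0) (nat_lit 0) (XT.lf (nat_lit 0) (nat_lit 5990359211772) (nat_lit 152) (nat_lit 1247899002035) (nat_lit 0) (nat_lit 5822606846765) (nat_lit 2) (nat_lit 5) (nat_lit 4) (nat_lit 4) (nat_lit 2) (nat_lit 4) (nat_lit 328) (nat_lit 283) (nat_lit 169)) (XT.nd (nat_lit 78) (nat_lit 0) (nat_lit 0) (XT.lf (nat_lit 0) (nat_lit 7141751336627) (nat_lit 152) (nat_lit 862439503650) (nat_lit 0) (nat_lit 6973998968987) (nat_lit 2) (nat_lit 5) (nat_lit 4) (nat_lit 4) (nat_lit 2) (nat_lit 4) (nat_lit 329) (nat_lit 283) (nat_lit 168))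 (XT.lf (nat_lit 0) (nat_lit 8465852272052) (nat_lit 152) (nat_lit 419161097312) (nat_lit 0) (nat_lit 8298099902122) (nat_lit 2) (nat_lit 5) (nat_lit 4) (nat_lit 4) (nat_lit 2) (nat_lit 4) (nat_lit 330) (nat_lit 283) (nat_lit 167))))))))
noncomputable def xc91 : XT := (XT.nd (nat_lit 37674) (nat_lit 0) (nat_lit 304) (XT.nd (nat_lit 780) (nat_lit 0) (nat_lit 0) (XT.nd (nat_lit 390) (nat_lit 0) (nat_lit 0) (XT.nd (nat_lit 156) (nat_lit 0) (nat_lit 0) (XT.nd (nat_lit 78) (nat_lit 0) (nat_lit 0) (XT.lf (nat_lit 0) (nat_lit 99464031225) (nat_lit 76) (nat_lit 9893222902895) (nat_lit 76) (nat_lit 9725470530974) (nat_lit 1) (nat_lit 4) (nat_lit 2) (nat_lit 5) (nat_lit 2) (nat_lit 4) (nat_lit 331) (nat_lit 283) (nat_lit 166)) (XT.lf (nat_lit 0) (nat_lit 742990906600) (nat_lit 76) (nat_lit 11027466575877) (nat_lit 76) (nat_lit 10859714202224) (nat_lit 1) (nat_lit 4) (nat_lit 2) (nat_lit 5) (nat_lit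 2) (nat_lit 4) (nat_lit 332) (nat_lit 283) (nat_lit 165))) (XT.nd (nat_lit 78) (nat_lit 0) (nat_lit 0) (XT.lf (nat_lit 0) (nat_lit 1483046801151) (nat_lit 76) (nat_lit 12331846806068) (nat_lit 76) (nat_lit 12164094430910) (nat_lit 1) (nat_lit 4) (nat_lit 2) (nat_lit 5) (nat_lit 2) (nat_lit 4) (nat_lit 333) (nat_lit 283) (nat_lit 164)) (XT.nd (nat_lit 78) (nat_lit 0) (nat_lit 0) (XT.lf (nat_lit 0) (nat_lit 2334111069337) (nat_lit 76) (nat_lit 13831884076235) (nat_lit 76) (nat_lit 13664131699767) (nat_lit 1) (nat_lit 4) (nat_lit 2) (nat_lit 5) (nat_lit 2) (nat_lit 4) (nat_lit 334) (nat_lit 283) (nat_lit 163)) (XT.lf (nat_lit 0) (nat_lit 3312834968579) (nat_lit 76) (nat_lit 15556926941663) (nat_lit 76) (nat_lit 15389174564057) (nat_lit 1) (nat_lit 4) (nat_lit 2) (nat_lit 5) (nat_lit 2) (nat_lit 4) (nat_lit 335) (nat_lit 283) (nat_lit 162))))) (XT.nd (nat_lit 156) (nat_lit 0) (nat_lit 0)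 (XT.nd (nat_lit 78) (nat_lit 0) (nat_lit 0) (XT.lf (nat_lit 0) (nat_lit 4438367444730) (nat_lit 76) (nat_lit 17540726241023) (nat_lit 76) (nat_lit 17372973862427) (nat_lit 1) (nat_lit 4) (nat_lit 2) (nat_lit 5) (nat_lit 2) (nat_lit 4) (nat_lit 336) (nat_lit 283) (nat_lit 161)) (XT.lf (nat_lit 0) (nat_lit 5732729785370) (nat_lit 76) (nat_lit 19822095438868) (nat_lit 76) (nat_lit 19654343059411) (nat_lit 1) (nat_lit 4) (nat_lit 2) (nat_lit 5) (nat_lit 2) (nat_lit 4) (nat_lit 337) (nat_lit 283) (nat_lit 160))) (XT.nd (nat_lit 78) (nat_lit 0) (nat_lit 0) (XT.lf (nat_lit 0) (nat_lit 7221246471074) (nat_lit 76) (nat_lit 22445670019504) (nat_lit 76) (nat_lit 22277917639298) (nat_lit 1) (nat_lit 4) (nat_lit 2) (nat_lit 5) (nat_lit 2) (nat_lit 4) (nat_lit 338) (nat_lit 283) (nat_lit 159)) (XT.nd (nat_lit 78) (nat_lit 0) (nat_lit 0) (XT.lf (nat_lit 0) (nat_lit 8933040654390) (nat_lit 76) (nat_lit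 25462780789943) (nat_lit 76) (nat_lit 25295028409086) (nat_lit 1) (nat_lit 4) (nat_lit 2) (nat_lit 5) (nat_lit 2) (nat_lit 4) (nat_lit 339) (nat_lit 283) (nat_lit 158)) (XT.lf (nat_lit 0) (nat_lit 10901603960642) (nat_lit 76) (nat_lit 28932458178302) (nat_lit 76) (nat_lit 28764705796880) (nat_lit 1) (nat_lit 4) (nat_lit 2) (nat_lit 5) (nat_lit 2) (nat_lit 4) (nat_lit 340) (nat_lit 283) (nat_lit 157)))))) (XT.nd (nat_lit 36504) (nat_lit 0) (nat_lit 1368) (XT.nd (nat_lit 36270) (nat_lit 0) (nat_lit 1672) (XT.nd (nat_lit 36192) (nat_lit 0) (nat_lit 1672) (XT.lf (nat_lit 0) (nat_lit 13165451758868) (nat_lit 76) (nat_lit 32922587176963) (nat_lit 76) (nat_lit 32754834795049) (nat_lit 1) (nat_lit 4) (nat_lit 2) (nat_lit 5) (nat_lit 2) (nat_lit 4) (nat_lit 341) (nat_lit 283) (nat_lit 156)) (XT.lf (nat_lit 0) (nat_lit 10659640292) (nat_lit 380) (nat_lit 23780711646) (nat_lit 380) (nat_lit 23780711646)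 (nat_lit 23) (nat_lit 3) (nat_lit 28) (nat_lit 3) (nat_lit 28) (nat_lit 5) (nat_lit 284) (nat_lit 284) (nat_lit 212))) (XT.nd (nat_lit 78) (nat_lit 0) (nat_lit 76) (XT.lf (nat_lit 76) (nat_lit 8131674220) (nat_lit 0) (nat_lit 15127663861) (nat_lit 380) (nat_lit 101864767750) (nat_lit 24) (nat_lit 5) (nat_lit 23) (nat_lit 3) (nat_lit 28) (nat_lit 5) (nat_lit 285) (nat_lit 284) (nat_lit 211)) (XT.nd (nat_lit 78) (nat_lit 0) (nat_lit 0) (XT.lf (nat_lit 0) (nat_lit 30027432084) (nat_lit 304) (nat_lit 59263749024) (nat_lit 380) (nat_lit 45136648520) (nat_lit 24) (nat_lit 5) (nat_lit 28) (nat_lit 5) (nat_lit 29) (nat_lit 5) (nat_lit 286) (nat_lit 284) (nat_lit 210)) (XT.lf (nat_lit 76) (nat_lit 7029101333) (nat_lit 0) (nat_lit 31792376484) (nat_lit 380) (nat_lit 106154025727) (nat_lit 25) (nat_lit 5) (nat_lit 24) (nat_lit 5) (nat_lit 29) (nat_lit 5) (nat_lit 287) (nat_lit 284) (nat_lit 209)))))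 (XT.nd (nat_lit 156) (nat_lit 152) (nat_lit 0) (XT.nd (nat_lit 78) (nat_lit 304) (nat_lit 0) (XT.lf (nat_lit 0) (nat_lit 53600994505) (nat_lit 304) (nat_lit 68284054886) (nat_lit 76) (nat_lit 34520326448) (nat_lit 25) (nat_lit 5) (nat_lit 29) (nat_lit 5) (nat_lit 26) (nat_lit 5) (nat_lit 288) (nat_lit 284) (nat_lit 208)) (XT.lf (nat_lit 0) (nat_lit 11321059352) (nat_lit 304) (nat_lit 61258547749) (nat_lit 380) (nat_lit 96672798273) (nat_lit 21) (nat_lit 5) (nat_lit 25) (nat_lit 5) (nat_lit 26) (nat_lit 5) (nat_lit 289) (nat_lit 284) (nat_lit 207))) (XT.nd (nat_lit 78) (nat_lit 152) (nat_lit 0) (XT.lf (nat_lit 0) (nat_lit 98494278894) (nat_lit 380) (nat_lit 73470894586) (nat_lit 76) (nat_lit 11447927207) (nat_lit 21) (nat_lit 5) (nat_lit 26) (nat_lit 5) (nat_lit 22) (nat_lit 5) (nat_lit 290) (nat_lit 284) (nat_lit 206)) (XT.nd (nat_lit 78) (nat_lit 0) (nat_lit 0) (XT.lf (nat_lit 0) (nat_lit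 22768002795) (nat_lit 152) (nat_lit 109387572416) (nat_lit 228) (nat_lit 66963412774) (nat_lit 19) (nat_lit 5) (nat_lit 21) (nat_lit 5) (nat_lit 22) (nat_lit 5) (nat_lit 291) (nat_lit 284) (nat_lit 205)) (XT.lf (nat_lit 0) (nat_lit 141699371664) (nat_lit 152) (nat_lit 33006829035) (nat_lit 228) (nat_lit 41898538563) (nat_lit 19) (nat_lit 5) (nat_lit 21) (nat_lit 5) (nat_lit 22) (nat_lit 5) (nat_lit 292) (nat_lit 284) (nat_lit 204))))))) (XT.nd (nat_lit 780) (nat_lit 456) (nat_lit 0) (XT.nd (nat_lit 390) (nat_lit 228) (nat_lit 0) (XT.nd (nat_lit 156) (nat_lit 228) (nat_lit 0) (XT.nd (nat_lit 78) (nat_lit 76) (nat_lit 0) (XT.lf (nat_lit 0) (nat_lit 43345059710) (nat_lit 76) (nat_lit 184359280488) (nat_lit 152) (nat_lit 8399275949) (nat_lit 18) (nat_lit 5) (nat_lit 19) (nat_lit 5) (nat_lit 20) (nat_lit 4) (nat_lit 293) (nat_lit 284) (nat_lit 203)) (XT.lf (nat_lit 0) (nat_lit 33116333571)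 (nat_lit 152) (nat_lit 73194704430) (nat_lit 76) (nat_lit 151178168907) (nat_lit 17) (nat_lit 5) (nat_lit 19) (nat_lit 5) (nat_lit 18) (nat_lit 5) (nat_lit 294) (nat_lit 284) (nat_lit 202))) (XT.nd (nat_lit 78) (nat_lit 76) (nat_lit 0) (XT.lf (nat_lit 0) (nat_lit 70148436458) (nat_lit 152) (nat_lit 12755330597) (nat_lit 228) (nat_lit 198683213761) (nat_lit 15) (nat_lit 5) (nat_lit 17) (nat_lit 5) (nat_lit 18) (nat_lit 5) (nat_lit 295) (nat_lit 284) (nat_lit 201)) (XT.nd (nat_lit 78) (nat_lit 76) (nat_lit 0) (XT.lf (nat_lit 0) (nat_lit 148094186254) (nat_lit 228) (nat_lit 69615868106) (nat_lit 76) (nat_lit 90399136388) (nat_lit 15) (nat_lit 5) (nat_lit 18) (nat_lit 5) (nat_lit 16) (nat_lit 4) (nat_lit 296) (nat_lit 284) (nat_lit 200)) (XT.lf (nat_lit 0) (nat_lit 101948601312) (nat_lit 76) (nat_lit 125943200160) (nat_lit 152) (nat_lit 109993636198) (nat_lit 14) (nat_lit 5) (nat_lit 15)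 (nat_lit 5) (nat_lit 16) (nat_lit 4) (nat_lit 297) (nat_lit 284) (nat_lit 199))))) (XT.nd (nat_lit 156) (nat_lit 76) (nat_lit 0) (XT.nd (nat_lit 78) (nat_lit 152) (nat_lit 0) (XT.lf (nat_lit 0) (nat_lit 307071251680) (nat_lit 76) (nat_lit 16226596799) (nat_lit 152) (nat_lit 48284455135) (nat_lit 14) (nat_lit 5) (nat_lit 15) (nat_lit 5) (nat_lit 16) (nat_lit 4) (nat_lit 298) (nat_lit 284) (nat_lit 198)) (XT.lf (nat_lit 0) (nat_lit 31529989535) (nat_lit 152) (nat_lit 269618720331) (nat_lit 76) (nat_lit 107413896215) (nat_lit 12) (nat_lit 5) (nat_lit 14) (nat_lit 5) (nat_lit 13) (nat_lit 4) (nat_lit 299) (nat_lit 284) (nat_lit 197))) (XT.nd (nat_lit 78) (nat_lit 76) (nat_lit 0) (XT.lf (nat_lit 0) (nat_lit 122678440851) (nat_lit 152) (nat_lit 73649780590) (nat_lit 76) (nat_lit 253771056512) (nat_lit 12) (nat_lit 5) (nat_lit 14) (nat_lit 5) (nat_lit 13) (nat_lit 4) (nat_lit 300) (nat_lit 284)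 (nat_lit 196)) (XT.nd (nat_lit 78) (nat_lit 0) (nat_lit 0) (XT.lf (nat_lit 0) (nat_lit 166540815804) (nat_lit 76) (nat_lit 67854274771) (nat_lit 152) (nat_lit 262436970661) (nat_lit 11) (nat_lit 5) (nat_lit 12) (nat_lit 5) (nat_lit 13) (nat_lit 4) (nat_lit 301) (nat_lit 284) (nat_lit 195)) (XT.lf (nat_lit 0) (nat_lit 370210381879) (nat_lit 152) (nat_lit 102451786223) (nat_lit 0) (nat_lit 76811422494) (nat_lit 11) (nat_lit 5) (nat_lit 13) (nat_lit 4) (nat_lit 11) (nat_lit 4) (nat_lit 302) (nat_lit 284) (nat_lit 194)))))) (XT.nd (nat_lit 390) (nat_lit 228) (nat_lit 0) (XT.nd (nat_lit 156) (nat_lit 76) (nat_lit 0) (XT.nd (nat_lit 78) (nat_lit 76) (nat_lit 0) (XT.lf (nat_lit 0) (nat_lit 171610087784) (nat_lit 76) (nat_lit 365124899926) (nat_lit 76) (nat_lit 71725808701) (nat_lit 10) (nat_lit 4) (nat_lit 11) (nat_lit 5) (nat_lit 11) (nat_lit 4) (nat_lit 303) (nat_lit 284) (nat_lit 193)) (XT.lf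 (nat_lit 0) (nat_lit 52928261058) (nat_lit 152) (nat_lit 179603444593) (nat_lit 76) (nat_lit 442600208161) (nat_lit 9) (nat_lit 5) (nat_lit 11) (nat_lit 5) (nat_lit 10) (nat_lit 4) (nat_lit 304) (nat_lit 284) (nat_lit 192))) (XT.nd (nat_lit 78) (nat_lit 0) (nat_lit 0) (XT.lf (nat_lit 0) (nat_lit 123840280523) (nat_lit 76) (nat_lit 70224643235) (nat_lit 152) (nat_lit 556457272114) (nat_lit 8) (nat_lit 5) (nat_lit 9) (nat_lit 5) (nat_lit 10) (nat_lit 4) (nat_lit 305) (nat_lit 284) (nat_lit 191)) (XT.nd (nat_lit 78) (nat_lit 0) (nat_lit 0) (XT.lf (nat_lit 0) (nat_lit 371028447249) (nat_lit 152) (nat_lit 348095577937) (nat_lit 0) (nat_lit 115898540948) (nat_lit 8) (nat_lit 5) (nat_lit 10) (nat_lit 4) (nat_lit 8) (nat_lit 4) (nat_lit 306) (nat_lit 284) (nat_lit 190)) (XT.lf (nat_lit 0) (nat_lit 577880425237) (nat_lit 152) (nat_lit 31065524503) (nat_lit 0) (nat_lit 322750453388) (nat_lit 8)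 (nat_lit 5) (nat_lit 10) (nat_lit 4) (nat_lit 8) (nat_lit 4) (nat_lit 307) (nat_lit 284) (nat_lit 189))))) (XT.nd (nat_lit 234) (nat_lit 0) (nat_lit 0) (XT.nd (nat_lit 78) (nat_lit 152) (nat_lit 0) (XT.lf (nat_lit 0) (nat_lit 366112748138) (nat_lit 76) (nat_lit 464807308942) (nat_lit 76) (nat_lit 209677280095) (nat_lit 7) (nat_lit 4) (nat_lit 8) (nat_lit 5) (nat_lit 8) (nat_lit 4) (nat_lit 308) (nat_lit 284) (nat_lit 188)) (XT.nd (nat_lit 78) (nat_lit 152) (nat_lit 0) (XT.lf (nat_lit 0) (nat_lit 826358933714) (nat_lit 76) (nat_lit 297180493529) (nat_lit 76) (nat_lit 42050415119) (nat_lit 7) (nat_lit 4) (nat_lit 8) (nat_lit 5) (nat_lit 8) (nat_lit 4) (nat_lit 309) (nat_lit 284) (nat_lit 187)) (XT.lf (nat_lit 0) (nat_lit 43985553333) (nat_lit 76) (nat_lit 95138016360) (nat_lit 152) (nat_lit 1168998311223) (nat_lit 5) (nat_lit 5) (nat_lit 6) (nat_lit 5) (nat_lit 7) (nat_lit 4) (nat_lit 310)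 (nat_lit 284) (nat_lit 186)))) (XT.nd (nat_lit 78) (nat_lit 0) (nat_lit 0) (XT.lf (nat_lit 0) (nat_lit 367426951907) (nat_lit 152) (nat_lit 955093004354) (nat_lit 0) (nat_lit 145574639744) (nat_lit 5) (nat_lit 5) (nat_lit 7) (nat_lit 4) (nat_lit 5) (nat_lit 4) (nat_lit 311) (nat_lit 284) (nat_lit 185)) (XT.nd (nat_lit 78) (nat_lit 0) (nat_lit 0) (XT.lf (nat_lit 0) (nat_lit 634506155832) (nat_lit 152) (nat_lit 604223700075) (nat_lit 0) (nat_lit 412653815332) (nat_lit 5) (nat_lit 5) (nat_lit 7) (nat_lit 4) (nat_lit 5) (nat_lit 4) (nat_lit 312) (nat_lit 284) (nat_lit 184)) (XT.lf (nat_lit 0) (nat_lit 941647181780) (nat_lit 152) (nat_lit 200724118157) (nat_lit 0) (nat_lit 719794816638) (nat_lit 5) (nat_lit 5) (nat_lit 7) (nat_lit 4) (nat_lit 5) (nat_lit 4) (nat_lit 313) (nat_lit 284) (nat_lit 183))))))))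
noncomputable def xc92 : XT := (XT.nd (nat_lit 1560) (nat_lit 0) (nat_lit 0) (XT.nd (nat_lit 780) (nat_lit 76) (nat_lit 0) (XT.nd (nat_lit 390) (nat_lit 152) (nat_lit 0) (XT.nd (nat_lit 156) (nat_lit 0) (nat_lit 0) (XT.nd (nat_lit 78) (nat_lit 0) (nat_lit 0) (XT.lf (nat_lit 0) (nat_lit 289031918512) (nat_lit 76) (nat_lit 1017795587565) (nat_lit 76) (nat_lit 795943200995) (nat_lit 4) (nat_lit 4) (nat_lit 5) (nat_lit 5) (nat_lit 5) (nat_lit 4) (nat_lit 314) (nat_lit 284) (nat_lit 182)) (XT.lf (nat_lit 0) (nat_lit 874809916470) (nat_lit 76) (nat_lit 862467311295) (nat_lit 76) (nat_lit 640614906092) (nat_lit 4) (nat_lit 4) (nat_lit 5) (nat_lit 5) (nat_lit 5) (nat_lit 4) (nat_lit 315) (nat_lit 284) (nat_lit 181))) (XT.nd (nat_lit 78) (nat_lit 0) (nat_lit 0) (XT.lf (nat_lit 0) (nat_lit 1548454528950) (nat_lit 76) (nat_lit 683839836721) (nat_lit 76) (nat_lit 461987415316) (nat_lit 4) (nat_lit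 4) (nat_lit 5) (nat_lit 5) (nat_lit 5) (nat_lit 4) (nat_lit 316) (nat_lit 284) (nat_lit 180)) (XT.nd (nat_lit 78) (nat_lit 0) (nat_lit 0) (XT.lf (nat_lit 0) (nat_lit 2323145759240) (nat_lit 76) (nat_lit 478418278470) (nat_lit 76) (nat_lit 256565842976) (nat_lit 4) (nat_lit 4) (nat_lit 5) (nat_lit 5) (nat_lit 5) (nat_lit 4) (nat_lit 317) (nat_lit 284) (nat_lit 179)) (XT.lf (nat_lit 0) (nat_lit 3214040609673) (nat_lit 76) (nat_lit 242183519100) (nat_lit 76) (nat_lit 20331071354) (nat_lit 4) (nat_lit 4) (nat_lit 5) (nat_lit 5) (nat_lit 5) (nat_lit 4) (nat_lit 318) (nat_lit 284) (nat_lit 178))))) (XT.nd (nat_lit 156) (nat_lit 0) (nat_lit 0) (XT.nd (nat_lit 78) (nat_lit 0) (nat_lit 0) (XT.lf (nat_lit 0) (nat_lit 243556562525) (nat_lit 152) (nat_lit 3659796226153) (nat_lit 0) (nat_lit 50641381309) (nat_lit 2) (nat_lit 5) (nat_lit 4) (nat_lit 4) (nat_lit 2) (nat_lit 4) (nat_lit 319) (nat_lit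 284) (nat_lit 177)) (XT.lf (nat_lit 0) (nat_lit 570854145868) (nat_lit 152) (nat_lit 3550224413111) (nat_lit 0) (nat_lit 377938956596) (nat_lit 2) (nat_lit 5) (nat_lit 4) (nat_lit 4) (nat_lit 2) (nat_lit 4) (nat_lit 320) (nat_lit 284) (nat_lit 176))) (XT.nd (nat_lit 78) (nat_lit 0) (nat_lit 0) (XT.lf (nat_lit 0) (nat_lit 947246341754) (nat_lit 152) (nat_lit 3424216879522) (nat_lit 0) (nat_lit 754331145477) (nat_lit 2) (nat_lit 5) (nat_lit 4) (nat_lit 4) (nat_lit 2) (nat_lit 4) (nat_lit 321) (nat_lit 284) (nat_lit 175)) (XT.nd (nat_lit 78) (nat_lit 0) (nat_lit 0) (XT.lf (nat_lit 0) (nat_lit 1380097345321) (nat_lit 152) (nat_lit 3279308260600) (nat_lit 0) (nat_lit 1187182142953) (nat_lit 2) (nat_lit 5) (nat_lit 4) (nat_lit 4) (nat_lit 2) (nat_lit 4) (nat_lit 322) (nat_lit 284) (nat_lit 174)) (XT.lf (nat_lit 0) (nat_lit 1877875980550) (nat_lit 152) (nat_lit 3112663387713) (nat_lit 0) (nat_lit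 1684960772886) (nat_lit 2) (nat_lit 5) (nat_lit 4) (nat_lit 4) (nat_lit 2) (nat_lit 4) (nat_lit 323) (nat_lit 284) (nat_lit 173)))))) (XT.nd (nat_lit 390) (nat_lit 76) (nat_lit 0) (XT.nd (nat_lit 156) (nat_lit 0) (nat_lit 0) (XT.nd (nat_lit 78) (nat_lit 0) (nat_lit 0) (XT.lf (nat_lit 0) (nat_lit 2450321394654) (nat_lit 152) (nat_lit 2921021817696) (nat_lit 0) (nat_lit 2257406182384) (nat_lit 2) (nat_lit 5) (nat_lit 4) (nat_lit 4) (nat_lit 2) (nat_lit 4) (nat_lit 324) (nat_lit 284) (nat_lit 172)) (XT.lf (nat_lit 0) (nat_lit 3108633606603) (nat_lit 152) (nat_lit 2700634041570) (nat_lit 0) (nat_lit 2915718390328) (nat_lit 2) (nat_lit 5) (nat_lit 4) (nat_lit 4) (nat_lit 2) (nat_lit 4) (nat_lit 325) (nat_lit 284) (nat_lit 171))) (XT.nd (nat_lit 78) (nat_lit 0) (nat_lit 0) (XT.lf (nat_lit 0) (nat_lit 3865692637937) (nat_lit 152) (nat_lit 2447188124585) (nat_lit 0) (nat_lit 3672777418179) (nat_lit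 2) (nat_lit 5) (nat_lit 4) (nat_lit 4) (nat_lit 2) (nat_lit 4) (nat_lit 326) (nat_lit 284) (nat_lit 170)) (XT.nd (nat_lit 78) (nat_lit 0) (nat_lit 0) (XT.lf (nat_lit 0) (nat_lit 4736310513180) (nat_lit 152) (nat_lit 2155725342278) (nat_lit 0) (nat_lit 4543395290394) (nat_lit 2) (nat_lit 5) (nat_lit 4) (nat_lit 4) (nat_lit 2) (nat_lit 4) (nat_lit 327) (nat_lit 284) (nat_lit 169)) (XT.lf (nat_lit 0) (nat_lit 5737521060327) (nat_lit 152) (nat_lit 1820543161952) (nat_lit 0) (nat_lit 5544605834908) (nat_lit 2) (nat_lit 5) (nat_lit 4) (nat_lit 4) (nat_lit 2) (nat_lit 4) (nat_lit 328) (nat_lit 284) (nat_lit 168))))) (XT.nd (nat_lit 156) (nat_lit 76) (nat_lit 0) (XT.nd (nat_lit 78) (nat_lit 0) (nat_lit 0) (XT.lf (nat_lit 0) (nat_lit 6888913181387) (nat_lit 152) (nat_lit 1435083671383) (nat_lit 0) (nat_lit 6695997953678) (nat_lit 2) (nat_lit 5) (nat_lit 4) (nat_lit 4) (nat_lit 2) (nat_lit 4) (nat_lit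 329) (nat_lit 284) (nat_lit 167)) (XT.lf (nat_lit 0) (nat_lit 8213014113512) (nat_lit 152) (nat_lit 991805271843) (nat_lit 0) (nat_lit 8020098883812) (nat_lit 2) (nat_lit 5) (nat_lit 4) (nat_lit 4) (nat_lit 2) (nat_lit 4) (nat_lit 330) (nat_lit 284) (nat_lit 166))) (XT.nd (nat_lit 78) (nat_lit 76) (nat_lit 0) (XT.lf (nat_lit 0) (nat_lit 9735730179287) (nat_lit 152) (nat_lit 482035125079) (nat_lit 0) (nat_lit 9542814947855) (nat_lit 2) (nat_lit 5) (nat_lit 4) (nat_lit 4) (nat_lit 2) (nat_lit 4) (nat_lit 331) (nat_lit 284) (nat_lit 165)) (XT.nd (nat_lit 78) (nat_lit 0) (nat_lit 0) (XT.lf (nat_lit 0) (nat_lit 114383766520) (nat_lit 76) (nat_lit 11377206270890) (nat_lit 76) (nat_lit 11184291037952) (nat_lit 1) (nat_lit 4) (nat_lit 2) (nat_lit 5) (nat_lit 2) (nat_lit 4) (nat_lit 332) (nat_lit 284) (nat_lit 164)) (XT.lf (nat_lit 0) (nat_lit 854439656165) (nat_lit 76) (nat_lit 12681586503615)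 (nat_lit 76) (nat_lit 12488671269368) (nat_lit 1) (nat_lit 4) (nat_lit 2) (nat_lit 5) (nat_lit 2) (nat_lit 4) (nat_lit 333) (nat_lit 284) (nat_lit 163))))))) (XT.nd (nat_lit 36972) (nat_lit 0) (nat_lit 1064) (XT.nd (nat_lit 390) (nat_lit 0) (nat_lit 0) (XT.nd (nat_lit 156) (nat_lit 0) (nat_lit 0) (XT.nd (nat_lit 78) (nat_lit 0) (nat_lit 0) (XT.lf (nat_lit 0) (nat_lit 1705503920085) (nat_lit 76) (nat_lit 14181623775984) (nat_lit 76) (nat_lit 13988708540599) (nat_lit 1) (nat_lit 4) (nat_lit 2) (nat_lit 5) (nat_lit 2) (nat_lit 4) (nat_lit 334) (nat_lit 284) (nat_lit 162)) (XT.lf (nat_lit 0) (nat_lit 2684227815616) (nat_lit 76) (nat_lit 15906666643327) (nat_lit 76) (nat_lit 15713751406952) (nat_lit 1) (nat_lit 4) (nat_lit 2) (nat_lit 5) (nat_lit 2) (nat_lit 4) (nat_lit 335) (nat_lit 284) (nat_lit 161))) (XT.nd (nat_lit 78) (nat_lit 0) (nat_lit 0) (XT.lf (nat_lit 0) (nat_lit 3809760288542)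 (nat_lit 76) (nat_lit 17890465944353) (nat_lit 76) (nat_lit 17697550707117) (nat_lit 1) (nat_lit 4) (nat_lit 2) (nat_lit 5) (nat_lit 2) (nat_lit 4) (nat_lit 336) (nat_lit 284) (nat_lit 160)) (XT.nd (nat_lit 78) (nat_lit 0) (nat_lit 0) (XT.lf (nat_lit 0) (nat_lit 5104122626377) (nat_lit 76) (nat_lit 20171835143647) (nat_lit 76) (nat_lit 19978919905662) (nat_lit 1) (nat_lit 4) (nat_lit 2) (nat_lit 5) (nat_lit 2) (nat_lit 4) (nat_lit 337) (nat_lit 284) (nat_lit 159)) (XT.lf (nat_lit 0) (nat_lit 6592639309642) (nat_lit 76) (nat_lit 22795409725542) (nat_lit 76) (nat_lit 22602494486906) (nat_lit 1) (nat_lit 4) (nat_lit 2) (nat_lit 5) (nat_lit 2) (nat_lit 4) (nat_lit 338) (nat_lit 284) (nat_lit 158))))) (XT.nd (nat_lit 156) (nat_lit 0) (nat_lit 0) (XT.nd (nat_lit 78) (nat_lit 0) (nat_lit 0) (XT.lf (nat_lit 0) (nat_lit 8304433490836) (nat_lit 76) (nat_lit 25812520497076) (nat_lit 76) (nat_lit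 25619605257875) (nat_lit 1) (nat_lit 4) (nat_lit 2) (nat_lit 5) (nat_lit 2) (nat_lit 4) (nat_lit 339) (nat_lit 284) (nat_lit 157)) (XT.lf (nat_lit 0) (nat_lit 10272996795245) (nat_lit 76) (nat_lit 29282197886388) (nat_lit 76) (nat_lit 29089282646694) (nat_lit 1) (nat_lit 4) (nat_lit 2) (nat_lit 5) (nat_lit 2) (nat_lit 4) (nat_lit 340) (nat_lit 284) (nat_lit 156))) (XT.nd (nat_lit 36270) (nat_lit 0) (nat_lit 1672) (XT.lf (nat_lit 0) (nat_lit 12536844591867) (nat_lit 76) (nat_lit 33272326885877) (nat_lit 76) (nat_lit 33079411645755) (nat_lit 1) (nat_lit 4) (nat_lit 2) (nat_lit 5) (nat_lit 2) (nat_lit 4) (nat_lit 341) (nat_lit 284) (nat_lit 155)) (XT.nd (nat_lit 78) (nat_lit 0) (nat_lit 0) (XT.lf (nat_lit 0) (nat_lit 12262800465) (nat_lit 380) (nat_lit 27345388482) (nat_lit 380) (nat_lit 27345388482) (nat_lit 23) (nat_lit 3) (nat_lit 28) (nat_lit 3) (nat_lit 28) (nat_lit 5) (nat_lit 285)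 (nat_lit 285) (nat_lit 210)) (XT.lf (nat_lit 76) (nat_lit 9356064275) (nat_lit 0) (nat_lit 17399695526) (nat_lit 380) (nat_lit 117135810147) (nat_lit 24) (nat_lit 5) (nat_lit 23) (nat_lit 3) (nat_lit 28) (nat_lit 5) (nat_lit 286) (nat_lit 285) (nat_lit 209)))))) (XT.nd (nat_lit 390) (nat_lit 456) (nat_lit 0) (XT.nd (nat_lit 156) (nat_lit 228) (nat_lit 0) (XT.nd (nat_lit 78) (nat_lit 0) (nat_lit 0) (XT.lf (nat_lit 0) (nat_lit 34537983129) (nat_lit 304) (nat_lit 68148172230) (nat_lit 380) (nat_lit 51904862752) (nat_lit 24) (nat_lit 5) (nat_lit 28) (nat_lit 5) (nat_lit 29) (nat_lit 5) (nat_lit 287) (nat_lit 285) (nat_lit 208)) (XT.lf (nat_lit 76) (nat_lit 8088372083) (nat_lit 0) (nat_lit 36562127258) (nat_lit 380) (nat_lit 122070441906) (nat_lit 25) (nat_lit 5) (nat_lit 24) (nat_lit 5) (nat_lit 29) (nat_lit 5) (nat_lit 288) (nat_lit 285) (nat_lit 207))) (XT.nd (nat_lit 78) (nat_lit 304)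 (nat_lit 0) (XT.lf (nat_lit 0) (nat_lit 61646154829) (nat_lit 304) (nat_lit 78521593198) (nat_lit 76) (nat_lit 39697666994) (nat_lit 25) (nat_lit 5) (nat_lit 29) (nat_lit 5) (nat_lit 26) (nat_lit 5) (nat_lit 289) (nat_lit 285) (nat_lit 206)) (XT.nd (nat_lit 78) (nat_lit 0) (nat_lit 0) (XT.lf (nat_lit 0) (nat_lit 13024057726) (nat_lit 304) (nat_lit 70447048354) (nat_lit 380) (nat_lit 111168462918) (nat_lit 21) (nat_lit 5) (nat_lit 25) (nat_lit 5) (nat_lit 26) (nat_lit 5) (nat_lit 290) (nat_lit 285) (nat_lit 205)) (XT.lf (nat_lit 0) (nat_lit 113272394268) (nat_lit 380) (nat_lit 84486724430) (nat_lit 76) (nat_lit 13165339325) (nat_lit 21) (nat_lit 5) (nat_lit 26) (nat_lit 5) (nat_lit 22) (nat_lit 5) (nat_lit 291) (nat_lit 285) (nat_lit 204))))) (XT.nd (nat_lit 156) (nat_lit 304) (nat_lit 0) (XT.nd (nat_lit 78) (nat_lit 0) (nat_lit 0) (XT.lf (nat_lit 0) (nat_lit 26187789180) (nat_lit 152)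 (nat_lit 125794767461) (nat_lit 228) (nat_lit 77003722565) (nat_lit 19) (nat_lit 5) (nat_lit 21) (nat_lit 5) (nat_lit 22) (nat_lit 5) (nat_lit 292) (nat_lit 285) (nat_lit 203)) (XT.lf (nat_lit 0) (nat_lit 162958265209) (nat_lit 152) (nat_lit 37957035288) (nat_lit 228) (nat_lit 48179665325) (nat_lit 19) (nat_lit 5) (nat_lit 21) (nat_lit 5) (nat_lit 22) (nat_lit 5) (nat_lit 293) (nat_lit 285) (nat_lit 202))) (XT.nd (nat_lit 78) (nat_lit 228) (nat_lit 0) (XT.lf (nat_lit 0) (nat_lit 49851055177) (nat_lit 76) (nat_lit 212011897189) (nat_lit 152) (nat_lit 9655754317) (nat_lit 18) (nat_lit 5) (nat_lit 19) (nat_lit 5) (nat_lit 20) (nat_lit 4) (nat_lit 294) (nat_lit 285) (nat_lit 201)) (XT.nd (nat_lit 78) (nat_lit 152) (nat_lit 0) (XT.lf (nat_lit 0) (nat_lit 38086487237) (nat_lit 152) (nat_lit 84169956119) (nat_lit 76) (nat_lit 173855733209) (nat_lit 17) (nat_lit 5) (nat_lit 19) (nat_lit 5) (nat_lit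 18) (nat_lit 5) (nat_lit 295) (nat_lit 285) (nat_lit 200)) (XT.lf (nat_lit 0) (nat_lit 80674476175) (nat_lit 152) (nat_lit 14667363203) (nat_lit 228) (nat_lit 228482807395) (nat_lit 15) (nat_lit 5) (nat_lit 17) (nat_lit 5) (nat_lit 18) (nat_lit 5) (nat_lit 296) (nat_lit 285) (nat_lit 199))))))))
noncomputable def xc93 : XT := (XT.nd (nat_lit 1560) (nat_lit 228) (nat_lit 0) (XT.nd (nat_lit 780) (nat_lit 304) (nat_lit 0) (XT.nd (nat_lit 390) (nat_lit 304) (nat_lit 0) (XT.nd (nat_lit 156) (nat_lit 152) (nat_lit 0) (XT.nd (nat_lit 78) (nat_lit 76) (nat_lit 0) (XT.lf (nat_lit 0) (nat_lit 170310540043) (nat_lit 228) (nat_lit 80054680539) (nat_lit 76) (nat_lit 103960010488) (nat_lit 15) (nat_lit 5) (nat_lit 18) (nat_lit 5) (nat_lit 16) (nat_lit 4) (nat_lit 297) (nat_lit 285) (nat_lit 198)) (XT.lf (nat_lit 0) (nat_lit 117244297119) (nat_lit 76) (nat_lit 144833351116) (nat_lit 152) (nat_lit 126490289768)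 (nat_lit 14) (nat_lit 5) (nat_lit 15) (nat_lit 5) (nat_lit 16) (nat_lit 4) (nat_lit 298) (nat_lit 285) (nat_lit 197))) (XT.nd (nat_lit 78) (nat_lit 152) (nat_lit 0) (XT.lf (nat_lit 0) (nat_lit 353134900833) (nat_lit 76) (nat_lit 18659430607) (nat_lit 152) (nat_lit 55525043527) (nat_lit 14) (nat_lit 5) (nat_lit 15) (nat_lit 5) (nat_lit 16) (nat_lit 4) (nat_lit 299) (nat_lit 285) (nat_lit 196)) (XT.nd (nat_lit 78) (nat_lit 0) (nat_lit 0) (XT.lf (nat_lit 0) (nat_lit 36261311134) (nat_lit 152) (nat_lit 310058304847) (nat_lit 76) (nat_lit 123527105014) (nat_lit 12) (nat_lit 5) (nat_lit 14) (nat_lit 5) (nat_lit 13) (nat_lit 4) (nat_lit 300) (nat_lit 285) (nat_lit 195)) (XT.lf (nat_lit 0) (nat_lit 141081792343) (nat_lit 152) (nat_lit 84694444606) (nat_lit 76) (nat_lit 291837692700) (nat_lit 12) (nat_lit 5) (nat_lit 14) (nat_lit 5) (nat_lit 13) (nat_lit 4) (nat_lit 301) (nat_lit 285) (nat_lit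 194))))) (XT.nd (nat_lit 156) (nat_lit 228) (nat_lit 0) (XT.nd (nat_lit 78) (nat_lit 0) (nat_lit 0) (XT.lf (nat_lit 0) (nat_lit 191524613835) (nat_lit 76) (nat_lit 78031229697) (nat_lit 152) (nat_lit 301800801576) (nat_lit 11) (nat_lit 5) (nat_lit 12) (nat_lit 5) (nat_lit 13) (nat_lit 4) (nat_lit 302) (nat_lit 285) (nat_lit 193)) (XT.lf (nat_lit 0) (nat_lit 425743276980) (nat_lit 152) (nat_lit 117817074285) (nat_lit 0) (nat_lit 88334075588) (nat_lit 11) (nat_lit 5) (nat_lit 13) (nat_lit 4) (nat_lit 11) (nat_lit 4) (nat_lit 303) (nat_lit 285) (nat_lit 192))) (XT.nd (nat_lit 78) (nat_lit 152) (nat_lit 0) (XT.lf (nat_lit 0) (nat_lit 197353968101) (nat_lit 76) (nat_lit 419892529106) (nat_lit 76) (nat_lit 82483228023) (nat_lit 10) (nat_lit 4) (nat_lit 11) (nat_lit 5) (nat_lit 11) (nat_lit 4) (nat_lit 304) (nat_lit 285) (nat_lit 191)) (XT.nd (nat_lit 78) (nat_lit 76) (nat_lit 0) (XT.lf (nat_lit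 0) (nat_lit 60868650406) (nat_lit 152) (nat_lit 206541789396) (nat_lit 76) (nat_lit 508991087464) (nat_lit 9) (nat_lit 5) (nat_lit 11) (nat_lit 5) (nat_lit 10) (nat_lit 4) (nat_lit 305) (nat_lit 285) (nat_lit 190)) (XT.lf (nat_lit 0) (nat_lit 142418395766) (nat_lit 76) (nat_lit 80757352566) (nat_lit 152) (nat_lit 639924613071) (nat_lit 8) (nat_lit 5) (nat_lit 9) (nat_lit 5) (nat_lit 10) (nat_lit 4) (nat_lit 306) (nat_lit 285) (nat_lit 189)))))) (XT.nd (nat_lit 390) (nat_lit 76) (nat_lit 0) (XT.nd (nat_lit 156) (nat_lit 228) (nat_lit 0) (XT.nd (nat_lit 78) (nat_lit 0) (nat_lit 0) (XT.lf (nat_lit 0) (nat_lit 426683694238) (nat_lit 152) (nat_lit 400308004942) (nat_lit 0) (nat_lit 133284104066) (nat_lit 8) (nat_lit 5) (nat_lit 10) (nat_lit 4) (nat_lit 8) (nat_lit 4) (nat_lit 307) (nat_lit 285) (nat_lit 188)) (XT.lf (nat_lit 0) (nat_lit 664563341110) (nat_lit 152) (nat_lit 35723692582) (nat_lit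 0) (nat_lit 371163701375) (nat_lit 8) (nat_lit 5) (nat_lit 10) (nat_lit 4) (nat_lit 8) (nat_lit 4) (nat_lit 308) (nat_lit 285) (nat_lit 187))) (XT.nd (nat_lit 78) (nat_lit 152) (nat_lit 0) (XT.lf (nat_lit 0) (nat_lit 421031245474) (nat_lit 76) (nat_lit 534527626750) (nat_lit 76) (nat_lit 241127943916) (nat_lit 7) (nat_lit 4) (nat_lit 8) (nat_lit 5) (nat_lit 8) (nat_lit 4) (nat_lit 309) (nat_lit 285) (nat_lit 186)) (XT.nd (nat_lit 78) (nat_lit 152) (nat_lit 0) (XT.lf (nat_lit 0) (nat_lit 950314152132) (nat_lit 76) (nat_lit 341756890574) (nat_lit 76) (nat_lit 48357170262) (nat_lit 7) (nat_lit 4) (nat_lit 8) (nat_lit 5) (nat_lit 8) (nat_lit 4) (nat_lit 310) (nat_lit 285) (nat_lit 185)) (XT.lf (nat_lit 0) (nat_lit 50584771081) (nat_lit 76) (nat_lit 109408030770) (nat_lit 152) (nat_lit 1344347256287) (nat_lit 5) (nat_lit 5) (nat_lit 6) (nat_lit 5) (nat_lit 7) (nat_lit 4) (nat_lit 311) (nat_lit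 285) (nat_lit 184))))) (XT.nd (nat_lit 156) (nat_lit 76) (nat_lit 0) (XT.nd (nat_lit 78) (nat_lit 0) (nat_lit 0) (XT.lf (nat_lit 0) (nat_lit 422541625296) (nat_lit 152) (nat_lit 1098355684422) (nat_lit 0) (nat_lit 167411380741) (nat_lit 5) (nat_lit 5) (nat_lit 7) (nat_lit 4) (nat_lit 5) (nat_lit 4) (nat_lit 312) (nat_lit 285) (nat_lit 183)) (XT.lf (nat_lit 0) (nat_lit 729682627557) (nat_lit 152) (nat_lit 694856150230) (nat_lit 0) (nat_lit 474552361574) (nat_lit 5) (nat_lit 5) (nat_lit 7) (nat_lit 4) (nat_lit 5) (nat_lit 4) (nat_lit 313) (nat_lit 285) (nat_lit 182))) (XT.nd (nat_lit 78) (nat_lit 76) (nat_lit 0) (XT.lf (nat_lit 0) (nat_lit 1082894735874) (nat_lit 152) (nat_lit 230831775136) (nat_lit 0) (nat_lit 827764451258) (nat_lit 5) (nat_lit 5) (nat_lit 7) (nat_lit 4) (nat_lit 5) (nat_lit 4) (nat_lit 314) (nat_lit 285) (nat_lit 181)) (XT.nd (nat_lit 78) (nat_lit 0) (nat_lit 0) (XT.lf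 (nat_lit 0) (nat_lit 332387623364) (nat_lit 76) (nat_lit 1170464461231) (nat_lit 76) (nat_lit 915334160413) (nat_lit 4) (nat_lit 4) (nat_lit 5) (nat_lit 5) (nat_lit 5) (nat_lit 4) (nat_lit 315) (nat_lit 285) (nat_lit 180)) (XT.lf (nat_lit 0) (nat_lit 1006032201397) (nat_lit 76) (nat_lit 991837004103) (nat_lit 76) (nat_lit 736706689196) (nat_lit 4) (nat_lit 4) (nat_lit 5) (nat_lit 5) (nat_lit 5) (nat_lit 4) (nat_lit 316) (nat_lit 285) (nat_lit 179))))))) (XT.nd (nat_lit 780) (nat_lit 76) (nat_lit 0) (XT.nd (nat_lit 390) (nat_lit 0) (nat_lit 0) (XT.nd (nat_lit 156) (nat_lit 152) (nat_lit 0) (XT.nd (nat_lit 78) (nat_lit 0) (nat_lit 0) (XT.lf (nat_lit 0) (nat_lit 1780723401733) (nat_lit 76) (nat_lit 786415461024) (nat_lit 76) (nat_lit 531285133865) (nat_lit 4) (nat_lit 4) (nat_lit 5) (nat_lit 5) (nat_lit 5) (nat_lit 4) (nat_lit 317) (nat_lit 285) (nat_lit 178)) (XT.lf (nat_lit 0) (nat_lit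 2671618226118) (nat_lit 76) (nat_lit 550180714845) (nat_lit 76) (nat_lit 295050377033) (nat_lit 4) (nat_lit 4) (nat_lit 5) (nat_lit 5) (nat_lit 5) (nat_lit 4) (nat_lit 318) (nat_lit 285) (nat_lit 177))) (XT.nd (nat_lit 78) (nat_lit 152) (nat_lit 0) (XT.lf (nat_lit 0) (nat_lit 3696147225464) (nat_lit 76) (nat_lit 278510781404) (nat_lit 76) (nat_lit 23380434328) (nat_lit 4) (nat_lit 4) (nat_lit 5) (nat_lit 5) (nat_lit 5) (nat_lit 4) (nat_lit 319) (nat_lit 285) (nat_lit 176)) (XT.nd (nat_lit 78) (nat_lit 0) (nat_lit 0) (XT.lf (nat_lit 0) (nat_lit 280090315638) (nat_lit 152) (nat_lit 4208765106521) (nat_lit 0) (nat_lit 58237832915) (nat_lit 2) (nat_lit 5) (nat_lit 4) (nat_lit 4) (nat_lit 2) (nat_lit 4) (nat_lit 320) (nat_lit 285) (nat_lit 175)) (XT.lf (nat_lit 0) (nat_lit 656482501430) (nat_lit 152) (nat_lit 4082757593726) (nat_lit 0) (nat_lit 434630012616) (nat_lit 2) (nat_lit 5) (nat_lit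 4) (nat_lit 4) (nat_lit 2) (nat_lit 4) (nat_lit 321) (nat_lit 285) (nat_lit 174))))) (XT.nd (nat_lit 156) (nat_lit 0) (nat_lit 0) (XT.nd (nat_lit 78) (nat_lit 0) (nat_lit 0) (XT.lf (nat_lit 0) (nat_lit 1089333496219) (nat_lit 152) (nat_lit 3937848992884) (nat_lit 0) (nat_lit 867481002108) (nat_lit 2) (nat_lit 5) (nat_lit 4) (nat_lit 4) (nat_lit 2) (nat_lit 4) (nat_lit 322) (nat_lit 285) (nat_lit 173)) (XT.lf (nat_lit 0) (nat_lit 1587112123815) (nat_lit 152) (nat_lit 3771204135719) (nat_lit 0) (nat_lit 1365259625099) (nat_lit 2) (nat_lit 5) (nat_lit 4) (nat_lit 4) (nat_lit 2) (nat_lit 4) (nat_lit 323) (nat_lit 285) (nat_lit 172))) (XT.nd (nat_lit 78) (nat_lit 0) (nat_lit 0) (XT.lf (nat_lit 0) (nat_lit 2159557531282) (nat_lit 152) (nat_lit 3579562579374) (nat_lit 0) (nat_lit 1937705028561) (nat_lit 2) (nat_lit 5) (nat_lit 4) (nat_lit 4) (nat_lit 2) (nat_lit 4) (nat_lit 324) (nat_lit 285)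 (nat_lit 171)) (XT.nd (nat_lit 78) (nat_lit 0) (nat_lit 0) (XT.lf (nat_lit 0) (nat_lit 2817869737460) (nat_lit 152) (nat_lit 3359174815136) (nat_lit 0) (nat_lit 2596017231256) (nat_lit 2) (nat_lit 5) (nat_lit 4) (nat_lit 4) (nat_lit 2) (nat_lit 4) (nat_lit 325) (nat_lit 285) (nat_lit 170)) (XT.lf (nat_lit 0) (nat_lit 3574928763775) (nat_lit 152) (nat_lit 3105728908488) (nat_lit 0) (nat_lit 3353076254542) (nat_lit 2) (nat_lit 5) (nat_lit 4) (nat_lit 4) (nat_lit 2) (nat_lit 4) (nat_lit 326) (nat_lit 285) (nat_lit 169)))))) (XT.nd (nat_lit 390) (nat_lit 76) (nat_lit 0) (XT.nd (nat_lit 156) (nat_lit 0) (nat_lit 0) (XT.nd (nat_lit 78) (nat_lit 0) (nat_lit 0) (XT.lf (nat_lit 0) (nat_lit 4445546634654) (nat_lit 152) (nat_lit 2814266135171) (nat_lit 0) (nat_lit 4223694122788) (nat_lit 2) (nat_lit 5) (nat_lit 4) (nat_lit 4) (nat_lit 2) (nat_lit 4) (nat_lit 327) (nat_lit 285) (nat_lit 168)) (XT.lf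 (nat_lit 0) (nat_lit 5446757178006) (nat_lit 152) (nat_lit 2479083962662) (nat_lit 0) (nat_lit 5224904663851) (nat_lit 2) (nat_lit 5) (nat_lit 4) (nat_lit 4) (nat_lit 2) (nat_lit 4) (nat_lit 328) (nat_lit 285) (nat_lit 167))) (XT.nd (nat_lit 78) (nat_lit 0) (nat_lit 0) (XT.lf (nat_lit 0) (nat_lit 6598149295767) (nat_lit 152) (nat_lit 2093624478890) (nat_lit 0) (nat_lit 6376296779620) (nat_lit 2) (nat_lit 5) (nat_lit 4) (nat_lit 4) (nat_lit 2) (nat_lit 4) (nat_lit 329) (nat_lit 285) (nat_lit 166)) (XT.nd (nat_lit 78) (nat_lit 0) (nat_lit 0) (XT.lf (nat_lit 0) (nat_lit 7922250225023) (nat_lit 152) (nat_lit 1650346085260) (nat_lit 0) (nat_lit 7700397707144) (nat_lit 2) (nat_lit 5) (nat_lit 4) (nat_lit 4) (nat_lit 2) (nat_lit 4) (nat_lit 330) (nat_lit 285) (nat_lit 165)) (XT.lf (nat_lit 0) (nat_lit 9444966288302) (nat_lit 152) (nat_lit 1140575943636) (nat_lit 0) (nat_lit 9223113768918) (nat_lit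 2) (nat_lit 5) (nat_lit 4) (nat_lit 4) (nat_lit 2) (nat_lit 4) (nat_lit 331) (nat_lit 285) (nat_lit 164))))) (XT.nd (nat_lit 234) (nat_lit 0) (nat_lit 0) (XT.nd (nat_lit 78) (nat_lit 76) (nat_lit 0) (XT.lf (nat_lit 0) (nat_lit 11196089756408) (nat_lit 152) (nat_lit 554340290378) (nat_lit 0) (nat_lit 10974237235715) (nat_lit 2) (nat_lit 5) (nat_lit 4) (nat_lit 4) (nat_lit 2) (nat_lit 4) (nat_lit 332) (nat_lit 285) (nat_lit 163)) (XT.nd (nat_lit 78) (nat_lit 0) (nat_lit 0) (XT.lf (nat_lit 0) (nat_lit 131541430258) (nat_lit 76) (nat_lit 13083787160529) (nat_lit 76) (nat_lit 12861934638698) (nat_lit 1) (nat_lit 4) (nat_lit 2) (nat_lit 5) (nat_lit 2) (nat_lit 4) (nat_lit 333) (nat_lit 285) (nat_lit 162)) (XT.lf (nat_lit 0) (nat_lit 982605690468) (nat_lit 76) (nat_lit 14583824434814) (nat_lit 76) (nat_lit 14361971911993) (nat_lit 1) (nat_lit 4) (nat_lit 2) (nat_lit 5) (nat_lit 2) (nat_lit 4)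 (nat_lit 334) (nat_lit 285) (nat_lit 161)))) (XT.nd (nat_lit 78) (nat_lit 0) (nat_lit 0) (XT.lf (nat_lit 0) (nat_lit 1961329582774) (nat_lit 76) (nat_lit 16308867303823) (nat_lit 76) (nat_lit 16087014780141) (nat_lit 1) (nat_lit 4) (nat_lit 2) (nat_lit 5) (nat_lit 2) (nat_lit 4) (nat_lit 335) (nat_lit 285) (nat_lit 160)) (XT.nd (nat_lit 78) (nat_lit 0) (nat_lit 0) (XT.lf (nat_lit 0) (nat_lit 3086862052895) (nat_lit 76) (nat_lit 18292666606297) (nat_lit 76) (nat_lit 18070814081866) (nat_lit 1) (nat_lit 4) (nat_lit 2) (nat_lit 5) (nat_lit 2) (nat_lit 4) (nat_lit 336) (nat_lit 285) (nat_lit 159)) (XT.lf (nat_lit 0) (nat_lit 4381224388290) (nat_lit 76) (nat_lit 20574035806850) (nat_lit 76) (nat_lit 20352183281768) (nat_lit 1) (nat_lit 4) (nat_lit 2) (nat_lit 5) (nat_lit 2) (nat_lit 4) (nat_lit 337) (nat_lit 285) (nat_lit 158))))))))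
noncomputable def xc94 : XT := (XT.nd (nat_lit 37830) (nat_lit 0) (nat_lit 76) (XT.nd (nat_lit 37050) (nat_lit 0) (nat_lit 836) (XT.nd (nat_lit 36660) (nat_lit 0) (nat_lit 1520) (XT.nd (nat_lit 156) (nat_lit 0) (nat_lit 0) (XT.nd (nat_lit 78) (nat_lit 0) (nat_lit 0) (XT.lf (nat_lit 0) (nat_lit 5869741069435) (nat_lit 76) (nat_lit 23197610389840) (nat_lit 76) (nat_lit 22975757864193) (nat_lit 1) (nat_lit 4) (nat_lit 2) (nat_lit 5) (nat_lit 2) (nat_lit 4) (nat_lit 338) (nat_lit 285) (nat_lit 157)) (XT.lf (nat_lit 0) (nat_lit 7581535248785) (nat_lit 76) (nat_lit 26214721162327) (nat_lit 76) (nat_lit 25992868636187) (nat_lit 1) (nat_lit 4) (nat_lit 2) (nat_lit 5) (nat_lit 2) (nat_lit 4) (nat_lit 339) (nat_lit 285) (nat_lit 156))) (XT.nd (nat_lit 78) (nat_lit 0) (nat_lit 0) (XT.lf (nat_lit 0) (nat_lit 9550098551590) (nat_lit 76) (nat_lit 29684398552467) (nat_lit 76) (nat_lit 29462546025899)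 (nat_lit 1) (nat_lit 4) (nat_lit 2) (nat_lit 5) (nat_lit 2) (nat_lit 4) (nat_lit 340) (nat_lit 285) (nat_lit 155)) (XT.nd (nat_lit 36348) (nat_lit 0) (nat_lit 1672) (XT.lf (nat_lit 0) (nat_lit 11813946346817) (nat_lit 76) (nat_lit 33674527552676) (nat_lit 76) (nat_lit 33452675025736) (nat_lit 1) (nat_lit 4) (nat_lit 2) (nat_lit 5) (nat_lit 2) (nat_lit 4) (nat_lit 341) (nat_lit 285) (nat_lit 154)) (XT.lf (nat_lit 0) (nat_lit 14105407021) (nat_lit 380) (nat_lit 31445359393) (nat_lit 380) (nat_lit 31445359393) (nat_lit 23) (nat_lit 3) (nat_lit 28) (nat_lit 3) (nat_lit 28) (nat_lit 5) (nat_lit 286) (nat_lit 286) (nat_lit 208))))) (XT.nd (nat_lit 156) (nat_lit 152) (nat_lit 0) (XT.nd (nat_lit 78) (nat_lit 0) (nat_lit 76) (XT.lf (nat_lit 76) (nat_lit 10762981607) (nat_lit 0) (nat_lit 20011829127) (nat_lit 380) (nat_lit 134699623812) (nat_lit 24) (nat_lit 5) (nat_lit 23) (nat_lit 3) (nat_lit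 28) (nat_lit 5) (nat_lit 287) (nat_lit 286) (nat_lit 207)) (XT.lf (nat_lit 0) (nat_lit 39723547314) (nat_lit 304) (nat_lit 78366512130) (nat_lit 380) (nat_lit 59688865854) (nat_lit 24) (nat_lit 5) (nat_lit 28) (nat_lit 5) (nat_lit 29) (nat_lit 5) (nat_lit 288) (nat_lit 286) (nat_lit 206))) (XT.nd (nat_lit 78) (nat_lit 228) (nat_lit 0) (XT.lf (nat_lit 76) (nat_lit 9305337197) (nat_lit 0) (nat_lit 42047122567) (nat_lit 380) (nat_lit 140375951346) (nat_lit 25) (nat_lit 5) (nat_lit 24) (nat_lit 5) (nat_lit 29) (nat_lit 5) (nat_lit 289) (nat_lit 286) (nat_lit 205)) (XT.nd (nat_lit 78) (nat_lit 304) (nat_lit 0) (XT.lf (nat_lit 0) (nat_lit 70896867201) (nat_lit 304) (nat_lit 90295998589) (nat_lit 76) (nat_lit 45651781375) (nat_lit 25) (nat_lit 5) (nat_lit 29) (nat_lit 5) (nat_lit 26) (nat_lit 5) (nat_lit 290) (nat_lit 286) (nat_lit 204)) (XT.lf (nat_lit 0) (nat_lit 14981325719) (nat_lit 304)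 (nat_lit 81013892709) (nat_lit 380) (nat_lit 127839758748) (nat_lit 21) (nat_lit 5) (nat_lit 25) (nat_lit 5) (nat_lit 26) (nat_lit 5) (nat_lit 291) (nat_lit 286) (nat_lit 203)))))) (XT.nd (nat_lit 390) (nat_lit 380) (nat_lit 0) (XT.nd (nat_lit 156) (nat_lit 152) (nat_lit 0) (XT.nd (nat_lit 78) (nat_lit 152) (nat_lit 0) (XT.lf (nat_lit 0) (nat_lit 130266257976) (nat_lit 380) (nat_lit 97156100320) (nat_lit 76) (nat_lit 15140308871) (nat_lit 21) (nat_lit 5) (nat_lit 26) (nat_lit 5) (nat_lit 22) (nat_lit 5) (nat_lit 292) (nat_lit 286) (nat_lit 202)) (XT.lf (nat_lit 0) (nat_lit 30119425205) (nat_lit 152) (nat_lit 144663271187) (nat_lit 228) (nat_lit 88551103539) (nat_lit 19) (nat_lit 5) (nat_lit 21) (nat_lit 5) (nat_lit 22) (nat_lit 5) (nat_lit 293) (nat_lit 286) (nat_lit 201))) (XT.nd (nat_lit 78) (nat_lit 152) (nat_lit 0) (XT.lf (nat_lit 0) (nat_lit 187405020337) (nat_lit 152) (nat_lit 43649971978)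 (nat_lit 228) (nat_lit 55403852159) (nat_lit 19) (nat_lit 5) (nat_lit 21) (nat_lit 5) (nat_lit 22) (nat_lit 5) (nat_lit 294) (nat_lit 286) (nat_lit 200)) (XT.nd (nat_lit 78) (nat_lit 76) (nat_lit 0) (XT.lf (nat_lit 0) (nat_lit 57331916864) (nat_lit 76) (nat_lit 243812717402) (nat_lit 152) (nat_lit 11101536727) (nat_lit 18) (nat_lit 5) (nat_lit 19) (nat_lit 5) (nat_lit 20) (nat_lit 4) (nat_lit 295) (nat_lit 286) (nat_lit 199)) (XT.lf (nat_lit 0) (nat_lit 43801504654) (nat_lit 152) (nat_lit 96792459763) (nat_lit 76) (nat_lit 199934727569) (nat_lit 17) (nat_lit 5) (nat_lit 19) (nat_lit 5) (nat_lit 18) (nat_lit 5) (nat_lit 296) (nat_lit 286) (nat_lit 198))))) (XT.nd (nat_lit 156) (nat_lit 228) (nat_lit 0) (XT.nd (nat_lit 78) (nat_lit 0) (nat_lit 0) (XT.lf (nat_lit 0) (nat_lit 92778501476) (nat_lit 152) (nat_lit 16866509662) (nat_lit 228) (nat_lit 262753044437) (nat_lit 15) (nat_lit 5) (nat_lit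 17) (nat_lit 5) (nat_lit 18) (nat_lit 5) (nat_lit 297) (nat_lit 286) (nat_lit 197)) (XT.lf (nat_lit 0) (nat_lit 195858804113) (nat_lit 228) (nat_lit 92060184864) (nat_lit 76) (nat_lit 119554770959) (nat_lit 15) (nat_lit 5) (nat_lit 18) (nat_lit 5) (nat_lit 16) (nat_lit 4) (nat_lit 298) (nat_lit 286) (nat_lit 196))) (XT.nd (nat_lit 78) (nat_lit 152) (nat_lit 0) (XT.lf (nat_lit 0) (nat_lit 134833516818) (nat_lit 76) (nat_lit 166557348816) (nat_lit 152) (nat_lit 145462024643) (nat_lit 14) (nat_lit 5) (nat_lit 15) (nat_lit 5) (nat_lit 16) (nat_lit 4) (nat_lit 299) (nat_lit 286) (nat_lit 195)) (XT.nd (nat_lit 78) (nat_lit 152) (nat_lit 0) (XT.lf (nat_lit 0) (nat_lit 406107375202) (nat_lit 76) (nat_lit 21457471314) (nat_lit 152) (nat_lit 63852227370) (nat_lit 14) (nat_lit 5) (nat_lit 15) (nat_lit 5) (nat_lit 16) (nat_lit 4) (nat_lit 300) (nat_lit 286) (nat_lit 194)) (XT.lf (nat_lit 0) (nat_lit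 41701886382) (nat_lit 152) (nat_lit 356564613120) (nat_lit 76) (nat_lit 142057020949) (nat_lit 12) (nat_lit 5) (nat_lit 14) (nat_lit 5) (nat_lit 13) (nat_lit 4) (nat_lit 301) (nat_lit 286) (nat_lit 193))))))) (XT.nd (nat_lit 780) (nat_lit 380) (nat_lit 0) (XT.nd (nat_lit 390) (nat_lit 152) (nat_lit 0) (XT.nd (nat_lit 156) (nat_lit 152) (nat_lit 0) (XT.nd (nat_lit 78) (nat_lit 76) (nat_lit 0) (XT.lf (nat_lit 0) (nat_lit 162245259958) (nat_lit 152) (nat_lit 97396491772) (nat_lit 76) (nat_lit 335614085894) (nat_lit 12) (nat_lit 5) (nat_lit 14) (nat_lit 5) (nat_lit 13) (nat_lit 4) (nat_lit 302) (nat_lit 286) (nat_lit 192)) (XT.lf (nat_lit 0) (nat_lit 220255329094) (nat_lit 76) (nat_lit 89735017147) (nat_lit 152) (nat_lit 347069625264) (nat_lit 11) (nat_lit 5) (nat_lit 12) (nat_lit 5) (nat_lit 13) (nat_lit 4) (nat_lit 303) (nat_lit 286) (nat_lit 191))) (XT.nd (nat_lit 78) (nat_lit 152) (nat_lit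 0) (XT.lf (nat_lit 0) (nat_lit 489605780111) (nat_lit 152) (nat_lit 135487760289) (nat_lit 0) (nat_lit 101584897489) (nat_lit 11) (nat_lit 5) (nat_lit 13) (nat_lit 4) (nat_lit 11) (nat_lit 4) (nat_lit 304) (nat_lit 286) (nat_lit 190)) (XT.nd (nat_lit 78) (nat_lit 76) (nat_lit 0) (XT.lf (nat_lit 0) (nat_lit 226958853222) (nat_lit 76) (nat_lit 482875572321) (nat_lit 76) (nat_lit 94854614318) (nat_lit 10) (nat_lit 4) (nat_lit 11) (nat_lit 5) (nat_lit 11) (nat_lit 4) (nat_lit 305) (nat_lit 286) (nat_lit 189)) (XT.lf (nat_lit 0) (nat_lit 69999817675) (nat_lit 152) (nat_lit 237521415547) (nat_lit 76) (nat_lit 585340391852) (nat_lit 9) (nat_lit 5) (nat_lit 11) (nat_lit 5) (nat_lit 10) (nat_lit 4) (nat_lit 306) (nat_lit 286) (nat_lit 188))))) (XT.nd (nat_lit 156) (nat_lit 76) (nat_lit 0) (XT.nd (nat_lit 78) (nat_lit 0) (nat_lit 0) (XT.lf (nat_lit 0) (nat_lit 163782722741) (nat_lit 76) (nat_lit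 92870209021) (nat_lit 152) (nat_lit 735912359958) (nat_lit 8) (nat_lit 5) (nat_lit 9) (nat_lit 5) (nat_lit 10) (nat_lit 4) (nat_lit 307) (nat_lit 286) (nat_lit 187)) (XT.lf (nat_lit 0) (nat_lit 490686989319) (nat_lit 152) (nat_lit 460352761686) (nat_lit 0) (nat_lit 153277310961) (nat_lit 8) (nat_lit 5) (nat_lit 10) (nat_lit 4) (nat_lit 8) (nat_lit 4) (nat_lit 308) (nat_lit 286) (nat_lit 186))) (XT.nd (nat_lit 78) (nat_lit 76) (nat_lit 0) (XT.lf (nat_lit 0) (nat_lit 764248486578) (nat_lit 152) (nat_lit 41080990820) (nat_lit 0) (nat_lit 426838770742) (nat_lit 8) (nat_lit 5) (nat_lit 10) (nat_lit 4) (nat_lit 8) (nat_lit 4) (nat_lit 309) (nat_lit 286) (nat_lit 185)) (XT.nd (nat_lit 78) (nat_lit 0) (nat_lit 0) (XT.lf (nat_lit 0) (nat_lit 484187130869) (nat_lit 76) (nat_lit 614706182081) (nat_lit 76) (nat_lit 277296433656) (nat_lit 7) (nat_lit 4) (nat_lit 8) (nat_lit 5) (nat_lit 8) (nat_lit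 4) (nat_lit 310) (nat_lit 286) (nat_lit 184)) (XT.lf (nat_lit 0) (nat_lit 1092862317190) (nat_lit 76) (nat_lit 393019912262) (nat_lit 76) (nat_lit 55610135500) (nat_lit 7) (nat_lit 4) (nat_lit 8) (nat_lit 5) (nat_lit 8) (nat_lit 4) (nat_lit 311) (nat_lit 286) (nat_lit 183)))))) (XT.nd (nat_lit 390) (nat_lit 152) (nat_lit 0) (XT.nd (nat_lit 156) (nat_lit 76) (nat_lit 0) (XT.nd (nat_lit 78) (nat_lit 0) (nat_lit 0) (XT.lf (nat_lit 0) (nat_lit 58173533811) (nat_lit 76) (nat_lit 125818715126) (nat_lit 152) (nat_lit 1545998738591) (nat_lit 5) (nat_lit 5) (nat_lit 6) (nat_lit 5) (nat_lit 7) (nat_lit 4) (nat_lit 312) (nat_lit 286) (nat_lit 182)) (XT.lf (nat_lit 0) (nat_lit 485923345917) (nat_lit 152) (nat_lit 1263108076341) (nat_lit 0) (nat_lit 192523499976) (nat_lit 5) (nat_lit 5) (nat_lit 7) (nat_lit 4) (nat_lit 5) (nat_lit 4) (nat_lit 313) (nat_lit 286) (nat_lit 181))) (XT.nd (nat_lit 78)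 (nat_lit 76) (nat_lit 0) (XT.lf (nat_lit 0) (nat_lit 839135436323) (nat_lit 152) (nat_lit 799083737334) (nat_lit 0) (nat_lit 545735574180) (nat_lit 5) (nat_lit 5) (nat_lit 7) (nat_lit 4) (nat_lit 5) (nat_lit 4) (nat_lit 314) (nat_lit 286) (nat_lit 180)) (XT.nd (nat_lit 78) (nat_lit 76) (nat_lit 0) (XT.lf (nat_lit 0) (nat_lit 1245329306805) (nat_lit 152) (nat_lit 265455814945) (nat_lit 0) (nat_lit 951929430572) (nat_lit 5) (nat_lit 5) (nat_lit 7) (nat_lit 4) (nat_lit 5) (nat_lit 4) (nat_lit 315) (nat_lit 286) (nat_lit 179)) (XT.lf (nat_lit 0) (nat_lit 382246460308) (nat_lit 76) (nat_lit 1346033779211) (nat_lit 76) (nat_lit 1052633890727) (nat_lit 4) (nat_lit 4) (nat_lit 5) (nat_lit 5) (nat_lit 5) (nat_lit 4) (nat_lit 316) (nat_lit 286) (nat_lit 178))))) (XT.nd (nat_lit 156) (nat_lit 152) (nat_lit 0) (XT.nd (nat_lit 78) (nat_lit 0) (nat_lit 0) (XT.lf (nat_lit 0) (nat_lit 1156937634597)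 (nat_lit 76) (nat_lit 1140612249324) (nat_lit 76) (nat_lit 847212350186) (nat_lit 4) (nat_lit 4) (nat_lit 5) (nat_lit 5) (nat_lit 5) (nat_lit 4) (nat_lit 317) (nat_lit 286) (nat_lit 177)) (XT.lf (nat_lit 0) (nat_lit 2047832436333) (nat_lit 76) (nat_lit 904377514616) (nat_lit 76) (nat_lit 610977606215) (nat_lit 4) (nat_lit 4) (nat_lit 5) (nat_lit 5) (nat_lit 5) (nat_lit 4) (nat_lit 318) (nat_lit 286) (nat_lit 176))) (XT.nd (nat_lit 78) (nat_lit 152) (nat_lit 0) (XT.lf (nat_lit 0) (nat_lit 3072361415984) (nat_lit 76) (nat_lit 632707591149) (nat_lit 76) (nat_lit 339307674693) (nat_lit 4) (nat_lit 4) (nat_lit 5) (nat_lit 5) (nat_lit 5) (nat_lit 4) (nat_lit 319) (nat_lit 286) (nat_lit 175)) (XT.nd (nat_lit 78) (nat_lit 152) (nat_lit 0) (XT.lf (nat_lit 0) (nat_lit 4250569705760) (nat_lit 76) (nat_lit 320287197812) (nat_lit 76) (nat_lit 26887274350) (nat_lit 4) (nat_lit 4) (nat_lit 5) (nat_lit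 5) (nat_lit 5) (nat_lit 4) (nat_lit 320) (nat_lit 286) (nat_lit 174)) (XT.lf (nat_lit 0) (nat_lit 322104066185) (nat_lit 152) (nat_lit 4840079453933) (nat_lit 0) (nat_lit 66973692661) (nat_lit 2) (nat_lit 5) (nat_lit 4) (nat_lit 4) (nat_lit 2) (nat_lit 4) (nat_lit 321) (nat_lit 286) (nat_lit 173))))))))
noncomputable def xc95 : XT := (XT.nd (nat_lit 37908) (nat_lit 0) (nat_lit 608) (XT.nd (nat_lit 780) (nat_lit 76) (nat_lit 0) (XT.nd (nat_lit 390) (nat_lit 0) (nat_lit 0) (XT.nd (nat_lit 156) (nat_lit 0) (nat_lit 0) (XT.nd (nat_lit 78) (nat_lit 0) (nat_lit 0) (XT.lf (nat_lit 0) (nat_lit 754955053341) (nat_lit 152) (nat_lit 4695170868814) (nat_lit 0) (nat_lit 499824675211) (nat_lit 2) (nat_lit 5) (nat_lit 4) (nat_lit 4) (nat_lit 2) (nat_lit 4) (nat_lit 322) (nat_lit 286) (nat_lit 172)) (XT.lf (nat_lit 0) (nat_lit 1252733674301) (nat_lit 152) (nat_lit 4528526025320) (nat_lit 0) (nat_lit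 997603292166) (nat_lit 2) (nat_lit 5) (nat_lit 4) (nat_lit 4) (nat_lit 2) (nat_lit 4) (nat_lit 323) (nat_lit 286) (nat_lit 171))) (XT.nd (nat_lit 78) (nat_lit 0) (nat_lit 0) (XT.lf (nat_lit 0) (nat_lit 1825179075996) (nat_lit 152) (nat_lit 4336884480863) (nat_lit 0) (nat_lit 1570048690379) (nat_lit 2) (nat_lit 5) (nat_lit 4) (nat_lit 4) (nat_lit 2) (nat_lit 4) (nat_lit 324) (nat_lit 286) (nat_lit 170)) (XT.nd (nat_lit 78) (nat_lit 0) (nat_lit 0) (XT.lf (nat_lit 0) (nat_lit 2483491277155) (nat_lit 152) (nat_lit 4116496726963) (nat_lit 0) (nat_lit 2228360888510) (nat_lit 2) (nat_lit 5) (nat_lit 4) (nat_lit 4) (nat_lit 2) (nat_lit 4) (nat_lit 325) (nat_lit 286) (nat_lit 169)) (XT.lf (nat_lit 0) (nat_lit 3240550299106) (nat_lit 152) (nat_lit 3863050829305) (nat_lit 0) (nat_lit 2985419907827) (nat_lit 2) (nat_lit 5) (nat_lit 4) (nat_lit 4) (nat_lit 2) (nat_lit 4) (nat_lit 326) (nat_lit 286)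 (nat_lit 168))))) (XT.nd (nat_lit 156) (nat_lit 0) (nat_lit 0) (XT.nd (nat_lit 78) (nat_lit 0) (nat_lit 0) (XT.lf (nat_lit 0) (nat_lit 4111168166190) (nat_lit 152) (nat_lit 3571588063804) (nat_lit 0) (nat_lit 3856037772622) (nat_lit 2) (nat_lit 5) (nat_lit 4) (nat_lit 4) (nat_lit 2) (nat_lit 4) (nat_lit 327) (nat_lit 286) (nat_lit 167)) (XT.lf (nat_lit 0) (nat_lit 5112378706243) (nat_lit 152) (nat_lit 3236405898092) (nat_lit 0) (nat_lit 4857248310683) (nat_lit 2) (nat_lit 5) (nat_lit 4) (nat_lit 4) (nat_lit 2) (nat_lit 4) (nat_lit 328) (nat_lit 286) (nat_lit 166))) (XT.nd (nat_lit 78) (nat_lit 0) (nat_lit 0) (XT.lf (nat_lit 0) (nat_lit 6263770821134) (nat_lit 152) (nat_lit 2850946420231) (nat_lit 0) (nat_lit 6008640423843) (nat_lit 2) (nat_lit 5) (nat_lit 4) (nat_lit 4) (nat_lit 2) (nat_lit 4) (nat_lit 329) (nat_lit 286) (nat_lit 165)) (XT.nd (nat_lit 78) (nat_lit 0) (nat_lit 0) (XT.lf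 (nat_lit 0) (nat_lit 7587871747895) (nat_lit 152) (nat_lit 2407668031741) (nat_lit 0) (nat_lit 7332741349098) (nat_lit 2) (nat_lit 5) (nat_lit 4) (nat_lit 4) (nat_lit 2) (nat_lit 4) (nat_lit 330) (nat_lit 286) (nat_lit 164)) (XT.lf (nat_lit 0) (nat_lit 9110587809004) (nat_lit 152) (nat_lit 1897897894586) (nat_lit 0) (nat_lit 8855457408898) (nat_lit 2) (nat_lit 5) (nat_lit 4) (nat_lit 4) (nat_lit 2) (nat_lit 4) (nat_lit 331) (nat_lit 286) (nat_lit 163)))))) (XT.nd (nat_lit 390) (nat_lit 0) (nat_lit 0) (XT.nd (nat_lit 156) (nat_lit 76) (nat_lit 0) (XT.nd (nat_lit 78) (nat_lit 0) (nat_lit 0) (XT.lf (nat_lit 0) (nat_lit 10861711275224) (nat_lit 152) (nat_lit 1311662245214) (nat_lit 0) (nat_lit 10606580873979) (nat_lit 2) (nat_lit 5) (nat_lit 4) (nat_lit 4) (nat_lit 2) (nat_lit 4) (nat_lit 332) (nat_lit 286) (nat_lit 162)) (XT.lf (nat_lit 0) (nat_lit 12875503257849) (nat_lit 152) (nat_lit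 637491255702) (nat_lit 0) (nat_lit 12620372855614) (nat_lit 2) (nat_lit 5) (nat_lit 4) (nat_lit 4) (nat_lit 2) (nat_lit 4) (nat_lit 333) (nat_lit 286) (nat_lit 161))) (XT.nd (nat_lit 78) (nat_lit 0) (nat_lit 0) (XT.lf (nat_lit 0) (nat_lit 151272719474) (nat_lit 76) (nat_lit 15046355196050) (nat_lit 76) (nat_lit 14791224792954) (nat_lit 1) (nat_lit 4) (nat_lit 2) (nat_lit 5) (nat_lit 2) (nat_lit 4) (nat_lit 334) (nat_lit 286) (nat_lit 160)) (XT.nd (nat_lit 78) (nat_lit 0) (nat_lit 0) (XT.lf (nat_lit 0) (nat_lit 1129996608975) (nat_lit 76) (nat_lit 16771398066507) (nat_lit 76) (nat_lit 16516267662663) (nat_lit 1) (nat_lit 4) (nat_lit 2) (nat_lit 5) (nat_lit 2) (nat_lit 4) (nat_lit 335) (nat_lit 286) (nat_lit 159)) (XT.lf (nat_lit 0) (nat_lit 2255529076657) (nat_lit 76) (nat_lit 18755197370240) (nat_lit 76) (nat_lit 18500066965745) (nat_lit 1) (nat_lit 4) (nat_lit 2) (nat_lit 5) (nat_lit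 2) (nat_lit 4) (nat_lit 336) (nat_lit 286) (nat_lit 158))))) (XT.nd (nat_lit 156) (nat_lit 0) (nat_lit 0) (XT.nd (nat_lit 78) (nat_lit 0) (nat_lit 0) (XT.lf (nat_lit 0) (nat_lit 3549891409931) (nat_lit 76) (nat_lit 21036566571889) (nat_lit 76) (nat_lit 20781436166827) (nat_lit 1) (nat_lit 4) (nat_lit 2) (nat_lit 5) (nat_lit 2) (nat_lit 4) (nat_lit 337) (nat_lit 286) (nat_lit 157)) (XT.lf (nat_lit 0) (nat_lit 5038408089231) (nat_lit 76) (nat_lit 23660141155831) (nat_lit 76) (nat_lit 23405010750278) (nat_lit 1) (nat_lit 4) (nat_lit 2) (nat_lit 5) (nat_lit 2) (nat_lit 4) (nat_lit 338) (nat_lit 286) (nat_lit 156))) (XT.nd (nat_lit 78) (nat_lit 0) (nat_lit 0) (XT.lf (nat_lit 0) (nat_lit 6750202266977) (nat_lit 76) (nat_lit 26677251929146) (nat_lit 76) (nat_lit 26422121523165) (nat_lit 1) (nat_lit 4) (nat_lit 2) (nat_lit 5) (nat_lit 2) (nat_lit 4) (nat_lit 339) (nat_lit 286) (nat_lit 155))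 (XT.nd (nat_lit 78) (nat_lit 0) (nat_lit 0) (XT.lf (nat_lit 0) (nat_lit 8718765568388) (nat_lit 76) (nat_lit 30146929320006) (nat_lit 76) (nat_lit 29891798913653) (nat_lit 1) (nat_lit 4) (nat_lit 2) (nat_lit 5) (nat_lit 2) (nat_lit 4) (nat_lit 340) (nat_lit 286) (nat_lit 154)) (XT.lf (nat_lit 0) (nat_lit 10982613362402) (nat_lit 76) (nat_lit 34137058320841) (nat_lit 76) (nat_lit 33881927914164) (nat_lit 1) (nat_lit 4) (nat_lit 2) (nat_lit 5) (nat_lit 2) (nat_lit 4) (nat_lit 341) (nat_lit 286) (nat_lit 153))))))) (XT.nd (nat_lit 780) (nat_lit 684) (nat_lit 0) (XT.nd (nat_lit 390) (nat_lit 380) (nat_lit 0) (XT.nd (nat_lit 156) (nat_lit 0) (nat_lit 76) (XT.nd (nat_lit 78) (nat_lit 0) (nat_lit 0) (XT.lf (nat_lit 0) (nat_lit 16223627516) (nat_lit 380) (nat_lit 36160773992) (nat_lit 380) (nat_lit 36160773992) (nat_lit 23) (nat_lit 3) (nat_lit 28) (nat_lit 3) (nat_lit 28) (nat_lit 5) (nat_lit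 287) (nat_lit 287) (nat_lit 206)) (XT.lf (nat_lit 76) (nat_lit 12380081166) (nat_lit 0) (nat_lit 23015251338) (nat_lit 380) (nat_lit 154899608702) (nat_lit 24) (nat_lit 5) (nat_lit 23) (nat_lit 3) (nat_lit 28) (nat_lit 5) (nat_lit 288) (nat_lit 287) (nat_lit 205))) (XT.nd (nat_lit 78) (nat_lit 0) (nat_lit 0) (XT.lf (nat_lit 0) (nat_lit 45685759348) (nat_lit 304) (nat_lit 90118550625) (nat_lit 380) (nat_lit 68640890393) (nat_lit 24) (nat_lit 5) (nat_lit 28) (nat_lit 5) (nat_lit 29) (nat_lit 5) (nat_lit 289) (nat_lit 287) (nat_lit 204)) (XT.nd (nat_lit 78) (nat_lit 0) (nat_lit 76) (XT.lf (nat_lit 76) (nat_lit 10703942541) (nat_lit 0) (nat_lit 48354702272) (nat_lit 380) (nat_lit 161428520345) (nat_lit 25) (nat_lit 5) (nat_lit 24) (nat_lit 5) (nat_lit 29) (nat_lit 5) (nat_lit 290) (nat_lit 287) (nat_lit 203)) (XT.lf (nat_lit 0) (nat_lit 81534262422) (nat_lit 304) (nat_lit 103837499633) (nat_lit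 76) (nat_lit 52499143540) (nat_lit 25) (nat_lit 5) (nat_lit 29) (nat_lit 5) (nat_lit 26) (nat_lit 5) (nat_lit 291) (nat_lit 287) (nat_lit 202))))) (XT.nd (nat_lit 156) (nat_lit 228) (nat_lit 0) (XT.nd (nat_lit 78) (nat_lit 0) (nat_lit 0) (XT.lf (nat_lit 0) (nat_lit 17231291560) (nat_lit 304) (nat_lit 93165815633) (nat_lit 380) (nat_lit 147012717941) (nat_lit 21) (nat_lit 5) (nat_lit 25) (nat_lit 5) (nat_lit 26) (nat_lit 5) (nat_lit 292) (nat_lit 287) (nat_lit 201)) (XT.lf (nat_lit 0) (nat_lit 149808468557) (nat_lit 380) (nat_lit 111726768468) (nat_lit 76) (nat_lit 17411482723) (nat_lit 21) (nat_lit 5) (nat_lit 26) (nat_lit 5) (nat_lit 22) (nat_lit 5) (nat_lit 293) (nat_lit 287) (nat_lit 200))) (XT.nd (nat_lit 78) (nat_lit 76) (nat_lit 0) (XT.lf (nat_lit 0) (nat_lit 34639961026) (nat_lit 152) (nat_lit 166362223950) (nat_lit 228) (nat_lit 101831366492) (nat_lit 19) (nat_lit 5) (nat_lit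 21) (nat_lit 5) (nat_lit 22) (nat_lit 5) (nat_lit 294) (nat_lit 287) (nat_lit 199)) (XT.nd (nat_lit 78) (nat_lit 76) (nat_lit 0) (XT.lf (nat_lit 0) (nat_lit 215518053423) (nat_lit 152) (nat_lit 50197000022) (nat_lit 228) (nat_lit 63712340784) (nat_lit 19) (nat_lit 5) (nat_lit 21) (nat_lit 5) (nat_lit 22) (nat_lit 5) (nat_lit 295) (nat_lit 287) (nat_lit 198)) (XT.lf (nat_lit 0) (nat_lit 65934126632) (nat_lit 76) (nat_lit 280383895814) (nat_lit 152) (nat_lit 12764815829) (nat_lit 18) (nat_lit 5) (nat_lit 19) (nat_lit 5) (nat_lit 20) (nat_lit 4) (nat_lit 296) (nat_lit 287) (nat_lit 197)))))) (XT.nd (nat_lit 390) (nat_lit 380) (nat_lit 0) (XT.nd (nat_lit 156) (nat_lit 76) (nat_lit 0) (XT.nd (nat_lit 78) (nat_lit 152) (nat_lit 0) (XT.lf (nat_lit 0) (nat_lit 50373276161) (nat_lit 152) (nat_lit 111309068030) (nat_lit 76) (nat_lit 229925416387) (nat_lit 17) (nat_lit 5) (nat_lit 19) (nat_lit 5)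 (nat_lit 18) (nat_lit 5) (nat_lit 297) (nat_lit 287) (nat_lit 196)) (XT.lf (nat_lit 0) (nat_lit 106697434637) (nat_lit 152) (nat_lit 19395761710) (nat_lit 228) (nat_lit 302164349633) (nat_lit 15) (nat_lit 5) (nat_lit 17) (nat_lit 5) (nat_lit 18) (nat_lit 5) (nat_lit 298) (nat_lit 287) (nat_lit 195))) (XT.nd (nat_lit 78) (nat_lit 76) (nat_lit 0) (XT.lf (nat_lit 0) (nat_lit 225238897367) (nat_lit 228) (nat_lit 105867172702) (nat_lit 76) (nat_lit 137488560438) (nat_lit 15) (nat_lit 5) (nat_lit 18) (nat_lit 5) (nat_lit 16) (nat_lit 4) (nat_lit 299) (nat_lit 287) (nat_lit 194)) (XT.nd (nat_lit 78) (nat_lit 0) (nat_lit 0) (XT.lf (nat_lit 0) (nat_lit 155060491510) (nat_lit 76) (nat_lit 191540191239) (nat_lit 152) (nat_lit 167279960786) (nat_lit 14) (nat_lit 5) (nat_lit 15) (nat_lit 5) (nat_lit 16) (nat_lit 4) (nat_lit 300) (nat_lit 287) (nat_lit 193)) (XT.lf (nat_lit 0) (nat_lit 467025174673)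 (nat_lit 76) (nat_lit 24675431229) (nat_lit 152) (nat_lit 73428872298) (nat_lit 14) (nat_lit 5) (nat_lit 15) (nat_lit 5) (nat_lit 16) (nat_lit 4) (nat_lit 301) (nat_lit 287) (nat_lit 192))))) (XT.nd (nat_lit 234) (nat_lit 152) (nat_lit 0) (XT.nd (nat_lit 78) (nat_lit 76) (nat_lit 0) (XT.lf (nat_lit 0) (nat_lit 47958211742) (nat_lit 152) (nat_lit 410047462022) (nat_lit 76) (nat_lit 163366216951) (nat_lit 12) (nat_lit 5) (nat_lit 14) (nat_lit 5) (nat_lit 13) (nat_lit 4) (nat_lit 302) (nat_lit 287) (nat_lit 191)) (XT.nd (nat_lit 78) (nat_lit 76) (nat_lit 0) (XT.lf (nat_lit 0) (nat_lit 186582955388) (nat_lit 152) (nat_lit 112004362871) (nat_lit 76) (nat_lit 385956757787) (nat_lit 12) (nat_lit 5) (nat_lit 14) (nat_lit 5) (nat_lit 13) (nat_lit 4) (nat_lit 303) (nat_lit 287) (nat_lit 190)) (XT.lf (nat_lit 0) (nat_lit 253295158276) (nat_lit 76) (nat_lit 103194591454) (nat_lit 152) (nat_lit 399129088678)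 (nat_lit 11) (nat_lit 5) (nat_lit 12) (nat_lit 5) (nat_lit 13) (nat_lit 4) (nat_lit 304) (nat_lit 287) (nat_lit 189)))) (XT.nd (nat_lit 78) (nat_lit 152) (nat_lit 0) (XT.lf (nat_lit 0) (nat_lit 563047412031) (nat_lit 152) (nat_lit 155809506459) (nat_lit 0) (nat_lit 116823169400) (nat_lit 11) (nat_lit 5) (nat_lit 13) (nat_lit 4) (nat_lit 11) (nat_lit 4) (nat_lit 305) (nat_lit 287) (nat_lit 188)) (XT.nd (nat_lit 78) (nat_lit 76) (nat_lit 0) (XT.lf (nat_lit 0) (nat_lit 261004034631) (nat_lit 76) (nat_lit 555306275919) (nat_lit 76) (nat_lit 109081976290) (nat_lit 10) (nat_lit 4) (nat_lit 11) (nat_lit 5) (nat_lit 11) (nat_lit 4) (nat_lit 306) (nat_lit 287) (nat_lit 187)) (XT.lf (nat_lit 0) (nat_lit 80500447951) (nat_lit 152) (nat_lit 273148386096) (nat_lit 76) (nat_lit 673141935521) (nat_lit 9) (nat_lit 5) (nat_lit 11) (nat_lit 5) (nat_lit 10) (nat_lit 4) (nat_lit 307) (nat_lit 287) (nat_lit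 186))))))))
noncomputable def xc96 : XT := (XT.nd (nat_lit 1560) (nat_lit 76) (nat_lit 0) (XT.nd (nat_lit 780) (nat_lit 152) (nat_lit 0) (XT.nd (nat_lit 390) (nat_lit 228) (nat_lit 0) (XT.nd (nat_lit 156) (nat_lit 76) (nat_lit 0) (XT.nd (nat_lit 78) (nat_lit 0) (nat_lit 0) (XT.lf (nat_lit 0) (nat_lit 188351316491) (nat_lit 76) (nat_lit 106800175965) (nat_lit 152) (nat_lit 846298499340) (nat_lit 8) (nat_lit 5) (nat_lit 9) (nat_lit 5) (nat_lit 10) (nat_lit 4) (nat_lit 308) (nat_lit 287) (nat_lit 185)) (XT.lf (nat_lit 0) (nat_lit 564290597979) (nat_lit 152) (nat_lit 529404584070) (nat_lit 0) (nat_lit 176269354702) (nat_lit 8) (nat_lit 5) (nat_lit 10) (nat_lit 4) (nat_lit 8) (nat_lit 4) (nat_lit 309) (nat_lit 287) (nat_lit 184))) (XT.nd (nat_lit 78) (nat_lit 76) (nat_lit 0) (XT.lf (nat_lit 0) (nat_lit 878886246749) (nat_lit 152) (nat_lit 47242189992) (nat_lit 0) (nat_lit 490864975133) (nat_lit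 8) (nat_lit 5) (nat_lit 10) (nat_lit 4) (nat_lit 8) (nat_lit 4) (nat_lit 310) (nat_lit 287) (nat_lit 183)) (XT.nd (nat_lit 78) (nat_lit 0) (nat_lit 0) (XT.lf (nat_lit 0) (nat_lit 556816106794) (nat_lit 76) (nat_lit 706911664264) (nat_lit 76) (nat_lit 318890368007) (nat_lit 7) (nat_lit 4) (nat_lit 8) (nat_lit 5) (nat_lit 8) (nat_lit 4) (nat_lit 311) (nat_lit 287) (nat_lit 182)) (XT.lf (nat_lit 0) (nat_lit 1256792452851) (nat_lit 76) (nat_lit 451972512033) (nat_lit 76) (nat_lit 63951194349) (nat_lit 7) (nat_lit 4) (nat_lit 8) (nat_lit 5) (nat_lit 8) (nat_lit 4) (nat_lit 312) (nat_lit 287) (nat_lit 181))))) (XT.nd (nat_lit 156) (nat_lit 76) (nat_lit 0) (XT.nd (nat_lit 78) (nat_lit 0) (nat_lit 0) (XT.lf (nat_lit 0) (nat_lit 66900355617) (nat_lit 76) (nat_lit 144691129003) (nat_lit 152) (nat_lit 1777898091052) (nat_lit 5) (nat_lit 5) (nat_lit 6) (nat_lit 5) (nat_lit 7) (nat_lit 4) (nat_lit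 313) (nat_lit 287) (nat_lit 180)) (XT.lf (nat_lit 0) (nat_lit 558812208354) (nat_lit 152) (nat_lit 1452573561332) (nat_lit 0) (nat_lit 221402336598) (nat_lit 5) (nat_lit 5) (nat_lit 7) (nat_lit 4) (nat_lit 5) (nat_lit 4) (nat_lit 314) (nat_lit 287) (nat_lit 179))) (XT.nd (nat_lit 78) (nat_lit 76) (nat_lit 0) (XT.lf (nat_lit 0) (nat_lit 965006065293) (nat_lit 152) (nat_lit 918945666230) (nat_lit 0) (nat_lit 627596181285) (nat_lit 5) (nat_lit 5) (nat_lit 7) (nat_lit 4) (nat_lit 5) (nat_lit 4) (nat_lit 315) (nat_lit 287) (nat_lit 178)) (XT.nd (nat_lit 78) (nat_lit 76) (nat_lit 0) (XT.lf (nat_lit 0) (nat_lit 1432128975453) (nat_lit 152) (nat_lit 305273637878) (nat_lit 0) (nat_lit 1094719080791) (nat_lit 5) (nat_lit 5) (nat_lit 7) (nat_lit 4) (nat_lit 5) (nat_lit 4) (nat_lit 316) (nat_lit 287) (nat_lit 177)) (XT.lf (nat_lit 0) (nat_lit 439583953695) (nat_lit 76) (nat_lit 1547938580531) (nat_lit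 76) (nat_lit 1210528676606) (nat_lit 4) (nat_lit 4) (nat_lit 5) (nat_lit 5) (nat_lit 5) (nat_lit 4) (nat_lit 317) (nat_lit 287) (nat_lit 176)))))) (XT.nd (nat_lit 390) (nat_lit 0) (nat_lit 0) (XT.nd (nat_lit 156) (nat_lit 152) (nat_lit 0) (XT.nd (nat_lit 78) (nat_lit 0) (nat_lit 0) (XT.lf (nat_lit 0) (nat_lit 1330478735735) (nat_lit 76) (nat_lit 1311703855799) (nat_lit 76) (nat_lit 974293943819) (nat_lit 4) (nat_lit 4) (nat_lit 5) (nat_lit 5) (nat_lit 5) (nat_lit 4) (nat_lit 318) (nat_lit 287) (nat_lit 175)) (XT.lf (nat_lit 0) (nat_lit 2355007698260) (nat_lit 76) (nat_lit 1040033941006) (nat_lit 76) (nat_lit 702624022021) (nat_lit 4) (nat_lit 4) (nat_lit 5) (nat_lit 5) (nat_lit 5) (nat_lit 4) (nat_lit 319) (nat_lit 287) (nat_lit 174))) (XT.nd (nat_lit 78) (nat_lit 152) (nat_lit 0) (XT.lf (nat_lit 0) (nat_lit 3533215973144) (nat_lit 76) (nat_lit 727613555211) (nat_lit 76) (nat_lit 390203630135)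 (nat_lit 4) (nat_lit 4) (nat_lit 5) (nat_lit 5) (nat_lit 5) (nat_lit 4) (nat_lit 320) (nat_lit 287) (nat_lit 173)) (XT.nd (nat_lit 78) (nat_lit 152) (nat_lit 0) (XT.lf (nat_lit 0) (nat_lit 4888155461418) (nat_lit 76) (nat_lit 368330125648) (nat_lit 76) (nat_lit 30920195275) (nat_lit 4) (nat_lit 4) (nat_lit 5) (nat_lit 5) (nat_lit 5) (nat_lit 4) (nat_lit 321) (nat_lit 287) (nat_lit 172)) (XT.lf (nat_lit 0) (nat_lit 370419829762) (nat_lit 152) (nat_lit 5566091055526) (nat_lit 0) (nat_lit 77019886302) (nat_lit 2) (nat_lit 5) (nat_lit 4) (nat_lit 4) (nat_lit 2) (nat_lit 4) (nat_lit 322) (nat_lit 287) (nat_lit 171))))) (XT.nd (nat_lit 156) (nat_lit 0) (nat_lit 0) (XT.nd (nat_lit 78) (nat_lit 0) (nat_lit 0) (XT.lf (nat_lit 0) (nat_lit 868198444950) (nat_lit 152) (nat_lit 5399446223921) (nat_lit 0) (nat_lit 574798498008) (nat_lit 2) (nat_lit 5) (nat_lit 4) (nat_lit 4) (nat_lit 2) (nat_lit 4)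 (nat_lit 323) (nat_lit 287) (nat_lit 170)) (XT.lf (nat_lit 0) (nat_lit 1440643841627) (nat_lit 152) (nat_lit 5207804689802) (nat_lit 0) (nat_lit 1147243891656) (nat_lit 2) (nat_lit 5) (nat_lit 4) (nat_lit 4) (nat_lit 2) (nat_lit 4) (nat_lit 324) (nat_lit 287) (nat_lit 169))) (XT.nd (nat_lit 78) (nat_lit 0) (nat_lit 0) (XT.lf (nat_lit 0) (nat_lit 2098956038422) (nat_lit 152) (nat_lit 4987416944891) (nat_lit 0) (nat_lit 1805556085818) (nat_lit 2) (nat_lit 5) (nat_lit 4) (nat_lit 4) (nat_lit 2) (nat_lit 4) (nat_lit 325) (nat_lit 287) (nat_lit 168)) (XT.nd (nat_lit 78) (nat_lit 0) (nat_lit 0) (XT.lf (nat_lit 0) (nat_lit 2856015056578) (nat_lit 152) (nat_lit 4733971055049) (nat_lit 0) (nat_lit 2562615101684) (nat_lit 2) (nat_lit 5) (nat_lit 4) (nat_lit 4) (nat_lit 2) (nat_lit 4) (nat_lit 326) (nat_lit 287) (nat_lit 167)) (XT.lf (nat_lit 0) (nat_lit 3726632920363) (nat_lit 152) (nat_lit 4442508296346)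 (nat_lit 0) (nat_lit 3433232963478) (nat_lit 2) (nat_lit 5) (nat_lit 4) (nat_lit 4) (nat_lit 2) (nat_lit 4) (nat_lit 327) (nat_lit 287) (nat_lit 166))))))) (XT.nd (nat_lit 780) (nat_lit 0) (nat_lit 0) (XT.nd (nat_lit 390) (nat_lit 76) (nat_lit 0) (XT.nd (nat_lit 156) (nat_lit 0) (nat_lit 0) (XT.nd (nat_lit 78) (nat_lit 0) (nat_lit 0) (XT.lf (nat_lit 0) (nat_lit 4727843457546) (nat_lit 152) (nat_lit 4107326136544) (nat_lit 0) (nat_lit 4434443498929) (nat_lit 2) (nat_lit 5) (nat_lit 4) (nat_lit 4) (nat_lit 2) (nat_lit 4) (nat_lit 328) (nat_lit 287) (nat_lit 165)) (XT.lf (nat_lit 0) (nat_lit 5879235569942) (nat_lit 152) (nat_lit 3721866663823) (nat_lit 0) (nat_lit 5585835609820) (nat_lit 2) (nat_lit 5) (nat_lit 4) (nat_lit 4) (nat_lit 2) (nat_lit 4) (nat_lit 329) (nat_lit 287) (nat_lit 164))) (XT.nd (nat_lit 78) (nat_lit 0) (nat_lit 0) (XT.lf (nat_lit 0) (nat_lit 7203336494533) (nat_lit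 152) (nat_lit 3278588279802) (nat_lit 0) (nat_lit 6909936533101) (nat_lit 2) (nat_lit 5) (nat_lit 4) (nat_lit 4) (nat_lit 2) (nat_lit 4) (nat_lit 330) (nat_lit 287) (nat_lit 163)) (XT.nd (nat_lit 78) (nat_lit 0) (nat_lit 0) (XT.lf (nat_lit 0) (nat_lit 8726052553756) (nat_lit 152) (nat_lit 2768818146534) (nat_lit 0) (nat_lit 8432652591186) (nat_lit 2) (nat_lit 5) (nat_lit 4) (nat_lit 4) (nat_lit 2) (nat_lit 4) (nat_lit 331) (nat_lit 287) (nat_lit 162)) (XT.lf (nat_lit 0) (nat_lit 10477176018335) (nat_lit 152) (nat_lit 2182582500541) (nat_lit 0) (nat_lit 10183776054775) (nat_lit 2) (nat_lit 5) (nat_lit 4) (nat_lit 4) (nat_lit 2) (nat_lit 4) (nat_lit 332) (nat_lit 287) (nat_lit 161))))) (XT.nd (nat_lit 156) (nat_lit 76) (nat_lit 0) (XT.nd (nat_lit 78) (nat_lit 0) (nat_lit 0) (XT.lf (nat_lit 0) (nat_lit 12490967999533) (nat_lit 152) (nat_lit 1508411513967) (nat_lit 0) (nat_lit 12197568035113)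 (nat_lit 2) (nat_lit 5) (nat_lit 4) (nat_lit 4) (nat_lit 2) (nat_lit 4) (nat_lit 333) (nat_lit 287) (nat_lit 160)) (XT.lf (nat_lit 0) (nat_lit 14806828775245) (nat_lit 152) (nat_lit 733114884901) (nat_lit 0) (nat_lit 14513428810075) (nat_lit 2) (nat_lit 5) (nat_lit 4) (nat_lit 4) (nat_lit 2) (nat_lit 4) (nat_lit 334) (nat_lit 287) (nat_lit 159))) (XT.nd (nat_lit 78) (nat_lit 0) (nat_lit 0) (XT.lf (nat_lit 0) (nat_lit 173963683862) (nat_lit 76) (nat_lit 17303308446301) (nat_lit 76) (nat_lit 17009908480481) (nat_lit 1) (nat_lit 4) (nat_lit 2) (nat_lit 5) (nat_lit 2) (nat_lit 4) (nat_lit 335) (nat_lit 287) (nat_lit 158)) (XT.nd (nat_lit 78) (nat_lit 0) (nat_lit 0) (XT.lf (nat_lit 0) (nat_lit 1299496149423) (nat_lit 76) (nat_lit 19287107751130) (nat_lit 76) (nat_lit 18993707784744) (nat_lit 1) (nat_lit 4) (nat_lit 2) (nat_lit 5) (nat_lit 2) (nat_lit 4) (nat_lit 336) (nat_lit 287) (nat_lit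 157)) (XT.lf (nat_lit 0) (nat_lit 2593858480853) (nat_lit 76) (nat_lit 21568476953730) (nat_lit 76) (nat_lit 21275076986852) (nat_lit 1) (nat_lit 4) (nat_lit 2) (nat_lit 5) (nat_lit 2) (nat_lit 4) (nat_lit 337) (nat_lit 287) (nat_lit 156)))))) (XT.nd (nat_lit 36816) (nat_lit 0) (nat_lit 1520) (XT.nd (nat_lit 156) (nat_lit 0) (nat_lit 0) (XT.nd (nat_lit 78) (nat_lit 0) (nat_lit 0) (XT.lf (nat_lit 0) (nat_lit 4082375158549) (nat_lit 76) (nat_lit 24192051538501) (nat_lit 76) (nat_lit 23898651571195) (nat_lit 1) (nat_lit 4) (nat_lit 2) (nat_lit 5) (nat_lit 2) (nat_lit 4) (nat_lit 338) (nat_lit 287) (nat_lit 155)) (XT.lf (nat_lit 0) (nat_lit 5794169334901) (nat_lit 76) (nat_lit 27209162312536) (nat_lit 76) (nat_lit 26915762344857) (nat_lit 1) (nat_lit 4) (nat_lit 2) (nat_lit 5) (nat_lit 2) (nat_lit 4) (nat_lit 339) (nat_lit 287) (nat_lit 154))) (XT.nd (nat_lit 78) (nat_lit 0) (nat_lit 0) (XT.lf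 (nat_lit 0) (nat_lit 7762732635098) (nat_lit 76) (nat_lit 30678839704022) (nat_lit 76) (nat_lit 30385439736020) (nat_lit 1) (nat_lit 4) (nat_lit 2) (nat_lit 5) (nat_lit 2) (nat_lit 4) (nat_lit 340) (nat_lit 287) (nat_lit 153)) (XT.nd (nat_lit 36504) (nat_lit 0) (nat_lit 1672) (XT.lf (nat_lit 0) (nat_lit 10026580428058) (nat_lit 76) (nat_lit 34668968705402) (nat_lit 76) (nat_lit 34375568737118) (nat_lit 1) (nat_lit 4) (nat_lit 2) (nat_lit 5) (nat_lit 2) (nat_lit 4) (nat_lit 341) (nat_lit 287) (nat_lit 152)) (XT.lf (nat_lit 0) (nat_lit 18658993528) (nat_lit 380) (nat_lit 41583839574) (nat_lit 380) (nat_lit 41583839574) (nat_lit 23) (nat_lit 3) (nat_lit 28) (nat_lit 3) (nat_lit 28) (nat_lit 5) (nat_lit 288) (nat_lit 288) (nat_lit 204))))) (XT.nd (nat_lit 156) (nat_lit 152) (nat_lit 0) (XT.nd (nat_lit 78) (nat_lit 0) (nat_lit 76) (XT.lf (nat_lit 76) (nat_lit 14239098875) (nat_lit 0) (nat_lit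 26468785044) (nat_lit 380) (nat_lit 178130800531) (nat_lit 24) (nat_lit 5) (nat_lit 23) (nat_lit 3) (nat_lit 28) (nat_lit 5) (nat_lit 289) (nat_lit 288) (nat_lit 203)) (XT.lf (nat_lit 0) (nat_lit 52541405810) (nat_lit 304) (nat_lit 103634111423) (nat_lit 380) (nat_lit 78936036929) (nat_lit 24) (nat_lit 5) (nat_lit 28) (nat_lit 5) (nat_lit 29) (nat_lit 5) (nat_lit 290) (nat_lit 288) (nat_lit 202))) (XT.nd (nat_lit 78) (nat_lit 228) (nat_lit 0) (XT.lf (nat_lit 76) (nat_lit 12311654727) (nat_lit 0) (nat_lit 55608294244) (nat_lit 380) (nat_lit 185639907128) (nat_lit 25) (nat_lit 5) (nat_lit 24) (nat_lit 5) (nat_lit 29) (nat_lit 5) (nat_lit 291) (nat_lit 288) (nat_lit 201)) (XT.nd (nat_lit 78) (nat_lit 304) (nat_lit 0) (XT.lf (nat_lit 0) (nat_lit 93766568243) (nat_lit 304) (nat_lit 119410932711) (nat_lit 76) (nat_lit 60373708801) (nat_lit 25) (nat_lit 5) (nat_lit 29) (nat_lit 5) (nat_lit 26)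 (nat_lit 5) (nat_lit 292) (nat_lit 288) (nat_lit 200)) (XT.lf (nat_lit 0) (nat_lit 19818077531) (nat_lit 304) (nat_lit 107140566253) (nat_lit 380) (nat_lit 169062353709) (nat_lit 21) (nat_lit 5) (nat_lit 25) (nat_lit 5) (nat_lit 26) (nat_lit 5) (nat_lit 293) (nat_lit 288) (nat_lit 199))))))))
noncomputable def xc97 : XT := (XT.nd (nat_lit 1560) (nat_lit 380) (nat_lit 0) (XT.nd (nat_lit 780) (nat_lit 380) (nat_lit 0) (XT.nd (nat_lit 390) (nat_lit 380) (nat_lit 0) (XT.nd (nat_lit 156) (nat_lit 152) (nat_lit 0) (XT.nd (nat_lit 78) (nat_lit 152) (nat_lit 0) (XT.lf (nat_lit 0) (nat_lit 172281456712) (nat_lit 380) (nat_lit 128483706688) (nat_lit 76) (nat_lit 20023301557) (nat_lit 21) (nat_lit 5) (nat_lit 26) (nat_lit 5) (nat_lit 22) (nat_lit 5) (nat_lit 294) (nat_lit 288) (nat_lit 198)) (XT.lf (nat_lit 0) (nat_lit 39837937820) (nat_lit 152) (nat_lit 191316150801) (nat_lit 228) (nat_lit 117104254771)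 (nat_lit 19) (nat_lit 5) (nat_lit 21) (nat_lit 5) (nat_lit 22) (nat_lit 5) (nat_lit 295) (nat_lit 288) (nat_lit 197))) (XT.nd (nat_lit 78) (nat_lit 152) (nat_lit 0) (XT.lf (nat_lit 0) (nat_lit 247847485470) (nat_lit 152) (nat_lit 57726196338) (nat_lit 228) (nat_lit 73267612167) (nat_lit 19) (nat_lit 5) (nat_lit 21) (nat_lit 5) (nat_lit 22) (nat_lit 5) (nat_lit 296) (nat_lit 288) (nat_lit 196)) (XT.nd (nat_lit 78) (nat_lit 76) (nat_lit 0) (XT.lf (nat_lit 0) (nat_lit 75826077187) (nat_lit 76) (nat_lit 322440928807) (nat_lit 152) (nat_lit 14678062658) (nat_lit 18) (nat_lit 5) (nat_lit 19) (nat_lit 5) (nat_lit 20) (nat_lit 4) (nat_lit 297) (nat_lit 288) (nat_lit 195)) (XT.lf (nat_lit 0) (nat_lit 57930436439) (nat_lit 152) (nat_lit 128003718822) (nat_lit 76) (nat_lit 264414591553) (nat_lit 17) (nat_lit 5) (nat_lit 19) (nat_lit 5) (nat_lit 18) (nat_lit 5) (nat_lit 298) (nat_lit 288) (nat_lit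 194))))) (XT.nd (nat_lit 156) (nat_lit 228) (nat_lit 0) (XT.nd (nat_lit 78) (nat_lit 0) (nat_lit 0) (XT.lf (nat_lit 0) (nat_lit 122703681545) (nat_lit 152) (nat_lit 22304578215) (nat_lit 228) (nat_lit 347487753331) (nat_lit 15) (nat_lit 5) (nat_lit 17) (nat_lit 5) (nat_lit 18) (nat_lit 5) (nat_lit 299) (nat_lit 288) (nat_lit 193)) (XT.lf (nat_lit 0) (nat_lit 259025694269) (nat_lit 228) (nat_lit 121745706157) (nat_lit 76) (nat_lit 158112278405) (nat_lit 15) (nat_lit 5) (nat_lit 18) (nat_lit 5) (nat_lit 16) (nat_lit 4) (nat_lit 300) (nat_lit 288) (nat_lit 192))) (XT.nd (nat_lit 78) (nat_lit 152) (nat_lit 0) (XT.lf (nat_lit 0) (nat_lit 178321037576) (nat_lit 76) (nat_lit 220270645332) (nat_lit 152) (nat_lit 192370920837) (nat_lit 14) (nat_lit 5) (nat_lit 15) (nat_lit 5) (nat_lit 16) (nat_lit 4) (nat_lit 301) (nat_lit 288) (nat_lit 191)) (XT.nd (nat_lit 78) (nat_lit 152) (nat_lit 0) (XT.lf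 (nat_lit 0) (nat_lit 537080231169) (nat_lit 76) (nat_lit 28376246267) (nat_lit 152) (nat_lit 84442303954) (nat_lit 14) (nat_lit 5) (nat_lit 15) (nat_lit 5) (nat_lit 16) (nat_lit 4) (nat_lit 302) (nat_lit 288) (nat_lit 190)) (XT.lf (nat_lit 0) (nat_lit 55152731709) (nat_lit 152) (nat_lit 471553187703) (nat_lit 76) (nat_lit 187871635589) (nat_lit 12) (nat_lit 5) (nat_lit 14) (nat_lit 5) (nat_lit 13) (nat_lit 4) (nat_lit 303) (nat_lit 288) (nat_lit 189)))))) (XT.nd (nat_lit 390) (nat_lit 152) (nat_lit 0) (XT.nd (nat_lit 156) (nat_lit 152) (nat_lit 0) (XT.nd (nat_lit 78) (nat_lit 76) (nat_lit 0) (XT.lf (nat_lit 0) (nat_lit 214571084094) (nat_lit 152) (nat_lit 128803805457) (nat_lit 76) (nat_lit 443850694146) (nat_lit 12) (nat_lit 5) (nat_lit 14) (nat_lit 5) (nat_lit 13) (nat_lit 4) (nat_lit 304) (nat_lit 288) (nat_lit 188)) (XT.lf (nat_lit 0) (nat_lit 291290588779) (nat_lit 76) (nat_lit 118673267307)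 (nat_lit 152) (nat_lit 458997710674) (nat_lit 11) (nat_lit 5) (nat_lit 12) (nat_lit 5) (nat_lit 13) (nat_lit 4) (nat_lit 305) (nat_lit 288) (nat_lit 187))) (XT.nd (nat_lit 78) (nat_lit 152) (nat_lit 0) (XT.lf (nat_lit 0) (nat_lit 647505102212) (nat_lit 152) (nat_lit 179179860311) (nat_lit 0) (nat_lit 134347051077) (nat_lit 11) (nat_lit 5) (nat_lit 13) (nat_lit 4) (nat_lit 11) (nat_lit 4) (nat_lit 306) (nat_lit 288) (nat_lit 186)) (XT.nd (nat_lit 78) (nat_lit 76) (nat_lit 0) (XT.lf (nat_lit 0) (nat_lit 300155663209) (nat_lit 76) (nat_lit 638601739235) (nat_lit 76) (nat_lit 125443645001) (nat_lit 10) (nat_lit 4) (nat_lit 11) (nat_lit 5) (nat_lit 11) (nat_lit 4) (nat_lit 307) (nat_lit 288) (nat_lit 185)) (XT.lf (nat_lit 0) (nat_lit 92576012403) (nat_lit 152) (nat_lit 314119705044) (nat_lit 76) (nat_lit 774113592497) (nat_lit 9) (nat_lit 5) (nat_lit 11) (nat_lit 5) (nat_lit 10) (nat_lit 4)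 (nat_lit 308) (nat_lit 288) (nat_lit 184))))) (XT.nd (nat_lit 156) (nat_lit 76) (nat_lit 0) (XT.nd (nat_lit 78) (nat_lit 0) (nat_lit 0) (XT.lf (nat_lit 0) (nat_lit 216604910251) (nat_lit 76) (nat_lit 122819775586) (nat_lit 152) (nat_lit 973242733892) (nat_lit 8) (nat_lit 5) (nat_lit 9) (nat_lit 5) (nat_lit 10) (nat_lit 4) (nat_lit 309) (nat_lit 288) (nat_lit 183)) (XT.lf (nat_lit 0) (nat_lit 648934611314) (nat_lit 152) (nat_lit 608814446071) (nat_lit 0) (nat_lit 202710095977) (nat_lit 8) (nat_lit 5) (nat_lit 10) (nat_lit 4) (nat_lit 8) (nat_lit 4) (nat_lit 310) (nat_lit 288) (nat_lit 182))) (XT.nd (nat_lit 78) (nat_lit 76) (nat_lit 0) (XT.lf (nat_lit 0) (nat_lit 1010719552142) (nat_lit 152) (nat_lit 54327800570) (nat_lit 0) (nat_lit 564495015377) (nat_lit 8) (nat_lit 5) (nat_lit 10) (nat_lit 4) (nat_lit 8) (nat_lit 4) (nat_lit 311) (nat_lit 288) (nat_lit 181)) (XT.nd (nat_lit 78) (nat_lit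 0) (nat_lit 0) (XT.lf (nat_lit 0) (nat_lit 640339208102) (nat_lit 76) (nat_lit 812948077323) (nat_lit 76) (nat_lit 366723521925) (nat_lit 7) (nat_lit 4) (nat_lit 8) (nat_lit 5) (nat_lit 8) (nat_lit 4) (nat_lit 312) (nat_lit 288) (nat_lit 180)) (XT.lf (nat_lit 0) (nat_lit 1445311916682) (nat_lit 76) (nat_lit 519768096159) (nat_lit 76) (nat_lit 73543524559) (nat_lit 7) (nat_lit 4) (nat_lit 8) (nat_lit 5) (nat_lit 8) (nat_lit 4) (nat_lit 313) (nat_lit 288) (nat_lit 179))))))) (XT.nd (nat_lit 780) (nat_lit 0) (nat_lit 0) (XT.nd (nat_lit 390) (nat_lit 152) (nat_lit 0) (XT.nd (nat_lit 156) (nat_lit 76) (nat_lit 0) (XT.nd (nat_lit 78) (nat_lit 0) (nat_lit 0) (XT.lf (nat_lit 0) (nat_lit 76936007624) (nat_lit 76) (nat_lit 166394500893) (nat_lit 152) (nat_lit 2044582458147) (nat_lit 5) (nat_lit 5) (nat_lit 6) (nat_lit 5) (nat_lit 7) (nat_lit 4) (nat_lit 314) (nat_lit 288) (nat_lit 178)) (XT.lf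 (nat_lit 0) (nat_lit 642634312235) (nat_lit 152) (nat_lit 1670459046222) (nat_lit 0) (nat_lit 254612922721) (nat_lit 5) (nat_lit 5) (nat_lit 7) (nat_lit 4) (nat_lit 5) (nat_lit 4) (nat_lit 315) (nat_lit 288) (nat_lit 177))) (XT.nd (nat_lit 78) (nat_lit 76) (nat_lit 0) (XT.lf (nat_lit 0) (nat_lit 1109757212154) (nat_lit 152) (nat_lit 1056787038504) (nat_lit 0) (nat_lit 721735813377) (nat_lit 5) (nat_lit 5) (nat_lit 7) (nat_lit 4) (nat_lit 5) (nat_lit 4) (nat_lit 316) (nat_lit 288) (nat_lit 176)) (XT.nd (nat_lit 78) (nat_lit 76) (nat_lit 0) (XT.lf (nat_lit 0) (nat_lit 1646948527916) (nat_lit 152) (nat_lit 351064268203) (nat_lit 0) (nat_lit 1258927121083) (nat_lit 5) (nat_lit 5) (nat_lit 7) (nat_lit 4) (nat_lit 5) (nat_lit 4) (nat_lit 317) (nat_lit 288) (nat_lit 175)) (XT.lf (nat_lit 0) (nat_lit 505521943226) (nat_lit 76) (nat_lit 1780129166809) (nat_lit 76) (nat_lit 1392107752971) (nat_lit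 4) (nat_lit 4) (nat_lit 5) (nat_lit 5) (nat_lit 5) (nat_lit 4) (nat_lit 318) (nat_lit 288) (nat_lit 174))))) (XT.nd (nat_lit 156) (nat_lit 152) (nat_lit 0) (XT.nd (nat_lit 78) (nat_lit 0) (nat_lit 0) (XT.lf (nat_lit 0) (nat_lit 1530050890858) (nat_lit 76) (nat_lit 1508459259558) (nat_lit 76) (nat_lit 1120437839629) (nat_lit 4) (nat_lit 4) (nat_lit 5) (nat_lit 5) (nat_lit 5) (nat_lit 4) (nat_lit 319) (nat_lit 288) (nat_lit 173)) (XT.lf (nat_lit 0) (nat_lit 2708259152792) (nat_lit 76) (nat_lit 1196038880322) (nat_lit 76) (nat_lit 808017455096) (nat_lit 4) (nat_lit 4) (nat_lit 5) (nat_lit 5) (nat_lit 5) (nat_lit 4) (nat_lit 320) (nat_lit 288) (nat_lit 172))) (XT.nd (nat_lit 78) (nat_lit 152) (nat_lit 0) (XT.lf (nat_lit 0) (nat_lit 4063198629805) (nat_lit 76) (nat_lit 836755456462) (nat_lit 76) (nat_lit 448734026631) (nat_lit 4) (nat_lit 4) (nat_lit 5) (nat_lit 5) (nat_lit 5) (nat_lit 4)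 (nat_lit 321) (nat_lit 288) (nat_lit 171)) (XT.nd (nat_lit 78) (nat_lit 152) (nat_lit 0) (XT.lf (nat_lit 0) (nat_lit 5621379007317) (nat_lit 76) (nat_lit 423579529686) (nat_lit 76) (nat_lit 35558095849) (nat_lit 4) (nat_lit 4) (nat_lit 5) (nat_lit 5) (nat_lit 5) (nat_lit 4) (nat_lit 322) (nat_lit 288) (nat_lit 170)) (XT.lf (nat_lit 0) (nat_lit 425982920407) (nat_lit 152) (nat_lit 6401004474538) (nat_lit 0) (nat_lit 88572974913) (nat_lit 2) (nat_lit 5) (nat_lit 4) (nat_lit 4) (nat_lit 2) (nat_lit 4) (nat_lit 323) (nat_lit 288) (nat_lit 169)))))) (XT.nd (nat_lit 390) (nat_lit 0) (nat_lit 0) (XT.nd (nat_lit 156) (nat_lit 0) (nat_lit 0) (XT.nd (nat_lit 78) (nat_lit 0) (nat_lit 0) (XT.lf (nat_lit 0) (nat_lit 998428312720) (nat_lit 152) (nat_lit 6209362949408) (nat_lit 0) (nat_lit 661018364592) (nat_lit 2) (nat_lit 5) (nat_lit 4) (nat_lit 4) (nat_lit 2) (nat_lit 4) (nat_lit 324) (nat_lit 288)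 (nat_lit 168)) (XT.lf (nat_lit 0) (nat_lit 1656740505720) (nat_lit 152) (nat_lit 5988975212314) (nat_lit 0) (nat_lit 1319330555303) (nat_lit 2) (nat_lit 5) (nat_lit 4) (nat_lit 4) (nat_lit 2) (nat_lit 4) (nat_lit 325) (nat_lit 288) (nat_lit 167))) (XT.nd (nat_lit 78) (nat_lit 0) (nat_lit 0) (XT.lf (nat_lit 0) (nat_lit 2413799520576) (nat_lit 152) (nat_lit 5735529329270) (nat_lit 0) (nat_lit 2076389568167) (nat_lit 2) (nat_lit 5) (nat_lit 4) (nat_lit 4) (nat_lit 2) (nat_lit 4) (nat_lit 326) (nat_lit 288) (nat_lit 166)) (XT.nd (nat_lit 78) (nat_lit 0) (nat_lit 0) (XT.lf (nat_lit 0) (nat_lit 3284417381492) (nat_lit 152) (nat_lit 5444066576477) (nat_lit 0) (nat_lit 2947007427351) (nat_lit 2) (nat_lit 5) (nat_lit 4) (nat_lit 4) (nat_lit 2) (nat_lit 4) (nat_lit 327) (nat_lit 288) (nat_lit 165)) (XT.lf (nat_lit 0) (nat_lit 4285627916180) (nat_lit 152) (nat_lit 5108884421815) (nat_lit 0) (nat_lit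 3948217960534) (nat_lit 2) (nat_lit 5) (nat_lit 4) (nat_lit 4) (nat_lit 2) (nat_lit 4) (nat_lit 328) (nat_lit 288) (nat_lit 164))))) (XT.nd (nat_lit 234) (nat_lit 0) (nat_lit 0) (XT.nd (nat_lit 78) (nat_lit 0) (nat_lit 0) (XT.lf (nat_lit 0) (nat_lit 5437020026406) (nat_lit 152) (nat_lit 4723424953563) (nat_lit 0) (nat_lit 5099610069451) (nat_lit 2) (nat_lit 5) (nat_lit 4) (nat_lit 4) (nat_lit 2) (nat_lit 4) (nat_lit 329) (nat_lit 288) (nat_lit 163)) (XT.nd (nat_lit 78) (nat_lit 0) (nat_lit 0) (XT.lf (nat_lit 0) (nat_lit 6761120949110) (nat_lit 152) (nat_lit 4280146573428) (nat_lit 0) (nat_lit 6423710991016) (nat_lit 2) (nat_lit 5) (nat_lit 4) (nat_lit 4) (nat_lit 2) (nat_lit 4) (nat_lit 330) (nat_lit 288) (nat_lit 162)) (XT.lf (nat_lit 0) (nat_lit 8283837006692) (nat_lit 152) (nat_lit 3770376443539) (nat_lit 0) (nat_lit 7946427047609) (nat_lit 2) (nat_lit 5) (nat_lit 4) (nat_lit 4) (nat_lit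 2) (nat_lit 4) (nat_lit 331) (nat_lit 288) (nat_lit 161)))) (XT.nd (nat_lit 78) (nat_lit 0) (nat_lit 0) (XT.lf (nat_lit 0) (nat_lit 10034960469845) (nat_lit 152) (nat_lit 3184140800485) (nat_lit 0) (nat_lit 9697550509900) (nat_lit 2) (nat_lit 5) (nat_lit 4) (nat_lit 4) (nat_lit 2) (nat_lit 4) (nat_lit 332) (nat_lit 288) (nat_lit 160)) (XT.nd (nat_lit 78) (nat_lit 0) (nat_lit 0) (XT.lf (nat_lit 0) (nat_lit 12048752449803) (nat_lit 152) (nat_lit 2509969816467) (nat_lit 0) (nat_lit 11711342489110) (nat_lit 2) (nat_lit 5) (nat_lit 4) (nat_lit 4) (nat_lit 2) (nat_lit 4) (nat_lit 333) (nat_lit 288) (nat_lit 159)) (XT.lf (nat_lit 0) (nat_lit 14364613224436) (nat_lit 152) (nat_lit 1734673189623) (nat_lit 0) (nat_lit 14027203263092) (nat_lit 2) (nat_lit 5) (nat_lit 4) (nat_lit 4) (nat_lit 2) (nat_lit 4) (nat_lit 334) (nat_lit 288) (nat_lit 158))))))))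
noncomputable def xc98 : XT := (XT.nd (nat_lit 38064) (nat_lit 0) (nat_lit 228) (XT.nd (nat_lit 37284) (nat_lit 0) (nat_lit 1064) (XT.nd (nat_lit 390) (nat_lit 0) (nat_lit 0) (XT.nd (nat_lit 156) (nat_lit 0) (nat_lit 0) (XT.nd (nat_lit 78) (nat_lit 76) (nat_lit 0) (XT.lf (nat_lit 0) (nat_lit 17027853113247) (nat_lit 152) (nat_lit 843082072907) (nat_lit 0) (nat_lit 16690443151336) (nat_lit 2) (nat_lit 5) (nat_lit 4) (nat_lit 4) (nat_lit 2) (nat_lit 4) (nat_lit 335) (nat_lit 288) (nat_lit 157)) (XT.lf (nat_lit 0) (nat_lit 200058279138) (nat_lit 76) (nat_lit 19898804691200) (nat_lit 76) (nat_lit 19561394728798) (nat_lit 1) (nat_lit 4) (nat_lit 2) (nat_lit 5) (nat_lit 2) (nat_lit 4) (nat_lit 336) (nat_lit 288) (nat_lit 156))) (XT.nd (nat_lit 78) (nat_lit 0) (nat_lit 0) (XT.lf (nat_lit 0) (nat_lit 1494420608964) (nat_lit 76) (nat_lit 22180173894629) (nat_lit 76) (nat_lit 21842763931798) (nat_lit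 1) (nat_lit 4) (nat_lit 2) (nat_lit 5) (nat_lit 2) (nat_lit 4) (nat_lit 337) (nat_lit 288) (nat_lit 155)) (XT.nd (nat_lit 78) (nat_lit 0) (nat_lit 0) (XT.lf (nat_lit 0) (nat_lit 2982937285266) (nat_lit 76) (nat_lit 24803748480120) (nat_lit 76) (nat_lit 24466338516917) (nat_lit 1) (nat_lit 4) (nat_lit 2) (nat_lit 5) (nat_lit 2) (nat_lit 4) (nat_lit 338) (nat_lit 288) (nat_lit 154)) (XT.lf (nat_lit 0) (nat_lit 4694731460405) (nat_lit 76) (nat_lit 27820859254781) (nat_lit 76) (nat_lit 27483449291255) (nat_lit 1) (nat_lit 4) (nat_lit 2) (nat_lit 5) (nat_lit 2) (nat_lit 4) (nat_lit 339) (nat_lit 288) (nat_lit 153))))) (XT.nd (nat_lit 36660) (nat_lit 0) (nat_lit 1672) (XT.nd (nat_lit 78) (nat_lit 0) (nat_lit 0) (XT.lf (nat_lit 0) (nat_lit 6663294759548) (nat_lit 76) (nat_lit 31290536646812) (nat_lit 76) (nat_lit 30953126683004) (nat_lit 1) (nat_lit 4) (nat_lit 2) (nat_lit 5) (nat_lit 2) (nat_lit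 4) (nat_lit 340) (nat_lit 288) (nat_lit 152)) (XT.lf (nat_lit 0) (nat_lit 8927142551591) (nat_lit 76) (nat_lit 35280665648665) (nat_lit 76) (nat_lit 34943255684613) (nat_lit 1) (nat_lit 4) (nat_lit 2) (nat_lit 5) (nat_lit 2) (nat_lit 4) (nat_lit 341) (nat_lit 288) (nat_lit 151))) (XT.nd (nat_lit 78) (nat_lit 0) (nat_lit 0) (XT.lf (nat_lit 0) (nat_lit 21459220164) (nat_lit 380) (nat_lit 47820621168) (nat_lit 380) (nat_lit 47820621168) (nat_lit 23) (nat_lit 3) (nat_lit 28) (nat_lit 3) (nat_lit 28) (nat_lit 5) (nat_lit 289) (nat_lit 289) (nat_lit 202)) (XT.nd (nat_lit 78) (nat_lit 0) (nat_lit 76) (XT.lf (nat_lit 76) (nat_lit 16376480178) (nat_lit 0) (nat_lit 30440044960) (nat_lit 380) (nat_lit 204847585469) (nat_lit 24) (nat_lit 5) (nat_lit 23) (nat_lit 3) (nat_lit 28) (nat_lit 5) (nat_lit 290) (nat_lit 289) (nat_lit 201)) (XT.lf (nat_lit 0) (nat_lit 60424720698) (nat_lit 304) (nat_lit 119177548140)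 (nat_lit 380) (nat_lit 90775696136) (nat_lit 24) (nat_lit 5) (nat_lit 28) (nat_lit 5) (nat_lit 29) (nat_lit 5) (nat_lit 291) (nat_lit 289) (nat_lit 200)))))) (XT.nd (nat_lit 390) (nat_lit 304) (nat_lit 0) (XT.nd (nat_lit 156) (nat_lit 380) (nat_lit 0) (XT.nd (nat_lit 78) (nat_lit 0) (nat_lit 76) (XT.lf (nat_lit 76) (nat_lit 14160006569) (nat_lit 0) (nat_lit 63949830730) (nat_lit 380) (nat_lit 213483706983) (nat_lit 25) (nat_lit 5) (nat_lit 24) (nat_lit 5) (nat_lit 29) (nat_lit 5) (nat_lit 292) (nat_lit 289) (nat_lit 199)) (XT.lf (nat_lit 0) (nat_lit 107833191633) (nat_lit 304) (nat_lit 137320915252) (nat_lit 76) (nat_lit 69429533537) (nat_lit 25) (nat_lit 5) (nat_lit 29) (nat_lit 5) (nat_lit 26) (nat_lit 5) (nat_lit 293) (nat_lit 289) (nat_lit 198))) (XT.nd (nat_lit 78) (nat_lit 152) (nat_lit 0) (XT.lf (nat_lit 0) (nat_lit 22792371192) (nat_lit 304) (nat_lit 123211559149) (nat_lit 380)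 (nat_lit 194419988865) (nat_lit 21) (nat_lit 5) (nat_lit 25) (nat_lit 5) (nat_lit 26) (nat_lit 5) (nat_lit 294) (nat_lit 289) (nat_lit 197)) (XT.nd (nat_lit 78) (nat_lit 152) (nat_lit 0) (XT.lf (nat_lit 0) (nat_lit 198124974176) (nat_lit 380) (nat_lit 147754692142) (nat_lit 76) (nat_lit 23026869701) (nat_lit 21) (nat_lit 5) (nat_lit 26) (nat_lit 5) (nat_lit 22) (nat_lit 5) (nat_lit 295) (nat_lit 289) (nat_lit 196)) (XT.lf (nat_lit 0) (nat_lit 45815127653) (nat_lit 152) (nat_lit 220013265866) (nat_lit 228) (nat_lit 134668519304) (nat_lit 19) (nat_lit 5) (nat_lit 21) (nat_lit 5) (nat_lit 22) (nat_lit 5) (nat_lit 296) (nat_lit 289) (nat_lit 195))))) (XT.nd (nat_lit 156) (nat_lit 228) (nat_lit 0) (XT.nd (nat_lit 78) (nat_lit 76) (nat_lit 0) (XT.lf (nat_lit 0) (nat_lit 285025911908) (nat_lit 152) (nat_lit 66384858349) (nat_lit 228) (nat_lit 84256559486) (nat_lit 19) (nat_lit 5) (nat_lit 21)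 (nat_lit 5) (nat_lit 22) (nat_lit 5) (nat_lit 297) (nat_lit 289) (nat_lit 194)) (XT.lf (nat_lit 0) (nat_lit 87201373687) (nat_lit 76) (nat_lit 370806651207) (nat_lit 152) (nat_lit 16878656333) (nat_lit 18) (nat_lit 5) (nat_lit 19) (nat_lit 5) (nat_lit 20) (nat_lit 4) (nat_lit 298) (nat_lit 289) (nat_lit 193))) (XT.nd (nat_lit 78) (nat_lit 152) (nat_lit 0) (XT.lf (nat_lit 0) (nat_lit 66620885727) (nat_lit 152) (nat_lit 147202984083) (nat_lit 76) (nat_lit 304077054545) (nat_lit 17) (nat_lit 5) (nat_lit 19) (nat_lit 5) (nat_lit 18) (nat_lit 5) (nat_lit 299) (nat_lit 289) (nat_lit 192)) (XT.nd (nat_lit 78) (nat_lit 0) (nat_lit 0) (XT.lf (nat_lit 0) (nat_lit 141110467585) (nat_lit 152) (nat_lit 25649850768) (nat_lit 228) (nat_lit 399609972098) (nat_lit 15) (nat_lit 5) (nat_lit 17) (nat_lit 5) (nat_lit 18) (nat_lit 5) (nat_lit 300) (nat_lit 289) (nat_lit 191)) (XT.lf (nat_lit 0) (nat_lit 297880276044)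 (nat_lit 228) (nat_lit 140006395766) (nat_lit 76) (nat_lit 181829448259) (nat_lit 15) (nat_lit 5) (nat_lit 18) (nat_lit 5) (nat_lit 16) (nat_lit 4) (nat_lit 301) (nat_lit 289) (nat_lit 190))))))) (XT.nd (nat_lit 780) (nat_lit 304) (nat_lit 0) (XT.nd (nat_lit 390) (nat_lit 228) (nat_lit 0) (XT.nd (nat_lit 156) (nat_lit 228) (nat_lit 0) (XT.nd (nat_lit 78) (nat_lit 0) (nat_lit 0) (XT.lf (nat_lit 0) (nat_lit 205070306513) (nat_lit 76) (nat_lit 253310807657) (nat_lit 152) (nat_lit 221225777060) (nat_lit 14) (nat_lit 5) (nat_lit 15) (nat_lit 5) (nat_lit 16) (nat_lit 4) (nat_lit 302) (nat_lit 289) (nat_lit 189)) (XT.lf (nat_lit 0) (nat_lit 617643233932) (nat_lit 76) (nat_lit 32632305403) (nat_lit 152) (nat_lit 97107969631) (nat_lit 14) (nat_lit 5) (nat_lit 15) (nat_lit 5) (nat_lit 16) (nat_lit 4) (nat_lit 303) (nat_lit 289) (nat_lit 188))) (XT.nd (nat_lit 78) (nat_lit 76) (nat_lit 0) (XT.lf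 (nat_lit 0) (nat_lit 63426237463) (nat_lit 152) (nat_lit 542285112079) (nat_lit 76) (nat_lit 216052748485) (nat_lit 12) (nat_lit 5) (nat_lit 14) (nat_lit 5) (nat_lit 13) (nat_lit 4) (nat_lit 304) (nat_lit 289) (nat_lit 187)) (XT.nd (nat_lit 78) (nat_lit 76) (nat_lit 0) (XT.lf (nat_lit 0) (nat_lit 246757264966) (nat_lit 152) (nat_lit 148123459946) (nat_lit 76) (nat_lit 510428617883) (nat_lit 12) (nat_lit 5) (nat_lit 14) (nat_lit 5) (nat_lit 13) (nat_lit 4) (nat_lit 305) (nat_lit 289) (nat_lit 186)) (XT.lf (nat_lit 0) (nat_lit 334985051774) (nat_lit 76) (nat_lit 136473869603) (nat_lit 152) (nat_lit 527846806742) (nat_lit 11) (nat_lit 5) (nat_lit 12) (nat_lit 5) (nat_lit 13) (nat_lit 4) (nat_lit 306) (nat_lit 289) (nat_lit 185))))) (XT.nd (nat_lit 156) (nat_lit 152) (nat_lit 0) (XT.nd (nat_lit 78) (nat_lit 76) (nat_lit 0) (XT.lf (nat_lit 0) (nat_lit 744631304880) (nat_lit 152) (nat_lit 206056028683)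 (nat_lit 0) (nat_lit 154499415935) (nat_lit 11) (nat_lit 5) (nat_lit 13) (nat_lit 4) (nat_lit 11) (nat_lit 4) (nat_lit 307) (nat_lit 289) (nat_lit 184)) (XT.lf (nat_lit 0) (nat_lit 345179786516) (nat_lit 76) (nat_lit 734391638629) (nat_lit 76) (nat_lit 144259717095) (nat_lit 10) (nat_lit 4) (nat_lit 11) (nat_lit 5) (nat_lit 11) (nat_lit 4) (nat_lit 308) (nat_lit 289) (nat_lit 183))) (XT.nd (nat_lit 78) (nat_lit 76) (nat_lit 0) (XT.lf (nat_lit 0) (nat_lit 106462790262) (nat_lit 152) (nat_lit 361236950807) (nat_lit 76) (nat_lit 890230908610) (nat_lit 9) (nat_lit 5) (nat_lit 11) (nat_lit 5) (nat_lit 10) (nat_lit 4) (nat_lit 309) (nat_lit 289) (nat_lit 182)) (XT.nd (nat_lit 78) (nat_lit 0) (nat_lit 0) (XT.lf (nat_lit 0) (nat_lit 249096324509) (nat_lit 76) (nat_lit 141242419222) (nat_lit 152) (nat_lit 1119228735395) (nat_lit 8) (nat_lit 5) (nat_lit 9) (nat_lit 5) (nat_lit 10) (nat_lit 4) (nat_lit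 310) (nat_lit 289) (nat_lit 181)) (XT.lf (nat_lit 0) (nat_lit 746275123343) (nat_lit 152) (nat_lit 700135988702) (nat_lit 0) (nat_lit 233116866002) (nat_lit 8) (nat_lit 5) (nat_lit 10) (nat_lit 4) (nat_lit 8) (nat_lit 4) (nat_lit 311) (nat_lit 289) (nat_lit 180)))))) (XT.nd (nat_lit 390) (nat_lit 76) (nat_lit 0) (XT.nd (nat_lit 156) (nat_lit 152) (nat_lit 0) (XT.nd (nat_lit 78) (nat_lit 76) (nat_lit 0) (XT.lf (nat_lit 0) (nat_lit 1162327763512) (nat_lit 152) (nat_lit 62476427803) (nat_lit 0) (nat_lit 649169489970) (nat_lit 8) (nat_lit 5) (nat_lit 10) (nat_lit 4) (nat_lit 8) (nat_lit 4) (nat_lit 312) (nat_lit 289) (nat_lit 179)) (XT.lf (nat_lit 0) (nat_lit 736390607494) (nat_lit 76) (nat_lit 934890034418) (nat_lit 76) (nat_lit 421731746786) (nat_lit 7) (nat_lit 4) (nat_lit 8) (nat_lit 5) (nat_lit 8) (nat_lit 4) (nat_lit 313) (nat_lit 289) (nat_lit 178))) (XT.nd (nat_lit 78) (nat_lit 152)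 (nat_lit 0) (XT.lf (nat_lit 0) (nat_lit 1662109154773) (nat_lit 76) (nat_lit 597733089276) (nat_lit 76) (nat_lit 84574789393) (nat_lit 7) (nat_lit 4) (nat_lit 8) (nat_lit 5) (nat_lit 8) (nat_lit 4) (nat_lit 314) (nat_lit 289) (nat_lit 177)) (XT.nd (nat_lit 78) (nat_lit 0) (nat_lit 0) (XT.lf (nat_lit 0) (nat_lit 88476861444) (nat_lit 76) (nat_lit 191353451104) (nat_lit 152) (nat_lit 2351269564819) (nat_lit 5) (nat_lit 5) (nat_lit 6) (nat_lit 5) (nat_lit 7) (nat_lit 4) (nat_lit 315) (nat_lit 289) (nat_lit 176)) (XT.lf (nat_lit 0) (nat_lit 739029665215) (nat_lit 152) (nat_lit 1921027487799) (nat_lit 0) (nat_lit 292805039302) (nat_lit 5) (nat_lit 5) (nat_lit 7) (nat_lit 4) (nat_lit 5) (nat_lit 4) (nat_lit 316) (nat_lit 289) (nat_lit 175))))) (XT.nd (nat_lit 156) (nat_lit 76) (nat_lit 0) (XT.nd (nat_lit 78) (nat_lit 0) (nat_lit 0) (XT.lf (nat_lit 0) (nat_lit 1276220973234) (nat_lit 152) (nat_lit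 1215304733100) (nat_lit 0) (nat_lit 829996340316) (nat_lit 5) (nat_lit 5) (nat_lit 7) (nat_lit 4) (nat_lit 5) (nat_lit 4) (nat_lit 317) (nat_lit 289) (nat_lit 174)) (XT.lf (nat_lit 0) (nat_lit 1893990962979) (nat_lit 152) (nat_lit 403723594365) (nat_lit 0) (nat_lit 1447766323970) (nat_lit 5) (nat_lit 5) (nat_lit 7) (nat_lit 4) (nat_lit 5) (nat_lit 4) (nat_lit 318) (nat_lit 289) (nat_lit 173))) (XT.nd (nat_lit 78) (nat_lit 0) (nat_lit 0) (XT.lf (nat_lit 0) (nat_lit 581350534503) (nat_lit 76) (nat_lit 2047148389994) (nat_lit 76) (nat_lit 1600923745688) (nat_lit 4) (nat_lit 4) (nat_lit 5) (nat_lit 5) (nat_lit 5) (nat_lit 4) (nat_lit 319) (nat_lit 289) (nat_lit 172)) (XT.nd (nat_lit 78) (nat_lit 0) (nat_lit 0) (XT.lf (nat_lit 0) (nat_lit 1759558785176) (nat_lit 76) (nat_lit 1734728016461) (nat_lit 76) (nat_lit 1288503367550) (nat_lit 4) (nat_lit 4) (nat_lit 5) (nat_lit 5) (nat_lit 5) (nat_lit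 4) (nat_lit 320) (nat_lit 289) (nat_lit 171)) (XT.lf (nat_lit 0) (nat_lit 3114498252397) (nat_lit 76) (nat_lit 1375444597561) (nat_lit 76) (nat_lit 929219944644) (nat_lit 4) (nat_lit 4) (nat_lit 5) (nat_lit 5) (nat_lit 5) (nat_lit 4) (nat_lit 321) (nat_lit 289) (nat_lit 170))))))))
noncomputable def xc99 : XT := (XT.nd (nat_lit 38142) (nat_lit 0) (nat_lit 608) (XT.nd (nat_lit 780) (nat_lit 76) (nat_lit 0) (XT.nd (nat_lit 390) (nat_lit 0) (nat_lit 0) (XT.nd (nat_lit 156) (nat_lit 152) (nat_lit 0) (XT.nd (nat_lit 78) (nat_lit 0) (nat_lit 0) (XT.lf (nat_lit 0) (nat_lit 4672678621395) (nat_lit 76) (nat_lit 962268675097) (nat_lit 76) (nat_lit 516044018698) (nat_lit 4) (nat_lit 4) (nat_lit 5) (nat_lit 5) (nat_lit 5) (nat_lit 4) (nat_lit 322) (nat_lit 289) (nat_lit 169)) (XT.lf (nat_lit 0) (nat_lit 6464586029823) (nat_lit 76) (nat_lit 487116372326) (nat_lit 76) (nat_lit 40891712899) (nat_lit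 4) (nat_lit 4) (nat_lit 5) (nat_lit 5) (nat_lit 5) (nat_lit 4) (nat_lit 323) (nat_lit 289) (nat_lit 168))) (XT.nd (nat_lit 78) (nat_lit 0) (nat_lit 0) (XT.lf (nat_lit 0) (nat_lit 489880446318) (nat_lit 152) (nat_lit 7361154964761) (nat_lit 0) (nat_lit 101859001047) (nat_lit 2) (nat_lit 5) (nat_lit 4) (nat_lit 4) (nat_lit 2) (nat_lit 4) (nat_lit 324) (nat_lit 289) (nat_lit 167)) (XT.nd (nat_lit 78) (nat_lit 0) (nat_lit 0) (XT.lf (nat_lit 0) (nat_lit 1148192636019) (nat_lit 152) (nat_lit 7140767234464) (nat_lit 0) (nat_lit 760171188757) (nat_lit 2) (nat_lit 5) (nat_lit 4) (nat_lit 4) (nat_lit 2) (nat_lit 4) (nat_lit 325) (nat_lit 289) (nat_lit 166)) (XT.lf (nat_lit 0) (nat_lit 1905251648005) (nat_lit 152) (nat_lit 6887321357331) (nat_lit 0) (nat_lit 1517230199012) (nat_lit 2) (nat_lit 5) (nat_lit 4) (nat_lit 4) (nat_lit 2) (nat_lit 4) (nat_lit 326) (nat_lit 289) (nat_lit 165))))) (XT.nd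 (nat_lit 156) (nat_lit 0) (nat_lit 0) (XT.nd (nat_lit 78) (nat_lit 0) (nat_lit 0) (XT.lf (nat_lit 0) (nat_lit 2775869506425) (nat_lit 152) (nat_lit 6595858609677) (nat_lit 0) (nat_lit 2387848055927) (nat_lit 2) (nat_lit 5) (nat_lit 4) (nat_lit 4) (nat_lit 2) (nat_lit 4) (nat_lit 327) (nat_lit 289) (nat_lit 164)) (XT.lf (nat_lit 0) (nat_lit 3777080038944) (nat_lit 152) (nat_lit 6260676459485) (nat_lit 0) (nat_lit 3389058587136) (nat_lit 2) (nat_lit 5) (nat_lit 4) (nat_lit 4) (nat_lit 2) (nat_lit 4) (nat_lit 328) (nat_lit 289) (nat_lit 163))) (XT.nd (nat_lit 78) (nat_lit 0) (nat_lit 0) (XT.lf (nat_lit 0) (nat_lit 4928472147284) (nat_lit 152) (nat_lit 5875216995119) (nat_lit 0) (nat_lit 4540450694337) (nat_lit 2) (nat_lit 5) (nat_lit 4) (nat_lit 4) (nat_lit 2) (nat_lit 4) (nat_lit 329) (nat_lit 289) (nat_lit 162)) (XT.nd (nat_lit 78) (nat_lit 0) (nat_lit 0) (XT.lf (nat_lit 0) (nat_lit 6252573068347)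 (nat_lit 152) (nat_lit 5431938618364) (nat_lit 0) (nat_lit 5864551614411) (nat_lit 2) (nat_lit 5) (nat_lit 4) (nat_lit 4) (nat_lit 2) (nat_lit 4) (nat_lit 330) (nat_lit 289) (nat_lit 161)) (XT.lf (nat_lit 0) (nat_lit 7775289124503) (nat_lit 152) (nat_lit 4922168491414) (nat_lit 0) (nat_lit 7387267669705) (nat_lit 2) (nat_lit 5) (nat_lit 4) (nat_lit 4) (nat_lit 2) (nat_lit 4) (nat_lit 331) (nat_lit 289) (nat_lit 160)))))) (XT.nd (nat_lit 390) (nat_lit 76) (nat_lit 0) (XT.nd (nat_lit 156) (nat_lit 0) (nat_lit 0) (XT.nd (nat_lit 78) (nat_lit 0) (nat_lit 0) (XT.lf (nat_lit 0) (nat_lit 9526412586415) (nat_lit 152) (nat_lit 4335932850915) (nat_lit 0) (nat_lit 9138391130869) (nat_lit 2) (nat_lit 5) (nat_lit 4) (nat_lit 4) (nat_lit 2) (nat_lit 4) (nat_lit 332) (nat_lit 289) (nat_lit 159)) (XT.lf (nat_lit 0) (nat_lit 11540204565294) (nat_lit 152) (nat_lit 3661761869118) (nat_lit 0) (nat_lit 11152183109097)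 (nat_lit 2) (nat_lit 5) (nat_lit 4) (nat_lit 4) (nat_lit 2) (nat_lit 4) (nat_lit 333) (nat_lit 289) (nat_lit 158))) (XT.nd (nat_lit 78) (nat_lit 0) (nat_lit 0) (XT.lf (nat_lit 0) (nat_lit 13856065338989) (nat_lit 152) (nat_lit 2886465244207) (nat_lit 0) (nat_lit 13468043882226) (nat_lit 2) (nat_lit 5) (nat_lit 4) (nat_lit 4) (nat_lit 2) (nat_lit 4) (nat_lit 334) (nat_lit 289) (nat_lit 157)) (XT.nd (nat_lit 78) (nat_lit 0) (nat_lit 0) (XT.lf (nat_lit 0) (nat_lit 16519305226984) (nat_lit 152) (nat_lit 1994874129171) (nat_lit 0) (nat_lit 16131283769729) (nat_lit 2) (nat_lit 5) (nat_lit 4) (nat_lit 4) (nat_lit 2) (nat_lit 4) (nat_lit 335) (nat_lit 289) (nat_lit 156)) (XT.lf (nat_lit 0) (nat_lit 19582031096653) (nat_lit 152) (nat_lit 969544350020) (nat_lit 0) (nat_lit 19194009638970) (nat_lit 2) (nat_lit 5) (nat_lit 4) (nat_lit 4) (nat_lit 2) (nat_lit 4) (nat_lit 336) (nat_lit 289) (nat_lit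 155))))) (XT.nd (nat_lit 156) (nat_lit 0) (nat_lit 0) (XT.nd (nat_lit 78) (nat_lit 0) (nat_lit 0) (XT.lf (nat_lit 0) (nat_lit 230067053294) (nat_lit 76) (nat_lit 22883625378210) (nat_lit 76) (nat_lit 22495603920155) (nat_lit 1) (nat_lit 4) (nat_lit 2) (nat_lit 5) (nat_lit 2) (nat_lit 4) (nat_lit 337) (nat_lit 289) (nat_lit 154)) (XT.lf (nat_lit 0) (nat_lit 1718583728383) (nat_lit 76) (nat_lit 25507199964327) (nat_lit 76) (nat_lit 25119178505949) (nat_lit 1) (nat_lit 4) (nat_lit 2) (nat_lit 5) (nat_lit 2) (nat_lit 4) (nat_lit 338) (nat_lit 289) (nat_lit 153))) (XT.nd (nat_lit 78) (nat_lit 0) (nat_lit 0) (XT.lf (nat_lit 0) (nat_lit 3430377902468) (nat_lit 76) (nat_lit 28524310739533) (nat_lit 76) (nat_lit 28136289280873) (nat_lit 1) (nat_lit 4) (nat_lit 2) (nat_lit 5) (nat_lit 2) (nat_lit 4) (nat_lit 339) (nat_lit 289) (nat_lit 152)) (XT.nd (nat_lit 78) (nat_lit 0) (nat_lit 0) (XT.lf (nat_lit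 0) (nat_lit 5398941200694) (nat_lit 76) (nat_lit 31993988132037) (nat_lit 76) (nat_lit 31605966673132) (nat_lit 1) (nat_lit 4) (nat_lit 2) (nat_lit 5) (nat_lit 2) (nat_lit 4) (nat_lit 340) (nat_lit 289) (nat_lit 151)) (XT.lf (nat_lit 0) (nat_lit 7662788991939) (nat_lit 76) (nat_lit 35984117134302) (nat_lit 76) (nat_lit 35596095675184) (nat_lit 1) (nat_lit 4) (nat_lit 2) (nat_lit 5) (nat_lit 2) (nat_lit 4) (nat_lit 341) (nat_lit 289) (nat_lit 150))))))) (XT.nd (nat_lit 780) (nat_lit 684) (nat_lit 0) (XT.nd (nat_lit 390) (nat_lit 380) (nat_lit 0) (XT.nd (nat_lit 156) (nat_lit 0) (nat_lit 76) (XT.nd (nat_lit 78) (nat_lit 0) (nat_lit 0) (XT.lf (nat_lit 0) (nat_lit 24679144857) (nat_lit 380) (nat_lit 54993113706) (nat_lit 380) (nat_lit 54993113706) (nat_lit 23) (nat_lit 3) (nat_lit 28) (nat_lit 3) (nat_lit 28) (nat_lit 5) (nat_lit 290) (nat_lit 290) (nat_lit 200)) (XT.lf (nat_lit 76) (nat_lit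 18834098875) (nat_lit 0) (nat_lit 35006764112) (nat_lit 380) (nat_lit 235572579514) (nat_lit 24) (nat_lit 5) (nat_lit 23) (nat_lit 3) (nat_lit 28) (nat_lit 5) (nat_lit 291) (nat_lit 290) (nat_lit 199))) (XT.nd (nat_lit 78) (nat_lit 0) (nat_lit 0) (XT.lf (nat_lit 0) (nat_lit 69490019740) (nat_lit 304) (nat_lit 137052910043) (nat_lit 380) (nat_lit 104391486222) (nat_lit 24) (nat_lit 5) (nat_lit 28) (nat_lit 5) (nat_lit 29) (nat_lit 5) (nat_lit 292) (nat_lit 290) (nat_lit 198)) (XT.nd (nat_lit 78) (nat_lit 0) (nat_lit 76) (XT.lf (nat_lit 76) (nat_lit 16285220131) (nat_lit 0) (nat_lit 73542526397) (nat_lit 380) (nat_lit 245504609939) (nat_lit 25) (nat_lit 5) (nat_lit 24) (nat_lit 5) (nat_lit 29) (nat_lit 5) (nat_lit 293) (nat_lit 290) (nat_lit 197)) (XT.lf (nat_lit 0) (nat_lit 124009409057) (nat_lit 304) (nat_lit 157917799332) (nat_lit 76) (nat_lit 79843788456) (nat_lit 25) (nat_lit 5) (nat_lit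 29) (nat_lit 5) (nat_lit 26) (nat_lit 5) (nat_lit 294) (nat_lit 290) (nat_lit 196))))) (XT.nd (nat_lit 156) (nat_lit 228) (nat_lit 0) (XT.nd (nat_lit 78) (nat_lit 0) (nat_lit 0) (XT.lf (nat_lit 0) (nat_lit 26212423114) (nat_lit 304) (nat_lit 141693223425) (nat_lit 380) (nat_lit 223581688216) (nat_lit 21) (nat_lit 5) (nat_lit 25) (nat_lit 5) (nat_lit 26) (nat_lit 5) (nat_lit 295) (nat_lit 290) (nat_lit 195)) (XT.lf (nat_lit 0) (nat_lit 227844702500) (nat_lit 380) (nat_lit 169916708403) (nat_lit 76) (nat_lit 26480955288) (nat_lit 21) (nat_lit 5) (nat_lit 26) (nat_lit 5) (nat_lit 22) (nat_lit 5) (nat_lit 296) (nat_lit 290) (nat_lit 194))) (XT.nd (nat_lit 78) (nat_lit 76) (nat_lit 0) (XT.lf (nat_lit 0) (nat_lit 52688530381) (nat_lit 152) (nat_lit 253015023190) (nat_lit 228) (nat_lit 154867758499) (nat_lit 19) (nat_lit 5) (nat_lit 21) (nat_lit 5) (nat_lit 22) (nat_lit 5) (nat_lit 297) (nat_lit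 290) (nat_lit 193)) (XT.nd (nat_lit 78) (nat_lit 76) (nat_lit 0) (XT.lf (nat_lit 0) (nat_lit 327780784417) (nat_lit 152) (nat_lit 76342384879) (nat_lit 228) (nat_lit 96894140190) (nat_lit 19) (nat_lit 5) (nat_lit 21) (nat_lit 5) (nat_lit 22) (nat_lit 5) (nat_lit 298) (nat_lit 290) (nat_lit 192)) (XT.lf (nat_lit 0) (nat_lit 100282626941) (nat_lit 76) (nat_lit 426427333635) (nat_lit 152) (nat_lit 19409611136) (nat_lit 18) (nat_lit 5) (nat_lit 19) (nat_lit 5) (nat_lit 20) (nat_lit 4) (nat_lit 299) (nat_lit 290) (nat_lit 191)))))) (XT.nd (nat_lit 390) (nat_lit 380) (nat_lit 0) (XT.nd (nat_lit 156) (nat_lit 76) (nat_lit 0) (XT.nd (nat_lit 78) (nat_lit 152) (nat_lit 0) (XT.lf (nat_lit 0) (nat_lit 76614686882) (nat_lit 152) (nat_lit 169282454334) (nat_lit 76) (nat_lit 349688820107) (nat_lit 17) (nat_lit 5) (nat_lit 19) (nat_lit 5) (nat_lit 18) (nat_lit 5) (nat_lit 300) (nat_lit 290) (nat_lit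 190)) (XT.lf (nat_lit 0) (nat_lit 162277970660) (nat_lit 152) (nat_lit 29497015204) (nat_lit 228) (nat_lit 459550753937) (nat_lit 15) (nat_lit 5) (nat_lit 17) (nat_lit 5) (nat_lit 18) (nat_lit 5) (nat_lit 301) (nat_lit 290) (nat_lit 189))) (XT.nd (nat_lit 78) (nat_lit 76) (nat_lit 0) (XT.lf (nat_lit 0) (nat_lit 342562867647) (nat_lit 228) (nat_lit 161006473230) (nat_lit 76) (nat_lit 209104113582) (nat_lit 15) (nat_lit 5) (nat_lit 18) (nat_lit 5) (nat_lit 16) (nat_lit 4) (nat_lit 302) (nat_lit 290) (nat_lit 188)) (XT.nd (nat_lit 78) (nat_lit 0) (nat_lit 0) (XT.lf (nat_lit 0) (nat_lit 235831694304) (nat_lit 76) (nat_lit 291307100280) (nat_lit 152) (nat_lit 254409052388) (nat_lit 14) (nat_lit 5) (nat_lit 15) (nat_lit 5) (nat_lit 16) (nat_lit 4) (nat_lit 303) (nat_lit 290) (nat_lit 187)) (XT.lf (nat_lit 0) (nat_lit 710290451034) (nat_lit 76) (nat_lit 37526865539) (nat_lit 152) (nat_lit 111673650962)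 (nat_lit 14) (nat_lit 5) (nat_lit 15) (nat_lit 5) (nat_lit 16) (nat_lit 4) (nat_lit 304) (nat_lit 290) (nat_lit 186))))) (XT.nd (nat_lit 234) (nat_lit 152) (nat_lit 0) (XT.nd (nat_lit 78) (nat_lit 76) (nat_lit 0) (XT.lf (nat_lit 0) (nat_lit 72940623742) (nat_lit 152) (nat_lit 623627082083) (nat_lit 76) (nat_lit 248460938684) (nat_lit 12) (nat_lit 5) (nat_lit 14) (nat_lit 5) (nat_lit 13) (nat_lit 4) (nat_lit 305) (nat_lit 290) (nat_lit 185)) (XT.nd (nat_lit 78) (nat_lit 76) (nat_lit 0) (XT.lf (nat_lit 0) (nat_lit 283771246589) (nat_lit 152) (nat_lit 170341286061) (nat_lit 76) (nat_lit 586993152241) (nat_lit 12) (nat_lit 5) (nat_lit 14) (nat_lit 5) (nat_lit 13) (nat_lit 4) (nat_lit 306) (nat_lit 290) (nat_lit 184)) (XT.lf (nat_lit 0) (nat_lit 385233470923) (nat_lit 76) (nat_lit 156944656811) (nat_lit 152) (nat_lit 607023403910) (nat_lit 11) (nat_lit 5) (nat_lit 12) (nat_lit 5) (nat_lit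 13) (nat_lit 4) (nat_lit 307) (nat_lit 290) (nat_lit 183)))) (XT.nd (nat_lit 78) (nat_lit 152) (nat_lit 0) (XT.lf (nat_lit 0) (nat_lit 856326331300) (nat_lit 152) (nat_lit 236963819999) (nat_lit 0) (nat_lit 177674560609) (nat_lit 11) (nat_lit 5) (nat_lit 13) (nat_lit 4) (nat_lit 11) (nat_lit 4) (nat_lit 308) (nat_lit 290) (nat_lit 182)) (XT.nd (nat_lit 78) (nat_lit 76) (nat_lit 0) (XT.lf (nat_lit 0) (nat_lit 396957339617) (nat_lit 76) (nat_lit 844550111084) (nat_lit 76) (nat_lit 165898315751) (nat_lit 10) (nat_lit 4) (nat_lit 11) (nat_lit 5) (nat_lit 11) (nat_lit 4) (nat_lit 309) (nat_lit 290) (nat_lit 181)) (XT.lf (nat_lit 0) (nat_lit 122432493111) (nat_lit 152) (nat_lit 415421956571) (nat_lit 76) (nat_lit 1023765754534) (nat_lit 9) (nat_lit 5) (nat_lit 11) (nat_lit 5) (nat_lit 10) (nat_lit 4) (nat_lit 310) (nat_lit 290) (nat_lit 180))))))))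
noncomputable def xc100 : XT := (XT.nd (nat_lit 1560) (nat_lit 76) (nat_lit 0) (XT.nd (nat_lit 780) (nat_lit 152) (nat_lit 0) (XT.nd (nat_lit 390) (nat_lit 228) (nat_lit 0) (XT.nd (nat_lit 156) (nat_lit 76) (nat_lit 0) (XT.nd (nat_lit 78) (nat_lit 0) (nat_lit 0) (XT.lf (nat_lit 0) (nat_lit 286461285640) (nat_lit 76) (nat_lit 162428538095) (nat_lit 152) (nat_lit 1287112736758) (nat_lit 8) (nat_lit 5) (nat_lit 9) (nat_lit 5) (nat_lit 10) (nat_lit 4) (nat_lit 311) (nat_lit 290) (nat_lit 179)) (XT.lf (nat_lit 0) (nat_lit 858216634060) (nat_lit 152) (nat_lit 805155914963) (nat_lit 0) (nat_lit 268084589195) (nat_lit 8) (nat_lit 5) (nat_lit 10) (nat_lit 4) (nat_lit 8) (nat_lit 4) (nat_lit 312) (nat_lit 290) (nat_lit 178))) (XT.nd (nat_lit 78) (nat_lit 76) (nat_lit 0) (XT.lf (nat_lit 0) (nat_lit 1336677138662) (nat_lit 152) (nat_lit 71847481500) (nat_lit 0) (nat_lit 746545081545) (nat_lit 8)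 (nat_lit 5) (nat_lit 10) (nat_lit 4) (nat_lit 8) (nat_lit 4) (nat_lit 313) (nat_lit 290) (nat_lit 177)) (XT.nd (nat_lit 78) (nat_lit 0) (nat_lit 0) (XT.lf (nat_lit 0) (nat_lit 846849590434) (nat_lit 76) (nat_lit 1075123347139) (nat_lit 76) (nat_lit 484991279369) (nat_lit 7) (nat_lit 4) (nat_lit 8) (nat_lit 5) (nat_lit 8) (nat_lit 4) (nat_lit 314) (nat_lit 290) (nat_lit 176)) (XT.lf (nat_lit 0) (nat_lit 1911425868699) (nat_lit 76) (nat_lit 687392885327) (nat_lit 76) (nat_lit 97260808293) (nat_lit 7) (nat_lit 4) (nat_lit 8) (nat_lit 5) (nat_lit 8) (nat_lit 4) (nat_lit 315) (nat_lit 290) (nat_lit 175))))) (XT.nd (nat_lit 156) (nat_lit 76) (nat_lit 0) (XT.nd (nat_lit 78) (nat_lit 0) (nat_lit 0) (XT.lf (nat_lit 0) (nat_lit 101748732949) (nat_lit 76) (nat_lit 220056298696) (nat_lit 152) (nat_lit 2703959801394) (nat_lit 5) (nat_lit 5) (nat_lit 6) (nat_lit 5) (nat_lit 7) (nat_lit 4) (nat_lit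 316) (nat_lit 290) (nat_lit 174)) (XT.lf (nat_lit 0) (nat_lit 849884270873) (nat_lit 152) (nat_lit 2209181296900) (nat_lit 0) (nat_lit 336725929921) (nat_lit 5) (nat_lit 5) (nat_lit 7) (nat_lit 4) (nat_lit 5) (nat_lit 4) (nat_lit 317) (nat_lit 290) (nat_lit 173))) (XT.nd (nat_lit 78) (nat_lit 76) (nat_lit 0) (XT.lf (nat_lit 0) (nat_lit 1467654254763) (nat_lit 152) (nat_lit 1397600169962) (nat_lit 0) (nat_lit 954495908515) (nat_lit 5) (nat_lit 5) (nat_lit 7) (nat_lit 4) (nat_lit 5) (nat_lit 4) (nat_lit 318) (nat_lit 290) (nat_lit 172)) (XT.nd (nat_lit 78) (nat_lit 76) (nat_lit 0) (XT.lf (nat_lit 0) (nat_lit 2178089725290) (nat_lit 152) (nat_lit 464281896038) (nat_lit 0) (nat_lit 1664931374436) (nat_lit 5) (nat_lit 5) (nat_lit 7) (nat_lit 4) (nat_lit 5) (nat_lit 4) (nat_lit 319) (nat_lit 290) (nat_lit 171)) (XT.lf (nat_lit 0) (nat_lit 668553341366) (nat_lit 76) (nat_lit 2354220533684) (nat_lit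 76) (nat_lit 1841062178825) (nat_lit 4) (nat_lit 4) (nat_lit 5) (nat_lit 5) (nat_lit 5) (nat_lit 4) (nat_lit 320) (nat_lit 290) (nat_lit 170)))))) (XT.nd (nat_lit 390) (nat_lit 0) (nat_lit 0) (XT.nd (nat_lit 156) (nat_lit 152) (nat_lit 0) (XT.nd (nat_lit 78) (nat_lit 0) (nat_lit 0) (XT.lf (nat_lit 0) (nat_lit 2023492800072) (nat_lit 76) (nat_lit 1994937119096) (nat_lit 76) (nat_lit 1481778760754) (nat_lit 4) (nat_lit 4) (nat_lit 5) (nat_lit 5) (nat_lit 5) (nat_lit 4) (nat_lit 321) (nat_lit 290) (nat_lit 169)) (XT.lf (nat_lit 0) (nat_lit 3581673161665) (nat_lit 76) (nat_lit 1581761200382) (nat_lit 76) (nat_lit 1068602839012) (nat_lit 4) (nat_lit 4) (nat_lit 5) (nat_lit 5) (nat_lit 5) (nat_lit 4) (nat_lit 322) (nat_lit 290) (nat_lit 168))) (XT.nd (nat_lit 78) (nat_lit 152) (nat_lit 0) (XT.lf (nat_lit 0) (nat_lit 5373580563654) (nat_lit 76) (nat_lit 1106608900872) (nat_lit 76) (nat_lit 593450536869)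 (nat_lit 4) (nat_lit 4) (nat_lit 5) (nat_lit 5) (nat_lit 5) (nat_lit 4) (nat_lit 323) (nat_lit 290) (nat_lit 167)) (XT.nd (nat_lit 78) (nat_lit 152) (nat_lit 0) (XT.lf (nat_lit 0) (nat_lit 7434274063905) (nat_lit 76) (nat_lit 560183762532) (nat_lit 76) (nat_lit 47025396239) (nat_lit 4) (nat_lit 4) (nat_lit 5) (nat_lit 5) (nat_lit 5) (nat_lit 4) (nat_lit 324) (nat_lit 290) (nat_lit 166)) (XT.lf (nat_lit 0) (nat_lit 563362579692) (nat_lit 152) (nat_lit 8465328072645) (nat_lit 0) (nat_lit 117137911619) (nat_lit 2) (nat_lit 5) (nat_lit 4) (nat_lit 4) (nat_lit 2) (nat_lit 4) (nat_lit 325) (nat_lit 290) (nat_lit 165))))) (XT.nd (nat_lit 156) (nat_lit 0) (nat_lit 0) (XT.nd (nat_lit 78) (nat_lit 0) (nat_lit 0) (XT.lf (nat_lit 0) (nat_lit 1320421589184) (nat_lit 152) (nat_lit 8211882200651) (nat_lit 0) (nat_lit 874196919605) (nat_lit 2) (nat_lit 5) (nat_lit 4) (nat_lit 4) (nat_lit 2) (nat_lit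 4) (nat_lit 326) (nat_lit 290) (nat_lit 164)) (XT.lf (nat_lit 0) (nat_lit 2191039445434) (nat_lit 152) (nat_lit 7920419457467) (nat_lit 0) (nat_lit 1744814774546) (nat_lit 2) (nat_lit 5) (nat_lit 4) (nat_lit 4) (nat_lit 2) (nat_lit 4) (nat_lit 327) (nat_lit 290) (nat_lit 163))) (XT.nd (nat_lit 78) (nat_lit 0) (nat_lit 0) (XT.lf (nat_lit 0) (nat_lit 3192249976066) (nat_lit 152) (nat_lit 7585237311161) (nat_lit 0) (nat_lit 2746025304039) (nat_lit 2) (nat_lit 5) (nat_lit 4) (nat_lit 4) (nat_lit 2) (nat_lit 4) (nat_lit 328) (nat_lit 290) (nat_lit 162)) (XT.nd (nat_lit 78) (nat_lit 0) (nat_lit 0) (XT.lf (nat_lit 0) (nat_lit 4343642082765) (nat_lit 152) (nat_lit 7199777850175) (nat_lit 0) (nat_lit 3897417409748) (nat_lit 2) (nat_lit 5) (nat_lit 4) (nat_lit 4) (nat_lit 2) (nat_lit 4) (nat_lit 329) (nat_lit 290) (nat_lit 161)) (XT.lf (nat_lit 0) (nat_lit 5667743002402) (nat_lit 152) (nat_lit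 6756499476358) (nat_lit 0) (nat_lit 5221518328524) (nat_lit 2) (nat_lit 5) (nat_lit 4) (nat_lit 4) (nat_lit 2) (nat_lit 4) (nat_lit 330) (nat_lit 290) (nat_lit 160))))))) (XT.nd (nat_lit 780) (nat_lit 0) (nat_lit 0) (XT.nd (nat_lit 390) (nat_lit 76) (nat_lit 0) (XT.nd (nat_lit 156) (nat_lit 0) (nat_lit 0) (XT.nd (nat_lit 78) (nat_lit 0) (nat_lit 0) (XT.lf (nat_lit 0) (nat_lit 7190459057317) (nat_lit 152) (nat_lit 6246729351963) (nat_lit 0) (nat_lit 6744234382691) (nat_lit 2) (nat_lit 5) (nat_lit 4) (nat_lit 4) (nat_lit 2) (nat_lit 4) (nat_lit 331) (nat_lit 290) (nat_lit 159)) (XT.lf (nat_lit 0) (nat_lit 8941582518150) (nat_lit 152) (nat_lit 5660493713686) (nat_lit 0) (nat_lit 8495357842873) (nat_lit 2) (nat_lit 5) (nat_lit 4) (nat_lit 4) (nat_lit 2) (nat_lit 4) (nat_lit 332) (nat_lit 290) (nat_lit 158))) (XT.nd (nat_lit 78) (nat_lit 0) (nat_lit 0) (XT.lf (nat_lit 0) (nat_lit 10955374496092)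 (nat_lit 152) (nat_lit 4986322733822) (nat_lit 0) (nat_lit 10509149820249) (nat_lit 2) (nat_lit 5) (nat_lit 4) (nat_lit 4) (nat_lit 2) (nat_lit 4) (nat_lit 333) (nat_lit 290) (nat_lit 157)) (XT.nd (nat_lit 78) (nat_lit 0) (nat_lit 0) (XT.lf (nat_lit 0) (nat_lit 13271235268971) (nat_lit 152) (nat_lit 4211026110591) (nat_lit 0) (nat_lit 12825010592635) (nat_lit 2) (nat_lit 5) (nat_lit 4) (nat_lit 4) (nat_lit 2) (nat_lit 4) (nat_lit 334) (nat_lit 290) (nat_lit 156)) (XT.lf (nat_lit 0) (nat_lit 15934475156257) (nat_lit 152) (nat_lit 3319434997016) (nat_lit 0) (nat_lit 15488250479493) (nat_lit 2) (nat_lit 5) (nat_lit 4) (nat_lit 4) (nat_lit 2) (nat_lit 4) (nat_lit 335) (nat_lit 290) (nat_lit 155))))) (XT.nd (nat_lit 156) (nat_lit 76) (nat_lit 0) (XT.nd (nat_lit 78) (nat_lit 0) (nat_lit 0) (XT.lf (nat_lit 0) (nat_lit 18997201025309) (nat_lit 152) (nat_lit 2294105219136) (nat_lit 0) (nat_lit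 18550976348174) (nat_lit 2) (nat_lit 5) (nat_lit 4) (nat_lit 4) (nat_lit 2) (nat_lit 4) (nat_lit 336) (nat_lit 290) (nat_lit 154)) (XT.lf (nat_lit 0) (nat_lit 22519335773567) (nat_lit 152) (nat_lit 1114975976949) (nat_lit 0) (nat_lit 22073111096108) (nat_lit 2) (nat_lit 5) (nat_lit 4) (nat_lit 4) (nat_lit 2) (nat_lit 4) (nat_lit 337) (nat_lit 290) (nat_lit 153))) (XT.nd (nat_lit 78) (nat_lit 0) (nat_lit 0) (XT.lf (nat_lit 0) (nat_lit 264577135700) (nat_lit 76) (nat_lit 26316169172337) (nat_lit 76) (nat_lit 25869944494596) (nat_lit 1) (nat_lit 4) (nat_lit 2) (nat_lit 5) (nat_lit 2) (nat_lit 4) (nat_lit 338) (nat_lit 290) (nat_lit 152)) (XT.nd (nat_lit 78) (nat_lit 0) (nat_lit 0) (XT.lf (nat_lit 0) (nat_lit 1976371308868) (nat_lit 76) (nat_lit 29333279948016) (nat_lit 76) (nat_lit 28887055270031) (nat_lit 1) (nat_lit 4) (nat_lit 2) (nat_lit 5) (nat_lit 2) (nat_lit 4) (nat_lit 339) (nat_lit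 290) (nat_lit 151)) (XT.lf (nat_lit 0) (nat_lit 3944934606297) (nat_lit 76) (nat_lit 32802957340932) (nat_lit 76) (nat_lit 32356732662734) (nat_lit 1) (nat_lit 4) (nat_lit 2) (nat_lit 5) (nat_lit 2) (nat_lit 4) (nat_lit 340) (nat_lit 290) (nat_lit 150)))))) (XT.nd (nat_lit 37050) (nat_lit 0) (nat_lit 1368) (XT.nd (nat_lit 36816) (nat_lit 0) (nat_lit 1672) (XT.nd (nat_lit 36738) (nat_lit 0) (nat_lit 1672) (XT.lf (nat_lit 0) (nat_lit 6208782396849) (nat_lit 76) (nat_lit 36793086343555) (nat_lit 76) (nat_lit 36346861665172) (nat_lit 1) (nat_lit 4) (nat_lit 2) (nat_lit 5) (nat_lit 2) (nat_lit 4) (nat_lit 341) (nat_lit 290) (nat_lit 149)) (XT.lf (nat_lit 0) (nat_lit 28381804236) (nat_lit 380) (nat_lit 63241626594) (nat_lit 380) (nat_lit 63241626594) (nat_lit 23) (nat_lit 3) (nat_lit 28) (nat_lit 3) (nat_lit 28) (nat_lit 5) (nat_lit 291) (nat_lit 291) (nat_lit 198))) (XT.nd (nat_lit 78) (nat_lit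 0) (nat_lit 76) (XT.lf (nat_lit 76) (nat_lit 21660080754) (nat_lit 0) (nat_lit 40258317411) (nat_lit 380) (nat_lit 270906845439) (nat_lit 24) (nat_lit 5) (nat_lit 23) (nat_lit 3) (nat_lit 28) (nat_lit 5) (nat_lit 292) (nat_lit 291) (nat_lit 197)) (XT.nd (nat_lit 78) (nat_lit 0) (nat_lit 0) (XT.lf (nat_lit 0) (nat_lit 79914725679) (nat_lit 304) (nat_lit 157609886006) (nat_lit 380) (nat_lit 120049782438) (nat_lit 24) (nat_lit 5) (nat_lit 28) (nat_lit 5) (nat_lit 29) (nat_lit 5) (nat_lit 293) (nat_lit 291) (nat_lit 196)) (XT.lf (nat_lit 76) (nat_lit 18728920034) (nat_lit 0) (nat_lit 84574072507) (nat_lit 380) (nat_lit 282329051455) (nat_lit 25) (nat_lit 5) (nat_lit 24) (nat_lit 5) (nat_lit 29) (nat_lit 5) (nat_lit 294) (nat_lit 291) (nat_lit 195))))) (XT.nd (nat_lit 156) (nat_lit 152) (nat_lit 0) (XT.nd (nat_lit 78) (nat_lit 304) (nat_lit 0) (XT.lf (nat_lit 0) (nat_lit 142611757035) (nat_lit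 304) (nat_lit 181604521628) (nat_lit 76) (nat_lit 91820224316) (nat_lit 25) (nat_lit 5) (nat_lit 29) (nat_lit 5) (nat_lit 26) (nat_lit 5) (nat_lit 295) (nat_lit 291) (nat_lit 194)) (XT.lf (nat_lit 0) (nat_lit 30145191113) (nat_lit 304) (nat_lit 162947154314) (nat_lit 380) (nat_lit 257117959233) (nat_lit 21) (nat_lit 5) (nat_lit 25) (nat_lit 5) (nat_lit 26) (nat_lit 5) (nat_lit 296) (nat_lit 291) (nat_lit 193))) (XT.nd (nat_lit 78) (nat_lit 152) (nat_lit 0) (XT.lf (nat_lit 0) (nat_lit 262022150559) (nat_lit 380) (nat_lit 195403316698) (nat_lit 76) (nat_lit 30453140268) (nat_lit 21) (nat_lit 5) (nat_lit 26) (nat_lit 5) (nat_lit 22) (nat_lit 5) (nat_lit 297) (nat_lit 291) (nat_lit 192)) (XT.nd (nat_lit 78) (nat_lit 0) (nat_lit 0) (XT.lf (nat_lit 0) (nat_lit 60592667088) (nat_lit 152) (nat_lit 290967100824) (nat_lit 228) (nat_lit 178097136866) (nat_lit 19) (nat_lit 5) (nat_lit 21) (nat_lit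 5) (nat_lit 22) (nat_lit 5) (nat_lit 298) (nat_lit 291) (nat_lit 191)) (XT.lf (nat_lit 0) (nat_lit 376948647427) (nat_lit 152) (nat_lit 87793589702) (nat_lit 228) (nat_lit 111427578256) (nat_lit 19) (nat_lit 5) (nat_lit 21) (nat_lit 5) (nat_lit 22) (nat_lit 5) (nat_lit 299) (nat_lit 291) (nat_lit 190))))))))
noncomputable def xc101 : XT := (XT.nd (nat_lit 1560) (nat_lit 304) (nat_lit 0) (XT.nd (nat_lit 780) (nat_lit 456) (nat_lit 0) (XT.nd (nat_lit 390) (nat_lit 228) (nat_lit 0) (XT.nd (nat_lit 156) (nat_lit 228) (nat_lit 0) (XT.nd (nat_lit 78) (nat_lit 76) (nat_lit 0) (XT.lf (nat_lit 0) (nat_lit 115325812816) (nat_lit 76) (nat_lit 490391195305) (nat_lit 152) (nat_lit 22320414887) (nat_lit 18) (nat_lit 5) (nat_lit 19) (nat_lit 5) (nat_lit 20) (nat_lit 4) (nat_lit 300) (nat_lit 291) (nat_lit 189)) (XT.lf (nat_lit 0) (nat_lit 88107395242) (nat_lit 152) (nat_lit 194674083458) (nat_lit 76)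 (nat_lit 402142299932) (nat_lit 17) (nat_lit 5) (nat_lit 19) (nat_lit 5) (nat_lit 18) (nat_lit 5) (nat_lit 301) (nat_lit 291) (nat_lit 188))) (XT.nd (nat_lit 78) (nat_lit 76) (nat_lit 0) (XT.lf (nat_lit 0) (nat_lit 186620371693) (nat_lit 152) (nat_lit 33921330677) (nat_lit 228) (nat_lit 528482827159) (nat_lit 15) (nat_lit 5) (nat_lit 17) (nat_lit 5) (nat_lit 18) (nat_lit 5) (nat_lit 302) (nat_lit 291) (nat_lit 187)) (XT.nd (nat_lit 78) (nat_lit 76) (nat_lit 0) (XT.lf (nat_lit 0) (nat_lit 393947713822) (nat_lit 228) (nat_lit 185156777370) (nat_lit 76) (nat_lit 240469918207) (nat_lit 15) (nat_lit 5) (nat_lit 18) (nat_lit 5) (nat_lit 16) (nat_lit 4) (nat_lit 303) (nat_lit 291) (nat_lit 186)) (XT.lf (nat_lit 0) (nat_lit 271207084983) (nat_lit 76) (nat_lit 335002916909) (nat_lit 152) (nat_lit 292569963190) (nat_lit 14) (nat_lit 5) (nat_lit 15) (nat_lit 5) (nat_lit 16) (nat_lit 4) (nat_lit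 304) (nat_lit 291) (nat_lit 185))))) (XT.nd (nat_lit 156) (nat_lit 76) (nat_lit 0) (XT.nd (nat_lit 78) (nat_lit 152) (nat_lit 0) (XT.lf (nat_lit 0) (nat_lit 816834572197) (nat_lit 76) (nat_lit 43155679359) (nat_lit 152) (nat_lit 128424309862) (nat_lit 14) (nat_lit 5) (nat_lit 15) (nat_lit 5) (nat_lit 16) (nat_lit 4) (nat_lit 305) (nat_lit 291) (nat_lit 184)) (XT.lf (nat_lit 0) (nat_lit 83882058067) (nat_lit 152) (nat_lit 717170541894) (nat_lit 76) (nat_lit 285730289639) (nat_lit 12) (nat_lit 5) (nat_lit 14) (nat_lit 5) (nat_lit 13) (nat_lit 4) (nat_lit 306) (nat_lit 291) (nat_lit 183))) (XT.nd (nat_lit 78) (nat_lit 76) (nat_lit 0) (XT.lf (nat_lit 0) (nat_lit 326337229893) (nat_lit 152) (nat_lit 195891955056) (nat_lit 76) (nat_lit 675042307818) (nat_lit 12) (nat_lit 5) (nat_lit 14) (nat_lit 5) (nat_lit 13) (nat_lit 4) (nat_lit 307) (nat_lit 291) (nat_lit 182)) (XT.nd (nat_lit 78) (nat_lit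 0) (nat_lit 0) (XT.lf (nat_lit 0) (nat_lit 443018991661) (nat_lit 76) (nat_lit 180486133606) (nat_lit 152) (nat_lit 698076594009) (nat_lit 11) (nat_lit 5) (nat_lit 12) (nat_lit 5) (nat_lit 13) (nat_lit 4) (nat_lit 308) (nat_lit 291) (nat_lit 181)) (XT.lf (nat_lit 0) (nat_lit 984775531043) (nat_lit 152) (nat_lit 272507929494) (nat_lit 0) (nat_lit 204325920341) (nat_lit 11) (nat_lit 5) (nat_lit 13) (nat_lit 4) (nat_lit 11) (nat_lit 4) (nat_lit 309) (nat_lit 291) (nat_lit 180)))))) (XT.nd (nat_lit 390) (nat_lit 228) (nat_lit 0) (XT.nd (nat_lit 156) (nat_lit 76) (nat_lit 0) (XT.nd (nat_lit 78) (nat_lit 76) (nat_lit 0) (XT.lf (nat_lit 0) (nat_lit 456501382997) (nat_lit 76) (nat_lit 971232421063) (nat_lit 76) (nat_lit 190782791728) (nat_lit 10) (nat_lit 4) (nat_lit 11) (nat_lit 5) (nat_lit 11) (nat_lit 4) (nat_lit 310) (nat_lit 291) (nat_lit 179)) (XT.lf (nat_lit 0) (nat_lit 140797582056) (nat_lit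 152) (nat_lit 477734844115) (nat_lit 76) (nat_lit 1177330776225) (nat_lit 9) (nat_lit 5) (nat_lit 11) (nat_lit 5) (nat_lit 10) (nat_lit 4) (nat_lit 311) (nat_lit 291) (nat_lit 178))) (XT.nd (nat_lit 78) (nat_lit 0) (nat_lit 0) (XT.lf (nat_lit 0) (nat_lit 329430865976) (nat_lit 76) (nat_lit 186792634304) (nat_lit 152) (nat_lit 1480179413664) (nat_lit 8) (nat_lit 5) (nat_lit 9) (nat_lit 5) (nat_lit 10) (nat_lit 4) (nat_lit 312) (nat_lit 291) (nat_lit 177)) (XT.nd (nat_lit 78) (nat_lit 0) (nat_lit 0) (XT.lf (nat_lit 0) (nat_lit 986949312320) (nat_lit 152) (nat_lit 925928945273) (nat_lit 0) (nat_lit 308297423731) (nat_lit 8) (nat_lit 5) (nat_lit 10) (nat_lit 4) (nat_lit 8) (nat_lit 4) (nat_lit 313) (nat_lit 291) (nat_lit 176)) (XT.lf (nat_lit 0) (nat_lit 1537178868723) (nat_lit 152) (nat_lit 82624293347) (nat_lit 0) (nat_lit 858526970870) (nat_lit 8) (nat_lit 5) (nat_lit 10) (nat_lit 4) (nat_lit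 8) (nat_lit 4) (nat_lit 314) (nat_lit 291) (nat_lit 175))))) (XT.nd (nat_lit 156) (nat_lit 152) (nat_lit 0) (XT.nd (nat_lit 78) (nat_lit 0) (nat_lit 0) (XT.lf (nat_lit 0) (nat_lit 973877325268) (nat_lit 76) (nat_lit 1236391703697) (nat_lit 76) (nat_lit 557739797788) (nat_lit 7) (nat_lit 4) (nat_lit 8) (nat_lit 5) (nat_lit 8) (nat_lit 4) (nat_lit 315) (nat_lit 291) (nat_lit 174)) (XT.lf (nat_lit 0) (nat_lit 2198140006629) (nat_lit 76) (nat_lit 790501691593) (nat_lit 76) (nat_lit 111849778679) (nat_lit 7) (nat_lit 4) (nat_lit 8) (nat_lit 5) (nat_lit 8) (nat_lit 4) (nat_lit 316) (nat_lit 291) (nat_lit 173))) (XT.nd (nat_lit 78) (nat_lit 0) (nat_lit 0) (XT.lf (nat_lit 0) (nat_lit 117011301711) (nat_lit 76) (nat_lit 253064614900) (nat_lit 152) (nat_lit 3109553621775) (nat_lit 5) (nat_lit 5) (nat_lit 6) (nat_lit 5) (nat_lit 7) (nat_lit 4) (nat_lit 317) (nat_lit 291) (nat_lit 172)) (XT.nd (nat_lit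 78) (nat_lit 0) (nat_lit 0) (XT.lf (nat_lit 0) (nat_lit 977367029369) (nat_lit 152) (nat_lit 2540558253954) (nat_lit 0) (nat_lit 387234921281) (nat_lit 5) (nat_lit 5) (nat_lit 7) (nat_lit 4) (nat_lit 5) (nat_lit 4) (nat_lit 318) (nat_lit 291) (nat_lit 171)) (XT.lf (nat_lit 0) (nat_lit 1687802495468) (nat_lit 152) (nat_lit 1607239988951) (nat_lit 0) (nat_lit 1097670383375) (nat_lit 5) (nat_lit 5) (nat_lit 7) (nat_lit 4) (nat_lit 5) (nat_lit 4) (nat_lit 319) (nat_lit 291) (nat_lit 170))))))) (XT.nd (nat_lit 780) (nat_lit 76) (nat_lit 0) (XT.nd (nat_lit 390) (nat_lit 152) (nat_lit 0) (XT.nd (nat_lit 156) (nat_lit 0) (nat_lit 0) (XT.nd (nat_lit 78) (nat_lit 76) (nat_lit 0) (XT.lf (nat_lit 0) (nat_lit 2504803273206) (nat_lit 152) (nat_lit 533924000874) (nat_lit 0) (nat_lit 1914671157631) (nat_lit 5) (nat_lit 5) (nat_lit 7) (nat_lit 4) (nat_lit 5) (nat_lit 4) (nat_lit 320) (nat_lit 291) (nat_lit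 169)) (XT.lf (nat_lit 0) (nat_lit 768836513978) (nat_lit 76) (nat_lit 2707353526924) (nat_lit 76) (nat_lit 2117221408320) (nat_lit 4) (nat_lit 4) (nat_lit 5) (nat_lit 5) (nat_lit 5) (nat_lit 4) (nat_lit 321) (nat_lit 291) (nat_lit 168))) (XT.nd (nat_lit 78) (nat_lit 0) (nat_lit 0) (XT.lf (nat_lit 0) (nat_lit 2327016869133) (nat_lit 76) (nat_lit 2294177611472) (nat_lit 76) (nat_lit 1704045490234) (nat_lit 4) (nat_lit 4) (nat_lit 5) (nat_lit 5) (nat_lit 5) (nat_lit 4) (nat_lit 322) (nat_lit 291) (nat_lit 167)) (XT.nd (nat_lit 78) (nat_lit 0) (nat_lit 0) (XT.lf (nat_lit 0) (nat_lit 4118924265524) (nat_lit 76) (nat_lit 1819025314797) (nat_lit 76) (nat_lit 1228893191270) (nat_lit 4) (nat_lit 4) (nat_lit 5) (nat_lit 5) (nat_lit 5) (nat_lit 4) (nat_lit 323) (nat_lit 291) (nat_lit 166)) (XT.lf (nat_lit 0) (nat_lit 6179617760906) (nat_lit 76) (nat_lit 1272600178923) (nat_lit 76) (nat_lit 682468053404)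 (nat_lit 4) (nat_lit 4) (nat_lit 5) (nat_lit 5) (nat_lit 5) (nat_lit 4) (nat_lit 324) (nat_lit 291) (nat_lit 165))))) (XT.nd (nat_lit 156) (nat_lit 0) (nat_lit 0) (XT.nd (nat_lit 78) (nat_lit 152) (nat_lit 0) (XT.lf (nat_lit 0) (nat_lit 8549415271494) (nat_lit 76) (nat_lit 644211277277) (nat_lit 76) (nat_lit 54079150027) (nat_lit 4) (nat_lit 4) (nat_lit 5) (nat_lit 5) (nat_lit 5) (nat_lit 4) (nat_lit 325) (nat_lit 291) (nat_lit 164)) (XT.lf (nat_lit 0) (nat_lit 647867016875) (nat_lit 152) (nat_lit 9735127180079) (nat_lit 0) (nat_lit 134708644044) (nat_lit 2) (nat_lit 5) (nat_lit 4) (nat_lit 4) (nat_lit 2) (nat_lit 4) (nat_lit 326) (nat_lit 291) (nat_lit 163))) (XT.nd (nat_lit 78) (nat_lit 0) (nat_lit 0) (XT.lf (nat_lit 0) (nat_lit 1518484871238) (nat_lit 152) (nat_lit 9443664440781) (nat_lit 0) (nat_lit 1005326497269) (nat_lit 2) (nat_lit 5) (nat_lit 4) (nat_lit 4) (nat_lit 2) (nat_lit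 4) (nat_lit 327) (nat_lit 291) (nat_lit 162)) (XT.nd (nat_lit 78) (nat_lit 0) (nat_lit 0) (XT.lf (nat_lit 0) (nat_lit 2519695400229) (nat_lit 152) (nat_lit 9108482297854) (nat_lit 0) (nat_lit 2006537025270) (nat_lit 2) (nat_lit 5) (nat_lit 4) (nat_lit 4) (nat_lit 2) (nat_lit 4) (nat_lit 328) (nat_lit 291) (nat_lit 161)) (XT.lf (nat_lit 0) (nat_lit 3671087505502) (nat_lit 152) (nat_lit 8723022839806) (nat_lit 0) (nat_lit 3157929129682) (nat_lit 2) (nat_lit 5) (nat_lit 4) (nat_lit 4) (nat_lit 2) (nat_lit 4) (nat_lit 329) (nat_lit 291) (nat_lit 160)))))) (XT.nd (nat_lit 390) (nat_lit 76) (nat_lit 0) (XT.nd (nat_lit 156) (nat_lit 0) (nat_lit 0) (XT.nd (nat_lit 78) (nat_lit 0) (nat_lit 0) (XT.lf (nat_lit 0) (nat_lit 4995188423898) (nat_lit 152) (nat_lit 8279744468545) (nat_lit 0) (nat_lit 4482030047330) (nat_lit 2) (nat_lit 5) (nat_lit 4) (nat_lit 4) (nat_lit 2) (nat_lit 4) (nat_lit 330) (nat_lit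 291) (nat_lit 159)) (XT.lf (nat_lit 0) (nat_lit 6517904477735) (nat_lit 152) (nat_lit 7769974346372) (nat_lit 0) (nat_lit 6004746100515) (nat_lit 2) (nat_lit 5) (nat_lit 4) (nat_lit 4) (nat_lit 2) (nat_lit 4) (nat_lit 331) (nat_lit 291) (nat_lit 158))) (XT.nd (nat_lit 78) (nat_lit 0) (nat_lit 0) (XT.lf (nat_lit 0) (nat_lit 8269027937630) (nat_lit 152) (nat_lit 7183738710028) (nat_lit 0) (nat_lit 7755869559844) (nat_lit 2) (nat_lit 5) (nat_lit 4) (nat_lit 4) (nat_lit 2) (nat_lit 4) (nat_lit 332) (nat_lit 291) (nat_lit 157)) (XT.nd (nat_lit 78) (nat_lit 0) (nat_lit 0) (XT.lf (nat_lit 0) (nat_lit 10282819914756) (nat_lit 152) (nat_lit 6509567731844) (nat_lit 0) (nat_lit 9769661536478) (nat_lit 2) (nat_lit 5) (nat_lit 4) (nat_lit 4) (nat_lit 2) (nat_lit 4) (nat_lit 333) (nat_lit 291) (nat_lit 156)) (XT.lf (nat_lit 0) (nat_lit 12598680686925) (nat_lit 152) (nat_lit 5734271110073) (nat_lit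 0) (nat_lit 12085522308220) (nat_lit 2) (nat_lit 5) (nat_lit 4) (nat_lit 4) (nat_lit 2) (nat_lit 4) (nat_lit 334) (nat_lit 291) (nat_lit 155))))) (XT.nd (nat_lit 234) (nat_lit 76) (nat_lit 0) (XT.nd (nat_lit 78) (nat_lit 0) (nat_lit 0) (XT.lf (nat_lit 0) (nat_lit 15261920573594) (nat_lit 152) (nat_lit 4842679997769) (nat_lit 0) (nat_lit 14748762194517) (nat_lit 2) (nat_lit 5) (nat_lit 4) (nat_lit 4) (nat_lit 2) (nat_lit 4) (nat_lit 335) (nat_lit 291) (nat_lit 154)) (XT.nd (nat_lit 78) (nat_lit 0) (nat_lit 0) (XT.lf (nat_lit 0) (nat_lit 18324646442111) (nat_lit 152) (nat_lit 3817350220993) (nat_lit 0) (nat_lit 17811488062709) (nat_lit 2) (nat_lit 5) (nat_lit 4) (nat_lit 4) (nat_lit 2) (nat_lit 4) (nat_lit 336) (nat_lit 291) (nat_lit 153)) (XT.lf (nat_lit 0) (nat_lit 21846781189902) (nat_lit 152) (nat_lit 2638220979767) (nat_lit 0) (nat_lit 21333622810219) (nat_lit 2) (nat_lit 5) (nat_lit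 4) (nat_lit 4) (nat_lit 2) (nat_lit 4) (nat_lit 337) (nat_lit 291) (nat_lit 152)))) (XT.nd (nat_lit 78) (nat_lit 76) (nat_lit 0) (XT.lf (nat_lit 0) (nat_lit 25897236148990) (nat_lit 152) (nat_lit 1282222354153) (nat_lit 0) (nat_lit 25384077769062) (nat_lit 2) (nat_lit 5) (nat_lit 4) (nat_lit 4) (nat_lit 2) (nat_lit 4) (nat_lit 338) (nat_lit 291) (nat_lit 151)) (XT.nd (nat_lit 78) (nat_lit 0) (nat_lit 0) (XT.lf (nat_lit 0) (nat_lit 304263724515) (nat_lit 76) (nat_lit 30263594538656) (nat_lit 76) (nat_lit 29750436158516) (nat_lit 1) (nat_lit 4) (nat_lit 2) (nat_lit 5) (nat_lit 2) (nat_lit 4) (nat_lit 339) (nat_lit 291) (nat_lit 150)) (XT.lf (nat_lit 0) (nat_lit 2272827021250) (nat_lit 76) (nat_lit 33733271931930) (nat_lit 76) (nat_lit 33220113551605) (nat_lit 1) (nat_lit 4) (nat_lit 2) (nat_lit 5) (nat_lit 2) (nat_lit 4) (nat_lit 340) (nat_lit 291) (nat_lit 149))))))))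
noncomputable def xc102 : XT := (XT.nd (nat_lit 38064) (nat_lit 0) (nat_lit 76) (XT.nd (nat_lit 37284) (nat_lit 0) (nat_lit 836) (XT.nd (nat_lit 36894) (nat_lit 0) (nat_lit 1520) (XT.nd (nat_lit 546) (nat_lit 0) (nat_lit 0) (XT.nd (nat_lit 468) (nat_lit 0) (nat_lit 0) (XT.lf (nat_lit 0) (nat_lit 4536674811199) (nat_lit 76) (nat_lit 37723400934865) (nat_lit 76) (nat_lit 37210242554378) (nat_lit 1) (nat_lit 4) (nat_lit 2) (nat_lit 5) (nat_lit 2) (nat_lit 4) (nat_lit 341) (nat_lit 291) (nat_lit 148)) (XT.lf (nat_lit 0) (nat_lit 27326375913805) (nat_lit 76) (nat_lit 77891228415008) (nat_lit 76) (nat_lit 77378070033913) (nat_lit 1) (nat_lit 4) (nat_lit 2) (nat_lit 5) (nat_lit 2) (nat_lit 4) (nat_lit 347) (nat_lit 291) (nat_lit 142))) (XT.nd (nat_lit 78) (nat_lit 0) (nat_lit 0) (XT.lf (nat_lit 0) (nat_lit 33348256032244) (nat_lit 76) (nat_lit 88505050893189) (nat_lit 76) (nat_lit 87991892512033)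 (nat_lit 1) (nat_lit 4) (nat_lit 2) (nat_lit 5) (nat_lit 2) (nat_lit 4) (nat_lit 348) (nat_lit 291) (nat_lit 141)) (XT.nd (nat_lit 36192) (nat_lit 0) (nat_lit 1672) (XT.lf (nat_lit 0) (nat_lit 40273418168026) (nat_lit 76) (nat_lit 100710946743316) (nat_lit 76) (nat_lit 100197788362107) (nat_lit 1) (nat_lit 4) (nat_lit 2) (nat_lit 5) (nat_lit 2) (nat_lit 4) (nat_lit 349) (nat_lit 291) (nat_lit 140)) (XT.lf (nat_lit 0) (nat_lit 32639670449) (nat_lit 380) (nat_lit 72727527167) (nat_lit 380) (nat_lit 72727527167) (nat_lit 23) (nat_lit 3) (nat_lit 28) (nat_lit 3) (nat_lit 28) (nat_lit 5) (nat_lit 292) (nat_lit 292) (nat_lit 196))))) (XT.nd (nat_lit 156) (nat_lit 152) (nat_lit 0) (XT.nd (nat_lit 78) (nat_lit 0) (nat_lit 76) (XT.lf (nat_lit 76) (nat_lit 24909748479) (nat_lit 0) (nat_lit 46297472345) (nat_lit 380) (nat_lit 311541646545) (nat_lit 24) (nat_lit 5) (nat_lit 23) (nat_lit 3) (nat_lit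 28) (nat_lit 5) (nat_lit 293) (nat_lit 292) (nat_lit 195)) (XT.lf (nat_lit 0) (nat_lit 91902844155) (nat_lit 304) (nat_lit 181250642598) (nat_lit 380) (nat_lit 138056927144) (nat_lit 24) (nat_lit 5) (nat_lit 28) (nat_lit 5) (nat_lit 29) (nat_lit 5) (nat_lit 294) (nat_lit 292) (nat_lit 194))) (XT.nd (nat_lit 78) (nat_lit 228) (nat_lit 0) (XT.lf (nat_lit 76) (nat_lit 21538951334) (nat_lit 0) (nat_lit 97260309774) (nat_lit 380) (nat_lit 324677464012) (nat_lit 25) (nat_lit 5) (nat_lit 24) (nat_lit 5) (nat_lit 29) (nat_lit 5) (nat_lit 295) (nat_lit 292) (nat_lit 193)) (XT.nd (nat_lit 78) (nat_lit 304) (nat_lit 0) (XT.lf (nat_lit 0) (nat_lit 164004228809) (nat_lit 304) (nat_lit 208844483347) (nat_lit 76) (nat_lit 105593157843) (nat_lit 25) (nat_lit 5) (nat_lit 29) (nat_lit 5) (nat_lit 26) (nat_lit 5) (nat_lit 296) (nat_lit 292) (nat_lit 192)) (XT.lf (nat_lit 0) (nat_lit 34667653736) (nat_lit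 304) (nat_lit 187389187669) (nat_lit 380) (nat_lit 295684910422) (nat_lit 21) (nat_lit 5) (nat_lit 25) (nat_lit 5) (nat_lit 26) (nat_lit 5) (nat_lit 297) (nat_lit 292) (nat_lit 191)))))) (XT.nd (nat_lit 390) (nat_lit 380) (nat_lit 0) (XT.nd (nat_lit 156) (nat_lit 152) (nat_lit 0) (XT.nd (nat_lit 78) (nat_lit 152) (nat_lit 0) (XT.lf (nat_lit 0) (nat_lit 301326034718) (nat_lit 380) (nat_lit 224713135211) (nat_lit 76) (nat_lit 35021142830) (nat_lit 21) (nat_lit 5) (nat_lit 26) (nat_lit 5) (nat_lit 22) (nat_lit 5) (nat_lit 298) (nat_lit 292) (nat_lit 190)) (XT.lf (nat_lit 0) (nat_lit 69682215280) (nat_lit 152) (nat_lit 334612032983) (nat_lit 228) (nat_lit 204811113516) (nat_lit 19) (nat_lit 5) (nat_lit 21) (nat_lit 5) (nat_lit 22) (nat_lit 5) (nat_lit 299) (nat_lit 292) (nat_lit 189))) (XT.nd (nat_lit 78) (nat_lit 152) (nat_lit 0) (XT.lf (nat_lit 0) (nat_lit 433491508131) (nat_lit 152) (nat_lit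 100962512536) (nat_lit 228) (nat_lit 128141198576) (nat_lit 19) (nat_lit 5) (nat_lit 21) (nat_lit 5) (nat_lit 22) (nat_lit 5) (nat_lit 300) (nat_lit 292) (nat_lit 188)) (XT.nd (nat_lit 78) (nat_lit 76) (nat_lit 0) (XT.lf (nat_lit 0) (nat_lit 132625283479) (nat_lit 76) (nat_lit 563949694354) (nat_lit 152) (nat_lit 25667994762) (nat_lit 18) (nat_lit 5) (nat_lit 19) (nat_lit 5) (nat_lit 20) (nat_lit 4) (nat_lit 301) (nat_lit 292) (nat_lit 187)) (XT.lf (nat_lit 0) (nat_lit 101323886628) (nat_lit 152) (nat_lit 223874637166) (nat_lit 76) (nat_lit 462463763492) (nat_lit 17) (nat_lit 5) (nat_lit 19) (nat_lit 5) (nat_lit 18) (nat_lit 5) (nat_lit 302) (nat_lit 292) (nat_lit 186))))) (XT.nd (nat_lit 156) (nat_lit 228) (nat_lit 0) (XT.nd (nat_lit 78) (nat_lit 0) (nat_lit 0) (XT.lf (nat_lit 0) (nat_lit 214613960857) (nat_lit 152) (nat_lit 39009351217) (nat_lit 228) (nat_lit 607754843015) (nat_lit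 15) (nat_lit 5) (nat_lit 17) (nat_lit 5) (nat_lit 18) (nat_lit 5) (nat_lit 303) (nat_lit 292) (nat_lit 185)) (XT.lf (nat_lit 0) (nat_lit 453040185472) (nat_lit 228) (nat_lit 212929789746) (nat_lit 76) (nat_lit 276540547782) (nat_lit 15) (nat_lit 5) (nat_lit 18) (nat_lit 5) (nat_lit 16) (nat_lit 4) (nat_lit 304) (nat_lit 292) (nat_lit 184))) (XT.nd (nat_lit 78) (nat_lit 152) (nat_lit 0) (XT.lf (nat_lit 0) (nat_lit 311888629041) (nat_lit 76) (nat_lit 385253166610) (nat_lit 152) (nat_lit 336455119631) (nat_lit 14) (nat_lit 5) (nat_lit 15) (nat_lit 5) (nat_lit 16) (nat_lit 4) (nat_lit 305) (nat_lit 292) (nat_lit 183)) (XT.nd (nat_lit 78) (nat_lit 152) (nat_lit 0) (XT.lf (nat_lit 0) (nat_lit 939360176557) (nat_lit 76) (nat_lit 49628867928) (nat_lit 152) (nat_lit 147687662396) (nat_lit 14) (nat_lit 5) (nat_lit 15) (nat_lit 5) (nat_lit 16) (nat_lit 4) (nat_lit 306) (nat_lit 292) (nat_lit 182))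 (XT.lf (nat_lit 0) (nat_lit 96464624443) (nat_lit 152) (nat_lit 824745667601) (nat_lit 76) (nat_lit 328589991990) (nat_lit 12) (nat_lit 5) (nat_lit 14) (nat_lit 5) (nat_lit 13) (nat_lit 4) (nat_lit 307) (nat_lit 292) (nat_lit 181))))))) (XT.nd (nat_lit 780) (nat_lit 380) (nat_lit 0) (XT.nd (nat_lit 390) (nat_lit 152) (nat_lit 0) (XT.nd (nat_lit 156) (nat_lit 152) (nat_lit 0) (XT.nd (nat_lit 78) (nat_lit 76) (nat_lit 0) (XT.lf (nat_lit 0) (nat_lit 375288038435) (nat_lit 152) (nat_lit 225275352160) (nat_lit 76) (nat_lit 776298792170) (nat_lit 12) (nat_lit 5) (nat_lit 14) (nat_lit 5) (nat_lit 13) (nat_lit 4) (nat_lit 308) (nat_lit 292) (nat_lit 180)) (XT.lf (nat_lit 0) (nat_lit 509472218558) (nat_lit 76) (nat_lit 207558885991) (nat_lit 152) (nat_lit 802787840777) (nat_lit 11) (nat_lit 5) (nat_lit 12) (nat_lit 5) (nat_lit 13) (nat_lit 4) (nat_lit 309) (nat_lit 292) (nat_lit 179))) (XT.nd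 (nat_lit 78) (nat_lit 152) (nat_lit 0) (XT.lf (nat_lit 0) (nat_lit 1132492049772) (nat_lit 152) (nat_lit 313383768441) (nat_lit 0) (nat_lit 234974941202) (nat_lit 11) (nat_lit 5) (nat_lit 13) (nat_lit 4) (nat_lit 11) (nat_lit 4) (nat_lit 310) (nat_lit 292) (nat_lit 178)) (XT.nd (nat_lit 78) (nat_lit 76) (nat_lit 0) (XT.lf (nat_lit 0) (nat_lit 524976924993) (nat_lit 76) (nat_lit 1116917127940) (nat_lit 76) (nat_lit 219400005280) (nat_lit 10) (nat_lit 4) (nat_lit 11) (nat_lit 5) (nat_lit 11) (nat_lit 4) (nat_lit 311) (nat_lit 292) (nat_lit 177)) (XT.lf (nat_lit 0) (nat_lit 161917381920) (nat_lit 152) (nat_lit 549394763783) (nat_lit 76) (nat_lit 1353930512517) (nat_lit 9) (nat_lit 5) (nat_lit 11) (nat_lit 5) (nat_lit 10) (nat_lit 4) (nat_lit 312) (nat_lit 292) (nat_lit 176))))) (XT.nd (nat_lit 156) (nat_lit 76) (nat_lit 0) (XT.nd (nat_lit 78) (nat_lit 0) (nat_lit 0) (XT.lf (nat_lit 0) (nat_lit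 378845788870) (nat_lit 76) (nat_lit 214811389936) (nat_lit 152) (nat_lit 1702206149073) (nat_lit 8) (nat_lit 5) (nat_lit 9) (nat_lit 5) (nat_lit 10) (nat_lit 4) (nat_lit 313) (nat_lit 292) (nat_lit 175)) (XT.lf (nat_lit 0) (nat_lit 1134991847656) (nat_lit 152) (nat_lit 1064818017171) (nat_lit 0) (nat_lit 354542147806) (nat_lit 8) (nat_lit 5) (nat_lit 10) (nat_lit 4) (nat_lit 8) (nat_lit 4) (nat_lit 314) (nat_lit 292) (nat_lit 174))) (XT.nd (nat_lit 78) (nat_lit 76) (nat_lit 0) (XT.lf (nat_lit 0) (nat_lit 1767755819456) (nat_lit 152) (nat_lit 95017702660) (nat_lit 0) (nat_lit 987306112601) (nat_lit 8) (nat_lit 5) (nat_lit 10) (nat_lit 4) (nat_lit 8) (nat_lit 4) (nat_lit 315) (nat_lit 292) (nat_lit 173)) (XT.nd (nat_lit 78) (nat_lit 0) (nat_lit 0) (XT.lf (nat_lit 0) (nat_lit 1119959148081) (nat_lit 76) (nat_lit 1421850349223) (nat_lit 76) (nat_lit 641400636276) (nat_lit 7) (nat_lit 4) (nat_lit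 8) (nat_lit 5) (nat_lit 8) (nat_lit 4) (nat_lit 316) (nat_lit 292) (nat_lit 172)) (XT.lf (nat_lit 0) (nat_lit 2527861202425) (nat_lit 76) (nat_lit 909076849655) (nat_lit 76) (nat_lit 128627131411) (nat_lit 7) (nat_lit 4) (nat_lit 8) (nat_lit 5) (nat_lit 8) (nat_lit 4) (nat_lit 317) (nat_lit 292) (nat_lit 171)))))) (XT.nd (nat_lit 390) (nat_lit 152) (nat_lit 0) (XT.nd (nat_lit 156) (nat_lit 76) (nat_lit 0) (XT.nd (nat_lit 78) (nat_lit 0) (nat_lit 0) (XT.lf (nat_lit 0) (nat_lit 134563192672) (nat_lit 76) (nat_lit 291024209895) (nat_lit 152) (nat_lit 3575986551749) (nat_lit 5) (nat_lit 5) (nat_lit 6) (nat_lit 5) (nat_lit 7) (nat_lit 4) (nat_lit 318) (nat_lit 292) (nat_lit 170)) (XT.lf (nat_lit 0) (nat_lit 1123972172896) (nat_lit 152) (nat_lit 2921641812477) (nat_lit 0) (nat_lit 445320236502) (nat_lit 5) (nat_lit 5) (nat_lit 7) (nat_lit 4) (nat_lit 5) (nat_lit 4) (nat_lit 319) (nat_lit 292)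 (nat_lit 169))) (XT.nd (nat_lit 78) (nat_lit 76) (nat_lit 0) (XT.lf (nat_lit 0) (nat_lit 1940972947286) (nat_lit 152) (nat_lit 1848325831145) (nat_lit 0) (nat_lit 1262321007863) (nat_lit 5) (nat_lit 5) (nat_lit 7) (nat_lit 4) (nat_lit 5) (nat_lit 4) (nat_lit 320) (nat_lit 292) (nat_lit 168)) (XT.nd (nat_lit 78) (nat_lit 76) (nat_lit 0) (XT.lf (nat_lit 0) (nat_lit 2880523831576) (nat_lit 152) (nat_lit 614012465224) (nat_lit 0) (nat_lit 2201871889520) (nat_lit 5) (nat_lit 5) (nat_lit 7) (nat_lit 4) (nat_lit 5) (nat_lit 4) (nat_lit 321) (nat_lit 292) (nat_lit 167)) (XT.lf (nat_lit 0) (nat_lit 884162120684) (nat_lit 76) (nat_lit 3113456490320) (nat_lit 76) (nat_lit 2434804545974) (nat_lit 4) (nat_lit 4) (nat_lit 5) (nat_lit 5) (nat_lit 5) (nat_lit 4) (nat_lit 322) (nat_lit 292) (nat_lit 166))))) (XT.nd (nat_lit 156) (nat_lit 152) (nat_lit 0) (XT.nd (nat_lit 78) (nat_lit 0) (nat_lit 0) (XT.lf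 (nat_lit 0) (nat_lit 2676069512206) (nat_lit 76) (nat_lit 2638304196112) (nat_lit 76) (nat_lit 1959652249774) (nat_lit 4) (nat_lit 4) (nat_lit 5) (nat_lit 5) (nat_lit 5) (nat_lit 4) (nat_lit 323) (nat_lit 292) (nat_lit 165)) (XT.lf (nat_lit 0) (nat_lit 4736763003355) (nat_lit 76) (nat_lit 2091879062381) (nat_lit 76) (nat_lit 1413227114313) (nat_lit 4) (nat_lit 4) (nat_lit 5) (nat_lit 5) (nat_lit 5) (nat_lit 4) (nat_lit 324) (nat_lit 292) (nat_lit 164))) (XT.nd (nat_lit 78) (nat_lit 152) (nat_lit 0) (XT.lf (nat_lit 0) (nat_lit 7106560510262) (nat_lit 76) (nat_lit 1463490162600) (nat_lit 76) (nat_lit 784838213026) (nat_lit 4) (nat_lit 4) (nat_lit 5) (nat_lit 5) (nat_lit 5) (nat_lit 4) (nat_lit 325) (nat_lit 292) (nat_lit 163)) (XT.nd (nat_lit 78) (nat_lit 152) (nat_lit 0) (XT.lf (nat_lit 0) (nat_lit 9831827636322) (nat_lit 76) (nat_lit 740842931337) (nat_lit 76) (nat_lit 62190980454) (nat_lit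 4) (nat_lit 4) (nat_lit 5) (nat_lit 5) (nat_lit 5) (nat_lit 4) (nat_lit 326) (nat_lit 292) (nat_lit 162)) (XT.lf (nat_lit 0) (nat_lit 745047107386) (nat_lit 152) (nat_lit 11195396178858) (nat_lit 0) (nat_lit 154914975192) (nat_lit 2) (nat_lit 5) (nat_lit 4) (nat_lit 4) (nat_lit 2) (nat_lit 4) (nat_lit 327) (nat_lit 292) (nat_lit 161))))))))
noncomputable def xc103 : XT := (XT.nd (nat_lit 38064) (nat_lit 0) (nat_lit 532) (XT.nd (nat_lit 780) (nat_lit 76) (nat_lit 0) (XT.nd (nat_lit 390) (nat_lit 0) (nat_lit 0) (XT.nd (nat_lit 156) (nat_lit 0) (nat_lit 0) (XT.nd (nat_lit 78) (nat_lit 0) (nat_lit 0) (XT.lf (nat_lit 0) (nat_lit 1746257634950) (nat_lit 152) (nat_lit 10860214038870) (nat_lit 0) (nat_lit 1156125501896) (nat_lit 2) (nat_lit 5) (nat_lit 4) (nat_lit 4) (nat_lit 2) (nat_lit 4) (nat_lit 328) (nat_lit 292) (nat_lit 160)) (XT.lf (nat_lit 0) (nat_lit 2897649738982) (nat_lit 152) (nat_lit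 10474754583377) (nat_lit 0) (nat_lit 2307517605179) (nat_lit 2) (nat_lit 5) (nat_lit 4) (nat_lit 4) (nat_lit 2) (nat_lit 4) (nat_lit 329) (nat_lit 292) (nat_lit 159))) (XT.nd (nat_lit 78) (nat_lit 0) (nat_lit 0) (XT.lf (nat_lit 0) (nat_lit 4221750656300) (nat_lit 152) (nat_lit 10031476214338) (nat_lit 0) (nat_lit 3631618521846) (nat_lit 2) (nat_lit 5) (nat_lit 4) (nat_lit 4) (nat_lit 2) (nat_lit 4) (nat_lit 330) (nat_lit 292) (nat_lit 158)) (XT.nd (nat_lit 78) (nat_lit 0) (nat_lit 0) (XT.lf (nat_lit 0) (nat_lit 5744466709198) (nat_lit 152) (nat_lit 9521706094097) (nat_lit 0) (nat_lit 5154334574179) (nat_lit 2) (nat_lit 5) (nat_lit 4) (nat_lit 4) (nat_lit 2) (nat_lit 4) (nat_lit 331) (nat_lit 292) (nat_lit 157)) (XT.lf (nat_lit 0) (nat_lit 7495590168278) (nat_lit 152) (nat_lit 8935470459433) (nat_lit 0) (nat_lit 6905458032766) (nat_lit 2) (nat_lit 5) (nat_lit 4) (nat_lit 4) (nat_lit 2)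 (nat_lit 4) (nat_lit 332) (nat_lit 292) (nat_lit 156))))) (XT.nd (nat_lit 156) (nat_lit 0) (nat_lit 0) (XT.nd (nat_lit 78) (nat_lit 0) (nat_lit 0) (XT.lf (nat_lit 0) (nat_lit 9509382144694) (nat_lit 152) (nat_lit 8261299482710) (nat_lit 0) (nat_lit 8919250008754) (nat_lit 2) (nat_lit 5) (nat_lit 4) (nat_lit 4) (nat_lit 2) (nat_lit 4) (nat_lit 333) (nat_lit 292) (nat_lit 155)) (XT.lf (nat_lit 0) (nat_lit 11825242916247) (nat_lit 152) (nat_lit 7486002862210) (nat_lit 0) (nat_lit 11235110779935) (nat_lit 2) (nat_lit 5) (nat_lit 4) (nat_lit 4) (nat_lit 2) (nat_lit 4) (nat_lit 334) (nat_lit 292) (nat_lit 154))) (XT.nd (nat_lit 78) (nat_lit 0) (nat_lit 0) (XT.lf (nat_lit 0) (nat_lit 14488482802380) (nat_lit 152) (nat_lit 6594411751010) (nat_lit 0) (nat_lit 13898350665744) (nat_lit 2) (nat_lit 5) (nat_lit 4) (nat_lit 4) (nat_lit 2) (nat_lit 4) (nat_lit 335) (nat_lit 292) (nat_lit 153)) (XT.nd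 (nat_lit 78) (nat_lit 0) (nat_lit 0) (XT.lf (nat_lit 0) (nat_lit 17551208670430) (nat_lit 152) (nat_lit 5569081975195) (nat_lit 0) (nat_lit 16961076533513) (nat_lit 2) (nat_lit 5) (nat_lit 4) (nat_lit 4) (nat_lit 2) (nat_lit 4) (nat_lit 336) (nat_lit 292) (nat_lit 152)) (XT.lf (nat_lit 0) (nat_lit 21073343417816) (nat_lit 152) (nat_lit 4389952734804) (nat_lit 0) (nat_lit 20483211280654) (nat_lit 2) (nat_lit 5) (nat_lit 4) (nat_lit 4) (nat_lit 2) (nat_lit 4) (nat_lit 337) (nat_lit 292) (nat_lit 151)))))) (XT.nd (nat_lit 702) (nat_lit 0) (nat_lit 0) (XT.nd (nat_lit 156) (nat_lit 76) (nat_lit 0) (XT.nd (nat_lit 78) (nat_lit 0) (nat_lit 0) (XT.lf (nat_lit 0) (nat_lit 25123798376551) (nat_lit 152) (nat_lit 3033954109917) (nat_lit 0) (nat_lit 24533666239177) (nat_lit 2) (nat_lit 5) (nat_lit 4) (nat_lit 4) (nat_lit 2) (nat_lit 4) (nat_lit 338) (nat_lit 292) (nat_lit 150)) (XT.lf (nat_lit 0)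 (nat_lit 29781821578438) (nat_lit 152) (nat_lit 1474555692654) (nat_lit 0) (nat_lit 29191689440878) (nat_lit 2) (nat_lit 5) (nat_lit 4) (nat_lit 4) (nat_lit 2) (nat_lit 4) (nat_lit 339) (nat_lit 292) (nat_lit 149))) (XT.nd (nat_lit 78) (nat_lit 0) (nat_lit 0) (XT.lf (nat_lit 0) (nat_lit 349903297150) (nat_lit 76) (nat_lit 34803133712248) (nat_lit 76) (nat_lit 34213001574528) (nat_lit 1) (nat_lit 4) (nat_lit 2) (nat_lit 5) (nat_lit 2) (nat_lit 4) (nat_lit 340) (nat_lit 292) (nat_lit 148)) (XT.nd (nat_lit 390) (nat_lit 0) (nat_lit 0) (XT.lf (nat_lit 0) (nat_lit 2613751086575) (nat_lit 76) (nat_lit 38793262715453) (nat_lit 76) (nat_lit 38203130577593) (nat_lit 1) (nat_lit 4) (nat_lit 2) (nat_lit 5) (nat_lit 2) (nat_lit 4) (nat_lit 341) (nat_lit 292) (nat_lit 147)) (XT.lf (nat_lit 0) (nat_lit 20167034692704) (nat_lit 76) (nat_lit 69731679346131) (nat_lit 76) (nat_lit 69141547207802) (nat_lit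 1) (nat_lit 4) (nat_lit 2) (nat_lit 5) (nat_lit 2) (nat_lit 4) (nat_lit 346) (nat_lit 292) (nat_lit 142))))) (XT.nd (nat_lit 156) (nat_lit 0) (nat_lit 0) (XT.nd (nat_lit 78) (nat_lit 0) (nat_lit 0) (XT.lf (nat_lit 0) (nat_lit 25403452187196) (nat_lit 76) (nat_lit 78961090196621) (nat_lit 76) (nat_lit 78370958058231) (nat_lit 1) (nat_lit 4) (nat_lit 2) (nat_lit 5) (nat_lit 2) (nat_lit 4) (nat_lit 347) (nat_lit 292) (nat_lit 141)) (XT.lf (nat_lit 0) (nat_lit 31425332305438) (nat_lit 76) (nat_lit 89574912674903) (nat_lit 76) (nat_lit 88984780536461) (nat_lit 1) (nat_lit 4) (nat_lit 2) (nat_lit 5) (nat_lit 2) (nat_lit 4) (nat_lit 348) (nat_lit 292) (nat_lit 140))) (XT.nd (nat_lit 36270) (nat_lit 0) (nat_lit 1672) (XT.lf (nat_lit 0) (nat_lit 38350494441049) (nat_lit 76) (nat_lit 101780808525119) (nat_lit 76) (nat_lit 101190676386631) (nat_lit 1) (nat_lit 4) (nat_lit 2) (nat_lit 5) (nat_lit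 2) (nat_lit 4) (nat_lit 349) (nat_lit 292) (nat_lit 139)) (XT.nd (nat_lit 78) (nat_lit 0) (nat_lit 0) (XT.lf (nat_lit 0) (nat_lit 37536071358) (nat_lit 380) (nat_lit 83636396571) (nat_lit 380) (nat_lit 83636396571) (nat_lit 23) (nat_lit 3) (nat_lit 28) (nat_lit 3) (nat_lit 28) (nat_lit 5) (nat_lit 293) (nat_lit 293) (nat_lit 194)) (XT.lf (nat_lit 76) (nat_lit 28646706489) (nat_lit 0) (nat_lit 53242401190) (nat_lit 380) (nat_lit 358271966714) (nat_lit 24) (nat_lit 5) (nat_lit 23) (nat_lit 3) (nat_lit 28) (nat_lit 5) (nat_lit 294) (nat_lit 293) (nat_lit 193))))))) (XT.nd (nat_lit 780) (nat_lit 532) (nat_lit 0) (XT.nd (nat_lit 390) (nat_lit 456) (nat_lit 0) (XT.nd (nat_lit 156) (nat_lit 228) (nat_lit 0) (XT.nd (nat_lit 78) (nat_lit 0) (nat_lit 0) (XT.lf (nat_lit 0) (nat_lit 105688958585) (nat_lit 304) (nat_lit 208437689793) (nat_lit 380) (nat_lit 158765222239) (nat_lit 24) (nat_lit 5) (nat_lit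 28) (nat_lit 5) (nat_lit 29) (nat_lit 5) (nat_lit 295) (nat_lit 293) (nat_lit 192)) (XT.lf (nat_lit 76) (nat_lit 24770318264) (nat_lit 0) (nat_lit 111849451810) (nat_lit 380) (nat_lit 373378368937) (nat_lit 25) (nat_lit 5) (nat_lit 24) (nat_lit 5) (nat_lit 29) (nat_lit 5) (nat_lit 296) (nat_lit 293) (nat_lit 191))) (XT.nd (nat_lit 78) (nat_lit 304) (nat_lit 0) (XT.lf (nat_lit 0) (nat_lit 188605398646) (nat_lit 304) (nat_lit 240170614053) (nat_lit 76) (nat_lit 121432055815) (nat_lit 25) (nat_lit 5) (nat_lit 29) (nat_lit 5) (nat_lit 26) (nat_lit 5) (nat_lit 297) (nat_lit 293) (nat_lit 190)) (XT.nd (nat_lit 78) (nat_lit 0) (nat_lit 0) (XT.lf (nat_lit 0) (nat_lit 39868318965) (nat_lit 304) (nat_lit 215497535730) (nat_lit 380) (nat_lit 340037085401) (nat_lit 21) (nat_lit 5) (nat_lit 25) (nat_lit 5) (nat_lit 26) (nat_lit 5) (nat_lit 298) (nat_lit 293) (nat_lit 189)) (XT.lf (nat_lit 0) (nat_lit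 346525364557) (nat_lit 380) (nat_lit 258419592078) (nat_lit 76) (nat_lit 40274338089) (nat_lit 21) (nat_lit 5) (nat_lit 26) (nat_lit 5) (nat_lit 22) (nat_lit 5) (nat_lit 299) (nat_lit 293) (nat_lit 188))))) (XT.nd (nat_lit 156) (nat_lit 304) (nat_lit 0) (XT.nd (nat_lit 78) (nat_lit 0) (nat_lit 0) (XT.lf (nat_lit 0) (nat_lit 80135037650) (nat_lit 152) (nat_lit 384803737390) (nat_lit 228) (nat_lit 235532331484) (nat_lit 19) (nat_lit 5) (nat_lit 21) (nat_lit 5) (nat_lit 22) (nat_lit 5) (nat_lit 300) (nat_lit 293) (nat_lit 187)) (XT.lf (nat_lit 0) (nat_lit 498515660506) (nat_lit 152) (nat_lit 116106801990) (nat_lit 228) (nat_lit 147361987876) (nat_lit 19) (nat_lit 5) (nat_lit 21) (nat_lit 5) (nat_lit 22) (nat_lit 5) (nat_lit 301) (nat_lit 293) (nat_lit 186))) (XT.nd (nat_lit 78) (nat_lit 228) (nat_lit 0) (XT.lf (nat_lit 0) (nat_lit 152519528734) (nat_lit 76) (nat_lit 648542012214) (nat_lit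 152) (nat_lit 29517829244) (nat_lit 18) (nat_lit 5) (nat_lit 19) (nat_lit 5) (nat_lit 20) (nat_lit 4) (nat_lit 302) (nat_lit 293) (nat_lit 185)) (XT.nd (nat_lit 78) (nat_lit 152) (nat_lit 0) (XT.lf (nat_lit 0) (nat_lit 116522758545) (nat_lit 152) (nat_lit 257455410201) (nat_lit 76) (nat_lit 531833417671) (nat_lit 17) (nat_lit 5) (nat_lit 19) (nat_lit 5) (nat_lit 18) (nat_lit 5) (nat_lit 303) (nat_lit 293) (nat_lit 184)) (XT.lf (nat_lit 0) (nat_lit 246806458319) (nat_lit 152) (nat_lit 44860618504) (nat_lit 228) (nat_lit 698917760796) (nat_lit 15) (nat_lit 5) (nat_lit 17) (nat_lit 5) (nat_lit 18) (nat_lit 5) (nat_lit 304) (nat_lit 293) (nat_lit 183)))))) (XT.nd (nat_lit 390) (nat_lit 304) (nat_lit 0) (XT.nd (nat_lit 156) (nat_lit 152) (nat_lit 0) (XT.nd (nat_lit 78) (nat_lit 76) (nat_lit 0) (XT.lf (nat_lit 0) (nat_lit 520996451158) (nat_lit 228) (nat_lit 244868876938) (nat_lit 76) (nat_lit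 318021737203) (nat_lit 15) (nat_lit 5) (nat_lit 18) (nat_lit 5) (nat_lit 16) (nat_lit 4) (nat_lit 305) (nat_lit 293) (nat_lit 182)) (XT.lf (nat_lit 0) (nat_lit 358672287337) (nat_lit 76) (nat_lit 443040999571) (nat_lit 152) (nat_lit 386923131970) (nat_lit 14) (nat_lit 5) (nat_lit 15) (nat_lit 5) (nat_lit 16) (nat_lit 4) (nat_lit 306) (nat_lit 293) (nat_lit 181))) (XT.nd (nat_lit 78) (nat_lit 152) (nat_lit 0) (XT.lf (nat_lit 0) (nat_lit 1080264519510) (nat_lit 76) (nat_lit 57073074613) (nat_lit 152) (nat_lit 169840589489) (nat_lit 14) (nat_lit 5) (nat_lit 15) (nat_lit 5) (nat_lit 16) (nat_lit 4) (nat_lit 307) (nat_lit 293) (nat_lit 180)) (XT.nd (nat_lit 78) (nat_lit 0) (nat_lit 0) (XT.lf (nat_lit 0) (nat_lit 110934512942) (nat_lit 152) (nat_lit 948457173259) (nat_lit 76) (nat_lit 377878610944) (nat_lit 12) (nat_lit 5) (nat_lit 14) (nat_lit 5) (nat_lit 13) (nat_lit 4) (nat_lit 308) (nat_lit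 293) (nat_lit 179)) (XT.lf (nat_lit 0) (nat_lit 431581413620) (nat_lit 152) (nat_lit 259066355434) (nat_lit 76) (nat_lit 892743715478) (nat_lit 12) (nat_lit 5) (nat_lit 14) (nat_lit 5) (nat_lit 13) (nat_lit 4) (nat_lit 309) (nat_lit 293) (nat_lit 178))))) (XT.nd (nat_lit 234) (nat_lit 152) (nat_lit 0) (XT.nd (nat_lit 78) (nat_lit 76) (nat_lit 0) (XT.lf (nat_lit 0) (nat_lit 585893337276) (nat_lit 76) (nat_lit 238692592117) (nat_lit 152) (nat_lit 923205833654) (nat_lit 11) (nat_lit 5) (nat_lit 12) (nat_lit 5) (nat_lit 13) (nat_lit 4) (nat_lit 310) (nat_lit 293) (nat_lit 177)) (XT.nd (nat_lit 78) (nat_lit 76) (nat_lit 0) (XT.lf (nat_lit 0) (nat_lit 1302366000204) (nat_lit 152) (nat_lit 360391068696) (nat_lit 0) (nat_lit 270221282805) (nat_lit 11) (nat_lit 5) (nat_lit 13) (nat_lit 4) (nat_lit 11) (nat_lit 4) (nat_lit 311) (nat_lit 293) (nat_lit 176)) (XT.lf (nat_lit 0) (nat_lit 603723716707)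 (nat_lit 76) (nat_lit 1284454578959) (nat_lit 76) (nat_lit 252309850907) (nat_lit 10) (nat_lit 4) (nat_lit 11) (nat_lit 5) (nat_lit 11) (nat_lit 4) (nat_lit 312) (nat_lit 293) (nat_lit 175)))) (XT.nd (nat_lit 78) (nat_lit 76) (nat_lit 0) (XT.lf (nat_lit 0) (nat_lit 186205112122) (nat_lit 152) (nat_lit 631803746252) (nat_lit 76) (nat_lit 1557020180024) (nat_lit 9) (nat_lit 5) (nat_lit 11) (nat_lit 5) (nat_lit 10) (nat_lit 4) (nat_lit 313) (nat_lit 293) (nat_lit 174)) (XT.nd (nat_lit 78) (nat_lit 0) (nat_lit 0) (XT.lf (nat_lit 0) (nat_lit 435672878749) (nat_lit 76) (nat_lit 247032992934) (nat_lit 152) (nat_lit 1957536937868) (nat_lit 8) (nat_lit 5) (nat_lit 9) (nat_lit 5) (nat_lit 10) (nat_lit 4) (nat_lit 314) (nat_lit 293) (nat_lit 173)) (XT.lf (nat_lit 0) (nat_lit 1305240729522) (nat_lit 152) (nat_lit 1224540515669) (nat_lit 0) (nat_lit 407723553542) (nat_lit 8) (nat_lit 5) (nat_lit 10)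 (nat_lit 4) (nat_lit 8) (nat_lit 4) (nat_lit 315) (nat_lit 293) (nat_lit 172))))))))
noncomputable def xc104 : XT := (XT.nd (nat_lit 1560) (nat_lit 76) (nat_lit 0) (XT.nd (nat_lit 780) (nat_lit 152) (nat_lit 0) (XT.nd (nat_lit 390) (nat_lit 76) (nat_lit 0) (XT.nd (nat_lit 156) (nat_lit 152) (nat_lit 0) (XT.nd (nat_lit 78) (nat_lit 76) (nat_lit 0) (XT.lf (nat_lit 0) (nat_lit 2032919283433) (nat_lit 152) (nat_lit 109270180600) (nat_lit 0) (nat_lit 1135402102157) (nat_lit 8) (nat_lit 5) (nat_lit 10) (nat_lit 4) (nat_lit 8) (nat_lit 4) (nat_lit 316) (nat_lit 293) (nat_lit 171)) (XT.lf (nat_lit 0) (nat_lit 1287953189686) (nat_lit 76) (nat_lit 1635127818408) (nat_lit 76) (nat_lit 737610632527) (nat_lit 7) (nat_lit 4) (nat_lit 8) (nat_lit 5) (nat_lit 8) (nat_lit 4) (nat_lit 317) (nat_lit 293) (nat_lit 170))) (XT.nd (nat_lit 78) (nat_lit 152) (nat_lit 0) (XT.lf (nat_lit 0) (nat_lit 2907040530087)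 (nat_lit 76) (nat_lit 1045438304757) (nat_lit 76) (nat_lit 147921114870) (nat_lit 7) (nat_lit 4) (nat_lit 8) (nat_lit 5) (nat_lit 8) (nat_lit 4) (nat_lit 318) (nat_lit 293) (nat_lit 169)) (XT.nd (nat_lit 78) (nat_lit 0) (nat_lit 0) (XT.lf (nat_lit 0) (nat_lit 154747819553) (nat_lit 76) (nat_lit 334677767852) (nat_lit 152) (nat_lit 4112384448847) (nat_lit 5) (nat_lit 5) (nat_lit 6) (nat_lit 5) (nat_lit 7) (nat_lit 4) (nat_lit 319) (nat_lit 293) (nat_lit 168)) (XT.lf (nat_lit 0) (nat_lit 1292568066220) (nat_lit 152) (nat_lit 3359887948568) (nat_lit 0) (nat_lit 512118330222) (nat_lit 5) (nat_lit 5) (nat_lit 7) (nat_lit 4) (nat_lit 5) (nat_lit 4) (nat_lit 320) (nat_lit 293) (nat_lit 167))))) (XT.nd (nat_lit 156) (nat_lit 76) (nat_lit 0) (XT.nd (nat_lit 78) (nat_lit 0) (nat_lit 0) (XT.lf (nat_lit 0) (nat_lit 2232118947979) (nat_lit 152) (nat_lit 2125574587747) (nat_lit 0) (nat_lit 1451669209691)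 (nat_lit 5) (nat_lit 5) (nat_lit 7) (nat_lit 4) (nat_lit 5) (nat_lit 4) (nat_lit 321) (nat_lit 293) (nat_lit 166)) (XT.lf (nat_lit 0) (nat_lit 3312602457269) (nat_lit 152) (nat_lit 706114232338) (nat_lit 0) (nat_lit 2532152716990) (nat_lit 5) (nat_lit 5) (nat_lit 7) (nat_lit 4) (nat_lit 5) (nat_lit 4) (nat_lit 322) (nat_lit 293) (nat_lit 165))) (XT.nd (nat_lit 78) (nat_lit 0) (nat_lit 0) (XT.lf (nat_lit 0) (nat_lit 1016786536790) (nat_lit 76) (nat_lit 3580474914233) (nat_lit 76) (nat_lit 2800025172223) (nat_lit 4) (nat_lit 4) (nat_lit 5) (nat_lit 5) (nat_lit 5) (nat_lit 4) (nat_lit 323) (nat_lit 293) (nat_lit 164)) (XT.nd (nat_lit 78) (nat_lit 0) (nat_lit 0) (XT.lf (nat_lit 0) (nat_lit 3077480024257) (nat_lit 76) (nat_lit 3034049782367) (nat_lit 76) (nat_lit 2253600038851) (nat_lit 4) (nat_lit 4) (nat_lit 5) (nat_lit 5) (nat_lit 5) (nat_lit 4) (nat_lit 324) (nat_lit 293) (nat_lit 163))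 (XT.lf (nat_lit 0) (nat_lit 5447277527963) (nat_lit 76) (nat_lit 2405660884207) (nat_lit 76) (nat_lit 1625211139382) (nat_lit 4) (nat_lit 4) (nat_lit 5) (nat_lit 5) (nat_lit 5) (nat_lit 4) (nat_lit 325) (nat_lit 293) (nat_lit 162)))))) (XT.nd (nat_lit 390) (nat_lit 0) (nat_lit 0) (XT.nd (nat_lit 156) (nat_lit 152) (nat_lit 0) (XT.nd (nat_lit 78) (nat_lit 0) (nat_lit 0) (XT.lf (nat_lit 0) (nat_lit 8172544651240) (nat_lit 76) (nat_lit 1683013654354) (nat_lit 76) (nat_lit 902563908390) (nat_lit 4) (nat_lit 4) (nat_lit 5) (nat_lit 5) (nat_lit 5) (nat_lit 4) (nat_lit 326) (nat_lit 293) (nat_lit 161)) (XT.lf (nat_lit 0) (nat_lit 11306601837804) (nat_lit 76) (nat_lit 851969342659) (nat_lit 76) (nat_lit 71519595705) (nat_lit 4) (nat_lit 4) (nat_lit 5) (nat_lit 5) (nat_lit 5) (nat_lit 4) (nat_lit 327) (nat_lit 293) (nat_lit 160))) (XT.nd (nat_lit 78) (nat_lit 0) (nat_lit 0) (XT.lf (nat_lit 0)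 (nat_lit 856804202212) (nat_lit 152) (nat_lit 12874705546531) (nat_lit 0) (nat_lit 178152247590) (nat_lit 2) (nat_lit 5) (nat_lit 4) (nat_lit 4) (nat_lit 2) (nat_lit 4) (nat_lit 328) (nat_lit 293) (nat_lit 159)) (XT.nd (nat_lit 78) (nat_lit 0) (nat_lit 0) (XT.lf (nat_lit 0) (nat_lit 2008196305165) (nat_lit 152) (nat_lit 12489246093261) (nat_lit 0) (nat_lit 1329544349893) (nat_lit 2) (nat_lit 5) (nat_lit 4) (nat_lit 4) (nat_lit 2) (nat_lit 4) (nat_lit 329) (nat_lit 293) (nat_lit 158)) (XT.lf (nat_lit 0) (nat_lit 3332297221545) (nat_lit 152) (nat_lit 12045967726154) (nat_lit 0) (nat_lit 2653645265706) (nat_lit 2) (nat_lit 5) (nat_lit 4) (nat_lit 4) (nat_lit 2) (nat_lit 4) (nat_lit 330) (nat_lit 293) (nat_lit 157))))) (XT.nd (nat_lit 156) (nat_lit 0) (nat_lit 0) (XT.nd (nat_lit 78) (nat_lit 0) (nat_lit 0) (XT.lf (nat_lit 0) (nat_lit 4855013273627) (nat_lit 152) (nat_lit 11536197607593) (nat_lit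 0) (nat_lit 4176361317297) (nat_lit 2) (nat_lit 5) (nat_lit 4) (nat_lit 4) (nat_lit 2) (nat_lit 4) (nat_lit 331) (nat_lit 293) (nat_lit 156)) (XT.lf (nat_lit 0) (nat_lit 6606136731998) (nat_lit 152) (nat_lit 10949961974389) (nat_lit 0) (nat_lit 5927484775239) (nat_lit 2) (nat_lit 5) (nat_lit 4) (nat_lit 4) (nat_lit 2) (nat_lit 4) (nat_lit 332) (nat_lit 293) (nat_lit 155))) (XT.nd (nat_lit 78) (nat_lit 0) (nat_lit 0) (XT.lf (nat_lit 0) (nat_lit 8619928707797) (nat_lit 152) (nat_lit 10275790998937) (nat_lit 0) (nat_lit 7941276750666) (nat_lit 2) (nat_lit 5) (nat_lit 4) (nat_lit 4) (nat_lit 2) (nat_lit 4) (nat_lit 333) (nat_lit 293) (nat_lit 154)) (XT.nd (nat_lit 78) (nat_lit 0) (nat_lit 0) (XT.lf (nat_lit 0) (nat_lit 10935789478814) (nat_lit 152) (nat_lit 9500494379542) (nat_lit 0) (nat_lit 10257137521359) (nat_lit 2) (nat_lit 5) (nat_lit 4) (nat_lit 4) (nat_lit 2) (nat_lit 4) (nat_lit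 334) (nat_lit 293) (nat_lit 153)) (XT.lf (nat_lit 0) (nat_lit 13599029364480) (nat_lit 152) (nat_lit 8608903269302) (nat_lit 0) (nat_lit 12920377406745) (nat_lit 2) (nat_lit 5) (nat_lit 4) (nat_lit 4) (nat_lit 2) (nat_lit 4) (nat_lit 335) (nat_lit 293) (nat_lit 152))))))) (XT.nd (nat_lit 37362) (nat_lit 0) (nat_lit 1292) (XT.nd (nat_lit 702) (nat_lit 76) (nat_lit 0) (XT.nd (nat_lit 156) (nat_lit 0) (nat_lit 0) (XT.nd (nat_lit 78) (nat_lit 0) (nat_lit 0) (XT.lf (nat_lit 0) (nat_lit 16661755232125) (nat_lit 152) (nat_lit 7583573494323) (nat_lit 0) (nat_lit 15983103274144) (nat_lit 2) (nat_lit 5) (nat_lit 4) (nat_lit 4) (nat_lit 2) (nat_lit 4) (nat_lit 336) (nat_lit 293) (nat_lit 151)) (XT.lf (nat_lit 0) (nat_lit 20183889979158) (nat_lit 152) (nat_lit 6404444254659) (nat_lit 0) (nat_lit 19505238020965) (nat_lit 2) (nat_lit 5) (nat_lit 4) (nat_lit 4) (nat_lit 2) (nat_lit 4) (nat_lit 337)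 (nat_lit 293) (nat_lit 150))) (XT.nd (nat_lit 78) (nat_lit 0) (nat_lit 0) (XT.lf (nat_lit 0) (nat_lit 24234344937587) (nat_lit 152) (nat_lit 5048445630403) (nat_lit 0) (nat_lit 23555692979208) (nat_lit 2) (nat_lit 5) (nat_lit 4) (nat_lit 4) (nat_lit 2) (nat_lit 4) (nat_lit 338) (nat_lit 293) (nat_lit 149)) (XT.nd (nat_lit 78) (nat_lit 0) (nat_lit 0) (XT.lf (nat_lit 0) (nat_lit 28892368139207) (nat_lit 152) (nat_lit 3489047213689) (nat_lit 0) (nat_lit 28213716180667) (nat_lit 2) (nat_lit 5) (nat_lit 4) (nat_lit 4) (nat_lit 2) (nat_lit 4) (nat_lit 339) (nat_lit 293) (nat_lit 148)) (XT.lf (nat_lit 0) (nat_lit 34249094820571) (nat_lit 152) (nat_lit 1695739035496) (nat_lit 0) (nat_lit 33570442861892) (nat_lit 2) (nat_lit 5) (nat_lit 4) (nat_lit 4) (nat_lit 2) (nat_lit 4) (nat_lit 340) (nat_lit 293) (nat_lit 147))))) (XT.nd (nat_lit 156) (nat_lit 0) (nat_lit 0) (XT.nd (nat_lit 78) (nat_lit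 0) (nat_lit 0) (XT.lf (nat_lit 0) (nat_lit 13402265889730) (nat_lit 76) (nat_lit 62936445742605) (nat_lit 76) (nat_lit 62257793783456) (nat_lit 1) (nat_lit 4) (nat_lit 2) (nat_lit 5) (nat_lit 2) (nat_lit 4) (nat_lit 345) (nat_lit 293) (nat_lit 142)) (XT.lf (nat_lit 0) (nat_lit 17955672406877) (nat_lit 76) (nat_lit 70962020395103) (nat_lit 76) (nat_lit 70283368435894) (nat_lit 1) (nat_lit 4) (nat_lit 2) (nat_lit 5) (nat_lit 2) (nat_lit 4) (nat_lit 346) (nat_lit 293) (nat_lit 141))) (XT.nd (nat_lit 78) (nat_lit 0) (nat_lit 0) (XT.lf (nat_lit 0) (nat_lit 23192089901172) (nat_lit 76) (nat_lit 80191431245695) (nat_lit 76) (nat_lit 79512779286434) (nat_lit 1) (nat_lit 4) (nat_lit 2) (nat_lit 5) (nat_lit 2) (nat_lit 4) (nat_lit 347) (nat_lit 293) (nat_lit 140)) (XT.nd (nat_lit 78) (nat_lit 0) (nat_lit 0) (XT.lf (nat_lit 0) (nat_lit 29213970019243) (nat_lit 76) (nat_lit 90805253724066) (nat_lit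 76) (nat_lit 90126601764759) (nat_lit 1) (nat_lit 4) (nat_lit 2) (nat_lit 5) (nat_lit 2) (nat_lit 4) (nat_lit 348) (nat_lit 293) (nat_lit 139)) (XT.lf (nat_lit 0) (nat_lit 36139132154704) (nat_lit 76) (nat_lit 103011149574358) (nat_lit 76) (nat_lit 102332497615011) (nat_lit 1) (nat_lit 4) (nat_lit 2) (nat_lit 5) (nat_lit 2) (nat_lit 4) (nat_lit 349) (nat_lit 293) (nat_lit 138)))))) (XT.nd (nat_lit 390) (nat_lit 380) (nat_lit 0) (XT.nd (nat_lit 156) (nat_lit 0) (nat_lit 76) (XT.nd (nat_lit 78) (nat_lit 0) (nat_lit 0) (XT.lf (nat_lit 0) (nat_lit 43166822585) (nat_lit 380) (nat_lit 96181659707) (nat_lit 380) (nat_lit 96181659707) (nat_lit 23) (nat_lit 3) (nat_lit 28) (nat_lit 3) (nat_lit 28) (nat_lit 5) (nat_lit 294) (nat_lit 294) (nat_lit 192)) (XT.lf (nat_lit 76) (nat_lit 32944087311) (nat_lit 0) (nat_lit 61228994256) (nat_lit 380) (nat_lit 412012060917) (nat_lit 24) (nat_lit 5) (nat_lit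 23) (nat_lit 3) (nat_lit 28) (nat_lit 5) (nat_lit 295) (nat_lit 294) (nat_lit 191))) (XT.nd (nat_lit 78) (nat_lit 0) (nat_lit 0) (XT.lf (nat_lit 0) (nat_lit 121542822453) (nat_lit 304) (nat_lit 239702927993) (nat_lit 380) (nat_lit 182579821093) (nat_lit 24) (nat_lit 5) (nat_lit 28) (nat_lit 5) (nat_lit 29) (nat_lit 5) (nat_lit 296) (nat_lit 294) (nat_lit 190)) (XT.nd (nat_lit 78) (nat_lit 0) (nat_lit 76) (XT.lf (nat_lit 76) (nat_lit 28486262398) (nat_lit 0) (nat_lit 128626941845) (nat_lit 380) (nat_lit 429384583878) (nat_lit 25) (nat_lit 5) (nat_lit 24) (nat_lit 5) (nat_lit 29) (nat_lit 5) (nat_lit 297) (nat_lit 294) (nat_lit 189)) (XT.lf (nat_lit 0) (nat_lit 216896613369) (nat_lit 304) (nat_lit 276195796485) (nat_lit 76) (nat_lit 139646806943) (nat_lit 25) (nat_lit 5) (nat_lit 29) (nat_lit 5) (nat_lit 26) (nat_lit 5) (nat_lit 298) (nat_lit 294) (nat_lit 188))))) (XT.nd (nat_lit 156)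 (nat_lit 228) (nat_lit 0) (XT.nd (nat_lit 78) (nat_lit 0) (nat_lit 0) (XT.lf (nat_lit 0) (nat_lit 45848957864) (nat_lit 304) (nat_lit 247822143339) (nat_lit 380) (nat_lit 391042223572) (nat_lit 21) (nat_lit 5) (nat_lit 25) (nat_lit 5) (nat_lit 26) (nat_lit 5) (nat_lit 299) (nat_lit 294) (nat_lit 187)) (XT.lf (nat_lit 0) (nat_lit 398504490323) (nat_lit 380) (nat_lit 297182142674) (nat_lit 76) (nat_lit 46315506825) (nat_lit 21) (nat_lit 5) (nat_lit 26) (nat_lit 5) (nat_lit 22) (nat_lit 5) (nat_lit 300) (nat_lit 294) (nat_lit 186))) (XT.nd (nat_lit 78) (nat_lit 76) (nat_lit 0) (XT.lf (nat_lit 0) (nat_lit 92155663867) (nat_lit 152) (nat_lit 442524221976) (nat_lit 228) (nat_lit 270861841653) (nat_lit 19) (nat_lit 5) (nat_lit 21) (nat_lit 5) (nat_lit 22) (nat_lit 5) (nat_lit 301) (nat_lit 294) (nat_lit 185)) (XT.nd (nat_lit 78) (nat_lit 76) (nat_lit 0) (XT.lf (nat_lit 0) (nat_lit 573293331816)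 (nat_lit 152) (nat_lit 133522756182) (nat_lit 228) (nat_lit 169465990794) (nat_lit 19) (nat_lit 5) (nat_lit 21) (nat_lit 5) (nat_lit 22) (nat_lit 5) (nat_lit 302) (nat_lit 294) (nat_lit 184)) (XT.lf (nat_lit 0) (nat_lit 175397800376) (nat_lit 76) (nat_lit 745823210990) (nat_lit 152) (nat_lit 33945227841) (nat_lit 18) (nat_lit 5) (nat_lit 19) (nat_lit 5) (nat_lit 20) (nat_lit 4) (nat_lit 303) (nat_lit 294) (nat_lit 183))))))))
noncomputable def xc105 : XT := (XT.nd (nat_lit 1560) (nat_lit 304) (nat_lit 0) (XT.nd (nat_lit 780) (nat_lit 380) (nat_lit 0) (XT.nd (nat_lit 390) (nat_lit 304) (nat_lit 0) (XT.nd (nat_lit 156) (nat_lit 76) (nat_lit 0) (XT.nd (nat_lit 78) (nat_lit 152) (nat_lit 0) (XT.lf (nat_lit 0) (nat_lit 134001390794) (nat_lit 152) (nat_lit 296073402230) (nat_lit 76) (nat_lit 611608498115) (nat_lit 17) (nat_lit 5) (nat_lit 19) (nat_lit 5) (nat_lit 18) (nat_lit 5) (nat_lit 304)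 (nat_lit 294) (nat_lit 182)) (XT.lf (nat_lit 0) (nat_lit 283827732046) (nat_lit 152) (nat_lit 51589608901) (nat_lit 228) (nat_lit 803755191516) (nat_lit 15) (nat_lit 5) (nat_lit 17) (nat_lit 5) (nat_lit 18) (nat_lit 5) (nat_lit 305) (nat_lit 294) (nat_lit 181))) (XT.nd (nat_lit 78) (nat_lit 76) (nat_lit 0) (XT.lf (nat_lit 0) (nat_lit 599146098692) (nat_lit 228) (nat_lit 281598920183) (nat_lit 76) (nat_lit 365725078883) (nat_lit 15) (nat_lit 5) (nat_lit 18) (nat_lit 5) (nat_lit 16) (nat_lit 4) (nat_lit 306) (nat_lit 294) (nat_lit 180)) (XT.nd (nat_lit 78) (nat_lit 0) (nat_lit 0) (XT.lf (nat_lit 0) (nat_lit 412473405629) (nat_lit 76) (nat_lit 509497042111) (nat_lit 152) (nat_lit 444961408491) (nat_lit 14) (nat_lit 5) (nat_lit 15) (nat_lit 5) (nat_lit 16) (nat_lit 4) (nat_lit 307) (nat_lit 294) (nat_lit 179)) (XT.lf (nat_lit 0) (nat_lit 1242304436733) (nat_lit 76) (nat_lit 65633942417) (nat_lit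 152) (nat_lit 195316509848) (nat_lit 14) (nat_lit 5) (nat_lit 15) (nat_lit 5) (nat_lit 16) (nat_lit 4) (nat_lit 308) (nat_lit 294) (nat_lit 178))))) (XT.nd (nat_lit 156) (nat_lit 152) (nat_lit 0) (XT.nd (nat_lit 78) (nat_lit 0) (nat_lit 0) (XT.lf (nat_lit 0) (nat_lit 127574837204) (nat_lit 152) (nat_lit 1090725488769) (nat_lit 76) (nat_lit 434560493440) (nat_lit 12) (nat_lit 5) (nat_lit 14) (nat_lit 5) (nat_lit 13) (nat_lit 4) (nat_lit 309) (nat_lit 294) (nat_lit 177)) (XT.lf (nat_lit 0) (nat_lit 496318753768) (nat_lit 152) (nat_lit 297926082246) (nat_lit 76) (nat_lit 1026655351804) (nat_lit 12) (nat_lit 5) (nat_lit 14) (nat_lit 5) (nat_lit 13) (nat_lit 4) (nat_lit 310) (nat_lit 294) (nat_lit 176))) (XT.nd (nat_lit 78) (nat_lit 76) (nat_lit 0) (XT.lf (nat_lit 0) (nat_lit 673777554074) (nat_lit 76) (nat_lit 274496385076) (nat_lit 152) (nat_lit 1061686570147) (nat_lit 11) (nat_lit 5) (nat_lit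 12) (nat_lit 5) (nat_lit 13) (nat_lit 4) (nat_lit 311) (nat_lit 294) (nat_lit 175)) (XT.nd (nat_lit 78) (nat_lit 76) (nat_lit 0) (XT.lf (nat_lit 0) (nat_lit 1497721008337) (nat_lit 152) (nat_lit 414449528614) (nat_lit 0) (nat_lit 310754551160) (nat_lit 11) (nat_lit 5) (nat_lit 13) (nat_lit 4) (nat_lit 11) (nat_lit 4) (nat_lit 312) (nat_lit 294) (nat_lit 174)) (XT.lf (nat_lit 0) (nat_lit 694282465491) (nat_lit 76) (nat_lit 1477122676448) (nat_lit 76) (nat_lit 290156211215) (nat_lit 10) (nat_lit 4) (nat_lit 11) (nat_lit 5) (nat_lit 11) (nat_lit 4) (nat_lit 313) (nat_lit 294) (nat_lit 173)))))) (XT.nd (nat_lit 390) (nat_lit 152) (nat_lit 0) (XT.nd (nat_lit 156) (nat_lit 76) (nat_lit 0) (XT.nd (nat_lit 78) (nat_lit 76) (nat_lit 0) (XT.lf (nat_lit 0) (nat_lit 214135971882) (nat_lit 152) (nat_lit 726574132690) (nat_lit 76) (nat_lit 1790573275557) (nat_lit 9) (nat_lit 5) (nat_lit 11) (nat_lit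 5) (nat_lit 10) (nat_lit 4) (nat_lit 314) (nat_lit 294) (nat_lit 172)) (XT.lf (nat_lit 0) (nat_lit 501023978083) (nat_lit 76) (nat_lit 284087862108) (nat_lit 152) (nat_lit 2251167377553) (nat_lit 8) (nat_lit 5) (nat_lit 9) (nat_lit 5) (nat_lit 10) (nat_lit 4) (nat_lit 315) (nat_lit 294) (nat_lit 171))) (XT.nd (nat_lit 78) (nat_lit 76) (nat_lit 0) (XT.lf (nat_lit 0) (nat_lit 1501026918131) (nat_lit 152) (nat_lit 1408221438707) (nat_lit 0) (nat_lit 468882149761) (nat_lit 8) (nat_lit 5) (nat_lit 10) (nat_lit 4) (nat_lit 8) (nat_lit 4) (nat_lit 316) (nat_lit 294) (nat_lit 170)) (XT.nd (nat_lit 78) (nat_lit 76) (nat_lit 0) (XT.lf (nat_lit 0) (nat_lit 2337857244801) (nat_lit 152) (nat_lit 125660573505) (nat_lit 0) (nat_lit 1305712472426) (nat_lit 8) (nat_lit 5) (nat_lit 10) (nat_lit 4) (nat_lit 8) (nat_lit 4) (nat_lit 317) (nat_lit 294) (nat_lit 169)) (XT.lf (nat_lit 0) (nat_lit 1481146296224)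 (nat_lit 76) (nat_lit 1880396928260) (nat_lit 76) (nat_lit 848252152403) (nat_lit 7) (nat_lit 4) (nat_lit 8) (nat_lit 5) (nat_lit 8) (nat_lit 4) (nat_lit 318) (nat_lit 294) (nat_lit 168))))) (XT.nd (nat_lit 156) (nat_lit 0) (nat_lit 0) (XT.nd (nat_lit 78) (nat_lit 152) (nat_lit 0) (XT.lf (nat_lit 0) (nat_lit 3343096720979) (nat_lit 76) (nat_lit 1202253995767) (nat_lit 76) (nat_lit 170109216881) (nat_lit 7) (nat_lit 4) (nat_lit 8) (nat_lit 5) (nat_lit 8) (nat_lit 4) (nat_lit 319) (nat_lit 294) (nat_lit 167)) (XT.lf (nat_lit 0) (nat_lit 177960104381) (nat_lit 76) (nat_lit 384879377432) (nat_lit 152) (nat_lit 4729242051399) (nat_lit 5) (nat_lit 5) (nat_lit 6) (nat_lit 5) (nat_lit 7) (nat_lit 4) (nat_lit 320) (nat_lit 294) (nat_lit 166))) (XT.nd (nat_lit 78) (nat_lit 0) (nat_lit 0) (XT.lf (nat_lit 0) (nat_lit 1486453327109) (nat_lit 152) (nat_lit 3863871038184) (nat_lit 0) (nat_lit 588936123797)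 (nat_lit 5) (nat_lit 5) (nat_lit 7) (nat_lit 4) (nat_lit 5) (nat_lit 4) (nat_lit 321) (nat_lit 294) (nat_lit 165)) (XT.nd (nat_lit 78) (nat_lit 0) (nat_lit 0) (XT.lf (nat_lit 0) (nat_lit 2566936834485) (nat_lit 152) (nat_lit 2444410686631) (nat_lit 0) (nat_lit 1669419629442) (nat_lit 5) (nat_lit 5) (nat_lit 7) (nat_lit 4) (nat_lit 5) (nat_lit 4) (nat_lit 322) (nat_lit 294) (nat_lit 164)) (XT.lf (nat_lit 0) (nat_lit 3809492864389) (nat_lit 152) (nat_lit 812031289556) (nat_lit 0) (nat_lit 2911975657840) (nat_lit 5) (nat_lit 5) (nat_lit 7) (nat_lit 4) (nat_lit 5) (nat_lit 4) (nat_lit 323) (nat_lit 294) (nat_lit 163))))))) (XT.nd (nat_lit 780) (nat_lit 76) (nat_lit 0) (XT.nd (nat_lit 390) (nat_lit 152) (nat_lit 0) (XT.nd (nat_lit 156) (nat_lit 0) (nat_lit 0) (XT.nd (nat_lit 78) (nat_lit 0) (nat_lit 0) (XT.lf (nat_lit 0) (nat_lit 1169304591412) (nat_lit 76) (nat_lit 4117546113837) (nat_lit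 76) (nat_lit 3220028905978) (nat_lit 4) (nat_lit 4) (nat_lit 5) (nat_lit 5) (nat_lit 5) (nat_lit 4) (nat_lit 324) (nat_lit 294) (nat_lit 162)) (XT.lf (nat_lit 0) (nat_lit 3539102092334) (nat_lit 76) (nat_lit 3489157217087) (nat_lit 76) (nat_lit 2591640008090) (nat_lit 4) (nat_lit 4) (nat_lit 5) (nat_lit 5) (nat_lit 5) (nat_lit 4) (nat_lit 325) (nat_lit 294) (nat_lit 161))) (XT.nd (nat_lit 78) (nat_lit 0) (nat_lit 0) (XT.lf (nat_lit 0) (nat_lit 6264369213191) (nat_lit 76) (nat_lit 2766509988459) (nat_lit 76) (nat_lit 1868992778472) (nat_lit 4) (nat_lit 4) (nat_lit 5) (nat_lit 5) (nat_lit 5) (nat_lit 4) (nat_lit 326) (nat_lit 294) (nat_lit 160)) (XT.nd (nat_lit 78) (nat_lit 0) (nat_lit 0) (XT.lf (nat_lit 0) (nat_lit 9398426397651) (nat_lit 76) (nat_lit 1935465677830) (nat_lit 76) (nat_lit 1037948466982) (nat_lit 4) (nat_lit 4) (nat_lit 5) (nat_lit 5) (nat_lit 5) (nat_lit 4) (nat_lit 327)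 (nat_lit 294) (nat_lit 159)) (XT.lf (nat_lit 0) (nat_lit 13002592155844) (nat_lit 76) (nat_lit 979764722599) (nat_lit 76) (nat_lit 82247511003) (nat_lit 4) (nat_lit 4) (nat_lit 5) (nat_lit 5) (nat_lit 5) (nat_lit 4) (nat_lit 328) (nat_lit 294) (nat_lit 158))))) (XT.nd (nat_lit 156) (nat_lit 0) (nat_lit 0) (XT.nd (nat_lit 78) (nat_lit 0) (nat_lit 0) (XT.lf (nat_lit 0) (nat_lit 985324854259) (nat_lit 152) (nat_lit 14805911333781) (nat_lit 0) (nat_lit 204875104478) (nat_lit 2) (nat_lit 5) (nat_lit 4) (nat_lit 4) (nat_lit 2) (nat_lit 4) (nat_lit 329) (nat_lit 294) (nat_lit 157)) (XT.lf (nat_lit 0) (nat_lit 2309425769822) (nat_lit 152) (nat_lit 14362632968354) (nat_lit 0) (nat_lit 1528976019550) (nat_lit 2) (nat_lit 5) (nat_lit 4) (nat_lit 4) (nat_lit 2) (nat_lit 4) (nat_lit 330) (nat_lit 294) (nat_lit 156))) (XT.nd (nat_lit 78) (nat_lit 0) (nat_lit 0) (XT.lf (nat_lit 0) (nat_lit 3832141821196)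 (nat_lit 152) (nat_lit 13852862851254) (nat_lit 0) (nat_lit 3051692070495) (nat_lit 2) (nat_lit 5) (nat_lit 4) (nat_lit 4) (nat_lit 2) (nat_lit 4) (nat_lit 331) (nat_lit 294) (nat_lit 155)) (XT.nd (nat_lit 78) (nat_lit 0) (nat_lit 0) (XT.lf (nat_lit 0) (nat_lit 5583265278949) (nat_lit 152) (nat_lit 13266627219321) (nat_lit 0) (nat_lit 4802815527877) (nat_lit 2) (nat_lit 5) (nat_lit 4) (nat_lit 4) (nat_lit 2) (nat_lit 4) (nat_lit 332) (nat_lit 294) (nat_lit 154)) (XT.lf (nat_lit 0) (nat_lit 7597057254213) (nat_lit 152) (nat_lit 12592456244973) (nat_lit 0) (nat_lit 6816607502817) (nat_lit 2) (nat_lit 5) (nat_lit 4) (nat_lit 4) (nat_lit 2) (nat_lit 4) (nat_lit 333) (nat_lit 294) (nat_lit 153)))))) (XT.nd (nat_lit 390) (nat_lit 76) (nat_lit 0) (XT.nd (nat_lit 156) (nat_lit 0) (nat_lit 0) (XT.nd (nat_lit 78) (nat_lit 0) (nat_lit 0) (XT.lf (nat_lit 0) (nat_lit 9912918024763) (nat_lit 152) (nat_lit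 11817159626539) (nat_lit 0) (nat_lit 9132468273086) (nat_lit 2) (nat_lit 5) (nat_lit 4) (nat_lit 4) (nat_lit 2) (nat_lit 4) (nat_lit 334) (nat_lit 294) (nat_lit 152)) (XT.lf (nat_lit 0) (nat_lit 12576157910024) (nat_lit 152) (nat_lit 10925568517135) (nat_lit 0) (nat_lit 11795708158102) (nat_lit 2) (nat_lit 5) (nat_lit 4) (nat_lit 4) (nat_lit 2) (nat_lit 4) (nat_lit 335) (nat_lit 294) (nat_lit 151))) (XT.nd (nat_lit 78) (nat_lit 0) (nat_lit 0) (XT.lf (nat_lit 0) (nat_lit 15638883777316) (nat_lit 152) (nat_lit 9900238742882) (nat_lit 0) (nat_lit 14858434025181) (nat_lit 2) (nat_lit 5) (nat_lit 4) (nat_lit 4) (nat_lit 2) (nat_lit 4) (nat_lit 336) (nat_lit 294) (nat_lit 150)) (XT.nd (nat_lit 78) (nat_lit 0) (nat_lit 0) (XT.lf (nat_lit 0) (nat_lit 19161018524042) (nat_lit 152) (nat_lit 8721109503849) (nat_lit 0) (nat_lit 18380568771722) (nat_lit 2) (nat_lit 5) (nat_lit 4) (nat_lit 4) (nat_lit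 2) (nat_lit 4) (nat_lit 337) (nat_lit 294) (nat_lit 149)) (XT.lf (nat_lit 0) (nat_lit 23211473482205) (nat_lit 152) (nat_lit 7365110880143) (nat_lit 0) (nat_lit 22431023729724) (nat_lit 2) (nat_lit 5) (nat_lit 4) (nat_lit 4) (nat_lit 2) (nat_lit 4) (nat_lit 338) (nat_lit 294) (nat_lit 148))))) (XT.nd (nat_lit 468) (nat_lit 0) (nat_lit 0) (XT.nd (nat_lit 78) (nat_lit 76) (nat_lit 0) (XT.lf (nat_lit 0) (nat_lit 27869496683593) (nat_lit 152) (nat_lit 5805712463907) (nat_lit 0) (nat_lit 27089046930972) (nat_lit 2) (nat_lit 5) (nat_lit 4) (nat_lit 4) (nat_lit 2) (nat_lit 4) (nat_lit 339) (nat_lit 294) (nat_lit 147)) (XT.nd (nat_lit 312) (nat_lit 76) (nat_lit 0) (XT.lf (nat_lit 0) (nat_lit 33226223364755) (nat_lit 152) (nat_lit 4012404286128) (nat_lit 0) (nat_lit 32445773612013) (nat_lit 2) (nat_lit 5) (nat_lit 4) (nat_lit 4) (nat_lit 2) (nat_lit 4) (nat_lit 340) (nat_lit 294) (nat_lit 146))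 (XT.lf (nat_lit 0) (nat_lit 6899715332652) (nat_lit 76) (nat_lit 57372577381751) (nat_lit 76) (nat_lit 56592127628661) (nat_lit 1) (nat_lit 4) (nat_lit 2) (nat_lit 5) (nat_lit 2) (nat_lit 4) (nat_lit 344) (nat_lit 294) (nat_lit 142)))) (XT.nd (nat_lit 78) (nat_lit 0) (nat_lit 0) (XT.lf (nat_lit 0) (nat_lit 10859199260803) (nat_lit 76) (nat_lit 64351337949039) (nat_lit 76) (nat_lit 63570888195889) (nat_lit 1) (nat_lit 4) (nat_lit 2) (nat_lit 5) (nat_lit 2) (nat_lit 4) (nat_lit 345) (nat_lit 294) (nat_lit 141)) (XT.nd (nat_lit 78) (nat_lit 0) (nat_lit 0) (XT.lf (nat_lit 0) (nat_lit 15412605777753) (nat_lit 76) (nat_lit 72376912601639) (nat_lit 76) (nat_lit 71596462848436) (nat_lit 1) (nat_lit 4) (nat_lit 2) (nat_lit 5) (nat_lit 2) (nat_lit 4) (nat_lit 346) (nat_lit 294) (nat_lit 140)) (XT.lf (nat_lit 0) (nat_lit 20649023271877) (nat_lit 76) (nat_lit 81606323452320) (nat_lit 76) (nat_lit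 80825873699071) (nat_lit 1) (nat_lit 4) (nat_lit 2) (nat_lit 5) (nat_lit 2) (nat_lit 4) (nat_lit 347) (nat_lit 294) (nat_lit 139))))))))
noncomputable def xc106 : XT := (XT.nd (nat_lit 37908) (nat_lit 0) (nat_lit 76) (XT.nd (nat_lit 37128) (nat_lit 0) (nat_lit 760) (XT.nd (nat_lit 36738) (nat_lit 0) (nat_lit 1368) (XT.nd (nat_lit 36504) (nat_lit 0) (nat_lit 1672) (XT.nd (nat_lit 78) (nat_lit 0) (nat_lit 0) (XT.lf (nat_lit 0) (nat_lit 26670903389798) (nat_lit 76) (nat_lit 92220145930768) (nat_lit 76) (nat_lit 91439696177479) (nat_lit 1) (nat_lit 4) (nat_lit 2) (nat_lit 5) (nat_lit 2) (nat_lit 4) (nat_lit 348) (nat_lit 294) (nat_lit 138)) (XT.lf (nat_lit 0) (nat_lit 33596065525130) (nat_lit 76) (nat_lit 104426041781127) (nat_lit 76) (nat_lit 103645592027804) (nat_lit 1) (nat_lit 4) (nat_lit 2) (nat_lit 5) (nat_lit 2) (nat_lit 4) (nat_lit 349) (nat_lit 294) (nat_lit 137))) (XT.nd (nat_lit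 78) (nat_lit 0) (nat_lit 0) (XT.lf (nat_lit 0) (nat_lit 49642103457) (nat_lit 380) (nat_lit 110608760195) (nat_lit 380) (nat_lit 110608760195) (nat_lit 23) (nat_lit 3) (nat_lit 28) (nat_lit 3) (nat_lit 28) (nat_lit 5) (nat_lit 295) (nat_lit 295) (nat_lit 190)) (XT.nd (nat_lit 78) (nat_lit 0) (nat_lit 76) (XT.lf (nat_lit 76) (nat_lit 37885983847) (nat_lit 0) (nat_lit 70413519490) (nat_lit 380) (nat_lit 473813340146) (nat_lit 24) (nat_lit 5) (nat_lit 23) (nat_lit 3) (nat_lit 28) (nat_lit 5) (nat_lit 296) (nat_lit 295) (nat_lit 189)) (XT.lf (nat_lit 0) (nat_lit 139774639077) (nat_lit 304) (nat_lit 275658053189) (nat_lit 380) (nat_lit 209966654762) (nat_lit 24) (nat_lit 5) (nat_lit 28) (nat_lit 5) (nat_lit 29) (nat_lit 5) (nat_lit 297) (nat_lit 295) (nat_lit 188))))) (XT.nd (nat_lit 156) (nat_lit 380) (nat_lit 0) (XT.nd (nat_lit 78) (nat_lit 0) (nat_lit 76) (XT.lf (nat_lit 76) (nat_lit 32759501488)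 (nat_lit 0) (nat_lit 147921037764) (nat_lit 380) (nat_lit 493791862841) (nat_lit 25) (nat_lit 5) (nat_lit 24) (nat_lit 5) (nat_lit 29) (nat_lit 5) (nat_lit 298) (nat_lit 295) (nat_lit 187)) (XT.lf (nat_lit 0) (nat_lit 249431411557) (nat_lit 304) (nat_lit 317624856185) (nat_lit 76) (nat_lit 160593784700) (nat_lit 25) (nat_lit 5) (nat_lit 29) (nat_lit 5) (nat_lit 26) (nat_lit 5) (nat_lit 299) (nat_lit 295) (nat_lit 186))) (XT.nd (nat_lit 78) (nat_lit 152) (nat_lit 0) (XT.lf (nat_lit 0) (nat_lit 52726597237) (nat_lit 304) (nat_lit 284995447636) (nat_lit 380) (nat_lit 449698236020) (nat_lit 21) (nat_lit 5) (nat_lit 25) (nat_lit 5) (nat_lit 26) (nat_lit 5) (nat_lit 300) (nat_lit 295) (nat_lit 185)) (XT.nd (nat_lit 78) (nat_lit 152) (nat_lit 0) (XT.lf (nat_lit 0) (nat_lit 458280406656) (nat_lit 380) (nat_lit 341759170528) (nat_lit 76) (nat_lit 53262846476) (nat_lit 21) (nat_lit 5) (nat_lit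 26) (nat_lit 5) (nat_lit 22) (nat_lit 5) (nat_lit 301) (nat_lit 295) (nat_lit 184)) (XT.lf (nat_lit 0) (nat_lit 105979293651) (nat_lit 152) (nat_lit 508902797788) (nat_lit 228) (nat_lit 311490861150) (nat_lit 19) (nat_lit 5) (nat_lit 21) (nat_lit 5) (nat_lit 22) (nat_lit 5) (nat_lit 302) (nat_lit 295) (nat_lit 183)))))) (XT.nd (nat_lit 390) (nat_lit 304) (nat_lit 0) (XT.nd (nat_lit 156) (nat_lit 228) (nat_lit 0) (XT.nd (nat_lit 78) (nat_lit 76) (nat_lit 0) (XT.lf (nat_lit 0) (nat_lit 659287575244) (nat_lit 152) (nat_lit 153551119623) (nat_lit 228) (nat_lit 194885666152) (nat_lit 19) (nat_lit 5) (nat_lit 21) (nat_lit 5) (nat_lit 22) (nat_lit 5) (nat_lit 303) (nat_lit 295) (nat_lit 182)) (XT.lf (nat_lit 0) (nat_lit 201707729285) (nat_lit 76) (nat_lit 857696614713) (nat_lit 152) (nat_lit 39036803481) (nat_lit 18) (nat_lit 5) (nat_lit 19) (nat_lit 5) (nat_lit 20) (nat_lit 4) (nat_lit 304)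 (nat_lit 295) (nat_lit 181))) (XT.nd (nat_lit 78) (nat_lit 152) (nat_lit 0) (XT.lf (nat_lit 0) (nat_lit 154101764606) (nat_lit 152) (nat_lit 340484170975) (nat_lit 76) (nat_lit 703349824093) (nat_lit 17) (nat_lit 5) (nat_lit 19) (nat_lit 5) (nat_lit 18) (nat_lit 5) (nat_lit 305) (nat_lit 295) (nat_lit 180)) (XT.nd (nat_lit 78) (nat_lit 0) (nat_lit 0) (XT.lf (nat_lit 0) (nat_lit 326402122461) (nat_lit 152) (nat_lit 59327972823) (nat_lit 228) (nat_lit 924318293759) (nat_lit 15) (nat_lit 5) (nat_lit 17) (nat_lit 5) (nat_lit 18) (nat_lit 5) (nat_lit 306) (nat_lit 295) (nat_lit 179)) (XT.lf (nat_lit 0) (nat_lit 689018149495) (nat_lit 228) (nat_lit 323838540219) (nat_lit 76) (nat_lit 420583902039) (nat_lit 15) (nat_lit 5) (nat_lit 18) (nat_lit 5) (nat_lit 16) (nat_lit 4) (nat_lit 307) (nat_lit 295) (nat_lit 178))))) (XT.nd (nat_lit 156) (nat_lit 228) (nat_lit 0) (XT.nd (nat_lit 78) (nat_lit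 0) (nat_lit 0) (XT.lf (nat_lit 0) (nat_lit 474344624557) (nat_lit 76) (nat_lit 585921517222) (nat_lit 152) (nat_lit 511705473621) (nat_lit 14) (nat_lit 5) (nat_lit 15) (nat_lit 5) (nat_lit 16) (nat_lit 4) (nat_lit 308) (nat_lit 295) (nat_lit 177)) (XT.lf (nat_lit 0) (nat_lit 1428650283185) (nat_lit 76) (nat_lit 75478963165) (nat_lit 152) (nat_lit 224613859244) (nat_lit 14) (nat_lit 5) (nat_lit 15) (nat_lit 5) (nat_lit 16) (nat_lit 4) (nat_lit 309) (nat_lit 295) (nat_lit 176))) (XT.nd (nat_lit 78) (nat_lit 76) (nat_lit 0) (XT.lf (nat_lit 0) (nat_lit 146711174181) (nat_lit 152) (nat_lit 1254334115126) (nat_lit 76) (nat_lit 499744636155) (nat_lit 12) (nat_lit 5) (nat_lit 14) (nat_lit 5) (nat_lit 13) (nat_lit 4) (nat_lit 310) (nat_lit 295) (nat_lit 175)) (XT.nd (nat_lit 78) (nat_lit 76) (nat_lit 0) (XT.lf (nat_lit 0) (nat_lit 570766663700) (nat_lit 152) (nat_lit 342614823315) (nat_lit 76)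 (nat_lit 1180653714313) (nat_lit 12) (nat_lit 5) (nat_lit 14) (nat_lit 5) (nat_lit 13) (nat_lit 4) (nat_lit 311) (nat_lit 295) (nat_lit 174)) (XT.lf (nat_lit 0) (nat_lit 774844350669) (nat_lit 76) (nat_lit 315670770355) (nat_lit 152) (nat_lit 1220939450902) (nat_lit 11) (nat_lit 5) (nat_lit 12) (nat_lit 5) (nat_lit 13) (nat_lit 4) (nat_lit 312) (nat_lit 295) (nat_lit 173))))))) (XT.nd (nat_lit 780) (nat_lit 228) (nat_lit 0) (XT.nd (nat_lit 390) (nat_lit 228) (nat_lit 0) (XT.nd (nat_lit 156) (nat_lit 152) (nat_lit 0) (XT.nd (nat_lit 78) (nat_lit 76) (nat_lit 0) (XT.lf (nat_lit 0) (nat_lit 1722379241329) (nat_lit 152) (nat_lit 476616806386) (nat_lit 0) (nat_lit 357367791251) (nat_lit 11) (nat_lit 5) (nat_lit 13) (nat_lit 4) (nat_lit 11) (nat_lit 4) (nat_lit 313) (nat_lit 295) (nat_lit 172)) (XT.lf (nat_lit 0) (nat_lit 798424979948) (nat_lit 76) (nat_lit 1698691010350) (nat_lit 76) (nat_lit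 333679554181) (nat_lit 10) (nat_lit 4) (nat_lit 11) (nat_lit 5) (nat_lit 11) (nat_lit 4) (nat_lit 314) (nat_lit 295) (nat_lit 171))) (XT.nd (nat_lit 78) (nat_lit 76) (nat_lit 0) (XT.lf (nat_lit 0) (nat_lit 246256437941) (nat_lit 152) (nat_lit 835560119891) (nat_lit 76) (nat_lit 2059159318709) (nat_lit 9) (nat_lit 5) (nat_lit 11) (nat_lit 5) (nat_lit 10) (nat_lit 4) (nat_lit 315) (nat_lit 295) (nat_lit 170)) (XT.nd (nat_lit 78) (nat_lit 0) (nat_lit 0) (XT.lf (nat_lit 0) (nat_lit 576177701467) (nat_lit 76) (nat_lit 326700981108) (nat_lit 152) (nat_lit 2588842407819) (nat_lit 8) (nat_lit 5) (nat_lit 9) (nat_lit 5) (nat_lit 10) (nat_lit 4) (nat_lit 316) (nat_lit 295) (nat_lit 169)) (XT.lf (nat_lit 0) (nat_lit 1726181015723) (nat_lit 152) (nat_lit 1619454537830) (nat_lit 0) (nat_lit 539214520004) (nat_lit 8) (nat_lit 5) (nat_lit 10) (nat_lit 4) (nat_lit 8) (nat_lit 4) (nat_lit 317) (nat_lit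 295) (nat_lit 168))))) (XT.nd (nat_lit 156) (nat_lit 152) (nat_lit 0) (XT.nd (nat_lit 78) (nat_lit 76) (nat_lit 0) (XT.lf (nat_lit 0) (nat_lit 2688535883584) (nat_lit 152) (nat_lit 144509558068) (nat_lit 0) (nat_lit 1501569384837) (nat_lit 8) (nat_lit 5) (nat_lit 10) (nat_lit 4) (nat_lit 8) (nat_lit 4) (nat_lit 318) (nat_lit 295) (nat_lit 167)) (XT.lf (nat_lit 0) (nat_lit 1703318337509) (nat_lit 76) (nat_lit 2162456419931) (nat_lit 76) (nat_lit 975489918550) (nat_lit 7) (nat_lit 4) (nat_lit 8) (nat_lit 5) (nat_lit 8) (nat_lit 4) (nat_lit 319) (nat_lit 295) (nat_lit 166))) (XT.nd (nat_lit 78) (nat_lit 152) (nat_lit 0) (XT.lf (nat_lit 0) (nat_lit 3844561313344) (nat_lit 76) (nat_lit 1382592053768) (nat_lit 76) (nat_lit 195625550098) (nat_lit 7) (nat_lit 4) (nat_lit 8) (nat_lit 5) (nat_lit 8) (nat_lit 4) (nat_lit 320) (nat_lit 295) (nat_lit 165)) (XT.nd (nat_lit 78) (nat_lit 0) (nat_lit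 0) (XT.lf (nat_lit 0) (nat_lit 204654204647) (nat_lit 76) (nat_lit 442611242007) (nat_lit 152) (nat_lit 5438628310130) (nat_lit 5) (nat_lit 5) (nat_lit 6) (nat_lit 5) (nat_lit 7) (nat_lit 4) (nat_lit 321) (nat_lit 295) (nat_lit 164)) (XT.lf (nat_lit 0) (nat_lit 1709421364706) (nat_lit 152) (nat_lit 4443451616278) (nat_lit 0) (nat_lit 677276575668) (nat_lit 5) (nat_lit 5) (nat_lit 7) (nat_lit 4) (nat_lit 5) (nat_lit 4) (nat_lit 322) (nat_lit 295) (nat_lit 163)))))) (XT.nd (nat_lit 390) (nat_lit 152) (nat_lit 0) (XT.nd (nat_lit 156) (nat_lit 76) (nat_lit 0) (XT.nd (nat_lit 78) (nat_lit 0) (nat_lit 0) (XT.lf (nat_lit 0) (nat_lit 2951977393163) (nat_lit 152) (nat_lit 2811072222119) (nat_lit 0) (nat_lit 1919832602816) (nat_lit 5) (nat_lit 5) (nat_lit 7) (nat_lit 4) (nat_lit 5) (nat_lit 4) (nat_lit 323) (nat_lit 295) (nat_lit 162)) (XT.lf (nat_lit 0) (nat_lit 4380916823182) (nat_lit 152) (nat_lit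 933835924287) (nat_lit 0) (nat_lit 3348772031697) (nat_lit 5) (nat_lit 5) (nat_lit 7) (nat_lit 4) (nat_lit 5) (nat_lit 4) (nat_lit 324) (nat_lit 295) (nat_lit 161))) (XT.nd (nat_lit 78) (nat_lit 0) (nat_lit 0) (XT.lf (nat_lit 0) (nat_lit 1344700336158) (nat_lit 76) (nat_lit 4735178002533) (nat_lit 76) (nat_lit 3703033210058) (nat_lit 4) (nat_lit 4) (nat_lit 5) (nat_lit 5) (nat_lit 5) (nat_lit 4) (nat_lit 325) (nat_lit 295) (nat_lit 160)) (XT.nd (nat_lit 78) (nat_lit 0) (nat_lit 0) (XT.lf (nat_lit 0) (nat_lit 4069967454909) (nat_lit 76) (nat_lit 4012530774972) (nat_lit 76) (nat_lit 2980385981636) (nat_lit 4) (nat_lit 4) (nat_lit 5) (nat_lit 5) (nat_lit 5) (nat_lit 4) (nat_lit 326) (nat_lit 295) (nat_lit 159)) (XT.lf (nat_lit 0) (nat_lit 7204024637539) (nat_lit 76) (nat_lit 3181486465270) (nat_lit 76) (nat_lit 2149341671185) (nat_lit 4) (nat_lit 4) (nat_lit 5) (nat_lit 5) (nat_lit 5) (nat_lit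 4) (nat_lit 327) (nat_lit 295) (nat_lit 158))))) (XT.nd (nat_lit 156) (nat_lit 152) (nat_lit 0) (XT.nd (nat_lit 78) (nat_lit 0) (nat_lit 0) (XT.lf (nat_lit 0) (nat_lit 10808190394141) (nat_lit 76) (nat_lit 2225785510845) (nat_lit 76) (nat_lit 1193640716109) (nat_lit 4) (nat_lit 4) (nat_lit 5) (nat_lit 5) (nat_lit 5) (nat_lit 4) (nat_lit 328) (nat_lit 295) (nat_lit 157)) (XT.lf (nat_lit 0) (nat_lit 14952981011258) (nat_lit 76) (nat_lit 1126729414763) (nat_lit 76) (nat_lit 94584619462) (nat_lit 4) (nat_lit 4) (nat_lit 5) (nat_lit 5) (nat_lit 5) (nat_lit 4) (nat_lit 329) (nat_lit 295) (nat_lit 156))) (XT.nd (nat_lit 78) (nat_lit 0) (nat_lit 0) (XT.lf (nat_lit 0) (nat_lit 1133123598817) (nat_lit 152) (nat_lit 17026798000026) (nat_lit 0) (nat_lit 235606385084) (nat_lit 2) (nat_lit 5) (nat_lit 4) (nat_lit 4) (nat_lit 2) (nat_lit 4) (nat_lit 330) (nat_lit 295) (nat_lit 155)) (XT.nd (nat_lit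 78) (nat_lit 0) (nat_lit 0) (XT.lf (nat_lit 0) (nat_lit 2655839649574) (nat_lit 152) (nat_lit 16517027884196) (nat_lit 0) (nat_lit 1758322435468) (nat_lit 2) (nat_lit 5) (nat_lit 4) (nat_lit 4) (nat_lit 2) (nat_lit 4) (nat_lit 331) (nat_lit 295) (nat_lit 154)) (XT.lf (nat_lit 0) (nat_lit 4406963106791) (nat_lit 152) (nat_lit 15930792253368) (nat_lit 0) (nat_lit 3509445892362) (nat_lit 2) (nat_lit 5) (nat_lit 4) (nat_lit 4) (nat_lit 2) (nat_lit 4) (nat_lit 332) (nat_lit 295) (nat_lit 153))))))))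
noncomputable def xc107 : XT := (XT.nd (nat_lit 38220) (nat_lit 0) (nat_lit 304) (XT.nd (nat_lit 1014) (nat_lit 0) (nat_lit 0) (XT.nd (nat_lit 390) (nat_lit 76) (nat_lit 0) (XT.nd (nat_lit 156) (nat_lit 0) (nat_lit 0) (XT.nd (nat_lit 78) (nat_lit 0) (nat_lit 0) (XT.lf (nat_lit 0) (nat_lit 6420755081588) (nat_lit 152) (nat_lit 15256621279981) (nat_lit 0) (nat_lit 5523237866877) (nat_lit 2) (nat_lit 5) (nat_lit 4) (nat_lit 4) (nat_lit 2) (nat_lit 4) (nat_lit 333) (nat_lit 295) (nat_lit 152)) (XT.lf (nat_lit 0) (nat_lit 8736615851733) (nat_lit 152) (nat_lit 14481324662382) (nat_lit 0) (nat_lit 7839098636777) (nat_lit 2) (nat_lit 5) (nat_lit 4) (nat_lit 4) (nat_lit 2) (nat_lit 4) (nat_lit 334) (nat_lit 295) (nat_lit 151))) (XT.nd (nat_lit 78) (nat_lit 0) (nat_lit 0) (XT.lf (nat_lit 0) (nat_lit 11399855736641) (nat_lit 152) (nat_lit 13589733553704) (nat_lit 0) (nat_lit 10502338521473) (nat_lit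 2) (nat_lit 5) (nat_lit 4) (nat_lit 4) (nat_lit 2) (nat_lit 4) (nat_lit 335) (nat_lit 295) (nat_lit 150)) (XT.nd (nat_lit 78) (nat_lit 0) (nat_lit 0) (XT.lf (nat_lit 0) (nat_lit 14462581603627) (nat_lit 152) (nat_lit 12564403780083) (nat_lit 0) (nat_lit 13565064388273) (nat_lit 2) (nat_lit 5) (nat_lit 4) (nat_lit 4) (nat_lit 2) (nat_lit 4) (nat_lit 336) (nat_lit 295) (nat_lit 149)) (XT.lf (nat_lit 0) (nat_lit 17984716350086) (nat_lit 152) (nat_lit 11385274541599) (nat_lit 0) (nat_lit 17087199134572) (nat_lit 2) (nat_lit 5) (nat_lit 4) (nat_lit 4) (nat_lit 2) (nat_lit 4) (nat_lit 337) (nat_lit 295) (nat_lit 148))))) (XT.nd (nat_lit 390) (nat_lit 76) (nat_lit 0) (XT.nd (nat_lit 78) (nat_lit 0) (nat_lit 0) (XT.lf (nat_lit 0) (nat_lit 22035171308017) (nat_lit 152) (nat_lit 10029275918370) (nat_lit 0) (nat_lit 21137654092363) (nat_lit 2) (nat_lit 5) (nat_lit 4) (nat_lit 4) (nat_lit 2) (nat_lit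 4) (nat_lit 338) (nat_lit 295) (nat_lit 147)) (XT.lf (nat_lit 0) (nat_lit 26693194509203) (nat_lit 152) (nat_lit 8469877502550) (nat_lit 0) (nat_lit 25795677293427) (nat_lit 2) (nat_lit 5) (nat_lit 4) (nat_lit 4) (nat_lit 2) (nat_lit 4) (nat_lit 339) (nat_lit 295) (nat_lit 146))) (XT.nd (nat_lit 78) (nat_lit 0) (nat_lit 0) (XT.lf (nat_lit 0) (nat_lit 532159206222) (nat_lit 76) (nat_lit 52931215969554) (nat_lit 76) (nat_lit 52033698753431) (nat_lit 1) (nat_lit 4) (nat_lit 2) (nat_lit 5) (nat_lit 2) (nat_lit 4) (nat_lit 343) (nat_lit 295) (nat_lit 142)) (XT.nd (nat_lit 78) (nat_lit 0) (nat_lit 0) (XT.lf (nat_lit 0) (nat_lit 3975188709159) (nat_lit 76) (nat_lit 58999703419268) (nat_lit 76) (nat_lit 58102186203084) (nat_lit 1) (nat_lit 4) (nat_lit 2) (nat_lit 5) (nat_lit 2) (nat_lit 4) (nat_lit 344) (nat_lit 295) (nat_lit 141)) (XT.lf (nat_lit 0) (nat_lit 7934672637113) (nat_lit 76) (nat_lit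 65978463986658) (nat_lit 76) (nat_lit 65080946770422) (nat_lit 1) (nat_lit 4) (nat_lit 2) (nat_lit 5) (nat_lit 2) (nat_lit 4) (nat_lit 345) (nat_lit 295) (nat_lit 140)))))) (XT.nd (nat_lit 36816) (nat_lit 0) (nat_lit 1520) (XT.nd (nat_lit 156) (nat_lit 0) (nat_lit 0) (XT.nd (nat_lit 78) (nat_lit 0) (nat_lit 0) (XT.lf (nat_lit 0) (nat_lit 12488079153891) (nat_lit 76) (nat_lit 74004038639346) (nat_lit 76) (nat_lit 73106521423065) (nat_lit 1) (nat_lit 4) (nat_lit 2) (nat_lit 5) (nat_lit 2) (nat_lit 4) (nat_lit 346) (nat_lit 295) (nat_lit 139)) (XT.lf (nat_lit 0) (nat_lit 17724496647866) (nat_lit 76) (nat_lit 83233449490104) (nat_lit 76) (nat_lit 82335932273782) (nat_lit 1) (nat_lit 4) (nat_lit 2) (nat_lit 5) (nat_lit 2) (nat_lit 4) (nat_lit 347) (nat_lit 295) (nat_lit 138))) (XT.nd (nat_lit 78) (nat_lit 0) (nat_lit 0) (XT.lf (nat_lit 0) (nat_lit 23746376765658) (nat_lit 76) (nat_lit 93847271968619)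 (nat_lit 76) (nat_lit 92949754752262) (nat_lit 1) (nat_lit 4) (nat_lit 2) (nat_lit 5) (nat_lit 2) (nat_lit 4) (nat_lit 348) (nat_lit 295) (nat_lit 137)) (XT.nd (nat_lit 36504) (nat_lit 0) (nat_lit 1672) (XT.lf (nat_lit 0) (nat_lit 30671538900877) (nat_lit 76) (nat_lit 106053167819036) (nat_lit 76) (nat_lit 105155650602649) (nat_lit 1) (nat_lit 4) (nat_lit 2) (nat_lit 5) (nat_lit 2) (nat_lit 4) (nat_lit 349) (nat_lit 295) (nat_lit 136)) (XT.lf (nat_lit 0) (nat_lit 57088613671) (nat_lit 380) (nat_lit 127199961961) (nat_lit 380) (nat_lit 127199961961) (nat_lit 23) (nat_lit 3) (nat_lit 28) (nat_lit 3) (nat_lit 28) (nat_lit 5) (nat_lit 296) (nat_lit 296) (nat_lit 188))))) (XT.nd (nat_lit 156) (nat_lit 152) (nat_lit 0) (XT.nd (nat_lit 78) (nat_lit 0) (nat_lit 76) (XT.lf (nat_lit 76) (nat_lit 43569095745) (nat_lit 0) (nat_lit 80975680568) (nat_lit 380) (nat_lit 544884940481) (nat_lit 24) (nat_lit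 5) (nat_lit 23) (nat_lit 3) (nat_lit 28) (nat_lit 5) (nat_lit 297) (nat_lit 296) (nat_lit 187)) (XT.lf (nat_lit 0) (nat_lit 160741132296) (nat_lit 304) (nat_lit 317006523735) (nat_lit 380) (nat_lit 241461547498) (nat_lit 24) (nat_lit 5) (nat_lit 28) (nat_lit 5) (nat_lit 29) (nat_lit 5) (nat_lit 298) (nat_lit 296) (nat_lit 186))) (XT.nd (nat_lit 78) (nat_lit 228) (nat_lit 0) (XT.lf (nat_lit 76) (nat_lit 37673653351) (nat_lit 0) (nat_lit 170109234746) (nat_lit 380) (nat_lit 567860333293) (nat_lit 25) (nat_lit 5) (nat_lit 24) (nat_lit 5) (nat_lit 29) (nat_lit 5) (nat_lit 299) (nat_lit 296) (nat_lit 185)) (XT.nd (nat_lit 78) (nat_lit 304) (nat_lit 0) (XT.lf (nat_lit 0) (nat_lit 286846354809) (nat_lit 304) (nat_lit 365268350379) (nat_lit 76) (nat_lit 184682819675) (nat_lit 25) (nat_lit 5) (nat_lit 29) (nat_lit 5) (nat_lit 26) (nat_lit 5) (nat_lit 300) (nat_lit 296) (nat_lit 184)) (XT.lf (nat_lit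 0) (nat_lit 60635810409) (nat_lit 304) (nat_lit 327744751774) (nat_lit 380) (nat_lit 517152728635) (nat_lit 21) (nat_lit 5) (nat_lit 25) (nat_lit 5) (nat_lit 26) (nat_lit 5) (nat_lit 301) (nat_lit 296) (nat_lit 183))))))) (XT.nd (nat_lit 780) (nat_lit 532) (nat_lit 0) (XT.nd (nat_lit 390) (nat_lit 380) (nat_lit 0) (XT.nd (nat_lit 156) (nat_lit 152) (nat_lit 0) (XT.nd (nat_lit 78) (nat_lit 152) (nat_lit 0) (XT.lf (nat_lit 0) (nat_lit 527022651234) (nat_lit 380) (nat_lit 393022824144) (nat_lit 76) (nat_lit 61252283752) (nat_lit 21) (nat_lit 5) (nat_lit 26) (nat_lit 5) (nat_lit 22) (nat_lit 5) (nat_lit 302) (nat_lit 296) (nat_lit 182)) (XT.lf (nat_lit 0) (nat_lit 121876399573) (nat_lit 152) (nat_lit 585238173990) (nat_lit 228) (nat_lit 358214296182) (nat_lit 19) (nat_lit 5) (nat_lit 21) (nat_lit 5) (nat_lit 22) (nat_lit 5) (nat_lit 303) (nat_lit 296) (nat_lit 181))) (XT.nd (nat_lit 78) (nat_lit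 152) (nat_lit 0) (XT.lf (nat_lit 0) (nat_lit 758180895769) (nat_lit 152) (nat_lit 176583749770) (nat_lit 228) (nat_lit 224118347257) (nat_lit 19) (nat_lit 5) (nat_lit 21) (nat_lit 5) (nat_lit 22) (nat_lit 5) (nat_lit 304) (nat_lit 296) (nat_lit 180)) (XT.nd (nat_lit 78) (nat_lit 76) (nat_lit 0) (XT.lf (nat_lit 0) (nat_lit 231964084407) (nat_lit 76) (nat_lit 986351047997) (nat_lit 152) (nat_lit 44892166319) (nat_lit 18) (nat_lit 5) (nat_lit 19) (nat_lit 5) (nat_lit 20) (nat_lit 4) (nat_lit 305) (nat_lit 296) (nat_lit 179)) (XT.lf (nat_lit 0) (nat_lit 177217154206) (nat_lit 152) (nat_lit 391556613945) (nat_lit 76) (nat_lit 808852336468) (nat_lit 17) (nat_lit 5) (nat_lit 19) (nat_lit 5) (nat_lit 18) (nat_lit 5) (nat_lit 306) (nat_lit 296) (nat_lit 178))))) (XT.nd (nat_lit 156) (nat_lit 228) (nat_lit 0) (XT.nd (nat_lit 78) (nat_lit 0) (nat_lit 0) (XT.lf (nat_lit 0) (nat_lit 375362615202)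 (nat_lit 152) (nat_lit 68227110211) (nat_lit 228) (nat_lit 1062965904376) (nat_lit 15) (nat_lit 5) (nat_lit 17) (nat_lit 5) (nat_lit 18) (nat_lit 5) (nat_lit 307) (nat_lit 296) (nat_lit 177)) (XT.lf (nat_lit 0) (nat_lit 792370974756) (nat_lit 228) (nat_lit 372414156418) (nat_lit 76) (nat_lit 483671533713) (nat_lit 15) (nat_lit 5) (nat_lit 18) (nat_lit 5) (nat_lit 16) (nat_lit 4) (nat_lit 308) (nat_lit 296) (nat_lit 176))) (XT.nd (nat_lit 78) (nat_lit 152) (nat_lit 0) (XT.lf (nat_lit 0) (nat_lit 545496475582) (nat_lit 76) (nat_lit 673809683401) (nat_lit 152) (nat_lit 588461184159) (nat_lit 14) (nat_lit 5) (nat_lit 15) (nat_lit 5) (nat_lit 16) (nat_lit 4) (nat_lit 309) (nat_lit 296) (nat_lit 175)) (XT.nd (nat_lit 78) (nat_lit 152) (nat_lit 0) (XT.lf (nat_lit 0) (nat_lit 1642947962482) (nat_lit 76) (nat_lit 86800754246) (nat_lit 152) (nat_lit 258305842039) (nat_lit 14) (nat_lit 5) (nat_lit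 15) (nat_lit 5) (nat_lit 16) (nat_lit 4) (nat_lit 310) (nat_lit 296) (nat_lit 174)) (XT.lf (nat_lit 0) (nat_lit 168717934540) (nat_lit 152) (nat_lit 1442484083466) (nat_lit 76) (nat_lit 574706383525) (nat_lit 12) (nat_lit 5) (nat_lit 14) (nat_lit 5) (nat_lit 13) (nat_lit 4) (nat_lit 311) (nat_lit 296) (nat_lit 173)))))) (XT.nd (nat_lit 390) (nat_lit 304) (nat_lit 0) (XT.nd (nat_lit 156) (nat_lit 152) (nat_lit 0) (XT.nd (nat_lit 78) (nat_lit 76) (nat_lit 0) (XT.lf (nat_lit 0) (nat_lit 656381736499) (nat_lit 152) (nat_lit 394006917309) (nat_lit 76) (nat_lit 1357751816630) (nat_lit 12) (nat_lit 5) (nat_lit 14) (nat_lit 5) (nat_lit 13) (nat_lit 4) (nat_lit 312) (nat_lit 296) (nat_lit 172)) (XT.lf (nat_lit 0) (nat_lit 891071126887) (nat_lit 76) (nat_lit 363021331101) (nat_lit 152) (nat_lit 1404080289318) (nat_lit 11) (nat_lit 5) (nat_lit 12) (nat_lit 5) (nat_lit 13) (nat_lit 4) (nat_lit 313)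 (nat_lit 296) (nat_lit 171))) (XT.nd (nat_lit 78) (nat_lit 152) (nat_lit 0) (XT.lf (nat_lit 0) (nat_lit 1980736189337) (nat_lit 152) (nat_lit 548109212772) (nat_lit 0) (nat_lit 410973003355) (nat_lit 11) (nat_lit 5) (nat_lit 13) (nat_lit 4) (nat_lit 11) (nat_lit 4) (nat_lit 314) (nat_lit 296) (nat_lit 170)) (XT.nd (nat_lit 78) (nat_lit 76) (nat_lit 0) (XT.lf (nat_lit 0) (nat_lit 918188836304) (nat_lit 76) (nat_lit 1953494610813) (nat_lit 76) (nat_lit 383731420226) (nat_lit 10) (nat_lit 4) (nat_lit 11) (nat_lit 5) (nat_lit 11) (nat_lit 4) (nat_lit 315) (nat_lit 296) (nat_lit 169)) (XT.lf (nat_lit 0) (nat_lit 283194956772) (nat_lit 152) (nat_lit 960894037532) (nat_lit 76) (nat_lit 2368033255697) (nat_lit 9) (nat_lit 5) (nat_lit 11) (nat_lit 5) (nat_lit 10) (nat_lit 4) (nat_lit 316) (nat_lit 296) (nat_lit 168))))) (XT.nd (nat_lit 234) (nat_lit 228) (nat_lit 0) (XT.nd (nat_lit 78) (nat_lit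 0) (nat_lit 0) (XT.lf (nat_lit 0) (nat_lit 662604452468) (nat_lit 76) (nat_lit 375706082668) (nat_lit 152) (nat_lit 2977168711248) (nat_lit 8) (nat_lit 5) (nat_lit 9) (nat_lit 5) (nat_lit 10) (nat_lit 4) (nat_lit 317) (nat_lit 296) (nat_lit 167)) (XT.nd (nat_lit 78) (nat_lit 0) (nat_lit 0) (XT.lf (nat_lit 0) (nat_lit 1985108213354) (nat_lit 152) (nat_lit 1862372630276) (nat_lit 0) (nat_lit 620096734133) (nat_lit 8) (nat_lit 5) (nat_lit 10) (nat_lit 4) (nat_lit 8) (nat_lit 4) (nat_lit 318) (nat_lit 296) (nat_lit 166)) (XT.lf (nat_lit 0) (nat_lit 3091816305489) (nat_lit 152) (nat_lit 166185915058) (nat_lit 0) (nat_lit 1726804823978) (nat_lit 8) (nat_lit 5) (nat_lit 10) (nat_lit 4) (nat_lit 8) (nat_lit 4) (nat_lit 319) (nat_lit 296) (nat_lit 165)))) (XT.nd (nat_lit 78) (nat_lit 152) (nat_lit 0) (XT.lf (nat_lit 0) (nat_lit 1958816161369) (nat_lit 76) (nat_lit 2486824846952) (nat_lit 76) (nat_lit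 1121813363450) (nat_lit 7) (nat_lit 4) (nat_lit 8) (nat_lit 5) (nat_lit 8) (nat_lit 4) (nat_lit 320) (nat_lit 296) (nat_lit 164)) (XT.nd (nat_lit 78) (nat_lit 152) (nat_lit 0) (XT.lf (nat_lit 0) (nat_lit 4421245574027) (nat_lit 76) (nat_lit 1589980830556) (nat_lit 76) (nat_lit 224969345323) (nat_lit 7) (nat_lit 4) (nat_lit 8) (nat_lit 5) (nat_lit 8) (nat_lit 4) (nat_lit 321) (nat_lit 296) (nat_lit 163)) (XT.lf (nat_lit 0) (nat_lit 235352399320) (nat_lit 76) (nat_lit 509002896520) (nat_lit 152) (nat_lit 6254422519614) (nat_lit 5) (nat_lit 5) (nat_lit 6) (nat_lit 5) (nat_lit 7) (nat_lit 4) (nat_lit 322) (nat_lit 296) (nat_lit 162))))))))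
noncomputable def xc108 : XT := (XT.nd (nat_lit 1794) (nat_lit 0) (nat_lit 0) (XT.nd (nat_lit 780) (nat_lit 76) (nat_lit 0) (XT.nd (nat_lit 390) (nat_lit 152) (nat_lit 0) (XT.nd (nat_lit 156) (nat_lit 76) (nat_lit 0) (XT.nd (nat_lit 78) (nat_lit 0) (nat_lit 0) (XT.lf (nat_lit 0) (nat_lit 1965834598546) (nat_lit 152) (nat_lit 5109969300018) (nat_lit 0) (nat_lit 778868087200) (nat_lit 5) (nat_lit 5) (nat_lit 7) (nat_lit 4) (nat_lit 5) (nat_lit 4) (nat_lit 323) (nat_lit 296) (nat_lit 161)) (XT.lf (nat_lit 0) (nat_lit 3394774027471) (nat_lit 152) (nat_lit 3232733004392) (nat_lit 0) (nat_lit 2207807515135) (nat_lit 5) (nat_lit 5) (nat_lit 7) (nat_lit 4) (nat_lit 5) (nat_lit 4) (nat_lit 324) (nat_lit 296) (nat_lit 160))) (XT.nd (nat_lit 78) (nat_lit 76) (nat_lit 0) (XT.lf (nat_lit 0) (nat_lit 5038054368689) (nat_lit 152) (nat_lit 1073911268544) (nat_lit 0) (nat_lit 3851087855492) (nat_lit 5)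 (nat_lit 5) (nat_lit 7) (nat_lit 4) (nat_lit 5) (nat_lit 4) (nat_lit 325) (nat_lit 296) (nat_lit 159)) (XT.nd (nat_lit 78) (nat_lit 0) (nat_lit 0) (XT.lf (nat_lit 0) (nat_lit 1546405428951) (nat_lit 76) (nat_lit 5445454681455) (nat_lit 76) (nat_lit 4258488167509) (nat_lit 4) (nat_lit 4) (nat_lit 5) (nat_lit 5) (nat_lit 5) (nat_lit 4) (nat_lit 326) (nat_lit 296) (nat_lit 158)) (XT.lf (nat_lit 0) (nat_lit 4680462609989) (nat_lit 76) (nat_lit 4614410372558) (nat_lit 76) (nat_lit 3427443857962) (nat_lit 4) (nat_lit 4) (nat_lit 5) (nat_lit 5) (nat_lit 5) (nat_lit 4) (nat_lit 327) (nat_lit 296) (nat_lit 157))))) (XT.nd (nat_lit 156) (nat_lit 152) (nat_lit 0) (XT.nd (nat_lit 78) (nat_lit 0) (nat_lit 0) (XT.lf (nat_lit 0) (nat_lit 8284628365207) (nat_lit 76) (nat_lit 3658709418834) (nat_lit 76) (nat_lit 2471742903672) (nat_lit 4) (nat_lit 4) (nat_lit 5) (nat_lit 5) (nat_lit 5) (nat_lit 4) (nat_lit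 328) (nat_lit 296) (nat_lit 156)) (XT.lf (nat_lit 0) (nat_lit 12429418981121) (nat_lit 76) (nat_lit 2559653323362) (nat_lit 76) (nat_lit 1372686807707) (nat_lit 4) (nat_lit 4) (nat_lit 5) (nat_lit 5) (nat_lit 5) (nat_lit 4) (nat_lit 329) (nat_lit 296) (nat_lit 155))) (XT.nd (nat_lit 78) (nat_lit 152) (nat_lit 0) (XT.lf (nat_lit 0) (nat_lit 17195928187172) (nat_lit 76) (nat_lit 1295738814709) (nat_lit 76) (nat_lit 108772298626) (nat_lit 4) (nat_lit 4) (nat_lit 5) (nat_lit 5) (nat_lit 5) (nat_lit 4) (nat_lit 330) (nat_lit 296) (nat_lit 154)) (XT.nd (nat_lit 78) (nat_lit 0) (nat_lit 0) (XT.lf (nat_lit 0) (nat_lit 1303092151055) (nat_lit 152) (nat_lit 19580817674455) (nat_lit 0) (nat_lit 270947354138) (nat_lit 2) (nat_lit 5) (nat_lit 4) (nat_lit 4) (nat_lit 2) (nat_lit 4) (nat_lit 331) (nat_lit 296) (nat_lit 153)) (XT.lf (nat_lit 0) (nat_lit 3054215607806) (nat_lit 152) (nat_lit 18994582044587)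 (nat_lit 0) (nat_lit 2022070810608) (nat_lit 2) (nat_lit 5) (nat_lit 4) (nat_lit 4) (nat_lit 2) (nat_lit 4) (nat_lit 332) (nat_lit 296) (nat_lit 152)))))) (XT.nd (nat_lit 390) (nat_lit 76) (nat_lit 0) (XT.nd (nat_lit 156) (nat_lit 0) (nat_lit 0) (XT.nd (nat_lit 78) (nat_lit 0) (nat_lit 0) (XT.lf (nat_lit 0) (nat_lit 5068007582198) (nat_lit 152) (nat_lit 18320411072035) (nat_lit 0) (nat_lit 4035862784754) (nat_lit 2) (nat_lit 5) (nat_lit 4) (nat_lit 4) (nat_lit 2) (nat_lit 4) (nat_lit 333) (nat_lit 296) (nat_lit 151)) (XT.lf (nat_lit 0) (nat_lit 7383868351990) (nat_lit 152) (nat_lit 17545114455162) (nat_lit 0) (nat_lit 6351723554334) (nat_lit 2) (nat_lit 5) (nat_lit 4) (nat_lit 4) (nat_lit 2) (nat_lit 4) (nat_lit 334) (nat_lit 296) (nat_lit 150))) (XT.nd (nat_lit 78) (nat_lit 0) (nat_lit 0) (XT.lf (nat_lit 0) (nat_lit 10047108236592) (nat_lit 152) (nat_lit 16653523347116) (nat_lit 0) (nat_lit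 9014963438750) (nat_lit 2) (nat_lit 5) (nat_lit 4) (nat_lit 4) (nat_lit 2) (nat_lit 4) (nat_lit 335) (nat_lit 296) (nat_lit 149)) (XT.nd (nat_lit 78) (nat_lit 0) (nat_lit 0) (XT.lf (nat_lit 0) (nat_lit 13109834103310) (nat_lit 152) (nat_lit 15628193574045) (nat_lit 0) (nat_lit 12077689305308) (nat_lit 2) (nat_lit 5) (nat_lit 4) (nat_lit 4) (nat_lit 2) (nat_lit 4) (nat_lit 336) (nat_lit 296) (nat_lit 148)) (XT.lf (nat_lit 0) (nat_lit 16631968849538) (nat_lit 152) (nat_lit 14449064336039) (nat_lit 0) (nat_lit 15599824051396) (nat_lit 2) (nat_lit 5) (nat_lit 4) (nat_lit 4) (nat_lit 2) (nat_lit 4) (nat_lit 337) (nat_lit 296) (nat_lit 147))))) (XT.nd (nat_lit 390) (nat_lit 76) (nat_lit 0) (XT.nd (nat_lit 312) (nat_lit 0) (nat_lit 0) (XT.lf (nat_lit 0) (nat_lit 20682423807267) (nat_lit 152) (nat_lit 13093065713225) (nat_lit 0) (nat_lit 19650279009003) (nat_lit 2) (nat_lit 5) (nat_lit 4) (nat_lit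 4) (nat_lit 2) (nat_lit 4) (nat_lit 338) (nat_lit 296) (nat_lit 146)) (XT.lf (nat_lit 0) (nat_lit 43941680406616) (nat_lit 152) (nat_lit 5306404654548) (nat_lit 0) (nat_lit 42909535608005) (nat_lit 2) (nat_lit 5) (nat_lit 4) (nat_lit 4) (nat_lit 2) (nat_lit 4) (nat_lit 342) (nat_lit 296) (nat_lit 142))) (XT.nd (nat_lit 78) (nat_lit 76) (nat_lit 0) (XT.lf (nat_lit 0) (nat_lit 52088592096453) (nat_lit 152) (nat_lit 2579007082503) (nat_lit 0) (nat_lit 51056447297782) (nat_lit 2) (nat_lit 5) (nat_lit 4) (nat_lit 4) (nat_lit 2) (nat_lit 4) (nat_lit 343) (nat_lit 296) (nat_lit 141)) (XT.nd (nat_lit 78) (nat_lit 0) (nat_lit 0) (XT.lf (nat_lit 0) (nat_lit 611983091718) (nat_lit 76) (nat_lit 60870898362631) (nat_lit 76) (nat_lit 59838753563907) (nat_lit 1) (nat_lit 4) (nat_lit 2) (nat_lit 5) (nat_lit 2) (nat_lit 4) (nat_lit 344) (nat_lit 296) (nat_lit 140)) (XT.lf (nat_lit 0) (nat_lit 4571467019501)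 (nat_lit 76) (nat_lit 67849658930109) (nat_lit 76) (nat_lit 66817514131340) (nat_lit 1) (nat_lit 4) (nat_lit 2) (nat_lit 5) (nat_lit 2) (nat_lit 4) (nat_lit 345) (nat_lit 296) (nat_lit 139))))))) (XT.nd (nat_lit 37362) (nat_lit 0) (nat_lit 836) (XT.nd (nat_lit 36972) (nat_lit 0) (nat_lit 1520) (XT.nd (nat_lit 156) (nat_lit 0) (nat_lit 0) (XT.nd (nat_lit 78) (nat_lit 0) (nat_lit 0) (XT.lf (nat_lit 0) (nat_lit 9124873536130) (nat_lit 76) (nat_lit 75875233582875) (nat_lit 76) (nat_lit 74843088784065) (nat_lit 1) (nat_lit 4) (nat_lit 2) (nat_lit 5) (nat_lit 2) (nat_lit 4) (nat_lit 346) (nat_lit 296) (nat_lit 138)) (XT.lf (nat_lit 0) (nat_lit 14361291029975) (nat_lit 76) (nat_lit 85104644433699) (nat_lit 76) (nat_lit 84072499634855) (nat_lit 1) (nat_lit 4) (nat_lit 2) (nat_lit 5) (nat_lit 2) (nat_lit 4) (nat_lit 347) (nat_lit 296) (nat_lit 137))) (XT.nd (nat_lit 36660) (nat_lit 0) (nat_lit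 1672) (XT.lf (nat_lit 0) (nat_lit 20383171147655) (nat_lit 76) (nat_lit 95718466912272) (nat_lit 76) (nat_lit 94686322113398) (nat_lit 1) (nat_lit 4) (nat_lit 2) (nat_lit 5) (nat_lit 2) (nat_lit 4) (nat_lit 348) (nat_lit 296) (nat_lit 136)) (XT.nd (nat_lit 78) (nat_lit 0) (nat_lit 0) (XT.lf (nat_lit 0) (nat_lit 65652052939) (nat_lit 380) (nat_lit 146279871368) (nat_lit 380) (nat_lit 146279871368) (nat_lit 23) (nat_lit 3) (nat_lit 28) (nat_lit 3) (nat_lit 28) (nat_lit 5) (nat_lit 297) (nat_lit 297) (nat_lit 186)) (XT.lf (nat_lit 76) (nat_lit 50104622164) (nat_lit 0) (nat_lit 93122133337) (nat_lit 380) (nat_lit 626617378577) (nat_lit 24) (nat_lit 5) (nat_lit 23) (nat_lit 3) (nat_lit 28) (nat_lit 5) (nat_lit 298) (nat_lit 297) (nat_lit 185))))) (XT.nd (nat_lit 156) (nat_lit 228) (nat_lit 0) (XT.nd (nat_lit 78) (nat_lit 0) (nat_lit 0) (XT.lf (nat_lit 0) (nat_lit 184852526986) (nat_lit 304)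 (nat_lit 364557322763) (nat_lit 380) (nat_lit 277680699867) (nat_lit 24) (nat_lit 5) (nat_lit 28) (nat_lit 5) (nat_lit 29) (nat_lit 5) (nat_lit 299) (nat_lit 297) (nat_lit 184)) (XT.lf (nat_lit 76) (nat_lit 43324872725) (nat_lit 0) (nat_lit 195625651200) (nat_lit 380) (nat_lit 653039149657) (nat_lit 25) (nat_lit 5) (nat_lit 24) (nat_lit 5) (nat_lit 29) (nat_lit 5) (nat_lit 300) (nat_lit 297) (nat_lit 183))) (XT.nd (nat_lit 78) (nat_lit 304) (nat_lit 0) (XT.lf (nat_lit 0) (nat_lit 329873483091) (nat_lit 304) (nat_lit 420058425822) (nat_lit 76) (nat_lit 212385217878) (nat_lit 25) (nat_lit 5) (nat_lit 29) (nat_lit 5) (nat_lit 26) (nat_lit 5) (nat_lit 301) (nat_lit 297) (nat_lit 182)) (XT.nd (nat_lit 78) (nat_lit 0) (nat_lit 0) (XT.lf (nat_lit 0) (nat_lit 69731351034) (nat_lit 304) (nat_lit 376906454704) (nat_lit 380) (nat_lit 594725454347) (nat_lit 21) (nat_lit 5) (nat_lit 25) (nat_lit 5)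 (nat_lit 26) (nat_lit 5) (nat_lit 302) (nat_lit 297) (nat_lit 181)) (XT.lf (nat_lit 0) (nat_lit 606076187732) (nat_lit 380) (nat_lit 451976079929) (nat_lit 76) (nat_lit 70440134107) (nat_lit 21) (nat_lit 5) (nat_lit 26) (nat_lit 5) (nat_lit 22) (nat_lit 5) (nat_lit 303) (nat_lit 297) (nat_lit 180)))))) (XT.nd (nat_lit 390) (nat_lit 228) (nat_lit 0) (XT.nd (nat_lit 156) (nat_lit 304) (nat_lit 0) (XT.nd (nat_lit 78) (nat_lit 0) (nat_lit 0) (XT.lf (nat_lit 0) (nat_lit 140158019716) (nat_lit 152) (nat_lit 673023867221) (nat_lit 228) (nat_lit 411946293812) (nat_lit 19) (nat_lit 5) (nat_lit 21) (nat_lit 5) (nat_lit 22) (nat_lit 5) (nat_lit 304) (nat_lit 297) (nat_lit 179)) (XT.lf (nat_lit 0) (nat_lit 871908169445) (nat_lit 152) (nat_lit 203071283656) (nat_lit 228) (nat_lit 257735971695) (nat_lit 19) (nat_lit 5) (nat_lit 21) (nat_lit 5) (nat_lit 22) (nat_lit 5) (nat_lit 305) (nat_lit 297) (nat_lit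 178))) (XT.nd (nat_lit 78) (nat_lit 228) (nat_lit 0) (XT.lf (nat_lit 0) (nat_lit 266758845067) (nat_lit 76) (nat_lit 1134303660642) (nat_lit 152) (nat_lit 51625872036) (nat_lit 18) (nat_lit 5) (nat_lit 19) (nat_lit 5) (nat_lit 20) (nat_lit 4) (nat_lit 306) (nat_lit 297) (nat_lit 177)) (XT.nd (nat_lit 78) (nat_lit 152) (nat_lit 0) (XT.lf (nat_lit 0) (nat_lit 203799821786) (nat_lit 152) (nat_lit 450289967908) (nat_lit 76) (nat_lit 930180216247) (nat_lit 17) (nat_lit 5) (nat_lit 19) (nat_lit 5) (nat_lit 18) (nat_lit 5) (nat_lit 307) (nat_lit 297) (nat_lit 176)) (XT.lf (nat_lit 0) (nat_lit 431667139334) (nat_lit 152) (nat_lit 78461132482) (nat_lit 228) (nat_lit 1222410689127) (nat_lit 15) (nat_lit 5) (nat_lit 17) (nat_lit 5) (nat_lit 18) (nat_lit 5) (nat_lit 308) (nat_lit 297) (nat_lit 175))))) (XT.nd (nat_lit 156) (nat_lit 152) (nat_lit 0) (XT.nd (nat_lit 78) (nat_lit 76) (nat_lit 0) (XT.lf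 (nat_lit 0) (nat_lit 911226698727) (nat_lit 228) (nat_lit 428276155242) (nat_lit 76) (nat_lit 556222298832) (nat_lit 15) (nat_lit 5) (nat_lit 18) (nat_lit 5) (nat_lit 16) (nat_lit 4) (nat_lit 309) (nat_lit 297) (nat_lit 174)) (XT.lf (nat_lit 0) (nat_lit 627321065891) (nat_lit 76) (nat_lit 774881089481) (nat_lit 152) (nat_lit 676730278225) (nat_lit 14) (nat_lit 5) (nat_lit 15) (nat_lit 5) (nat_lit 16) (nat_lit 4) (nat_lit 310) (nat_lit 297) (nat_lit 173))) (XT.nd (nat_lit 78) (nat_lit 152) (nat_lit 0) (XT.lf (nat_lit 0) (nat_lit 1889390260308) (nat_lit 76) (nat_lit 99820827009) (nat_lit 152) (nat_lit 297051645686) (nat_lit 14) (nat_lit 5) (nat_lit 15) (nat_lit 5) (nat_lit 16) (nat_lit 4) (nat_lit 311) (nat_lit 297) (nat_lit 172)) (XT.nd (nat_lit 78) (nat_lit 0) (nat_lit 0) (XT.lf (nat_lit 0) (nat_lit 194025688412) (nat_lit 152) (nat_lit 1658856583374) (nat_lit 76) (nat_lit 660912380332)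 (nat_lit 12) (nat_lit 5) (nat_lit 14) (nat_lit 5) (nat_lit 13) (nat_lit 4) (nat_lit 312) (nat_lit 297) (nat_lit 171)) (XT.lf (nat_lit 0) (nat_lit 754839052358) (nat_lit 152) (nat_lit 453107856982) (nat_lit 76) (nat_lit 1561414623281) (nat_lit 12) (nat_lit 5) (nat_lit 14) (nat_lit 5) (nat_lit 13) (nat_lit 4) (nat_lit 313) (nat_lit 297) (nat_lit 170))))))))
noncomputable def xc109 : XT := (XT.nd (nat_lit 1560) (nat_lit 76) (nat_lit 0) (XT.nd (nat_lit 780) (nat_lit 228) (nat_lit 0) (XT.nd (nat_lit 390) (nat_lit 228) (nat_lit 0) (XT.nd (nat_lit 156) (nat_lit 228) (nat_lit 0) (XT.nd (nat_lit 78) (nat_lit 0) (nat_lit 0) (XT.lf (nat_lit 0) (nat_lit 1024731889392) (nat_lit 76) (nat_lit 417474489324) (nat_lit 152) (nat_lit 1614692272814) (nat_lit 11) (nat_lit 5) (nat_lit 12) (nat_lit 5) (nat_lit 13) (nat_lit 4) (nat_lit 314) (nat_lit 297) (nat_lit 169)) (XT.lf (nat_lit 0) (nat_lit 2277846664473)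 (nat_lit 152) (nat_lit 630325508056) (nat_lit 0) (nat_lit 472618986686) (nat_lit 11) (nat_lit 5) (nat_lit 13) (nat_lit 4) (nat_lit 11) (nat_lit 4) (nat_lit 315) (nat_lit 297) (nat_lit 168))) (XT.nd (nat_lit 78) (nat_lit 152) (nat_lit 0) (XT.lf (nat_lit 0) (nat_lit 1055917244444) (nat_lit 76) (nat_lit 2246518763805) (nat_lit 76) (nat_lit 441291082535) (nat_lit 10) (nat_lit 4) (nat_lit 11) (nat_lit 5) (nat_lit 11) (nat_lit 4) (nat_lit 316) (nat_lit 297) (nat_lit 167)) (XT.nd (nat_lit 78) (nat_lit 76) (nat_lit 0) (XT.lf (nat_lit 0) (nat_lit 325674240469) (nat_lit 152) (nat_lit 1105028067289) (nat_lit 76) (nat_lit 2723238273678) (nat_lit 9) (nat_lit 5) (nat_lit 11) (nat_lit 5) (nat_lit 10) (nat_lit 4) (nat_lit 317) (nat_lit 297) (nat_lit 166)) (XT.lf (nat_lit 0) (nat_lit 761995192763) (nat_lit 76) (nat_lit 432061960582) (nat_lit 152) (nat_lit 3423743974272) (nat_lit 8) (nat_lit 5) (nat_lit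 9) (nat_lit 5) (nat_lit 10) (nat_lit 4) (nat_lit 318) (nat_lit 297) (nat_lit 165))))) (XT.nd (nat_lit 156) (nat_lit 228) (nat_lit 0) (XT.nd (nat_lit 78) (nat_lit 0) (nat_lit 0) (XT.lf (nat_lit 0) (nat_lit 2282874479589) (nat_lit 152) (nat_lit 2141728458104) (nat_lit 0) (nat_lit 713111271571) (nat_lit 8) (nat_lit 5) (nat_lit 10) (nat_lit 4) (nat_lit 8) (nat_lit 4) (nat_lit 319) (nat_lit 297) (nat_lit 164)) (XT.lf (nat_lit 0) (nat_lit 3555588781079) (nat_lit 152) (nat_lit 191113744305) (nat_lit 0) (nat_lit 1985825571329) (nat_lit 8) (nat_lit 5) (nat_lit 10) (nat_lit 4) (nat_lit 8) (nat_lit 4) (nat_lit 320) (nat_lit 297) (nat_lit 163))) (XT.nd (nat_lit 78) (nat_lit 152) (nat_lit 0) (XT.lf (nat_lit 0) (nat_lit 2252638640949) (nat_lit 76) (nat_lit 2859848546797) (nat_lit 76) (nat_lit 1290085335542) (nat_lit 7) (nat_lit 4) (nat_lit 8) (nat_lit 5) (nat_lit 8) (nat_lit 4) (nat_lit 321) (nat_lit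 297) (nat_lit 162)) (XT.nd (nat_lit 78) (nat_lit 152) (nat_lit 0) (XT.lf (nat_lit 0) (nat_lit 5084432458283) (nat_lit 76) (nat_lit 1828477931490) (nat_lit 76) (nat_lit 258714718925) (nat_lit 7) (nat_lit 4) (nat_lit 8) (nat_lit 5) (nat_lit 8) (nat_lit 4) (nat_lit 322) (nat_lit 297) (nat_lit 161)) (XT.lf (nat_lit 0) (nat_lit 270655307593) (nat_lit 76) (nat_lit 585353306962) (nat_lit 152) (nat_lit 7192585869553) (nat_lit 5) (nat_lit 5) (nat_lit 6) (nat_lit 5) (nat_lit 7) (nat_lit 4) (nat_lit 323) (nat_lit 297) (nat_lit 160)))))) (XT.nd (nat_lit 390) (nat_lit 152) (nat_lit 0) (XT.nd (nat_lit 156) (nat_lit 76) (nat_lit 0) (XT.nd (nat_lit 78) (nat_lit 0) (nat_lit 0) (XT.lf (nat_lit 0) (nat_lit 2260709810358) (nat_lit 152) (nat_lit 5876464650634) (nat_lit 0) (nat_lit 895698319320) (nat_lit 5) (nat_lit 5) (nat_lit 7) (nat_lit 4) (nat_lit 5) (nat_lit 4) (nat_lit 324) (nat_lit 297) (nat_lit 159))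 (XT.lf (nat_lit 0) (nat_lit 3903990150748) (nat_lit 152) (nat_lit 3717642916453) (nat_lit 0) (nat_lit 2538978658962) (nat_lit 5) (nat_lit 5) (nat_lit 7) (nat_lit 4) (nat_lit 5) (nat_lit 4) (nat_lit 325) (nat_lit 297) (nat_lit 158))) (XT.nd (nat_lit 78) (nat_lit 76) (nat_lit 0) (XT.lf (nat_lit 0) (nat_lit 5793762540650) (nat_lit 152) (nat_lit 1234997925262) (nat_lit 0) (nat_lit 4428751048213) (nat_lit 5) (nat_lit 5) (nat_lit 7) (nat_lit 4) (nat_lit 5) (nat_lit 4) (nat_lit 326) (nat_lit 297) (nat_lit 157)) (XT.nd (nat_lit 78) (nat_lit 0) (nat_lit 0) (XT.lf (nat_lit 0) (nat_lit 1778366275331) (nat_lit 76) (nat_lit 6262272867447) (nat_lit 76) (nat_lit 4897261374444) (nat_lit 4) (nat_lit 4) (nat_lit 5) (nat_lit 5) (nat_lit 5) (nat_lit 4) (nat_lit 327) (nat_lit 297) (nat_lit 156)) (XT.lf (nat_lit 0) (nat_lit 5382532029346) (nat_lit 76) (nat_lit 5306571914333) (nat_lit 76) (nat_lit 3941560420837)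 (nat_lit 4) (nat_lit 4) (nat_lit 5) (nat_lit 5) (nat_lit 5) (nat_lit 4) (nat_lit 328) (nat_lit 297) (nat_lit 155))))) (XT.nd (nat_lit 156) (nat_lit 152) (nat_lit 0) (XT.nd (nat_lit 78) (nat_lit 0) (nat_lit 0) (XT.lf (nat_lit 0) (nat_lit 9527322644213) (nat_lit 76) (nat_lit 4207515819390) (nat_lit 76) (nat_lit 2842504325467) (nat_lit 4) (nat_lit 4) (nat_lit 5) (nat_lit 5) (nat_lit 5) (nat_lit 4) (nat_lit 329) (nat_lit 297) (nat_lit 154)) (XT.lf (nat_lit 0) (nat_lit 14293831849354) (nat_lit 76) (nat_lit 2943601311198) (nat_lit 76) (nat_lit 1578589816902) (nat_lit 4) (nat_lit 4) (nat_lit 5) (nat_lit 5) (nat_lit 5) (nat_lit 4) (nat_lit 330) (nat_lit 297) (nat_lit 153))) (XT.nd (nat_lit 78) (nat_lit 152) (nat_lit 0) (XT.lf (nat_lit 0) (nat_lit 19775317433565) (nat_lit 76) (nat_lit 1490099627638) (nat_lit 76) (nat_lit 125088133019) (nat_lit 4) (nat_lit 4) (nat_lit 5) (nat_lit 5) (nat_lit 5)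 (nat_lit 4) (nat_lit 331) (nat_lit 297) (nat_lit 152)) (XT.nd (nat_lit 78) (nat_lit 0) (nat_lit 0) (XT.lf (nat_lit 0) (nat_lit 1498555983102) (nat_lit 152) (nat_lit 22517940306285) (nat_lit 0) (nat_lit 311589465797) (nat_lit 2) (nat_lit 5) (nat_lit 4) (nat_lit 4) (nat_lit 2) (nat_lit 4) (nat_lit 332) (nat_lit 297) (nat_lit 151)) (XT.lf (nat_lit 0) (nat_lit 3512347957141) (nat_lit 152) (nat_lit 21843769334460) (nat_lit 0) (nat_lit 2325381439623) (nat_lit 2) (nat_lit 5) (nat_lit 4) (nat_lit 4) (nat_lit 2) (nat_lit 4) (nat_lit 333) (nat_lit 297) (nat_lit 150))))))) (XT.nd (nat_lit 37830) (nat_lit 0) (nat_lit 1216) (XT.nd (nat_lit 702) (nat_lit 76) (nat_lit 0) (XT.nd (nat_lit 156) (nat_lit 0) (nat_lit 0) (XT.nd (nat_lit 78) (nat_lit 0) (nat_lit 0) (XT.lf (nat_lit 0) (nat_lit 5828208726626) (nat_lit 152) (nat_lit 21068472718218) (nat_lit 0) (nat_lit 4641242208924) (nat_lit 2) (nat_lit 5) (nat_lit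 4) (nat_lit 4) (nat_lit 2) (nat_lit 4) (nat_lit 334) (nat_lit 297) (nat_lit 149)) (XT.lf (nat_lit 0) (nat_lit 8491448610961) (nat_lit 152) (nat_lit 20176881610722) (nat_lit 0) (nat_lit 7304482093098) (nat_lit 2) (nat_lit 5) (nat_lit 4) (nat_lit 4) (nat_lit 2) (nat_lit 4) (nat_lit 335) (nat_lit 297) (nat_lit 148))) (XT.nd (nat_lit 78) (nat_lit 0) (nat_lit 0) (XT.lf (nat_lit 0) (nat_lit 11554174477448) (nat_lit 152) (nat_lit 19151551838127) (nat_lit 0) (nat_lit 10367207959445) (nat_lit 2) (nat_lit 5) (nat_lit 4) (nat_lit 4) (nat_lit 2) (nat_lit 4) (nat_lit 336) (nat_lit 297) (nat_lit 147)) (XT.nd (nat_lit 390) (nat_lit 0) (nat_lit 0) (XT.lf (nat_lit 0) (nat_lit 15076309223474) (nat_lit 152) (nat_lit 17972422600537) (nat_lit 0) (nat_lit 13889342705349) (nat_lit 2) (nat_lit 5) (nat_lit 4) (nat_lit 4) (nat_lit 2) (nat_lit 4) (nat_lit 337) (nat_lit 297) (nat_lit 146)) (XT.lf (nat_lit 0) (nat_lit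 42386020779877) (nat_lit 152) (nat_lit 8829762920438) (nat_lit 0) (nat_lit 41199054261344) (nat_lit 2) (nat_lit 5) (nat_lit 4) (nat_lit 4) (nat_lit 2) (nat_lit 4) (nat_lit 342) (nat_lit 297) (nat_lit 141))))) (XT.nd (nat_lit 156) (nat_lit 76) (nat_lit 0) (XT.nd (nat_lit 78) (nat_lit 0) (nat_lit 0) (XT.lf (nat_lit 0) (nat_lit 50532932469627) (nat_lit 152) (nat_lit 6102365348573) (nat_lit 0) (nat_lit 49345965951041) (nat_lit 2) (nat_lit 5) (nat_lit 4) (nat_lit 4) (nat_lit 2) (nat_lit 4) (nat_lit 343) (nat_lit 297) (nat_lit 140)) (XT.lf (nat_lit 0) (nat_lit 59901880912676) (nat_lit 152) (nat_lit 2965858141264) (nat_lit 0) (nat_lit 58714914394045) (nat_lit 2) (nat_lit 5) (nat_lit 4) (nat_lit 4) (nat_lit 2) (nat_lit 4) (nat_lit 344) (nat_lit 297) (nat_lit 139))) (XT.nd (nat_lit 78) (nat_lit 0) (nat_lit 0) (XT.lf (nat_lit 0) (nat_lit 703780558926) (nat_lit 76) (nat_lit 70001533115244) (nat_lit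 76) (nat_lit 68814566596574) (nat_lit 1) (nat_lit 4) (nat_lit 2) (nat_lit 5) (nat_lit 2) (nat_lit 4) (nat_lit 345) (nat_lit 297) (nat_lit 138)) (XT.nd (nat_lit 78) (nat_lit 0) (nat_lit 0) (XT.lf (nat_lit 0) (nat_lit 5257187075426) (nat_lit 76) (nat_lit 78027107768077) (nat_lit 76) (nat_lit 76840141249371) (nat_lit 1) (nat_lit 4) (nat_lit 2) (nat_lit 5) (nat_lit 2) (nat_lit 4) (nat_lit 346) (nat_lit 297) (nat_lit 137)) (XT.lf (nat_lit 0) (nat_lit 10493604569158) (nat_lit 76) (nat_lit 87256518618959) (nat_lit 76) (nat_lit 86069552100224) (nat_lit 1) (nat_lit 4) (nat_lit 2) (nat_lit 5) (nat_lit 2) (nat_lit 4) (nat_lit 347) (nat_lit 297) (nat_lit 136)))))) (XT.nd (nat_lit 390) (nat_lit 456) (nat_lit 0) (XT.nd (nat_lit 156) (nat_lit 0) (nat_lit 76) (XT.nd (nat_lit 78) (nat_lit 0) (nat_lit 0) (XT.lf (nat_lit 0) (nat_lit 75499972198) (nat_lit 380) (nat_lit 168221787887) (nat_lit 380) (nat_lit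 168221787887) (nat_lit 23) (nat_lit 3) (nat_lit 28) (nat_lit 3) (nat_lit 28) (nat_lit 5) (nat_lit 298) (nat_lit 298) (nat_lit 184)) (XT.lf (nat_lit 76) (nat_lit 57620438027) (nat_lit 0) (nat_lit 107090529469) (nat_lit 380) (nat_lit 720609756270) (nat_lit 24) (nat_lit 5) (nat_lit 23) (nat_lit 3) (nat_lit 28) (nat_lit 5) (nat_lit 299) (nat_lit 298) (nat_lit 183))) (XT.nd (nat_lit 78) (nat_lit 0) (nat_lit 0) (XT.lf (nat_lit 0) (nat_lit 212580576049) (nat_lit 304) (nat_lit 419240785426) (nat_lit 380) (nat_lit 319332744539) (nat_lit 24) (nat_lit 5) (nat_lit 28) (nat_lit 5) (nat_lit 29) (nat_lit 5) (nat_lit 300) (nat_lit 298) (nat_lit 182)) (XT.nd (nat_lit 78) (nat_lit 0) (nat_lit 76) (XT.lf (nat_lit 76) (nat_lit 49823733216) (nat_lit 0) (nat_lit 224969522503) (nat_lit 380) (nat_lit 750994845449) (nat_lit 25) (nat_lit 5) (nat_lit 24) (nat_lit 5) (nat_lit 29) (nat_lit 5) (nat_lit 301) (nat_lit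 298) (nat_lit 181)) (XT.lf (nat_lit 0) (nat_lit 379354637926) (nat_lit 304) (nat_lit 483067055772) (nat_lit 76) (nat_lit 244242981847) (nat_lit 25) (nat_lit 5) (nat_lit 29) (nat_lit 5) (nat_lit 26) (nat_lit 5) (nat_lit 302) (nat_lit 298) (nat_lit 180))))) (XT.nd (nat_lit 234) (nat_lit 152) (nat_lit 0) (XT.nd (nat_lit 78) (nat_lit 152) (nat_lit 0) (XT.lf (nat_lit 0) (nat_lit 80191181525) (nat_lit 304) (nat_lit 433442415472) (nat_lit 380) (nat_lit 683934133684) (nat_lit 21) (nat_lit 5) (nat_lit 25) (nat_lit 5) (nat_lit 26) (nat_lit 5) (nat_lit 303) (nat_lit 298) (nat_lit 179)) (XT.nd (nat_lit 78) (nat_lit 152) (nat_lit 0) (XT.lf (nat_lit 0) (nat_lit 696987720854) (nat_lit 380) (nat_lit 519772365010) (nat_lit 76) (nat_lit 81006160114) (nat_lit 21) (nat_lit 5) (nat_lit 26) (nat_lit 5) (nat_lit 22) (nat_lit 5) (nat_lit 304) (nat_lit 298) (nat_lit 178)) (XT.lf (nat_lit 0) (nat_lit 161181843813)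 (nat_lit 152) (nat_lit 773977422453) (nat_lit 228) (nat_lit 473738126883) (nat_lit 19) (nat_lit 5) (nat_lit 21) (nat_lit 5) (nat_lit 22) (nat_lit 5) (nat_lit 305) (nat_lit 298) (nat_lit 177)))) (XT.nd (nat_lit 78) (nat_lit 152) (nat_lit 0) (XT.lf (nat_lit 0) (nat_lit 1002694500201) (nat_lit 152) (nat_lit 233531954594) (nat_lit 228) (nat_lit 296396270927) (nat_lit 19) (nat_lit 5) (nat_lit 21) (nat_lit 5) (nat_lit 22) (nat_lit 5) (nat_lit 306) (nat_lit 298) (nat_lit 176)) (XT.nd (nat_lit 78) (nat_lit 76) (nat_lit 0) (XT.lf (nat_lit 0) (nat_lit 306772783737) (nat_lit 76) (nat_lit 1304449176049) (nat_lit 152) (nat_lit 59369662685) (nat_lit 18) (nat_lit 5) (nat_lit 19) (nat_lit 5) (nat_lit 20) (nat_lit 4) (nat_lit 307) (nat_lit 298) (nat_lit 175)) (XT.lf (nat_lit 0) (nat_lit 234369866472) (nat_lit 152) (nat_lit 517833358649) (nat_lit 76) (nat_lit 1069707270846) (nat_lit 17) (nat_lit 5) (nat_lit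 19) (nat_lit 5) (nat_lit 18) (nat_lit 5) (nat_lit 308) (nat_lit 298) (nat_lit 174))))))))
noncomputable def xc110 : XT := (XT.nd (nat_lit 1560) (nat_lit 152) (nat_lit 0) (XT.nd (nat_lit 780) (nat_lit 380) (nat_lit 0) (XT.nd (nat_lit 390) (nat_lit 228) (nat_lit 0) (XT.nd (nat_lit 156) (nat_lit 228) (nat_lit 0) (XT.nd (nat_lit 78) (nat_lit 0) (nat_lit 0) (XT.lf (nat_lit 0) (nat_lit 496417309932) (nat_lit 152) (nat_lit 90230268886) (nat_lit 228) (nat_lit 1405772216198) (nat_lit 15) (nat_lit 5) (nat_lit 17) (nat_lit 5) (nat_lit 18) (nat_lit 5) (nat_lit 309) (nat_lit 298) (nat_lit 173)) (XT.lf (nat_lit 0) (nat_lit 1047910762333) (nat_lit 228) (nat_lit 492517484285) (nat_lit 76) (nat_lit 639655670168) (nat_lit 15) (nat_lit 5) (nat_lit 18) (nat_lit 5) (nat_lit 16) (nat_lit 4) (nat_lit 310) (nat_lit 298) (nat_lit 172))) (XT.nd (nat_lit 78) (nat_lit 152) (nat_lit 0) (XT.lf (nat_lit 0) (nat_lit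 721419315736) (nat_lit 76) (nat_lit 891113217796) (nat_lit 152) (nat_lit 778239756777) (nat_lit 14) (nat_lit 5) (nat_lit 15) (nat_lit 5) (nat_lit 16) (nat_lit 4) (nat_lit 311) (nat_lit 298) (nat_lit 171)) (XT.nd (nat_lit 78) (nat_lit 152) (nat_lit 0) (XT.lf (nat_lit 0) (nat_lit 2172798877581) (nat_lit 76) (nat_lit 114793920532) (nat_lit 152) (nat_lit 341609337598) (nat_lit 14) (nat_lit 5) (nat_lit 15) (nat_lit 5) (nat_lit 16) (nat_lit 4) (nat_lit 312) (nat_lit 298) (nat_lit 170)) (XT.lf (nat_lit 0) (nat_lit 223129589834) (nat_lit 152) (nat_lit 1907684985729) (nat_lit 76) (nat_lit 760049267083) (nat_lit 12) (nat_lit 5) (nat_lit 14) (nat_lit 5) (nat_lit 13) (nat_lit 4) (nat_lit 313) (nat_lit 298) (nat_lit 169))))) (XT.nd (nat_lit 156) (nat_lit 152) (nat_lit 0) (XT.nd (nat_lit 78) (nat_lit 76) (nat_lit 0) (XT.lf (nat_lit 0) (nat_lit 868064952090) (nat_lit 152) (nat_lit 521073961485) (nat_lit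 76) (nat_lit 1795626842599) (nat_lit 12) (nat_lit 5) (nat_lit 14) (nat_lit 5) (nat_lit 13) (nat_lit 4) (nat_lit 314) (nat_lit 298) (nat_lit 168)) (XT.lf (nat_lit 0) (nat_lit 1178441743479) (nat_lit 76) (nat_lit 480095631387) (nat_lit 152) (nat_lit 1856896068442) (nat_lit 11) (nat_lit 5) (nat_lit 12) (nat_lit 5) (nat_lit 13) (nat_lit 4) (nat_lit 315) (nat_lit 298) (nat_lit 167))) (XT.nd (nat_lit 78) (nat_lit 152) (nat_lit 0) (XT.lf (nat_lit 0) (nat_lit 2619523699483) (nat_lit 152) (nat_lit 724874268757) (nat_lit 0) (nat_lit 543511859512) (nat_lit 11) (nat_lit 5) (nat_lit 13) (nat_lit 4) (nat_lit 11) (nat_lit 4) (nat_lit 316) (nat_lit 298) (nat_lit 166)) (XT.nd (nat_lit 78) (nat_lit 76) (nat_lit 0) (XT.lf (nat_lit 0) (nat_lit 1214304893640) (nat_lit 76) (nat_lit 2583496549165) (nat_lit 76) (nat_lit 507484706561) (nat_lit 10) (nat_lit 4) (nat_lit 11) (nat_lit 5) (nat_lit 11) (nat_lit 4)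 (nat_lit 317) (nat_lit 298) (nat_lit 165)) (XT.lf (nat_lit 0) (nat_lit 374525406922) (nat_lit 152) (nat_lit 1270782220011) (nat_lit 76) (nat_lit 3131724037132) (nat_lit 9) (nat_lit 5) (nat_lit 11) (nat_lit 5) (nat_lit 10) (nat_lit 4) (nat_lit 318) (nat_lit 298) (nat_lit 164)))))) (XT.nd (nat_lit 390) (nat_lit 228) (nat_lit 0) (XT.nd (nat_lit 156) (nat_lit 76) (nat_lit 0) (XT.nd (nat_lit 78) (nat_lit 0) (nat_lit 0) (XT.lf (nat_lit 0) (nat_lit 876294526441) (nat_lit 76) (nat_lit 496871228594) (nat_lit 152) (nat_lit 3937305537397) (nat_lit 8) (nat_lit 5) (nat_lit 9) (nat_lit 5) (nat_lit 10) (nat_lit 4) (nat_lit 319) (nat_lit 298) (nat_lit 163)) (XT.lf (nat_lit 0) (nat_lit 2625305677412) (nat_lit 152) (nat_lit 2462987676375) (nat_lit 0) (nat_lit 820077982962) (nat_lit 8) (nat_lit 5) (nat_lit 10) (nat_lit 4) (nat_lit 8) (nat_lit 4) (nat_lit 320) (nat_lit 298) (nat_lit 162))) (XT.nd (nat_lit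 78) (nat_lit 76) (nat_lit 0) (XT.lf (nat_lit 0) (nat_lit 4088927120749) (nat_lit 152) (nat_lit 219780762085) (nat_lit 0) (nat_lit 2283699424990) (nat_lit 8) (nat_lit 5) (nat_lit 10) (nat_lit 4) (nat_lit 8) (nat_lit 4) (nat_lit 321) (nat_lit 298) (nat_lit 161)) (XT.nd (nat_lit 78) (nat_lit 0) (nat_lit 0) (XT.lf (nat_lit 0) (nat_lit 2590534478963) (nat_lit 76) (nat_lit 3288825808252) (nat_lit 76) (nat_lit 1483598111355) (nat_lit 7) (nat_lit 4) (nat_lit 8) (nat_lit 5) (nat_lit 8) (nat_lit 4) (nat_lit 322) (nat_lit 298) (nat_lit 160)) (XT.lf (nat_lit 0) (nat_lit 5847097363436) (nat_lit 76) (nat_lit 2102749603330) (nat_lit 76) (nat_lit 297521905443) (nat_lit 7) (nat_lit 4) (nat_lit 8) (nat_lit 5) (nat_lit 8) (nat_lit 4) (nat_lit 323) (nat_lit 298) (nat_lit 159))))) (XT.nd (nat_lit 156) (nat_lit 76) (nat_lit 0) (XT.nd (nat_lit 78) (nat_lit 0) (nat_lit 0) (XT.lf (nat_lit 0) (nat_lit 311253640311)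 (nat_lit 76) (nat_lit 673156284832) (nat_lit 152) (nat_lit 8271473728811) (nat_lit 5) (nat_lit 5) (nat_lit 6) (nat_lit 5) (nat_lit 7) (nat_lit 4) (nat_lit 324) (nat_lit 298) (nat_lit 158)) (XT.lf (nat_lit 0) (nat_lit 2599816298569) (nat_lit 152) (nat_lit 6757934314666) (nat_lit 0) (nat_lit 1030053081615) (nat_lit 5) (nat_lit 5) (nat_lit 7) (nat_lit 4) (nat_lit 5) (nat_lit 4) (nat_lit 325) (nat_lit 298) (nat_lit 157))) (XT.nd (nat_lit 78) (nat_lit 76) (nat_lit 0) (XT.lf (nat_lit 0) (nat_lit 4489588687845) (nat_lit 152) (nat_lit 4275289324736) (nat_lit 0) (nat_lit 2919825470326) (nat_lit 5) (nat_lit 5) (nat_lit 7) (nat_lit 4) (nat_lit 5) (nat_lit 4) (nat_lit 326) (nat_lit 298) (nat_lit 156)) (XT.nd (nat_lit 78) (nat_lit 76) (nat_lit 0) (XT.lf (nat_lit 0) (nat_lit 6662826934343) (nat_lit 152) (nat_lit 1420247588673) (nat_lit 0) (nat_lit 5093063716332) (nat_lit 5) (nat_lit 5) (nat_lit 7)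 (nat_lit 4) (nat_lit 5) (nat_lit 4) (nat_lit 327) (nat_lit 298) (nat_lit 155)) (XT.lf (nat_lit 0) (nat_lit 2045121240856) (nat_lit 76) (nat_lit 7201613785295) (nat_lit 76) (nat_lit 5631850566856) (nat_lit 4) (nat_lit 4) (nat_lit 5) (nat_lit 5) (nat_lit 5) (nat_lit 4) (nat_lit 328) (nat_lit 298) (nat_lit 154))))))) (XT.nd (nat_lit 38376) (nat_lit 0) (nat_lit 1140) (XT.nd (nat_lit 390) (nat_lit 0) (nat_lit 0) (XT.nd (nat_lit 156) (nat_lit 152) (nat_lit 0) (XT.nd (nat_lit 78) (nat_lit 0) (nat_lit 0) (XT.lf (nat_lit 0) (nat_lit 6189911854813) (nat_lit 76) (nat_lit 6102557690814) (nat_lit 76) (nat_lit 4532794472002) (nat_lit 4) (nat_lit 4) (nat_lit 5) (nat_lit 5) (nat_lit 5) (nat_lit 4) (nat_lit 329) (nat_lit 298) (nat_lit 153)) (XT.lf (nat_lit 0) (nat_lit 10956421059163) (nat_lit 76) (nat_lit 4838643183022) (nat_lit 76) (nat_lit 3268879963886) (nat_lit 4) (nat_lit 4) (nat_lit 5) (nat_lit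 5) (nat_lit 5) (nat_lit 4) (nat_lit 330) (nat_lit 298) (nat_lit 152))) (XT.nd (nat_lit 78) (nat_lit 152) (nat_lit 0) (XT.lf (nat_lit 0) (nat_lit 16437906642686) (nat_lit 76) (nat_lit 3385141499810) (nat_lit 76) (nat_lit 1815378280393) (nat_lit 4) (nat_lit 4) (nat_lit 5) (nat_lit 5) (nat_lit 5) (nat_lit 4) (nat_lit 331) (nat_lit 298) (nat_lit 151)) (XT.nd (nat_lit 78) (nat_lit 152) (nat_lit 0) (XT.lf (nat_lit 0) (nat_lit 22741615062451) (nat_lit 76) (nat_lit 1713614564769) (nat_lit 76) (nat_lit 143851345107) (nat_lit 4) (nat_lit 4) (nat_lit 5) (nat_lit 5) (nat_lit 5) (nat_lit 4) (nat_lit 332) (nat_lit 298) (nat_lit 150)) (XT.lf (nat_lit 0) (nat_lit 1723339387666) (nat_lit 152) (nat_lit 25895631337606) (nat_lit 0) (nat_lit 358327892123) (nat_lit 2) (nat_lit 5) (nat_lit 4) (nat_lit 4) (nat_lit 2) (nat_lit 4) (nat_lit 333) (nat_lit 298) (nat_lit 149))))) (XT.nd (nat_lit 702) (nat_lit 0) (nat_lit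 0) (XT.nd (nat_lit 78) (nat_lit 0) (nat_lit 0) (XT.lf (nat_lit 0) (nat_lit 4039200156885) (nat_lit 152) (nat_lit 25120334721914) (nat_lit 0) (nat_lit 2674188661181) (nat_lit 2) (nat_lit 5) (nat_lit 4) (nat_lit 4) (nat_lit 2) (nat_lit 4) (nat_lit 334) (nat_lit 298) (nat_lit 148)) (XT.lf (nat_lit 0) (nat_lit 6702440040988) (nat_lit 152) (nat_lit 24228743614895) (nat_lit 0) (nat_lit 5337428545144) (nat_lit 2) (nat_lit 5) (nat_lit 4) (nat_lit 4) (nat_lit 2) (nat_lit 4) (nat_lit 335) (nat_lit 298) (nat_lit 147))) (XT.nd (nat_lit 78) (nat_lit 0) (nat_lit 0) (XT.lf (nat_lit 0) (nat_lit 48743923898613) (nat_lit 152) (nat_lit 10154227354889) (nat_lit 0) (nat_lit 47378912402141) (nat_lit 2) (nat_lit 5) (nat_lit 4) (nat_lit 4) (nat_lit 2) (nat_lit 4) (nat_lit 343) (nat_lit 298) (nat_lit 139)) (XT.nd (nat_lit 37128) (nat_lit 0) (nat_lit 1596) (XT.lf (nat_lit 0) (nat_lit 58112872341597) (nat_lit 152)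 (nat_lit 7017720147716) (nat_lit 0) (nat_lit 56747860845085) (nat_lit 2) (nat_lit 5) (nat_lit 4) (nat_lit 4) (nat_lit 2) (nat_lit 4) (nat_lit 344) (nat_lit 298) (nat_lit 138)) (XT.lf (nat_lit 0) (nat_lit 86825052200) (nat_lit 380) (nat_lit 193455007535) (nat_lit 380) (nat_lit 193455007535) (nat_lit 23) (nat_lit 3) (nat_lit 28) (nat_lit 3) (nat_lit 28) (nat_lit 5) (nat_lit 299) (nat_lit 299) (nat_lit 182)))))) (XT.nd (nat_lit 390) (nat_lit 304) (nat_lit 0) (XT.nd (nat_lit 156) (nat_lit 152) (nat_lit 0) (XT.nd (nat_lit 78) (nat_lit 0) (nat_lit 76) (XT.lf (nat_lit 76) (nat_lit 66263596388) (nat_lit 0) (nat_lit 123154166456) (nat_lit 380) (nat_lit 828701046482) (nat_lit 24) (nat_lit 5) (nat_lit 23) (nat_lit 3) (nat_lit 28) (nat_lit 5) (nat_lit 300) (nat_lit 299) (nat_lit 181)) (XT.lf (nat_lit 0) (nat_lit 244467791012) (nat_lit 304) (nat_lit 482126800591) (nat_lit 380) (nat_lit 367232610619)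 (nat_lit 24) (nat_lit 5) (nat_lit 28) (nat_lit 5) (nat_lit 29) (nat_lit 5) (nat_lit 301) (nat_lit 299) (nat_lit 180))) (XT.nd (nat_lit 78) (nat_lit 228) (nat_lit 0) (XT.lf (nat_lit 76) (nat_lit 57297391181) (nat_lit 0) (nat_lit 258714968741) (nat_lit 380) (nat_lit 863643938688) (nat_lit 25) (nat_lit 5) (nat_lit 24) (nat_lit 5) (nat_lit 29) (nat_lit 5) (nat_lit 302) (nat_lit 299) (nat_lit 179)) (XT.nd (nat_lit 78) (nat_lit 304) (nat_lit 0) (XT.lf (nat_lit 0) (nat_lit 436257933707) (nat_lit 304) (nat_lit 555527012872) (nat_lit 76) (nat_lit 280879414974) (nat_lit 25) (nat_lit 5) (nat_lit 29) (nat_lit 5) (nat_lit 26) (nat_lit 5) (nat_lit 303) (nat_lit 299) (nat_lit 178)) (XT.lf (nat_lit 0) (nat_lit 92219955416) (nat_lit 304) (nat_lit 498458772169) (nat_lit 380) (nat_lit 786524148773) (nat_lit 21) (nat_lit 5) (nat_lit 25) (nat_lit 5) (nat_lit 26) (nat_lit 5) (nat_lit 304) (nat_lit 299) (nat_lit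 177))))) (XT.nd (nat_lit 156) (nat_lit 152) (nat_lit 0) (XT.nd (nat_lit 78) (nat_lit 152) (nat_lit 0) (XT.lf (nat_lit 0) (nat_lit 801535958349) (nat_lit 380) (nat_lit 597738123801) (nat_lit 76) (nat_lit 93157088586) (nat_lit 21) (nat_lit 5) (nat_lit 26) (nat_lit 5) (nat_lit 22) (nat_lit 5) (nat_lit 305) (nat_lit 299) (nat_lit 176)) (XT.lf (nat_lit 0) (nat_lit 185359211985) (nat_lit 152) (nat_lit 890074017029) (nat_lit 228) (nat_lit 544798761983) (nat_lit 19) (nat_lit 5) (nat_lit 21) (nat_lit 5) (nat_lit 22) (nat_lit 5) (nat_lit 306) (nat_lit 299) (nat_lit 175))) (XT.nd (nat_lit 78) (nat_lit 152) (nat_lit 0) (XT.lf (nat_lit 0) (nat_lit 1153098754882) (nat_lit 152) (nat_lit 268561731442) (nat_lit 228) (nat_lit 340855638581) (nat_lit 19) (nat_lit 5) (nat_lit 21) (nat_lit 5) (nat_lit 22) (nat_lit 5) (nat_lit 307) (nat_lit 299) (nat_lit 174)) (XT.nd (nat_lit 78) (nat_lit 76) (nat_lit 0) (XT.lf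 (nat_lit 0) (nat_lit 352788785916) (nat_lit 76) (nat_lit 1500116526983) (nat_lit 152) (nat_lit 68275043916) (nat_lit 18) (nat_lit 5) (nat_lit 19) (nat_lit 5) (nat_lit 20) (nat_lit 4) (nat_lit 308) (nat_lit 299) (nat_lit 173)) (XT.lf (nat_lit 0) (nat_lit 269525400444) (nat_lit 152) (nat_lit 595508283470) (nat_lit 76) (nat_lit 1230163378230) (nat_lit 17) (nat_lit 5) (nat_lit 19) (nat_lit 5) (nat_lit 18) (nat_lit 5) (nat_lit 309) (nat_lit 299) (nat_lit 172))))))))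
noncomputable def xc111 : XT := (XT.nd (nat_lit 1560) (nat_lit 152) (nat_lit 0) (XT.nd (nat_lit 780) (nat_lit 380) (nat_lit 0) (XT.nd (nat_lit 390) (nat_lit 228) (nat_lit 0) (XT.nd (nat_lit 156) (nat_lit 228) (nat_lit 0) (XT.nd (nat_lit 78) (nat_lit 0) (nat_lit 0) (XT.lf (nat_lit 0) (nat_lit 570879981808) (nat_lit 152) (nat_lit 103764783913) (nat_lit 228) (nat_lit 1616637990934) (nat_lit 15) (nat_lit 5) (nat_lit 17) (nat_lit 5) (nat_lit 18) (nat_lit 5) (nat_lit 310) (nat_lit 299) (nat_lit 171)) (XT.lf (nat_lit 0) (nat_lit 1205097421142) (nat_lit 228) (nat_lit 566395035665) (nat_lit 76) (nat_lit 735604040740) (nat_lit 15) (nat_lit 5) (nat_lit 18) (nat_lit 5) (nat_lit 16) (nat_lit 4) (nat_lit 311) (nat_lit 299) (nat_lit 170))) (XT.nd (nat_lit 78) (nat_lit 152) (nat_lit 0) (XT.lf (nat_lit 0) (nat_lit 829632281119) (nat_lit 76) (nat_lit 1024780173919) (nat_lit 152) (nat_lit 894975672519)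 (nat_lit 14) (nat_lit 5) (nat_lit 15) (nat_lit 5) (nat_lit 16) (nat_lit 4) (nat_lit 312) (nat_lit 299) (nat_lit 169)) (XT.nd (nat_lit 78) (nat_lit 152) (nat_lit 0) (XT.lf (nat_lit 0) (nat_lit 2498718768369) (nat_lit 76) (nat_lit 132012985527) (nat_lit 152) (nat_lit 392850696695) (nat_lit 14) (nat_lit 5) (nat_lit 15) (nat_lit 5) (nat_lit 16) (nat_lit 4) (nat_lit 313) (nat_lit 299) (nat_lit 168)) (XT.lf (nat_lit 0) (nat_lit 256599064724) (nat_lit 152) (nat_lit 2193837669203) (nat_lit 76) (nat_lit 874056679603) (nat_lit 12) (nat_lit 5) (nat_lit 14) (nat_lit 5) (nat_lit 13) (nat_lit 4) (nat_lit 314) (nat_lit 299) (nat_lit 167))))) (XT.nd (nat_lit 156) (nat_lit 152) (nat_lit 0) (XT.nd (nat_lit 78) (nat_lit 76) (nat_lit 0) (XT.lf (nat_lit 0) (nat_lit 998274726569) (nat_lit 152) (nat_lit 599234999720) (nat_lit 76) (nat_lit 2064970888518) (nat_lit 12) (nat_lit 5) (nat_lit 14) (nat_lit 5) (nat_lit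 13) (nat_lit 4) (nat_lit 315) (nat_lit 299) (nat_lit 166)) (XT.lf (nat_lit 0) (nat_lit 1355208058444) (nat_lit 76) (nat_lit 552109952400) (nat_lit 152) (nat_lit 2135430444460) (nat_lit 11) (nat_lit 5) (nat_lit 12) (nat_lit 5) (nat_lit 13) (nat_lit 4) (nat_lit 316) (nat_lit 299) (nat_lit 165))) (XT.nd (nat_lit 78) (nat_lit 152) (nat_lit 0) (XT.lf (nat_lit 0) (nat_lit 3012452281127) (nat_lit 152) (nat_lit 833605359539) (nat_lit 0) (nat_lit 625038657209) (nat_lit 11) (nat_lit 5) (nat_lit 13) (nat_lit 4) (nat_lit 11) (nat_lit 4) (nat_lit 317) (nat_lit 299) (nat_lit 164)) (XT.nd (nat_lit 78) (nat_lit 76) (nat_lit 0) (XT.lf (nat_lit 0) (nat_lit 1396450674967) (nat_lit 76) (nat_lit 2971021009453) (nat_lit 76) (nat_lit 583607383544) (nat_lit 10) (nat_lit 4) (nat_lit 11) (nat_lit 5) (nat_lit 11) (nat_lit 4) (nat_lit 318) (nat_lit 299) (nat_lit 163)) (XT.lf (nat_lit 0) (nat_lit 430704240934) (nat_lit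 152) (nat_lit 1461399509632) (nat_lit 76) (nat_lit 3601482659642) (nat_lit 9) (nat_lit 5) (nat_lit 11) (nat_lit 5) (nat_lit 10) (nat_lit 4) (nat_lit 319) (nat_lit 299) (nat_lit 162)))))) (XT.nd (nat_lit 390) (nat_lit 228) (nat_lit 0) (XT.nd (nat_lit 156) (nat_lit 76) (nat_lit 0) (XT.nd (nat_lit 78) (nat_lit 0) (nat_lit 0) (XT.lf (nat_lit 0) (nat_lit 1007738746816) (nat_lit 76) (nat_lit 571401893166) (nat_lit 152) (nat_lit 4527901343042) (nat_lit 8) (nat_lit 5) (nat_lit 9) (nat_lit 5) (nat_lit 10) (nat_lit 4) (nat_lit 320) (nat_lit 299) (nat_lit 161)) (XT.lf (nat_lit 0) (nat_lit 3019101548596) (nat_lit 152) (nat_lit 2832435789688) (nat_lit 0) (nat_lit 943089696026) (nat_lit 8) (nat_lit 5) (nat_lit 10) (nat_lit 4) (nat_lit 8) (nat_lit 4) (nat_lit 321) (nat_lit 299) (nat_lit 160))) (XT.nd (nat_lit 78) (nat_lit 76) (nat_lit 0) (XT.lf (nat_lit 0) (nat_lit 4702266205881) (nat_lit 152) (nat_lit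 252747843230) (nat_lit 0) (nat_lit 2626254352321) (nat_lit 8) (nat_lit 5) (nat_lit 10) (nat_lit 4) (nat_lit 8) (nat_lit 4) (nat_lit 322) (nat_lit 299) (nat_lit 159)) (XT.nd (nat_lit 78) (nat_lit 0) (nat_lit 0) (XT.lf (nat_lit 0) (nat_lit 2979114682468) (nat_lit 76) (nat_lit 3782149663939) (nat_lit 76) (nat_lit 1706137809518) (nat_lit 7) (nat_lit 4) (nat_lit 8) (nat_lit 5) (nat_lit 8) (nat_lit 4) (nat_lit 323) (nat_lit 299) (nat_lit 158)) (XT.lf (nat_lit 0) (nat_lit 6724161995482) (nat_lit 76) (nat_lit 2418162030308) (nat_lit 76) (nat_lit 342150175139) (nat_lit 7) (nat_lit 4) (nat_lit 8) (nat_lit 5) (nat_lit 8) (nat_lit 4) (nat_lit 324) (nat_lit 299) (nat_lit 157))))) (XT.nd (nat_lit 156) (nat_lit 76) (nat_lit 0) (XT.nd (nat_lit 78) (nat_lit 0) (nat_lit 0) (XT.lf (nat_lit 0) (nat_lit 357941714017) (nat_lit 76) (nat_lit 774129713814) (nat_lit 152) (nat_lit 9512194772121) (nat_lit 5) (nat_lit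 5) (nat_lit 6) (nat_lit 5) (nat_lit 7) (nat_lit 4) (nat_lit 325) (nat_lit 299) (nat_lit 156)) (XT.lf (nat_lit 0) (nat_lit 2989788755950) (nat_lit 152) (nat_lit 7771624436488) (nat_lit 0) (nat_lit 1184561054744) (nat_lit 5) (nat_lit 5) (nat_lit 7) (nat_lit 4) (nat_lit 5) (nat_lit 4) (nat_lit 326) (nat_lit 299) (nat_lit 155))) (XT.nd (nat_lit 78) (nat_lit 76) (nat_lit 0) (XT.lf (nat_lit 0) (nat_lit 5163027001975) (nat_lit 152) (nat_lit 4916582701378) (nat_lit 0) (nat_lit 3357799300341) (nat_lit 5) (nat_lit 5) (nat_lit 7) (nat_lit 4) (nat_lit 5) (nat_lit 4) (nat_lit 327) (nat_lit 299) (nat_lit 154)) (XT.nd (nat_lit 78) (nat_lit 76) (nat_lit 0) (XT.lf (nat_lit 0) (nat_lit 7662250984019) (nat_lit 152) (nat_lit 1633284707785) (nat_lit 0) (nat_lit 5857023282013) (nat_lit 5) (nat_lit 5) (nat_lit 7) (nat_lit 4) (nat_lit 5) (nat_lit 4) (nat_lit 328) (nat_lit 299) (nat_lit 153)) (XT.lf (nat_lit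 0) (nat_lit 2351889445301) (nat_lit 76) (nat_lit 8281855843812) (nat_lit 76) (nat_lit 6476628141483) (nat_lit 4) (nat_lit 4) (nat_lit 5) (nat_lit 5) (nat_lit 5) (nat_lit 4) (nat_lit 329) (nat_lit 299) (nat_lit 152))))))) (XT.nd (nat_lit 38610) (nat_lit 0) (nat_lit 912) (XT.nd (nat_lit 390) (nat_lit 0) (nat_lit 0) (XT.nd (nat_lit 156) (nat_lit 152) (nat_lit 0) (XT.nd (nat_lit 78) (nat_lit 0) (nat_lit 0) (XT.lf (nat_lit 0) (nat_lit 7118398648963) (nat_lit 76) (nat_lit 7017941336369) (nat_lit 76) (nat_lit 5212713633758) (nat_lit 4) (nat_lit 4) (nat_lit 5) (nat_lit 5) (nat_lit 5) (nat_lit 4) (nat_lit 330) (nat_lit 299) (nat_lit 151)) (XT.lf (nat_lit 0) (nat_lit 12599884231888) (nat_lit 76) (nat_lit 5564439653460) (nat_lit 76) (nat_lit 3759211950605) (nat_lit 4) (nat_lit 4) (nat_lit 5) (nat_lit 5) (nat_lit 5) (nat_lit 4) (nat_lit 331) (nat_lit 299) (nat_lit 150))) (XT.nd (nat_lit 78) (nat_lit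 152) (nat_lit 0) (XT.lf (nat_lit 0) (nat_lit 18903592651133) (nat_lit 76) (nat_lit 3892912718682) (nat_lit 76) (nat_lit 2087685015614) (nat_lit 4) (nat_lit 4) (nat_lit 5) (nat_lit 5) (nat_lit 5) (nat_lit 4) (nat_lit 332) (nat_lit 299) (nat_lit 149)) (XT.nd (nat_lit 78) (nat_lit 152) (nat_lit 0) (XT.lf (nat_lit 0) (nat_lit 26152857332292) (nat_lit 76) (nat_lit 1970656744180) (nat_lit 76) (nat_lit 165429040926) (nat_lit 4) (nat_lit 4) (nat_lit 5) (nat_lit 5) (nat_lit 5) (nat_lit 4) (nat_lit 333) (nat_lit 299) (nat_lit 148)) (XT.lf (nat_lit 0) (nat_lit 1981840301183) (nat_lit 152) (nat_lit 29779976027190) (nat_lit 0) (nat_lit 412077080823) (nat_lit 2) (nat_lit 5) (nat_lit 4) (nat_lit 4) (nat_lit 2) (nat_lit 4) (nat_lit 334) (nat_lit 299) (nat_lit 147))))) (XT.nd (nat_lit 37986) (nat_lit 0) (nat_lit 1596) (XT.nd (nat_lit 37908) (nat_lit 0) (nat_lit 1596) (XT.lf (nat_lit 0) (nat_lit 4645080185085)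 (nat_lit 152) (nat_lit 28888384920586) (nat_lit 0) (nat_lit 3075316964603) (nat_lit 2) (nat_lit 5) (nat_lit 4) (nat_lit 4) (nat_lit 2) (nat_lit 4) (nat_lit 335) (nat_lit 299) (nat_lit 146)) (XT.lf (nat_lit 0) (nat_lit 99848873676) (nat_lit 380) (nat_lit 222473221966) (nat_lit 380) (nat_lit 222473221966) (nat_lit 23) (nat_lit 3) (nat_lit 28) (nat_lit 3) (nat_lit 28) (nat_lit 5) (nat_lit 300) (nat_lit 300) (nat_lit 180))) (XT.nd (nat_lit 78) (nat_lit 0) (nat_lit 76) (XT.lf (nat_lit 76) (nat_lit 76203205908) (nat_lit 0) (nat_lit 141627334952) (nat_lit 380) (nat_lit 953006072469) (nat_lit 24) (nat_lit 5) (nat_lit 23) (nat_lit 3) (nat_lit 28) (nat_lit 5) (nat_lit 301) (nat_lit 300) (nat_lit 179)) (XT.nd (nat_lit 78) (nat_lit 0) (nat_lit 0) (XT.lf (nat_lit 0) (nat_lit 281138056871) (nat_lit 304) (nat_lit 554445743063) (nat_lit 380) (nat_lit 422317467731) (nat_lit 24) (nat_lit 5) (nat_lit 28)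 (nat_lit 5) (nat_lit 29) (nat_lit 5) (nat_lit 302) (nat_lit 300) (nat_lit 178)) (XT.lf (nat_lit 76) (nat_lit 65892073946) (nat_lit 0) (nat_lit 297522227559) (nat_lit 380) (nat_lit 993190428487) (nat_lit 25) (nat_lit 5) (nat_lit 24) (nat_lit 5) (nat_lit 29) (nat_lit 5) (nat_lit 303) (nat_lit 300) (nat_lit 177)))))) (XT.nd (nat_lit 390) (nat_lit 380) (nat_lit 0) (XT.nd (nat_lit 156) (nat_lit 152) (nat_lit 0) (XT.nd (nat_lit 78) (nat_lit 304) (nat_lit 0) (XT.lf (nat_lit 0) (nat_lit 501696699446) (nat_lit 304) (nat_lit 638855988232) (nat_lit 76) (nat_lit 323011316521) (nat_lit 25) (nat_lit 5) (nat_lit 29) (nat_lit 5) (nat_lit 26) (nat_lit 5) (nat_lit 304) (nat_lit 300) (nat_lit 176)) (XT.lf (nat_lit 0) (nat_lit 106053021820) (nat_lit 304) (nat_lit 573227583742) (nat_lit 380) (nat_lit 904502691721) (nat_lit 21) (nat_lit 5) (nat_lit 25) (nat_lit 5) (nat_lit 26) (nat_lit 5) (nat_lit 305) (nat_lit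 300) (nat_lit 175))) (XT.nd (nat_lit 78) (nat_lit 152) (nat_lit 0) (XT.lf (nat_lit 0) (nat_lit 921766412114) (nat_lit 380) (nat_lit 687398769811) (nat_lit 76) (nat_lit 107130655243) (nat_lit 21) (nat_lit 5) (nat_lit 26) (nat_lit 5) (nat_lit 22) (nat_lit 5) (nat_lit 306) (nat_lit 300) (nat_lit 174)) (XT.nd (nat_lit 78) (nat_lit 0) (nat_lit 0) (XT.lf (nat_lit 0) (nat_lit 213163163044) (nat_lit 152) (nat_lit 1023585105374) (nat_lit 228) (nat_lit 626518512816) (nat_lit 19) (nat_lit 5) (nat_lit 21) (nat_lit 5) (nat_lit 22) (nat_lit 5) (nat_lit 307) (nat_lit 300) (nat_lit 173)) (XT.lf (nat_lit 0) (nat_lit 1326063628342) (nat_lit 152) (nat_lit 308845978803) (nat_lit 228) (nat_lit 391983929181) (nat_lit 19) (nat_lit 5) (nat_lit 21) (nat_lit 5) (nat_lit 22) (nat_lit 5) (nat_lit 308) (nat_lit 300) (nat_lit 172))))) (XT.nd (nat_lit 234) (nat_lit 76) (nat_lit 0) (XT.nd (nat_lit 78) (nat_lit 228)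 (nat_lit 0) (XT.lf (nat_lit 0) (nat_lit 405707167788) (nat_lit 76) (nat_lit 1725133986768) (nat_lit 152) (nat_lit 78516248957) (nat_lit 18) (nat_lit 5) (nat_lit 19) (nat_lit 5) (nat_lit 20) (nat_lit 4) (nat_lit 309) (nat_lit 300) (nat_lit 171)) (XT.nd (nat_lit 78) (nat_lit 152) (nat_lit 0) (XT.lf (nat_lit 0) (nat_lit 309954251344) (nat_lit 152) (nat_lit 684834466274) (nat_lit 76) (nat_lit 1414687897635) (nat_lit 17) (nat_lit 5) (nat_lit 19) (nat_lit 5) (nat_lit 18) (nat_lit 5) (nat_lit 310) (nat_lit 300) (nat_lit 170)) (XT.lf (nat_lit 0) (nat_lit 656512036082) (nat_lit 152) (nat_lit 119329482365) (nat_lit 228) (nat_lit 1859133645951) (nat_lit 15) (nat_lit 5) (nat_lit 17) (nat_lit 5) (nat_lit 18) (nat_lit 5) (nat_lit 311) (nat_lit 300) (nat_lit 169)))) (XT.nd (nat_lit 78) (nat_lit 76) (nat_lit 0) (XT.lf (nat_lit 0) (nat_lit 1385862067931) (nat_lit 228) (nat_lit 651354237131) (nat_lit 76)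 (nat_lit 845944662009) (nat_lit 15) (nat_lit 5) (nat_lit 18) (nat_lit 5) (nat_lit 16) (nat_lit 4) (nat_lit 312) (nat_lit 300) (nat_lit 168)) (XT.nd (nat_lit 78) (nat_lit 0) (nat_lit 0) (XT.lf (nat_lit 0) (nat_lit 954077174722) (nat_lit 76) (nat_lit 1178497179933) (nat_lit 152) (nat_lit 1029221987273) (nat_lit 14) (nat_lit 5) (nat_lit 15) (nat_lit 5) (nat_lit 16) (nat_lit 4) (nat_lit 313) (nat_lit 300) (nat_lit 167)) (XT.lf (nat_lit 0) (nat_lit 2873526628350) (nat_lit 76) (nat_lit 151814915902) (nat_lit 152) (nat_lit 451778269787) (nat_lit 14) (nat_lit 5) (nat_lit 15) (nat_lit 5) (nat_lit 16) (nat_lit 4) (nat_lit 314) (nat_lit 300) (nat_lit 166))))))))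
noncomputable def xc112 : XT := (XT.nd (nat_lit 1560) (nat_lit 152) (nat_lit 0) (XT.nd (nat_lit 780) (nat_lit 228) (nat_lit 0) (XT.nd (nat_lit 390) (nat_lit 228) (nat_lit 0) (XT.nd (nat_lit 156) (nat_lit 152) (nat_lit 0) (XT.nd (nat_lit 78) (nat_lit 0) (nat_lit 0) (XT.lf (nat_lit 0) (nat_lit 295088951968) (nat_lit 152) (nat_lit 2522913270898) (nat_lit 76) (nat_lit 1005165198525) (nat_lit 12) (nat_lit 5) (nat_lit 14) (nat_lit 5) (nat_lit 13) (nat_lit 4) (nat_lit 315) (nat_lit 300) (nat_lit 165)) (XT.lf (nat_lit 0) (nat_lit 1148015959498) (nat_lit 152) (nat_lit 689120207343) (nat_lit 76) (nat_lit 2374716536562) (nat_lit 12) (nat_lit 5) (nat_lit 14) (nat_lit 5) (nat_lit 13) (nat_lit 4) (nat_lit 316) (nat_lit 300) (nat_lit 164))) (XT.nd (nat_lit 78) (nat_lit 76) (nat_lit 0) (XT.lf (nat_lit 0) (nat_lit 1558489307622) (nat_lit 76) (nat_lit 634926427343) (nat_lit 152) (nat_lit 2455744985232)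 (nat_lit 11) (nat_lit 5) (nat_lit 12) (nat_lit 5) (nat_lit 13) (nat_lit 4) (nat_lit 317) (nat_lit 300) (nat_lit 163)) (XT.nd (nat_lit 78) (nat_lit 76) (nat_lit 0) (XT.lf (nat_lit 0) (nat_lit 3464320143502) (nat_lit 152) (nat_lit 958646126016) (nat_lit 0) (nat_lit 718794469983) (nat_lit 11) (nat_lit 5) (nat_lit 13) (nat_lit 4) (nat_lit 11) (nat_lit 4) (nat_lit 318) (nat_lit 300) (nat_lit 162)) (XT.lf (nat_lit 0) (nat_lit 1605918311963) (nat_lit 76) (nat_lit 3416674144170) (nat_lit 76) (nat_lit 671148469146) (nat_lit 10) (nat_lit 4) (nat_lit 11) (nat_lit 5) (nat_lit 11) (nat_lit 4) (nat_lit 319) (nat_lit 300) (nat_lit 161))))) (XT.nd (nat_lit 156) (nat_lit 76) (nat_lit 0) (XT.nd (nat_lit 78) (nat_lit 76) (nat_lit 0) (XT.lf (nat_lit 0) (nat_lit 495309894445) (nat_lit 152) (nat_lit 1680609403274) (nat_lit 76) (nat_lit 4141705071397) (nat_lit 9) (nat_lit 5) (nat_lit 11) (nat_lit 5) (nat_lit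 10) (nat_lit 4) (nat_lit 320) (nat_lit 300) (nat_lit 160)) (XT.lf (nat_lit 0) (nat_lit 1158899590150) (nat_lit 76) (nat_lit 657112162231) (nat_lit 152) (nat_lit 5207086525622) (nat_lit 8) (nat_lit 5) (nat_lit 9) (nat_lit 5) (nat_lit 10) (nat_lit 4) (nat_lit 321) (nat_lit 300) (nat_lit 159))) (XT.nd (nat_lit 78) (nat_lit 76) (nat_lit 0) (XT.lf (nat_lit 0) (nat_lit 3471966795685) (nat_lit 152) (nat_lit 3257301129299) (nat_lit 0) (nat_lit 1084553162240) (nat_lit 8) (nat_lit 5) (nat_lit 10) (nat_lit 4) (nat_lit 8) (nat_lit 4) (nat_lit 322) (nat_lit 300) (nat_lit 158)) (XT.nd (nat_lit 78) (nat_lit 76) (nat_lit 0) (XT.lf (nat_lit 0) (nat_lit 5407606149632) (nat_lit 152) (nat_lit 290659994634) (nat_lit 0) (nat_lit 3020192515439) (nat_lit 8) (nat_lit 5) (nat_lit 10) (nat_lit 4) (nat_lit 8) (nat_lit 4) (nat_lit 323) (nat_lit 300) (nat_lit 157)) (XT.lf (nat_lit 0) (nat_lit 3425981908778) (nat_lit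 76) (nat_lit 4349472101772) (nat_lit 76) (nat_lit 1962058466928) (nat_lit 7) (nat_lit 4) (nat_lit 8) (nat_lit 5) (nat_lit 8) (nat_lit 4) (nat_lit 324) (nat_lit 300) (nat_lit 156)))))) (XT.nd (nat_lit 390) (nat_lit 76) (nat_lit 0) (XT.nd (nat_lit 156) (nat_lit 0) (nat_lit 0) (XT.nd (nat_lit 78) (nat_lit 152) (nat_lit 0) (XT.lf (nat_lit 0) (nat_lit 7732786315622) (nat_lit 76) (nat_lit 2780886324630) (nat_lit 76) (nat_lit 393472689219) (nat_lit 7) (nat_lit 4) (nat_lit 8) (nat_lit 5) (nat_lit 8) (nat_lit 4) (nat_lit 325) (nat_lit 300) (nat_lit 155)) (XT.lf (nat_lit 0) (nat_lit 411632992033) (nat_lit 76) (nat_lit 890249160494) (nat_lit 152) (nat_lit 10939023975832) (nat_lit 5) (nat_lit 5) (nat_lit 6) (nat_lit 5) (nat_lit 7) (nat_lit 4) (nat_lit 326) (nat_lit 300) (nat_lit 154))) (XT.nd (nat_lit 78) (nat_lit 0) (nat_lit 0) (XT.lf (nat_lit 0) (nat_lit 3438257078866) (nat_lit 152) (nat_lit 8937368082771)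 (nat_lit 0) (nat_lit 1362245221188) (nat_lit 5) (nat_lit 5) (nat_lit 7) (nat_lit 4) (nat_lit 5) (nat_lit 4) (nat_lit 327) (nat_lit 300) (nat_lit 153)) (XT.nd (nat_lit 78) (nat_lit 0) (nat_lit 0) (XT.lf (nat_lit 0) (nat_lit 5937481060553) (nat_lit 152) (nat_lit 5654070089899) (nat_lit 0) (nat_lit 3861469202550) (nat_lit 5) (nat_lit 5) (nat_lit 7) (nat_lit 4) (nat_lit 5) (nat_lit 4) (nat_lit 328) (nat_lit 300) (nat_lit 152)) (XT.lf (nat_lit 0) (nat_lit 8811588638824) (nat_lit 152) (nat_lit 1878277399442) (nat_lit 0) (nat_lit 6735576780540) (nat_lit 5) (nat_lit 5) (nat_lit 7) (nat_lit 4) (nat_lit 5) (nat_lit 4) (nat_lit 329) (nat_lit 300) (nat_lit 151))))) (XT.nd (nat_lit 156) (nat_lit 0) (nat_lit 0) (XT.nd (nat_lit 78) (nat_lit 0) (nat_lit 0) (XT.lf (nat_lit 0) (nat_lit 2704672875947) (nat_lit 76) (nat_lit 9524134213369) (nat_lit 76) (nat_lit 7448122354841) (nat_lit 4) (nat_lit 4) (nat_lit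 5) (nat_lit 5) (nat_lit 5) (nat_lit 4) (nat_lit 330) (nat_lit 300) (nat_lit 150)) (XT.lf (nat_lit 0) (nat_lit 8186158458352) (nat_lit 76) (nat_lit 8070632530724) (nat_lit 76) (nat_lit 5994620671983) (nat_lit 4) (nat_lit 4) (nat_lit 5) (nat_lit 5) (nat_lit 5) (nat_lit 4) (nat_lit 331) (nat_lit 300) (nat_lit 149))) (XT.nd (nat_lit 78) (nat_lit 0) (nat_lit 0) (XT.lf (nat_lit 0) (nat_lit 14489866877144) (nat_lit 76) (nat_lit 6399105596175) (nat_lit 76) (nat_lit 4323093737249) (nat_lit 4) (nat_lit 4) (nat_lit 5) (nat_lit 5) (nat_lit 5) (nat_lit 4) (nat_lit 332) (nat_lit 300) (nat_lit 148)) (XT.nd (nat_lit 78) (nat_lit 0) (nat_lit 0) (XT.lf (nat_lit 0) (nat_lit 21739131557910) (nat_lit 76) (nat_lit 4476849621872) (nat_lit 76) (nat_lit 2400837762785) (nat_lit 4) (nat_lit 4) (nat_lit 5) (nat_lit 5) (nat_lit 5) (nat_lit 4) (nat_lit 333) (nat_lit 300) (nat_lit 147)) (XT.lf (nat_lit 0) (nat_lit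 30075785940054) (nat_lit 76) (nat_lit 2266255251796) (nat_lit 76) (nat_lit 190243392569) (nat_lit 4) (nat_lit 4) (nat_lit 5) (nat_lit 5) (nat_lit 5) (nat_lit 4) (nat_lit 334) (nat_lit 300) (nat_lit 146))))))) (XT.nd (nat_lit 38688) (nat_lit 0) (nat_lit 684) (XT.nd (nat_lit 38298) (nat_lit 0) (nat_lit 1292) (XT.nd (nat_lit 38064) (nat_lit 0) (nat_lit 1596) (XT.nd (nat_lit 37986) (nat_lit 0) (nat_lit 1596) (XT.lf (nat_lit 0) (nat_lit 2279116350420) (nat_lit 152) (nat_lit 34246972422908) (nat_lit 0) (nat_lit 473888646638) (nat_lit 2) (nat_lit 5) (nat_lit 4) (nat_lit 4) (nat_lit 2) (nat_lit 4) (nat_lit 335) (nat_lit 300) (nat_lit 145)) (XT.lf (nat_lit 0) (nat_lit 114826252853) (nat_lit 380) (nat_lit 255844177512) (nat_lit 380) (nat_lit 255844177512) (nat_lit 23) (nat_lit 3) (nat_lit 28) (nat_lit 3) (nat_lit 28) (nat_lit 5) (nat_lit 301) (nat_lit 301) (nat_lit 178))) (XT.nd (nat_lit 78) (nat_lit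 0) (nat_lit 76) (XT.lf (nat_lit 76) (nat_lit 87633739771) (nat_lit 0) (nat_lit 162871468109) (nat_lit 380) (nat_lit 1095956884296) (nat_lit 24) (nat_lit 5) (nat_lit 23) (nat_lit 3) (nat_lit 28) (nat_lit 5) (nat_lit 302) (nat_lit 301) (nat_lit 177)) (XT.nd (nat_lit 78) (nat_lit 0) (nat_lit 0) (XT.lf (nat_lit 0) (nat_lit 323308838904) (nat_lit 304) (nat_lit 637612545833) (nat_lit 380) (nat_lit 485665061818) (nat_lit 24) (nat_lit 5) (nat_lit 28) (nat_lit 5) (nat_lit 29) (nat_lit 5) (nat_lit 303) (nat_lit 301) (nat_lit 176)) (XT.lf (nat_lit 76) (nat_lit 75775941060) (nat_lit 0) (nat_lit 342150571906) (nat_lit 380) (nat_lit 1142168916386) (nat_lit 25) (nat_lit 5) (nat_lit 24) (nat_lit 5) (nat_lit 29) (nat_lit 5) (nat_lit 304) (nat_lit 301) (nat_lit 175))))) (XT.nd (nat_lit 156) (nat_lit 152) (nat_lit 0) (XT.nd (nat_lit 78) (nat_lit 304) (nat_lit 0) (XT.lf (nat_lit 0) (nat_lit 576951261591)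 (nat_lit 304) (nat_lit 734684328568) (nat_lit 76) (nat_lit 371463005909) (nat_lit 25) (nat_lit 5) (nat_lit 29) (nat_lit 5) (nat_lit 26) (nat_lit 5) (nat_lit 305) (nat_lit 301) (nat_lit 174)) (XT.lf (nat_lit 0) (nat_lit 121961030360) (nat_lit 304) (nat_lit 659211718088) (nat_lit 380) (nat_lit 1040178035465) (nat_lit 21) (nat_lit 5) (nat_lit 25) (nat_lit 5) (nat_lit 26) (nat_lit 5) (nat_lit 306) (nat_lit 301) (nat_lit 173))) (XT.nd (nat_lit 78) (nat_lit 152) (nat_lit 0) (XT.lf (nat_lit 0) (nat_lit 1060031419309) (nat_lit 380) (nat_lit 790508530416) (nat_lit 76) (nat_lit 123200256077) (nat_lit 21) (nat_lit 5) (nat_lit 26) (nat_lit 5) (nat_lit 22) (nat_lit 5) (nat_lit 307) (nat_lit 301) (nat_lit 172)) (XT.nd (nat_lit 78) (nat_lit 0) (nat_lit 0) (XT.lf (nat_lit 0) (nat_lit 245137689873) (nat_lit 152) (nat_lit 1177122860436) (nat_lit 228) (nat_lit 720496241749) (nat_lit 19) (nat_lit 5) (nat_lit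 21) (nat_lit 5) (nat_lit 22) (nat_lit 5) (nat_lit 308) (nat_lit 301) (nat_lit 171)) (XT.lf (nat_lit 0) (nat_lit 1524973218135) (nat_lit 152) (nat_lit 355172866281) (nat_lit 228) (nat_lit 450781476829) (nat_lit 19) (nat_lit 5) (nat_lit 21) (nat_lit 5) (nat_lit 22) (nat_lit 5) (nat_lit 309) (nat_lit 301) (nat_lit 170)))))) (XT.nd (nat_lit 390) (nat_lit 228) (nat_lit 0) (XT.nd (nat_lit 156) (nat_lit 228) (nat_lit 0) (XT.nd (nat_lit 78) (nat_lit 76) (nat_lit 0) (XT.lf (nat_lit 0) (nat_lit 466563291338) (nat_lit 76) (nat_lit 1983904070219) (nat_lit 152) (nat_lit 90293647324) (nat_lit 18) (nat_lit 5) (nat_lit 19) (nat_lit 5) (nat_lit 20) (nat_lit 4) (nat_lit 310) (nat_lit 301) (nat_lit 169)) (XT.lf (nat_lit 0) (nat_lit 356447419921) (nat_lit 152) (nat_lit 787559591060) (nat_lit 76) (nat_lit 1626891091862) (nat_lit 17) (nat_lit 5) (nat_lit 19) (nat_lit 5) (nat_lit 18) (nat_lit 5) (nat_lit 311)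 (nat_lit 301) (nat_lit 168))) (XT.nd (nat_lit 78) (nat_lit 76) (nat_lit 0) (XT.lf (nat_lit 0) (nat_lit 754988884596) (nat_lit 152) (nat_lit 137228890250) (nat_lit 228) (nat_lit 2138003659857) (nat_lit 15) (nat_lit 5) (nat_lit 17) (nat_lit 5) (nat_lit 18) (nat_lit 5) (nat_lit 312) (nat_lit 301) (nat_lit 167)) (XT.nd (nat_lit 78) (nat_lit 76) (nat_lit 0) (XT.lf (nat_lit 0) (nat_lit 1593741403540) (nat_lit 228) (nat_lit 749057331956) (nat_lit 76) (nat_lit 972836372772) (nat_lit 15) (nat_lit 5) (nat_lit 18) (nat_lit 5) (nat_lit 16) (nat_lit 4) (nat_lit 313) (nat_lit 301) (nat_lit 166)) (XT.lf (nat_lit 0) (nat_lit 1097188789823) (nat_lit 76) (nat_lit 1355271741745) (nat_lit 152) (nat_lit 1183605258048) (nat_lit 14) (nat_lit 5) (nat_lit 15) (nat_lit 5) (nat_lit 16) (nat_lit 4) (nat_lit 314) (nat_lit 301) (nat_lit 165))))) (XT.nd (nat_lit 156) (nat_lit 76) (nat_lit 0) (XT.nd (nat_lit 78) (nat_lit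 152) (nat_lit 0) (XT.lf (nat_lit 0) (nat_lit 3304555656423) (nat_lit 76) (nat_lit 174587140089) (nat_lit 152) (nat_lit 519544986503) (nat_lit 14) (nat_lit 5) (nat_lit 15) (nat_lit 5) (nat_lit 16) (nat_lit 4) (nat_lit 315) (nat_lit 301) (nat_lit 164)) (XT.lf (nat_lit 0) (nat_lit 339352315585) (nat_lit 152) (nat_lit 2901350224720) (nat_lit 76) (nat_lit 1155939991144) (nat_lit 12) (nat_lit 5) (nat_lit 14) (nat_lit 5) (nat_lit 13) (nat_lit 4) (nat_lit 316) (nat_lit 301) (nat_lit 163))) (XT.nd (nat_lit 78) (nat_lit 76) (nat_lit 0) (XT.lf (nat_lit 0) (nat_lit 1320218371528) (nat_lit 152) (nat_lit 792488206433) (nat_lit 76) (nat_lit 2730924028212) (nat_lit 12) (nat_lit 5) (nat_lit 14) (nat_lit 5) (nat_lit 13) (nat_lit 4) (nat_lit 317) (nat_lit 301) (nat_lit 162)) (XT.nd (nat_lit 78) (nat_lit 0) (nat_lit 0) (XT.lf (nat_lit 0) (nat_lit 1792262734321) (nat_lit 76) (nat_lit 730165377897) (nat_lit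 152) (nat_lit 2824106713435) (nat_lit 11) (nat_lit 5) (nat_lit 12) (nat_lit 5) (nat_lit 13) (nat_lit 4) (nat_lit 318) (nat_lit 301) (nat_lit 161)) (XT.lf (nat_lit 0) (nat_lit 3983968180305) (nat_lit 152) (nat_lit 1102443016598) (nat_lit 0) (nat_lit 826613651212) (nat_lit 11) (nat_lit 5) (nat_lit 13) (nat_lit 4) (nat_lit 11) (nat_lit 4) (nat_lit 319) (nat_lit 301) (nat_lit 160))))))))
noncomputable def xc113 : XT := (XT.nd (nat_lit 39468) (nat_lit 0) (nat_lit 532) (XT.nd (nat_lit 780) (nat_lit 304) (nat_lit 0) (XT.nd (nat_lit 390) (nat_lit 228) (nat_lit 0) (XT.nd (nat_lit 156) (nat_lit 76) (nat_lit 0) (XT.nd (nat_lit 78) (nat_lit 76) (nat_lit 0) (XT.lf (nat_lit 0) (nat_lit 1846806085791) (nat_lit 76) (nat_lit 3929175253167) (nat_lit 76) (nat_lit 771820722936) (nat_lit 10) (nat_lit 4) (nat_lit 11) (nat_lit 5) (nat_lit 11) (nat_lit 4) (nat_lit 320) (nat_lit 301) (nat_lit 159)) (XT.lf (nat_lit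 0) (nat_lit 569606391747) (nat_lit 152) (nat_lit 1932700788963) (nat_lit 76) (nat_lit 4762960841791) (nat_lit 9) (nat_lit 5) (nat_lit 11) (nat_lit 5) (nat_lit 10) (nat_lit 4) (nat_lit 321) (nat_lit 301) (nat_lit 158))) (XT.nd (nat_lit 78) (nat_lit 0) (nat_lit 0) (XT.lf (nat_lit 0) (nat_lit 1332734552348) (nat_lit 76) (nat_lit 755678975293) (nat_lit 152) (nat_lit 5988149490192) (nat_lit 8) (nat_lit 5) (nat_lit 9) (nat_lit 5) (nat_lit 10) (nat_lit 4) (nat_lit 322) (nat_lit 301) (nat_lit 157)) (XT.nd (nat_lit 78) (nat_lit 0) (nat_lit 0) (XT.lf (nat_lit 0) (nat_lit 3992761826228) (nat_lit 152) (nat_lit 3745896276885) (nat_lit 0) (nat_lit 1247236145506) (nat_lit 8) (nat_lit 5) (nat_lit 10) (nat_lit 4) (nat_lit 8) (nat_lit 4) (nat_lit 323) (nat_lit 301) (nat_lit 156)) (XT.lf (nat_lit 0) (nat_lit 6218747081808) (nat_lit 152) (nat_lit 334258974865) (nat_lit 0) (nat_lit 3473221400520) (nat_lit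 8) (nat_lit 5) (nat_lit 10) (nat_lit 4) (nat_lit 8) (nat_lit 4) (nat_lit 324) (nat_lit 301) (nat_lit 155))))) (XT.nd (nat_lit 156) (nat_lit 152) (nat_lit 0) (XT.nd (nat_lit 78) (nat_lit 0) (nat_lit 0) (XT.lf (nat_lit 0) (nat_lit 3939879213197) (nat_lit 76) (nat_lit 5001892908147) (nat_lit 76) (nat_lit 2256367226367) (nat_lit 7) (nat_lit 4) (nat_lit 8) (nat_lit 5) (nat_lit 8) (nat_lit 4) (nat_lit 325) (nat_lit 301) (nat_lit 154)) (XT.lf (nat_lit 0) (nat_lit 8892704278706) (nat_lit 76) (nat_lit 3198019265593) (nat_lit 76) (nat_lit 452493583385) (nat_lit 7) (nat_lit 4) (nat_lit 8) (nat_lit 5) (nat_lit 8) (nat_lit 4) (nat_lit 326) (nat_lit 301) (nat_lit 153))) (XT.nd (nat_lit 78) (nat_lit 0) (nat_lit 0) (XT.lf (nat_lit 0) (nat_lit 473377956652) (nat_lit 76) (nat_lit 1023786526711) (nat_lit 152) (nat_lit 12579877563053) (nat_lit 5) (nat_lit 5) (nat_lit 6) (nat_lit 5) (nat_lit 7) (nat_lit 4)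 (nat_lit 327) (nat_lit 301) (nat_lit 152)) (XT.nd (nat_lit 78) (nat_lit 0) (nat_lit 0) (XT.lf (nat_lit 0) (nat_lit 3953995647898) (nat_lit 152) (nat_lit 10277973280677) (nat_lit 0) (nat_lit 1566582010590) (nat_lit 5) (nat_lit 5) (nat_lit 7) (nat_lit 4) (nat_lit 5) (nat_lit 4) (nat_lit 328) (nat_lit 301) (nat_lit 151)) (XT.lf (nat_lit 0) (nat_lit 6828103225898) (nat_lit 152) (nat_lit 6502180590766) (nat_lit 0) (nat_lit 4440689588346) (nat_lit 5) (nat_lit 5) (nat_lit 7) (nat_lit 4) (nat_lit 5) (nat_lit 4) (nat_lit 329) (nat_lit 301) (nat_lit 150)))))) (XT.nd (nat_lit 390) (nat_lit 228) (nat_lit 0) (XT.nd (nat_lit 156) (nat_lit 0) (nat_lit 0) (XT.nd (nat_lit 78) (nat_lit 76) (nat_lit 0) (XT.lf (nat_lit 0) (nat_lit 10133326940093) (nat_lit 152) (nat_lit 2160018998387) (nat_lit 0) (nat_lit 7745913302327) (nat_lit 5) (nat_lit 5) (nat_lit 7) (nat_lit 4) (nat_lit 5) (nat_lit 4) (nat_lit 330)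 (nat_lit 301) (nat_lit 149)) (XT.lf (nat_lit 0) (nat_lit 3110373817813) (nat_lit 76) (nat_lit 10952754340071) (nat_lit 76) (nat_lit 8565340702120) (nat_lit 4) (nat_lit 4) (nat_lit 5) (nat_lit 5) (nat_lit 5) (nat_lit 4) (nat_lit 331) (nat_lit 301) (nat_lit 148))) (XT.nd (nat_lit 78) (nat_lit 0) (nat_lit 0) (XT.lf (nat_lit 0) (nat_lit 9414082236212) (nat_lit 76) (nat_lit 9281227405721) (nat_lit 76) (nat_lit 6893813767610) (nat_lit 4) (nat_lit 4) (nat_lit 5) (nat_lit 5) (nat_lit 5) (nat_lit 4) (nat_lit 332) (nat_lit 301) (nat_lit 147)) (XT.nd (nat_lit 78) (nat_lit 0) (nat_lit 0) (XT.lf (nat_lit 0) (nat_lit 16663346916635) (nat_lit 76) (nat_lit 7358971431591) (nat_lit 76) (nat_lit 4971557793340) (nat_lit 4) (nat_lit 4) (nat_lit 5) (nat_lit 5) (nat_lit 5) (nat_lit 4) (nat_lit 333) (nat_lit 301) (nat_lit 146)) (XT.lf (nat_lit 0) (nat_lit 25000001298482) (nat_lit 76) (nat_lit 5148377061665)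 (nat_lit 76) (nat_lit 2760963423292) (nat_lit 4) (nat_lit 4) (nat_lit 5) (nat_lit 5) (nat_lit 5) (nat_lit 4) (nat_lit 334) (nat_lit 301) (nat_lit 145))))) (XT.nd (nat_lit 38064) (nat_lit 0) (nat_lit 1672) (XT.nd (nat_lit 1638) (nat_lit 228) (nat_lit 0) (XT.lf (nat_lit 0) (nat_lit 34587153837051) (nat_lit 76) (nat_lit 2606193536533) (nat_lit 76) (nat_lit 218779898054) (nat_lit 4) (nat_lit 4) (nat_lit 5) (nat_lit 5) (nat_lit 5) (nat_lit 4) (nat_lit 335) (nat_lit 301) (nat_lit 144)) (XT.lf (nat_lit 0) (nat_lit 89366202216885) (nat_lit 76) (nat_lit 277775347168967) (nat_lit 76) (nat_lit 275699335308840) (nat_lit 1) (nat_lit 4) (nat_lit 2) (nat_lit 5) (nat_lit 2) (nat_lit 4) (nat_lit 356) (nat_lit 301) (nat_lit 123))) (XT.nd (nat_lit 78) (nat_lit 0) (nat_lit 0) (XT.lf (nat_lit 0) (nat_lit 132050227171) (nat_lit 380) (nat_lit 294220783156) (nat_lit 380) (nat_lit 294220783156) (nat_lit 23) (nat_lit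 3) (nat_lit 28) (nat_lit 3) (nat_lit 28) (nat_lit 5) (nat_lit 302) (nat_lit 302) (nat_lit 176)) (XT.nd (nat_lit 78) (nat_lit 0) (nat_lit 76) (XT.lf (nat_lit 76) (nat_lit 100778840795) (nat_lit 0) (nat_lit 187302213213) (nat_lit 380) (nat_lit 1260350342049) (nat_lit 24) (nat_lit 5) (nat_lit 23) (nat_lit 3) (nat_lit 28) (nat_lit 5) (nat_lit 303) (nat_lit 302) (nat_lit 175)) (XT.lf (nat_lit 0) (nat_lit 371805220318) (nat_lit 304) (nat_lit 733254383331) (nat_lit 380) (nat_lit 558514801376) (nat_lit 24) (nat_lit 5) (nat_lit 28) (nat_lit 5) (nat_lit 29) (nat_lit 5) (nat_lit 304) (nat_lit 302) (nat_lit 174))))))) (XT.nd (nat_lit 780) (nat_lit 532) (nat_lit 0) (XT.nd (nat_lit 390) (nat_lit 304) (nat_lit 0) (XT.nd (nat_lit 156) (nat_lit 380) (nat_lit 0) (XT.nd (nat_lit 78) (nat_lit 0) (nat_lit 76) (XT.lf (nat_lit 76) (nat_lit 87142374580) (nat_lit 0) (nat_lit 393473165414) (nat_lit 380) (nat_lit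 1313494196094) (nat_lit 25) (nat_lit 5) (nat_lit 24) (nat_lit 5) (nat_lit 29) (nat_lit 5) (nat_lit 305) (nat_lit 302) (nat_lit 173)) (XT.lf (nat_lit 0) (nat_lit 663493994102) (nat_lit 304) (nat_lit 844886934073) (nat_lit 76) (nat_lit 427182450678) (nat_lit 25) (nat_lit 5) (nat_lit 29) (nat_lit 5) (nat_lit 26) (nat_lit 5) (nat_lit 306) (nat_lit 302) (nat_lit 172))) (XT.nd (nat_lit 78) (nat_lit 152) (nat_lit 0) (XT.lf (nat_lit 0) (nat_lit 140255226704) (nat_lit 304) (nat_lit 758093473370) (nat_lit 380) (nat_lit 1196204695406) (nat_lit 21) (nat_lit 5) (nat_lit 25) (nat_lit 5) (nat_lit 26) (nat_lit 5) (nat_lit 307) (nat_lit 302) (nat_lit 171)) (XT.nd (nat_lit 78) (nat_lit 152) (nat_lit 0) (XT.lf (nat_lit 0) (nat_lit 1219036166518) (nat_lit 380) (nat_lit 909084768492) (nat_lit 76) (nat_lit 141680296414) (nat_lit 21) (nat_lit 5) (nat_lit 26) (nat_lit 5) (nat_lit 22) (nat_lit 5) (nat_lit 308)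 (nat_lit 302) (nat_lit 170)) (XT.lf (nat_lit 0) (nat_lit 281908382955) (nat_lit 152) (nat_lit 1353691281378) (nat_lit 228) (nat_lit 828570641726) (nat_lit 19) (nat_lit 5) (nat_lit 21) (nat_lit 5) (nat_lit 22) (nat_lit 5) (nat_lit 309) (nat_lit 302) (nat_lit 169))))) (XT.nd (nat_lit 156) (nat_lit 228) (nat_lit 0) (XT.nd (nat_lit 78) (nat_lit 76) (nat_lit 0) (XT.lf (nat_lit 0) (nat_lit 1753719235291) (nat_lit 152) (nat_lit 408448789158) (nat_lit 228) (nat_lit 518398666801) (nat_lit 19) (nat_lit 5) (nat_lit 21) (nat_lit 5) (nat_lit 22) (nat_lit 5) (nat_lit 310) (nat_lit 302) (nat_lit 168)) (XT.lf (nat_lit 0) (nat_lit 536547821621) (nat_lit 76) (nat_lit 2281489669738) (nat_lit 152) (nat_lit 103837664950) (nat_lit 18) (nat_lit 5) (nat_lit 19) (nat_lit 5) (nat_lit 20) (nat_lit 4) (nat_lit 311) (nat_lit 302) (nat_lit 167))) (XT.nd (nat_lit 78) (nat_lit 152) (nat_lit 0) (XT.lf (nat_lit 0) (nat_lit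 409914556256) (nat_lit 152) (nat_lit 905693495576) (nat_lit 76) (nat_lit 1870924762886) (nat_lit 17) (nat_lit 5) (nat_lit 19) (nat_lit 5) (nat_lit 18) (nat_lit 5) (nat_lit 312) (nat_lit 302) (nat_lit 166)) (XT.nd (nat_lit 78) (nat_lit 0) (nat_lit 0) (XT.lf (nat_lit 0) (nat_lit 868237249877) (nat_lit 152) (nat_lit 157813212847) (nat_lit 228) (nat_lit 2458704183894) (nat_lit 15) (nat_lit 5) (nat_lit 17) (nat_lit 5) (nat_lit 18) (nat_lit 5) (nat_lit 313) (nat_lit 302) (nat_lit 165)) (XT.lf (nat_lit 0) (nat_lit 1832802633291) (nat_lit 228) (nat_lit 861415900941) (nat_lit 76) (nat_lit 1118761837355) (nat_lit 15) (nat_lit 5) (nat_lit 18) (nat_lit 5) (nat_lit 16) (nat_lit 4) (nat_lit 314) (nat_lit 302) (nat_lit 164)))))) (XT.nd (nat_lit 390) (nat_lit 228) (nat_lit 0) (XT.nd (nat_lit 156) (nat_lit 228) (nat_lit 0) (XT.nd (nat_lit 78) (nat_lit 0) (nat_lit 0) (XT.lf (nat_lit 0) (nat_lit 1261767137704)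 (nat_lit 76) (nat_lit 1558562491531) (nat_lit 152) (nat_lit 1361146026101) (nat_lit 14) (nat_lit 5) (nat_lit 15) (nat_lit 5) (nat_lit 16) (nat_lit 4) (nat_lit 315) (nat_lit 302) (nat_lit 163)) (XT.lf (nat_lit 0) (nat_lit 3800239030458) (nat_lit 76) (nat_lit 200775201123) (nat_lit 152) (nat_lit 597476716518) (nat_lit 14) (nat_lit 5) (nat_lit 15) (nat_lit 5) (nat_lit 16) (nat_lit 4) (nat_lit 316) (nat_lit 302) (nat_lit 162))) (XT.nd (nat_lit 78) (nat_lit 76) (nat_lit 0) (XT.lf (nat_lit 0) (nat_lit 390255178666) (nat_lit 152) (nat_lit 3336552730592) (nat_lit 76) (nat_lit 1329330999525) (nat_lit 12) (nat_lit 5) (nat_lit 14) (nat_lit 5) (nat_lit 13) (nat_lit 4) (nat_lit 317) (nat_lit 302) (nat_lit 161)) (XT.nd (nat_lit 78) (nat_lit 76) (nat_lit 0) (XT.lf (nat_lit 0) (nat_lit 1518251140947) (nat_lit 152) (nat_lit 911361413193) (nat_lit 76) (nat_lit 3140562640886) (nat_lit 12) (nat_lit 5) (nat_lit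 14) (nat_lit 5) (nat_lit 13) (nat_lit 4) (nat_lit 318) (nat_lit 302) (nat_lit 160)) (XT.lf (nat_lit 0) (nat_lit 2061102167574) (nat_lit 76) (nat_lit 839690174338) (nat_lit 152) (nat_lit 3247722705644) (nat_lit 11) (nat_lit 5) (nat_lit 12) (nat_lit 5) (nat_lit 13) (nat_lit 4) (nat_lit 319) (nat_lit 302) (nat_lit 159))))) (XT.nd (nat_lit 234) (nat_lit 76) (nat_lit 0) (XT.nd (nat_lit 78) (nat_lit 152) (nat_lit 0) (XT.lf (nat_lit 0) (nat_lit 4581563418903) (nat_lit 152) (nat_lit 1267809447673) (nat_lit 0) (nat_lit 950605707009) (nat_lit 11) (nat_lit 5) (nat_lit 13) (nat_lit 4) (nat_lit 11) (nat_lit 4) (nat_lit 320) (nat_lit 302) (nat_lit 158)) (XT.nd (nat_lit 78) (nat_lit 76) (nat_lit 0) (XT.lf (nat_lit 0) (nat_lit 2123827019100) (nat_lit 76) (nat_lit 4518551531593) (nat_lit 76) (nat_lit 887593818839) (nat_lit 10) (nat_lit 4) (nat_lit 11) (nat_lit 5) (nat_lit 11) (nat_lit 4) (nat_lit 321)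 (nat_lit 302) (nat_lit 157)) (XT.lf (nat_lit 0) (nat_lit 655047360442) (nat_lit 152) (nat_lit 2222605888552) (nat_lit 76) (nat_lit 5477404975383) (nat_lit 9) (nat_lit 5) (nat_lit 11) (nat_lit 5) (nat_lit 10) (nat_lit 4) (nat_lit 322) (nat_lit 302) (nat_lit 156)))) (XT.nd (nat_lit 78) (nat_lit 0) (nat_lit 0) (XT.lf (nat_lit 0) (nat_lit 1532644753103) (nat_lit 76) (nat_lit 869030813063) (nat_lit 152) (nat_lit 6886371902928) (nat_lit 8) (nat_lit 5) (nat_lit 9) (nat_lit 5) (nat_lit 10) (nat_lit 4) (nat_lit 323) (nat_lit 302) (nat_lit 155)) (XT.nd (nat_lit 78) (nat_lit 0) (nat_lit 0) (XT.lf (nat_lit 0) (nat_lit 4591676108624) (nat_lit 152) (nat_lit 4307780701927) (nat_lit 0) (nat_lit 1434321574085) (nat_lit 8) (nat_lit 5) (nat_lit 10) (nat_lit 4) (nat_lit 8) (nat_lit 4) (nat_lit 324) (nat_lit 302) (nat_lit 154)) (XT.lf (nat_lit 0) (nat_lit 7151559151437) (nat_lit 152) (nat_lit 384397806755)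 (nat_lit 0) (nat_lit 3994204616470) (nat_lit 8) (nat_lit 5) (nat_lit 10) (nat_lit 4) (nat_lit 8) (nat_lit 4) (nat_lit 325) (nat_lit 302) (nat_lit 153))))))))
noncomputable def xc114 : XT := (XT.nd (nat_lit 39390) (nat_lit 0) (nat_lit 304) (XT.nd (nat_lit 2184) (nat_lit 228) (nat_lit 0) (XT.nd (nat_lit 390) (nat_lit 76) (nat_lit 0) (XT.nd (nat_lit 156) (nat_lit 152) (nat_lit 0) (XT.nd (nat_lit 78) (nat_lit 0) (nat_lit 0) (XT.lf (nat_lit 0) (nat_lit 4530861108865) (nat_lit 76) (nat_lit 5752176837646) (nat_lit 76) (nat_lit 2594822302307) (nat_lit 7) (nat_lit 4) (nat_lit 8) (nat_lit 5) (nat_lit 8) (nat_lit 4) (nat_lit 326) (nat_lit 302) (nat_lit 152)) (XT.lf (nat_lit 0) (nat_lit 10226609932415) (nat_lit 76) (nat_lit 3677722149586) (nat_lit 76) (nat_lit 520367613923) (nat_lit 7) (nat_lit 4) (nat_lit 8) (nat_lit 5) (nat_lit 8) (nat_lit 4) (nat_lit 327) (nat_lit 302) (nat_lit 151))) (XT.nd (nat_lit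 78) (nat_lit 0) (nat_lit 0) (XT.lf (nat_lit 0) (nat_lit 544384662107) (nat_lit 76) (nat_lit 1177354499776) (nat_lit 152) (nat_lit 14466859190588) (nat_lit 5) (nat_lit 5) (nat_lit 6) (nat_lit 5) (nat_lit 7) (nat_lit 4) (nat_lit 328) (nat_lit 302) (nat_lit 150)) (XT.nd (nat_lit 78) (nat_lit 0) (nat_lit 0) (XT.lf (nat_lit 0) (nat_lit 4547095000528) (nat_lit 152) (nat_lit 11819669261807) (nat_lit 0) (nat_lit 1801569316885) (nat_lit 5) (nat_lit 5) (nat_lit 7) (nat_lit 4) (nat_lit 5) (nat_lit 4) (nat_lit 329) (nat_lit 302) (nat_lit 149)) (XT.lf (nat_lit 0) (nat_lit 7852318714518) (nat_lit 152) (nat_lit 7477507669840) (nat_lit 0) (nat_lit 5106793030690) (nat_lit 5) (nat_lit 5) (nat_lit 7) (nat_lit 4) (nat_lit 5) (nat_lit 4) (nat_lit 330) (nat_lit 302) (nat_lit 148))))) (XT.nd (nat_lit 156) (nat_lit 0) (nat_lit 0) (XT.nd (nat_lit 78) (nat_lit 76) (nat_lit 0) (XT.lf (nat_lit 0) (nat_lit 11653325985224)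 (nat_lit 152) (nat_lit 2484021839849) (nat_lit 0) (nat_lit 8907800301235) (nat_lit 5) (nat_lit 5) (nat_lit 7) (nat_lit 4) (nat_lit 5) (nat_lit 4) (nat_lit 331) (nat_lit 302) (nat_lit 147)) (XT.lf (nat_lit 0) (nat_lit 3576929898404) (nat_lit 76) (nat_lit 12595667487071) (nat_lit 76) (nat_lit 9850141802942) (nat_lit 4) (nat_lit 4) (nat_lit 5) (nat_lit 5) (nat_lit 5) (nat_lit 4) (nat_lit 332) (nat_lit 302) (nat_lit 146))) (XT.nd (nat_lit 78) (nat_lit 0) (nat_lit 0) (XT.lf (nat_lit 0) (nat_lit 10826194578530) (nat_lit 76) (nat_lit 10673411513091) (nat_lit 76) (nat_lit 7927885828841) (nat_lit 4) (nat_lit 4) (nat_lit 5) (nat_lit 5) (nat_lit 5) (nat_lit 4) (nat_lit 333) (nat_lit 302) (nat_lit 145)) (XT.nd (nat_lit 78) (nat_lit 0) (nat_lit 0) (XT.lf (nat_lit 0) (nat_lit 19162848960118) (nat_lit 76) (nat_lit 8462817143297) (nat_lit 76) (nat_lit 5717291458941) (nat_lit 4) (nat_lit 4) (nat_lit 5)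 (nat_lit 5) (nat_lit 5) (nat_lit 4) (nat_lit 334) (nat_lit 302) (nat_lit 144)) (XT.lf (nat_lit 0) (nat_lit 28750001498462) (nat_lit 76) (nat_lit 5920633618278) (nat_lit 76) (nat_lit 3175107933830) (nat_lit 4) (nat_lit 4) (nat_lit 5) (nat_lit 5) (nat_lit 5) (nat_lit 4) (nat_lit 335) (nat_lit 302) (nat_lit 143)))))) (XT.nd (nat_lit 36816) (nat_lit 0) (nat_lit 1520) (XT.nd (nat_lit 156) (nat_lit 0) (nat_lit 0) (XT.nd (nat_lit 78) (nat_lit 0) (nat_lit 0) (XT.lf (nat_lit 0) (nat_lit 47147513471309) (nat_lit 76) (nat_lit 221402630355054) (nat_lit 76) (nat_lit 219015216715908) (nat_lit 1) (nat_lit 4) (nat_lit 2) (nat_lit 5) (nat_lit 2) (nat_lit 4) (nat_lit 354) (nat_lit 302) (nat_lit 124)) (XT.lf (nat_lit 0) (nat_lit 63165834300260) (nat_lit 76) (nat_lit 249635609156794) (nat_lit 76) (nat_lit 247248195517642) (nat_lit 1) (nat_lit 4) (nat_lit 2) (nat_lit 5) (nat_lit 2) (nat_lit 4) (nat_lit 355)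 (nat_lit 302) (nat_lit 123))) (XT.nd (nat_lit 36504) (nat_lit 0) (nat_lit 1672) (XT.lf (nat_lit 0) (nat_lit 81586903253519) (nat_lit 76) (nat_lit 282103534778812) (nat_lit 76) (nat_lit 279716121139655) (nat_lit 1) (nat_lit 4) (nat_lit 2) (nat_lit 5) (nat_lit 2) (nat_lit 4) (nat_lit 356) (nat_lit 302) (nat_lit 122)) (XT.nd (nat_lit 78) (nat_lit 0) (nat_lit 0) (XT.lf (nat_lit 0) (nat_lit 151857788762) (nat_lit 380) (nat_lit 338353884763) (nat_lit 380) (nat_lit 338353884763) (nat_lit 23) (nat_lit 3) (nat_lit 28) (nat_lit 3) (nat_lit 28) (nat_lit 5) (nat_lit 303) (nat_lit 303) (nat_lit 174)) (XT.lf (nat_lit 76) (nat_lit 115895697204) (nat_lit 0) (nat_lit 215397564013) (nat_lit 380) (nat_lit 1449402836728) (nat_lit 24) (nat_lit 5) (nat_lit 23) (nat_lit 3) (nat_lit 28) (nat_lit 5) (nat_lit 304) (nat_lit 303) (nat_lit 173))))) (XT.nd (nat_lit 156) (nat_lit 228) (nat_lit 0) (XT.nd (nat_lit 78)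 (nat_lit 0) (nat_lit 0) (XT.lf (nat_lit 0) (nat_lit 427576045390) (nat_lit 304) (nat_lit 843242507275) (nat_lit 380) (nat_lit 642292006676) (nat_lit 24) (nat_lit 5) (nat_lit 28) (nat_lit 5) (nat_lit 29) (nat_lit 5) (nat_lit 305) (nat_lit 303) (nat_lit 172)) (XT.lf (nat_lit 76) (nat_lit 100213762798) (nat_lit 0) (nat_lit 452494146066) (nat_lit 380) (nat_lit 1510518281842) (nat_lit 25) (nat_lit 5) (nat_lit 24) (nat_lit 5) (nat_lit 29) (nat_lit 5) (nat_lit 306) (nat_lit 303) (nat_lit 171))) (XT.nd (nat_lit 78) (nat_lit 304) (nat_lit 0) (XT.lf (nat_lit 0) (nat_lit 763018125938) (nat_lit 304) (nat_lit 971619941080) (nat_lit 76) (nat_lit 491259813654) (nat_lit 25) (nat_lit 5) (nat_lit 29) (nat_lit 5) (nat_lit 26) (nat_lit 5) (nat_lit 307) (nat_lit 303) (nat_lit 170)) (XT.nd (nat_lit 78) (nat_lit 0) (nat_lit 0) (XT.lf (nat_lit 0) (nat_lit 161293542308) (nat_lit 304) (nat_lit 871807492537) (nat_lit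 380) (nat_lit 1375635365404) (nat_lit 21) (nat_lit 5) (nat_lit 25) (nat_lit 5) (nat_lit 26) (nat_lit 5) (nat_lit 308) (nat_lit 303) (nat_lit 169)) (XT.lf (nat_lit 0) (nat_lit 1401891617441) (nat_lit 380) (nat_lit 1045447452396) (nat_lit 76) (nat_lit 162932342333) (nat_lit 21) (nat_lit 5) (nat_lit 26) (nat_lit 5) (nat_lit 22) (nat_lit 5) (nat_lit 309) (nat_lit 303) (nat_lit 168))))))) (XT.nd (nat_lit 780) (nat_lit 532) (nat_lit 0) (XT.nd (nat_lit 390) (nat_lit 228) (nat_lit 0) (XT.nd (nat_lit 156) (nat_lit 304) (nat_lit 0) (XT.nd (nat_lit 78) (nat_lit 0) (nat_lit 0) (XT.lf (nat_lit 0) (nat_lit 324194670342) (nat_lit 152) (nat_lit 1556744967441) (nat_lit 228) (nat_lit 952856210547) (nat_lit 19) (nat_lit 5) (nat_lit 21) (nat_lit 5) (nat_lit 22) (nat_lit 5) (nat_lit 310) (nat_lit 303) (nat_lit 167)) (XT.lf (nat_lit 0) (nat_lit 2016777146623) (nat_lit 152) (nat_lit 469716102190) (nat_lit 228)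 (nat_lit 596158442962) (nat_lit 19) (nat_lit 5) (nat_lit 21) (nat_lit 5) (nat_lit 22) (nat_lit 5) (nat_lit 311) (nat_lit 303) (nat_lit 166))) (XT.nd (nat_lit 78) (nat_lit 228) (nat_lit 0) (XT.lf (nat_lit 0) (nat_lit 617030022527) (nat_lit 76) (nat_lit 2623713111872) (nat_lit 152) (nat_lit 119413292407) (nat_lit 18) (nat_lit 5) (nat_lit 19) (nat_lit 5) (nat_lit 20) (nat_lit 4) (nat_lit 312) (nat_lit 303) (nat_lit 165)) (XT.nd (nat_lit 78) (nat_lit 152) (nat_lit 0) (XT.lf (nat_lit 0) (nat_lit 471401757348) (nat_lit 152) (nat_lit 1041547494095) (nat_lit 76) (nat_lit 2151563482797) (nat_lit 17) (nat_lit 5) (nat_lit 19) (nat_lit 5) (nat_lit 18) (nat_lit 5) (nat_lit 313) (nat_lit 303) (nat_lit 164)) (XT.lf (nat_lit 0) (nat_lit 998472862002) (nat_lit 152) (nat_lit 181485186502) (nat_lit 228) (nat_lit 2827509792618) (nat_lit 15) (nat_lit 5) (nat_lit 17) (nat_lit 5) (nat_lit 18) (nat_lit 5) (nat_lit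 314) (nat_lit 303) (nat_lit 163))))) (XT.nd (nat_lit 156) (nat_lit 152) (nat_lit 0) (XT.nd (nat_lit 78) (nat_lit 76) (nat_lit 0) (XT.lf (nat_lit 0) (nat_lit 2107723042819) (nat_lit 228) (nat_lit 990628262787) (nat_lit 76) (nat_lit 1286576119511) (nat_lit 15) (nat_lit 5) (nat_lit 18) (nat_lit 5) (nat_lit 16) (nat_lit 4) (nat_lit 315) (nat_lit 303) (nat_lit 162)) (XT.lf (nat_lit 0) (nat_lit 1451032230597) (nat_lit 76) (nat_lit 1792346856582) (nat_lit 152) (nat_lit 1565317914399) (nat_lit 14) (nat_lit 5) (nat_lit 15) (nat_lit 5) (nat_lit 16) (nat_lit 4) (nat_lit 316) (nat_lit 303) (nat_lit 161))) (XT.nd (nat_lit 78) (nat_lit 152) (nat_lit 0) (XT.lf (nat_lit 0) (nat_lit 4370274904364) (nat_lit 76) (nat_lit 230891473745) (nat_lit 152) (nat_lit 687098210415) (nat_lit 14) (nat_lit 5) (nat_lit 15) (nat_lit 5) (nat_lit 16) (nat_lit 4) (nat_lit 317) (nat_lit 303) (nat_lit 160)) (XT.nd (nat_lit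 78) (nat_lit 0) (nat_lit 0) (XT.lf (nat_lit 0) (nat_lit 448793467370) (nat_lit 152) (nat_lit 3837035619133) (nat_lit 76) (nat_lit 1528730656795) (nat_lit 12) (nat_lit 5) (nat_lit 14) (nat_lit 5) (nat_lit 13) (nat_lit 4) (nat_lit 318) (nat_lit 303) (nat_lit 159)) (XT.lf (nat_lit 0) (nat_lit 1745988822441) (nat_lit 152) (nat_lit 1048065606869) (nat_lit 76) (nat_lit 3611647043403) (nat_lit 12) (nat_lit 5) (nat_lit 14) (nat_lit 5) (nat_lit 13) (nat_lit 4) (nat_lit 319) (nat_lit 303) (nat_lit 158)))))) (XT.nd (nat_lit 390) (nat_lit 228) (nat_lit 0) (XT.nd (nat_lit 156) (nat_lit 228) (nat_lit 0) (XT.nd (nat_lit 78) (nat_lit 0) (nat_lit 0) (XT.lf (nat_lit 0) (nat_lit 2370267510181) (nat_lit 76) (nat_lit 965643692743) (nat_lit 152) (nat_lit 3734881100294) (nat_lit 11) (nat_lit 5) (nat_lit 12) (nat_lit 5) (nat_lit 13) (nat_lit 4) (nat_lit 320) (nat_lit 303) (nat_lit 157)) (XT.lf (nat_lit 0) (nat_lit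 5268797940474) (nat_lit 152) (nat_lit 1457980848632) (nat_lit 0) (nat_lit 1093196569196) (nat_lit 11) (nat_lit 5) (nat_lit 13) (nat_lit 4) (nat_lit 11) (nat_lit 4) (nat_lit 321) (nat_lit 303) (nat_lit 156))) (XT.nd (nat_lit 78) (nat_lit 152) (nat_lit 0) (XT.lf (nat_lit 0) (nat_lit 2442401087422) (nat_lit 76) (nat_lit 5196334254112) (nat_lit 76) (nat_lit 1020732882184) (nat_lit 10) (nat_lit 4) (nat_lit 11) (nat_lit 5) (nat_lit 11) (nat_lit 4) (nat_lit 322) (nat_lit 303) (nat_lit 155)) (XT.nd (nat_lit 78) (nat_lit 76) (nat_lit 0) (XT.lf (nat_lit 0) (nat_lit 753304472018) (nat_lit 152) (nat_lit 2555996757654) (nat_lit 76) (nat_lit 6299015727228) (nat_lit 9) (nat_lit 5) (nat_lit 11) (nat_lit 5) (nat_lit 10) (nat_lit 4) (nat_lit 323) (nat_lit 303) (nat_lit 154)) (XT.lf (nat_lit 0) (nat_lit 1762541479605) (nat_lit 76) (nat_lit 999385428576) (nat_lit 152) (nat_lit 7919327680206) (nat_lit 8)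 (nat_lit 5) (nat_lit 9) (nat_lit 5) (nat_lit 10) (nat_lit 4) (nat_lit 324) (nat_lit 303) (nat_lit 153))))) (XT.nd (nat_lit 156) (nat_lit 228) (nat_lit 0) (XT.nd (nat_lit 78) (nat_lit 0) (nat_lit 0) (XT.lf (nat_lit 0) (nat_lit 5280427531316) (nat_lit 152) (nat_lit 4953947794747) (nat_lit 0) (nat_lit 1649469815303) (nat_lit 8) (nat_lit 5) (nat_lit 10) (nat_lit 4) (nat_lit 8) (nat_lit 4) (nat_lit 325) (nat_lit 303) (nat_lit 152)) (XT.lf (nat_lit 0) (nat_lit 8224293029717) (nat_lit 152) (nat_lit 442057466926) (nat_lit 0) (nat_lit 4593335313380) (nat_lit 8) (nat_lit 5) (nat_lit 10) (nat_lit 4) (nat_lit 8) (nat_lit 4) (nat_lit 326) (nat_lit 303) (nat_lit 151))) (XT.nd (nat_lit 78) (nat_lit 152) (nat_lit 0) (XT.lf (nat_lit 0) (nat_lit 5210490285544) (nat_lit 76) (nat_lit 6615003358210) (nat_lit 76) (nat_lit 2984045641592) (nat_lit 7) (nat_lit 4) (nat_lit 8) (nat_lit 5) (nat_lit 8) (nat_lit 4)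 (nat_lit 327) (nat_lit 303) (nat_lit 150)) (XT.nd (nat_lit 78) (nat_lit 152) (nat_lit 0) (XT.lf (nat_lit 0) (nat_lit 11760601431277) (nat_lit 76) (nat_lit 4229380467604) (nat_lit 76) (nat_lit 598422750741) (nat_lit 7) (nat_lit 4) (nat_lit 8) (nat_lit 5) (nat_lit 8) (nat_lit 4) (nat_lit 328) (nat_lit 303) (nat_lit 149)) (XT.lf (nat_lit 0) (nat_lit 626042370465) (nat_lit 76) (nat_lit 1353957670250) (nat_lit 152) (nat_lit 16636888063943) (nat_lit 5) (nat_lit 5) (nat_lit 6) (nat_lit 5) (nat_lit 7) (nat_lit 4) (nat_lit 329) (nat_lit 303) (nat_lit 148))))))))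
noncomputable def xc115 : XT := (XT.nd (nat_lit 39390) (nat_lit 0) (nat_lit 228) (XT.nd (nat_lit 38610) (nat_lit 0) (nat_lit 1292) (XT.nd (nat_lit 390) (nat_lit 228) (nat_lit 0) (XT.nd (nat_lit 156) (nat_lit 76) (nat_lit 0) (XT.nd (nat_lit 78) (nat_lit 0) (nat_lit 0) (XT.lf (nat_lit 0) (nat_lit 5229159254725) (nat_lit 152) (nat_lit 13592619642782) (nat_lit 0) (nat_lit 2071804717977) (nat_lit 5) (nat_lit 5) (nat_lit 7) (nat_lit 4) (nat_lit 5) (nat_lit 4) (nat_lit 330) (nat_lit 303) (nat_lit 147)) (XT.lf (nat_lit 0) (nat_lit 9030166525276) (nat_lit 152) (nat_lit 8599133813102) (nat_lit 0) (nat_lit 5872811988388) (nat_lit 5) (nat_lit 5) (nat_lit 7) (nat_lit 4) (nat_lit 5) (nat_lit 4) (nat_lit 331) (nat_lit 303) (nat_lit 146))) (XT.nd (nat_lit 78) (nat_lit 76) (nat_lit 0) (XT.lf (nat_lit 0) (nat_lit 13401324886121) (nat_lit 152) (nat_lit 2856625109553) (nat_lit 0) (nat_lit 10243970349111)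 (nat_lit 5) (nat_lit 5) (nat_lit 7) (nat_lit 4) (nat_lit 5) (nat_lit 4) (nat_lit 332) (nat_lit 303) (nat_lit 145)) (XT.nd (nat_lit 78) (nat_lit 0) (nat_lit 0) (XT.lf (nat_lit 0) (nat_lit 4113469389152) (nat_lit 76) (nat_lit 14485017607098) (nat_lit 76) (nat_lit 11327663069983) (nat_lit 4) (nat_lit 4) (nat_lit 5) (nat_lit 5) (nat_lit 5) (nat_lit 4) (nat_lit 333) (nat_lit 303) (nat_lit 144)) (XT.lf (nat_lit 0) (nat_lit 12450123770516) (nat_lit 76) (nat_lit 12274423237418) (nat_lit 76) (nat_lit 9117068700211) (nat_lit 4) (nat_lit 4) (nat_lit 5) (nat_lit 5) (nat_lit 5) (nat_lit 4) (nat_lit 334) (nat_lit 303) (nat_lit 143))))) (XT.nd (nat_lit 1482) (nat_lit 228) (nat_lit 0) (XT.nd (nat_lit 78) (nat_lit 0) (nat_lit 0) (XT.lf (nat_lit 0) (nat_lit 22037276308664) (nat_lit 76) (nat_lit 9732239712498) (nat_lit 76) (nat_lit 6574885175211) (nat_lit 4) (nat_lit 4) (nat_lit 5) (nat_lit 5) (nat_lit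 5) (nat_lit 4) (nat_lit 335) (nat_lit 303) (nat_lit 142)) (XT.lf (nat_lit 0) (nat_lit 33062501727168) (nat_lit 76) (nat_lit 6808728659026) (nat_lit 76) (nat_lit 3651374121669) (nat_lit 4) (nat_lit 4) (nat_lit 5) (nat_lit 5) (nat_lit 5) (nat_lit 4) (nat_lit 336) (nat_lit 303) (nat_lit 141))) (XT.nd (nat_lit 78) (nat_lit 0) (nat_lit 0) (XT.lf (nat_lit 0) (nat_lit 38201319663439) (nat_lit 76) (nat_lit 226380046106374) (nat_lit 76) (nat_lit 223634520421346) (nat_lit 1) (nat_lit 4) (nat_lit 2) (nat_lit 5) (nat_lit 2) (nat_lit 4) (nat_lit 354) (nat_lit 303) (nat_lit 123)) (XT.nd (nat_lit 78) (nat_lit 0) (nat_lit 0) (XT.lf (nat_lit 0) (nat_lit 54219640492374) (nat_lit 76) (nat_lit 254613024908122) (nat_lit 76) (nat_lit 251867499223089) (nat_lit 1) (nat_lit 4) (nat_lit 2) (nat_lit 5) (nat_lit 2) (nat_lit 4) (nat_lit 355) (nat_lit 303) (nat_lit 122)) (XT.lf (nat_lit 0) (nat_lit 72640709445619)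 (nat_lit 76) (nat_lit 287080950530148) (nat_lit 76) (nat_lit 284335424845110) (nat_lit 1) (nat_lit 4) (nat_lit 2) (nat_lit 5) (nat_lit 2) (nat_lit 4) (nat_lit 356) (nat_lit 303) (nat_lit 121)))))) (XT.nd (nat_lit 390) (nat_lit 380) (nat_lit 0) (XT.nd (nat_lit 156) (nat_lit 0) (nat_lit 76) (XT.nd (nat_lit 78) (nat_lit 0) (nat_lit 0) (XT.lf (nat_lit 0) (nat_lit 174636477883) (nat_lit 380) (nat_lit 389106955481) (nat_lit 380) (nat_lit 389106955481) (nat_lit 23) (nat_lit 3) (nat_lit 28) (nat_lit 3) (nat_lit 28) (nat_lit 5) (nat_lit 304) (nat_lit 304) (nat_lit 172)) (XT.lf (nat_lit 76) (nat_lit 133280074688) (nat_lit 0) (nat_lit 247707212845) (nat_lit 380) (nat_lit 1666813219418) (nat_lit 24) (nat_lit 5) (nat_lit 23) (nat_lit 3) (nat_lit 28) (nat_lit 5) (nat_lit 305) (nat_lit 304) (nat_lit 171))) (XT.nd (nat_lit 78) (nat_lit 0) (nat_lit 0) (XT.lf (nat_lit 0) (nat_lit 491712483976) (nat_lit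 304) (nat_lit 969728857993) (nat_lit 380) (nat_lit 738635796405) (nat_lit 24) (nat_lit 5) (nat_lit 28) (nat_lit 5) (nat_lit 29) (nat_lit 5) (nat_lit 306) (nat_lit 304) (nat_lit 170)) (XT.nd (nat_lit 78) (nat_lit 0) (nat_lit 76) (XT.lf (nat_lit 76) (nat_lit 115245851437) (nat_lit 0) (nat_lit 520368272391) (nat_lit 380) (nat_lit 1737095991099) (nat_lit 25) (nat_lit 5) (nat_lit 24) (nat_lit 5) (nat_lit 29) (nat_lit 5) (nat_lit 307) (nat_lit 304) (nat_lit 169)) (XT.lf (nat_lit 0) (nat_lit 877470869569) (nat_lit 304) (nat_lit 1117362907211) (nat_lit 76) (nat_lit 564948782205) (nat_lit 25) (nat_lit 5) (nat_lit 29) (nat_lit 5) (nat_lit 26) (nat_lit 5) (nat_lit 308) (nat_lit 304) (nat_lit 168))))) (XT.nd (nat_lit 156) (nat_lit 228) (nat_lit 0) (XT.nd (nat_lit 78) (nat_lit 0) (nat_lit 0) (XT.lf (nat_lit 0) (nat_lit 185487597548) (nat_lit 304) (nat_lit 1002578615028) (nat_lit 380) (nat_lit 1581980644270)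 (nat_lit 21) (nat_lit 5) (nat_lit 25) (nat_lit 5) (nat_lit 26) (nat_lit 5) (nat_lit 309) (nat_lit 304) (nat_lit 167)) (XT.lf (nat_lit 0) (nat_lit 1612175379676) (nat_lit 380) (nat_lit 1202264546536) (nat_lit 76) (nat_lit 187372194784) (nat_lit 21) (nat_lit 5) (nat_lit 26) (nat_lit 5) (nat_lit 22) (nat_lit 5) (nat_lit 310) (nat_lit 304) (nat_lit 166))) (XT.nd (nat_lit 78) (nat_lit 76) (nat_lit 0) (XT.lf (nat_lit 0) (nat_lit 372823893536) (nat_lit 152) (nat_lit 1790256707913) (nat_lit 228) (nat_lit 1095784621382) (nat_lit 19) (nat_lit 5) (nat_lit 21) (nat_lit 5) (nat_lit 22) (nat_lit 5) (nat_lit 311) (nat_lit 304) (nat_lit 165)) (XT.nd (nat_lit 78) (nat_lit 76) (nat_lit 0) (XT.lf (nat_lit 0) (nat_lit 2319293738305) (nat_lit 152) (nat_lit 540173513480) (nat_lit 228) (nat_lit 685582191366) (nat_lit 19) (nat_lit 5) (nat_lit 21) (nat_lit 5) (nat_lit 22) (nat_lit 5) (nat_lit 312) (nat_lit 304)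 (nat_lit 164)) (XT.lf (nat_lit 0) (nat_lit 709584546823) (nat_lit 76) (nat_lit 3017270072356) (nat_lit 152) (nat_lit 137325269418) (nat_lit 18) (nat_lit 5) (nat_lit 19) (nat_lit 5) (nat_lit 20) (nat_lit 4) (nat_lit 313) (nat_lit 304) (nat_lit 163))))))) (XT.nd (nat_lit 780) (nat_lit 456) (nat_lit 0) (XT.nd (nat_lit 390) (nat_lit 304) (nat_lit 0) (XT.nd (nat_lit 156) (nat_lit 76) (nat_lit 0) (XT.nd (nat_lit 78) (nat_lit 152) (nat_lit 0) (XT.lf (nat_lit 0) (nat_lit 542112034298) (nat_lit 152) (nat_lit 1197779598688) (nat_lit 76) (nat_lit 2474298009359) (nat_lit 17) (nat_lit 5) (nat_lit 19) (nat_lit 5) (nat_lit 18) (nat_lit 5) (nat_lit 314) (nat_lit 304) (nat_lit 162)) (XT.lf (nat_lit 0) (nat_lit 1148243809937) (nat_lit 152) (nat_lit 208707958222) (nat_lit 228) (nat_lit 3251636247250) (nat_lit 15) (nat_lit 5) (nat_lit 17) (nat_lit 5) (nat_lit 18) (nat_lit 5) (nat_lit 315) (nat_lit 304) (nat_lit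 161))) (XT.nd (nat_lit 78) (nat_lit 76) (nat_lit 0) (XT.lf (nat_lit 0) (nat_lit 2423881510231) (nat_lit 228) (nat_lit 1139222484590) (nat_lit 76) (nat_lit 1479562542393) (nat_lit 15) (nat_lit 5) (nat_lit 18) (nat_lit 5) (nat_lit 16) (nat_lit 4) (nat_lit 316) (nat_lit 304) (nat_lit 160)) (XT.nd (nat_lit 78) (nat_lit 0) (nat_lit 0) (XT.lf (nat_lit 0) (nat_lit 1668687082001) (nat_lit 76) (nat_lit 2061198878508) (nat_lit 152) (nat_lit 1800115589750) (nat_lit 14) (nat_lit 5) (nat_lit 15) (nat_lit 5) (nat_lit 16) (nat_lit 4) (nat_lit 317) (nat_lit 304) (nat_lit 159)) (XT.lf (nat_lit 0) (nat_lit 5025816154639) (nat_lit 76) (nat_lit 265525189101) (nat_lit 152) (nat_lit 790162931709) (nat_lit 14) (nat_lit 5) (nat_lit 15) (nat_lit 5) (nat_lit 16) (nat_lit 4) (nat_lit 318) (nat_lit 304) (nat_lit 158))))) (XT.nd (nat_lit 156) (nat_lit 152) (nat_lit 0) (XT.nd (nat_lit 78) (nat_lit 0) (nat_lit 0) (XT.lf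 (nat_lit 0) (nat_lit 516112496477) (nat_lit 152) (nat_lit 4412590946087) (nat_lit 76) (nat_lit 1758040260866) (nat_lit 12) (nat_lit 5) (nat_lit 14) (nat_lit 5) (nat_lit 13) (nat_lit 4) (nat_lit 319) (nat_lit 304) (nat_lit 157)) (XT.lf (nat_lit 0) (nat_lit 2007887153634) (nat_lit 152) (nat_lit 1205275434060) (nat_lit 76) (nat_lit 4153394104741) (nat_lit 12) (nat_lit 5) (nat_lit 14) (nat_lit 5) (nat_lit 13) (nat_lit 4) (nat_lit 320) (nat_lit 304) (nat_lit 156))) (XT.nd (nat_lit 78) (nat_lit 76) (nat_lit 0) (XT.lf (nat_lit 0) (nat_lit 2725807649919) (nat_lit 76) (nat_lit 1110490240798) (nat_lit 152) (nat_lit 4295113256873) (nat_lit 11) (nat_lit 5) (nat_lit 12) (nat_lit 5) (nat_lit 13) (nat_lit 4) (nat_lit 321) (nat_lit 304) (nat_lit 155)) (XT.nd (nat_lit 78) (nat_lit 76) (nat_lit 0) (XT.lf (nat_lit 0) (nat_lit 6059117638150) (nat_lit 152) (nat_lit 1676677963684) (nat_lit 0) (nat_lit 1257176059215)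 (nat_lit 11) (nat_lit 5) (nat_lit 13) (nat_lit 4) (nat_lit 11) (nat_lit 4) (nat_lit 322) (nat_lit 304) (nat_lit 154)) (XT.lf (nat_lit 0) (nat_lit 2808761262222) (nat_lit 76) (nat_lit 5975784386769) (nat_lit 76) (nat_lit 1173842807343) (nat_lit 10) (nat_lit 4) (nat_lit 11) (nat_lit 5) (nat_lit 11) (nat_lit 4) (nat_lit 323) (nat_lit 304) (nat_lit 153)))))) (XT.nd (nat_lit 390) (nat_lit 228) (nat_lit 0) (XT.nd (nat_lit 156) (nat_lit 76) (nat_lit 0) (XT.nd (nat_lit 78) (nat_lit 76) (nat_lit 0) (XT.lf (nat_lit 0) (nat_lit 866300148500) (nat_lit 152) (nat_lit 2939396260579) (nat_lit 76) (nat_lit 7243868090500) (nat_lit 9) (nat_lit 5) (nat_lit 11) (nat_lit 5) (nat_lit 10) (nat_lit 4) (nat_lit 324) (nat_lit 304) (nat_lit 152)) (XT.lf (nat_lit 0) (nat_lit 2026922711781) (nat_lit 76) (nat_lit 1149293237989) (nat_lit 152) (nat_lit 9107226826066) (nat_lit 8) (nat_lit 5) (nat_lit 9) (nat_lit 5) (nat_lit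 10) (nat_lit 4) (nat_lit 325) (nat_lit 304) (nat_lit 151))) (XT.nd (nat_lit 78) (nat_lit 76) (nat_lit 0) (XT.lf (nat_lit 0) (nat_lit 6072491665851) (nat_lit 152) (nat_lit 5697039954531) (nat_lit 0) (nat_lit 1896890291460) (nat_lit 8) (nat_lit 5) (nat_lit 10) (nat_lit 4) (nat_lit 8) (nat_lit 4) (nat_lit 326) (nat_lit 304) (nat_lit 150)) (XT.nd (nat_lit 78) (nat_lit 76) (nat_lit 0) (XT.lf (nat_lit 0) (nat_lit 9457936988381) (nat_lit 152) (nat_lit 508366078766) (nat_lit 0) (nat_lit 5282335613745) (nat_lit 8) (nat_lit 5) (nat_lit 10) (nat_lit 4) (nat_lit 8) (nat_lit 4) (nat_lit 327) (nat_lit 304) (nat_lit 149)) (XT.lf (nat_lit 0) (nat_lit 5992063836202) (nat_lit 76) (nat_lit 7607253858098) (nat_lit 76) (nat_lit 3431652483249) (nat_lit 7) (nat_lit 4) (nat_lit 8) (nat_lit 5) (nat_lit 8) (nat_lit 4) (nat_lit 328) (nat_lit 304) (nat_lit 148))))) (XT.nd (nat_lit 234) (nat_lit 76) (nat_lit 0) (XT.nd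 (nat_lit 78) (nat_lit 152) (nat_lit 0) (XT.lf (nat_lit 0) (nat_lit 13524691652774) (nat_lit 76) (nat_lit 4863787534402) (nat_lit 76) (nat_lit 688186159368) (nat_lit 7) (nat_lit 4) (nat_lit 8) (nat_lit 5) (nat_lit 8) (nat_lit 4) (nat_lit 329) (nat_lit 304) (nat_lit 147)) (XT.nd (nat_lit 78) (nat_lit 0) (nat_lit 0) (XT.lf (nat_lit 0) (nat_lit 719948732872) (nat_lit 76) (nat_lit 1557051317391) (nat_lit 152) (nat_lit 19132421269576) (nat_lit 5) (nat_lit 5) (nat_lit 6) (nat_lit 5) (nat_lit 7) (nat_lit 4) (nat_lit 330) (nat_lit 304) (nat_lit 146)) (XT.lf (nat_lit 0) (nat_lit 6013533146047) (nat_lit 152) (nat_lit 15631512582926) (nat_lit 0) (nat_lit 2382575428364) (nat_lit 5) (nat_lit 5) (nat_lit 7) (nat_lit 4) (nat_lit 5) (nat_lit 4) (nat_lit 331) (nat_lit 304) (nat_lit 145)))) (XT.nd (nat_lit 78) (nat_lit 76) (nat_lit 0) (XT.lf (nat_lit 0) (nat_lit 10384691506775) (nat_lit 152) (nat_lit 9889003879613)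 (nat_lit 0) (nat_lit 6753733788987) (nat_lit 5) (nat_lit 5) (nat_lit 7) (nat_lit 4) (nat_lit 5) (nat_lit 4) (nat_lit 332) (nat_lit 304) (nat_lit 144)) (XT.nd (nat_lit 78) (nat_lit 76) (nat_lit 0) (XT.lf (nat_lit 0) (nat_lit 15411523621394) (nat_lit 152) (nat_lit 3285118871243) (nat_lit 0) (nat_lit 11780565903513) (nat_lit 5) (nat_lit 5) (nat_lit 7) (nat_lit 4) (nat_lit 5) (nat_lit 4) (nat_lit 333) (nat_lit 304) (nat_lit 143)) (XT.lf (nat_lit 0) (nat_lit 4730489802053) (nat_lit 76) (nat_lit 16657770245870) (nat_lit 76) (nat_lit 13026812527910) (nat_lit 4) (nat_lit 4) (nat_lit 5) (nat_lit 5) (nat_lit 5) (nat_lit 4) (nat_lit 334) (nat_lit 304) (nat_lit 142))))))))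
noncomputable def xc116 : XT := (XT.nd (nat_lit 39468) (nat_lit 0) (nat_lit 228) (XT.nd (nat_lit 38688) (nat_lit 0) (nat_lit 988) (XT.nd (nat_lit 38298) (nat_lit 0) (nat_lit 1672) (XT.nd (nat_lit 1404) (nat_lit 228) (nat_lit 0) (XT.nd (nat_lit 78) (nat_lit 0) (nat_lit 0) (XT.lf (nat_lit 0) (nat_lit 14317642340031) (nat_lit 76) (nat_lit 14115586721037) (nat_lit 76) (nat_lit 10484629003006) (nat_lit 4) (nat_lit 4) (nat_lit 5) (nat_lit 5) (nat_lit 5) (nat_lit 4) (nat_lit 335) (nat_lit 304) (nat_lit 141)) (XT.lf (nat_lit 0) (nat_lit 25342867758387) (nat_lit 76) (nat_lit 11192075667639) (nat_lit 76) (nat_lit 7561117949548) (nat_lit 4) (nat_lit 4) (nat_lit 5) (nat_lit 5) (nat_lit 5) (nat_lit 4) (nat_lit 336) (nat_lit 304) (nat_lit 140))) (XT.nd (nat_lit 78) (nat_lit 0) (nat_lit 0) (XT.lf (nat_lit 0) (nat_lit 13984222150484) (nat_lit 76) (nat_lit 207553657871073) (nat_lit 76) (nat_lit 204396303333284)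 (nat_lit 1) (nat_lit 4) (nat_lit 2) (nat_lit 5) (nat_lit 2) (nat_lit 4) (nat_lit 353) (nat_lit 304) (nat_lit 123)) (XT.nd (nat_lit 78) (nat_lit 0) (nat_lit 0) (XT.lf (nat_lit 0) (nat_lit 27913196784355) (nat_lit 76) (nat_lit 232104074220411) (nat_lit 76) (nat_lit 228946719682618) (nat_lit 1) (nat_lit 4) (nat_lit 2) (nat_lit 5) (nat_lit 2) (nat_lit 4) (nat_lit 354) (nat_lit 304) (nat_lit 122)) (XT.lf (nat_lit 0) (nat_lit 43931517613276) (nat_lit 76) (nat_lit 260337053022166) (nat_lit 76) (nat_lit 257179698484369) (nat_lit 1) (nat_lit 4) (nat_lit 2) (nat_lit 5) (nat_lit 2) (nat_lit 4) (nat_lit 355) (nat_lit 304) (nat_lit 121))))) (XT.nd (nat_lit 156) (nat_lit 0) (nat_lit 76) (XT.nd (nat_lit 78) (nat_lit 0) (nat_lit 0) (XT.lf (nat_lit 0) (nat_lit 200831965298) (nat_lit 380) (nat_lit 447472989731) (nat_lit 380) (nat_lit 447472989731) (nat_lit 23) (nat_lit 3) (nat_lit 28) (nat_lit 3) (nat_lit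 28) (nat_lit 5) (nat_lit 305) (nat_lit 305) (nat_lit 170)) (XT.lf (nat_lit 76) (nat_lit 153272103210) (nat_lit 0) (nat_lit 284863305531) (nat_lit 380) (nat_lit 1916835169953) (nat_lit 24) (nat_lit 5) (nat_lit 23) (nat_lit 3) (nat_lit 28) (nat_lit 5) (nat_lit 306) (nat_lit 305) (nat_lit 169))) (XT.nd (nat_lit 78) (nat_lit 0) (nat_lit 0) (XT.lf (nat_lit 0) (nat_lit 565469380601) (nat_lit 304) (nat_lit 1115188167506) (nat_lit 380) (nat_lit 849431157343) (nat_lit 24) (nat_lit 5) (nat_lit 28) (nat_lit 5) (nat_lit 29) (nat_lit 5) (nat_lit 307) (nat_lit 305) (nat_lit 168)) (XT.nd (nat_lit 78) (nat_lit 0) (nat_lit 76) (XT.lf (nat_lit 76) (nat_lit 132532747466) (nat_lit 0) (nat_lit 598423516589) (nat_lit 380) (nat_lit 1997660364798) (nat_lit 25) (nat_lit 5) (nat_lit 24) (nat_lit 5) (nat_lit 29) (nat_lit 5) (nat_lit 308) (nat_lit 305) (nat_lit 167)) (XT.lf (nat_lit 0) (nat_lit 1009091518713) (nat_lit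 304) (nat_lit 1284967324365) (nat_lit 76) (nat_lit 649691096891) (nat_lit 25) (nat_lit 5) (nat_lit 29) (nat_lit 5) (nat_lit 26) (nat_lit 5) (nat_lit 309) (nat_lit 305) (nat_lit 166)))))) (XT.nd (nat_lit 390) (nat_lit 304) (nat_lit 0) (XT.nd (nat_lit 156) (nat_lit 228) (nat_lit 0) (XT.nd (nat_lit 78) (nat_lit 0) (nat_lit 0) (XT.lf (nat_lit 0) (nat_lit 213310755248) (nat_lit 304) (nat_lit 1152965406231) (nat_lit 380) (nat_lit 1819277721292) (nat_lit 21) (nat_lit 5) (nat_lit 25) (nat_lit 5) (nat_lit 26) (nat_lit 5) (nat_lit 310) (nat_lit 305) (nat_lit 165)) (XT.lf (nat_lit 0) (nat_lit 1854001701461) (nat_lit 380) (nat_lit 1382604210580) (nat_lit 76) (nat_lit 215478024834) (nat_lit 21) (nat_lit 5) (nat_lit 26) (nat_lit 5) (nat_lit 22) (nat_lit 5) (nat_lit 311) (nat_lit 305) (nat_lit 164))) (XT.nd (nat_lit 78) (nat_lit 76) (nat_lit 0) (XT.lf (nat_lit 0) (nat_lit 428747494687) (nat_lit 152)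 (nat_lit 2058795210587) (nat_lit 228) (nat_lit 1260152298902) (nat_lit 19) (nat_lit 5) (nat_lit 21) (nat_lit 5) (nat_lit 22) (nat_lit 5) (nat_lit 312) (nat_lit 305) (nat_lit 163)) (XT.nd (nat_lit 78) (nat_lit 76) (nat_lit 0) (XT.lf (nat_lit 0) (nat_lit 2667187813938) (nat_lit 152) (nat_lit 621199537448) (nat_lit 228) (nat_lit 788419506429) (nat_lit 19) (nat_lit 5) (nat_lit 21) (nat_lit 5) (nat_lit 22) (nat_lit 5) (nat_lit 313) (nat_lit 305) (nat_lit 162)) (XT.lf (nat_lit 0) (nat_lit 816022244662) (nat_lit 76) (nat_lit 3469860578448) (nat_lit 152) (nat_lit 157924047089) (nat_lit 18) (nat_lit 5) (nat_lit 19) (nat_lit 5) (nat_lit 20) (nat_lit 4) (nat_lit 314) (nat_lit 305) (nat_lit 161))))) (XT.nd (nat_lit 156) (nat_lit 76) (nat_lit 0) (XT.nd (nat_lit 78) (nat_lit 152) (nat_lit 0) (XT.lf (nat_lit 0) (nat_lit 623428849536) (nat_lit 152) (nat_lit 1377446523730) (nat_lit 76) (nat_lit 2845442713895)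 (nat_lit 17) (nat_lit 5) (nat_lit 19) (nat_lit 5) (nat_lit 18) (nat_lit 5) (nat_lit 315) (nat_lit 305) (nat_lit 160)) (XT.lf (nat_lit 0) (nat_lit 1320480395518) (nat_lit 152) (nat_lit 240014147225) (nat_lit 228) (nat_lit 3739381673554) (nat_lit 15) (nat_lit 5) (nat_lit 17) (nat_lit 5) (nat_lit 18) (nat_lit 5) (nat_lit 316) (nat_lit 305) (nat_lit 159))) (XT.nd (nat_lit 78) (nat_lit 76) (nat_lit 0) (XT.lf (nat_lit 0) (nat_lit 2787463745075) (nat_lit 228) (nat_lit 1310105843959) (nat_lit 76) (nat_lit 1701496927499) (nat_lit 15) (nat_lit 5) (nat_lit 18) (nat_lit 5) (nat_lit 16) (nat_lit 4) (nat_lit 317) (nat_lit 305) (nat_lit 158)) (XT.nd (nat_lit 78) (nat_lit 0) (nat_lit 0) (XT.lf (nat_lit 0) (nat_lit 1918990157015) (nat_lit 76) (nat_lit 2370378705322) (nat_lit 152) (nat_lit 2070132919283) (nat_lit 14) (nat_lit 5) (nat_lit 15) (nat_lit 5) (nat_lit 16) (nat_lit 4) (nat_lit 318) (nat_lit 305)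 (nat_lit 157)) (XT.lf (nat_lit 0) (nat_lit 5779688588891) (nat_lit 76) (nat_lit 305353963151) (nat_lit 152) (nat_lit 908687363701) (nat_lit 14) (nat_lit 5) (nat_lit 15) (nat_lit 5) (nat_lit 16) (nat_lit 4) (nat_lit 319) (nat_lit 305) (nat_lit 156))))))) (XT.nd (nat_lit 780) (nat_lit 228) (nat_lit 0) (XT.nd (nat_lit 390) (nat_lit 228) (nat_lit 0) (XT.nd (nat_lit 156) (nat_lit 152) (nat_lit 0) (XT.nd (nat_lit 78) (nat_lit 0) (nat_lit 0) (XT.lf (nat_lit 0) (nat_lit 593529377755) (nat_lit 152) (nat_lit 5074479575966) (nat_lit 76) (nat_lit 2021746304194) (nat_lit 12) (nat_lit 5) (nat_lit 14) (nat_lit 5) (nat_lit 13) (nat_lit 4) (nat_lit 320) (nat_lit 305) (nat_lit 155)) (XT.lf (nat_lit 0) (nat_lit 2309070232598) (nat_lit 152) (nat_lit 1386066738705) (nat_lit 76) (nat_lit 4776403224102) (nat_lit 12) (nat_lit 5) (nat_lit 14) (nat_lit 5) (nat_lit 13) (nat_lit 4) (nat_lit 321) (nat_lit 305) (nat_lit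 154))) (XT.nd (nat_lit 78) (nat_lit 76) (nat_lit 0) (XT.lf (nat_lit 0) (nat_lit 3134678807396) (nat_lit 76) (nat_lit 1277063772489) (nat_lit 152) (nat_lit 4939380239002) (nat_lit 11) (nat_lit 5) (nat_lit 12) (nat_lit 5) (nat_lit 13) (nat_lit 4) (nat_lit 322) (nat_lit 305) (nat_lit 153)) (XT.nd (nat_lit 78) (nat_lit 76) (nat_lit 0) (XT.lf (nat_lit 0) (nat_lit 6967985288867) (nat_lit 152) (nat_lit 1928179648978) (nat_lit 0) (nat_lit 1445752471606) (nat_lit 11) (nat_lit 5) (nat_lit 13) (nat_lit 4) (nat_lit 11) (nat_lit 4) (nat_lit 323) (nat_lit 305) (nat_lit 152)) (XT.lf (nat_lit 0) (nat_lit 3230075460393) (nat_lit 76) (nat_lit 6872152040657) (nat_lit 76) (nat_lit 1349919223024) (nat_lit 10) (nat_lit 4) (nat_lit 11) (nat_lit 5) (nat_lit 11) (nat_lit 4) (nat_lit 324) (nat_lit 305) (nat_lit 151))))) (XT.nd (nat_lit 156) (nat_lit 76) (nat_lit 0) (XT.nd (nat_lit 78) (nat_lit 76) (nat_lit 0)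 (XT.lf (nat_lit 0) (nat_lit 996245175069) (nat_lit 152) (nat_lit 3380305691558) (nat_lit 76) (nat_lit 8330448307241) (nat_lit 9) (nat_lit 5) (nat_lit 11) (nat_lit 5) (nat_lit 10) (nat_lit 4) (nat_lit 325) (nat_lit 305) (nat_lit 150)) (XT.lf (nat_lit 0) (nat_lit 2330961126288) (nat_lit 76) (nat_lit 1321687220002) (nat_lit 152) (nat_lit 10473310845310) (nat_lit 8) (nat_lit 5) (nat_lit 9) (nat_lit 5) (nat_lit 10) (nat_lit 4) (nat_lit 326) (nat_lit 305) (nat_lit 149))) (XT.nd (nat_lit 78) (nat_lit 76) (nat_lit 0) (XT.lf (nat_lit 0) (nat_lit 6983365419387) (nat_lit 152) (nat_lit 6551595940581) (nat_lit 0) (nat_lit 2181423838098) (nat_lit 8) (nat_lit 5) (nat_lit 10) (nat_lit 4) (nat_lit 8) (nat_lit 4) (nat_lit 327) (nat_lit 305) (nat_lit 148)) (XT.nd (nat_lit 78) (nat_lit 76) (nat_lit 0) (XT.lf (nat_lit 0) (nat_lit 10876627539819) (nat_lit 152) (nat_lit 584620984382) (nat_lit 0) (nat_lit 6074685958345)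 (nat_lit 8) (nat_lit 5) (nat_lit 10) (nat_lit 4) (nat_lit 8) (nat_lit 4) (nat_lit 328) (nat_lit 305) (nat_lit 147)) (XT.lf (nat_lit 0) (nat_lit 6890873417550) (nat_lit 76) (nat_lit 8748341933906) (nat_lit 76) (nat_lit 3946400352271) (nat_lit 7) (nat_lit 4) (nat_lit 8) (nat_lit 5) (nat_lit 8) (nat_lit 4) (nat_lit 329) (nat_lit 305) (nat_lit 146)))))) (XT.nd (nat_lit 390) (nat_lit 76) (nat_lit 0) (XT.nd (nat_lit 156) (nat_lit 0) (nat_lit 0) (XT.nd (nat_lit 78) (nat_lit 152) (nat_lit 0) (XT.lf (nat_lit 0) (nat_lit 15553395405836) (nat_lit 76) (nat_lit 5593355662035) (nat_lit 76) (nat_lit 791414080260) (nat_lit 7) (nat_lit 4) (nat_lit 8) (nat_lit 5) (nat_lit 8) (nat_lit 4) (nat_lit 330) (nat_lit 305) (nat_lit 145)) (XT.lf (nat_lit 0) (nat_lit 827941047972) (nat_lit 76) (nat_lit 1790609012431) (nat_lit 152) (nat_lit 22002284457020) (nat_lit 5) (nat_lit 5) (nat_lit 6) (nat_lit 5) (nat_lit 7)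 (nat_lit 4) (nat_lit 331) (nat_lit 305) (nat_lit 144))) (XT.nd (nat_lit 78) (nat_lit 0) (nat_lit 0) (XT.lf (nat_lit 0) (nat_lit 6915563120308) (nat_lit 152) (nat_lit 17976239465622) (nat_lit 0) (nat_lit 2739961744654) (nat_lit 5) (nat_lit 5) (nat_lit 7) (nat_lit 4) (nat_lit 5) (nat_lit 4) (nat_lit 332) (nat_lit 305) (nat_lit 143)) (XT.nd (nat_lit 78) (nat_lit 0) (nat_lit 0) (XT.lf (nat_lit 0) (nat_lit 11942395234839) (nat_lit 152) (nat_lit 11372354457430) (nat_lit 0) (nat_lit 7766793859104) (nat_lit 5) (nat_lit 5) (nat_lit 7) (nat_lit 4) (nat_lit 5) (nat_lit 4) (nat_lit 333) (nat_lit 305) (nat_lit 142)) (XT.lf (nat_lit 0) (nat_lit 17723252166383) (nat_lit 152) (nat_lit 3777886698343) (nat_lit 0) (nat_lit 13547650790579) (nat_lit 5) (nat_lit 5) (nat_lit 7) (nat_lit 4) (nat_lit 5) (nat_lit 4) (nat_lit 334) (nat_lit 305) (nat_lit 141))))) (XT.nd (nat_lit 38376) (nat_lit 0) (nat_lit 1444)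 (XT.nd (nat_lit 78) (nat_lit 0) (nat_lit 0) (XT.lf (nat_lit 0) (nat_lit 5440063275785) (nat_lit 76) (nat_lit 19156435781017) (nat_lit 76) (nat_lit 14980834405152) (nat_lit 4) (nat_lit 4) (nat_lit 5) (nat_lit 5) (nat_lit 5) (nat_lit 4) (nat_lit 335) (nat_lit 305) (nat_lit 140)) (XT.lf (nat_lit 0) (nat_lit 16465288694013) (nat_lit 76) (nat_lit 16232924727684) (nat_lit 76) (nat_lit 12057323351767) (nat_lit 4) (nat_lit 4) (nat_lit 5) (nat_lit 5) (nat_lit 5) (nat_lit 4) (nat_lit 336) (nat_lit 305) (nat_lit 139))) (XT.nd (nat_lit 78) (nat_lit 0) (nat_lit 0) (XT.lf (nat_lit 0) (nat_lit 230956771989) (nat_lit 380) (nat_lit 514593931332) (nat_lit 380) (nat_lit 514593931332) (nat_lit 23) (nat_lit 3) (nat_lit 28) (nat_lit 3) (nat_lit 28) (nat_lit 5) (nat_lit 306) (nat_lit 306) (nat_lit 168)) (XT.nd (nat_lit 78) (nat_lit 0) (nat_lit 76) (XT.lf (nat_lit 76) (nat_lit 176262931786) (nat_lit 0) (nat_lit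 327592809496) (nat_lit 380) (nat_lit 2204360420964) (nat_lit 24) (nat_lit 5) (nat_lit 23) (nat_lit 3) (nat_lit 28) (nat_lit 5) (nat_lit 307) (nat_lit 306) (nat_lit 167)) (XT.lf (nat_lit 0) (nat_lit 650289805860) (nat_lit 304) (nat_lit 1282466378125) (nat_lit 380) (nat_lit 976845824500) (nat_lit 24) (nat_lit 5) (nat_lit 28) (nat_lit 5) (nat_lit 29) (nat_lit 5) (nat_lit 308) (nat_lit 306) (nat_lit 166))))))))
noncomputable def xc117 : XT := (XT.nd (nat_lit 1560) (nat_lit 304) (nat_lit 0) (XT.nd (nat_lit 780) (nat_lit 532) (nat_lit 0) (XT.nd (nat_lit 390) (nat_lit 304) (nat_lit 0) (XT.nd (nat_lit 156) (nat_lit 380) (nat_lit 0) (XT.nd (nat_lit 78) (nat_lit 0) (nat_lit 76) (XT.lf (nat_lit 76) (nat_lit 152412673434) (nat_lit 0) (nat_lit 688187046601) (nat_lit 380) (nat_lit 2297309400639) (nat_lit 25) (nat_lit 5) (nat_lit 24) (nat_lit 5) (nat_lit 29) (nat_lit 5) (nat_lit 309) (nat_lit 306) (nat_lit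 165)) (XT.lf (nat_lit 0) (nat_lit 1160455260665) (nat_lit 304) (nat_lit 1477712408708) (nat_lit 76) (nat_lit 747144759425) (nat_lit 25) (nat_lit 5) (nat_lit 29) (nat_lit 5) (nat_lit 26) (nat_lit 5) (nat_lit 310) (nat_lit 306) (nat_lit 164))) (XT.nd (nat_lit 78) (nat_lit 152) (nat_lit 0) (XT.lf (nat_lit 0) (nat_lit 245307382196) (nat_lit 304) (nat_lit 1325910216371) (nat_lit 380) (nat_lit 2092169364651) (nat_lit 21) (nat_lit 5) (nat_lit 25) (nat_lit 5) (nat_lit 26) (nat_lit 5) (nat_lit 311) (nat_lit 306) (nat_lit 163)) (XT.nd (nat_lit 78) (nat_lit 152) (nat_lit 0) (XT.lf (nat_lit 0) (nat_lit 2132101967897) (nat_lit 380) (nat_lit 1589994828605) (nat_lit 76) (nat_lit 247799729189) (nat_lit 21) (nat_lit 5) (nat_lit 26) (nat_lit 5) (nat_lit 22) (nat_lit 5) (nat_lit 312) (nat_lit 306) (nat_lit 162)) (XT.lf (nat_lit 0) (nat_lit 493059631835) (nat_lit 152) (nat_lit 2367614489520) (nat_lit 228)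 (nat_lit 1449175131875) (nat_lit 19) (nat_lit 5) (nat_lit 21) (nat_lit 5) (nat_lit 22) (nat_lit 5) (nat_lit 313) (nat_lit 306) (nat_lit 161))))) (XT.nd (nat_lit 156) (nat_lit 228) (nat_lit 0) (XT.nd (nat_lit 78) (nat_lit 76) (nat_lit 0) (XT.lf (nat_lit 0) (nat_lit 3067265997285) (nat_lit 152) (nat_lit 714379465756) (nat_lit 228) (nat_lit 906682422079) (nat_lit 19) (nat_lit 5) (nat_lit 21) (nat_lit 5) (nat_lit 22) (nat_lit 5) (nat_lit 314) (nat_lit 306) (nat_lit 160)) (XT.lf (nat_lit 0) (nat_lit 938425593320) (nat_lit 76) (nat_lit 3990339661615) (nat_lit 152) (nat_lit 181612644517) (nat_lit 18) (nat_lit 5) (nat_lit 19) (nat_lit 5) (nat_lit 20) (nat_lit 4) (nat_lit 315) (nat_lit 306) (nat_lit 159))) (XT.nd (nat_lit 78) (nat_lit 152) (nat_lit 0) (XT.lf (nat_lit 0) (nat_lit 716943184599) (nat_lit 152) (nat_lit 1584063491128) (nat_lit 76) (nat_lit 3272259123347) (nat_lit 17) (nat_lit 5) (nat_lit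 19) (nat_lit 5) (nat_lit 18) (nat_lit 5) (nat_lit 316) (nat_lit 306) (nat_lit 158)) (XT.nd (nat_lit 78) (nat_lit 0) (nat_lit 0) (XT.lf (nat_lit 0) (nat_lit 1518552465500) (nat_lit 152) (nat_lit 276016265732) (nat_lit 228) (nat_lit 4300288916433) (nat_lit 15) (nat_lit 5) (nat_lit 17) (nat_lit 5) (nat_lit 18) (nat_lit 5) (nat_lit 317) (nat_lit 306) (nat_lit 157)) (XT.lf (nat_lit 0) (nat_lit 3205583313120) (nat_lit 228) (nat_lit 1506621710482) (nat_lit 76) (nat_lit 1956721469457) (nat_lit 15) (nat_lit 5) (nat_lit 18) (nat_lit 5) (nat_lit 16) (nat_lit 4) (nat_lit 318) (nat_lit 306) (nat_lit 156)))))) (XT.nd (nat_lit 390) (nat_lit 228) (nat_lit 0) (XT.nd (nat_lit 156) (nat_lit 228) (nat_lit 0) (XT.nd (nat_lit 78) (nat_lit 0) (nat_lit 0) (XT.lf (nat_lit 0) (nat_lit 2206838690181) (nat_lit 76) (nat_lit 2725935507369) (nat_lit 152) (nat_lit 2380652850424) (nat_lit 14) (nat_lit 5) (nat_lit 15)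 (nat_lit 5) (nat_lit 16) (nat_lit 4) (nat_lit 319) (nat_lit 306) (nat_lit 155)) (XT.lf (nat_lit 0) (nat_lit 6646641885584) (nat_lit 76) (nat_lit 351157054362) (nat_lit 152) (nat_lit 1044990462384) (nat_lit 14) (nat_lit 5) (nat_lit 15) (nat_lit 5) (nat_lit 16) (nat_lit 4) (nat_lit 320) (nat_lit 306) (nat_lit 154))) (XT.nd (nat_lit 78) (nat_lit 76) (nat_lit 0) (XT.lf (nat_lit 0) (nat_lit 682558789565) (nat_lit 152) (nat_lit 5835651503262) (nat_lit 76) (nat_lit 2325008252997) (nat_lit 12) (nat_lit 5) (nat_lit 14) (nat_lit 5) (nat_lit 13) (nat_lit 4) (nat_lit 321) (nat_lit 306) (nat_lit 153)) (XT.nd (nat_lit 78) (nat_lit 76) (nat_lit 0) (XT.lf (nat_lit 0) (nat_lit 2655430771963) (nat_lit 152) (nat_lit 1593976741598) (nat_lit 76) (nat_lit 5492863710478) (nat_lit 12) (nat_lit 5) (nat_lit 14) (nat_lit 5) (nat_lit 13) (nat_lit 4) (nat_lit 322) (nat_lit 306) (nat_lit 152)) (XT.lf (nat_lit 0) (nat_lit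 3604880636058) (nat_lit 76) (nat_lit 1468623335014) (nat_lit 152) (nat_lit 5680287270012) (nat_lit 11) (nat_lit 5) (nat_lit 12) (nat_lit 5) (nat_lit 13) (nat_lit 4) (nat_lit 323) (nat_lit 306) (nat_lit 151))))) (XT.nd (nat_lit 156) (nat_lit 152) (nat_lit 0) (XT.nd (nat_lit 78) (nat_lit 76) (nat_lit 0) (XT.lf (nat_lit 0) (nat_lit 8013183085974) (nat_lit 152) (nat_lit 2217406589325) (nat_lit 0) (nat_lit 1662615345000) (nat_lit 11) (nat_lit 5) (nat_lit 13) (nat_lit 4) (nat_lit 11) (nat_lit 4) (nat_lit 324) (nat_lit 306) (nat_lit 150)) (XT.lf (nat_lit 0) (nat_lit 3714586786134) (nat_lit 76) (nat_lit 7902974843634) (nat_lit 76) (nat_lit 1552407102378) (nat_lit 10) (nat_lit 4) (nat_lit 11) (nat_lit 5) (nat_lit 11) (nat_lit 4) (nat_lit 325) (nat_lit 306) (nat_lit 149))) (XT.nd (nat_lit 78) (nat_lit 76) (nat_lit 0) (XT.lf (nat_lit 0) (nat_lit 1145681954576) (nat_lit 152) (nat_lit 3887351539161)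 (nat_lit 76) (nat_lit 9580015555721) (nat_lit 9) (nat_lit 5) (nat_lit 11) (nat_lit 5) (nat_lit 10) (nat_lit 4) (nat_lit 326) (nat_lit 306) (nat_lit 148)) (XT.nd (nat_lit 78) (nat_lit 0) (nat_lit 0) (XT.lf (nat_lit 0) (nat_lit 2680605301084) (nat_lit 76) (nat_lit 1519940300216) (nat_lit 152) (nat_lit 12044307468579) (nat_lit 8) (nat_lit 5) (nat_lit 9) (nat_lit 5) (nat_lit 10) (nat_lit 4) (nat_lit 327) (nat_lit 306) (nat_lit 147)) (XT.lf (nat_lit 0) (nat_lit 8030870235062) (nat_lit 152) (nat_lit 7534335326278) (nat_lit 0) (nat_lit 2508637416020) (nat_lit 8) (nat_lit 5) (nat_lit 10) (nat_lit 4) (nat_lit 8) (nat_lit 4) (nat_lit 328) (nat_lit 306) (nat_lit 146))))))) (XT.nd (nat_lit 39078) (nat_lit 0) (nat_lit 836) (XT.nd (nat_lit 390) (nat_lit 76) (nat_lit 0) (XT.nd (nat_lit 156) (nat_lit 152) (nat_lit 0) (XT.nd (nat_lit 78) (nat_lit 76) (nat_lit 0) (XT.lf (nat_lit 0) (nat_lit 12508121673198)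 (nat_lit 152) (nat_lit 672314127352) (nat_lit 0) (nat_lit 6985888854016) (nat_lit 8) (nat_lit 5) (nat_lit 10) (nat_lit 4) (nat_lit 8) (nat_lit 4) (nat_lit 329) (nat_lit 306) (nat_lit 145)) (XT.lf (nat_lit 0) (nat_lit 7924504434658) (nat_lit 76) (nat_lit 10060593221794) (nat_lit 76) (nat_lit 4538360402491) (nat_lit 7) (nat_lit 4) (nat_lit 8) (nat_lit 5) (nat_lit 8) (nat_lit 4) (nat_lit 330) (nat_lit 306) (nat_lit 144))) (XT.nd (nat_lit 78) (nat_lit 152) (nat_lit 0) (XT.lf (nat_lit 0) (nat_lit 17886404720602) (nat_lit 76) (nat_lit 6432359009429) (nat_lit 76) (nat_lit 910126190020) (nat_lit 7) (nat_lit 4) (nat_lit 8) (nat_lit 5) (nat_lit 8) (nat_lit 4) (nat_lit 331) (nat_lit 306) (nat_lit 143)) (XT.nd (nat_lit 78) (nat_lit 0) (nat_lit 0) (XT.lf (nat_lit 0) (nat_lit 952132209077) (nat_lit 76) (nat_lit 2059200362354) (nat_lit 152) (nat_lit 25302627123310) (nat_lit 5) (nat_lit 5) (nat_lit 6)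 (nat_lit 5) (nat_lit 7) (nat_lit 4) (nat_lit 332) (nat_lit 306) (nat_lit 142)) (XT.lf (nat_lit 0) (nat_lit 7952897590135) (nat_lit 152) (nat_lit 20672675381878) (nat_lit 0) (nat_lit 3150956007891) (nat_lit 5) (nat_lit 5) (nat_lit 7) (nat_lit 4) (nat_lit 5) (nat_lit 4) (nat_lit 333) (nat_lit 306) (nat_lit 141))))) (XT.nd (nat_lit 156) (nat_lit 76) (nat_lit 0) (XT.nd (nat_lit 78) (nat_lit 0) (nat_lit 0) (XT.lf (nat_lit 0) (nat_lit 13733754521612) (nat_lit 152) (nat_lit 13078207622926) (nat_lit 0) (nat_lit 8931812939308) (nat_lit 5) (nat_lit 5) (nat_lit 7) (nat_lit 4) (nat_lit 5) (nat_lit 4) (nat_lit 334) (nat_lit 306) (nat_lit 140)) (XT.lf (nat_lit 0) (nat_lit 20381739992686) (nat_lit 152) (nat_lit 4344569700382) (nat_lit 0) (nat_lit 15579798410329) (nat_lit 5) (nat_lit 5) (nat_lit 7) (nat_lit 4) (nat_lit 5) (nat_lit 4) (nat_lit 335) (nat_lit 306) (nat_lit 139))) (XT.nd (nat_lit 38376)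 (nat_lit 0) (nat_lit 1444) (XT.lf (nat_lit 0) (nat_lit 6256072769741) (nat_lit 76) (nat_lit 22029901146858) (nat_lit 76) (nat_lit 17227959564455) (nat_lit 4) (nat_lit 4) (nat_lit 5) (nat_lit 5) (nat_lit 5) (nat_lit 4) (nat_lit 336) (nat_lit 306) (nat_lit 138)) (XT.nd (nat_lit 78) (nat_lit 0) (nat_lit 0) (XT.lf (nat_lit 0) (nat_lit 265600296782) (nat_lit 380) (nat_lit 591783015845) (nat_lit 380) (nat_lit 591783015845) (nat_lit 23) (nat_lit 3) (nat_lit 28) (nat_lit 3) (nat_lit 28) (nat_lit 5) (nat_lit 307) (nat_lit 307) (nat_lit 166)) (XT.lf (nat_lit 76) (nat_lit 202702381456) (nat_lit 0) (nat_lit 376731737073) (nat_lit 380) (nat_lit 2535014465597) (nat_lit 24) (nat_lit 5) (nat_lit 23) (nat_lit 3) (nat_lit 28) (nat_lit 5) (nat_lit 308) (nat_lit 307) (nat_lit 165)))))) (XT.nd (nat_lit 390) (nat_lit 456) (nat_lit 0) (XT.nd (nat_lit 156) (nat_lit 228) (nat_lit 0) (XT.nd (nat_lit 78) (nat_lit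 0) (nat_lit 0) (XT.lf (nat_lit 0) (nat_lit 747833290477) (nat_lit 304) (nat_lit 1474836323874) (nat_lit 380) (nat_lit 1123372693302) (nat_lit 24) (nat_lit 5) (nat_lit 28) (nat_lit 5) (nat_lit 29) (nat_lit 5) (nat_lit 309) (nat_lit 307) (nat_lit 164)) (XT.lf (nat_lit 76) (nat_lit 175274584920) (nat_lit 0) (nat_lit 791415105501) (nat_lit 380) (nat_lit 2641905796460) (nat_lit 25) (nat_lit 5) (nat_lit 24) (nat_lit 5) (nat_lit 29) (nat_lit 5) (nat_lit 310) (nat_lit 307) (nat_lit 163))) (XT.nd (nat_lit 78) (nat_lit 304) (nat_lit 0) (XT.lf (nat_lit 0) (nat_lit 1334523560462) (nat_lit 304) (nat_lit 1699369259193) (nat_lit 76) (nat_lit 859216471826) (nat_lit 25) (nat_lit 5) (nat_lit 29) (nat_lit 5) (nat_lit 26) (nat_lit 5) (nat_lit 311) (nat_lit 307) (nat_lit 162)) (XT.nd (nat_lit 78) (nat_lit 0) (nat_lit 0) (XT.lf (nat_lit 0) (nat_lit 282103499855) (nat_lit 304) (nat_lit 1524796748226) (nat_lit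 380) (nat_lit 2405994758132) (nat_lit 21) (nat_lit 5) (nat_lit 25) (nat_lit 5) (nat_lit 26) (nat_lit 5) (nat_lit 312) (nat_lit 307) (nat_lit 161)) (XT.lf (nat_lit 0) (nat_lit 2451917271564) (nat_lit 380) (nat_lit 1828494042641) (nat_lit 76) (nat_lit 284969689043) (nat_lit 21) (nat_lit 5) (nat_lit 26) (nat_lit 5) (nat_lit 22) (nat_lit 5) (nat_lit 313) (nat_lit 307) (nat_lit 160))))) (XT.nd (nat_lit 234) (nat_lit 228) (nat_lit 0) (XT.nd (nat_lit 78) (nat_lit 76) (nat_lit 0) (XT.lf (nat_lit 0) (nat_lit 567018586399) (nat_lit 152) (nat_lit 2722756660939) (nat_lit 228) (nat_lit 1666551392687) (nat_lit 19) (nat_lit 5) (nat_lit 21) (nat_lit 5) (nat_lit 22) (nat_lit 5) (nat_lit 314) (nat_lit 307) (nat_lit 159)) (XT.nd (nat_lit 78) (nat_lit 76) (nat_lit 0) (XT.lf (nat_lit 0) (nat_lit 3527355905390) (nat_lit 152) (nat_lit 821536383873) (nat_lit 228) (nat_lit 1042684777591) (nat_lit 19) (nat_lit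 5) (nat_lit 21) (nat_lit 5) (nat_lit 22) (nat_lit 5) (nat_lit 315) (nat_lit 307) (nat_lit 158)) (XT.lf (nat_lit 0) (nat_lit 1079189441361) (nat_lit 76) (nat_lit 4588890608135) (nat_lit 152) (nat_lit 208854533910) (nat_lit 18) (nat_lit 5) (nat_lit 19) (nat_lit 5) (nat_lit 20) (nat_lit 4) (nat_lit 316) (nat_lit 307) (nat_lit 157)))) (XT.nd (nat_lit 78) (nat_lit 152) (nat_lit 0) (XT.lf (nat_lit 0) (nat_lit 824484668060) (nat_lit 152) (nat_lit 1821673006357) (nat_lit 76) (nat_lit 3763097993640) (nat_lit 17) (nat_lit 5) (nat_lit 19) (nat_lit 5) (nat_lit 18) (nat_lit 5) (nat_lit 317) (nat_lit 307) (nat_lit 156)) (XT.nd (nat_lit 78) (nat_lit 0) (nat_lit 0) (XT.lf (nat_lit 0) (nat_lit 1746335343381) (nat_lit 152) (nat_lit 317418702888) (nat_lit 228) (nat_lit 4945332247733) (nat_lit 15) (nat_lit 5) (nat_lit 17) (nat_lit 5) (nat_lit 18) (nat_lit 5) (nat_lit 318) (nat_lit 307) (nat_lit 155)) (XT.lf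 (nat_lit 0) (nat_lit 3686420814839) (nat_lit 228) (nat_lit 1732614959438) (nat_lit 76) (nat_lit 2250229692018) (nat_lit 15) (nat_lit 5) (nat_lit 18) (nat_lit 5) (nat_lit 16) (nat_lit 4) (nat_lit 319) (nat_lit 307) (nat_lit 154))))))))
noncomputable def xc118 : XT := (XT.nd (nat_lit 39780) (nat_lit 0) (nat_lit 380) (XT.nd (nat_lit 780) (nat_lit 304) (nat_lit 0) (XT.nd (nat_lit 390) (nat_lit 228) (nat_lit 0) (XT.nd (nat_lit 156) (nat_lit 228) (nat_lit 0) (XT.nd (nat_lit 78) (nat_lit 0) (nat_lit 0) (XT.lf (nat_lit 0) (nat_lit 2537864500977) (nat_lit 76) (nat_lit 3134825830637) (nat_lit 152) (nat_lit 2737750772882) (nat_lit 14) (nat_lit 5) (nat_lit 15) (nat_lit 5) (nat_lit 16) (nat_lit 4) (nat_lit 320) (nat_lit 307) (nat_lit 153)) (XT.lf (nat_lit 0) (nat_lit 7643638174743) (nat_lit 76) (nat_lit 403830610049) (nat_lit 152) (nat_lit 1201739027303) (nat_lit 14) (nat_lit 5) (nat_lit 15) (nat_lit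 5) (nat_lit 16) (nat_lit 4) (nat_lit 321) (nat_lit 307) (nat_lit 152))) (XT.nd (nat_lit 78) (nat_lit 76) (nat_lit 0) (XT.lf (nat_lit 0) (nat_lit 784942611891) (nat_lit 152) (nat_lit 6710999221870) (nat_lit 76) (nat_lit 2673759493346) (nat_lit 12) (nat_lit 5) (nat_lit 14) (nat_lit 5) (nat_lit 13) (nat_lit 4) (nat_lit 322) (nat_lit 307) (nat_lit 151)) (XT.nd (nat_lit 78) (nat_lit 76) (nat_lit 0) (XT.lf (nat_lit 0) (nat_lit 3053745391142) (nat_lit 152) (nat_lit 1833073246854) (nat_lit 76) (nat_lit 6316793269136) (nat_lit 12) (nat_lit 5) (nat_lit 14) (nat_lit 5) (nat_lit 13) (nat_lit 4) (nat_lit 323) (nat_lit 307) (nat_lit 150)) (XT.lf (nat_lit 0) (nat_lit 4145612737178) (nat_lit 76) (nat_lit 1688916832734) (nat_lit 152) (nat_lit 6532330356854) (nat_lit 11) (nat_lit 5) (nat_lit 12) (nat_lit 5) (nat_lit 13) (nat_lit 4) (nat_lit 324) (nat_lit 307) (nat_lit 149))))) (XT.nd (nat_lit 156) (nat_lit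 152) (nat_lit 0) (XT.nd (nat_lit 78) (nat_lit 76) (nat_lit 0) (XT.lf (nat_lit 0) (nat_lit 9215160551725) (nat_lit 152) (nat_lit 2550017572430) (nat_lit 0) (nat_lit 1912007648756) (nat_lit 11) (nat_lit 5) (nat_lit 13) (nat_lit 4) (nat_lit 11) (nat_lit 4) (nat_lit 325) (nat_lit 307) (nat_lit 148)) (XT.lf (nat_lit 0) (nat_lit 4271774809107) (nat_lit 76) (nat_lit 9088421067818) (nat_lit 76) (nat_lit 1785268164636) (nat_lit 10) (nat_lit 4) (nat_lit 11) (nat_lit 5) (nat_lit 11) (nat_lit 4) (nat_lit 326) (nat_lit 307) (nat_lit 147))) (XT.nd (nat_lit 78) (nat_lit 76) (nat_lit 0) (XT.lf (nat_lit 0) (nat_lit 1317534250217) (nat_lit 152) (nat_lit 4470454265399) (nat_lit 76) (nat_lit 11017017890890) (nat_lit 9) (nat_lit 5) (nat_lit 11) (nat_lit 5) (nat_lit 10) (nat_lit 4) (nat_lit 327) (nat_lit 307) (nat_lit 146)) (XT.nd (nat_lit 78) (nat_lit 0) (nat_lit 0) (XT.lf (nat_lit 0) (nat_lit 3082696100672)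 (nat_lit 76) (nat_lit 1747931343142) (nat_lit 152) (nat_lit 13850953586198) (nat_lit 8) (nat_lit 5) (nat_lit 9) (nat_lit 5) (nat_lit 10) (nat_lit 4) (nat_lit 328) (nat_lit 307) (nat_lit 145)) (XT.lf (nat_lit 0) (nat_lit 9235500772413) (nat_lit 152) (nat_lit 8664485621143) (nat_lit 0) (nat_lit 2884933030092) (nat_lit 8) (nat_lit 5) (nat_lit 10) (nat_lit 4) (nat_lit 8) (nat_lit 4) (nat_lit 329) (nat_lit 307) (nat_lit 144)))))) (XT.nd (nat_lit 390) (nat_lit 76) (nat_lit 0) (XT.nd (nat_lit 156) (nat_lit 152) (nat_lit 0) (XT.nd (nat_lit 78) (nat_lit 76) (nat_lit 0) (XT.lf (nat_lit 0) (nat_lit 14384339925996) (nat_lit 152) (nat_lit 773161242910) (nat_lit 0) (nat_lit 8033772183570) (nat_lit 8) (nat_lit 5) (nat_lit 10) (nat_lit 4) (nat_lit 8) (nat_lit 4) (nat_lit 330) (nat_lit 307) (nat_lit 143)) (XT.lf (nat_lit 0) (nat_lit 9113180103240) (nat_lit 76) (nat_lit 11569682203402) (nat_lit 76) (nat_lit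 5219114460884) (nat_lit 7) (nat_lit 4) (nat_lit 8) (nat_lit 5) (nat_lit 8) (nat_lit 4) (nat_lit 331) (nat_lit 307) (nat_lit 142))) (XT.nd (nat_lit 78) (nat_lit 152) (nat_lit 0) (XT.lf (nat_lit 0) (nat_lit 20569365431635) (nat_lit 76) (nat_lit 7397212859399) (nat_lit 76) (nat_lit 1046645116801) (nat_lit 7) (nat_lit 4) (nat_lit 8) (nat_lit 5) (nat_lit 8) (nat_lit 4) (nat_lit 332) (nat_lit 307) (nat_lit 141)) (XT.nd (nat_lit 78) (nat_lit 0) (nat_lit 0) (XT.lf (nat_lit 0) (nat_lit 1094952043395) (nat_lit 76) (nat_lit 2368080415238) (nat_lit 152) (nat_lit 29098021190096) (nat_lit 5) (nat_lit 5) (nat_lit 6) (nat_lit 5) (nat_lit 7) (nat_lit 4) (nat_lit 333) (nat_lit 307) (nat_lit 140)) (XT.lf (nat_lit 0) (nat_lit 9145832230001) (nat_lit 152) (nat_lit 23773576686448) (nat_lit 0) (nat_lit 3623599410238) (nat_lit 5) (nat_lit 5) (nat_lit 7) (nat_lit 4) (nat_lit 5) (nat_lit 4) (nat_lit 334) (nat_lit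 307) (nat_lit 139))))) (XT.nd (nat_lit 390) (nat_lit 76) (nat_lit 0) (XT.nd (nat_lit 78) (nat_lit 0) (nat_lit 0) (XT.lf (nat_lit 0) (nat_lit 15793817701025) (nat_lit 152) (nat_lit 15039938764006) (nat_lit 0) (nat_lit 10271584881215) (nat_lit 5) (nat_lit 5) (nat_lit 7) (nat_lit 4) (nat_lit 5) (nat_lit 4) (nat_lit 335) (nat_lit 307) (nat_lit 138)) (XT.lf (nat_lit 0) (nat_lit 23439000992607) (nat_lit 152) (nat_lit 4996255153388) (nat_lit 0) (nat_lit 17916768172758) (nat_lit 5) (nat_lit 5) (nat_lit 7) (nat_lit 4) (nat_lit 5) (nat_lit 4) (nat_lit 336) (nat_lit 307) (nat_lit 137))) (XT.nd (nat_lit 78) (nat_lit 0) (nat_lit 0) (XT.lf (nat_lit 0) (nat_lit 57826522172203) (nat_lit 76) (nat_lit 11908508973746) (nat_lit 76) (nat_lit 6386276153783) (nat_lit 4) (nat_lit 4) (nat_lit 5) (nat_lit 5) (nat_lit 5) (nat_lit 4) (nat_lit 340) (nat_lit 307) (nat_lit 133)) (XT.nd (nat_lit 38064) (nat_lit 0) (nat_lit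 1444) (XT.lf (nat_lit 0) (nat_lit 80002188559561) (nat_lit 76) (nat_lit 6028284004600) (nat_lit 76) (nat_lit 506051184618) (nat_lit 4) (nat_lit 4) (nat_lit 5) (nat_lit 5) (nat_lit 5) (nat_lit 4) (nat_lit 341) (nat_lit 307) (nat_lit 132)) (XT.lf (nat_lit 0) (nat_lit 305440348101) (nat_lit 380) (nat_lit 680550464300) (nat_lit 380) (nat_lit 680550464300) (nat_lit 23) (nat_lit 3) (nat_lit 28) (nat_lit 3) (nat_lit 28) (nat_lit 5) (nat_lit 308) (nat_lit 308) (nat_lit 164))))))) (XT.nd (nat_lit 780) (nat_lit 608) (nat_lit 0) (XT.nd (nat_lit 390) (nat_lit 304) (nat_lit 0) (XT.nd (nat_lit 156) (nat_lit 152) (nat_lit 0) (XT.nd (nat_lit 78) (nat_lit 0) (nat_lit 76) (XT.lf (nat_lit 76) (nat_lit 233107746162) (nat_lit 0) (nat_lit 433241502285) (nat_lit 380) (nat_lit 2915266621439) (nat_lit 24) (nat_lit 5) (nat_lit 23) (nat_lit 3) (nat_lit 28) (nat_lit 5) (nat_lit 309) (nat_lit 308) (nat_lit 163))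 (XT.lf (nat_lit 0) (nat_lit 860008294436) (nat_lit 304) (nat_lit 1696061764161) (nat_lit 380) (nat_lit 1291878593612) (nat_lit 24) (nat_lit 5) (nat_lit 28) (nat_lit 5) (nat_lit 29) (nat_lit 5) (nat_lit 310) (nat_lit 308) (nat_lit 162))) (XT.nd (nat_lit 78) (nat_lit 228) (nat_lit 0) (XT.lf (nat_lit 76) (nat_lit 201565780576) (nat_lit 0) (nat_lit 910127372769) (nat_lit 380) (nat_lit 3038191655135) (nat_lit 25) (nat_lit 5) (nat_lit 24) (nat_lit 5) (nat_lit 29) (nat_lit 5) (nat_lit 311) (nat_lit 308) (nat_lit 161)) (XT.nd (nat_lit 78) (nat_lit 304) (nat_lit 0) (XT.lf (nat_lit 0) (nat_lit 1534702102619) (nat_lit 304) (nat_lit 1954274639889) (nat_lit 76) (nat_lit 988098941457) (nat_lit 25) (nat_lit 5) (nat_lit 29) (nat_lit 5) (nat_lit 26) (nat_lit 5) (nat_lit 312) (nat_lit 308) (nat_lit 160)) (XT.lf (nat_lit 0) (nat_lit 324419032644) (nat_lit 304) (nat_lit 1753516260005) (nat_lit 380) (nat_lit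 2766893963370) (nat_lit 21) (nat_lit 5) (nat_lit 25) (nat_lit 5) (nat_lit 26) (nat_lit 5) (nat_lit 313) (nat_lit 308) (nat_lit 159))))) (XT.nd (nat_lit 156) (nat_lit 152) (nat_lit 0) (XT.nd (nat_lit 78) (nat_lit 152) (nat_lit 0) (XT.lf (nat_lit 0) (nat_lit 2819704868712) (nat_lit 380) (nat_lit 2102768141284) (nat_lit 76) (nat_lit 327715142760) (nat_lit 21) (nat_lit 5) (nat_lit 26) (nat_lit 5) (nat_lit 22) (nat_lit 5) (nat_lit 314) (nat_lit 308) (nat_lit 158)) (XT.lf (nat_lit 0) (nat_lit 652071381761) (nat_lit 152) (nat_lit 3131170158562) (nat_lit 228) (nat_lit 1916534094808) (nat_lit 19) (nat_lit 5) (nat_lit 21) (nat_lit 5) (nat_lit 22) (nat_lit 5) (nat_lit 315) (nat_lit 308) (nat_lit 157))) (XT.nd (nat_lit 78) (nat_lit 152) (nat_lit 0) (XT.lf (nat_lit 0) (nat_lit 4056459297635) (nat_lit 152) (nat_lit 944766840133) (nat_lit 228) (nat_lit 1199087488333) (nat_lit 19) (nat_lit 5) (nat_lit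 21) (nat_lit 5) (nat_lit 22) (nat_lit 5) (nat_lit 316) (nat_lit 308) (nat_lit 156)) (XT.nd (nat_lit 78) (nat_lit 76) (nat_lit 0) (XT.lf (nat_lit 0) (nat_lit 1241067864403) (nat_lit 76) (nat_lit 5277224197297) (nat_lit 152) (nat_lit 240182708488) (nat_lit 18) (nat_lit 5) (nat_lit 19) (nat_lit 5) (nat_lit 20) (nat_lit 4) (nat_lit 317) (nat_lit 308) (nat_lit 155)) (XT.lf (nat_lit 0) (nat_lit 948157372632) (nat_lit 152) (nat_lit 2094923950929) (nat_lit 76) (nat_lit 4327562694040) (nat_lit 17) (nat_lit 5) (nat_lit 19) (nat_lit 5) (nat_lit 18) (nat_lit 5) (nat_lit 318) (nat_lit 308) (nat_lit 154)))))) (XT.nd (nat_lit 390) (nat_lit 228) (nat_lit 0) (XT.nd (nat_lit 156) (nat_lit 228) (nat_lit 0) (XT.nd (nat_lit 78) (nat_lit 0) (nat_lit 0) (XT.lf (nat_lit 0) (nat_lit 2008285650980) (nat_lit 152) (nat_lit 365031506276) (nat_lit 228) (nat_lit 5687132080231) (nat_lit 15) (nat_lit 5) (nat_lit 17)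 (nat_lit 5) (nat_lit 18) (nat_lit 5) (nat_lit 319) (nat_lit 308) (nat_lit 153)) (XT.lf (nat_lit 0) (nat_lit 4239383940658) (nat_lit 228) (nat_lit 1992507197596) (nat_lit 76) (nat_lit 2587764147441) (nat_lit 15) (nat_lit 5) (nat_lit 18) (nat_lit 5) (nat_lit 16) (nat_lit 4) (nat_lit 320) (nat_lit 308) (nat_lit 152))) (XT.nd (nat_lit 78) (nat_lit 152) (nat_lit 0) (XT.lf (nat_lit 0) (nat_lit 2918544181621) (nat_lit 76) (nat_lit 3605049703088) (nat_lit 152) (nat_lit 3148413384954) (nat_lit 14) (nat_lit 5) (nat_lit 15) (nat_lit 5) (nat_lit 16) (nat_lit 4) (nat_lit 321) (nat_lit 308) (nat_lit 151)) (XT.nd (nat_lit 78) (nat_lit 152) (nat_lit 0) (XT.lf (nat_lit 0) (nat_lit 8790183905734) (nat_lit 76) (nat_lit 464405199691) (nat_lit 152) (nat_lit 1381999878041) (nat_lit 14) (nat_lit 5) (nat_lit 15) (nat_lit 5) (nat_lit 16) (nat_lit 4) (nat_lit 322) (nat_lit 308) (nat_lit 150)) (XT.lf (nat_lit 0)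 (nat_lit 902684006617) (nat_lit 152) (nat_lit 7717649099948) (nat_lit 76) (nat_lit 3074823419163) (nat_lit 12) (nat_lit 5) (nat_lit 14) (nat_lit 5) (nat_lit 13) (nat_lit 4) (nat_lit 323) (nat_lit 308) (nat_lit 149))))) (XT.nd (nat_lit 156) (nat_lit 152) (nat_lit 0) (XT.nd (nat_lit 78) (nat_lit 76) (nat_lit 0) (XT.lf (nat_lit 0) (nat_lit 3511807202372) (nat_lit 152) (nat_lit 2108034229358) (nat_lit 76) (nat_lit 7264312261085) (nat_lit 12) (nat_lit 5) (nat_lit 14) (nat_lit 5) (nat_lit 13) (nat_lit 4) (nat_lit 324) (nat_lit 308) (nat_lit 148)) (XT.lf (nat_lit 0) (nat_lit 4767454652073) (nat_lit 76) (nat_lit 1942254355729) (nat_lit 152) (nat_lit 7512179907615) (nat_lit 11) (nat_lit 5) (nat_lit 12) (nat_lit 5) (nat_lit 13) (nat_lit 4) (nat_lit 325) (nat_lit 308) (nat_lit 147))) (XT.nd (nat_lit 78) (nat_lit 152) (nat_lit 0) (XT.lf (nat_lit 0) (nat_lit 10597434636643) (nat_lit 152) (nat_lit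 2932520204292) (nat_lit 0) (nat_lit 2198808797586) (nat_lit 11) (nat_lit 5) (nat_lit 13) (nat_lit 4) (nat_lit 11) (nat_lit 4) (nat_lit 326) (nat_lit 308) (nat_lit 146)) (XT.nd (nat_lit 78) (nat_lit 76) (nat_lit 0) (XT.lf (nat_lit 0) (nat_lit 4912541034293) (nat_lit 76) (nat_lit 10451684226206) (nat_lit 76) (nat_lit 2053058386988) (nat_lit 10) (nat_lit 4) (nat_lit 11) (nat_lit 5) (nat_lit 11) (nat_lit 4) (nat_lit 327) (nat_lit 308) (nat_lit 145)) (XT.lf (nat_lit 0) (nat_lit 1515164389606) (nat_lit 152) (nat_lit 5141022401704) (nat_lit 76) (nat_lit 12669570575892) (nat_lit 9) (nat_lit 5) (nat_lit 11) (nat_lit 5) (nat_lit 10) (nat_lit 4) (nat_lit 328) (nat_lit 308) (nat_lit 144))))))))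
noncomputable def xc119 : XT := (XT.nd (nat_lit 39780) (nat_lit 0) (nat_lit 0) (XT.nd (nat_lit 936) (nat_lit 0) (nat_lit 0) (XT.nd (nat_lit 390) (nat_lit 228) (nat_lit 0) (XT.nd (nat_lit 156) (nat_lit 76) (nat_lit 0) (XT.nd (nat_lit 78) (nat_lit 0) (nat_lit 0) (XT.lf (nat_lit 0) (nat_lit 3545100519118) (nat_lit 76) (nat_lit 2010121043020) (nat_lit 152) (nat_lit 15928596622111) (nat_lit 8) (nat_lit 5) (nat_lit 9) (nat_lit 5) (nat_lit 10) (nat_lit 4) (nat_lit 329) (nat_lit 308) (nat_lit 143)) (XT.lf (nat_lit 0) (nat_lit 10620825889856) (nat_lit 152) (nat_lit 9964158461233) (nat_lit 0) (nat_lit 3317672985868) (nat_lit 8) (nat_lit 5) (nat_lit 10) (nat_lit 4) (nat_lit 8) (nat_lit 4) (nat_lit 330) (nat_lit 308) (nat_lit 142))) (XT.nd (nat_lit 78) (nat_lit 76) (nat_lit 0) (XT.lf (nat_lit 0) (nat_lit 16541990916271) (nat_lit 152) (nat_lit 889135426666) (nat_lit 0) (nat_lit 9238838012203) (nat_lit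 8) (nat_lit 5) (nat_lit 10) (nat_lit 4) (nat_lit 8) (nat_lit 4) (nat_lit 331) (nat_lit 308) (nat_lit 141)) (XT.nd (nat_lit 78) (nat_lit 0) (nat_lit 0) (XT.lf (nat_lit 0) (nat_lit 10480157121284) (nat_lit 76) (nat_lit 13305134532656) (nat_lit 76) (nat_lit 6001981628518) (nat_lit 7) (nat_lit 4) (nat_lit 8) (nat_lit 5) (nat_lit 8) (nat_lit 4) (nat_lit 332) (nat_lit 308) (nat_lit 140)) (XT.lf (nat_lit 0) (nat_lit 23654770248605) (nat_lit 76) (nat_lit 8506794787216) (nat_lit 76) (nat_lit 1203641883018) (nat_lit 7) (nat_lit 4) (nat_lit 8) (nat_lit 5) (nat_lit 8) (nat_lit 4) (nat_lit 333) (nat_lit 308) (nat_lit 139))))) (XT.nd (nat_lit 156) (nat_lit 76) (nat_lit 0) (XT.nd (nat_lit 78) (nat_lit 0) (nat_lit 0) (XT.lf (nat_lit 0) (nat_lit 1259194852139) (nat_lit 76) (nat_lit 2723292476414) (nat_lit 152) (nat_lit 33462724367317) (nat_lit 5) (nat_lit 5) (nat_lit 6) (nat_lit 5) (nat_lit 7) (nat_lit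 4) (nat_lit 334) (nat_lit 308) (nat_lit 138)) (XT.lf (nat_lit 0) (nat_lit 10517707065519) (nat_lit 152) (nat_lit 27339613187364) (nat_lit 0) (nat_lit 4167139322653) (nat_lit 5) (nat_lit 5) (nat_lit 7) (nat_lit 4) (nat_lit 5) (nat_lit 4) (nat_lit 335) (nat_lit 308) (nat_lit 137))) (XT.nd (nat_lit 234) (nat_lit 76) (nat_lit 0) (XT.lf (nat_lit 0) (nat_lit 18162890357063) (nat_lit 152) (nat_lit 17295929576824) (nat_lit 0) (nat_lit 11812322614163) (nat_lit 5) (nat_lit 5) (nat_lit 7) (nat_lit 4) (nat_lit 5) (nat_lit 4) (nat_lit 336) (nat_lit 308) (nat_lit 136)) (XT.nd (nat_lit 78) (nat_lit 0) (nat_lit 0) (XT.lf (nat_lit 0) (nat_lit 25041645948728) (nat_lit 76) (nat_lit 24688249392066) (nat_lit 76) (nat_lit 18337681649086) (nat_lit 4) (nat_lit 4) (nat_lit 5) (nat_lit 5) (nat_lit 5) (nat_lit 4) (nat_lit 339) (nat_lit 308) (nat_lit 133)) (XT.lf (nat_lit 0) (nat_lit 44324834111690) (nat_lit 76)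 (nat_lit 19575010288440) (nat_lit 76) (nat_lit 13224442545440) (nat_lit 4) (nat_lit 4) (nat_lit 5) (nat_lit 5) (nat_lit 5) (nat_lit 4) (nat_lit 340) (nat_lit 308) (nat_lit 132)))))) (XT.nd (nat_lit 38454) (nat_lit 0) (nat_lit 1140) (XT.nd (nat_lit 38220) (nat_lit 0) (nat_lit 1444) (XT.nd (nat_lit 38142) (nat_lit 0) (nat_lit 1444) (XT.lf (nat_lit 0) (nat_lit 66500500499007) (nat_lit 76) (nat_lit 13694785319315) (nat_lit 76) (nat_lit 7344217576298) (nat_lit 4) (nat_lit 4) (nat_lit 5) (nat_lit 5) (nat_lit 5) (nat_lit 4) (nat_lit 341) (nat_lit 308) (nat_lit 131)) (XT.lf (nat_lit 0) (nat_lit 351256405459) (nat_lit 380) (nat_lit 782633030979) (nat_lit 380) (nat_lit 782633030979) (nat_lit 23) (nat_lit 3) (nat_lit 28) (nat_lit 3) (nat_lit 28) (nat_lit 5) (nat_lit 309) (nat_lit 309) (nat_lit 162))) (XT.nd (nat_lit 78) (nat_lit 0) (nat_lit 76) (XT.lf (nat_lit 76) (nat_lit 268073913748) (nat_lit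 0) (nat_lit 498227731146) (nat_lit 380) (nat_lit 3352556604071) (nat_lit 24) (nat_lit 5) (nat_lit 23) (nat_lit 3) (nat_lit 28) (nat_lit 5) (nat_lit 310) (nat_lit 309) (nat_lit 161)) (XT.nd (nat_lit 78) (nat_lit 0) (nat_lit 0) (XT.lf (nat_lit 0) (nat_lit 989009546456) (nat_lit 304) (nat_lit 1950471022513) (nat_lit 380) (nat_lit 1485660379868) (nat_lit 24) (nat_lit 5) (nat_lit 28) (nat_lit 5) (nat_lit 29) (nat_lit 5) (nat_lit 311) (nat_lit 309) (nat_lit 160)) (XT.lf (nat_lit 76) (nat_lit 231800653649) (nat_lit 0) (nat_lit 1046646479776) (nat_lit 380) (nat_lit 3493920395244) (nat_lit 25) (nat_lit 5) (nat_lit 24) (nat_lit 5) (nat_lit 29) (nat_lit 5) (nat_lit 312) (nat_lit 309) (nat_lit 159))))) (XT.nd (nat_lit 156) (nat_lit 152) (nat_lit 0) (XT.nd (nat_lit 78) (nat_lit 304) (nat_lit 0) (XT.lf (nat_lit 0) (nat_lit 1764907424127) (nat_lit 304) (nat_lit 2247415829685) (nat_lit 76) (nat_lit 1136313781811)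 (nat_lit 25) (nat_lit 5) (nat_lit 29) (nat_lit 5) (nat_lit 26) (nat_lit 5) (nat_lit 313) (nat_lit 309) (nat_lit 158)) (XT.lf (nat_lit 0) (nat_lit 373081893447) (nat_lit 304) (nat_lit 2016543698662) (nat_lit 380) (nat_lit 3181928051462) (nat_lit 21) (nat_lit 5) (nat_lit 25) (nat_lit 5) (nat_lit 26) (nat_lit 5) (nat_lit 314) (nat_lit 309) (nat_lit 157))) (XT.nd (nat_lit 78) (nat_lit 152) (nat_lit 0) (XT.lf (nat_lit 0) (nat_lit 3242660603868) (nat_lit 380) (nat_lit 2418183356613) (nat_lit 76) (nat_lit 376872414446) (nat_lit 21) (nat_lit 5) (nat_lit 26) (nat_lit 5) (nat_lit 22) (nat_lit 5) (nat_lit 315) (nat_lit 309) (nat_lit 156)) (XT.nd (nat_lit 78) (nat_lit 0) (nat_lit 0) (XT.lf (nat_lit 0) (nat_lit 749882094622) (nat_lit 152) (nat_lit 3600845681198) (nat_lit 228) (nat_lit 2204014203901) (nat_lit 19) (nat_lit 5) (nat_lit 21) (nat_lit 5) (nat_lit 22) (nat_lit 5) (nat_lit 316) (nat_lit 309)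 (nat_lit 155)) (XT.lf (nat_lit 0) (nat_lit 4664928197147) (nat_lit 152) (nat_lit 1086481865155) (nat_lit 228) (nat_lit 1378950607123) (nat_lit 19) (nat_lit 5) (nat_lit 21) (nat_lit 5) (nat_lit 22) (nat_lit 5) (nat_lit 317) (nat_lit 309) (nat_lit 154))))))) (XT.nd (nat_lit 780) (nat_lit 532) (nat_lit 0) (XT.nd (nat_lit 390) (nat_lit 228) (nat_lit 0) (XT.nd (nat_lit 156) (nat_lit 228) (nat_lit 0) (XT.nd (nat_lit 78) (nat_lit 76) (nat_lit 0) (XT.lf (nat_lit 0) (nat_lit 1427228049234) (nat_lit 76) (nat_lit 6068807825335) (nat_lit 152) (nat_lit 276210110596) (nat_lit 18) (nat_lit 5) (nat_lit 19) (nat_lit 5) (nat_lit 20) (nat_lit 4) (nat_lit 318) (nat_lit 309) (nat_lit 153)) (XT.lf (nat_lit 0) (nat_lit 1090380981827) (nat_lit 152) (nat_lit 2409162538743) (nat_lit 76) (nat_lit 4976697099170) (nat_lit 17) (nat_lit 5) (nat_lit 19) (nat_lit 5) (nat_lit 18) (nat_lit 5) (nat_lit 319) (nat_lit 309)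 (nat_lit 152))) (XT.nd (nat_lit 78) (nat_lit 76) (nat_lit 0) (XT.lf (nat_lit 0) (nat_lit 2309528503233) (nat_lit 152) (nat_lit 419786230672) (nat_lit 228) (nat_lit 6540201888741) (nat_lit 15) (nat_lit 5) (nat_lit 17) (nat_lit 5) (nat_lit 18) (nat_lit 5) (nat_lit 320) (nat_lit 309) (nat_lit 151)) (XT.nd (nat_lit 78) (nat_lit 76) (nat_lit 0) (XT.lf (nat_lit 0) (nat_lit 4875291534473) (nat_lit 228) (nat_lit 2291383272881) (nat_lit 76) (nat_lit 2975928770782) (nat_lit 15) (nat_lit 5) (nat_lit 18) (nat_lit 5) (nat_lit 16) (nat_lit 4) (nat_lit 321) (nat_lit 309) (nat_lit 150)) (XT.lf (nat_lit 0) (nat_lit 3356325813020) (nat_lit 76) (nat_lit 4145807156929) (nat_lit 152) (nat_lit 3620675389778) (nat_lit 14) (nat_lit 5) (nat_lit 15) (nat_lit 5) (nat_lit 16) (nat_lit 4) (nat_lit 322) (nat_lit 309) (nat_lit 149))))) (XT.nd (nat_lit 156) (nat_lit 76) (nat_lit 0) (XT.nd (nat_lit 78) (nat_lit 152)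 (nat_lit 0) (XT.lf (nat_lit 0) (nat_lit 10108711495208) (nat_lit 76) (nat_lit 534065978234) (nat_lit 152) (nat_lit 1589299857209) (nat_lit 14) (nat_lit 5) (nat_lit 15) (nat_lit 5) (nat_lit 16) (nat_lit 4) (nat_lit 323) (nat_lit 309) (nat_lit 148)) (XT.lf (nat_lit 0) (nat_lit 1038086609835) (nat_lit 152) (nat_lit 8875296461007) (nat_lit 76) (nat_lit 3536046933409) (nat_lit 12) (nat_lit 5) (nat_lit 14) (nat_lit 5) (nat_lit 13) (nat_lit 4) (nat_lit 324) (nat_lit 309) (nat_lit 147))) (XT.nd (nat_lit 78) (nat_lit 76) (nat_lit 0) (XT.lf (nat_lit 0) (nat_lit 4038578284662) (nat_lit 152) (nat_lit 2424239360341) (nat_lit 76) (nat_lit 8353959101441) (nat_lit 12) (nat_lit 5) (nat_lit 14) (nat_lit 5) (nat_lit 13) (nat_lit 4) (nat_lit 325) (nat_lit 309) (nat_lit 146)) (XT.nd (nat_lit 78) (nat_lit 0) (nat_lit 0) (XT.lf (nat_lit 0) (nat_lit 5482572853150) (nat_lit 76) (nat_lit 2233592507641) (nat_lit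 152) (nat_lit 8639006891665) (nat_lit 11) (nat_lit 5) (nat_lit 12) (nat_lit 5) (nat_lit 13) (nat_lit 4) (nat_lit 326) (nat_lit 309) (nat_lit 145)) (XT.lf (nat_lit 0) (nat_lit 12187049833773) (nat_lit 152) (nat_lit 3372398231910) (nat_lit 0) (nat_lit 2528630118370) (nat_lit 11) (nat_lit 5) (nat_lit 13) (nat_lit 4) (nat_lit 11) (nat_lit 4) (nat_lit 327) (nat_lit 309) (nat_lit 144)))))) (XT.nd (nat_lit 390) (nat_lit 304) (nat_lit 0) (XT.nd (nat_lit 156) (nat_lit 76) (nat_lit 0) (XT.nd (nat_lit 78) (nat_lit 76) (nat_lit 0) (XT.lf (nat_lit 0) (nat_lit 5649422192326) (nat_lit 76) (nat_lit 12019436858788) (nat_lit 76) (nat_lit 2361017143264) (nat_lit 10) (nat_lit 4) (nat_lit 11) (nat_lit 5) (nat_lit 11) (nat_lit 4) (nat_lit 328) (nat_lit 309) (nat_lit 143)) (XT.lf (nat_lit 0) (nat_lit 1742439049451) (nat_lit 152) (nat_lit 5912175759309) (nat_lit 76) (nat_lit 14570006163311) (nat_lit 9) (nat_lit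 5) (nat_lit 11) (nat_lit 5) (nat_lit 10) (nat_lit 4) (nat_lit 329) (nat_lit 309) (nat_lit 142))) (XT.nd (nat_lit 78) (nat_lit 0) (nat_lit 0) (XT.lf (nat_lit 0) (nat_lit 4076865599516) (nat_lit 76) (nat_lit 2311639198268) (nat_lit 152) (nat_lit 18317886113902) (nat_lit 8) (nat_lit 5) (nat_lit 9) (nat_lit 5) (nat_lit 10) (nat_lit 4) (nat_lit 330) (nat_lit 309) (nat_lit 141)) (XT.nd (nat_lit 78) (nat_lit 0) (nat_lit 0) (XT.lf (nat_lit 0) (nat_lit 12213949774530) (nat_lit 152) (nat_lit 11458782228087) (nat_lit 0) (nat_lit 3815323934703) (nat_lit 8) (nat_lit 5) (nat_lit 10) (nat_lit 4) (nat_lit 8) (nat_lit 4) (nat_lit 331) (nat_lit 309) (nat_lit 140)) (XT.lf (nat_lit 0) (nat_lit 19023289554752) (nat_lit 152) (nat_lit 1022505738640) (nat_lit 0) (nat_lit 10624663714864) (nat_lit 8) (nat_lit 5) (nat_lit 10) (nat_lit 4) (nat_lit 8) (nat_lit 4) (nat_lit 332) (nat_lit 309) (nat_lit 139))))) (XT.nd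 (nat_lit 234) (nat_lit 76) (nat_lit 0) (XT.nd (nat_lit 78) (nat_lit 152) (nat_lit 0) (XT.lf (nat_lit 0) (nat_lit 12052180691411) (nat_lit 76) (nat_lit 15300904711604) (nat_lit 76) (nat_lit 6902278871663) (nat_lit 7) (nat_lit 4) (nat_lit 8) (nat_lit 5) (nat_lit 8) (nat_lit 4) (nat_lit 333) (nat_lit 309) (nat_lit 138)) (XT.nd (nat_lit 78) (nat_lit 152) (nat_lit 0) (XT.lf (nat_lit 0) (nat_lit 27202985787578) (nat_lit 76) (nat_lit 9782814004472) (nat_lit 76) (nat_lit 1384188164486) (nat_lit 7) (nat_lit 4) (nat_lit 8) (nat_lit 5) (nat_lit 8) (nat_lit 4) (nat_lit 334) (nat_lit 309) (nat_lit 137)) (XT.lf (nat_lit 0) (nat_lit 1448074081650) (nat_lit 76) (nat_lit 3131786347036) (nat_lit 152) (nat_lit 38482133021436) (nat_lit 5) (nat_lit 5) (nat_lit 6) (nat_lit 5) (nat_lit 7) (nat_lit 4) (nat_lit 335) (nat_lit 309) (nat_lit 136)))) (XT.nd (nat_lit 156) (nat_lit 76) (nat_lit 0) (XT.lf (nat_lit 0)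 (nat_lit 12095363126117) (nat_lit 152) (nat_lit 31440555163918) (nat_lit 0) (nat_lit 4792210221716) (nat_lit 5) (nat_lit 5) (nat_lit 7) (nat_lit 4) (nat_lit 5) (nat_lit 4) (nat_lit 336) (nat_lit 309) (nat_lit 135)) (XT.nd (nat_lit 78) (nat_lit 76) (nat_lit 0) (XT.lf (nat_lit 0) (nat_lit 30998078814190) (nat_lit 152) (nat_lit 6607547437401) (nat_lit 0) (nat_lit 23694925909740) (nat_lit 5) (nat_lit 5) (nat_lit 7) (nat_lit 4) (nat_lit 5) (nat_lit 4) (nat_lit 338) (nat_lit 309) (nat_lit 133)) (XT.lf (nat_lit 0) (nat_lit 9514704679091) (nat_lit 76) (nat_lit 33504725903988) (nat_lit 76) (nat_lit 26201572999519) (nat_lit 4) (nat_lit 4) (nat_lit 5) (nat_lit 5) (nat_lit 5) (nat_lit 4) (nat_lit 339) (nat_lit 309) (nat_lit 132))))))))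
noncomputable def xc120 : XT := (XT.nd (nat_lit 39702) (nat_lit 0) (nat_lit 0) (XT.nd (nat_lit 38922) (nat_lit 0) (nat_lit 532) (XT.nd (nat_lit 38532) (nat_lit 0) (nat_lit 1140) (XT.nd (nat_lit 38298) (nat_lit 0) (nat_lit 1444) (XT.nd (nat_lit 78) (nat_lit 0) (nat_lit 0) (XT.lf (nat_lit 0) (nat_lit 28797892842011) (nat_lit 76) (nat_lit 28391486800383) (nat_lit 76) (nat_lit 21088333895897) (nat_lit 4) (nat_lit 4) (nat_lit 5) (nat_lit 5) (nat_lit 5) (nat_lit 4) (nat_lit 340) (nat_lit 309) (nat_lit 131)) (XT.lf (nat_lit 0) (nat_lit 50973559229290) (nat_lit 76) (nat_lit 22511261831277) (nat_lit 76) (nat_lit 15208108926776) (nat_lit 4) (nat_lit 4) (nat_lit 5) (nat_lit 5) (nat_lit 5) (nat_lit 4) (nat_lit 341) (nat_lit 309) (nat_lit 130))) (XT.nd (nat_lit 78) (nat_lit 0) (nat_lit 0) (XT.lf (nat_lit 0) (nat_lit 403944870167) (nat_lit 380) (nat_lit 900027983384) (nat_lit 380) (nat_lit 900027983384)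 (nat_lit 23) (nat_lit 3) (nat_lit 28) (nat_lit 3) (nat_lit 28) (nat_lit 5) (nat_lit 310) (nat_lit 310) (nat_lit 160)) (XT.nd (nat_lit 78) (nat_lit 0) (nat_lit 76) (XT.lf (nat_lit 76) (nat_lit 308285005091) (nat_lit 0) (nat_lit 572961893477) (nat_lit 380) (nat_lit 3855440086678) (nat_lit 24) (nat_lit 5) (nat_lit 23) (nat_lit 3) (nat_lit 28) (nat_lit 5) (nat_lit 311) (nat_lit 310) (nat_lit 159)) (XT.lf (nat_lit 0) (nat_lit 1137360984364) (nat_lit 304) (nat_lit 2243041671148) (nat_lit 380) (nat_lit 1708509434741) (nat_lit 24) (nat_lit 5) (nat_lit 28) (nat_lit 5) (nat_lit 29) (nat_lit 5) (nat_lit 312) (nat_lit 310) (nat_lit 158))))) (XT.nd (nat_lit 156) (nat_lit 380) (nat_lit 0) (XT.nd (nat_lit 78) (nat_lit 0) (nat_lit 76) (XT.lf (nat_lit 76) (nat_lit 266570756223) (nat_lit 0) (nat_lit 1203643452568) (nat_lit 380) (nat_lit 4018008448359) (nat_lit 25) (nat_lit 5) (nat_lit 24) (nat_lit 5) (nat_lit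 29) (nat_lit 5) (nat_lit 313) (nat_lit 310) (nat_lit 157)) (XT.lf (nat_lit 0) (nat_lit 2029643542371) (nat_lit 304) (nat_lit 2584528199460) (nat_lit 76) (nat_lit 1306760848429) (nat_lit 25) (nat_lit 5) (nat_lit 29) (nat_lit 5) (nat_lit 26) (nat_lit 5) (nat_lit 314) (nat_lit 310) (nat_lit 156))) (XT.nd (nat_lit 78) (nat_lit 152) (nat_lit 0) (XT.lf (nat_lit 0) (nat_lit 429044181930) (nat_lit 304) (nat_lit 2319025253202) (nat_lit 380) (nat_lit 3659217254332) (nat_lit 21) (nat_lit 5) (nat_lit 25) (nat_lit 5) (nat_lit 26) (nat_lit 5) (nat_lit 315) (nat_lit 310) (nat_lit 155)) (XT.nd (nat_lit 78) (nat_lit 152) (nat_lit 0) (XT.lf (nat_lit 0) (nat_lit 3729059698115) (nat_lit 380) (nat_lit 2780910855671) (nat_lit 76) (nat_lit 433403276819) (nat_lit 21) (nat_lit 5) (nat_lit 26) (nat_lit 5) (nat_lit 22) (nat_lit 5) (nat_lit 316) (nat_lit 310) (nat_lit 154)) (XT.lf (nat_lit 0) (nat_lit 862364413047)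 (nat_lit 152) (nat_lit 4140972532510) (nat_lit 228) (nat_lit 2534616330609) (nat_lit 19) (nat_lit 5) (nat_lit 21) (nat_lit 5) (nat_lit 22) (nat_lit 5) (nat_lit 317) (nat_lit 310) (nat_lit 153)))))) (XT.nd (nat_lit 390) (nat_lit 304) (nat_lit 0) (XT.nd (nat_lit 156) (nat_lit 228) (nat_lit 0) (XT.nd (nat_lit 78) (nat_lit 76) (nat_lit 0) (XT.lf (nat_lit 0) (nat_lit 5364667430399) (nat_lit 152) (nat_lit 1249454144174) (nat_lit 228) (nat_lit 1585793194820) (nat_lit 19) (nat_lit 5) (nat_lit 21) (nat_lit 5) (nat_lit 22) (nat_lit 5) (nat_lit 318) (nat_lit 310) (nat_lit 152)) (XT.lf (nat_lit 0) (nat_lit 1641312260529) (nat_lit 76) (nat_lit 6979128997958) (nat_lit 152) (nat_lit 317641624036) (nat_lit 18) (nat_lit 5) (nat_lit 19) (nat_lit 5) (nat_lit 20) (nat_lit 4) (nat_lit 319) (nat_lit 310) (nat_lit 151))) (XT.nd (nat_lit 78) (nat_lit 152) (nat_lit 0) (XT.lf (nat_lit 0) (nat_lit 1253938131596)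 (nat_lit 152) (nat_lit 2770536915906) (nat_lit 76) (nat_lit 5723201664820) (nat_lit 17) (nat_lit 5) (nat_lit 19) (nat_lit 5) (nat_lit 18) (nat_lit 5) (nat_lit 320) (nat_lit 310) (nat_lit 150)) (XT.nd (nat_lit 78) (nat_lit 0) (nat_lit 0) (XT.lf (nat_lit 0) (nat_lit 2655957782201) (nat_lit 152) (nat_lit 482754164103) (nat_lit 228) (nat_lit 7521232169387) (nat_lit 15) (nat_lit 5) (nat_lit 17) (nat_lit 5) (nat_lit 18) (nat_lit 5) (nat_lit 321) (nat_lit 310) (nat_lit 149)) (XT.lf (nat_lit 0) (nat_lit 5606585266698) (nat_lit 228) (nat_lit 2635090760521) (nat_lit 76) (nat_lit 3422318087326) (nat_lit 15) (nat_lit 5) (nat_lit 18) (nat_lit 5) (nat_lit 16) (nat_lit 4) (nat_lit 322) (nat_lit 310) (nat_lit 148))))) (XT.nd (nat_lit 156) (nat_lit 228) (nat_lit 0) (XT.nd (nat_lit 78) (nat_lit 0) (nat_lit 0) (XT.lf (nat_lit 0) (nat_lit 3859774688116) (nat_lit 76) (nat_lit 4767678229242) (nat_lit 152)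 (nat_lit 4163776696038) (nat_lit 14) (nat_lit 5) (nat_lit 15) (nat_lit 5) (nat_lit 16) (nat_lit 4) (nat_lit 323) (nat_lit 310) (nat_lit 147)) (XT.lf (nat_lit 0) (nat_lit 11625018222223) (nat_lit 76) (nat_lit 614175873903) (nat_lit 152) (nat_lit 1827694833871) (nat_lit 14) (nat_lit 5) (nat_lit 15) (nat_lit 5) (nat_lit 16) (nat_lit 4) (nat_lit 324) (nat_lit 310) (nat_lit 146))) (XT.nd (nat_lit 78) (nat_lit 76) (nat_lit 0) (XT.lf (nat_lit 0) (nat_lit 1193799602993) (nat_lit 152) (nat_lit 10206590927183) (nat_lit 76) (nat_lit 4066453974459) (nat_lit 12) (nat_lit 5) (nat_lit 14) (nat_lit 5) (nat_lit 13) (nat_lit 4) (nat_lit 325) (nat_lit 310) (nat_lit 145)) (XT.nd (nat_lit 78) (nat_lit 76) (nat_lit 0) (XT.lf (nat_lit 0) (nat_lit 4644365028825) (nat_lit 152) (nat_lit 2787875261806) (nat_lit 76) (nat_lit 9607052967560) (nat_lit 12) (nat_lit 5) (nat_lit 14) (nat_lit 5) (nat_lit 13) (nat_lit 4)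 (nat_lit 326) (nat_lit 310) (nat_lit 144)) (XT.lf (nat_lit 0) (nat_lit 6304958783591) (nat_lit 76) (nat_lit 2568631382692) (nat_lit 152) (nat_lit 9934857923832) (nat_lit 11) (nat_lit 5) (nat_lit 12) (nat_lit 5) (nat_lit 13) (nat_lit 4) (nat_lit 327) (nat_lit 310) (nat_lit 143))))))) (XT.nd (nat_lit 780) (nat_lit 76) (nat_lit 0) (XT.nd (nat_lit 390) (nat_lit 228) (nat_lit 0) (XT.nd (nat_lit 156) (nat_lit 152) (nat_lit 0) (XT.nd (nat_lit 78) (nat_lit 76) (nat_lit 0) (XT.lf (nat_lit 0) (nat_lit 14015107310073) (nat_lit 152) (nat_lit 3878257964408) (nat_lit 0) (nat_lit 2907924636993) (nat_lit 11) (nat_lit 5) (nat_lit 13) (nat_lit 4) (nat_lit 11) (nat_lit 4) (nat_lit 328) (nat_lit 310) (nat_lit 142)) (XT.lf (nat_lit 0) (nat_lit 6496835523360) (nat_lit 76) (nat_lit 13822352386586) (nat_lit 76) (nat_lit 2715169713414) (nat_lit 10) (nat_lit 4) (nat_lit 11) (nat_lit 5) (nat_lit 11) (nat_lit 4)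 (nat_lit 329) (nat_lit 310) (nat_lit 141))) (XT.nd (nat_lit 78) (nat_lit 76) (nat_lit 0) (XT.lf (nat_lit 0) (nat_lit 2003804907930) (nat_lit 152) (nat_lit 6799002121201) (nat_lit 76) (nat_lit 16755507088590) (nat_lit 9) (nat_lit 5) (nat_lit 11) (nat_lit 5) (nat_lit 10) (nat_lit 4) (nat_lit 330) (nat_lit 310) (nat_lit 140)) (XT.nd (nat_lit 78) (nat_lit 0) (nat_lit 0) (XT.lf (nat_lit 0) (nat_lit 4688395441357) (nat_lit 76) (nat_lit 2658385077097) (nat_lit 152) (nat_lit 21065569029834) (nat_lit 8) (nat_lit 5) (nat_lit 9) (nat_lit 5) (nat_lit 10) (nat_lit 4) (nat_lit 331) (nat_lit 310) (nat_lit 139)) (XT.lf (nat_lit 0) (nat_lit 14046042241614) (nat_lit 152) (nat_lit 13177599560538) (nat_lit 0) (nat_lit 4387622525630) (nat_lit 8) (nat_lit 5) (nat_lit 10) (nat_lit 4) (nat_lit 8) (nat_lit 4) (nat_lit 332) (nat_lit 310) (nat_lit 138))))) (XT.nd (nat_lit 156) (nat_lit 152) (nat_lit 0) (XT.nd (nat_lit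 78) (nat_lit 76) (nat_lit 0) (XT.lf (nat_lit 0) (nat_lit 21876782988751) (nat_lit 152) (nat_lit 1175881597903) (nat_lit 0) (nat_lit 12218363272721) (nat_lit 8) (nat_lit 5) (nat_lit 10) (nat_lit 4) (nat_lit 8) (nat_lit 4) (nat_lit 333) (nat_lit 310) (nat_lit 137)) (XT.lf (nat_lit 0) (nat_lit 13860007796586) (nat_lit 76) (nat_lit 17596040417626) (nat_lit 76) (nat_lit 7937620701557) (nat_lit 7) (nat_lit 4) (nat_lit 8) (nat_lit 5) (nat_lit 8) (nat_lit 4) (nat_lit 334) (nat_lit 310) (nat_lit 136))) (XT.nd (nat_lit 78) (nat_lit 152) (nat_lit 0) (XT.lf (nat_lit 0) (nat_lit 31283433656986) (nat_lit 76) (nat_lit 11250236104519) (nat_lit 76) (nat_lit 1591816388414) (nat_lit 7) (nat_lit 4) (nat_lit 8) (nat_lit 5) (nat_lit 8) (nat_lit 4) (nat_lit 335) (nat_lit 310) (nat_lit 135)) (XT.nd (nat_lit 78) (nat_lit 0) (nat_lit 0) (XT.lf (nat_lit 0) (nat_lit 1665285195175) (nat_lit 76) (nat_lit 3601554298456)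 (nat_lit 152) (nat_lit 44254452973912) (nat_lit 5) (nat_lit 5) (nat_lit 6) (nat_lit 5) (nat_lit 7) (nat_lit 4) (nat_lit 336) (nat_lit 310) (nat_lit 134)) (XT.lf (nat_lit 0) (nat_lit 13909667595616) (nat_lit 152) (nat_lit 36156638437334) (nat_lit 0) (nat_lit 5511041755477) (nat_lit 5) (nat_lit 5) (nat_lit 7) (nat_lit 4) (nat_lit 5) (nat_lit 4) (nat_lit 337) (nat_lit 310) (nat_lit 133)))))) (XT.nd (nat_lit 38610) (nat_lit 0) (nat_lit 1292) (XT.nd (nat_lit 156) (nat_lit 76) (nat_lit 0) (XT.nd (nat_lit 78) (nat_lit 0) (nat_lit 0) (XT.lf (nat_lit 0) (nat_lit 24020422498492) (nat_lit 152) (nat_lit 22873866862779) (nat_lit 0) (nat_lit 15621796658333) (nat_lit 5) (nat_lit 5) (nat_lit 7) (nat_lit 4) (nat_lit 5) (nat_lit 4) (nat_lit 338) (nat_lit 310) (nat_lit 132)) (XT.lf (nat_lit 0) (nat_lit 35647790636759) (nat_lit 152) (nat_lit 7598679552124) (nat_lit 0) (nat_lit 27249164796582) (nat_lit 5)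 (nat_lit 5) (nat_lit 7) (nat_lit 4) (nat_lit 5) (nat_lit 4) (nat_lit 339) (nat_lit 310) (nat_lit 131))) (XT.nd (nat_lit 78) (nat_lit 0) (nat_lit 0) (XT.lf (nat_lit 0) (nat_lit 10941910381801) (nat_lit 76) (nat_lit 38530434789158) (nat_lit 76) (nat_lit 30131808948966) (nat_lit 4) (nat_lit 4) (nat_lit 5) (nat_lit 5) (nat_lit 5) (nat_lit 4) (nat_lit 340) (nat_lit 310) (nat_lit 130)) (XT.nd (nat_lit 38298) (nat_lit 0) (nat_lit 1444) (XT.lf (nat_lit 0) (nat_lit 33117576769049) (nat_lit 76) (nat_lit 32650209820068) (nat_lit 76) (nat_lit 24251583979863) (nat_lit 4) (nat_lit 4) (nat_lit 5) (nat_lit 5) (nat_lit 5) (nat_lit 4) (nat_lit 341) (nat_lit 310) (nat_lit 129)) (XT.lf (nat_lit 0) (nat_lit 464536603632) (nat_lit 380) (nat_lit 1035032179196) (nat_lit 380) (nat_lit 1035032179196) (nat_lit 23) (nat_lit 3) (nat_lit 28) (nat_lit 3) (nat_lit 28) (nat_lit 5) (nat_lit 311) (nat_lit 311) (nat_lit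 158))))) (XT.nd (nat_lit 156) (nat_lit 152) (nat_lit 0) (XT.nd (nat_lit 78) (nat_lit 0) (nat_lit 76) (XT.lf (nat_lit 76) (nat_lit 354527759091) (nat_lit 0) (nat_lit 658906179510) (nat_lit 380) (nat_lit 4433756093628) (nat_lit 24) (nat_lit 5) (nat_lit 23) (nat_lit 3) (nat_lit 28) (nat_lit 5) (nat_lit 312) (nat_lit 311) (nat_lit 157)) (XT.lf (nat_lit 0) (nat_lit 1307965136510) (nat_lit 304) (nat_lit 2579497918234) (nat_lit 380) (nat_lit 1964785848359) (nat_lit 24) (nat_lit 5) (nat_lit 28) (nat_lit 5) (nat_lit 29) (nat_lit 5) (nat_lit 313) (nat_lit 311) (nat_lit 156))) (XT.nd (nat_lit 78) (nat_lit 228) (nat_lit 0) (XT.lf (nat_lit 76) (nat_lit 306556373080) (nat_lit 0) (nat_lit 1384189971077) (nat_lit 380) (nat_lit 4620709710947) (nat_lit 25) (nat_lit 5) (nat_lit 24) (nat_lit 5) (nat_lit 29) (nat_lit 5) (nat_lit 314) (nat_lit 311) (nat_lit 155)) (XT.nd (nat_lit 78) (nat_lit 304) (nat_lit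 0) (XT.lf (nat_lit 0) (nat_lit 2334090077223) (nat_lit 304) (nat_lit 2972207425841) (nat_lit 76) (nat_lit 1502774975199) (nat_lit 25) (nat_lit 5) (nat_lit 29) (nat_lit 5) (nat_lit 26) (nat_lit 5) (nat_lit 315) (nat_lit 311) (nat_lit 154)) (XT.lf (nat_lit 0) (nat_lit 493400812597) (nat_lit 304) (nat_lit 2666879040986) (nat_lit 380) (nat_lit 4208099838815) (nat_lit 21) (nat_lit 5) (nat_lit 25) (nat_lit 5) (nat_lit 26) (nat_lit 5) (nat_lit 316) (nat_lit 311) (nat_lit 153))))))))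
noncomputable def xc121 : XT := (XT.nd (nat_lit 1560) (nat_lit 228) (nat_lit 0) (XT.nd (nat_lit 780) (nat_lit 380) (nat_lit 0) (XT.nd (nat_lit 390) (nat_lit 380) (nat_lit 0) (XT.nd (nat_lit 156) (nat_lit 152) (nat_lit 0) (XT.nd (nat_lit 78) (nat_lit 152) (nat_lit 0) (XT.lf (nat_lit 0) (nat_lit 4288418655605) (nat_lit 380) (nat_lit 3198047480670) (nat_lit 76) (nat_lit 498413768497) (nat_lit 21) (nat_lit 5) (nat_lit 26) (nat_lit 5) (nat_lit 22) (nat_lit 5) (nat_lit 317) (nat_lit 311) (nat_lit 152)) (XT.lf (nat_lit 0) (nat_lit 991719078205) (nat_lit 152) (nat_lit 4762118411730) (nat_lit 228) (nat_lit 2914808777268) (nat_lit 19) (nat_lit 5) (nat_lit 21) (nat_lit 5) (nat_lit 22) (nat_lit 5) (nat_lit 318) (nat_lit 311) (nat_lit 151))) (XT.nd (nat_lit 78) (nat_lit 152) (nat_lit 0) (XT.lf (nat_lit 0) (nat_lit 6169367547742) (nat_lit 152) (nat_lit 1436872265229) (nat_lit 228) (nat_lit 1823662171493)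 (nat_lit 19) (nat_lit 5) (nat_lit 21) (nat_lit 5) (nat_lit 22) (nat_lit 5) (nat_lit 319) (nat_lit 311) (nat_lit 150)) (XT.nd (nat_lit 78) (nat_lit 76) (nat_lit 0) (XT.lf (nat_lit 0) (nat_lit 1887509102564) (nat_lit 76) (nat_lit 8025998346762) (nat_lit 152) (nat_lit 365287865260) (nat_lit 18) (nat_lit 5) (nat_lit 19) (nat_lit 5) (nat_lit 20) (nat_lit 4) (nat_lit 320) (nat_lit 311) (nat_lit 149)) (XT.lf (nat_lit 0) (nat_lit 1442028853222) (nat_lit 152) (nat_lit 3186117450533) (nat_lit 76) (nat_lit 6581681915129) (nat_lit 17) (nat_lit 5) (nat_lit 19) (nat_lit 5) (nat_lit 18) (nat_lit 5) (nat_lit 321) (nat_lit 311) (nat_lit 148))))) (XT.nd (nat_lit 156) (nat_lit 228) (nat_lit 0) (XT.nd (nat_lit 78) (nat_lit 0) (nat_lit 0) (XT.lf (nat_lit 0) (nat_lit 3054351452165) (nat_lit 152) (nat_lit 555167287835) (nat_lit 228) (nat_lit 8649416992780) (nat_lit 15) (nat_lit 5) (nat_lit 17) (nat_lit 5) (nat_lit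 18) (nat_lit 5) (nat_lit 322) (nat_lit 311) (nat_lit 147)) (XT.lf (nat_lit 0) (nat_lit 6447573058256) (nat_lit 228) (nat_lit 3030354372110) (nat_lit 76) (nat_lit 3935665801125) (nat_lit 15) (nat_lit 5) (nat_lit 18) (nat_lit 5) (nat_lit 16) (nat_lit 4) (nat_lit 323) (nat_lit 311) (nat_lit 146))) (XT.nd (nat_lit 78) (nat_lit 152) (nat_lit 0) (XT.lf (nat_lit 0) (nat_lit 4438740893710) (nat_lit 76) (nat_lit 5482829962701) (nat_lit 152) (nat_lit 4788343198774) (nat_lit 14) (nat_lit 5) (nat_lit 15) (nat_lit 5) (nat_lit 16) (nat_lit 4) (nat_lit 324) (nat_lit 311) (nat_lit 145)) (XT.nd (nat_lit 78) (nat_lit 152) (nat_lit 0) (XT.lf (nat_lit 0) (nat_lit 13368770957622) (nat_lit 76) (nat_lit 706302254182) (nat_lit 152) (nat_lit 2101849057501) (nat_lit 14) (nat_lit 5) (nat_lit 15) (nat_lit 5) (nat_lit 16) (nat_lit 4) (nat_lit 325) (nat_lit 311) (nat_lit 144)) (XT.lf (nat_lit 0) (nat_lit 1372869544714)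 (nat_lit 152) (nat_lit 11737579564011) (nat_lit 76) (nat_lit 4676422071412) (nat_lit 12) (nat_lit 5) (nat_lit 14) (nat_lit 5) (nat_lit 13) (nat_lit 4) (nat_lit 326) (nat_lit 311) (nat_lit 143)))))) (XT.nd (nat_lit 390) (nat_lit 152) (nat_lit 0) (XT.nd (nat_lit 156) (nat_lit 152) (nat_lit 0) (XT.nd (nat_lit 78) (nat_lit 76) (nat_lit 0) (XT.lf (nat_lit 0) (nat_lit 5341019784255) (nat_lit 152) (nat_lit 3206056549121) (nat_lit 76) (nat_lit 11048110913376) (nat_lit 12) (nat_lit 5) (nat_lit 14) (nat_lit 5) (nat_lit 13) (nat_lit 4) (nat_lit 327) (nat_lit 311) (nat_lit 142)) (XT.lf (nat_lit 0) (nat_lit 7250702602997) (nat_lit 76) (nat_lit 2953926089268) (nat_lit 152) (nat_lit 11425086611211) (nat_lit 11) (nat_lit 5) (nat_lit 12) (nat_lit 5) (nat_lit 13) (nat_lit 4) (nat_lit 328) (nat_lit 311) (nat_lit 141))) (XT.nd (nat_lit 78) (nat_lit 152) (nat_lit 0) (XT.lf (nat_lit 0) (nat_lit 16117373407518)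 (nat_lit 152) (nat_lit 4459996657339) (nat_lit 0) (nat_lit 3344113333198) (nat_lit 11) (nat_lit 5) (nat_lit 13) (nat_lit 4) (nat_lit 11) (nat_lit 4) (nat_lit 329) (nat_lit 311) (nat_lit 140)) (XT.nd (nat_lit 78) (nat_lit 76) (nat_lit 0) (XT.lf (nat_lit 0) (nat_lit 7471360853515) (nat_lit 76) (nat_lit 15895705243802) (nat_lit 76) (nat_lit 3122445169413) (nat_lit 10) (nat_lit 4) (nat_lit 11) (nat_lit 5) (nat_lit 11) (nat_lit 4) (nat_lit 330) (nat_lit 311) (nat_lit 139)) (XT.lf (nat_lit 0) (nat_lit 2304375644922) (nat_lit 152) (nat_lit 7818852437865) (nat_lit 76) (nat_lit 19268833152470) (nat_lit 9) (nat_lit 5) (nat_lit 11) (nat_lit 5) (nat_lit 10) (nat_lit 4) (nat_lit 331) (nat_lit 311) (nat_lit 138))))) (XT.nd (nat_lit 156) (nat_lit 76) (nat_lit 0) (XT.nd (nat_lit 78) (nat_lit 0) (nat_lit 0) (XT.lf (nat_lit 0) (nat_lit 5391654759007) (nat_lit 76) (nat_lit 3057142837973) (nat_lit 152) (nat_lit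 24225404383437) (nat_lit 8) (nat_lit 5) (nat_lit 9) (nat_lit 5) (nat_lit 10) (nat_lit 4) (nat_lit 332) (nat_lit 311) (nat_lit 137)) (XT.lf (nat_lit 0) (nat_lit 16152948578540) (nat_lit 152) (nat_lit 15154239493286) (nat_lit 0) (nat_lit 5045765905020) (nat_lit 8) (nat_lit 5) (nat_lit 10) (nat_lit 4) (nat_lit 8) (nat_lit 4) (nat_lit 333) (nat_lit 311) (nat_lit 136))) (XT.nd (nat_lit 78) (nat_lit 76) (nat_lit 0) (XT.lf (nat_lit 0) (nat_lit 25158300437658) (nat_lit 152) (nat_lit 1352263836430) (nat_lit 0) (nat_lit 14051117764103) (nat_lit 8) (nat_lit 5) (nat_lit 10) (nat_lit 4) (nat_lit 8) (nat_lit 4) (nat_lit 334) (nat_lit 311) (nat_lit 135)) (XT.nd (nat_lit 78) (nat_lit 0) (nat_lit 0) (XT.lf (nat_lit 0) (nat_lit 15939008967180) (nat_lit 76) (nat_lit 20235446479727) (nat_lit 76) (nat_lit 9128263806142) (nat_lit 7) (nat_lit 4) (nat_lit 8) (nat_lit 5) (nat_lit 8) (nat_lit 4) (nat_lit 335)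 (nat_lit 311) (nat_lit 134)) (XT.lf (nat_lit 0) (nat_lit 35975948706496) (nat_lit 76) (nat_lit 12937771519724) (nat_lit 76) (nat_lit 1830588846113) (nat_lit 7) (nat_lit 4) (nat_lit 8) (nat_lit 5) (nat_lit 8) (nat_lit 4) (nat_lit 336) (nat_lit 311) (nat_lit 133))))))) (XT.nd (nat_lit 39078) (nat_lit 0) (nat_lit 608) (XT.nd (nat_lit 38688) (nat_lit 0) (nat_lit 1444) (XT.nd (nat_lit 156) (nat_lit 76) (nat_lit 0) (XT.nd (nat_lit 78) (nat_lit 0) (nat_lit 0) (XT.lf (nat_lit 0) (nat_lit 1915077975418) (nat_lit 76) (nat_lit 4141787442745) (nat_lit 152) (nat_lit 50892620919439) (nat_lit 5) (nat_lit 5) (nat_lit 6) (nat_lit 5) (nat_lit 7) (nat_lit 4) (nat_lit 337) (nat_lit 311) (nat_lit 132)) (XT.lf (nat_lit 0) (nat_lit 15996117735399) (nat_lit 152) (nat_lit 41580134202047) (nat_lit 0) (nat_lit 6337698019179) (nat_lit 5) (nat_lit 5) (nat_lit 7) (nat_lit 4) (nat_lit 5) (nat_lit 4) (nat_lit 338) (nat_lit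 311) (nat_lit 131))) (XT.nd (nat_lit 78) (nat_lit 76) (nat_lit 0) (XT.lf (nat_lit 0) (nat_lit 27623485873649) (nat_lit 152) (nat_lit 26304946891425) (nat_lit 0) (nat_lit 17965066157414) (nat_lit 5) (nat_lit 5) (nat_lit 7) (nat_lit 4) (nat_lit 5) (nat_lit 4) (nat_lit 339) (nat_lit 311) (nat_lit 130)) (XT.nd (nat_lit 78) (nat_lit 76) (nat_lit 0) (XT.lf (nat_lit 0) (nat_lit 40994959232605) (nat_lit 152) (nat_lit 8738481484273) (nat_lit 0) (nat_lit 31336539516357) (nat_lit 5) (nat_lit 5) (nat_lit 7) (nat_lit 4) (nat_lit 5) (nat_lit 4) (nat_lit 340) (nat_lit 311) (nat_lit 129)) (XT.lf (nat_lit 0) (nat_lit 12583196939711) (nat_lit 76) (nat_lit 44310000007208) (nat_lit 76) (nat_lit 34651580290948) (nat_lit 4) (nat_lit 4) (nat_lit 5) (nat_lit 5) (nat_lit 5) (nat_lit 4) (nat_lit 341) (nat_lit 311) (nat_lit 128))))) (XT.nd (nat_lit 156) (nat_lit 0) (nat_lit 76) (XT.nd (nat_lit 78) (nat_lit 0) (nat_lit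 0) (XT.lf (nat_lit 0) (nat_lit 534217096401) (nat_lit 380) (nat_lit 1190287004794) (nat_lit 380) (nat_lit 1190287004794) (nat_lit 23) (nat_lit 3) (nat_lit 28) (nat_lit 3) (nat_lit 28) (nat_lit 5) (nat_lit 312) (nat_lit 312) (nat_lit 156)) (XT.lf (nat_lit 76) (nat_lit 407706925402) (nat_lit 0) (nat_lit 757742107957) (nat_lit 380) (nat_lit 5098819503097) (nat_lit 24) (nat_lit 5) (nat_lit 23) (nat_lit 3) (nat_lit 28) (nat_lit 5) (nat_lit 313) (nat_lit 312) (nat_lit 155))) (XT.nd (nat_lit 78) (nat_lit 0) (nat_lit 0) (XT.lf (nat_lit 0) (nat_lit 1504159910383) (nat_lit 304) (nat_lit 2966422603258) (nat_lit 380) (nat_lit 2259503724409) (nat_lit 24) (nat_lit 5) (nat_lit 28) (nat_lit 5) (nat_lit 29) (nat_lit 5) (nat_lit 314) (nat_lit 312) (nat_lit 154)) (XT.nd (nat_lit 78) (nat_lit 0) (nat_lit 76) (XT.lf (nat_lit 76) (nat_lit 352539831630) (nat_lit 0) (nat_lit 1591818467211) (nat_lit 380) (nat_lit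 5313816164060) (nat_lit 25) (nat_lit 5) (nat_lit 24) (nat_lit 5) (nat_lit 29) (nat_lit 5) (nat_lit 315) (nat_lit 312) (nat_lit 153)) (XT.lf (nat_lit 0) (nat_lit 2684203591451) (nat_lit 304) (nat_lit 3418038537042) (nat_lit 76) (nat_lit 1728191221105) (nat_lit 25) (nat_lit 5) (nat_lit 29) (nat_lit 5) (nat_lit 26) (nat_lit 5) (nat_lit 316) (nat_lit 312) (nat_lit 152)))))) (XT.nd (nat_lit 390) (nat_lit 456) (nat_lit 0) (XT.nd (nat_lit 156) (nat_lit 228) (nat_lit 0) (XT.nd (nat_lit 78) (nat_lit 0) (nat_lit 0) (XT.lf (nat_lit 0) (nat_lit 567410937040) (nat_lit 304) (nat_lit 3066910896985) (nat_lit 380) (nat_lit 4839314811865) (nat_lit 21) (nat_lit 5) (nat_lit 25) (nat_lit 5) (nat_lit 26) (nat_lit 5) (nat_lit 317) (nat_lit 312) (nat_lit 151)) (XT.lf (nat_lit 0) (nat_lit 4931681456042) (nat_lit 380) (nat_lit 3677754600236) (nat_lit 76) (nat_lit 573175833890) (nat_lit 21) (nat_lit 5) (nat_lit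 26) (nat_lit 5) (nat_lit 22) (nat_lit 5) (nat_lit 318) (nat_lit 312) (nat_lit 150))) (XT.nd (nat_lit 78) (nat_lit 76) (nat_lit 0) (XT.lf (nat_lit 0) (nat_lit 1140476942355) (nat_lit 152) (nat_lit 5476436172993) (nat_lit 228) (nat_lit 3352030091641) (nat_lit 19) (nat_lit 5) (nat_lit 21) (nat_lit 5) (nat_lit 22) (nat_lit 5) (nat_lit 319) (nat_lit 312) (nat_lit 149)) (XT.nd (nat_lit 78) (nat_lit 76) (nat_lit 0) (XT.lf (nat_lit 0) (nat_lit 7094772682007) (nat_lit 152) (nat_lit 1652403104582) (nat_lit 228) (nat_lit 2097211495289) (nat_lit 19) (nat_lit 5) (nat_lit 21) (nat_lit 5) (nat_lit 22) (nat_lit 5) (nat_lit 320) (nat_lit 312) (nat_lit 148)) (XT.lf (nat_lit 0) (nat_lit 2170635470184) (nat_lit 76) (nat_lit 9229898098103) (nat_lit 152) (nat_lit 420081043248) (nat_lit 18) (nat_lit 5) (nat_lit 19) (nat_lit 5) (nat_lit 20) (nat_lit 4) (nat_lit 321) (nat_lit 312) (nat_lit 147))))) (XT.nd (nat_lit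 234) (nat_lit 228) (nat_lit 0) (XT.nd (nat_lit 78) (nat_lit 152) (nat_lit 0) (XT.lf (nat_lit 0) (nat_lit 1658333182632) (nat_lit 152) (nat_lit 3664035066027) (nat_lit 76) (nat_lit 7568934202841) (nat_lit 17) (nat_lit 5) (nat_lit 19) (nat_lit 5) (nat_lit 18) (nat_lit 5) (nat_lit 322) (nat_lit 312) (nat_lit 146)) (XT.nd (nat_lit 78) (nat_lit 0) (nat_lit 0) (XT.lf (nat_lit 0) (nat_lit 3512504171981) (nat_lit 152) (nat_lit 638442380342) (nat_lit 228) (nat_lit 9946829540173) (nat_lit 15) (nat_lit 5) (nat_lit 17) (nat_lit 5) (nat_lit 18) (nat_lit 5) (nat_lit 323) (nat_lit 312) (nat_lit 145)) (XT.lf (nat_lit 0) (nat_lit 7414709018169) (nat_lit 228) (nat_lit 3484907526044) (nat_lit 76) (nat_lit 4526015671823) (nat_lit 15) (nat_lit 5) (nat_lit 18) (nat_lit 5) (nat_lit 16) (nat_lit 4) (nat_lit 324) (nat_lit 312) (nat_lit 144)))) (XT.nd (nat_lit 78) (nat_lit 152) (nat_lit 0) (XT.lf (nat_lit 0) (nat_lit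 5104552029563) (nat_lit 76) (nat_lit 6305254456405) (nat_lit 152) (nat_lit 5506594677329) (nat_lit 14) (nat_lit 5) (nat_lit 15) (nat_lit 5) (nat_lit 16) (nat_lit 4) (nat_lit 325) (nat_lit 312) (nat_lit 143)) (XT.nd (nat_lit 78) (nat_lit 152) (nat_lit 0) (XT.lf (nat_lit 0) (nat_lit 15374086602828) (nat_lit 76) (nat_lit 812247591700) (nat_lit 152) (nat_lit 2417126415029) (nat_lit 14) (nat_lit 5) (nat_lit 15) (nat_lit 5) (nat_lit 16) (nat_lit 4) (nat_lit 326) (nat_lit 312) (nat_lit 142)) (XT.lf (nat_lit 0) (nat_lit 1578799977383) (nat_lit 152) (nat_lit 13498216496912) (nat_lit 76) (nat_lit 5377885382717) (nat_lit 12) (nat_lit 5) (nat_lit 14) (nat_lit 5) (nat_lit 13) (nat_lit 4) (nat_lit 327) (nat_lit 312) (nat_lit 141))))))))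
noncomputable def xc122 : XT := (XT.nd (nat_lit 39936) (nat_lit 0) (nat_lit 152) (XT.nd (nat_lit 780) (nat_lit 152) (nat_lit 0) (XT.nd (nat_lit 390) (nat_lit 152) (nat_lit 0) (XT.nd (nat_lit 156) (nat_lit 152) (nat_lit 0) (XT.nd (nat_lit 78) (nat_lit 76) (nat_lit 0) (XT.lf (nat_lit 0) (nat_lit 6142172752729) (nat_lit 152) (nat_lit 3686965030010) (nat_lit 76) (nat_lit 12705327550898) (nat_lit 12) (nat_lit 5) (nat_lit 14) (nat_lit 5) (nat_lit 13) (nat_lit 4) (nat_lit 328) (nat_lit 312) (nat_lit 140)) (XT.lf (nat_lit 0) (nat_lit 8338307994858) (nat_lit 76) (nat_lit 3397015002033) (nat_lit 152) (nat_lit 13138849601988) (nat_lit 11) (nat_lit 5) (nat_lit 12) (nat_lit 5) (nat_lit 13) (nat_lit 4) (nat_lit 329) (nat_lit 312) (nat_lit 139))) (XT.nd (nat_lit 78) (nat_lit 152) (nat_lit 0) (XT.lf (nat_lit 0) (nat_lit 18534979419351) (nat_lit 152) (nat_lit 5128996154631) (nat_lit 0) (nat_lit 3845730333674)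 (nat_lit 11) (nat_lit 5) (nat_lit 13) (nat_lit 4) (nat_lit 11) (nat_lit 4) (nat_lit 330) (nat_lit 312) (nat_lit 138)) (XT.nd (nat_lit 78) (nat_lit 76) (nat_lit 0) (XT.lf (nat_lit 0) (nat_lit 8592064982792) (nat_lit 76) (nat_lit 18280061029789) (nat_lit 76) (nat_lit 3590811944059) (nat_lit 10) (nat_lit 4) (nat_lit 11) (nat_lit 5) (nat_lit 11) (nat_lit 4) (nat_lit 331) (nat_lit 312) (nat_lit 137)) (XT.lf (nat_lit 0) (nat_lit 2650031992267) (nat_lit 152) (nat_lit 8991680302399) (nat_lit 76) (nat_lit 22159158125789) (nat_lit 9) (nat_lit 5) (nat_lit 11) (nat_lit 5) (nat_lit 10) (nat_lit 4) (nat_lit 332) (nat_lit 312) (nat_lit 136))))) (XT.nd (nat_lit 156) (nat_lit 76) (nat_lit 0) (XT.nd (nat_lit 78) (nat_lit 0) (nat_lit 0) (XT.lf (nat_lit 0) (nat_lit 6200402973952) (nat_lit 76) (nat_lit 3515714263148) (nat_lit 152) (nat_lit 27859215040293) (nat_lit 8) (nat_lit 5) (nat_lit 9) (nat_lit 5) (nat_lit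 10) (nat_lit 4) (nat_lit 333) (nat_lit 312) (nat_lit 135)) (XT.lf (nat_lit 0) (nat_lit 18575890865838) (nat_lit 152) (nat_lit 17427375416272) (nat_lit 0) (nat_lit 5802630791186) (nat_lit 8) (nat_lit 5) (nat_lit 10) (nat_lit 4) (nat_lit 8) (nat_lit 4) (nat_lit 334) (nat_lit 312) (nat_lit 134))) (XT.nd (nat_lit 78) (nat_lit 76) (nat_lit 0) (XT.lf (nat_lit 0) (nat_lit 28932045503756) (nat_lit 152) (nat_lit 1555103411019) (nat_lit 0) (nat_lit 16158785429078) (nat_lit 8) (nat_lit 5) (nat_lit 10) (nat_lit 4) (nat_lit 8) (nat_lit 4) (nat_lit 335) (nat_lit 312) (nat_lit 133)) (XT.nd (nat_lit 78) (nat_lit 0) (nat_lit 0) (XT.lf (nat_lit 0) (nat_lit 18329860313093) (nat_lit 76) (nat_lit 23270763451275) (nat_lit 76) (nat_lit 10497503376574) (nat_lit 7) (nat_lit 4) (nat_lit 8) (nat_lit 5) (nat_lit 8) (nat_lit 4) (nat_lit 336) (nat_lit 312) (nat_lit 132)) (XT.lf (nat_lit 0) (nat_lit 41372341013198)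 (nat_lit 76) (nat_lit 14878437247326) (nat_lit 76) (nat_lit 2105177172605) (nat_lit 7) (nat_lit 4) (nat_lit 8) (nat_lit 5) (nat_lit 8) (nat_lit 4) (nat_lit 337) (nat_lit 312) (nat_lit 131)))))) (XT.nd (nat_lit 38766) (nat_lit 0) (nat_lit 1216) (XT.nd (nat_lit 156) (nat_lit 0) (nat_lit 0) (XT.nd (nat_lit 78) (nat_lit 0) (nat_lit 0) (XT.lf (nat_lit 0) (nat_lit 2202339672461) (nat_lit 76) (nat_lit 4763055558794) (nat_lit 152) (nat_lit 58526514056932) (nat_lit 5) (nat_lit 5) (nat_lit 6) (nat_lit 5) (nat_lit 7) (nat_lit 4) (nat_lit 338) (nat_lit 312) (nat_lit 130)) (XT.lf (nat_lit 0) (nat_lit 18395535396042) (nat_lit 152) (nat_lit 47817154331684) (nat_lit 0) (nat_lit 7288352722343) (nat_lit 5) (nat_lit 5) (nat_lit 7) (nat_lit 4) (nat_lit 5) (nat_lit 4) (nat_lit 339) (nat_lit 312) (nat_lit 129))) (XT.nd (nat_lit 78) (nat_lit 0) (nat_lit 0) (XT.lf (nat_lit 0) (nat_lit 31767008754985) (nat_lit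 152) (nat_lit 30250688924557) (nat_lit 0) (nat_lit 20659826081276) (nat_lit 5) (nat_lit 5) (nat_lit 7) (nat_lit 4) (nat_lit 5) (nat_lit 4) (nat_lit 340) (nat_lit 312) (nat_lit 128)) (XT.nd (nat_lit 38454) (nat_lit 0) (nat_lit 1368) (XT.lf (nat_lit 0) (nat_lit 47144203117747) (nat_lit 152) (nat_lit 10049253706407) (nat_lit 0) (nat_lit 36037020444028) (nat_lit 5) (nat_lit 5) (nat_lit 7) (nat_lit 4) (nat_lit 5) (nat_lit 4) (nat_lit 341) (nat_lit 312) (nat_lit 127)) (XT.lf (nat_lit 0) (nat_lit 614349662542) (nat_lit 380) (nat_lit 1368830054543) (nat_lit 380) (nat_lit 1368830054543) (nat_lit 23) (nat_lit 3) (nat_lit 28) (nat_lit 3) (nat_lit 28) (nat_lit 5) (nat_lit 313) (nat_lit 313) (nat_lit 154))))) (XT.nd (nat_lit 156) (nat_lit 152) (nat_lit 0) (XT.nd (nat_lit 78) (nat_lit 0) (nat_lit 76) (XT.lf (nat_lit 76) (nat_lit 468862966064) (nat_lit 0) (nat_lit 871403425300) (nat_lit 380) (nat_lit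 5863642425101) (nat_lit 24) (nat_lit 5) (nat_lit 23) (nat_lit 3) (nat_lit 28) (nat_lit 5) (nat_lit 314) (nat_lit 313) (nat_lit 153)) (XT.lf (nat_lit 0) (nat_lit 1729783899508) (nat_lit 304) (nat_lit 3411385991697) (nat_lit 380) (nat_lit 2598429282159) (nat_lit 24) (nat_lit 5) (nat_lit 28) (nat_lit 5) (nat_lit 29) (nat_lit 5) (nat_lit 315) (nat_lit 313) (nat_lit 152))) (XT.nd (nat_lit 78) (nat_lit 228) (nat_lit 0) (XT.lf (nat_lit 76) (nat_lit 405420808332) (nat_lit 0) (nat_lit 1830591237649) (nat_lit 380) (nat_lit 6110888586001) (nat_lit 25) (nat_lit 5) (nat_lit 24) (nat_lit 5) (nat_lit 29) (nat_lit 5) (nat_lit 316) (nat_lit 313) (nat_lit 151)) (XT.nd (nat_lit 78) (nat_lit 304) (nat_lit 0) (XT.lf (nat_lit 0) (nat_lit 3086834132168) (nat_lit 304) (nat_lit 3930744315576) (nat_lit 76) (nat_lit 1987419903988) (nat_lit 25) (nat_lit 5) (nat_lit 29) (nat_lit 5) (nat_lit 26) (nat_lit 5) (nat_lit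 317) (nat_lit 313) (nat_lit 150)) (XT.lf (nat_lit 0) (nat_lit 652522579527) (nat_lit 304) (nat_lit 3526947531421) (nat_lit 380) (nat_lit 5565212031548) (nat_lit 21) (nat_lit 5) (nat_lit 25) (nat_lit 5) (nat_lit 26) (nat_lit 5) (nat_lit 318) (nat_lit 313) (nat_lit 149))))))) (XT.nd (nat_lit 780) (nat_lit 380) (nat_lit 0) (XT.nd (nat_lit 390) (nat_lit 380) (nat_lit 0) (XT.nd (nat_lit 156) (nat_lit 152) (nat_lit 0) (XT.nd (nat_lit 78) (nat_lit 152) (nat_lit 0) (XT.lf (nat_lit 0) (nat_lit 5671433676033) (nat_lit 380) (nat_lit 4229417788354) (nat_lit 76) (nat_lit 659152209062) (nat_lit 21) (nat_lit 5) (nat_lit 26) (nat_lit 5) (nat_lit 22) (nat_lit 5) (nat_lit 319) (nat_lit 313) (nat_lit 148)) (XT.lf (nat_lit 0) (nat_lit 1311548485538) (nat_lit 152) (nat_lit 6297901598566) (nat_lit 228) (nat_lit 3854834603711) (nat_lit 19) (nat_lit 5) (nat_lit 21) (nat_lit 5) (nat_lit 22) (nat_lit 5) (nat_lit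 320) (nat_lit 313) (nat_lit 147))) (XT.nd (nat_lit 78) (nat_lit 152) (nat_lit 0) (XT.lf (nat_lit 0) (nat_lit 8158988585899) (nat_lit 152) (nat_lit 1900263569942) (nat_lit 228) (nat_lit 2411793218125) (nat_lit 19) (nat_lit 5) (nat_lit 21) (nat_lit 5) (nat_lit 22) (nat_lit 5) (nat_lit 321) (nat_lit 313) (nat_lit 146)) (XT.nd (nat_lit 78) (nat_lit 76) (nat_lit 0) (XT.lf (nat_lit 0) (nat_lit 2496230792402) (nat_lit 76) (nat_lit 10614382812310) (nat_lit 152) (nat_lit 483093198374) (nat_lit 18) (nat_lit 5) (nat_lit 19) (nat_lit 5) (nat_lit 20) (nat_lit 4) (nat_lit 322) (nat_lit 313) (nat_lit 145)) (XT.lf (nat_lit 0) (nat_lit 1907083161105) (nat_lit 152) (nat_lit 4213640324354) (nat_lit 76) (nat_lit 8704274333601) (nat_lit 17) (nat_lit 5) (nat_lit 19) (nat_lit 5) (nat_lit 18) (nat_lit 5) (nat_lit 323) (nat_lit 313) (nat_lit 144))))) (XT.nd (nat_lit 156) (nat_lit 228) (nat_lit 0) (XT.nd (nat_lit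 78) (nat_lit 0) (nat_lit 0) (XT.lf (nat_lit 0) (nat_lit 4039379799284) (nat_lit 152) (nat_lit 734208736888) (nat_lit 228) (nat_lit 11438853970046) (nat_lit 15) (nat_lit 5) (nat_lit 17) (nat_lit 5) (nat_lit 18) (nat_lit 5) (nat_lit 324) (nat_lit 313) (nat_lit 143)) (XT.lf (nat_lit 0) (nat_lit 8526915371782) (nat_lit 228) (nat_lit 4007643653527) (nat_lit 76) (nat_lit 5204918022997) (nat_lit 15) (nat_lit 5) (nat_lit 18) (nat_lit 5) (nat_lit 16) (nat_lit 4) (nat_lit 325) (nat_lit 313) (nat_lit 142))) (XT.nd (nat_lit 78) (nat_lit 152) (nat_lit 0) (XT.lf (nat_lit 0) (nat_lit 5870234835356) (nat_lit 76) (nat_lit 7251042624335) (nat_lit 152) (nat_lit 6332583877974) (nat_lit 14) (nat_lit 5) (nat_lit 15) (nat_lit 5) (nat_lit 16) (nat_lit 4) (nat_lit 326) (nat_lit 313) (nat_lit 141)) (XT.nd (nat_lit 78) (nat_lit 152) (nat_lit 0) (XT.lf (nat_lit 0) (nat_lit 17680199594434) (nat_lit 76) (nat_lit 934084729994)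 (nat_lit 152) (nat_lit 2779695376453) (nat_lit 14) (nat_lit 5) (nat_lit 15) (nat_lit 5) (nat_lit 16) (nat_lit 4) (nat_lit 327) (nat_lit 313) (nat_lit 140)) (XT.lf (nat_lit 0) (nat_lit 1815619974718) (nat_lit 152) (nat_lit 15522948970163) (nat_lit 76) (nat_lit 6184568190573) (nat_lit 12) (nat_lit 5) (nat_lit 14) (nat_lit 5) (nat_lit 13) (nat_lit 4) (nat_lit 328) (nat_lit 313) (nat_lit 139)))))) (XT.nd (nat_lit 390) (nat_lit 152) (nat_lit 0) (XT.nd (nat_lit 156) (nat_lit 152) (nat_lit 0) (XT.nd (nat_lit 78) (nat_lit 76) (nat_lit 0) (XT.lf (nat_lit 0) (nat_lit 7063498666271) (nat_lit 152) (nat_lit 4240009783393) (nat_lit 76) (nat_lit 14611126683923) (nat_lit 12) (nat_lit 5) (nat_lit 14) (nat_lit 5) (nat_lit 13) (nat_lit 4) (nat_lit 329) (nat_lit 313) (nat_lit 138)) (XT.lf (nat_lit 0) (nat_lit 9589054195155) (nat_lit 76) (nat_lit 3906567251865) (nat_lit 152) (nat_lit 15109677041602) (nat_lit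 11) (nat_lit 5) (nat_lit 12) (nat_lit 5) (nat_lit 13) (nat_lit 4) (nat_lit 330) (nat_lit 313) (nat_lit 137))) (XT.nd (nat_lit 78) (nat_lit 152) (nat_lit 0) (XT.lf (nat_lit 0) (nat_lit 21315226332788) (nat_lit 152) (nat_lit 5898345576837) (nat_lit 0) (nat_lit 4422589884100) (nat_lit 11) (nat_lit 5) (nat_lit 13) (nat_lit 4) (nat_lit 11) (nat_lit 4) (nat_lit 331) (nat_lit 313) (nat_lit 136)) (XT.nd (nat_lit 78) (nat_lit 76) (nat_lit 0) (XT.lf (nat_lit 0) (nat_lit 9880874731155) (nat_lit 76) (nat_lit 21022070183816) (nat_lit 76) (nat_lit 4129433735089) (nat_lit 10) (nat_lit 4) (nat_lit 11) (nat_lit 5) (nat_lit 11) (nat_lit 4) (nat_lit 332) (nat_lit 313) (nat_lit 135)) (XT.lf (nat_lit 0) (nat_lit 3047536791567) (nat_lit 152) (nat_lit 10340432346893) (nat_lit 76) (nat_lit 25483031844995) (nat_lit 9) (nat_lit 5) (nat_lit 11) (nat_lit 5) (nat_lit 10) (nat_lit 4) (nat_lit 333) (nat_lit 313) (nat_lit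 134))))) (XT.nd (nat_lit 156) (nat_lit 76) (nat_lit 0) (XT.nd (nat_lit 78) (nat_lit 0) (nat_lit 0) (XT.lf (nat_lit 0) (nat_lit 7130463420872) (nat_lit 76) (nat_lit 4043071402227) (nat_lit 152) (nat_lit 32038097295838) (nat_lit 8) (nat_lit 5) (nat_lit 9) (nat_lit 5) (nat_lit 10) (nat_lit 4) (nat_lit 334) (nat_lit 313) (nat_lit 133)) (XT.lf (nat_lit 0) (nat_lit 21362274496105) (nat_lit 152) (nat_lit 20041481727950) (nat_lit 0) (nat_lit 6673025410176) (nat_lit 8) (nat_lit 5) (nat_lit 10) (nat_lit 4) (nat_lit 8) (nat_lit 4) (nat_lit 335) (nat_lit 313) (nat_lit 132))) (XT.nd (nat_lit 78) (nat_lit 76) (nat_lit 0) (XT.lf (nat_lit 0) (nat_lit 33271852329660) (nat_lit 152) (nat_lit 1788368922009) (nat_lit 0) (nat_lit 18582603243711) (nat_lit 8) (nat_lit 5) (nat_lit 10) (nat_lit 4) (nat_lit 8) (nat_lit 4) (nat_lit 336) (nat_lit 313) (nat_lit 131)) (XT.nd (nat_lit 78) (nat_lit 0) (nat_lit 0) (XT.lf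 (nat_lit 0) (nat_lit 21079339360689) (nat_lit 76) (nat_lit 26761377968656) (nat_lit 76) (nat_lit 12072128882690) (nat_lit 7) (nat_lit 4) (nat_lit 8) (nat_lit 5) (nat_lit 8) (nat_lit 4) (nat_lit 337) (nat_lit 313) (nat_lit 130)) (XT.lf (nat_lit 0) (nat_lit 47578192165728) (nat_lit 76) (nat_lit 17110202834154) (nat_lit 76) (nat_lit 2420953748173) (nat_lit 7) (nat_lit 4) (nat_lit 8) (nat_lit 5) (nat_lit 8) (nat_lit 4) (nat_lit 338) (nat_lit 313) (nat_lit 129))))))))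
noncomputable def xc123 : XT := (XT.nd (nat_lit 40092) (nat_lit 0) (nat_lit 152) (XT.nd (nat_lit 39312) (nat_lit 0) (nat_lit 456) (XT.nd (nat_lit 38922) (nat_lit 0) (nat_lit 1064) (XT.nd (nat_lit 38688) (nat_lit 0) (nat_lit 1368) (XT.nd (nat_lit 78) (nat_lit 0) (nat_lit 0) (XT.lf (nat_lit 0) (nat_lit 2532690623883) (nat_lit 76) (nat_lit 5477513892338) (nat_lit 152) (nat_lit 67305491165152) (nat_lit 5) (nat_lit 5) (nat_lit 6) (nat_lit 5) (nat_lit 7) (nat_lit 4) (nat_lit 339) (nat_lit 313) (nat_lit 128)) (XT.lf (nat_lit 0) (nat_lit 21154865705699) (nat_lit 152) (nat_lit 54989727480930) (nat_lit 0) (nat_lit 8381605630912) (nat_lit 5) (nat_lit 5) (nat_lit 7) (nat_lit 4) (nat_lit 5) (nat_lit 4) (nat_lit 340) (nat_lit 313) (nat_lit 127))) (XT.nd (nat_lit 78) (nat_lit 0) (nat_lit 0) (XT.lf (nat_lit 0) (nat_lit 706502113195) (nat_lit 380) (nat_lit 1574154561992) (nat_lit 380) (nat_lit 1574154561992)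 (nat_lit 23) (nat_lit 3) (nat_lit 28) (nat_lit 3) (nat_lit 28) (nat_lit 5) (nat_lit 314) (nat_lit 314) (nat_lit 152)) (XT.nd (nat_lit 78) (nat_lit 0) (nat_lit 76) (XT.lf (nat_lit 76) (nat_lit 539192412373) (nat_lit 0) (nat_lit 1002113939965) (nat_lit 380) (nat_lit 6743188786250) (nat_lit 24) (nat_lit 5) (nat_lit 23) (nat_lit 3) (nat_lit 28) (nat_lit 5) (nat_lit 315) (nat_lit 314) (nat_lit 151)) (XT.lf (nat_lit 0) (nat_lit 1989251486376) (nat_lit 304) (nat_lit 3923093888901) (nat_lit 380) (nat_lit 2988193673795) (nat_lit 24) (nat_lit 5) (nat_lit 28) (nat_lit 5) (nat_lit 29) (nat_lit 5) (nat_lit 316) (nat_lit 314) (nat_lit 150))))) (XT.nd (nat_lit 156) (nat_lit 380) (nat_lit 0) (XT.nd (nat_lit 78) (nat_lit 0) (nat_lit 76) (XT.lf (nat_lit 76) (nat_lit 466233931061) (nat_lit 0) (nat_lit 2105179923566) (nat_lit 380) (nat_lit 7027521871884) (nat_lit 25) (nat_lit 5) (nat_lit 24) (nat_lit 5)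 (nat_lit 29) (nat_lit 5) (nat_lit 317) (nat_lit 314) (nat_lit 149)) (XT.lf (nat_lit 0) (nat_lit 3549859253505) (nat_lit 304) (nat_lit 4520355961383) (nat_lit 76) (nat_lit 2285532889373) (nat_lit 25) (nat_lit 5) (nat_lit 29) (nat_lit 5) (nat_lit 26) (nat_lit 5) (nat_lit 318) (nat_lit 314) (nat_lit 148))) (XT.nd (nat_lit 78) (nat_lit 152) (nat_lit 0) (XT.lf (nat_lit 0) (nat_lit 750400967916) (nat_lit 304) (nat_lit 4055989661049) (nat_lit 380) (nat_lit 6399993834695) (nat_lit 21) (nat_lit 5) (nat_lit 25) (nat_lit 5) (nat_lit 26) (nat_lit 5) (nat_lit 319) (nat_lit 314) (nat_lit 147)) (XT.nd (nat_lit 78) (nat_lit 152) (nat_lit 0) (XT.lf (nat_lit 0) (nat_lit 6522148728637) (nat_lit 380) (nat_lit 4863830455158) (nat_lit 76) (nat_lit 758025040489) (nat_lit 21) (nat_lit 5) (nat_lit 26) (nat_lit 5) (nat_lit 22) (nat_lit 5) (nat_lit 320) (nat_lit 314) (nat_lit 146)) (XT.lf (nat_lit 0) (nat_lit 1508280759752)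 (nat_lit 152) (nat_lit 7242586838068) (nat_lit 228) (nat_lit 4433059793000) (nat_lit 19) (nat_lit 5) (nat_lit 21) (nat_lit 5) (nat_lit 22) (nat_lit 5) (nat_lit 321) (nat_lit 314) (nat_lit 145)))))) (XT.nd (nat_lit 390) (nat_lit 304) (nat_lit 0) (XT.nd (nat_lit 156) (nat_lit 228) (nat_lit 0) (XT.nd (nat_lit 78) (nat_lit 76) (nat_lit 0) (XT.lf (nat_lit 0) (nat_lit 9382836874987) (nat_lit 152) (nat_lit 2185303105187) (nat_lit 228) (nat_lit 2773562199742) (nat_lit 19) (nat_lit 5) (nat_lit 21) (nat_lit 5) (nat_lit 22) (nat_lit 5) (nat_lit 322) (nat_lit 314) (nat_lit 144)) (XT.lf (nat_lit 0) (nat_lit 2870665412540) (nat_lit 76) (nat_lit 12206540233772) (nat_lit 152) (nat_lit 555557177101) (nat_lit 18) (nat_lit 5) (nat_lit 19) (nat_lit 5) (nat_lit 20) (nat_lit 4) (nat_lit 323) (nat_lit 314) (nat_lit 143))) (XT.nd (nat_lit 78) (nat_lit 152) (nat_lit 0) (XT.lf (nat_lit 0) (nat_lit 2193145636087)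 (nat_lit 152) (nat_lit 4845686371814) (nat_lit 76) (nat_lit 10009915483895) (nat_lit 17) (nat_lit 5) (nat_lit 19) (nat_lit 5) (nat_lit 18) (nat_lit 5) (nat_lit 324) (nat_lit 314) (nat_lit 142)) (XT.nd (nat_lit 78) (nat_lit 0) (nat_lit 0) (XT.lf (nat_lit 0) (nat_lit 4645286770315) (nat_lit 152) (nat_lit 844340047039) (nat_lit 228) (nat_lit 13154682064682) (nat_lit 15) (nat_lit 5) (nat_lit 17) (nat_lit 5) (nat_lit 18) (nat_lit 5) (nat_lit 325) (nat_lit 314) (nat_lit 141)) (XT.lf (nat_lit 0) (nat_lit 9805952678221) (nat_lit 228) (nat_lit 4608790200480) (nat_lit 76) (nat_lit 5985655726750) (nat_lit 15) (nat_lit 5) (nat_lit 18) (nat_lit 5) (nat_lit 16) (nat_lit 4) (nat_lit 326) (nat_lit 314) (nat_lit 140))))) (XT.nd (nat_lit 156) (nat_lit 228) (nat_lit 0) (XT.nd (nat_lit 78) (nat_lit 0) (nat_lit 0) (XT.lf (nat_lit 0) (nat_lit 6750770061687) (nat_lit 76) (nat_lit 8338699017585) (nat_lit 152)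 (nat_lit 7282471458948) (nat_lit 14) (nat_lit 5) (nat_lit 15) (nat_lit 5) (nat_lit 16) (nat_lit 4) (nat_lit 327) (nat_lit 314) (nat_lit 139)) (XT.lf (nat_lit 0) (nat_lit 20332229534493) (nat_lit 76) (nat_lit 1074197439144) (nat_lit 152) (nat_lit 3196649682294) (nat_lit 14) (nat_lit 5) (nat_lit 15) (nat_lit 5) (nat_lit 16) (nat_lit 4) (nat_lit 328) (nat_lit 314) (nat_lit 138))) (XT.nd (nat_lit 78) (nat_lit 76) (nat_lit 0) (XT.lf (nat_lit 0) (nat_lit 2087962971476) (nat_lit 152) (nat_lit 17851391314715) (nat_lit 76) (nat_lit 7112253419498) (nat_lit 12) (nat_lit 5) (nat_lit 14) (nat_lit 5) (nat_lit 13) (nat_lit 4) (nat_lit 329) (nat_lit 314) (nat_lit 137)) (XT.nd (nat_lit 78) (nat_lit 76) (nat_lit 0) (XT.lf (nat_lit 0) (nat_lit 8123023466690) (nat_lit 152) (nat_lit 4876011250057) (nat_lit 76) (nat_lit 16802795686806) (nat_lit 12) (nat_lit 5) (nat_lit 14) (nat_lit 5) (nat_lit 13) (nat_lit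 4) (nat_lit 330) (nat_lit 314) (nat_lit 136)) (XT.lf (nat_lit 0) (nat_lit 11027412325235) (nat_lit 76) (nat_lit 4492552339287) (nat_lit 152) (nat_lit 17376128597325) (nat_lit 11) (nat_lit 5) (nat_lit 12) (nat_lit 5) (nat_lit 13) (nat_lit 4) (nat_lit 331) (nat_lit 314) (nat_lit 135))))))) (XT.nd (nat_lit 39468) (nat_lit 0) (nat_lit 608) (XT.nd (nat_lit 390) (nat_lit 76) (nat_lit 0) (XT.nd (nat_lit 156) (nat_lit 152) (nat_lit 0) (XT.nd (nat_lit 78) (nat_lit 76) (nat_lit 0) (XT.lf (nat_lit 0) (nat_lit 24512510283110) (nat_lit 152) (nat_lit 6783097412614) (nat_lit 0) (nat_lit 5085978366998) (nat_lit 11) (nat_lit 5) (nat_lit 13) (nat_lit 4) (nat_lit 11) (nat_lit 4) (nat_lit 332) (nat_lit 314) (nat_lit 134)) (XT.lf (nat_lit 0) (nat_lit 11363005941542) (nat_lit 76) (nat_lit 24175380711055) (nat_lit 76) (nat_lit 4748848794914) (nat_lit 10) (nat_lit 4) (nat_lit 11) (nat_lit 5) (nat_lit 11) (nat_lit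 4) (nat_lit 333) (nat_lit 314) (nat_lit 133))) (XT.nd (nat_lit 78) (nat_lit 76) (nat_lit 0) (XT.lf (nat_lit 0) (nat_lit 3504667310648) (nat_lit 152) (nat_lit 11891497198272) (nat_lit 76) (nat_lit 29305486622000) (nat_lit 9) (nat_lit 5) (nat_lit 11) (nat_lit 5) (nat_lit 10) (nat_lit 4) (nat_lit 334) (nat_lit 314) (nat_lit 132)) (XT.nd (nat_lit 78) (nat_lit 0) (nat_lit 0) (XT.lf (nat_lit 0) (nat_lit 8200032934629) (nat_lit 76) (nat_lit 4649532112263) (nat_lit 152) (nat_lit 36843811889837) (nat_lit 8) (nat_lit 5) (nat_lit 9) (nat_lit 5) (nat_lit 10) (nat_lit 4) (nat_lit 335) (nat_lit 314) (nat_lit 131)) (XT.lf (nat_lit 0) (nat_lit 24566615670817) (nat_lit 152) (nat_lit 23047703986567) (nat_lit 0) (nat_lit 7673979221938) (nat_lit 8) (nat_lit 5) (nat_lit 10) (nat_lit 4) (nat_lit 8) (nat_lit 4) (nat_lit 336) (nat_lit 314) (nat_lit 130))))) (XT.nd (nat_lit 156) (nat_lit 0) (nat_lit 0) (XT.nd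 (nat_lit 78) (nat_lit 76) (nat_lit 0) (XT.lf (nat_lit 0) (nat_lit 38262630179366) (nat_lit 152) (nat_lit 2056624259810) (nat_lit 0) (nat_lit 21369993730473) (nat_lit 8) (nat_lit 5) (nat_lit 10) (nat_lit 4) (nat_lit 8) (nat_lit 4) (nat_lit 337) (nat_lit 314) (nat_lit 129)) (XT.lf (nat_lit 0) (nat_lit 24241240265271) (nat_lit 76) (nat_lit 30775584663720) (nat_lit 76) (nat_lit 13882948214814) (nat_lit 7) (nat_lit 4) (nat_lit 8) (nat_lit 5) (nat_lit 8) (nat_lit 4) (nat_lit 338) (nat_lit 314) (nat_lit 128))) (XT.nd (nat_lit 38766) (nat_lit 0) (nat_lit 1216) (XT.lf (nat_lit 0) (nat_lit 54714920991003) (nat_lit 76) (nat_lit 19676733259073) (nat_lit 76) (nat_lit 2784096810156) (nat_lit 7) (nat_lit 4) (nat_lit 8) (nat_lit 5) (nat_lit 8) (nat_lit 4) (nat_lit 339) (nat_lit 314) (nat_lit 127)) (XT.nd (nat_lit 78) (nat_lit 0) (nat_lit 0) (XT.lf (nat_lit 0) (nat_lit 812477431135) (nat_lit 380) (nat_lit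 1810277745737) (nat_lit 380) (nat_lit 1810277745737) (nat_lit 23) (nat_lit 3) (nat_lit 28) (nat_lit 3) (nat_lit 28) (nat_lit 5) (nat_lit 315) (nat_lit 315) (nat_lit 150)) (XT.lf (nat_lit 76) (nat_lit 620071275287) (nat_lit 0) (nat_lit 1152431031617) (nat_lit 380) (nat_lit 7754667102209) (nat_lit 24) (nat_lit 5) (nat_lit 23) (nat_lit 3) (nat_lit 28) (nat_lit 5) (nat_lit 316) (nat_lit 315) (nat_lit 149)))))) (XT.nd (nat_lit 390) (nat_lit 456) (nat_lit 0) (XT.nd (nat_lit 156) (nat_lit 228) (nat_lit 0) (XT.nd (nat_lit 78) (nat_lit 0) (nat_lit 0) (XT.lf (nat_lit 0) (nat_lit 2287639210800) (nat_lit 304) (nat_lit 4511557971064) (nat_lit 380) (nat_lit 3436422724343) (nat_lit 24) (nat_lit 5) (nat_lit 28) (nat_lit 5) (nat_lit 29) (nat_lit 5) (nat_lit 317) (nat_lit 315) (nat_lit 148)) (XT.lf (nat_lit 76) (nat_lit 536169021839) (nat_lit 0) (nat_lit 2420956912305) (nat_lit 380) (nat_lit 8081650151141)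 (nat_lit 25) (nat_lit 5) (nat_lit 24) (nat_lit 5) (nat_lit 29) (nat_lit 5) (nat_lit 318) (nat_lit 315) (nat_lit 147))) (XT.nd (nat_lit 78) (nat_lit 304) (nat_lit 0) (XT.lf (nat_lit 0) (nat_lit 4082338142673) (nat_lit 304) (nat_lit 5198409354434) (nat_lit 76) (nat_lit 2628362822618) (nat_lit 25) (nat_lit 5) (nat_lit 29) (nat_lit 5) (nat_lit 26) (nat_lit 5) (nat_lit 319) (nat_lit 315) (nat_lit 146)) (XT.nd (nat_lit 78) (nat_lit 0) (nat_lit 0) (XT.lf (nat_lit 0) (nat_lit 862961114207) (nat_lit 304) (nat_lit 4664388110142) (nat_lit 380) (nat_lit 7359992908701) (nat_lit 21) (nat_lit 5) (nat_lit 25) (nat_lit 5) (nat_lit 26) (nat_lit 5) (nat_lit 320) (nat_lit 315) (nat_lit 145)) (XT.lf (nat_lit 0) (nat_lit 7500471038839) (nat_lit 380) (nat_lit 5593405022336) (nat_lit 76) (nat_lit 871728796613) (nat_lit 21) (nat_lit 5) (nat_lit 26) (nat_lit 5) (nat_lit 22) (nat_lit 5) (nat_lit 321) (nat_lit 315)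 (nat_lit 144))))) (XT.nd (nat_lit 234) (nat_lit 228) (nat_lit 0) (XT.nd (nat_lit 78) (nat_lit 76) (nat_lit 0) (XT.lf (nat_lit 0) (nat_lit 1734522874761) (nat_lit 152) (nat_lit 8328974863563) (nat_lit 228) (nat_lit 5098018760992) (nat_lit 19) (nat_lit 5) (nat_lit 21) (nat_lit 5) (nat_lit 22) (nat_lit 5) (nat_lit 322) (nat_lit 315) (nat_lit 143)) (XT.nd (nat_lit 78) (nat_lit 76) (nat_lit 0) (XT.lf (nat_lit 0) (nat_lit 10790262407145) (nat_lit 152) (nat_lit 2513098570779) (nat_lit 228) (nat_lit 3189596528870) (nat_lit 19) (nat_lit 5) (nat_lit 21) (nat_lit 5) (nat_lit 22) (nat_lit 5) (nat_lit 323) (nat_lit 315) (nat_lit 142)) (XT.lf (nat_lit 0) (nat_lit 3301265225388) (nat_lit 76) (nat_lit 14037521268547) (nat_lit 152) (nat_lit 638890752887) (nat_lit 18) (nat_lit 5) (nat_lit 19) (nat_lit 5) (nat_lit 20) (nat_lit 4) (nat_lit 324) (nat_lit 315) (nat_lit 141)))) (XT.nd (nat_lit 78) (nat_lit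 152) (nat_lit 0) (XT.lf (nat_lit 0) (nat_lit 2522117482117) (nat_lit 152) (nat_lit 5572539326684) (nat_lit 76) (nat_lit 11511402806670) (nat_lit 17) (nat_lit 5) (nat_lit 19) (nat_lit 5) (nat_lit 18) (nat_lit 5) (nat_lit 325) (nat_lit 315) (nat_lit 140)) (XT.nd (nat_lit 78) (nat_lit 0) (nat_lit 0) (XT.lf (nat_lit 0) (nat_lit 5342079786724) (nat_lit 152) (nat_lit 970991053805) (nat_lit 228) (nat_lit 15127884373725) (nat_lit 15) (nat_lit 5) (nat_lit 17) (nat_lit 5) (nat_lit 18) (nat_lit 5) (nat_lit 326) (nat_lit 315) (nat_lit 139)) (XT.lf (nat_lit 0) (nat_lit 11276845580462) (nat_lit 228) (nat_lit 5300108729739) (nat_lit 76) (nat_lit 6883504085991) (nat_lit 15) (nat_lit 5) (nat_lit 18) (nat_lit 5) (nat_lit 16) (nat_lit 4) (nat_lit 327) (nat_lit 315) (nat_lit 138))))))))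
noncomputable def xc124 : XT := (XT.nd (nat_lit 40560) (nat_lit 304) (nat_lit 0) (XT.nd (nat_lit 39780) (nat_lit 0) (nat_lit 684) (XT.nd (nat_lit 546) (nat_lit 152) (nat_lit 0) (XT.nd (nat_lit 156) (nat_lit 304) (nat_lit 0) (XT.nd (nat_lit 78) (nat_lit 0) (nat_lit 0) (XT.lf (nat_lit 0) (nat_lit 7763385571717) (nat_lit 76) (nat_lit 9589503869919) (nat_lit 152) (nat_lit 8374842177245) (nat_lit 14) (nat_lit 5) (nat_lit 15) (nat_lit 5) (nat_lit 16) (nat_lit 4) (nat_lit 328) (nat_lit 315) (nat_lit 137)) (XT.lf (nat_lit 0) (nat_lit 23382063965342) (nat_lit 76) (nat_lit 1235327054753) (nat_lit 152) (nat_lit 3676147134164) (nat_lit 14) (nat_lit 5) (nat_lit 15) (nat_lit 5) (nat_lit 16) (nat_lit 4) (nat_lit 329) (nat_lit 315) (nat_lit 136))) (XT.nd (nat_lit 234) (nat_lit 152) (nat_lit 0) (XT.lf (nat_lit 0) (nat_lit 2401157417613) (nat_lit 152) (nat_lit 20529100011187) (nat_lit 76) (nat_lit 8179091432680)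 (nat_lit 12) (nat_lit 5) (nat_lit 14) (nat_lit 5) (nat_lit 13) (nat_lit 4) (nat_lit 330) (nat_lit 315) (nat_lit 135)) (XT.nd (nat_lit 78) (nat_lit 76) (nat_lit 0) (XT.lf (nat_lit 0) (nat_lit 28189386825881) (nat_lit 152) (nat_lit 7800562023941) (nat_lit 0) (nat_lit 5848875122262) (nat_lit 11) (nat_lit 5) (nat_lit 13) (nat_lit 4) (nat_lit 11) (nat_lit 4) (nat_lit 333) (nat_lit 315) (nat_lit 132)) (XT.lf (nat_lit 0) (nat_lit 13067456833314) (nat_lit 76) (nat_lit 27801687817461) (nat_lit 76) (nat_lit 5461176113820) (nat_lit 10) (nat_lit 4) (nat_lit 11) (nat_lit 5) (nat_lit 11) (nat_lit 4) (nat_lit 334) (nat_lit 315) (nat_lit 131))))) (XT.nd (nat_lit 156) (nat_lit 0) (nat_lit 0) (XT.nd (nat_lit 78) (nat_lit 76) (nat_lit 0) (XT.lf (nat_lit 0) (nat_lit 4030367407508) (nat_lit 152) (nat_lit 13675221777517) (nat_lit 76) (nat_lit 33701309615494) (nat_lit 9) (nat_lit 5) (nat_lit 11) (nat_lit 5)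 (nat_lit 10) (nat_lit 4) (nat_lit 335) (nat_lit 315) (nat_lit 130)) (XT.lf (nat_lit 0) (nat_lit 9430037875296) (nat_lit 76) (nat_lit 5346961928877) (nat_lit 152) (nat_lit 42370383673028) (nat_lit 8) (nat_lit 5) (nat_lit 9) (nat_lit 5) (nat_lit 10) (nat_lit 4) (nat_lit 336) (nat_lit 315) (nat_lit 129))) (XT.nd (nat_lit 78) (nat_lit 0) (nat_lit 0) (XT.lf (nat_lit 0) (nat_lit 28251608021663) (nat_lit 152) (nat_lit 26504859584117) (nat_lit 0) (nat_lit 8825076105407) (nat_lit 8) (nat_lit 5) (nat_lit 10) (nat_lit 4) (nat_lit 8) (nat_lit 4) (nat_lit 337) (nat_lit 315) (nat_lit 128)) (XT.nd (nat_lit 38922) (nat_lit 0) (nat_lit 1140) (XT.lf (nat_lit 0) (nat_lit 44002024706465) (nat_lit 152) (nat_lit 2365117898402) (nat_lit 0) (nat_lit 24575492790199) (nat_lit 8) (nat_lit 5) (nat_lit 10) (nat_lit 4) (nat_lit 8) (nat_lit 4) (nat_lit 338) (nat_lit 315) (nat_lit 127)) (XT.lf (nat_lit 0) (nat_lit 934349046533)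 (nat_lit 380) (nat_lit 2081819407178) (nat_lit 380) (nat_lit 2081819407178) (nat_lit 23) (nat_lit 3) (nat_lit 28) (nat_lit 3) (nat_lit 28) (nat_lit 5) (nat_lit 316) (nat_lit 316) (nat_lit 148)))))) (XT.nd (nat_lit 390) (nat_lit 304) (nat_lit 0) (XT.nd (nat_lit 156) (nat_lit 152) (nat_lit 0) (XT.nd (nat_lit 78) (nat_lit 0) (nat_lit 76) (XT.lf (nat_lit 76) (nat_lit 713081967380) (nat_lit 0) (nat_lit 1325295686857) (nat_lit 380) (nat_lit 8917867166045) (nat_lit 24) (nat_lit 5) (nat_lit 23) (nat_lit 3) (nat_lit 28) (nat_lit 5) (nat_lit 317) (nat_lit 316) (nat_lit 147)) (XT.lf (nat_lit 0) (nat_lit 2630785093530) (nat_lit 304) (nat_lit 5188291665837) (nat_lit 380) (nat_lit 3951886132601) (nat_lit 24) (nat_lit 5) (nat_lit 28) (nat_lit 5) (nat_lit 29) (nat_lit 5) (nat_lit 318) (nat_lit 316) (nat_lit 146))) (XT.nd (nat_lit 78) (nat_lit 228) (nat_lit 0) (XT.lf (nat_lit 76) (nat_lit 616594375962)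 (nat_lit 0) (nat_lit 2784100449305) (nat_lit 380) (nat_lit 9293897672659) (nat_lit 25) (nat_lit 5) (nat_lit 24) (nat_lit 5) (nat_lit 29) (nat_lit 5) (nat_lit 319) (nat_lit 316) (nat_lit 145)) (XT.nd (nat_lit 78) (nat_lit 304) (nat_lit 0) (XT.lf (nat_lit 0) (nat_lit 4694688864939) (nat_lit 304) (nat_lit 5978170756725) (nat_lit 76) (nat_lit 3022617245888) (nat_lit 25) (nat_lit 5) (nat_lit 29) (nat_lit 5) (nat_lit 26) (nat_lit 5) (nat_lit 320) (nat_lit 316) (nat_lit 144)) (XT.lf (nat_lit 0) (nat_lit 992405282173) (nat_lit 304) (nat_lit 5364046326615) (nat_lit 380) (nat_lit 8463991844099) (nat_lit 21) (nat_lit 5) (nat_lit 25) (nat_lit 5) (nat_lit 26) (nat_lit 5) (nat_lit 321) (nat_lit 316) (nat_lit 143))))) (XT.nd (nat_lit 156) (nat_lit 152) (nat_lit 0) (XT.nd (nat_lit 78) (nat_lit 152) (nat_lit 0) (XT.lf (nat_lit 0) (nat_lit 8625541695351) (nat_lit 380) (nat_lit 6432415774858) (nat_lit 76)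 (nat_lit 1002488116144) (nat_lit 21) (nat_lit 5) (nat_lit 26) (nat_lit 5) (nat_lit 22) (nat_lit 5) (nat_lit 322) (nat_lit 316) (nat_lit 142)) (XT.lf (nat_lit 0) (nat_lit 1994701306766) (nat_lit 152) (nat_lit 9578321092936) (nat_lit 228) (nat_lit 5862721574416) (nat_lit 19) (nat_lit 5) (nat_lit 21) (nat_lit 5) (nat_lit 22) (nat_lit 5) (nat_lit 323) (nat_lit 316) (nat_lit 141))) (XT.nd (nat_lit 78) (nat_lit 152) (nat_lit 0) (XT.lf (nat_lit 0) (nat_lit 12408801768905) (nat_lit 152) (nat_lit 2890063356254) (nat_lit 228) (nat_lit 3668036007570) (nat_lit 19) (nat_lit 5) (nat_lit 21) (nat_lit 5) (nat_lit 22) (nat_lit 5) (nat_lit 324) (nat_lit 316) (nat_lit 140)) (XT.nd (nat_lit 78) (nat_lit 76) (nat_lit 0) (XT.lf (nat_lit 0) (nat_lit 3796455009927) (nat_lit 76) (nat_lit 16143149458609) (nat_lit 152) (nat_lit 734724365232) (nat_lit 18) (nat_lit 5) (nat_lit 19) (nat_lit 5) (nat_lit 20) (nat_lit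 4) (nat_lit 325) (nat_lit 316) (nat_lit 139)) (XT.lf (nat_lit 0) (nat_lit 2900435104900) (nat_lit 152) (nat_lit 6408420225005) (nat_lit 76) (nat_lit 13238113227816) (nat_lit 17) (nat_lit 5) (nat_lit 19) (nat_lit 5) (nat_lit 18) (nat_lit 5) (nat_lit 326) (nat_lit 316) (nat_lit 138))))))) (XT.nd (nat_lit 40404) (nat_lit 760) (nat_lit 0) (XT.nd (nat_lit 40014) (nat_lit 0) (nat_lit 532) (XT.nd (nat_lit 156) (nat_lit 76) (nat_lit 0) (XT.nd (nat_lit 78) (nat_lit 0) (nat_lit 0) (XT.lf (nat_lit 0) (nat_lit 6143391755383) (nat_lit 152) (nat_lit 1116639711658) (nat_lit 228) (nat_lit 17397067029286) (nat_lit 15) (nat_lit 5) (nat_lit 17) (nat_lit 5) (nat_lit 18) (nat_lit 5) (nat_lit 327) (nat_lit 316) (nat_lit 137)) (XT.lf (nat_lit 0) (nat_lit 12968372417915) (nat_lit 228) (nat_lit 6095125038584) (nat_lit 76) (nat_lit 7916029699063) (nat_lit 15) (nat_lit 5) (nat_lit 18) (nat_lit 5) (nat_lit 16) (nat_lit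 4) (nat_lit 328) (nat_lit 316) (nat_lit 136))) (XT.nd (nat_lit 39702) (nat_lit 0) (nat_lit 684) (XT.lf (nat_lit 0) (nat_lit 8927893408062) (nat_lit 76) (nat_lit 11027929450178) (nat_lit 152) (nat_lit 9631068503419) (nat_lit 14) (nat_lit 5) (nat_lit 15) (nat_lit 5) (nat_lit 16) (nat_lit 4) (nat_lit 329) (nat_lit 316) (nat_lit 135)) (XT.nd (nat_lit 78) (nat_lit 0) (nat_lit 0) (XT.lf (nat_lit 0) (nat_lit 1074501404062) (nat_lit 380) (nat_lit 2394092317938) (nat_lit 380) (nat_lit 2394092317938) (nat_lit 23) (nat_lit 3) (nat_lit 28) (nat_lit 3) (nat_lit 28) (nat_lit 5) (nat_lit 317) (nat_lit 317) (nat_lit 146)) (XT.lf (nat_lit 76) (nat_lit 820044263092) (nat_lit 0) (nat_lit 1524090040261) (nat_lit 380) (nat_lit 10255547239821) (nat_lit 24) (nat_lit 5) (nat_lit 23) (nat_lit 3) (nat_lit 28) (nat_lit 5) (nat_lit 318) (nat_lit 317) (nat_lit 145))))) (XT.nd (nat_lit 156) (nat_lit 228) (nat_lit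 0) (XT.nd (nat_lit 78) (nat_lit 0) (nat_lit 0) (XT.lf (nat_lit 0) (nat_lit 3025402858399) (nat_lit 304) (nat_lit 5966535415043) (nat_lit 380) (nat_lit 4544669052193) (nat_lit 24) (nat_lit 5) (nat_lit 28) (nat_lit 5) (nat_lit 29) (nat_lit 5) (nat_lit 319) (nat_lit 317) (nat_lit 144)) (XT.lf (nat_lit 76) (nat_lit 709083532996) (nat_lit 0) (nat_lit 3201715516818) (nat_lit 380) (nat_lit 10687982322686) (nat_lit 25) (nat_lit 5) (nat_lit 24) (nat_lit 5) (nat_lit 29) (nat_lit 5) (nat_lit 320) (nat_lit 317) (nat_lit 143))) (XT.nd (nat_lit 78) (nat_lit 304) (nat_lit 0) (XT.lf (nat_lit 0) (nat_lit 5398892195333) (nat_lit 304) (nat_lit 6874896369572) (nat_lit 76) (nat_lit 3476009832679) (nat_lit 25) (nat_lit 5) (nat_lit 29) (nat_lit 5) (nat_lit 26) (nat_lit 5) (nat_lit 321) (nat_lit 317) (nat_lit 142)) (XT.nd (nat_lit 78) (nat_lit 0) (nat_lit 0) (XT.lf (nat_lit 0) (nat_lit 1141266075130) (nat_lit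 304) (nat_lit 6168653275571) (nat_lit 380) (nat_lit 9733590620029) (nat_lit 21) (nat_lit 5) (nat_lit 25) (nat_lit 5) (nat_lit 26) (nat_lit 5) (nat_lit 322) (nat_lit 317) (nat_lit 141)) (XT.lf (nat_lit 0) (nat_lit 9919372950171) (nat_lit 380) (nat_lit 7397278140460) (nat_lit 76) (nat_lit 1152861333594) (nat_lit 21) (nat_lit 5) (nat_lit 26) (nat_lit 5) (nat_lit 22) (nat_lit 5) (nat_lit 323) (nat_lit 317) (nat_lit 140)))))) (XT.nd (nat_lit 390) (nat_lit 836) (nat_lit 0) (XT.nd (nat_lit 156) (nat_lit 304) (nat_lit 0) (XT.nd (nat_lit 78) (nat_lit 0) (nat_lit 0) (XT.lf (nat_lit 0) (nat_lit 2293906503379) (nat_lit 152) (nat_lit 11015069256753) (nat_lit 228) (nat_lit 6742129810030) (nat_lit 19) (nat_lit 5) (nat_lit 21) (nat_lit 5) (nat_lit 22) (nat_lit 5) (nat_lit 324) (nat_lit 317) (nat_lit 139)) (XT.lf (nat_lit 0) (nat_lit 14270122034761) (nat_lit 152) (nat_lit 3323572859586) (nat_lit 228)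 (nat_lit 4218241408229) (nat_lit 19) (nat_lit 5) (nat_lit 21) (nat_lit 5) (nat_lit 22) (nat_lit 5) (nat_lit 325) (nat_lit 317) (nat_lit 138))) (XT.nd (nat_lit 78) (nat_lit 228) (nat_lit 0) (XT.lf (nat_lit 0) (nat_lit 4365923261969) (nat_lit 76) (nat_lit 18564621877234) (nat_lit 152) (nat_lit 844933019571) (nat_lit 18) (nat_lit 5) (nat_lit 19) (nat_lit 5) (nat_lit 20) (nat_lit 4) (nat_lit 326) (nat_lit 317) (nat_lit 137)) (XT.nd (nat_lit 78) (nat_lit 152) (nat_lit 0) (XT.lf (nat_lit 0) (nat_lit 3335500370988) (nat_lit 152) (nat_lit 7369683258240) (nat_lit 76) (nat_lit 15223830212098) (nat_lit 17) (nat_lit 5) (nat_lit 19) (nat_lit 5) (nat_lit 18) (nat_lit 5) (nat_lit 327) (nat_lit 317) (nat_lit 136)) (XT.lf (nat_lit 0) (nat_lit 7064900519183) (nat_lit 152) (nat_lit 1284135668241) (nat_lit 228) (nat_lit 20006627083302) (nat_lit 15) (nat_lit 5) (nat_lit 17) (nat_lit 5) (nat_lit 18) (nat_lit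 5) (nat_lit 328) (nat_lit 317) (nat_lit 135))))) (XT.nd (nat_lit 39780) (nat_lit 0) (nat_lit 1444) (XT.nd (nat_lit 1482) (nat_lit 836) (nat_lit 0) (XT.lf (nat_lit 0) (nat_lit 14913628280893) (nat_lit 228) (nat_lit 7009393793906) (nat_lit 76) (nat_lit 9103434154053) (nat_lit 15) (nat_lit 5) (nat_lit 18) (nat_lit 5) (nat_lit 16) (nat_lit 4) (nat_lit 329) (nat_lit 317) (nat_lit 134)) (XT.lf (nat_lit 0) (nat_lit 88093412602178) (nat_lit 76) (nat_lit 86850207221055) (nat_lit 76) (nat_lit 64509695517274) (nat_lit 4) (nat_lit 4) (nat_lit 5) (nat_lit 5) (nat_lit 5) (nat_lit 4) (nat_lit 348) (nat_lit 317) (nat_lit 115))) (XT.nd (nat_lit 78) (nat_lit 0) (nat_lit 0) (XT.lf (nat_lit 0) (nat_lit 1235676615087) (nat_lit 380) (nat_lit 2753206165389) (nat_lit 380) (nat_lit 2753206165389) (nat_lit 23) (nat_lit 3) (nat_lit 28) (nat_lit 3) (nat_lit 28) (nat_lit 5) (nat_lit 318) (nat_lit 318) (nat_lit 144))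 (XT.nd (nat_lit 78) (nat_lit 0) (nat_lit 76) (XT.lf (nat_lit 76) (nat_lit 943050903013) (nat_lit 0) (nat_lit 1752703546585) (nat_lit 380) (nat_lit 11793879324939) (nat_lit 24) (nat_lit 5) (nat_lit 23) (nat_lit 3) (nat_lit 28) (nat_lit 5) (nat_lit 319) (nat_lit 318) (nat_lit 143)) (XT.lf (nat_lit 0) (nat_lit 3479213287794) (nat_lit 304) (nat_lit 6861515726792) (nat_lit 380) (nat_lit 5226369409797) (nat_lit 24) (nat_lit 5) (nat_lit 28) (nat_lit 5) (nat_lit 29) (nat_lit 5) (nat_lit 320) (nat_lit 318) (nat_lit 142))))))))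
noncomputable def xc125 : XT := (XT.nd (nat_lit 41028) (nat_lit 0) (nat_lit 76) (XT.nd (nat_lit 2028) (nat_lit 76) (nat_lit 0) (XT.nd (nat_lit 390) (nat_lit 1064) (nat_lit 0) (XT.nd (nat_lit 156) (nat_lit 380) (nat_lit 0) (XT.nd (nat_lit 78) (nat_lit 0) (nat_lit 76) (XT.lf (nat_lit 76) (nat_lit 815446063429) (nat_lit 0) (nat_lit 3681972844429) (nat_lit 380) (nat_lit 12291179670430) (nat_lit 25) (nat_lit 5) (nat_lit 24) (nat_lit 5) (nat_lit 29) (nat_lit 5) (nat_lit 321) (nat_lit 318) (nat_lit 141)) (XT.lf (nat_lit 0) (nat_lit 6208726025127) (nat_lit 304) (nat_lit 7906130824508) (nat_lit 76) (nat_lit 3997411307511) (nat_lit 25) (nat_lit 5) (nat_lit 29) (nat_lit 5) (nat_lit 26) (nat_lit 5) (nat_lit 322) (nat_lit 318) (nat_lit 140))) (XT.nd (nat_lit 78) (nat_lit 152) (nat_lit 0) (XT.lf (nat_lit 0) (nat_lit 1312455986877) (nat_lit 304) (nat_lit 7093951266878) (nat_lit 380) (nat_lit 11193629212515)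 (nat_lit 21) (nat_lit 5) (nat_lit 25) (nat_lit 5) (nat_lit 26) (nat_lit 5) (nat_lit 323) (nat_lit 318) (nat_lit 139)) (XT.nd (nat_lit 78) (nat_lit 152) (nat_lit 0) (XT.lf (nat_lit 0) (nat_lit 11407278893089) (nat_lit 380) (nat_lit 8506869861056) (nat_lit 76) (nat_lit 1325790533656) (nat_lit 21) (nat_lit 5) (nat_lit 26) (nat_lit 5) (nat_lit 22) (nat_lit 5) (nat_lit 324) (nat_lit 318) (nat_lit 138)) (XT.lf (nat_lit 0) (nat_lit 2637992479338) (nat_lit 152) (nat_lit 12667329645174) (nat_lit 228) (nat_lit 7753449281120) (nat_lit 19) (nat_lit 5) (nat_lit 21) (nat_lit 5) (nat_lit 22) (nat_lit 5) (nat_lit 325) (nat_lit 318) (nat_lit 137))))) (XT.nd (nat_lit 156) (nat_lit 988) (nat_lit 0) (XT.nd (nat_lit 78) (nat_lit 76) (nat_lit 0) (XT.lf (nat_lit 0) (nat_lit 16410640340368) (nat_lit 152) (nat_lit 3822108788443) (nat_lit 228) (nat_lit 4850977619103) (nat_lit 19) (nat_lit 5) (nat_lit 21) (nat_lit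 5) (nat_lit 22) (nat_lit 5) (nat_lit 326) (nat_lit 318) (nat_lit 136)) (XT.lf (nat_lit 0) (nat_lit 5020811751682) (nat_lit 76) (nat_lit 21349315158694) (nat_lit 152) (nat_lit 971672972170) (nat_lit 18) (nat_lit 5) (nat_lit 19) (nat_lit 5) (nat_lit 20) (nat_lit 4) (nat_lit 327) (nat_lit 318) (nat_lit 135))) (XT.nd (nat_lit 78) (nat_lit 912) (nat_lit 0) (XT.lf (nat_lit 0) (nat_lit 3835825426903) (nat_lit 152) (nat_lit 8475135746586) (nat_lit 76) (nat_lit 17507404743995) (nat_lit 17) (nat_lit 5) (nat_lit 19) (nat_lit 5) (nat_lit 18) (nat_lit 5) (nat_lit 328) (nat_lit 318) (nat_lit 134)) (XT.nd (nat_lit 1326) (nat_lit 760) (nat_lit 0) (XT.lf (nat_lit 0) (nat_lit 8124635597433) (nat_lit 152) (nat_lit 1476756018353) (nat_lit 228) (nat_lit 23007621145513) (nat_lit 15) (nat_lit 5) (nat_lit 17) (nat_lit 5) (nat_lit 18) (nat_lit 5) (nat_lit 329) (nat_lit 318) (nat_lit 133)) (XT.lf (nat_lit 0) (nat_lit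 73479021593604) (nat_lit 152) (nat_lit 69971681682140) (nat_lit 0) (nat_lit 47787433134256) (nat_lit 5) (nat_lit 5) (nat_lit 7) (nat_lit 4) (nat_lit 5) (nat_lit 4) (nat_lit 346) (nat_lit 318) (nat_lit 116)))))) (XT.nd (nat_lit 38610) (nat_lit 0) (nat_lit 1292) (XT.nd (nat_lit 156) (nat_lit 0) (nat_lit 0) (XT.nd (nat_lit 78) (nat_lit 76) (nat_lit 0) (XT.lf (nat_lit 0) (nat_lit 109047406559345) (nat_lit 152) (nat_lit 23244534470033) (nat_lit 0) (nat_lit 83355818099995) (nat_lit 5) (nat_lit 5) (nat_lit 7) (nat_lit 4) (nat_lit 5) (nat_lit 4) (nat_lit 347) (nat_lit 318) (nat_lit 115)) (XT.lf (nat_lit 0) (nat_lit 33471554022579) (nat_lit 76) (nat_lit 117865480921176) (nat_lit 76) (nat_lit 92173892461825) (nat_lit 4) (nat_lit 4) (nat_lit 5) (nat_lit 5) (nat_lit 5) (nat_lit 4) (nat_lit 348) (nat_lit 318) (nat_lit 114))) (XT.nd (nat_lit 38298) (nat_lit 0) (nat_lit 1444) (XT.lf (nat_lit 0) (nat_lit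 101307424492584) (nat_lit 76) (nat_lit 99877738304174) (nat_lit 76) (nat_lit 74186149844821) (nat_lit 4) (nat_lit 4) (nat_lit 5) (nat_lit 5) (nat_lit 5) (nat_lit 4) (nat_lit 349) (nat_lit 318) (nat_lit 113)) (XT.nd (nat_lit 78) (nat_lit 0) (nat_lit 0) (XT.lf (nat_lit 0) (nat_lit 1421028107665) (nat_lit 380) (nat_lit 3166187090016) (nat_lit 380) (nat_lit 3166187090016) (nat_lit 23) (nat_lit 3) (nat_lit 28) (nat_lit 3) (nat_lit 28) (nat_lit 5) (nat_lit 319) (nat_lit 319) (nat_lit 142)) (XT.lf (nat_lit 76) (nat_lit 1084508538811) (nat_lit 0) (nat_lit 2015609078788) (nat_lit 380) (nat_lit 13562961223033) (nat_lit 24) (nat_lit 5) (nat_lit 23) (nat_lit 3) (nat_lit 28) (nat_lit 5) (nat_lit 320) (nat_lit 319) (nat_lit 141))))) (XT.nd (nat_lit 156) (nat_lit 228) (nat_lit 0) (XT.nd (nat_lit 78) (nat_lit 0) (nat_lit 0) (XT.lf (nat_lit 0) (nat_lit 4001095281443) (nat_lit 304) (nat_lit 7890743085428)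 (nat_lit 380) (nat_lit 6010324821097) (nat_lit 24) (nat_lit 5) (nat_lit 28) (nat_lit 5) (nat_lit 29) (nat_lit 5) (nat_lit 321) (nat_lit 319) (nat_lit 140)) (XT.lf (nat_lit 76) (nat_lit 937762973309) (nat_lit 0) (nat_lit 4234268771160) (nat_lit 380) (nat_lit 14134856620495) (nat_lit 25) (nat_lit 5) (nat_lit 24) (nat_lit 5) (nat_lit 29) (nat_lit 5) (nat_lit 322) (nat_lit 319) (nat_lit 139))) (XT.nd (nat_lit 78) (nat_lit 304) (nat_lit 0) (XT.lf (nat_lit 0) (nat_lit 7140034929270) (nat_lit 304) (nat_lit 9092050447807) (nat_lit 76) (nat_lit 4597023003585) (nat_lit 25) (nat_lit 5) (nat_lit 29) (nat_lit 5) (nat_lit 26) (nat_lit 5) (nat_lit 323) (nat_lit 319) (nat_lit 138)) (XT.nd (nat_lit 78) (nat_lit 0) (nat_lit 0) (XT.lf (nat_lit 0) (nat_lit 1509324385269) (nat_lit 304) (nat_lit 8158043956889) (nat_lit 380) (nat_lit 12872673594001) (nat_lit 21) (nat_lit 5) (nat_lit 25) (nat_lit 5) (nat_lit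 26) (nat_lit 5) (nat_lit 324) (nat_lit 319) (nat_lit 137)) (XT.lf (nat_lit 0) (nat_lit 13118370727349) (nat_lit 380) (nat_lit 9782900339856) (nat_lit 76) (nat_lit 1524659113721) (nat_lit 21) (nat_lit 5) (nat_lit 26) (nat_lit 5) (nat_lit 22) (nat_lit 5) (nat_lit 325) (nat_lit 319) (nat_lit 136))))))) (XT.nd (nat_lit 40326) (nat_lit 0) (nat_lit 152) (XT.nd (nat_lit 1560) (nat_lit 0) (nat_lit 0) (XT.nd (nat_lit 156) (nat_lit 1064) (nat_lit 0) (XT.nd (nat_lit 78) (nat_lit 0) (nat_lit 0) (XT.lf (nat_lit 0) (nat_lit 3033691351581) (nat_lit 152) (nat_lit 14567429091880) (nat_lit 228) (nat_lit 8916466672975) (nat_lit 19) (nat_lit 5) (nat_lit 21) (nat_lit 5) (nat_lit 22) (nat_lit 5) (nat_lit 326) (nat_lit 319) (nat_lit 135)) (XT.lf (nat_lit 0) (nat_lit 18872236391721) (nat_lit 152) (nat_lit 4395425106649) (nat_lit 228) (nat_lit 5578624261696) (nat_lit 19) (nat_lit 5) (nat_lit 21) (nat_lit 5) (nat_lit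 22) (nat_lit 5) (nat_lit 327) (nat_lit 319) (nat_lit 134))) (XT.nd (nat_lit 78) (nat_lit 988) (nat_lit 0) (XT.lf (nat_lit 0) (nat_lit 5773933514750) (nat_lit 76) (nat_lit 24551712432403) (nat_lit 152) (nat_lit 1117423917742) (nat_lit 18) (nat_lit 5) (nat_lit 19) (nat_lit 5) (nat_lit 20) (nat_lit 4) (nat_lit 328) (nat_lit 319) (nat_lit 133)) (XT.nd (nat_lit 1248) (nat_lit 912) (nat_lit 0) (XT.lf (nat_lit 0) (nat_lit 4411199241140) (nat_lit 152) (nat_lit 9746406108280) (nat_lit 76) (nat_lit 20133515455657) (nat_lit 17) (nat_lit 5) (nat_lit 19) (nat_lit 5) (nat_lit 18) (nat_lit 5) (nat_lit 329) (nat_lit 319) (nat_lit 132)) (XT.lf (nat_lit 0) (nat_lit 5858267315825) (nat_lit 76) (nat_lit 12669822476414) (nat_lit 152) (nat_lit 155681690923929) (nat_lit 5) (nat_lit 5) (nat_lit 6) (nat_lit 5) (nat_lit 7) (nat_lit 4) (nat_lit 345) (nat_lit 319) (nat_lit 116))))) (XT.nd (nat_lit 156) (nat_lit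 0) (nat_lit 0) (XT.nd (nat_lit 78) (nat_lit 0) (nat_lit 0) (XT.lf (nat_lit 0) (nat_lit 48932489866947) (nat_lit 152) (nat_lit 127194581146482) (nat_lit 0) (nat_lit 19387163138693) (nat_lit 5) (nat_lit 5) (nat_lit 7) (nat_lit 4) (nat_lit 5) (nat_lit 4) (nat_lit 346) (nat_lit 319) (nat_lit 115)) (XT.lf (nat_lit 0) (nat_lit 84500874832686) (nat_lit 152) (nat_lit 80467433934378) (nat_lit 0) (nat_lit 54955548104430) (nat_lit 5) (nat_lit 5) (nat_lit 7) (nat_lit 4) (nat_lit 5) (nat_lit 4) (nat_lit 347) (nat_lit 319) (nat_lit 114))) (XT.nd (nat_lit 38454) (nat_lit 0) (nat_lit 1368) (XT.lf (nat_lit 0) (nat_lit 125404517543282) (nat_lit 152) (nat_lit 26731214640466) (nat_lit 0) (nat_lit 95859190815025) (nat_lit 5) (nat_lit 5) (nat_lit 7) (nat_lit 4) (nat_lit 5) (nat_lit 4) (nat_lit 348) (nat_lit 319) (nat_lit 113)) (XT.nd (nat_lit 78) (nat_lit 0) (nat_lit 0) (XT.lf (nat_lit 0) (nat_lit 1634182324052)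 (nat_lit 380) (nat_lit 3641115153382) (nat_lit 380) (nat_lit 3641115153382) (nat_lit 23) (nat_lit 3) (nat_lit 28) (nat_lit 3) (nat_lit 28) (nat_lit 5) (nat_lit 320) (nat_lit 320) (nat_lit 140)) (XT.lf (nat_lit 76) (nat_lit 1247184819895) (nat_lit 0) (nat_lit 2317950440768) (nat_lit 380) (nat_lit 15597405405999) (nat_lit 24) (nat_lit 5) (nat_lit 23) (nat_lit 3) (nat_lit 28) (nat_lit 5) (nat_lit 321) (nat_lit 320) (nat_lit 139)))))) (XT.nd (nat_lit 390) (nat_lit 1064) (nat_lit 0) (XT.nd (nat_lit 156) (nat_lit 228) (nat_lit 0) (XT.nd (nat_lit 78) (nat_lit 0) (nat_lit 0) (XT.lf (nat_lit 0) (nat_lit 4601259574023) (nat_lit 304) (nat_lit 9074354547953) (nat_lit 380) (nat_lit 6911873544133) (nat_lit 24) (nat_lit 5) (nat_lit 28) (nat_lit 5) (nat_lit 29) (nat_lit 5) (nat_lit 322) (nat_lit 320) (nat_lit 138)) (XT.lf (nat_lit 76) (nat_lit 1078427419582) (nat_lit 0) (nat_lit 4869409086884) (nat_lit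 380) (nat_lit 16255085113193) (nat_lit 25) (nat_lit 5) (nat_lit 24) (nat_lit 5) (nat_lit 29) (nat_lit 5) (nat_lit 323) (nat_lit 320) (nat_lit 137))) (XT.nd (nat_lit 78) (nat_lit 304) (nat_lit 0) (XT.lf (nat_lit 0) (nat_lit 8211040168943) (nat_lit 304) (nat_lit 10455858014692) (nat_lit 76) (nat_lit 5286576454083) (nat_lit 25) (nat_lit 5) (nat_lit 29) (nat_lit 5) (nat_lit 26) (nat_lit 5) (nat_lit 324) (nat_lit 320) (nat_lit 136)) (XT.nd (nat_lit 78) (nat_lit 0) (nat_lit 0) (XT.lf (nat_lit 0) (nat_lit 1735723043333) (nat_lit 304) (nat_lit 9381750550407) (nat_lit 380) (nat_lit 14803574632804) (nat_lit 21) (nat_lit 5) (nat_lit 25) (nat_lit 5) (nat_lit 26) (nat_lit 5) (nat_lit 325) (nat_lit 320) (nat_lit 135)) (XT.lf (nat_lit 0) (nat_lit 15086126336675) (nat_lit 380) (nat_lit 11250335390564) (nat_lit 76) (nat_lit 1753357980792) (nat_lit 21) (nat_lit 5) (nat_lit 26) (nat_lit 5) (nat_lit 22)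 (nat_lit 5) (nat_lit 326) (nat_lit 320) (nat_lit 134))))) (XT.nd (nat_lit 234) (nat_lit 836) (nat_lit 0) (XT.nd (nat_lit 78) (nat_lit 76) (nat_lit 0) (XT.lf (nat_lit 0) (nat_lit 3488745054577) (nat_lit 152) (nat_lit 16752543455608) (nat_lit 228) (nat_lit 10253936673684) (nat_lit 19) (nat_lit 5) (nat_lit 21) (nat_lit 5) (nat_lit 22) (nat_lit 5) (nat_lit 327) (nat_lit 320) (nat_lit 133)) (XT.nd (nat_lit 78) (nat_lit 76) (nat_lit 0) (XT.lf (nat_lit 0) (nat_lit 21703071850704) (nat_lit 152) (nat_lit 5054738872600) (nat_lit 228) (nat_lit 6415417900744) (nat_lit 19) (nat_lit 5) (nat_lit 21) (nat_lit 5) (nat_lit 22) (nat_lit 5) (nat_lit 328) (nat_lit 320) (nat_lit 132)) (XT.lf (nat_lit 0) (nat_lit 6640023542201) (nat_lit 76) (nat_lit 28234469297191) (nat_lit 152) (nat_lit 1285037505211) (nat_lit 18) (nat_lit 5) (nat_lit 19) (nat_lit 5) (nat_lit 20) (nat_lit 4) (nat_lit 329) (nat_lit 320) (nat_lit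 131)))) (XT.nd (nat_lit 1092) (nat_lit 760) (nat_lit 0) (XT.lf (nat_lit 0) (nat_lit 5072879127464) (nat_lit 152) (nat_lit 11208367024299) (nat_lit 76) (nat_lit 23153542774053) (nat_lit 17) (nat_lit 5) (nat_lit 19) (nat_lit 5) (nat_lit 18) (nat_lit 5) (nat_lit 330) (nat_lit 320) (nat_lit 130)) (XT.nd (nat_lit 78) (nat_lit 0) (nat_lit 0) (XT.lf (nat_lit 0) (nat_lit 56071461769640) (nat_lit 76) (nat_lit 71185797423863) (nat_lit 76) (nat_lit 32112102825746) (nat_lit 7) (nat_lit 4) (nat_lit 8) (nat_lit 5) (nat_lit 8) (nat_lit 4) (nat_lit 344) (nat_lit 320) (nat_lit 116)) (XT.lf (nat_lit 0) (nat_lit 126558937040258) (nat_lit 76) (nat_lit 45513479696398) (nat_lit 76) (nat_lit 6439785098280) (nat_lit 7) (nat_lit 4) (nat_lit 8) (nat_lit 5) (nat_lit 8) (nat_lit 4) (nat_lit 345) (nat_lit 320) (nat_lit 115))))))))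
noncomputable def xc126 : XT := (XT.nd (nat_lit 79638) (nat_lit 0) (nat_lit 152) (XT.nd (nat_lit 39234) (nat_lit 0) (nat_lit 0) (XT.nd (nat_lit 38844) (nat_lit 0) (nat_lit 1216) (XT.nd (nat_lit 156) (nat_lit 0) (nat_lit 0) (XT.nd (nat_lit 78) (nat_lit 0) (nat_lit 0) (XT.lf (nat_lit 0) (nat_lit 6737007413278) (nat_lit 76) (nat_lit 14570295847837) (nat_lit 152) (nat_lit 179033944562473) (nat_lit 5) (nat_lit 5) (nat_lit 6) (nat_lit 5) (nat_lit 7) (nat_lit 4) (nat_lit 346) (nat_lit 320) (nat_lit 114)) (XT.lf (nat_lit 0) (nat_lit 56272363347025) (nat_lit 152) (nat_lit 146273768318381) (nat_lit 0) (nat_lit 22295237609528) (nat_lit 5) (nat_lit 5) (nat_lit 7) (nat_lit 4) (nat_lit 5) (nat_lit 4) (nat_lit 347) (nat_lit 320) (nat_lit 113))) (XT.nd (nat_lit 38532) (nat_lit 0) (nat_lit 1368) (XT.lf (nat_lit 0) (nat_lit 97176006057620) (nat_lit 152) (nat_lit 92537549024473) (nat_lit 0) (nat_lit 63198880320122)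 (nat_lit 5) (nat_lit 5) (nat_lit 7) (nat_lit 4) (nat_lit 5) (nat_lit 4) (nat_lit 348) (nat_lit 320) (nat_lit 112)) (XT.nd (nat_lit 78) (nat_lit 0) (nat_lit 0) (XT.lf (nat_lit 0) (nat_lit 1879309672839) (nat_lit 380) (nat_lit 4187282426285) (nat_lit 380) (nat_lit 4187282426285) (nat_lit 23) (nat_lit 3) (nat_lit 28) (nat_lit 3) (nat_lit 28) (nat_lit 5) (nat_lit 321) (nat_lit 321) (nat_lit 138)) (XT.lf (nat_lit 76) (nat_lit 1434262543077) (nat_lit 0) (nat_lit 2665643007006) (nat_lit 380) (nat_lit 17937016216529) (nat_lit 24) (nat_lit 5) (nat_lit 23) (nat_lit 3) (nat_lit 28) (nat_lit 5) (nat_lit 322) (nat_lit 321) (nat_lit 137))))) (XT.nd (nat_lit 156) (nat_lit 228) (nat_lit 0) (XT.nd (nat_lit 78) (nat_lit 0) (nat_lit 0) (XT.lf (nat_lit 0) (nat_lit 5291448510400) (nat_lit 304) (nat_lit 10435507729927) (nat_lit 380) (nat_lit 7948654575655) (nat_lit 24) (nat_lit 5) (nat_lit 28) (nat_lit 5)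 (nat_lit 29) (nat_lit 5) (nat_lit 323) (nat_lit 321) (nat_lit 136)) (XT.lf (nat_lit 76) (nat_lit 1240191532729) (nat_lit 0) (nat_lit 5599820449955) (nat_lit 380) (nat_lit 18693347879887) (nat_lit 25) (nat_lit 5) (nat_lit 24) (nat_lit 5) (nat_lit 29) (nat_lit 5) (nat_lit 324) (nat_lit 321) (nat_lit 135))) (XT.nd (nat_lit 78) (nat_lit 304) (nat_lit 0) (XT.lf (nat_lit 0) (nat_lit 9442696194499) (nat_lit 304) (nat_lit 12024236716679) (nat_lit 76) (nat_lit 6079562922165) (nat_lit 25) (nat_lit 5) (nat_lit 29) (nat_lit 5) (nat_lit 26) (nat_lit 5) (nat_lit 325) (nat_lit 321) (nat_lit 134)) (XT.nd (nat_lit 78) (nat_lit 0) (nat_lit 0) (XT.lf (nat_lit 0) (nat_lit 1996081500039) (nat_lit 304) (nat_lit 10789013132956) (nat_lit 380) (nat_lit 17024110827501) (nat_lit 21) (nat_lit 5) (nat_lit 25) (nat_lit 5) (nat_lit 26) (nat_lit 5) (nat_lit 326) (nat_lit 321) (nat_lit 133)) (XT.lf (nat_lit 0) (nat_lit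 17349045287346) (nat_lit 380) (nat_lit 12937885698943) (nat_lit 76) (nat_lit 2016361677920) (nat_lit 21) (nat_lit 5) (nat_lit 26) (nat_lit 5) (nat_lit 22) (nat_lit 5) (nat_lit 327) (nat_lit 321) (nat_lit 132)))))) (XT.nd (nat_lit 1404) (nat_lit 152) (nat_lit 0) (XT.nd (nat_lit 156) (nat_lit 912) (nat_lit 0) (XT.nd (nat_lit 78) (nat_lit 0) (nat_lit 0) (XT.lf (nat_lit 0) (nat_lit 4012056812959) (nat_lit 152) (nat_lit 19265424973910) (nat_lit 228) (nat_lit 11792027174558) (nat_lit 19) (nat_lit 5) (nat_lit 21) (nat_lit 5) (nat_lit 22) (nat_lit 5) (nat_lit 328) (nat_lit 321) (nat_lit 131)) (XT.lf (nat_lit 0) (nat_lit 24958532628479) (nat_lit 152) (nat_lit 5812949703455) (nat_lit 228) (nat_lit 7377730585700) (nat_lit 19) (nat_lit 5) (nat_lit 21) (nat_lit 5) (nat_lit 22) (nat_lit 5) (nat_lit 329) (nat_lit 321) (nat_lit 130))) (XT.nd (nat_lit 1092) (nat_lit 836) (nat_lit 0) (XT.lf (nat_lit 0)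 (nat_lit 7636027073712) (nat_lit 76) (nat_lit 32469639691715) (nat_lit 152) (nat_lit 1477793130847) (nat_lit 18) (nat_lit 5) (nat_lit 19) (nat_lit 5) (nat_lit 20) (nat_lit 4) (nat_lit 330) (nat_lit 321) (nat_lit 129)) (XT.nd (nat_lit 78) (nat_lit 76) (nat_lit 0) (XT.lf (nat_lit 0) (nat_lit 101779356957381) (nat_lit 152) (nat_lit 5470661415326) (nat_lit 0) (nat_lit 56844608169543) (nat_lit 8) (nat_lit 5) (nat_lit 10) (nat_lit 4) (nat_lit 8) (nat_lit 4) (nat_lit 344) (nat_lit 321) (nat_lit 115)) (XT.lf (nat_lit 0) (nat_lit 64482181035153) (nat_lit 76) (nat_lit 81863667037409) (nat_lit 76) (nat_lit 36928918249569) (nat_lit 7) (nat_lit 4) (nat_lit 8) (nat_lit 5) (nat_lit 8) (nat_lit 4) (nat_lit 345) (nat_lit 321) (nat_lit 114))))) (XT.nd (nat_lit 38766) (nat_lit 0) (nat_lit 1368) (XT.nd (nat_lit 78) (nat_lit 152) (nat_lit 0) (XT.lf (nat_lit 0) (nat_lit 145542777596356) (nat_lit 76) (nat_lit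 52340501650829) (nat_lit 76) (nat_lit 7405752862987) (nat_lit 7) (nat_lit 4) (nat_lit 8) (nat_lit 5) (nat_lit 8) (nat_lit 4) (nat_lit 346) (nat_lit 321) (nat_lit 113)) (XT.lf (nat_lit 0) (nat_lit 7747558525329) (nat_lit 76) (nat_lit 16755840224983) (nat_lit 152) (nat_lit 205889036246810) (nat_lit 5) (nat_lit 5) (nat_lit 6) (nat_lit 5) (nat_lit 7) (nat_lit 4) (nat_lit 347) (nat_lit 321) (nat_lit 112))) (XT.nd (nat_lit 78) (nat_lit 0) (nat_lit 0) (XT.lf (nat_lit 0) (nat_lit 2161206123901) (nat_lit 380) (nat_lit 4815374790150) (nat_lit 380) (nat_lit 4815374790150) (nat_lit 23) (nat_lit 3) (nat_lit 28) (nat_lit 3) (nat_lit 28) (nat_lit 5) (nat_lit 322) (nat_lit 322) (nat_lit 136)) (XT.nd (nat_lit 78) (nat_lit 0) (nat_lit 76) (XT.lf (nat_lit 76) (nat_lit 1649401924688) (nat_lit 0) (nat_lit 3065489458150) (nat_lit 380) (nat_lit 20627568648729) (nat_lit 24) (nat_lit 5) (nat_lit 23) (nat_lit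 3) (nat_lit 28) (nat_lit 5) (nat_lit 323) (nat_lit 322) (nat_lit 135)) (XT.lf (nat_lit 0) (nat_lit 6085165787168) (nat_lit 304) (nat_lit 12000833889250) (nat_lit 380) (nat_lit 9140952761930) (nat_lit 24) (nat_lit 5) (nat_lit 28) (nat_lit 5) (nat_lit 29) (nat_lit 5) (nat_lit 324) (nat_lit 322) (nat_lit 134))))))) (XT.nd (nat_lit 40482) (nat_lit 0) (nat_lit 76) (XT.nd (nat_lit 390) (nat_lit 912) (nat_lit 0) (XT.nd (nat_lit 156) (nat_lit 380) (nat_lit 0) (XT.nd (nat_lit 78) (nat_lit 0) (nat_lit 76) (XT.lf (nat_lit 76) (nat_lit 1426220262796) (nat_lit 0) (nat_lit 6439793517477) (nat_lit 380) (nat_lit 21497350061654) (nat_lit 25) (nat_lit 5) (nat_lit 24) (nat_lit 5) (nat_lit 29) (nat_lit 5) (nat_lit 325) (nat_lit 322) (nat_lit 133)) (XT.lf (nat_lit 0) (nat_lit 10859100623835) (nat_lit 304) (nat_lit 13827872224018) (nat_lit 76) (nat_lit 6991497360467) (nat_lit 25) (nat_lit 5) (nat_lit 29) (nat_lit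 5) (nat_lit 26) (nat_lit 5) (nat_lit 326) (nat_lit 322) (nat_lit 132))) (XT.nd (nat_lit 78) (nat_lit 152) (nat_lit 0) (XT.lf (nat_lit 0) (nat_lit 2295493725200) (nat_lit 304) (nat_lit 12407365102890) (nat_lit 380) (nat_lit 19577727451457) (nat_lit 21) (nat_lit 5) (nat_lit 25) (nat_lit 5) (nat_lit 26) (nat_lit 5) (nat_lit 327) (nat_lit 322) (nat_lit 131)) (XT.nd (nat_lit 78) (nat_lit 152) (nat_lit 0) (XT.lf (nat_lit 0) (nat_lit 19951402080576) (nat_lit 380) (nat_lit 14878568553630) (nat_lit 76) (nat_lit 2318815929615) (nat_lit 21) (nat_lit 5) (nat_lit 26) (nat_lit 5) (nat_lit 22) (nat_lit 5) (nat_lit 328) (nat_lit 322) (nat_lit 130)) (XT.lf (nat_lit 0) (nat_lit 4613865335051) (nat_lit 152) (nat_lit 22155238719966) (nat_lit 228) (nat_lit 13560831250606) (nat_lit 19) (nat_lit 5) (nat_lit 21) (nat_lit 5) (nat_lit 22) (nat_lit 5) (nat_lit 329) (nat_lit 322) (nat_lit 129))))) (XT.nd (nat_lit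 1092) (nat_lit 76) (nat_lit 0) (XT.nd (nat_lit 1014) (nat_lit 836) (nat_lit 0) (XT.lf (nat_lit 0) (nat_lit 28702312522880) (nat_lit 152) (nat_lit 6684892158947) (nat_lit 228) (nat_lit 8484390173438) (nat_lit 19) (nat_lit 5) (nat_lit 21) (nat_lit 5) (nat_lit 22) (nat_lit 5) (nat_lit 330) (nat_lit 322) (nat_lit 128)) (XT.lf (nat_lit 0) (nat_lit 25084088224147) (nat_lit 76) (nat_lit 14223025029836) (nat_lit 152) (nat_lit 112706062911965) (nat_lit 8) (nat_lit 5) (nat_lit 9) (nat_lit 5) (nat_lit 10) (nat_lit 4) (nat_lit 343) (nat_lit 322) (nat_lit 115))) (XT.nd (nat_lit 78) (nat_lit 76) (nat_lit 0) (XT.lf (nat_lit 0) (nat_lit 75149838993915) (nat_lit 152) (nat_lit 70503453420677) (nat_lit 0) (nat_lit 23474877887897) (nat_lit 8) (nat_lit 5) (nat_lit 10) (nat_lit 4) (nat_lit 8) (nat_lit 4) (nat_lit 344) (nat_lit 322) (nat_lit 114)) (XT.nd (nat_lit 78) (nat_lit 76) (nat_lit 0) (XT.lf (nat_lit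 0) (nat_lit 117046260501015) (nat_lit 152) (nat_lit 6291260627573) (nat_lit 0) (nat_lit 65371299394995) (nat_lit 8) (nat_lit 5) (nat_lit 10) (nat_lit 4) (nat_lit 8) (nat_lit 4) (nat_lit 345) (nat_lit 322) (nat_lit 113)) (XT.lf (nat_lit 0) (nat_lit 74154508190477) (nat_lit 76) (nat_lit 94143217092996) (nat_lit 76) (nat_lit 42468255986975) (nat_lit 7) (nat_lit 4) (nat_lit 8) (nat_lit 5) (nat_lit 8) (nat_lit 4) (nat_lit 346) (nat_lit 322) (nat_lit 112)))))) (XT.nd (nat_lit 390) (nat_lit 1140) (nat_lit 0) (XT.nd (nat_lit 156) (nat_lit 0) (nat_lit 76) (XT.nd (nat_lit 78) (nat_lit 0) (nat_lit 0) (XT.lf (nat_lit 0) (nat_lit 2485387042589) (nat_lit 380) (nat_lit 5537681008613) (nat_lit 380) (nat_lit 5537681008613) (nat_lit 23) (nat_lit 3) (nat_lit 28) (nat_lit 3) (nat_lit 28) (nat_lit 5) (nat_lit 323) (nat_lit 323) (nat_lit 134)) (XT.lf (nat_lit 76) (nat_lit 1896812213504) (nat_lit 0) (nat_lit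 3525312876943) (nat_lit 380) (nat_lit 23721703945827) (nat_lit 24) (nat_lit 5) (nat_lit 23) (nat_lit 3) (nat_lit 28) (nat_lit 5) (nat_lit 324) (nat_lit 323) (nat_lit 133))) (XT.nd (nat_lit 78) (nat_lit 0) (nat_lit 0) (XT.lf (nat_lit 0) (nat_lit 6997940655400) (nat_lit 304) (nat_lit 13800958972512) (nat_lit 380) (nat_lit 10512095676164) (nat_lit 24) (nat_lit 5) (nat_lit 28) (nat_lit 5) (nat_lit 29) (nat_lit 5) (nat_lit 325) (nat_lit 323) (nat_lit 132)) (XT.nd (nat_lit 78) (nat_lit 0) (nat_lit 76) (XT.lf (nat_lit 76) (nat_lit 1640153302335) (nat_lit 0) (nat_lit 7405762545121) (nat_lit 380) (nat_lit 24721952570739) (nat_lit 25) (nat_lit 5) (nat_lit 24) (nat_lit 5) (nat_lit 29) (nat_lit 5) (nat_lit 326) (nat_lit 323) (nat_lit 131)) (XT.lf (nat_lit 0) (nat_lit 12487965717533) (nat_lit 304) (nat_lit 15902053057497) (nat_lit 76) (nat_lit 8040221964520) (nat_lit 25) (nat_lit 5) (nat_lit 29) (nat_lit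 5) (nat_lit 26) (nat_lit 5) (nat_lit 327) (nat_lit 323) (nat_lit 130))))) (XT.nd (nat_lit 156) (nat_lit 988) (nat_lit 0) (XT.nd (nat_lit 78) (nat_lit 0) (nat_lit 0) (XT.lf (nat_lit 0) (nat_lit 2639817784099) (nat_lit 304) (nat_lit 14268469868317) (nat_lit 380) (nat_lit 22514386569047) (nat_lit 21) (nat_lit 5) (nat_lit 25) (nat_lit 5) (nat_lit 26) (nat_lit 5) (nat_lit 328) (nat_lit 323) (nat_lit 129)) (XT.lf (nat_lit 0) (nat_lit 22944112392759) (nat_lit 380) (nat_lit 17110353836557) (nat_lit 76) (nat_lit 2666638319063) (nat_lit 21) (nat_lit 5) (nat_lit 26) (nat_lit 5) (nat_lit 22) (nat_lit 5) (nat_lit 329) (nat_lit 323) (nat_lit 128))) (XT.nd (nat_lit 1092) (nat_lit 836) (nat_lit 0) (XT.lf (nat_lit 0) (nat_lit 5305945135421) (nat_lit 152) (nat_lit 25478524527938) (nat_lit 228) (nat_lit 15594955938095) (nat_lit 19) (nat_lit 5) (nat_lit 21) (nat_lit 5) (nat_lit 22) (nat_lit 5) (nat_lit 330)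 (nat_lit 323) (nat_lit 127)) (XT.nd (nat_lit 39078) (nat_lit 0) (nat_lit 1140) (XT.lf (nat_lit 0) (nat_lit 28846701457821) (nat_lit 76) (nat_lit 16356478784287) (nat_lit 152) (nat_lit 129611972348729) (nat_lit 8) (nat_lit 5) (nat_lit 9) (nat_lit 5) (nat_lit 10) (nat_lit 4) (nat_lit 344) (nat_lit 323) (nat_lit 113)) (XT.lf (nat_lit 0) (nat_lit 2858195099055) (nat_lit 380) (nat_lit 6368333159861) (nat_lit 380) (nat_lit 6368333159861) (nat_lit 23) (nat_lit 3) (nat_lit 28) (nat_lit 3) (nat_lit 28) (nat_lit 5) (nat_lit 324) (nat_lit 324) (nat_lit 132))))))))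
noncomputable def xc127 : XT := (XT.nd (nat_lit 81744) (nat_lit 0) (nat_lit 152) (XT.nd (nat_lit 40872) (nat_lit 0) (nat_lit 0) (XT.nd (nat_lit 390) (nat_lit 152) (nat_lit 0) (XT.nd (nat_lit 156) (nat_lit 152) (nat_lit 0) (XT.nd (nat_lit 78) (nat_lit 0) (nat_lit 76) (XT.lf (nat_lit 76) (nat_lit 2181334045615) (nat_lit 0) (nat_lit 4054109808538) (nat_lit 380) (nat_lit 27279959537541) (nat_lit 24) (nat_lit 5) (nat_lit 23) (nat_lit 3) (nat_lit 28) (nat_lit 5) (nat_lit 325) (nat_lit 324) (nat_lit 131)) (XT.lf (nat_lit 0) (nat_lit 8047631753829) (nat_lit 304) (nat_lit 15871102818294) (nat_lit 380) (nat_lit 12088910027546) (nat_lit 24) (nat_lit 5) (nat_lit 28) (nat_lit 5) (nat_lit 29) (nat_lit 5) (nat_lit 326) (nat_lit 324) (nat_lit 130))) (XT.nd (nat_lit 78) (nat_lit 228) (nat_lit 0) (XT.lf (nat_lit 76) (nat_lit 1886176297776) (nat_lit 0) (nat_lit 8516626926905) (nat_lit 380) (nat_lit 28430245456227)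 (nat_lit 25) (nat_lit 5) (nat_lit 24) (nat_lit 5) (nat_lit 29) (nat_lit 5) (nat_lit 327) (nat_lit 324) (nat_lit 129)) (XT.nd (nat_lit 78) (nat_lit 304) (nat_lit 0) (XT.lf (nat_lit 0) (nat_lit 14361160575255) (nat_lit 304) (nat_lit 18287361016028) (nat_lit 76) (nat_lit 9246255259185) (nat_lit 25) (nat_lit 5) (nat_lit 29) (nat_lit 5) (nat_lit 26) (nat_lit 5) (nat_lit 328) (nat_lit 324) (nat_lit 128)) (XT.lf (nat_lit 0) (nat_lit 3035790451803) (nat_lit 304) (nat_lit 16408740348560) (nat_lit 380) (nat_lit 25891544554308) (nat_lit 21) (nat_lit 5) (nat_lit 25) (nat_lit 5) (nat_lit 26) (nat_lit 5) (nat_lit 329) (nat_lit 324) (nat_lit 127))))) (XT.nd (nat_lit 40248) (nat_lit 0) (nat_lit 304) (XT.nd (nat_lit 156) (nat_lit 152) (nat_lit 0) (XT.lf (nat_lit 0) (nat_lit 26385729251747) (nat_lit 380) (nat_lit 19676906911953) (nat_lit 76) (nat_lit 3066634066927) (nat_lit 21) (nat_lit 5) (nat_lit 26)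 (nat_lit 5) (nat_lit 22) (nat_lit 5) (nat_lit 330) (nat_lit 324) (nat_lit 126)) (XT.lf (nat_lit 0) (nat_lit 37958808311694) (nat_lit 152) (nat_lit 8840769880170) (nat_lit 228) (nat_lit 11220606004202) (nat_lit 19) (nat_lit 5) (nat_lit 21) (nat_lit 5) (nat_lit 22) (nat_lit 5) (nat_lit 332) (nat_lit 324) (nat_lit 124))) (XT.nd (nat_lit 78) (nat_lit 0) (nat_lit 0) (XT.lf (nat_lit 0) (nat_lit 3286924363972) (nat_lit 380) (nat_lit 7323583133806) (nat_lit 380) (nat_lit 7323583133806) (nat_lit 23) (nat_lit 3) (nat_lit 28) (nat_lit 3) (nat_lit 28) (nat_lit 5) (nat_lit 325) (nat_lit 325) (nat_lit 130)) (XT.nd (nat_lit 78) (nat_lit 0) (nat_lit 76) (XT.lf (nat_lit 76) (nat_lit 2508534152522) (nat_lit 0) (nat_lit 4662226279859) (nat_lit 380) (nat_lit 31371953468051) (nat_lit 24) (nat_lit 5) (nat_lit 23) (nat_lit 3) (nat_lit 28) (nat_lit 5) (nat_lit 326) (nat_lit 325) (nat_lit 129)) (XT.lf (nat_lit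 0) (nat_lit 9254776516993) (nat_lit 304) (nat_lit 18251768240967) (nat_lit 380) (nat_lit 13902246531647) (nat_lit 24) (nat_lit 5) (nat_lit 28) (nat_lit 5) (nat_lit 29) (nat_lit 5) (nat_lit 327) (nat_lit 325) (nat_lit 128)))))) (XT.nd (nat_lit 40482) (nat_lit 0) (nat_lit 304) (XT.nd (nat_lit 156) (nat_lit 380) (nat_lit 0) (XT.nd (nat_lit 78) (nat_lit 0) (nat_lit 76) (XT.lf (nat_lit 76) (nat_lit 2169102742511) (nat_lit 0) (nat_lit 9794120965954) (nat_lit 380) (nat_lit 32694782274568) (nat_lit 25) (nat_lit 5) (nat_lit 24) (nat_lit 5) (nat_lit 29) (nat_lit 5) (nat_lit 328) (nat_lit 325) (nat_lit 127)) (XT.lf (nat_lit 0) (nat_lit 16515334661613) (nat_lit 304) (nat_lit 21030465168362) (nat_lit 76) (nat_lit 10633193548053) (nat_lit 25) (nat_lit 5) (nat_lit 29) (nat_lit 5) (nat_lit 26) (nat_lit 5) (nat_lit 329) (nat_lit 325) (nat_lit 126))) (XT.nd (nat_lit 78) (nat_lit 152) (nat_lit 0) (XT.lf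 (nat_lit 0) (nat_lit 3491159019641) (nat_lit 304) (nat_lit 18870051400840) (nat_lit 380) (nat_lit 29775276237381) (nat_lit 21) (nat_lit 5) (nat_lit 25) (nat_lit 5) (nat_lit 26) (nat_lit 5) (nat_lit 330) (nat_lit 325) (nat_lit 125)) (XT.nd (nat_lit 78) (nat_lit 152) (nat_lit 0) (XT.lf (nat_lit 0) (nat_lit 30343588639564) (nat_lit 380) (nat_lit 22628442948679) (nat_lit 76) (nat_lit 3526629176968) (nat_lit 21) (nat_lit 5) (nat_lit 26) (nat_lit 5) (nat_lit 22) (nat_lit 5) (nat_lit 331) (nat_lit 325) (nat_lit 124)) (XT.lf (nat_lit 0) (nat_lit 7017112441755) (nat_lit 152) (nat_lit 33695348688165) (nat_lit 228) (nat_lit 20624329227983) (nat_lit 19) (nat_lit 5) (nat_lit 21) (nat_lit 5) (nat_lit 22) (nat_lit 5) (nat_lit 332) (nat_lit 325) (nat_lit 123))))) (XT.nd (nat_lit 156) (nat_lit 0) (nat_lit 76) (XT.nd (nat_lit 78) (nat_lit 0) (nat_lit 0) (XT.lf (nat_lit 0) (nat_lit 3779963018613) (nat_lit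 380) (nat_lit 8422120603851) (nat_lit 380) (nat_lit 8422120603851) (nat_lit 23) (nat_lit 3) (nat_lit 28) (nat_lit 3) (nat_lit 28) (nat_lit 5) (nat_lit 326) (nat_lit 326) (nat_lit 128)) (XT.lf (nat_lit 76) (nat_lit 2884814275450) (nat_lit 0) (nat_lit 5361560221868) (nat_lit 380) (nat_lit 36077746488167) (nat_lit 24) (nat_lit 5) (nat_lit 23) (nat_lit 3) (nat_lit 28) (nat_lit 5) (nat_lit 327) (nat_lit 326) (nat_lit 127))) (XT.nd (nat_lit 78) (nat_lit 0) (nat_lit 0) (XT.lf (nat_lit 0) (nat_lit 10642992994610) (nat_lit 304) (nat_lit 20989533477058) (nat_lit 380) (nat_lit 15987583511370) (nat_lit 24) (nat_lit 5) (nat_lit 28) (nat_lit 5) (nat_lit 29) (nat_lit 5) (nat_lit 328) (nat_lit 326) (nat_lit 126)) (XT.nd (nat_lit 78) (nat_lit 0) (nat_lit 76) (XT.lf (nat_lit 76) (nat_lit 2494468153939) (nat_lit 0) (nat_lit 11263239110856) (nat_lit 380) (nat_lit 37598999615682) (nat_lit 25) (nat_lit 5)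 (nat_lit 24) (nat_lit 5) (nat_lit 29) (nat_lit 5) (nat_lit 329) (nat_lit 326) (nat_lit 125)) (XT.lf (nat_lit 0) (nat_lit 18992634860908) (nat_lit 304) (nat_lit 24185034943563) (nat_lit 76) (nat_lit 12228172580253) (nat_lit 25) (nat_lit 5) (nat_lit 29) (nat_lit 5) (nat_lit 26) (nat_lit 5) (nat_lit 330) (nat_lit 326) (nat_lit 124))))))) (XT.nd (nat_lit 81198) (nat_lit 0) (nat_lit 152) (XT.nd (nat_lit 40560) (nat_lit 0) (nat_lit 0) (XT.nd (nat_lit 40326) (nat_lit 0) (nat_lit 152) (XT.nd (nat_lit 78) (nat_lit 0) (nat_lit 0) (XT.lf (nat_lit 0) (nat_lit 4014832872638) (nat_lit 304) (nat_lit 21700559110963) (nat_lit 380) (nat_lit 34241567672933) (nat_lit 21) (nat_lit 5) (nat_lit 25) (nat_lit 5) (nat_lit 26) (nat_lit 5) (nat_lit 331) (nat_lit 326) (nat_lit 123)) (XT.lf (nat_lit 0) (nat_lit 34895126935541) (nat_lit 380) (nat_lit 26022709390930) (nat_lit 76) (nat_lit 4055623553517) (nat_lit 21)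 (nat_lit 5) (nat_lit 26) (nat_lit 5) (nat_lit 22) (nat_lit 5) (nat_lit 332) (nat_lit 326) (nat_lit 122))) (XT.nd (nat_lit 78) (nat_lit 0) (nat_lit 0) (XT.lf (nat_lit 0) (nat_lit 4346957471438) (nat_lit 380) (nat_lit 9685438694410) (nat_lit 380) (nat_lit 9685438694410) (nat_lit 23) (nat_lit 3) (nat_lit 28) (nat_lit 3) (nat_lit 28) (nat_lit 5) (nat_lit 327) (nat_lit 327) (nat_lit 126)) (XT.nd (nat_lit 78) (nat_lit 0) (nat_lit 76) (XT.lf (nat_lit 76) (nat_lit 3317536416804) (nat_lit 0) (nat_lit 6165794255171) (nat_lit 380) (nat_lit 41489408461323) (nat_lit 24) (nat_lit 5) (nat_lit 23) (nat_lit 3) (nat_lit 28) (nat_lit 5) (nat_lit 328) (nat_lit 327) (nat_lit 125)) (XT.lf (nat_lit 0) (nat_lit 12239441943853) (nat_lit 304) (nat_lit 24137963498576) (nat_lit 380) (nat_lit 18385721038057) (nat_lit 24) (nat_lit 5) (nat_lit 28) (nat_lit 5) (nat_lit 29) (nat_lit 5) (nat_lit 329) (nat_lit 327) (nat_lit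 124))))) (XT.nd (nat_lit 156) (nat_lit 228) (nat_lit 0) (XT.nd (nat_lit 78) (nat_lit 0) (nat_lit 76) (XT.lf (nat_lit 76) (nat_lit 2868638377069) (nat_lit 0) (nat_lit 12952724977492) (nat_lit 380) (nat_lit 43238849557982) (nat_lit 25) (nat_lit 5) (nat_lit 24) (nat_lit 5) (nat_lit 29) (nat_lit 5) (nat_lit 330) (nat_lit 327) (nat_lit 123)) (XT.lf (nat_lit 0) (nat_lit 21841530090084) (nat_lit 304) (nat_lit 27812790185058) (nat_lit 76) (nat_lit 14062398467285) (nat_lit 25) (nat_lit 5) (nat_lit 29) (nat_lit 5) (nat_lit 26) (nat_lit 5) (nat_lit 331) (nat_lit 327) (nat_lit 122))) (XT.nd (nat_lit 40326) (nat_lit 0) (nat_lit 152) (XT.lf (nat_lit 0) (nat_lit 4617057803572) (nat_lit 304) (nat_lit 24955642977605) (nat_lit 380) (nat_lit 39377802823831) (nat_lit 21) (nat_lit 5) (nat_lit 25) (nat_lit 5) (nat_lit 26) (nat_lit 5) (nat_lit 332) (nat_lit 327) (nat_lit 121)) (XT.nd (nat_lit 78) (nat_lit 0)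 (nat_lit 0) (XT.lf (nat_lit 0) (nat_lit 4999001092180) (nat_lit 380) (nat_lit 11138254498557) (nat_lit 380) (nat_lit 11138254498557) (nat_lit 23) (nat_lit 3) (nat_lit 28) (nat_lit 3) (nat_lit 28) (nat_lit 5) (nat_lit 328) (nat_lit 328) (nat_lit 124)) (XT.lf (nat_lit 76) (nat_lit 3815166879352) (nat_lit 0) (nat_lit 7090663393465) (nat_lit 380) (nat_lit 47712819730470) (nat_lit 24) (nat_lit 5) (nat_lit 23) (nat_lit 3) (nat_lit 28) (nat_lit 5) (nat_lit 329) (nat_lit 328) (nat_lit 123)))))) (XT.nd (nat_lit 40716) (nat_lit 0) (nat_lit 0) (XT.nd (nat_lit 156) (nat_lit 76) (nat_lit 0) (XT.nd (nat_lit 78) (nat_lit 0) (nat_lit 0) (XT.lf (nat_lit 0) (nat_lit 14075358235469) (nat_lit 304) (nat_lit 27758658023331) (nat_lit 380) (nat_lit 21143579193752) (nat_lit 24) (nat_lit 5) (nat_lit 28) (nat_lit 5) (nat_lit 29) (nat_lit 5) (nat_lit 330) (nat_lit 328) (nat_lit 122)) (XT.lf (nat_lit 76) (nat_lit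 3298934133659) (nat_lit 0) (nat_lit 14895633724121) (nat_lit 380) (nat_lit 49724676991639) (nat_lit 25) (nat_lit 5) (nat_lit 24) (nat_lit 5) (nat_lit 29) (nat_lit 5) (nat_lit 331) (nat_lit 328) (nat_lit 121))) (XT.nd (nat_lit 40404) (nat_lit 152) (nat_lit 0) (XT.lf (nat_lit 0) (nat_lit 25117759603627) (nat_lit 304) (nat_lit 31984708712786) (nat_lit 76) (nat_lit 16171758237374) (nat_lit 25) (nat_lit 5) (nat_lit 29) (nat_lit 5) (nat_lit 26) (nat_lit 5) (nat_lit 332) (nat_lit 328) (nat_lit 120)) (XT.nd (nat_lit 78) (nat_lit 0) (nat_lit 0) (XT.lf (nat_lit 0) (nat_lit 5748851256026) (nat_lit 380) (nat_lit 12808992673329) (nat_lit 380) (nat_lit 12808992673329) (nat_lit 23) (nat_lit 3) (nat_lit 28) (nat_lit 3) (nat_lit 28) (nat_lit 5) (nat_lit 329) (nat_lit 329) (nat_lit 122)) (XT.lf (nat_lit 76) (nat_lit 4387441911277) (nat_lit 0) (nat_lit 8154262902497) (nat_lit 380) (nat_lit 54869742690001)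 (nat_lit 24) (nat_lit 5) (nat_lit 23) (nat_lit 3) (nat_lit 28) (nat_lit 5) (nat_lit 330) (nat_lit 329) (nat_lit 121))))) (XT.nd (nat_lit 40638) (nat_lit 0) (nat_lit 0) (XT.nd (nat_lit 78) (nat_lit 76) (nat_lit 0) (XT.lf (nat_lit 0) (nat_lit 16186661970819) (nat_lit 304) (nat_lit 31922456726808) (nat_lit 380) (nat_lit 24315116072804) (nat_lit 24) (nat_lit 5) (nat_lit 28) (nat_lit 5) (nat_lit 29) (nat_lit 5) (nat_lit 331) (nat_lit 329) (nat_lit 120)) (XT.nd (nat_lit 40482) (nat_lit 76) (nat_lit 0) (XT.lf (nat_lit 76) (nat_lit 3793774253731) (nat_lit 0) (nat_lit 17129978782743) (nat_lit 380) (nat_lit 57183378540354) (nat_lit 25) (nat_lit 5) (nat_lit 24) (nat_lit 5) (nat_lit 29) (nat_lit 5) (nat_lit 332) (nat_lit 329) (nat_lit 119)) (XT.lf (nat_lit 0) (nat_lit 6611178944444) (nat_lit 380) (nat_lit 14730341574320) (nat_lit 380) (nat_lit 14730341574320) (nat_lit 23) (nat_lit 3) (nat_lit 28)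 (nat_lit 3) (nat_lit 28) (nat_lit 5) (nat_lit 330) (nat_lit 330) (nat_lit 120)))) (XT.nd (nat_lit 78) (nat_lit 0) (nat_lit 0) (XT.lf (nat_lit 76) (nat_lit 5045558197984) (nat_lit 0) (nat_lit 9377402337882) (nat_lit 380) (nat_lit 63100204093471) (nat_lit 24) (nat_lit 5) (nat_lit 23) (nat_lit 3) (nat_lit 28) (nat_lit 5) (nat_lit 331) (nat_lit 330) (nat_lit 119)) (XT.nd (nat_lit 40560) (nat_lit 76) (nat_lit 0) (XT.lf (nat_lit 0) (nat_lit 18614661266464) (nat_lit 304) (nat_lit 36710825235811) (nat_lit 380) (nat_lit 27962383483717) (nat_lit 24) (nat_lit 5) (nat_lit 28) (nat_lit 5) (nat_lit 29) (nat_lit 5) (nat_lit 332) (nat_lit 330) (nat_lit 118)) (XT.lf (nat_lit 0) (nat_lit 7602855786122) (nat_lit 380) (nat_lit 16939892810462) (nat_lit 380) (nat_lit 16939892810462) (nat_lit 23) (nat_lit 3) (nat_lit 28) (nat_lit 3) (nat_lit 28) (nat_lit 5) (nat_lit 331) (nat_lit 331) (nat_lit 118))))))))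

set_option maxRecDepth 10000000 in
noncomputable def Tp : PT := (PT.nd (nat_lit 5374122) (PT.nd (nat_lit 5171166) pc0 pc1) (PT.nd (nat_lit 121446) pc2 pc3))

set_option maxRecDepth 10000000 in
noncomputable def Tx : XT := (XT.nd (nat_lit 8481096) (nat_lit 0) (nat_lit 76) XT.nil (XT.nd (nat_lit 4995978) (nat_lit 0) (nat_lit 0) (XT.nd (nat_lit 2432040) (nat_lit 0) (nat_lit 0) (XT.nd (nat_lit 1746498) (nat_lit 0) (nat_lit 0) (XT.nd (nat_lit 1337388) (nat_lit 0) (nat_lit 0) (XT.nd (nat_lit 1013532) (nat_lit 0) (nat_lit 0) (XT.nd (nat_lit 771108) (nat_lit 0) (nat_lit 0) (XT.nd (nat_lit 648102) (nat_lit 0) (nat_lit 0) (XT.nd (nat_lit 526344) (nat_lit 0) (nat_lit 0) xc0 xc1) (XT.nd (nat_lit 80808) (nat_lit 0) (nat_lit 0) xc2 xc3)) (XT.nd (nat_lit 121134) (nat_lit 0) (nat_lit 0) (XT.nd (nat_lit 79404) (nat_lit 0) (nat_lit 0) xc4 xc5) (XT.nd (nat_lit 79872) (nat_lit 0) (nat_lit 0) xc6 xc7)))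 (XT.nd (nat_lit 163254) (nat_lit 0) (nat_lit 0) (XT.nd (nat_lit 81822) (nat_lit 0) (nat_lit 0) (XT.nd (nat_lit 40950) (nat_lit 0) (nat_lit 0) xc8 xc9) (XT.nd (nat_lit 40638) (nat_lit 0) (nat_lit 0) xc10 xc11)) (XT.nd (nat_lit 80886) (nat_lit 0) (nat_lit 0) (XT.nd (nat_lit 40560) (nat_lit 0) (nat_lit 0) xc12 xc13) (XT.nd (nat_lit 39936) (nat_lit 0) (nat_lit 0) xc14 xc15)))) (XT.nd (nat_lit 241488) (nat_lit 0) (nat_lit 0) (XT.nd (nat_lit 121212) (nat_lit 0) (nat_lit 0) (XT.nd (nat_lit 42666) (nat_lit 0) (nat_lit 0) (XT.nd (nat_lit 39468) (nat_lit 0) (nat_lit 0) xc16 xc17) (XT.nd (nat_lit 39312) (nat_lit 0) (nat_lit 0) xc18 xc19)) (XT.nd (nat_lit 42276) (nat_lit 0) (nat_lit 0) (XT.nd (nat_lit 3120) (nat_lit 0) (nat_lit 0) xc20 xc21) (XT.nd (nat_lit 39000) (nat_lit 0) (nat_lit 0) xc22 xc23))) (XT.nd (nat_lit 84084) (nat_lit 0) (nat_lit 0) (XT.nd (nat_lit 42198) (nat_lit 0) (nat_lit 0) (XT.nd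 (nat_lit 3120) (nat_lit 0) (nat_lit 0) xc24 xc25) (XT.nd (nat_lit 38688) (nat_lit 0) (nat_lit 0) xc26 xc27)) (XT.nd (nat_lit 41574) (nat_lit 0) (nat_lit 0) (XT.nd (nat_lit 38376) (nat_lit 0) (nat_lit 0) xc28 xc29) (XT.nd (nat_lit 38142) (nat_lit 0) (nat_lit 0) xc30 xc31))))) (XT.nd (nat_lit 360750) (nat_lit 0) (nat_lit 0) (XT.nd (nat_lit 197886) (nat_lit 0) (nat_lit 0) (XT.nd (nat_lit 115986) (nat_lit 0) (nat_lit 0) (XT.nd (nat_lit 41028) (nat_lit 0) (nat_lit 0) (XT.nd (nat_lit 37284) (nat_lit 0) (nat_lit 0) xc32 xc33) (XT.nd (nat_lit 37206) (nat_lit 0) (nat_lit 0) xc34 xc35)) (XT.nd (nat_lit 40794) (nat_lit 0) (nat_lit 0) (XT.nd (nat_lit 3120) (nat_lit 0) (nat_lit 0) xc36 xc37) (XT.nd (nat_lit 3120) (nat_lit 0) (nat_lit 0) xc38 xc39))) (XT.nd (nat_lit 81744) (nat_lit 0) (nat_lit 0) (XT.nd (nat_lit 40950) (nat_lit 0) (nat_lit 0) (XT.nd (nat_lit 3120) (nat_lit 0) (nat_lit 0) xc40 xc41)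 (XT.nd (nat_lit 3120) (nat_lit 0) (nat_lit 0) xc42 xc43)) (XT.nd (nat_lit 40638) (nat_lit 0) (nat_lit 0) (XT.nd (nat_lit 3120) (nat_lit 0) (nat_lit 0) xc44 xc45) (XT.nd (nat_lit 3120) (nat_lit 0) (nat_lit 0) xc46 xc47)))) (XT.nd (nat_lit 162474) (nat_lit 0) (nat_lit 0) (XT.nd (nat_lit 81120) (nat_lit 0) (nat_lit 0) (XT.nd (nat_lit 40482) (nat_lit 0) (nat_lit 0) (XT.nd (nat_lit 3120) (nat_lit 0) (nat_lit 0) xc48 xc49) (XT.nd (nat_lit 3120) (nat_lit 0) (nat_lit 0) xc50 xc51)) (XT.nd (nat_lit 40638) (nat_lit 0) (nat_lit 0) (XT.nd (nat_lit 3120) (nat_lit 0) (nat_lit 0) xc52 xc53) (XT.nd (nat_lit 3120) (nat_lit 0) (nat_lit 0) xc54 xc55))) (XT.nd (nat_lit 81198) (nat_lit 0) (nat_lit 0) (XT.nd (nat_lit 40638) (nat_lit 0) (nat_lit 0) (XT.nd (nat_lit 3120) (nat_lit 0) (nat_lit 0) xc56 xc57) (XT.nd (nat_lit 3120) (nat_lit 0) (nat_lit 0) xc58 xc59)) (XT.nd (nat_lit 40560) (nat_lit 0) (nat_lit 0)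 (XT.nd (nat_lit 3120) (nat_lit 0) (nat_lit 0) xc60 xc61) (XT.nd (nat_lit 3120) (nat_lit 0) (nat_lit 0) xc62 xc63)))))) (XT.nd (nat_lit 773994) (nat_lit 0) (nat_lit 0) (XT.nd (nat_lit 328926) (nat_lit 0) (nat_lit 0) (XT.nd (nat_lit 162942) (nat_lit 0) (nat_lit 0) (XT.nd (nat_lit 81198) (nat_lit 0) (nat_lit 0) (XT.nd (nat_lit 40482) (nat_lit 0) (nat_lit 0) (XT.nd (nat_lit 3120) (nat_lit 0) (nat_lit 0) xc64 xc65) (XT.nd (nat_lit 3120) (nat_lit 0) (nat_lit 0) xc66 xc67)) (XT.nd (nat_lit 40794) (nat_lit 0) (nat_lit 0) (XT.nd (nat_lit 3120) (nat_lit 0) (nat_lit 0) xc68 xc69) (XT.nd (nat_lit 3120) (nat_lit 0) (nat_lit 0) xc70 xc71))) (XT.nd (nat_lit 82758) (nat_lit 0) (nat_lit 0) (XT.nd (nat_lit 41184) (nat_lit 0) (nat_lit 0) (XT.nd (nat_lit 3120) (nat_lit 0) (nat_lit 0) xc72 xc73) (XT.nd (nat_lit 3120) (nat_lit 0) (nat_lit 0) xc74 xc75)) (XT.nd (nat_lit 41574) (nat_lit 0) (nat_lit 0) (XT.nd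 (nat_lit 38376) (nat_lit 0) (nat_lit 76) xc76 xc77) (XT.nd (nat_lit 38454) (nat_lit 0) (nat_lit 0) xc78 xc79)))) (XT.nd (nat_lit 202878) (nat_lit 0) (nat_lit 0) (XT.nd (nat_lit 118872) (nat_lit 0) (nat_lit 0) (XT.nd (nat_lit 77064) (nat_lit 0) (nat_lit 0) (XT.nd (nat_lit 38454) (nat_lit 0) (nat_lit 0) xc80 xc81) (XT.nd (nat_lit 3120) (nat_lit 76) (nat_lit 0) xc82 xc83)) (XT.nd (nat_lit 41886) (nat_lit 0) (nat_lit 0) (XT.nd (nat_lit 3120) (nat_lit 0) (nat_lit 0) xc84 xc85) (XT.nd (nat_lit 38922) (nat_lit 0) (nat_lit 76) xc86 xc87))) (XT.nd (nat_lit 120744) (nat_lit 0) (nat_lit 0) (XT.nd (nat_lit 78312) (nat_lit 0) (nat_lit 0) (XT.nd (nat_lit 39078) (nat_lit 0) (nat_lit 0) xc88 xc89) (XT.nd (nat_lit 3120) (nat_lit 76) (nat_lit 0) xc90 xc91)) (XT.nd (nat_lit 42510) (nat_lit 0) (nat_lit 0) (XT.nd (nat_lit 39312) (nat_lit 0) (nat_lit 0) xc92 xc93) (XT.nd (nat_lit 39390) (nat_lit 0) (nat_lit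 0) xc94 xc95))))) (XT.nd (nat_lit 528840) (nat_lit 0) (nat_lit 0) (XT.nd (nat_lit 244452) (nat_lit 0) (nat_lit 0) (XT.nd (nat_lit 122148) (nat_lit 0) (nat_lit 0) (XT.nd (nat_lit 42744) (nat_lit 0) (nat_lit 0) (XT.nd (nat_lit 39546) (nat_lit 0) (nat_lit 76) xc96 xc97) (XT.nd (nat_lit 39624) (nat_lit 0) (nat_lit 0) xc98 xc99)) (XT.nd (nat_lit 42978) (nat_lit 0) (nat_lit 0) (XT.nd (nat_lit 39780) (nat_lit 0) (nat_lit 0) xc100 xc101) (XT.nd (nat_lit 39624) (nat_lit 0) (nat_lit 0) xc102 xc103))) (XT.nd (nat_lit 122460) (nat_lit 0) (nat_lit 0) (XT.nd (nat_lit 43134) (nat_lit 0) (nat_lit 0) (XT.nd (nat_lit 39702) (nat_lit 0) (nat_lit 0) xc104 xc105) (XT.nd (nat_lit 39468) (nat_lit 0) (nat_lit 0) xc106 xc107)) (XT.nd (nat_lit 80184) (nat_lit 0) (nat_lit 76) (XT.nd (nat_lit 39936) (nat_lit 0) (nat_lit 0) xc108 xc109) (XT.nd (nat_lit 40716) (nat_lit 0) (nat_lit 0) xc110 xc111)))) (XT.nd (nat_lit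 367692) (nat_lit 0) (nat_lit 228) (XT.nd (nat_lit 164112) (nat_lit 0) (nat_lit 0) (XT.nd (nat_lit 82134) (nat_lit 0) (nat_lit 0) (XT.nd (nat_lit 41028) (nat_lit 76) (nat_lit 0) xc112 xc113) (XT.nd (nat_lit 40950) (nat_lit 0) (nat_lit 0) xc114 xc115)) (XT.nd (nat_lit 120744) (nat_lit 0) (nat_lit 228) (XT.nd (nat_lit 79248) (nat_lit 0) (nat_lit 228) xc116 xc117) (XT.nd (nat_lit 41340) (nat_lit 0) (nat_lit 0) xc118 xc119))) (XT.nd (nat_lit 242892) (nat_lit 0) (nat_lit 0) (XT.nd (nat_lit 120978) (nat_lit 0) (nat_lit 76) (XT.nd (nat_lit 79482) (nat_lit 0) (nat_lit 0) xc120 xc121) (XT.nd (nat_lit 41496) (nat_lit 0) (nat_lit 0) xc122 xc123)) (XT.nd (nat_lit 204594) (nat_lit 0) (nat_lit 76) (XT.nd (nat_lit 121368) (nat_lit 0) (nat_lit 0) xc124 xc125) (XT.nd (nat_lit 160914) (nat_lit 0) (nat_lit 1064) xc126 xc127))))))) XT.nil))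

set_option maxRecDepth 10000000 in
noncomputable def Te : XT := XT.nil

set_option maxRecDepth 10000000 in
noncomputable def Tz : ZL := (ZL.cons (nat_lit 76) (nat_lit 3) (nat_lit 131277318628207640089) (ZL.cons (nat_lit 152) (nat_lit 6) (nat_lit 246073111102601937482) (ZL.cons (nat_lit 228) (nat_lit 6) (nat_lit 231866753327925787634) (ZL.cons (nat_lit 304) (nat_lit 3) (nat_lit 114829330779728197479) (ZL.cons (nat_lit 380) (nat_lit 6) (nat_lit 215529441887048215310) (ZL.cons (nat_lit 456) (nat_lit 6) (nat_lit 203409010830917238504) (ZL.cons (nat_lit 532) (nat_lit 3) (nat_lit 100744465516124100696) (ZL.cons (nat_lit 608) (nat_lit 6) (nat_lit 189470515116366615174) (ZL.cons (nat_lit 684) (nat_lit 6) (nat_lit 179239051219310121276) (ZL.cons (nat_lit 760) (nat_lit 3) (nat_lit 88784708305885914068) (ZL.cons (nat_lit 836) (nat_lit 6) (nat_lit 167472867737695153290) (ZL.cons (nat_lit 912) (nat_lit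 6) (nat_lit 158983327320513351348) (ZL.cons (nat_lit 988) (nat_lit 3) (nat_lit 78765735570022635179) (ZL.cons (nat_lit 1064) (nat_lit 6) (nat_lit 149220355840754279116) (ZL.cons (nat_lit 1140) (nat_lit 6) (nat_lit 142376913062227355818) (ZL.cons (nat_lit 1216) (nat_lit 3) (nat_lit 70557214713518860088) (ZL.cons (nat_lit 1292) (nat_lit 6) (nat_lit 136867249358797669366) (ZL.cons (nat_lit 1368) (nat_lit 6) (nat_lit 134506953866921394030) (ZL.cons (nat_lit 1444) (nat_lit 6) (nat_lit 129268652464663894298) (ZL.cons (nat_lit 1520) (nat_lit 3) (nat_lit 64085420303988627302) (ZL.cons (nat_lit 1596) (nat_lit 6) (nat_lit 125297036714568878594) (ZL.cons (nat_lit 1672) (nat_lit 6) (nat_lit 123244605852067769606) (ZL.cons (nat_lit 1748) (nat_lit 3) (nat_lit 60160248104228468906) (ZL.cons (nat_lit 1824) (nat_lit 6) (nat_lit 120866302723336155254) (ZL.cons (nat_lit 1900) (nat_lit 6) (nat_lit 122514401091091009652)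 (ZL.cons (nat_lit 1976) (nat_lit 6) (nat_lit 119631866745272970840) (ZL.cons (nat_lit 2052) (nat_lit 3) (nat_lit 59338623869729250773) (ZL.cons (nat_lit 2128) (nat_lit 6) (nat_lit 116088455254600033884) (ZL.cons (nat_lit 2204) (nat_lit 6) (nat_lit 117261939261590351380) (ZL.cons (nat_lit 2280) (nat_lit 6) (nat_lit 115477216772458952262) (ZL.cons (nat_lit 2356) (nat_lit 3) (nat_lit 56477113078714884825) (ZL.cons (nat_lit 2432) (nat_lit 6) (nat_lit 113581903649540869704) (ZL.cons (nat_lit 2508) (nat_lit 3) (nat_lit 56375900083111969940) (ZL.cons (nat_lit 2584) (nat_lit 6) (nat_lit 111402293558185074764) (ZL.cons (nat_lit 2660) (nat_lit 1) (nat_lit 18446744073709551617) ZL.nil)))))))))))))))))))))))))))))))))))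

noncomputable def vl : XL := ⟨(nat_lit 0), (nat_lit 76), (nat_lit 105171662), (nat_lit 152), (nat_lit 185369574), (nat_lit 152), (nat_lit 185369574), (nat_lit 1), (nat_lit 4), (nat_lit 2), (nat_lit 5), (nat_lit 2), (nat_lit 4), (nat_lit 0), (nat_lit 0), (nat_lit 0)⟩

noncomputable def cp0 : Nat := (nat_lit 581791837321644869233119629996816256490326488852105883895054991360)

noncomputable def cp1 : Nat := (nat_lit 2523394075235487923008435054643015310610264209314487282167424186353011581213437842299482414334838542548187352723525473542967882335528794414415215983553323100305882528007496856033188810858819563410299982674173576880011486659589043101562891008728729309864576586348939112940659543094298541223148403021849198181369988463230137348815505857283055535719673159012333958418340470151524311099870335988851173184754008561924788939239590123627424918696124993307128449173850734807832240615630441520498346155668592177365644654538404721790242974645460969070090806304661953645211340432196966520915212221663318108028770090433003950240496438555987144291304668458220096589446966001528253573854248445997372385184377222628313394780200481047334837467900398198952026542038782439552625194566959395533903058865532618204373418936972928098987147264)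

noncomputable def rc0 : Nat := (nat_lit 2523394075235487923008435054643015310610264209314487282167424186353011581213437842299482414334838542548187352723525473542967882335528794414415215983553323100305882528007496856033188810858819563410299982674173576880011486659589043101562891008728729309864576586348939112940659543094298541223148403021849198181369988463230137348815505857283055535719673159012333958418340470151524311099870335988851173184754008561924788939239590123627424918696124993307128449173850734807832240615630441520498346155668592177365644654538404721790242974645460969070090806304661953645211340432196966520915212221663318108028770090433003950240496438555987144291304668458220096589446966001528253573854248445997372385184377222628313394780200481047334837467900398198952026542038782439552625194566959395533903058865532618204373418936972928098987147264)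

end Vale.Agent.Lib.P154.PChain.BI.S0
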