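import Vale.Agent.Lib.P154.PChain.BI.R0_0

set_option linter.all false

namespace Vale.Agent.Lib.P154.PChain.BI.S1

open Vale.Agent.Lib.P154.Chain

noncomputable def pc0 : PT := (PT.nd (nat_lit 4927650) (PT.nd (nat_lit 4724772) (PT.nd (nat_lit 4643574) (PT.nd (nat_lit 4602936) (PT.nd (nat_lit 4602858) (PT.nd (nat_lit 4562298) PT.nil (PT.lf (nat_lit 76) (nat_lit 3) (nat_lit 1) (nat_lit 1) (nat_lit 139) (nat_lit 112) (nat_lit 139))) (PT.lf (nat_lit 152) (nat_lit 6) (nat_lit 2) (nat_lit 3) (nat_lit 138) (nat_lit 113) (nat_lit 139))) (PT.nd (nat_lit 40482) (PT.lf (nat_lit 152) (nat_lit 6) (nat_lit 2) (nat_lit 1) (nat_lit 139) (nat_lit 113) (nat_lit 138)) (PT.nd (nat_lit 78) (PT.lf (nat_lit 228) (nat_lit 6) (nat_lit 3) (nat_lit 3) (nat_lit 137) (nat_lit 114) (nat_lit 139)) (PT.lf (nat_lit 304) (nat_lit 3) (nat_lit 4) (nat_lit 1) (nat_lit 138) (nat_lit 114) (nat_lit 138))))) (PT.nd (nat_lit 40560)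 (PT.nd (nat_lit 40482) (PT.lf (nat_lit 228) (nat_lit 6) (nat_lit 3) (nat_lit 1) (nat_lit 139) (nat_lit 114) (nat_lit 137)) (PT.lf (nat_lit 380) (nat_lit 6) (nat_lit 5) (nat_lit 3) (nat_lit 137) (nat_lit 115) (nat_lit 138))) (PT.nd (nat_lit 40482) (PT.lf (nat_lit 380) (nat_lit 6) (nat_lit 5) (nat_lit 1) (nat_lit 138) (nat_lit 115) (nat_lit 137)) (PT.nd (nat_lit 78) (PT.lf (nat_lit 456) (nat_lit 6) (nat_lit 6) (nat_lit 3) (nat_lit 136) (nat_lit 116) (nat_lit 138)) (PT.lf (nat_lit 532) (nat_lit 3) (nat_lit 7) (nat_lit 1) (nat_lit 137) (nat_lit 116) (nat_lit 137)))))) (PT.nd (nat_lit 81198) (PT.nd (nat_lit 40560) (PT.nd (nat_lit 40482) (PT.lf (nat_lit 456) (nat_lit 6) (nat_lit 6) (nat_lit 1) (nat_lit 138) (nat_lit 116) (nat_lit 136)) (PT.lf (nat_lit 608) (nat_lit 6) (nat_lit 8) (nat_lit 3) (nat_lit 136) (nat_lit 117) (nat_lit 137))) (PT.nd (nat_lit 40482) (PT.lf (nat_lit 608) (nat_lit 6) (nat_lit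 8) (nat_lit 1) (nat_lit 137) (nat_lit 117) (nat_lit 136)) (PT.nd (nat_lit 78) (PT.lf (nat_lit 684) (nat_lit 6) (nat_lit 9) (nat_lit 3) (nat_lit 135) (nat_lit 118) (nat_lit 137)) (PT.lf (nat_lit 760) (nat_lit 3) (nat_lit 10) (nat_lit 1) (nat_lit 136) (nat_lit 118) (nat_lit 136))))) (PT.nd (nat_lit 81042) (PT.nd (nat_lit 40482) (PT.lf (nat_lit 684) (nat_lit 6) (nat_lit 9) (nat_lit 1) (nat_lit 137) (nat_lit 118) (nat_lit 135)) (PT.nd (nat_lit 78) (PT.lf (nat_lit 836) (nat_lit 6) (nat_lit 11) (nat_lit 3) (nat_lit 135) (nat_lit 119) (nat_lit 136)) (PT.lf (nat_lit 836) (nat_lit 6) (nat_lit 11) (nat_lit 1) (nat_lit 136) (nat_lit 119) (nat_lit 135)))) (PT.nd (nat_lit 78) (PT.lf (nat_lit 912) (nat_lit 6) (nat_lit 12) (nat_lit 3) (nat_lit 134) (nat_lit 120) (nat_lit 136)) (PT.nd (nat_lit 78) (PT.lf (nat_lit 988) (nat_lit 3) (nat_lit 13) (nat_lit 1) (nat_lit 135) (nat_lit 120) (nat_lit 135)) (PT.lf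 (nat_lit 912) (nat_lit 6) (nat_lit 12) (nat_lit 1) (nat_lit 136) (nat_lit 120) (nat_lit 134))))))) (PT.nd (nat_lit 121914) (PT.nd (nat_lit 81120) (PT.nd (nat_lit 40560) (PT.nd (nat_lit 78) (PT.lf (nat_lit 1064) (nat_lit 6) (nat_lit 14) (nat_lit 3) (nat_lit 134) (nat_lit 121) (nat_lit 135)) (PT.lf (nat_lit 1064) (nat_lit 6) (nat_lit 14) (nat_lit 1) (nat_lit 135) (nat_lit 121) (nat_lit 134))) (PT.nd (nat_lit 78) (PT.lf (nat_lit 1140) (nat_lit 6) (nat_lit 15) (nat_lit 3) (nat_lit 133) (nat_lit 122) (nat_lit 135)) (PT.nd (nat_lit 78) (PT.lf (nat_lit 1216) (nat_lit 3) (nat_lit 16) (nat_lit 1) (nat_lit 134) (nat_lit 122) (nat_lit 134)) (PT.lf (nat_lit 1140) (nat_lit 6) (nat_lit 15) (nat_lit 1) (nat_lit 135) (nat_lit 122) (nat_lit 133))))) (PT.nd (nat_lit 234) (PT.nd (nat_lit 78) (PT.lf (nat_lit 1292) (nat_lit 6) (nat_lit 17) (nat_lit 3) (nat_lit 132) (nat_lit 123) (nat_lit 135)) (PT.nd (nat_lit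 78) (PT.lf (nat_lit 1368) (nat_lit 6) (nat_lit 18) (nat_lit 3) (nat_lit 133) (nat_lit 123) (nat_lit 134)) (PT.lf (nat_lit 1368) (nat_lit 6) (nat_lit 18) (nat_lit 1) (nat_lit 134) (nat_lit 123) (nat_lit 133)))) (PT.nd (nat_lit 40404) (PT.lf (nat_lit 1292) (nat_lit 6) (nat_lit 17) (nat_lit 1) (nat_lit 135) (nat_lit 123) (nat_lit 132)) (PT.nd (nat_lit 78) (PT.lf (nat_lit 1444) (nat_lit 6) (nat_lit 19) (nat_lit 3) (nat_lit 132) (nat_lit 124) (nat_lit 134)) (PT.lf (nat_lit 1520) (nat_lit 3) (nat_lit 20) (nat_lit 1) (nat_lit 133) (nat_lit 124) (nat_lit 133)))))) (PT.nd (nat_lit 80964) (PT.nd (nat_lit 40482) (PT.nd (nat_lit 40404) (PT.lf (nat_lit 1444) (nat_lit 6) (nat_lit 19) (nat_lit 1) (nat_lit 134) (nat_lit 124) (nat_lit 132)) (PT.lf (nat_lit 1596) (nat_lit 6) (nat_lit 21) (nat_lit 3) (nat_lit 131) (nat_lit 125) (nat_lit 134))) (PT.nd (nat_lit 78) (PT.lf (nat_lit 1672) (nat_lit 6) (nat_lit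 22) (nat_lit 3) (nat_lit 132) (nat_lit 125) (nat_lit 133)) (PT.nd (nat_lit 78) (PT.lf (nat_lit 1672) (nat_lit 6) (nat_lit 22) (nat_lit 1) (nat_lit 133) (nat_lit 125) (nat_lit 132)) (PT.lf (nat_lit 1596) (nat_lit 6) (nat_lit 21) (nat_lit 1) (nat_lit 134) (nat_lit 125) (nat_lit 131))))) (PT.nd (nat_lit 234) (PT.nd (nat_lit 78) (PT.lf (nat_lit 1900) (nat_lit 6) (nat_lit 25) (nat_lit 3) (nat_lit 130) (nat_lit 126) (nat_lit 134)) (PT.nd (nat_lit 78) (PT.lf (nat_lit 1976) (nat_lit 6) (nat_lit 26) (nat_lit 3) (nat_lit 131) (nat_lit 126) (nat_lit 133)) (PT.lf (nat_lit 2052) (nat_lit 3) (nat_lit 27) (nat_lit 1) (nat_lit 132) (nat_lit 126) (nat_lit 132)))) (PT.nd (nat_lit 78) (PT.lf (nat_lit 1976) (nat_lit 6) (nat_lit 26) (nat_lit 1) (nat_lit 133) (nat_lit 126) (nat_lit 131)) (PT.nd (nat_lit 40248) (PT.lf (nat_lit 1900) (nat_lit 6) (nat_lit 25) (nat_lit 1) (nat_lit 134) (nat_lit 126) (nat_lit 130))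 (PT.lf (nat_lit 1824) (nat_lit 6) (nat_lit 24) (nat_lit 3) (nat_lit 129) (nat_lit 127) (nat_lit 134))))))))
noncomputable def pc1 : PT := (PT.nd (nat_lit 121680) (PT.nd (nat_lit 40872) (PT.nd (nat_lit 40482) (PT.nd (nat_lit 156) (PT.nd (nat_lit 78) (PT.lf (nat_lit 2204) (nat_lit 6) (nat_lit 29) (nat_lit 3) (nat_lit 130) (nat_lit 127) (nat_lit 133)) (PT.lf (nat_lit 2280) (nat_lit 6) (nat_lit 30) (nat_lit 3) (nat_lit 131) (nat_lit 127) (nat_lit 132))) (PT.nd (nat_lit 78) (PT.lf (nat_lit 2280) (nat_lit 6) (nat_lit 30) (nat_lit 1) (nat_lit 132) (nat_lit 127) (nat_lit 131)) (PT.nd (nat_lit 78) (PT.lf (nat_lit 2204) (nat_lit 6) (nat_lit 29) (nat_lit 1) (nat_lit 133) (nat_lit 127) (nat_lit 130)) (PT.lf (nat_lit 1824) (nat_lit 6) (nat_lit 24) (nat_lit 1) (nat_lit 134) (nat_lit 127) (nat_lit 129))))) (PT.nd (nat_lit 156) (PT.nd (nat_lit 78) (PT.lf (nat_lit 1748) (nat_lit 3) (nat_lit 23) (nat_lit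 3) (nat_lit 128) (nat_lit 128) (nat_lit 134)) (PT.lf (nat_lit 2128) (nat_lit 6) (nat_lit 28) (nat_lit 3) (nat_lit 129) (nat_lit 128) (nat_lit 133))) (PT.nd (nat_lit 78) (PT.lf (nat_lit 2432) (nat_lit 6) (nat_lit 32) (nat_lit 3) (nat_lit 130) (nat_lit 128) (nat_lit 132)) (PT.nd (nat_lit 78) (PT.lf (nat_lit 2508) (nat_lit 3) (nat_lit 33) (nat_lit 1) (nat_lit 131) (nat_lit 128) (nat_lit 131)) (PT.lf (nat_lit 2432) (nat_lit 6) (nat_lit 32) (nat_lit 1) (nat_lit 132) (nat_lit 128) (nat_lit 130)))))) (PT.nd (nat_lit 40404) (PT.nd (nat_lit 40170) (PT.nd (nat_lit 78) (PT.lf (nat_lit 2128) (nat_lit 6) (nat_lit 28) (nat_lit 1) (nat_lit 133) (nat_lit 128) (nat_lit 129)) (PT.lf (nat_lit 1748) (nat_lit 3) (nat_lit 23) (nat_lit 0) (nat_lit 134) (nat_lit 128) (nat_lit 128))) (PT.nd (nat_lit 78) (PT.lf (nat_lit 1824) (nat_lit 6) (nat_lit 24) (nat_lit 5) (nat_lit 127) (nat_lit 129) (nat_lit 134)) (PT.nd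 (nat_lit 78) (PT.lf (nat_lit 2128) (nat_lit 6) (nat_lit 28) (nat_lit 5) (nat_lit 128) (nat_lit 129) (nat_lit 133)) (PT.lf (nat_lit 2356) (nat_lit 3) (nat_lit 31) (nat_lit 3) (nat_lit 129) (nat_lit 129) (nat_lit 132))))) (PT.nd (nat_lit 234) (PT.nd (nat_lit 78) (PT.lf (nat_lit 2584) (nat_lit 6) (nat_lit 34) (nat_lit 3) (nat_lit 130) (nat_lit 129) (nat_lit 131)) (PT.nd (nat_lit 78) (PT.lf (nat_lit 2584) (nat_lit 6) (nat_lit 34) (nat_lit 1) (nat_lit 131) (nat_lit 129) (nat_lit 130)) (PT.lf (nat_lit 2356) (nat_lit 3) (nat_lit 31) (nat_lit 0) (nat_lit 132) (nat_lit 129) (nat_lit 129)))) (PT.nd (nat_lit 78) (PT.lf (nat_lit 2128) (nat_lit 6) (nat_lit 28) (nat_lit 0) (nat_lit 133) (nat_lit 129) (nat_lit 128)) (PT.nd (nat_lit 40014) (PT.lf (nat_lit 1824) (nat_lit 6) (nat_lit 24) (nat_lit 0) (nat_lit 134) (nat_lit 129) (nat_lit 127)) (PT.lf (nat_lit 1900) (nat_lit 6) (nat_lit 25) (nat_lit 5) (nat_lit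 126) (nat_lit 130) (nat_lit 134))))))) (PT.nd (nat_lit 40716) (PT.nd (nat_lit 390) (PT.nd (nat_lit 156) (PT.nd (nat_lit 78) (PT.lf (nat_lit 2204) (nat_lit 6) (nat_lit 29) (nat_lit 5) (nat_lit 127) (nat_lit 130) (nat_lit 133)) (PT.lf (nat_lit 2432) (nat_lit 6) (nat_lit 32) (nat_lit 5) (nat_lit 128) (nat_lit 130) (nat_lit 132))) (PT.nd (nat_lit 78) (PT.lf (nat_lit 2584) (nat_lit 6) (nat_lit 34) (nat_lit 5) (nat_lit 129) (nat_lit 130) (nat_lit 131)) (PT.nd (nat_lit 78) (PT.lf (nat_lit 2660) (nat_lit 1) (nat_lit 35) (nat_lit 0) (nat_lit 130) (nat_lit 130) (nat_lit 130)) (PT.lf (nat_lit 2584) (nat_lit 6) (nat_lit 34) (nat_lit 0) (nat_lit 131) (nat_lit 130) (nat_lit 129))))) (PT.nd (nat_lit 40092) (PT.nd (nat_lit 78) (PT.lf (nat_lit 2432) (nat_lit 6) (nat_lit 32) (nat_lit 0) (nat_lit 132) (nat_lit 130) (nat_lit 128)) (PT.nd (nat_lit 78) (PT.lf (nat_lit 2204) (nat_lit 6) (nat_lit 29) (nat_lit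 0) (nat_lit 133) (nat_lit 130) (nat_lit 127)) (PT.lf (nat_lit 1900) (nat_lit 6) (nat_lit 25) (nat_lit 0) (nat_lit 134) (nat_lit 130) (nat_lit 126)))) (PT.nd (nat_lit 78) (PT.lf (nat_lit 1596) (nat_lit 6) (nat_lit 21) (nat_lit 5) (nat_lit 125) (nat_lit 131) (nat_lit 134)) (PT.nd (nat_lit 78) (PT.lf (nat_lit 1976) (nat_lit 6) (nat_lit 26) (nat_lit 5) (nat_lit 126) (nat_lit 131) (nat_lit 133)) (PT.lf (nat_lit 2280) (nat_lit 6) (nat_lit 30) (nat_lit 5) (nat_lit 127) (nat_lit 131) (nat_lit 132)))))) (PT.nd (nat_lit 390) (PT.nd (nat_lit 156) (PT.nd (nat_lit 78) (PT.lf (nat_lit 2508) (nat_lit 3) (nat_lit 33) (nat_lit 4) (nat_lit 128) (nat_lit 131) (nat_lit 131)) (PT.lf (nat_lit 2584) (nat_lit 6) (nat_lit 34) (nat_lit 4) (nat_lit 129) (nat_lit 131) (nat_lit 130))) (PT.nd (nat_lit 78) (PT.lf (nat_lit 2584) (nat_lit 6) (nat_lit 34) (nat_lit 2) (nat_lit 130) (nat_lit 131) (nat_lit 129)) (PT.nd (nat_lit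 78) (PT.lf (nat_lit 2508) (nat_lit 3) (nat_lit 33) (nat_lit 0) (nat_lit 131) (nat_lit 131) (nat_lit 128)) (PT.lf (nat_lit 2280) (nat_lit 6) (nat_lit 30) (nat_lit 0) (nat_lit 132) (nat_lit 131) (nat_lit 127))))) (PT.nd (nat_lit 39936) (PT.nd (nat_lit 78) (PT.lf (nat_lit 1976) (nat_lit 6) (nat_lit 26) (nat_lit 0) (nat_lit 133) (nat_lit 131) (nat_lit 126)) (PT.nd (nat_lit 39780) (PT.lf (nat_lit 1596) (nat_lit 6) (nat_lit 21) (nat_lit 0) (nat_lit 134) (nat_lit 131) (nat_lit 125)) (PT.lf (nat_lit 1292) (nat_lit 6) (nat_lit 17) (nat_lit 5) (nat_lit 123) (nat_lit 132) (nat_lit 135)))) (PT.nd (nat_lit 78) (PT.lf (nat_lit 1444) (nat_lit 6) (nat_lit 19) (nat_lit 5) (nat_lit 124) (nat_lit 132) (nat_lit 134)) (PT.nd (nat_lit 78) (PT.lf (nat_lit 1672) (nat_lit 6) (nat_lit 22) (nat_lit 5) (nat_lit 125) (nat_lit 132) (nat_lit 133)) (PT.lf (nat_lit 2052) (nat_lit 3) (nat_lit 27) (nat_lit 4) (nat_lit 126)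 (nat_lit 132) (nat_lit 132))))))))
noncomputable def pc2 : PT := (PT.nd (nat_lit 41184) (PT.nd (nat_lit 40326) (PT.nd (nat_lit 390) (PT.nd (nat_lit 156) (PT.nd (nat_lit 78) (PT.lf (nat_lit 2280) (nat_lit 6) (nat_lit 30) (nat_lit 4) (nat_lit 127) (nat_lit 132) (nat_lit 131)) (PT.lf (nat_lit 2432) (nat_lit 6) (nat_lit 32) (nat_lit 4) (nat_lit 128) (nat_lit 132) (nat_lit 130))) (PT.nd (nat_lit 78) (PT.lf (nat_lit 2356) (nat_lit 3) (nat_lit 31) (nat_lit 2) (nat_lit 129) (nat_lit 132) (nat_lit 129)) (PT.nd (nat_lit 78) (PT.lf (nat_lit 2432) (nat_lit 6) (nat_lit 32) (nat_lit 2) (nat_lit 130) (nat_lit 132) (nat_lit 128)) (PT.lf (nat_lit 2280) (nat_lit 6) (nat_lit 30) (nat_lit 2) (nat_lit 131) (nat_lit 132) (nat_lit 127))))) (PT.nd (nat_lit 156) (PT.nd (nat_lit 78) (PT.lf (nat_lit 2052) (nat_lit 3) (nat_lit 27) (nat_lit 0) (nat_lit 132) (nat_lit 132) (nat_lit 126)) (PT.lf (nat_lit 1672) (nat_lit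 6) (nat_lit 22) (nat_lit 0) (nat_lit 133) (nat_lit 132) (nat_lit 125))) (PT.nd (nat_lit 78) (PT.lf (nat_lit 1444) (nat_lit 6) (nat_lit 19) (nat_lit 0) (nat_lit 134) (nat_lit 132) (nat_lit 124)) (PT.nd (nat_lit 39624) (PT.lf (nat_lit 1292) (nat_lit 6) (nat_lit 17) (nat_lit 0) (nat_lit 135) (nat_lit 132) (nat_lit 123)) (PT.lf (nat_lit 1140) (nat_lit 6) (nat_lit 15) (nat_lit 5) (nat_lit 122) (nat_lit 133) (nat_lit 135)))))) (PT.nd (nat_lit 390) (PT.nd (nat_lit 156) (PT.nd (nat_lit 78) (PT.lf (nat_lit 1368) (nat_lit 6) (nat_lit 18) (nat_lit 5) (nat_lit 123) (nat_lit 133) (nat_lit 134)) (PT.lf (nat_lit 1520) (nat_lit 3) (nat_lit 20) (nat_lit 4) (nat_lit 124) (nat_lit 133) (nat_lit 133))) (PT.nd (nat_lit 78) (PT.lf (nat_lit 1672) (nat_lit 6) (nat_lit 22) (nat_lit 4) (nat_lit 125) (nat_lit 133) (nat_lit 132)) (PT.nd (nat_lit 78) (PT.lf (nat_lit 1976) (nat_lit 6) (nat_lit 26) (nat_lit 4) (nat_lit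 126) (nat_lit 133) (nat_lit 131)) (PT.lf (nat_lit 2204) (nat_lit 6) (nat_lit 29) (nat_lit 4) (nat_lit 127) (nat_lit 133) (nat_lit 130))))) (PT.nd (nat_lit 234) (PT.nd (nat_lit 78) (PT.lf (nat_lit 2128) (nat_lit 6) (nat_lit 28) (nat_lit 4) (nat_lit 128) (nat_lit 133) (nat_lit 129)) (PT.nd (nat_lit 78) (PT.lf (nat_lit 2128) (nat_lit 6) (nat_lit 28) (nat_lit 2) (nat_lit 129) (nat_lit 133) (nat_lit 128)) (PT.lf (nat_lit 2204) (nat_lit 6) (nat_lit 29) (nat_lit 2) (nat_lit 130) (nat_lit 133) (nat_lit 127)))) (PT.nd (nat_lit 78) (PT.lf (nat_lit 1976) (nat_lit 6) (nat_lit 26) (nat_lit 2) (nat_lit 131) (nat_lit 133) (nat_lit 126)) (PT.nd (nat_lit 78) (PT.lf (nat_lit 1672) (nat_lit 6) (nat_lit 22) (nat_lit 2) (nat_lit 132) (nat_lit 133) (nat_lit 125)) (PT.lf (nat_lit 1520) (nat_lit 3) (nat_lit 20) (nat_lit 0) (nat_lit 133) (nat_lit 133) (nat_lit 124))))))) (PT.nd (nat_lit 40248) (PT.nd (nat_lit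 39780) (PT.nd (nat_lit 39546) (PT.nd (nat_lit 78) (PT.lf (nat_lit 1368) (nat_lit 6) (nat_lit 18) (nat_lit 0) (nat_lit 134) (nat_lit 133) (nat_lit 123)) (PT.lf (nat_lit 1140) (nat_lit 6) (nat_lit 15) (nat_lit 0) (nat_lit 135) (nat_lit 133) (nat_lit 122))) (PT.nd (nat_lit 78) (PT.lf (nat_lit 912) (nat_lit 6) (nat_lit 12) (nat_lit 5) (nat_lit 120) (nat_lit 134) (nat_lit 136)) (PT.nd (nat_lit 78) (PT.lf (nat_lit 1064) (nat_lit 6) (nat_lit 14) (nat_lit 5) (nat_lit 121) (nat_lit 134) (nat_lit 135)) (PT.lf (nat_lit 1216) (nat_lit 3) (nat_lit 16) (nat_lit 4) (nat_lit 122) (nat_lit 134) (nat_lit 134))))) (PT.nd (nat_lit 234) (PT.nd (nat_lit 78) (PT.lf (nat_lit 1368) (nat_lit 6) (nat_lit 18) (nat_lit 4) (nat_lit 123) (nat_lit 134) (nat_lit 133)) (PT.nd (nat_lit 78) (PT.lf (nat_lit 1444) (nat_lit 6) (nat_lit 19) (nat_lit 4) (nat_lit 124) (nat_lit 134) (nat_lit 132)) (PT.lf (nat_lit 1596) (nat_lit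 6) (nat_lit 21) (nat_lit 4) (nat_lit 125) (nat_lit 134) (nat_lit 131)))) (PT.nd (nat_lit 78) (PT.lf (nat_lit 1900) (nat_lit 6) (nat_lit 25) (nat_lit 4) (nat_lit 126) (nat_lit 134) (nat_lit 130)) (PT.nd (nat_lit 78) (PT.lf (nat_lit 1824) (nat_lit 6) (nat_lit 24) (nat_lit 4) (nat_lit 127) (nat_lit 134) (nat_lit 129)) (PT.lf (nat_lit 1748) (nat_lit 3) (nat_lit 23) (nat_lit 2) (nat_lit 128) (nat_lit 134) (nat_lit 128)))))) (PT.nd (nat_lit 390) (PT.nd (nat_lit 156) (PT.nd (nat_lit 78) (PT.lf (nat_lit 1824) (nat_lit 6) (nat_lit 24) (nat_lit 2) (nat_lit 129) (nat_lit 134) (nat_lit 127)) (PT.lf (nat_lit 1900) (nat_lit 6) (nat_lit 25) (nat_lit 2) (nat_lit 130) (nat_lit 134) (nat_lit 126))) (PT.nd (nat_lit 78) (PT.lf (nat_lit 1596) (nat_lit 6) (nat_lit 21) (nat_lit 2) (nat_lit 131) (nat_lit 134) (nat_lit 125)) (PT.nd (nat_lit 78) (PT.lf (nat_lit 1444) (nat_lit 6) (nat_lit 19) (nat_lit 2) (nat_lit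 132) (nat_lit 134) (nat_lit 124)) (PT.lf (nat_lit 1368) (nat_lit 6) (nat_lit 18) (nat_lit 2) (nat_lit 133) (nat_lit 134) (nat_lit 123))))) (PT.nd (nat_lit 39390) (PT.nd (nat_lit 78) (PT.lf (nat_lit 1216) (nat_lit 3) (nat_lit 16) (nat_lit 0) (nat_lit 134) (nat_lit 134) (nat_lit 122)) (PT.nd (nat_lit 78) (PT.lf (nat_lit 1064) (nat_lit 6) (nat_lit 14) (nat_lit 0) (nat_lit 135) (nat_lit 134) (nat_lit 121)) (PT.lf (nat_lit 912) (nat_lit 6) (nat_lit 12) (nat_lit 0) (nat_lit 136) (nat_lit 134) (nat_lit 120)))) (PT.nd (nat_lit 78) (PT.lf (nat_lit 684) (nat_lit 6) (nat_lit 9) (nat_lit 5) (nat_lit 118) (nat_lit 135) (nat_lit 137)) (PT.nd (nat_lit 78) (PT.lf (nat_lit 836) (nat_lit 6) (nat_lit 11) (nat_lit 5) (nat_lit 119) (nat_lit 135) (nat_lit 136)) (PT.lf (nat_lit 988) (nat_lit 3) (nat_lit 13) (nat_lit 4) (nat_lit 120) (nat_lit 135) (nat_lit 135))))))))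
noncomputable def pc3 : PT := (PT.nd (nat_lit 80886) (PT.nd (nat_lit 40326) (PT.nd (nat_lit 1014) (PT.nd (nat_lit 156) (PT.nd (nat_lit 78) (PT.lf (nat_lit 1064) (nat_lit 6) (nat_lit 14) (nat_lit 4) (nat_lit 121) (nat_lit 135) (nat_lit 134)) (PT.lf (nat_lit 1140) (nat_lit 6) (nat_lit 15) (nat_lit 4) (nat_lit 122) (nat_lit 135) (nat_lit 133))) (PT.nd (nat_lit 702) (PT.lf (nat_lit 1292) (nat_lit 6) (nat_lit 17) (nat_lit 4) (nat_lit 123) (nat_lit 135) (nat_lit 132)) (PT.nd (nat_lit 78) (PT.lf (nat_lit 1292) (nat_lit 6) (nat_lit 17) (nat_lit 2) (nat_lit 132) (nat_lit 135) (nat_lit 123)) (PT.lf (nat_lit 1140) (nat_lit 6) (nat_lit 15) (nat_lit 2) (nat_lit 133) (nat_lit 135) (nat_lit 122))))) (PT.nd (nat_lit 156) (PT.nd (nat_lit 78) (PT.lf (nat_lit 1064) (nat_lit 6) (nat_lit 14) (nat_lit 2) (nat_lit 134) (nat_lit 135) (nat_lit 121)) (PT.lf (nat_lit 988) (nat_lit 3) (nat_lit 13) (nat_lit 0) (nat_lit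 135) (nat_lit 135) (nat_lit 120))) (PT.nd (nat_lit 78) (PT.lf (nat_lit 836) (nat_lit 6) (nat_lit 11) (nat_lit 0) (nat_lit 136) (nat_lit 135) (nat_lit 119)) (PT.nd (nat_lit 39000) (PT.lf (nat_lit 684) (nat_lit 6) (nat_lit 9) (nat_lit 0) (nat_lit 137) (nat_lit 135) (nat_lit 118)) (PT.lf (nat_lit 456) (nat_lit 6) (nat_lit 6) (nat_lit 5) (nat_lit 116) (nat_lit 136) (nat_lit 138)))))) (PT.nd (nat_lit 1404) (PT.nd (nat_lit 156) (PT.nd (nat_lit 78) (PT.lf (nat_lit 608) (nat_lit 6) (nat_lit 8) (nat_lit 5) (nat_lit 117) (nat_lit 136) (nat_lit 137)) (PT.lf (nat_lit 760) (nat_lit 3) (nat_lit 10) (nat_lit 4) (nat_lit 118) (nat_lit 136) (nat_lit 136))) (PT.nd (nat_lit 78) (PT.lf (nat_lit 836) (nat_lit 6) (nat_lit 11) (nat_lit 4) (nat_lit 119) (nat_lit 136) (nat_lit 135)) (PT.nd (nat_lit 1092) (PT.lf (nat_lit 912) (nat_lit 6) (nat_lit 12) (nat_lit 4) (nat_lit 120) (nat_lit 136) (nat_lit 134)) (PT.lf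 (nat_lit 912) (nat_lit 6) (nat_lit 12) (nat_lit 2) (nat_lit 134) (nat_lit 136) (nat_lit 120))))) (PT.nd (nat_lit 234) (PT.nd (nat_lit 78) (PT.lf (nat_lit 836) (nat_lit 6) (nat_lit 11) (nat_lit 2) (nat_lit 135) (nat_lit 136) (nat_lit 119)) (PT.nd (nat_lit 78) (PT.lf (nat_lit 760) (nat_lit 3) (nat_lit 10) (nat_lit 0) (nat_lit 136) (nat_lit 136) (nat_lit 118)) (PT.lf (nat_lit 608) (nat_lit 6) (nat_lit 8) (nat_lit 0) (nat_lit 137) (nat_lit 136) (nat_lit 117)))) (PT.nd (nat_lit 38766) (PT.lf (nat_lit 456) (nat_lit 6) (nat_lit 6) (nat_lit 0) (nat_lit 138) (nat_lit 136) (nat_lit 116)) (PT.nd (nat_lit 78) (PT.lf (nat_lit 228) (nat_lit 6) (nat_lit 3) (nat_lit 5) (nat_lit 114) (nat_lit 137) (nat_lit 139)) (PT.lf (nat_lit 380) (nat_lit 6) (nat_lit 5) (nat_lit 5) (nat_lit 115) (nat_lit 137) (nat_lit 138))))))) (PT.nd (nat_lit 40638) (PT.nd (nat_lit 1638) (PT.nd (nat_lit 156) (PT.nd (nat_lit 78) (PT.lf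 (nat_lit 532) (nat_lit 3) (nat_lit 7) (nat_lit 4) (nat_lit 116) (nat_lit 137) (nat_lit 137)) (PT.lf (nat_lit 608) (nat_lit 6) (nat_lit 8) (nat_lit 4) (nat_lit 117) (nat_lit 137) (nat_lit 136))) (PT.nd (nat_lit 1326) (PT.lf (nat_lit 684) (nat_lit 6) (nat_lit 9) (nat_lit 4) (nat_lit 118) (nat_lit 137) (nat_lit 135)) (PT.nd (nat_lit 78) (PT.lf (nat_lit 684) (nat_lit 6) (nat_lit 9) (nat_lit 2) (nat_lit 135) (nat_lit 137) (nat_lit 118)) (PT.lf (nat_lit 608) (nat_lit 6) (nat_lit 8) (nat_lit 2) (nat_lit 136) (nat_lit 137) (nat_lit 117))))) (PT.nd (nat_lit 38766) (PT.nd (nat_lit 78) (PT.lf (nat_lit 532) (nat_lit 3) (nat_lit 7) (nat_lit 0) (nat_lit 137) (nat_lit 137) (nat_lit 116)) (PT.nd (nat_lit 78) (PT.lf (nat_lit 380) (nat_lit 6) (nat_lit 5) (nat_lit 0) (nat_lit 138) (nat_lit 137) (nat_lit 115)) (PT.lf (nat_lit 228) (nat_lit 6) (nat_lit 3) (nat_lit 0) (nat_lit 139) (nat_lit 137) (nat_lit 114))))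 (PT.nd (nat_lit 78) (PT.lf (nat_lit 152) (nat_lit 6) (nat_lit 2) (nat_lit 5) (nat_lit 113) (nat_lit 138) (nat_lit 139)) (PT.nd (nat_lit 78) (PT.lf (nat_lit 304) (nat_lit 3) (nat_lit 4) (nat_lit 4) (nat_lit 114) (nat_lit 138) (nat_lit 138)) (PT.lf (nat_lit 380) (nat_lit 6) (nat_lit 5) (nat_lit 4) (nat_lit 115) (nat_lit 138) (nat_lit 137)))))) (PT.nd (nat_lit 40326) (PT.nd (nat_lit 1638) (PT.nd (nat_lit 1560) (PT.lf (nat_lit 456) (nat_lit 6) (nat_lit 6) (nat_lit 4) (nat_lit 116) (nat_lit 138) (nat_lit 136)) (PT.lf (nat_lit 456) (nat_lit 6) (nat_lit 6) (nat_lit 2) (nat_lit 136) (nat_lit 138) (nat_lit 116))) (PT.nd (nat_lit 78) (PT.lf (nat_lit 380) (nat_lit 6) (nat_lit 5) (nat_lit 2) (nat_lit 137) (nat_lit 138) (nat_lit 115)) (PT.nd (nat_lit 78) (PT.lf (nat_lit 304) (nat_lit 3) (nat_lit 4) (nat_lit 0) (nat_lit 138) (nat_lit 138) (nat_lit 114)) (PT.lf (nat_lit 152) (nat_lit 6) (nat_lit 2) (nat_lit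 0) (nat_lit 139) (nat_lit 138) (nat_lit 113))))) (PT.nd (nat_lit 1950) (PT.nd (nat_lit 78) (PT.lf (nat_lit 76) (nat_lit 3) (nat_lit 1) (nat_lit 4) (nat_lit 112) (nat_lit 139) (nat_lit 139)) (PT.nd (nat_lit 78) (PT.lf (nat_lit 152) (nat_lit 6) (nat_lit 2) (nat_lit 4) (nat_lit 113) (nat_lit 139) (nat_lit 138)) (PT.lf (nat_lit 228) (nat_lit 6) (nat_lit 3) (nat_lit 4) (nat_lit 114) (nat_lit 139) (nat_lit 137)))) (PT.nd (nat_lit 78) (PT.lf (nat_lit 228) (nat_lit 6) (nat_lit 3) (nat_lit 2) (nat_lit 137) (nat_lit 139) (nat_lit 114)) (PT.nd (nat_lit 78) (PT.lf (nat_lit 152) (nat_lit 6) (nat_lit 2) (nat_lit 2) (nat_lit 138) (nat_lit 139) (nat_lit 113)) (PT.lf (nat_lit 76) (nat_lit 3) (nat_lit 1) (nat_lit 0) (nat_lit 139) (nat_lit 139) (nat_lit 112))))))))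
noncomputable def xc0 : XT := (XT.nd (nat_lit 202410) (nat_lit 0) (nat_lit 0) (XT.nd (nat_lit 121680) (nat_lit 0) (nat_lit 0) (XT.nd (nat_lit 81120) (nat_lit 0) (nat_lit 0) (XT.nd (nat_lit 40638) (nat_lit 0) (nat_lit 0) (XT.nd (nat_lit 40482) (nat_lit 0) (nat_lit 0) (XT.lf (nat_lit 0) (nat_lit 2351010418691) (nat_lit 76) (nat_lit 3050886531674) (nat_lit 76) (nat_lit 3050886531674) (nat_lit 1) (nat_lit 4) (nat_lit 2) (nat_lit 5) (nat_lit 2) (nat_lit 4) (nat_lit 330) (nat_lit 225) (nat_lit 225)) (XT.nd (nat_lit 78) (nat_lit 0) (nat_lit 0) (XT.lf (nat_lit 0) (nat_lit 1776806921822) (nat_lit 76) (nat_lit 2307373827231) (nat_lit 76) (nat_lit 2307373827231) (nat_lit 1) (nat_lit 4) (nat_lit 2) (nat_lit 5) (nat_lit 2) (nat_lit 4) (nat_lit 328) (nat_lit 226) (nat_lit 226)) (XT.lf (nat_lit 0) (nat_lit 4087780404891) (nat_lit 76) (nat_lit 5306381878684) (nat_lit 76) (nat_lit 5306368153667) (nat_lit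 1) (nat_lit 4) (nat_lit 2) (nat_lit 5) (nat_lit 2) (nat_lit 4) (nat_lit 329) (nat_lit 226) (nat_lit 225)))) (XT.nd (nat_lit 40326) (nat_lit 0) (nat_lit 0) (XT.lf (nat_lit 0) (nat_lit 4701976391347) (nat_lit 76) (nat_lit 6101809007345) (nat_lit 76) (nat_lit 6101783347531) (nat_lit 1) (nat_lit 4) (nat_lit 2) (nat_lit 5) (nat_lit 2) (nat_lit 4) (nat_lit 330) (nat_lit 226) (nat_lit 224)) (XT.nd (nat_lit 78) (nat_lit 0) (nat_lit 0) (XT.lf (nat_lit 0) (nat_lit 1342492376222) (nat_lit 76) (nat_lit 1745241198711) (nat_lit 76) (nat_lit 1745241198711) (nat_lit 1) (nat_lit 4) (nat_lit 2) (nat_lit 5) (nat_lit 2) (nat_lit 4) (nat_lit 326) (nat_lit 227) (nat_lit 227)) (XT.lf (nat_lit 0) (nat_lit 3089025622715) (nat_lit 76) (nat_lit 4013390144496) (nat_lit 76) (nat_lit 4013374360726) (nat_lit 1) (nat_lit 4) (nat_lit 2) (nat_lit 5) (nat_lit 2) (nat_lit 4) (nat_lit 327) (nat_lit 227) (nat_lit 226)))))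 (XT.nd (nat_lit 40326) (nat_lit 0) (nat_lit 0) (XT.nd (nat_lit 78) (nat_lit 0) (nat_lit 0) (XT.lf (nat_lit 0) (nat_lit 3553562730704) (nat_lit 76) (nat_lit 4614788990057) (nat_lit 76) (nat_lit 4614759481271) (nat_lit 1) (nat_lit 4) (nat_lit 2) (nat_lit 5) (nat_lit 2) (nat_lit 4) (nat_lit 328) (nat_lit 227) (nat_lit 225)) (XT.nd (nat_lit 78) (nat_lit 0) (nat_lit 0) (XT.lf (nat_lit 0) (nat_lit 4087684845914) (nat_lit 76) (nat_lit 5306445433259) (nat_lit 76) (nat_lit 5306403989675) (nat_lit 1) (nat_lit 4) (nat_lit 2) (nat_lit 5) (nat_lit 2) (nat_lit 4) (nat_lit 329) (nat_lit 227) (nat_lit 224)) (XT.lf (nat_lit 0) (nat_lit 4701842183644) (nat_lit 76) (nat_lit 6101891882771) (nat_lit 76) (nat_lit 6101840061103) (nat_lit 1) (nat_lit 4) (nat_lit 2) (nat_lit 5) (nat_lit 2) (nat_lit 4) (nat_lit 330) (nat_lit 227) (nat_lit 223)))) (XT.nd (nat_lit 78) (nat_lit 0) (nat_lit 0) (XT.lf (nat_lit 0) (nat_lit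 1013933844093) (nat_lit 76) (nat_lit 1320268435149) (nat_lit 76) (nat_lit 1320268435149) (nat_lit 1) (nat_lit 4) (nat_lit 2) (nat_lit 5) (nat_lit 2) (nat_lit 4) (nat_lit 324) (nat_lit 228) (nat_lit 228)) (XT.nd (nat_lit 78) (nat_lit 0) (nat_lit 0) (XT.lf (nat_lit 0) (nat_lit 2333534972429) (nat_lit 76) (nat_lit 3035853096423) (nat_lit 76) (nat_lit 3035834945088) (nat_lit 1) (nat_lit 4) (nat_lit 2) (nat_lit 5) (nat_lit 2) (nat_lit 4) (nat_lit 325) (nat_lit 228) (nat_lit 227)) (XT.lf (nat_lit 0) (nat_lit 2684925972562) (nat_lit 76) (nat_lit 3490529933357) (nat_lit 76) (nat_lit 3490495998252) (nat_lit 1) (nat_lit 4) (nat_lit 2) (nat_lit 5) (nat_lit 2) (nat_lit 4) (nat_lit 326) (nat_lit 228) (nat_lit 226)))))) (XT.nd (nat_lit 40404) (nat_lit 0) (nat_lit 0) (XT.nd (nat_lit 234) (nat_lit 0) (nat_lit 0) (XT.nd (nat_lit 78) (nat_lit 0) (nat_lit 0) (XT.lf (nat_lit 0) (nat_lit 3088915729892) (nat_lit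 76) (nat_lit 4013463232257) (nat_lit 76) (nat_lit 4013415572136) (nat_lit 1) (nat_lit 4) (nat_lit 2) (nat_lit 5) (nat_lit 2) (nat_lit 4) (nat_lit 327) (nat_lit 228) (nat_lit 225)) (XT.nd (nat_lit 78) (nat_lit 0) (nat_lit 0) (XT.lf (nat_lit 0) (nat_lit 3553408391845) (nat_lit 76) (nat_lit 4614884296798) (nat_lit 76) (nat_lit 4614824701880) (nat_lit 1) (nat_lit 4) (nat_lit 2) (nat_lit 5) (nat_lit 2) (nat_lit 4) (nat_lit 328) (nat_lit 228) (nat_lit 224)) (XT.lf (nat_lit 0) (nat_lit 4087491858329) (nat_lit 76) (nat_lit 5306560060851) (nat_lit 76) (nat_lit 5306490087848) (nat_lit 1) (nat_lit 4) (nat_lit 2) (nat_lit 5) (nat_lit 2) (nat_lit 4) (nat_lit 329) (nat_lit 228) (nat_lit 223)))) (XT.nd (nat_lit 40014) (nat_lit 0) (nat_lit 0) (XT.lf (nat_lit 0) (nat_lit 4701615588471) (nat_lit 76) (nat_lit 6102023311104) (nat_lit 76) (nat_lit 6101944313680) (nat_lit 1) (nat_lit 4) (nat_lit 2) (nat_lit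 5) (nat_lit 2) (nat_lit 4) (nat_lit 330) (nat_lit 228) (nat_lit 222)) (XT.nd (nat_lit 78) (nat_lit 0) (nat_lit 0) (XT.lf (nat_lit 0) (nat_lit 765318901000) (nat_lit 76) (nat_lit 999020274434) (nat_lit 76) (nat_lit 999020274434) (nat_lit 1) (nat_lit 4) (nat_lit 2) (nat_lit 5) (nat_lit 2) (nat_lit 4) (nat_lit 322) (nat_lit 229) (nat_lit 229)) (XT.lf (nat_lit 0) (nat_lit 1761943672968) (nat_lit 76) (nat_lit 2296867681115) (nat_lit 76) (nat_lit 2296846807080) (nat_lit 1) (nat_lit 4) (nat_lit 2) (nat_lit 5) (nat_lit 2) (nat_lit 4) (nat_lit 323) (nat_lit 229) (nat_lit 228))))) (XT.nd (nat_lit 234) (nat_lit 0) (nat_lit 0) (XT.nd (nat_lit 78) (nat_lit 0) (nat_lit 0) (XT.lf (nat_lit 0) (nat_lit 2027800091322) (nat_lit 76) (nat_lit 2640591536623) (nat_lit 76) (nat_lit 2640552511254) (nat_lit 1) (nat_lit 4) (nat_lit 2) (nat_lit 5) (nat_lit 2) (nat_lit 4) (nat_lit 324) (nat_lit 229) (nat_lit 227))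 (XT.nd (nat_lit 78) (nat_lit 0) (nat_lit 0) (XT.lf (nat_lit 0) (nat_lit 2333408595683) (nat_lit 76) (nat_lit 3035937147348) (nat_lit 76) (nat_lit 3035882338209) (nat_lit 1) (nat_lit 4) (nat_lit 2) (nat_lit 5) (nat_lit 2) (nat_lit 4) (nat_lit 325) (nat_lit 229) (nat_lit 226)) (XT.lf (nat_lit 0) (nat_lit 2684748482875) (nat_lit 76) (nat_lit 3490639536108) (nat_lit 76) (nat_lit 3490571001952) (nat_lit 1) (nat_lit 4) (nat_lit 2) (nat_lit 5) (nat_lit 2) (nat_lit 4) (nat_lit 326) (nat_lit 229) (nat_lit 225)))) (XT.nd (nat_lit 156) (nat_lit 0) (nat_lit 0) (XT.nd (nat_lit 78) (nat_lit 0) (nat_lit 0) (XT.lf (nat_lit 0) (nat_lit 3088693794169) (nat_lit 76) (nat_lit 4013595053988) (nat_lit 76) (nat_lit 4013514585035) (nat_lit 1) (nat_lit 4) (nat_lit 2) (nat_lit 5) (nat_lit 2) (nat_lit 4) (nat_lit 327) (nat_lit 229) (nat_lit 224)) (XT.lf (nat_lit 0) (nat_lit 3553147807396) (nat_lit 76) (nat_lit 4615035439380)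 (nat_lit 76) (nat_lit 4614944592343) (nat_lit 1) (nat_lit 4) (nat_lit 2) (nat_lit 5) (nat_lit 2) (nat_lit 4) (nat_lit 328) (nat_lit 229) (nat_lit 223))) (XT.nd (nat_lit 78) (nat_lit 0) (nat_lit 0) (XT.lf (nat_lit 0) (nat_lit 4087197666292) (nat_lit 76) (nat_lit 5306728004174) (nat_lit 76) (nat_lit 5306628132715) (nat_lit 1) (nat_lit 4) (nat_lit 2) (nat_lit 5) (nat_lit 2) (nat_lit 4) (nat_lit 329) (nat_lit 229) (nat_lit 222)) (XT.lf (nat_lit 0) (nat_lit 4701292172444) (nat_lit 76) (nat_lit 6102205863767) (nat_lit 76) (nat_lit 6102098144985) (nat_lit 1) (nat_lit 4) (nat_lit 2) (nat_lit 5) (nat_lit 2) (nat_lit 4) (nat_lit 330) (nat_lit 229) (nat_lit 221))))))) (XT.nd (nat_lit 40638) (nat_lit 0) (nat_lit 0) (XT.nd (nat_lit 468) (nat_lit 0) (nat_lit 0) (XT.nd (nat_lit 234) (nat_lit 0) (nat_lit 0) (XT.nd (nat_lit 78) (nat_lit 0) (nat_lit 0) (XT.lf (nat_lit 0) (nat_lit 577126173045) (nat_lit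 76) (nat_lit 756216660788) (nat_lit 76) (nat_lit 756216660788) (nat_lit 1) (nat_lit 4) (nat_lit 2) (nat_lit 5) (nat_lit 2) (nat_lit 4) (nat_lit 320) (nat_lit 230) (nat_lit 230)) (XT.nd (nat_lit 78) (nat_lit 0) (nat_lit 0) (XT.lf (nat_lit 0) (nat_lit 1329356928770) (nat_lit 76) (nat_lit 1738287527217) (nat_lit 76) (nat_lit 1738263522077) (nat_lit 1) (nat_lit 4) (nat_lit 2) (nat_lit 5) (nat_lit 2) (nat_lit 4) (nat_lit 321) (nat_lit 230) (nat_lit 229)) (XT.lf (nat_lit 0) (nat_lit 1530560065606) (nat_lit 76) (nat_lit 1998103415142) (nat_lit 76) (nat_lit 1998058535967) (nat_lit 1) (nat_lit 4) (nat_lit 2) (nat_lit 5) (nat_lit 2) (nat_lit 4) (nat_lit 322) (nat_lit 230) (nat_lit 228)))) (XT.nd (nat_lit 78) (nat_lit 0) (nat_lit 0) (XT.lf (nat_lit 0) (nat_lit 1761798339709) (nat_lit 76) (nat_lit 2296964339679) (nat_lit 76) (nat_lit 2296901309170) (nat_lit 1) (nat_lit 4) (nat_lit 2) (nat_lit 5) (nat_lit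 2) (nat_lit 4) (nat_lit 323) (nat_lit 230) (nat_lit 227)) (XT.nd (nat_lit 78) (nat_lit 0) (nat_lit 0) (XT.lf (nat_lit 0) (nat_lit 2027595978181) (nat_lit 76) (nat_lit 2640717579788) (nat_lit 76) (nat_lit 2640638765509) (nat_lit 1) (nat_lit 4) (nat_lit 2) (nat_lit 5) (nat_lit 2) (nat_lit 4) (nat_lit 324) (nat_lit 230) (nat_lit 226)) (XT.lf (nat_lit 0) (nat_lit 2333153369601) (nat_lit 76) (nat_lit 3036088742339) (nat_lit 76) (nat_lit 3035996203043) (nat_lit 1) (nat_lit 4) (nat_lit 2) (nat_lit 5) (nat_lit 2) (nat_lit 4) (nat_lit 325) (nat_lit 230) (nat_lit 225))))) (XT.nd (nat_lit 234) (nat_lit 0) (nat_lit 0) (XT.nd (nat_lit 78) (nat_lit 0) (nat_lit 0) (XT.lf (nat_lit 0) (nat_lit 2684448810758) (nat_lit 76) (nat_lit 3490813350078) (nat_lit 76) (nat_lit 3490708875985) (nat_lit 1) (nat_lit 4) (nat_lit 2) (nat_lit 5) (nat_lit 2) (nat_lit 4) (nat_lit 326) (nat_lit 230) (nat_lit 224)) (XT.nd (nat_lit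 78) (nat_lit 0) (nat_lit 0) (XT.lf (nat_lit 0) (nat_lit 3088355473326) (nat_lit 76) (nat_lit 4013788188809) (nat_lit 76) (nat_lit 4013673336632) (nat_lit 1) (nat_lit 4) (nat_lit 2) (nat_lit 5) (nat_lit 2) (nat_lit 4) (nat_lit 327) (nat_lit 230) (nat_lit 223)) (XT.lf (nat_lit 0) (nat_lit 3552775878964) (nat_lit 76) (nat_lit 4615245374943) (nat_lit 76) (nat_lit 4615121498344) (nat_lit 1) (nat_lit 4) (nat_lit 2) (nat_lit 5) (nat_lit 2) (nat_lit 4) (nat_lit 328) (nat_lit 230) (nat_lit 222)))) (XT.nd (nat_lit 39780) (nat_lit 0) (nat_lit 0) (XT.nd (nat_lit 78) (nat_lit 0) (nat_lit 0) (XT.lf (nat_lit 0) (nat_lit 4086796513870) (nat_lit 76) (nat_lit 5306952549076) (nat_lit 76) (nat_lit 5306820825154) (nat_lit 1) (nat_lit 4) (nat_lit 2) (nat_lit 5) (nat_lit 2) (nat_lit 4) (nat_lit 329) (nat_lit 230) (nat_lit 221)) (XT.lf (nat_lit 0) (nat_lit 4700865607857) (nat_lit 76) (nat_lit 6102443112442) (nat_lit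 76) (nat_lit 6102304564761) (nat_lit 1) (nat_lit 4) (nat_lit 2) (nat_lit 5) (nat_lit 2) (nat_lit 4) (nat_lit 330) (nat_lit 230) (nat_lit 220))) (XT.nd (nat_lit 78) (nat_lit 0) (nat_lit 0) (XT.lf (nat_lit 0) (nat_lit 434590703458) (nat_lit 76) (nat_lit 572744316949) (nat_lit 76) (nat_lit 572744316949) (nat_lit 1) (nat_lit 4) (nat_lit 2) (nat_lit 5) (nat_lit 2) (nat_lit 4) (nat_lit 318) (nat_lit 231) (nat_lit 231)) (XT.lf (nat_lit 0) (nat_lit 1001820358338) (nat_lit 76) (nat_lit 1316149517499) (nat_lit 76) (nat_lit 1316121911587) (nat_lit 1) (nat_lit 4) (nat_lit 2) (nat_lit 5) (nat_lit 2) (nat_lit 4) (nat_lit 319) (nat_lit 231) (nat_lit 230)))))) (XT.nd (nat_lit 468) (nat_lit 0) (nat_lit 0) (XT.nd (nat_lit 234) (nat_lit 0) (nat_lit 0) (XT.nd (nat_lit 78) (nat_lit 0) (nat_lit 0) (XT.lf (nat_lit 0) (nat_lit 1154162949237) (nat_lit 76) (nat_lit 1512505617792) (nat_lit 76) (nat_lit 1512454006740)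 (nat_lit 1) (nat_lit 4) (nat_lit 2) (nat_lit 5) (nat_lit 2) (nat_lit 4) (nat_lit 320) (nat_lit 231) (nat_lit 229)) (XT.nd (nat_lit 78) (nat_lit 0) (nat_lit 0) (XT.lf (nat_lit 0) (nat_lit 1329189795523) (nat_lit 76) (nat_lit 1738398684566) (nat_lit 76) (nat_lit 1738326199480) (nat_lit 1) (nat_lit 4) (nat_lit 2) (nat_lit 5) (nat_lit 2) (nat_lit 4) (nat_lit 321) (nat_lit 231) (nat_lit 228)) (XT.lf (nat_lit 0) (nat_lit 1530325335495) (nat_lit 76) (nat_lit 1998248364781) (nat_lit 76) (nat_lit 1998157728360) (nat_lit 1) (nat_lit 4) (nat_lit 2) (nat_lit 5) (nat_lit 2) (nat_lit 4) (nat_lit 322) (nat_lit 231) (nat_lit 227)))) (XT.nd (nat_lit 78) (nat_lit 0) (nat_lit 0) (XT.lf (nat_lit 0) (nat_lit 1761504829716) (nat_lit 76) (nat_lit 2297138673919) (nat_lit 76) (nat_lit 2297032253728) (nat_lit 1) (nat_lit 4) (nat_lit 2) (nat_lit 5) (nat_lit 2) (nat_lit 4) (nat_lit 323) (nat_lit 231) (nat_lit 226))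 (XT.nd (nat_lit 78) (nat_lit 0) (nat_lit 0) (XT.lf (nat_lit 0) (nat_lit 2027251355247) (nat_lit 76) (nat_lit 2640917465853) (nat_lit 76) (nat_lit 2640797320646) (nat_lit 1) (nat_lit 4) (nat_lit 2) (nat_lit 5) (nat_lit 2) (nat_lit 4) (nat_lit 324) (nat_lit 231) (nat_lit 225)) (XT.lf (nat_lit 0) (nat_lit 2332764300632) (nat_lit 76) (nat_lit 3036310847384) (nat_lit 76) (nat_lit 3036178767379) (nat_lit 1) (nat_lit 4) (nat_lit 2) (nat_lit 5) (nat_lit 2) (nat_lit 4) (nat_lit 325) (nat_lit 231) (nat_lit 224))))) (XT.nd (nat_lit 234) (nat_lit 0) (nat_lit 0) (XT.nd (nat_lit 78) (nat_lit 0) (nat_lit 0) (XT.lf (nat_lit 0) (nat_lit 2684021093062) (nat_lit 76) (nat_lit 3491054775975) (nat_lit 76) (nat_lit 3490912317886) (nat_lit 1) (nat_lit 4) (nat_lit 2) (nat_lit 5) (nat_lit 2) (nat_lit 4) (nat_lit 326) (nat_lit 231) (nat_lit 223)) (XT.nd (nat_lit 78) (nat_lit 0) (nat_lit 0) (XT.lf (nat_lit 0) (nat_lit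 3087894148041) (nat_lit 76) (nat_lit 4014046415447) (nat_lit 76) (nat_lit 4013894932936) (nat_lit 1) (nat_lit 4) (nat_lit 2) (nat_lit 5) (nat_lit 2) (nat_lit 4) (nat_lit 327) (nat_lit 231) (nat_lit 222)) (XT.lf (nat_lit 0) (nat_lit 3552285329690) (nat_lit 76) (nat_lit 4615518210919) (nat_lit 76) (nat_lit 4615358881086) (nat_lit 1) (nat_lit 4) (nat_lit 2) (nat_lit 5) (nat_lit 2) (nat_lit 4) (nat_lit 328) (nat_lit 231) (nat_lit 221)))) (XT.nd (nat_lit 39624) (nat_lit 0) (nat_lit 0) (XT.nd (nat_lit 78) (nat_lit 0) (nat_lit 0) (XT.lf (nat_lit 0) (nat_lit 4086280552431) (nat_lit 76) (nat_lit 5307238088826) (nat_lit 76) (nat_lit 5307071935234) (nat_lit 1) (nat_lit 4) (nat_lit 2) (nat_lit 5) (nat_lit 2) (nat_lit 4) (nat_lit 329) (nat_lit 231) (nat_lit 220)) (XT.lf (nat_lit 0) (nat_lit 4700327548883) (nat_lit 76) (nat_lit 6102739698952) (nat_lit 76) (nat_lit 6102567611656) (nat_lit 1) (nat_lit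 4) (nat_lit 2) (nat_lit 5) (nat_lit 2) (nat_lit 4) (nat_lit 330) (nat_lit 231) (nat_lit 219))) (XT.nd (nat_lit 78) (nat_lit 0) (nat_lit 0) (XT.lf (nat_lit 0) (nat_lit 326543471138) (nat_lit 76) (nat_lit 434153247700) (nat_lit 76) (nat_lit 434153247700) (nat_lit 1) (nat_lit 4) (nat_lit 2) (nat_lit 5) (nat_lit 2) (nat_lit 4) (nat_lit 316) (nat_lit 232) (nat_lit 232)) (XT.lf (nat_lit 0) (nat_lit 753650985057) (nat_lit 76) (nat_lit 997215696502) (nat_lit 76) (nat_lit 997183949704) (nat_lit 1) (nat_lit 4) (nat_lit 2) (nat_lit 5) (nat_lit 2) (nat_lit 4) (nat_lit 317) (nat_lit 232) (nat_lit 231))))))))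
noncomputable def xc1 : XT := (XT.nd (nat_lit 41340) (nat_lit 0) (nat_lit 0) (XT.nd (nat_lit 40326) (nat_lit 0) (nat_lit 0) (XT.nd (nat_lit 468) (nat_lit 0) (nat_lit 0) (XT.nd (nat_lit 234) (nat_lit 0) (nat_lit 0) (XT.nd (nat_lit 78) (nat_lit 0) (nat_lit 0) (XT.lf (nat_lit 0) (nat_lit 869078600536) (nat_lit 76) (nat_lit 1145571774546) (nat_lit 76) (nat_lit 1145512421837) (nat_lit 1) (nat_lit 4) (nat_lit 2) (nat_lit 5) (nat_lit 2) (nat_lit 4) (nat_lit 318) (nat_lit 232) (nat_lit 230)) (XT.nd (nat_lit 78) (nat_lit 0) (nat_lit 0) (XT.lf (nat_lit 0) (nat_lit 1001628155103) (nat_lit 76) (nat_lit 1316277348450) (nat_lit 76) (nat_lit 1316193990600) (nat_lit 1) (nat_lit 4) (nat_lit 2) (nat_lit 5) (nat_lit 2) (nat_lit 4) (nat_lit 319) (nat_lit 232) (nat_lit 229)) (XT.lf (nat_lit 0) (nat_lit 1153893009608) (nat_lit 76) (nat_lit 1512672309877) (nat_lit 76) (nat_lit 1512568077992) (nat_lit 1) (nat_lit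 4) (nat_lit 2) (nat_lit 5) (nat_lit 2) (nat_lit 4) (nat_lit 320) (nat_lit 232) (nat_lit 228)))) (XT.nd (nat_lit 78) (nat_lit 0) (nat_lit 0) (XT.lf (nat_lit 0) (nat_lit 1328852259031) (nat_lit 76) (nat_lit 1738599168941) (nat_lit 76) (nat_lit 1738476785723) (nat_lit 1) (nat_lit 4) (nat_lit 2) (nat_lit 5) (nat_lit 2) (nat_lit 4) (nat_lit 321) (nat_lit 232) (nat_lit 227)) (XT.nd (nat_lit 78) (nat_lit 0) (nat_lit 0) (XT.lf (nat_lit 0) (nat_lit 1529929019121) (nat_lit 76) (nat_lit 1998478233757) (nat_lit 76) (nat_lit 1998340066768) (nat_lit 1) (nat_lit 4) (nat_lit 2) (nat_lit 5) (nat_lit 2) (nat_lit 4) (nat_lit 322) (nat_lit 232) (nat_lit 226)) (XT.lf (nat_lit 0) (nat_lit 1761057400401) (nat_lit 76) (nat_lit 2297394094720) (nat_lit 76) (nat_lit 2297242202715) (nat_lit 1) (nat_lit 4) (nat_lit 2) (nat_lit 5) (nat_lit 2) (nat_lit 4) (nat_lit 323) (nat_lit 232) (nat_lit 225))))) (XT.nd (nat_lit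 234) (nat_lit 0) (nat_lit 0) (XT.nd (nat_lit 78) (nat_lit 0) (nat_lit 0) (XT.lf (nat_lit 0) (nat_lit 2026759479896) (nat_lit 76) (nat_lit 2641195105634) (nat_lit 76) (nat_lit 2641031278832) (nat_lit 1) (nat_lit 4) (nat_lit 2) (nat_lit 5) (nat_lit 2) (nat_lit 4) (nat_lit 324) (nat_lit 232) (nat_lit 224)) (XT.nd (nat_lit 78) (nat_lit 0) (nat_lit 0) (XT.lf (nat_lit 0) (nat_lit 2332233776554) (nat_lit 76) (nat_lit 3036607808016) (nat_lit 76) (nat_lit 3036433603130) (nat_lit 1) (nat_lit 4) (nat_lit 2) (nat_lit 5) (nat_lit 2) (nat_lit 4) (nat_lit 325) (nat_lit 232) (nat_lit 223)) (XT.lf (nat_lit 0) (nat_lit 2683456961396) (nat_lit 76) (nat_lit 3491368537348) (nat_lit 76) (nat_lit 3491185308040) (nat_lit 1) (nat_lit 4) (nat_lit 2) (nat_lit 5) (nat_lit 2) (nat_lit 4) (nat_lit 326) (nat_lit 232) (nat_lit 222)))) (XT.nd (nat_lit 156) (nat_lit 0) (nat_lit 0) (XT.nd (nat_lit 78) (nat_lit 0) (nat_lit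 0) (XT.lf (nat_lit 0) (nat_lit 3087300792386) (nat_lit 76) (nat_lit 4014374786159) (nat_lit 76) (nat_lit 4014183709528) (nat_lit 1) (nat_lit 4) (nat_lit 2) (nat_lit 5) (nat_lit 2) (nat_lit 4) (nat_lit 327) (nat_lit 232) (nat_lit 221)) (XT.lf (nat_lit 0) (nat_lit 3551666561869) (nat_lit 76) (nat_lit 4615859285406) (nat_lit 76) (nat_lit 4615661385015) (nat_lit 1) (nat_lit 4) (nat_lit 2) (nat_lit 5) (nat_lit 2) (nat_lit 4) (nat_lit 328) (nat_lit 232) (nat_lit 220))) (XT.nd (nat_lit 78) (nat_lit 0) (nat_lit 0) (XT.lf (nat_lit 0) (nat_lit 4085639687075) (nat_lit 76) (nat_lit 5307590210072) (nat_lit 76) (nat_lit 5307386375978) (nat_lit 1) (nat_lit 4) (nat_lit 2) (nat_lit 5) (nat_lit 2) (nat_lit 4) (nat_lit 329) (nat_lit 232) (nat_lit 219)) (XT.lf (nat_lit 0) (nat_lit 4699667468280) (nat_lit 76) (nat_lit 6103101426076) (nat_lit 76) (nat_lit 6102892432240) (nat_lit 1) (nat_lit 4) (nat_lit 2) (nat_lit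 5) (nat_lit 2) (nat_lit 4) (nat_lit 330) (nat_lit 232) (nat_lit 218)))))) (XT.nd (nat_lit 468) (nat_lit 0) (nat_lit 0) (XT.nd (nat_lit 234) (nat_lit 0) (nat_lit 0) (XT.nd (nat_lit 78) (nat_lit 0) (nat_lit 0) (XT.lf (nat_lit 0) (nat_lit 244533810077) (nat_lit 76) (nat_lit 329519927262) (nat_lit 76) (nat_lit 329519927262) (nat_lit 1) (nat_lit 4) (nat_lit 2) (nat_lit 5) (nat_lit 2) (nat_lit 4) (nat_lit 314) (nat_lit 233) (nat_lit 233)) (XT.nd (nat_lit 78) (nat_lit 0) (nat_lit 0) (XT.lf (nat_lit 0) (nat_lit 565418914834) (nat_lit 76) (nat_lit 756358543514) (nat_lit 76) (nat_lit 756322034696) (nat_lit 1) (nat_lit 4) (nat_lit 2) (nat_lit 5) (nat_lit 2) (nat_lit 4) (nat_lit 315) (nat_lit 233) (nat_lit 232)) (XT.lf (nat_lit 0) (nat_lit 652968714938) (nat_lit 76) (nat_lit 868402107144) (nat_lit 76) (nat_lit 868333851529) (nat_lit 1) (nat_lit 4) (nat_lit 2) (nat_lit 5) (nat_lit 2) (nat_lit 4) (nat_lit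 316) (nat_lit 233) (nat_lit 231)))) (XT.nd (nat_lit 78) (nat_lit 0) (nat_lit 0) (XT.lf (nat_lit 0) (nat_lit 753429951338) (nat_lit 76) (nat_lit 997362702096) (nat_lit 76) (nat_lit 997266840569) (nat_lit 1) (nat_lit 4) (nat_lit 2) (nat_lit 5) (nat_lit 2) (nat_lit 4) (nat_lit 317) (nat_lit 233) (nat_lit 230)) (XT.nd (nat_lit 78) (nat_lit 0) (nat_lit 0) (XT.lf (nat_lit 0) (nat_lit 868768169964) (nat_lit 76) (nat_lit 1145763470444) (nat_lit 76) (nat_lit 1145643603777) (nat_lit 1) (nat_lit 4) (nat_lit 2) (nat_lit 5) (nat_lit 2) (nat_lit 4) (nat_lit 318) (nat_lit 233) (nat_lit 229)) (XT.lf (nat_lit 0) (nat_lit 1001239988137) (nat_lit 76) (nat_lit 1316507905481) (nat_lit 76) (nat_lit 1316367164779) (nat_lit 1) (nat_lit 4) (nat_lit 2) (nat_lit 5) (nat_lit 2) (nat_lit 4) (nat_lit 319) (nat_lit 233) (nat_lit 228))))) (XT.nd (nat_lit 234) (nat_lit 0) (nat_lit 0) (XT.nd (nat_lit 78) (nat_lit 0) (nat_lit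 0) (XT.lf (nat_lit 0) (nat_lit 1153437245778) (nat_lit 76) (nat_lit 1512936659198) (nat_lit 76) (nat_lit 1512777767162) (nat_lit 1) (nat_lit 4) (nat_lit 2) (nat_lit 5) (nat_lit 2) (nat_lit 4) (nat_lit 320) (nat_lit 233) (nat_lit 227)) (XT.nd (nat_lit 78) (nat_lit 0) (nat_lit 0) (XT.lf (nat_lit 0) (nat_lit 1328337715318) (nat_lit 76) (nat_lit 1738892902863) (nat_lit 76) (nat_lit 1738718227058) (nat_lit 1) (nat_lit 4) (nat_lit 2) (nat_lit 5) (nat_lit 2) (nat_lit 4) (nat_lit 321) (nat_lit 233) (nat_lit 226)) (XT.lf (nat_lit 0) (nat_lit 1529363362467) (nat_lit 76) (nat_lit 1998797519505) (nat_lit 76) (nat_lit 1998609118682) (nat_lit 1) (nat_lit 4) (nat_lit 2) (nat_lit 5) (nat_lit 2) (nat_lit 4) (nat_lit 322) (nat_lit 233) (nat_lit 225)))) (XT.nd (nat_lit 156) (nat_lit 0) (nat_lit 0) (XT.nd (nat_lit 78) (nat_lit 0) (nat_lit 0) (XT.lf (nat_lit 0) (nat_lit 1760447297712) (nat_lit 76) (nat_lit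 2297735599448) (nat_lit 76) (nat_lit 2297535263828) (nat_lit 1) (nat_lit 4) (nat_lit 2) (nat_lit 5) (nat_lit 2) (nat_lit 4) (nat_lit 323) (nat_lit 233) (nat_lit 224)) (XT.lf (nat_lit 0) (nat_lit 2026110728481) (nat_lit 76) (nat_lit 2641555931213) (nat_lit 76) (nat_lit 2641345217509) (nat_lit 1) (nat_lit 4) (nat_lit 2) (nat_lit 5) (nat_lit 2) (nat_lit 4) (nat_lit 324) (nat_lit 233) (nat_lit 223))) (XT.nd (nat_lit 78) (nat_lit 0) (nat_lit 0) (XT.lf (nat_lit 0) (nat_lit 2331551417550) (nat_lit 76) (nat_lit 3036985434336) (nat_lit 76) (nat_lit 3036765696210) (nat_lit 1) (nat_lit 4) (nat_lit 2) (nat_lit 5) (nat_lit 2) (nat_lit 4) (nat_lit 325) (nat_lit 233) (nat_lit 222)) (XT.lf (nat_lit 0) (nat_lit 2682745378402) (nat_lit 76) (nat_lit 3491760773007) (nat_lit 76) (nat_lit 3491533187558) (nat_lit 1) (nat_lit 4) (nat_lit 2) (nat_lit 5) (nat_lit 2) (nat_lit 4) (nat_lit 326) (nat_lit 233) (nat_lit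 221))))))) (XT.nd (nat_lit 40170) (nat_lit 0) (nat_lit 0) (XT.nd (nat_lit 39624) (nat_lit 0) (nat_lit 0) (XT.nd (nat_lit 234) (nat_lit 0) (nat_lit 0) (XT.nd (nat_lit 78) (nat_lit 0) (nat_lit 0) (XT.lf (nat_lit 0) (nat_lit 3086563797227) (nat_lit 76) (nat_lit 4014779725592) (nat_lit 76) (nat_lit 4014545316384) (nat_lit 1) (nat_lit 4) (nat_lit 2) (nat_lit 5) (nat_lit 2) (nat_lit 4) (nat_lit 327) (nat_lit 233) (nat_lit 220)) (XT.nd (nat_lit 78) (nat_lit 0) (nat_lit 0) (XT.lf (nat_lit 0) (nat_lit 3550907469176) (nat_lit 76) (nat_lit 4616275271598) (nat_lit 76) (nat_lit 4616034928687) (nat_lit 1) (nat_lit 4) (nat_lit 2) (nat_lit 5) (nat_lit 2) (nat_lit 4) (nat_lit 328) (nat_lit 233) (nat_lit 219)) (XT.lf (nat_lit 0) (nat_lit 4084861379134) (nat_lit 76) (nat_lit 5308015802142) (nat_lit 76) (nat_lit 5307770299489) (nat_lit 1) (nat_lit 4) (nat_lit 2) (nat_lit 5) (nat_lit 2) (nat_lit 4) (nat_lit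 329) (nat_lit 233) (nat_lit 218)))) (XT.nd (nat_lit 39234) (nat_lit 0) (nat_lit 0) (XT.lf (nat_lit 0) (nat_lit 4698872451427) (nat_lit 76) (nat_lit 6103535371084) (nat_lit 76) (nat_lit 6103285381698) (nat_lit 1) (nat_lit 4) (nat_lit 2) (nat_lit 5) (nat_lit 2) (nat_lit 4) (nat_lit 330) (nat_lit 233) (nat_lit 217)) (XT.nd (nat_lit 78) (nat_lit 0) (nat_lit 0) (XT.lf (nat_lit 0) (nat_lit 182165729051) (nat_lit 76) (nat_lit 250587759381) (nat_lit 76) (nat_lit 250587759381) (nat_lit 1) (nat_lit 4) (nat_lit 2) (nat_lit 5) (nat_lit 2) (nat_lit 4) (nat_lit 312) (nat_lit 234) (nat_lit 234)) (XT.lf (nat_lit 0) (nat_lit 422421001222) (nat_lit 76) (nat_lit 574583964009) (nat_lit 76) (nat_lit 574541978869) (nat_lit 1) (nat_lit 4) (nat_lit 2) (nat_lit 5) (nat_lit 2) (nat_lit 4) (nat_lit 313) (nat_lit 234) (nat_lit 233))))) (XT.nd (nat_lit 234) (nat_lit 0) (nat_lit 0) (XT.nd (nat_lit 78) (nat_lit 0) (nat_lit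 0) (XT.lf (nat_lit 0) (nat_lit 488931658716) (nat_lit 76) (nat_lit 659149808030) (nat_lit 76) (nat_lit 659071314072) (nat_lit 1) (nat_lit 4) (nat_lit 2) (nat_lit 5) (nat_lit 2) (nat_lit 4) (nat_lit 314) (nat_lit 234) (nat_lit 232)) (XT.nd (nat_lit 78) (nat_lit 0) (nat_lit 0) (XT.lf (nat_lit 0) (nat_lit 565164726057) (nat_lit 76) (nat_lit 756527599947) (nat_lit 76) (nat_lit 756417359191) (nat_lit 1) (nat_lit 4) (nat_lit 2) (nat_lit 5) (nat_lit 2) (nat_lit 4) (nat_lit 315) (nat_lit 234) (nat_lit 231)) (XT.lf (nat_lit 0) (nat_lit 652611719780) (nat_lit 76) (nat_lit 868622557427) (nat_lit 76) (nat_lit 868484710760) (nat_lit 1) (nat_lit 4) (nat_lit 2) (nat_lit 5) (nat_lit 2) (nat_lit 4) (nat_lit 316) (nat_lit 234) (nat_lit 230)))) (XT.nd (nat_lit 156) (nat_lit 0) (nat_lit 0) (XT.nd (nat_lit 78) (nat_lit 0) (nat_lit 0) (XT.lf (nat_lit 0) (nat_lit 752983559327) (nat_lit 76) (nat_lit 997627842682)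 (nat_lit 76) (nat_lit 997465990875) (nat_lit 1) (nat_lit 4) (nat_lit 2) (nat_lit 5) (nat_lit 2) (nat_lit 4) (nat_lit 317) (nat_lit 234) (nat_lit 229)) (XT.lf (nat_lit 0) (nat_lit 868244041559) (nat_lit 76) (nat_lit 1146067472164) (nat_lit 76) (nat_lit 1145884746322) (nat_lit 1) (nat_lit 4) (nat_lit 2) (nat_lit 5) (nat_lit 2) (nat_lit 4) (nat_lit 318) (nat_lit 234) (nat_lit 228))) (XT.nd (nat_lit 78) (nat_lit 0) (nat_lit 0) (XT.lf (nat_lit 0) (nat_lit 1000648262868) (nat_lit 76) (nat_lit 1316845699491) (nat_lit 76) (nat_lit 1316644822315) (nat_lit 1) (nat_lit 4) (nat_lit 2) (nat_lit 5) (nat_lit 2) (nat_lit 4) (nat_lit 319) (nat_lit 234) (nat_lit 227)) (XT.lf (nat_lit 0) (nat_lit 1152786740627) (nat_lit 76) (nat_lit 1513303837809) (nat_lit 76) (nat_lit 1513087176863) (nat_lit 1) (nat_lit 4) (nat_lit 2) (nat_lit 5) (nat_lit 2) (nat_lit 4) (nat_lit 320) (nat_lit 234) (nat_lit 226)))))) (XT.nd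 (nat_lit 468) (nat_lit 0) (nat_lit 0) (XT.nd (nat_lit 234) (nat_lit 0) (nat_lit 0) (XT.nd (nat_lit 78) (nat_lit 0) (nat_lit 0) (XT.lf (nat_lit 0) (nat_lit 1327636097226) (nat_lit 76) (nat_lit 1739285633300) (nat_lit 76) (nat_lit 1739055247337) (nat_lit 1) (nat_lit 4) (nat_lit 2) (nat_lit 5) (nat_lit 2) (nat_lit 4) (nat_lit 321) (nat_lit 234) (nat_lit 225)) (XT.nd (nat_lit 78) (nat_lit 0) (nat_lit 0) (XT.lf (nat_lit 0) (nat_lit 1528617298339) (nat_lit 76) (nat_lit 1999212468921) (nat_lit 76) (nat_lit 1998970148161) (nat_lit 1) (nat_lit 4) (nat_lit 2) (nat_lit 5) (nat_lit 2) (nat_lit 4) (nat_lit 322) (nat_lit 234) (nat_lit 224)) (XT.lf (nat_lit 0) (nat_lit 1759662584857) (nat_lit 76) (nat_lit 2298169869715) (nat_lit 76) (nat_lit 2297917170871) (nat_lit 1) (nat_lit 4) (nat_lit 2) (nat_lit 5) (nat_lit 2) (nat_lit 4) (nat_lit 323) (nat_lit 234) (nat_lit 223)))) (XT.nd (nat_lit 78) (nat_lit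 0) (nat_lit 0) (XT.lf (nat_lit 0) (nat_lit 2025292408038) (nat_lit 76) (nat_lit 2642007002222) (nat_lit 76) (nat_lit 2641745278956) (nat_lit 1) (nat_lit 4) (nat_lit 2) (nat_lit 5) (nat_lit 2) (nat_lit 4) (nat_lit 324) (nat_lit 234) (nat_lit 222)) (XT.nd (nat_lit 78) (nat_lit 0) (nat_lit 0) (XT.lf (nat_lit 0) (nat_lit 2330703873118) (nat_lit 76) (nat_lit 3037451114684) (nat_lit 76) (nat_lit 3037181544095) (nat_lit 1) (nat_lit 4) (nat_lit 2) (nat_lit 5) (nat_lit 2) (nat_lit 4) (nat_lit 325) (nat_lit 234) (nat_lit 221)) (XT.lf (nat_lit 0) (nat_lit 2681872421805) (nat_lit 76) (nat_lit 3492239157129) (nat_lit 76) (nat_lit 3491962762781) (nat_lit 1) (nat_lit 4) (nat_lit 2) (nat_lit 5) (nat_lit 2) (nat_lit 4) (nat_lit 326) (nat_lit 234) (nat_lit 220))))) (XT.nd (nat_lit 234) (nat_lit 0) (nat_lit 0) (XT.nd (nat_lit 78) (nat_lit 0) (nat_lit 0) (XT.lf (nat_lit 0) (nat_lit 3085668743095) (nat_lit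 76) (nat_lit 4015269156473) (nat_lit 76) (nat_lit 4014986828422) (nat_lit 1) (nat_lit 4) (nat_lit 2) (nat_lit 5) (nat_lit 2) (nat_lit 4) (nat_lit 327) (nat_lit 234) (nat_lit 219)) (XT.nd (nat_lit 78) (nat_lit 0) (nat_lit 0) (XT.lf (nat_lit 0) (nat_lit 3549993199795) (nat_lit 76) (nat_lit 4616774308357) (nat_lit 76) (nat_lit 4616486820563) (nat_lit 1) (nat_lit 4) (nat_lit 2) (nat_lit 5) (nat_lit 2) (nat_lit 4) (nat_lit 328) (nat_lit 234) (nat_lit 218)) (XT.lf (nat_lit 0) (nat_lit 4083930400843) (nat_lit 76) (nat_lit 5308523191839) (nat_lit 76) (nat_lit 5308231217313) (nat_lit 1) (nat_lit 4) (nat_lit 2) (nat_lit 5) (nat_lit 2) (nat_lit 4) (nat_lit 329) (nat_lit 234) (nat_lit 217)))) (XT.nd (nat_lit 39156) (nat_lit 0) (nat_lit 0) (XT.nd (nat_lit 39078) (nat_lit 0) (nat_lit 0) (XT.lf (nat_lit 0) (nat_lit 4697926943648) (nat_lit 76) (nat_lit 6104050024204) (nat_lit 76) (nat_lit 6103754148171)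 (nat_lit 1) (nat_lit 4) (nat_lit 2) (nat_lit 5) (nat_lit 2) (nat_lit 4) (nat_lit 330) (nat_lit 234) (nat_lit 216)) (XT.lf (nat_lit 0) (nat_lit 134595955110) (nat_lit 76) (nat_lit 191117203462) (nat_lit 76) (nat_lit 191117203462) (nat_lit 1) (nat_lit 4) (nat_lit 2) (nat_lit 5) (nat_lit 2) (nat_lit 4) (nat_lit 310) (nat_lit 235) (nat_lit 235))) (XT.nd (nat_lit 78) (nat_lit 0) (nat_lit 0) (XT.lf (nat_lit 0) (nat_lit 313526494818) (nat_lit 76) (nat_lit 437536503010) (nat_lit 76) (nat_lit 437488220099) (nat_lit 1) (nat_lit 4) (nat_lit 2) (nat_lit 5) (nat_lit 2) (nat_lit 4) (nat_lit 311) (nat_lit 235) (nat_lit 234)) (XT.lf (nat_lit 0) (nat_lit 364175102448) (nat_lit 76) (nat_lit 501301965294) (nat_lit 76) (nat_lit 501211697243) (nat_lit 1) (nat_lit 4) (nat_lit 2) (nat_lit 5) (nat_lit 2) (nat_lit 4) (nat_lit 312) (nat_lit 235) (nat_lit 233))))))))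
noncomputable def xc2 : XT := (XT.nd (nat_lit 40794) (nat_lit 0) (nat_lit 0) (XT.nd (nat_lit 936) (nat_lit 0) (nat_lit 0) (XT.nd (nat_lit 468) (nat_lit 0) (nat_lit 0) (XT.nd (nat_lit 234) (nat_lit 0) (nat_lit 0) (XT.nd (nat_lit 78) (nat_lit 0) (nat_lit 0) (XT.lf (nat_lit 0) (nat_lit 422128684129) (nat_lit 76) (nat_lit 574778378907) (nat_lit 76) (nat_lit 574651602038) (nat_lit 1) (nat_lit 4) (nat_lit 2) (nat_lit 5) (nat_lit 2) (nat_lit 4) (nat_lit 313) (nat_lit 235) (nat_lit 232)) (XT.nd (nat_lit 78) (nat_lit 0) (nat_lit 0) (XT.lf (nat_lit 0) (nat_lit 488521114284) (nat_lit 76) (nat_lit 659403325855) (nat_lit 76) (nat_lit 659244802188) (nat_lit 1) (nat_lit 4) (nat_lit 2) (nat_lit 5) (nat_lit 2) (nat_lit 4) (nat_lit 314) (nat_lit 235) (nat_lit 231)) (XT.lf (nat_lit 0) (nat_lit 564651375244) (nat_lit 76) (nat_lit 756832511621) (nat_lit 76) (nat_lit 756646382042) (nat_lit 1) (nat_lit 4) (nat_lit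 2) (nat_lit 5) (nat_lit 2) (nat_lit 4) (nat_lit 315) (nat_lit 235) (nat_lit 230)))) (XT.nd (nat_lit 78) (nat_lit 0) (nat_lit 0) (XT.lf (nat_lit 0) (nat_lit 652008972114) (nat_lit 76) (nat_lit 868972159405) (nat_lit 76) (nat_lit 868762024686) (nat_lit 1) (nat_lit 4) (nat_lit 2) (nat_lit 5) (nat_lit 2) (nat_lit 4) (nat_lit 316) (nat_lit 235) (nat_lit 229)) (XT.nd (nat_lit 78) (nat_lit 0) (nat_lit 0) (XT.lf (nat_lit 0) (nat_lit 752303075267) (nat_lit 76) (nat_lit 998016305794) (nat_lit 76) (nat_lit 997785297041) (nat_lit 1) (nat_lit 4) (nat_lit 2) (nat_lit 5) (nat_lit 2) (nat_lit 4) (nat_lit 317) (nat_lit 235) (nat_lit 228)) (XT.lf (nat_lit 0) (nat_lit 867495960635) (nat_lit 76) (nat_lit 1146489727566) (nat_lit 76) (nat_lit 1146240567478) (nat_lit 1) (nat_lit 4) (nat_lit 2) (nat_lit 5) (nat_lit 2) (nat_lit 4) (nat_lit 318) (nat_lit 235) (nat_lit 227))))) (XT.nd (nat_lit 234) (nat_lit 0) (nat_lit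 0) (XT.nd (nat_lit 78) (nat_lit 0) (nat_lit 0) (XT.lf (nat_lit 0) (nat_lit 999841402062) (nat_lit 76) (nat_lit 1317297339494) (nat_lit 76) (nat_lit 1317032395636) (nat_lit 1) (nat_lit 4) (nat_lit 2) (nat_lit 5) (nat_lit 2) (nat_lit 4) (nat_lit 319) (nat_lit 235) (nat_lit 226)) (XT.nd (nat_lit 78) (nat_lit 0) (nat_lit 0) (XT.lf (nat_lit 0) (nat_lit 1151928766879) (nat_lit 76) (nat_lit 1513781029637) (nat_lit 76) (nat_lit 1513502360763) (nat_lit 1) (nat_lit 4) (nat_lit 2) (nat_lit 5) (nat_lit 2) (nat_lit 4) (nat_lit 320) (nat_lit 235) (nat_lit 225)) (XT.lf (nat_lit 0) (nat_lit 1326733677444) (nat_lit 76) (nat_lit 1739785044108) (nat_lit 76) (nat_lit 1739494440436) (nat_lit 1) (nat_lit 4) (nat_lit 2) (nat_lit 5) (nat_lit 2) (nat_lit 4) (nat_lit 321) (nat_lit 235) (nat_lit 224)))) (XT.nd (nat_lit 78) (nat_lit 0) (nat_lit 0) (XT.lf (nat_lit 0) (nat_lit 1527676229830) (nat_lit 76) (nat_lit 1999731200580)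 (nat_lit 76) (nat_lit 1999430218824) (nat_lit 1) (nat_lit 4) (nat_lit 2) (nat_lit 5) (nat_lit 2) (nat_lit 4) (nat_lit 322) (nat_lit 235) (nat_lit 223)) (XT.nd (nat_lit 78) (nat_lit 0) (nat_lit 0) (XT.lf (nat_lit 0) (nat_lit 1758687908760) (nat_lit 76) (nat_lit 2298705402115) (nat_lit 76) (nat_lit 2298395395938) (nat_lit 1) (nat_lit 4) (nat_lit 2) (nat_lit 5) (nat_lit 2) (nat_lit 4) (nat_lit 323) (nat_lit 235) (nat_lit 222)) (XT.lf (nat_lit 0) (nat_lit 2024288507951) (nat_lit 76) (nat_lit 2642557143961) (nat_lit 76) (nat_lit 2642239290461) (nat_lit 1) (nat_lit 4) (nat_lit 2) (nat_lit 5) (nat_lit 2) (nat_lit 4) (nat_lit 324) (nat_lit 235) (nat_lit 221)))))) (XT.nd (nat_lit 39312) (nat_lit 0) (nat_lit 0) (XT.nd (nat_lit 234) (nat_lit 0) (nat_lit 0) (XT.nd (nat_lit 78) (nat_lit 0) (nat_lit 0) (XT.lf (nat_lit 0) (nat_lit 2329674560865) (nat_lit 76) (nat_lit 3038013960197) (nat_lit 76) (nat_lit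 3037689282938) (nat_lit 1) (nat_lit 4) (nat_lit 2) (nat_lit 5) (nat_lit 2) (nat_lit 4) (nat_lit 325) (nat_lit 235) (nat_lit 220)) (XT.nd (nat_lit 78) (nat_lit 0) (nat_lit 0) (XT.lf (nat_lit 0) (nat_lit 2680821012017) (nat_lit 76) (nat_lit 3492813049401) (nat_lit 76) (nat_lit 3492482438439) (nat_lit 1) (nat_lit 4) (nat_lit 2) (nat_lit 5) (nat_lit 2) (nat_lit 4) (nat_lit 326) (nat_lit 235) (nat_lit 219)) (XT.lf (nat_lit 0) (nat_lit 3084598118060) (nat_lit 76) (nat_lit 4015852654624) (nat_lit 76) (nat_lit 4015516883919) (nat_lit 1) (nat_lit 4) (nat_lit 2) (nat_lit 5) (nat_lit 2) (nat_lit 4) (nat_lit 327) (nat_lit 235) (nat_lit 218)))) (XT.nd (nat_lit 78) (nat_lit 0) (nat_lit 0) (XT.lf (nat_lit 0) (nat_lit 3548905865849) (nat_lit 76) (nat_lit 4617366159445) (nat_lit 76) (nat_lit 4617025902008) (nat_lit 1) (nat_lit 4) (nat_lit 2) (nat_lit 5) (nat_lit 2) (nat_lit 4) (nat_lit 328) (nat_lit 235)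 (nat_lit 217)) (XT.nd (nat_lit 78) (nat_lit 0) (nat_lit 0) (XT.lf (nat_lit 0) (nat_lit 4082828537409) (nat_lit 76) (nat_lit 5309122306350) (nat_lit 76) (nat_lit 5308778147407) (nat_lit 1) (nat_lit 4) (nat_lit 2) (nat_lit 5) (nat_lit 2) (nat_lit 4) (nat_lit 329) (nat_lit 235) (nat_lit 216)) (XT.lf (nat_lit 0) (nat_lit 4696812445877) (nat_lit 76) (nat_lit 6104655454736) (nat_lit 76) (nat_lit 6104307903178) (nat_lit 1) (nat_lit 4) (nat_lit 2) (nat_lit 5) (nat_lit 2) (nat_lit 4) (nat_lit 330) (nat_lit 235) (nat_lit 215))))) (XT.nd (nat_lit 234) (nat_lit 0) (nat_lit 0) (XT.nd (nat_lit 78) (nat_lit 0) (nat_lit 0) (XT.lf (nat_lit 0) (nat_lit 98154245693) (nat_lit 76) (nat_lit 146394447629) (nat_lit 76) (nat_lit 146394447629) (nat_lit 1) (nat_lit 4) (nat_lit 2) (nat_lit 5) (nat_lit 2) (nat_lit 4) (nat_lit 308) (nat_lit 236) (nat_lit 236)) (XT.nd (nat_lit 78) (nat_lit 0) (nat_lit 0) (XT.lf (nat_lit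 0) (nat_lit 230303932869) (nat_lit 76) (nat_lit 334369204851) (nat_lit 76) (nat_lit 334313679503) (nat_lit 1) (nat_lit 4) (nat_lit 2) (nat_lit 5) (nat_lit 2) (nat_lit 4) (nat_lit 309) (nat_lit 236) (nat_lit 235)) (XT.lf (nat_lit 0) (nat_lit 269012101217) (nat_lit 76) (nat_lit 382379820436) (nat_lit 76) (nat_lit 382276012177) (nat_lit 1) (nat_lit 4) (nat_lit 2) (nat_lit 5) (nat_lit 2) (nat_lit 4) (nat_lit 310) (nat_lit 236) (nat_lit 234)))) (XT.nd (nat_lit 156) (nat_lit 0) (nat_lit 0) (XT.nd (nat_lit 78) (nat_lit 0) (nat_lit 0) (XT.lf (nat_lit 0) (nat_lit 313190330161) (nat_lit 76) (nat_lit 437760080143) (nat_lit 76) (nat_lit 437614286744) (nat_lit 1) (nat_lit 4) (nat_lit 2) (nat_lit 5) (nat_lit 2) (nat_lit 4) (nat_lit 311) (nat_lit 236) (nat_lit 233)) (XT.lf (nat_lit 0) (nat_lit 363702976351) (nat_lit 76) (nat_lit 501593510793) (nat_lit 76) (nat_lit 501411208576) (nat_lit 1) (nat_lit 4)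 (nat_lit 2) (nat_lit 5) (nat_lit 2) (nat_lit 4) (nat_lit 312) (nat_lit 236) (nat_lit 232))) (XT.nd (nat_lit 78) (nat_lit 0) (nat_lit 0) (XT.lf (nat_lit 0) (nat_lit 421538330694) (nat_lit 76) (nat_lit 575129027332) (nat_lit 76) (nat_lit 574914978317) (nat_lit 1) (nat_lit 4) (nat_lit 2) (nat_lit 5) (nat_lit 2) (nat_lit 4) (nat_lit 313) (nat_lit 236) (nat_lit 231)) (XT.lf (nat_lit 0) (nat_lit 487827954469) (nat_lit 76) (nat_lit 659805368129) (nat_lit 76) (nat_lit 659563713203) (nat_lit 1) (nat_lit 4) (nat_lit 2) (nat_lit 5) (nat_lit 2) (nat_lit 4) (nat_lit 314) (nat_lit 236) (nat_lit 230))))))) (XT.nd (nat_lit 1014) (nat_lit 0) (nat_lit 0) (XT.nd (nat_lit 468) (nat_lit 0) (nat_lit 0) (XT.nd (nat_lit 234) (nat_lit 0) (nat_lit 0) (XT.nd (nat_lit 78) (nat_lit 0) (nat_lit 0) (XT.lf (nat_lit 0) (nat_lit 563868818575) (nat_lit 76) (nat_lit 757279244199) (nat_lit 76) (nat_lit 757013584133) (nat_lit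 1) (nat_lit 4) (nat_lit 2) (nat_lit 5) (nat_lit 2) (nat_lit 4) (nat_lit 315) (nat_lit 236) (nat_lit 229)) (XT.nd (nat_lit 78) (nat_lit 0) (nat_lit 0) (XT.lf (nat_lit 0) (nat_lit 651148679051) (nat_lit 76) (nat_lit 869457753117) (nat_lit 76) (nat_lit 869171219016) (nat_lit 1) (nat_lit 4) (nat_lit 2) (nat_lit 5) (nat_lit 2) (nat_lit 4) (nat_lit 316) (nat_lit 236) (nat_lit 228)) (XT.lf (nat_lit 0) (nat_lit 751375185340) (nat_lit 76) (nat_lit 998535691796) (nat_lit 76) (nat_lit 998231006360) (nat_lit 1) (nat_lit 4) (nat_lit 2) (nat_lit 5) (nat_lit 2) (nat_lit 4) (nat_lit 317) (nat_lit 236) (nat_lit 227)))) (XT.nd (nat_lit 78) (nat_lit 0) (nat_lit 0) (XT.lf (nat_lit 0) (nat_lit 866509290826) (nat_lit 76) (nat_lit 1147038498168) (nat_lit 76) (nat_lit 1146718028963) (nat_lit 1) (nat_lit 4) (nat_lit 2) (nat_lit 5) (nat_lit 2) (nat_lit 4) (nat_lit 318) (nat_lit 236) (nat_lit 226)) (XT.nd (nat_lit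 78) (nat_lit 0) (nat_lit 0) (XT.lf (nat_lit 0) (nat_lit 998803619312) (nat_lit 76) (nat_lit 1317871661922) (nat_lit 76) (nat_lit 1317537467700) (nat_lit 1) (nat_lit 4) (nat_lit 2) (nat_lit 5) (nat_lit 2) (nat_lit 4) (nat_lit 319) (nat_lit 236) (nat_lit 225)) (XT.lf (nat_lit 0) (nat_lit 1150846538094) (nat_lit 76) (nat_lit 1514377571045) (nat_lit 76) (nat_lit 1514031442026) (nat_lit 1) (nat_lit 4) (nat_lit 2) (nat_lit 5) (nat_lit 2) (nat_lit 4) (nat_lit 320) (nat_lit 236) (nat_lit 224))))) (XT.nd (nat_lit 234) (nat_lit 0) (nat_lit 0) (XT.nd (nat_lit 78) (nat_lit 0) (nat_lit 0) (XT.lf (nat_lit 0) (nat_lit 1325612799931) (nat_lit 76) (nat_lit 1740400906368) (nat_lit 76) (nat_lit 1740044399264) (nat_lit 1) (nat_lit 4) (nat_lit 2) (nat_lit 5) (nat_lit 2) (nat_lit 4) (nat_lit 321) (nat_lit 236) (nat_lit 223)) (XT.nd (nat_lit 78) (nat_lit 0) (nat_lit 0) (XT.lf (nat_lit 0) (nat_lit 1526521744730)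 (nat_lit 76) (nat_lit 2000363863581) (nat_lit 76) (nat_lit 1999998332055) (nat_lit 1) (nat_lit 4) (nat_lit 2) (nat_lit 5) (nat_lit 2) (nat_lit 4) (nat_lit 322) (nat_lit 236) (nat_lit 222)) (XT.lf (nat_lit 0) (nat_lit 1757504199670) (nat_lit 76) (nat_lit 2299352674455) (nat_lit 76) (nat_lit 2298979295607) (nat_lit 1) (nat_lit 4) (nat_lit 2) (nat_lit 5) (nat_lit 2) (nat_lit 4) (nat_lit 323) (nat_lit 236) (nat_lit 221)))) (XT.nd (nat_lit 156) (nat_lit 0) (nat_lit 0) (XT.nd (nat_lit 78) (nat_lit 0) (nat_lit 0) (XT.lf (nat_lit 0) (nat_lit 2023079386695) (nat_lit 76) (nat_lit 2643217120075) (nat_lit 76) (nat_lit 2642836917468) (nat_lit 1) (nat_lit 4) (nat_lit 2) (nat_lit 5) (nat_lit 2) (nat_lit 4) (nat_lit 324) (nat_lit 236) (nat_lit 220)) (XT.lf (nat_lit 0) (nat_lit 2328443342075) (nat_lit 76) (nat_lit 3038684983070) (nat_lit 76) (nat_lit 3038298846759) (nat_lit 1) (nat_lit 4) (nat_lit 2) (nat_lit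 5) (nat_lit 2) (nat_lit 4) (nat_lit 325) (nat_lit 236) (nat_lit 219))) (XT.nd (nat_lit 78) (nat_lit 0) (nat_lit 0) (XT.lf (nat_lit 0) (nat_lit 2679570577980) (nat_lit 76) (nat_lit 3493493678152) (nat_lit 76) (nat_lit 3493102382100) (nat_lit 1) (nat_lit 4) (nat_lit 2) (nat_lit 5) (nat_lit 2) (nat_lit 4) (nat_lit 326) (nat_lit 236) (nat_lit 218)) (XT.lf (nat_lit 0) (nat_lit 3083330975111) (nat_lit 76) (nat_lit 4016541636312) (nat_lit 76) (nat_lit 4016145853527) (nat_lit 1) (nat_lit 4) (nat_lit 2) (nat_lit 5) (nat_lit 2) (nat_lit 4) (nat_lit 327) (nat_lit 236) (nat_lit 217)))))) (XT.nd (nat_lit 39234) (nat_lit 0) (nat_lit 0) (XT.nd (nat_lit 39000) (nat_lit 0) (nat_lit 0) (XT.nd (nat_lit 78) (nat_lit 0) (nat_lit 0) (XT.lf (nat_lit 0) (nat_lit 3547624193413) (nat_lit 76) (nat_lit 4618062404557) (nat_lit 76) (nat_lit 4617662720266) (nat_lit 1) (nat_lit 4) (nat_lit 2) (nat_lit 5) (nat_lit 2)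 (nat_lit 4) (nat_lit 328) (nat_lit 236) (nat_lit 216)) (XT.nd (nat_lit 38844) (nat_lit 0) (nat_lit 0) (XT.lf (nat_lit 0) (nat_lit 4081534230635) (nat_lit 76) (nat_lit 5309824867483) (nat_lit 76) (nat_lit 5309421790577) (nat_lit 1) (nat_lit 4) (nat_lit 2) (nat_lit 5) (nat_lit 2) (nat_lit 4) (nat_lit 329) (nat_lit 236) (nat_lit 215)) (XT.lf (nat_lit 0) (nat_lit 70056132881) (nat_lit 76) (nat_lit 112859976699) (nat_lit 76) (nat_lit 112859976699) (nat_lit 1) (nat_lit 4) (nat_lit 2) (nat_lit 5) (nat_lit 2) (nat_lit 4) (nat_lit 306) (nat_lit 237) (nat_lit 237)))) (XT.nd (nat_lit 78) (nat_lit 0) (nat_lit 0) (XT.lf (nat_lit 0) (nat_lit 166360648567) (nat_lit 76) (nat_lit 256889218009) (nat_lit 76) (nat_lit 256825363859) (nat_lit 1) (nat_lit 4) (nat_lit 2) (nat_lit 5) (nat_lit 2) (nat_lit 4) (nat_lit 307) (nat_lit 237) (nat_lit 236)) (XT.nd (nat_lit 78) (nat_lit 0) (nat_lit 0) (XT.lf (nat_lit 0)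 (nat_lit 196101711033) (nat_lit 76) (nat_lit 292956120796) (nat_lit 76) (nat_lit 292836741298) (nat_lit 1) (nat_lit 4) (nat_lit 2) (nat_lit 5) (nat_lit 2) (nat_lit 4) (nat_lit 308) (nat_lit 237) (nat_lit 235)) (XT.lf (nat_lit 0) (nat_lit 229917343513) (nat_lit 76) (nat_lit 334626318554) (nat_lit 76) (nat_lit 334458656144) (nat_lit 1) (nat_lit 4) (nat_lit 2) (nat_lit 5) (nat_lit 2) (nat_lit 4) (nat_lit 309) (nat_lit 237) (nat_lit 234))))) (XT.nd (nat_lit 234) (nat_lit 0) (nat_lit 0) (XT.nd (nat_lit 78) (nat_lit 0) (nat_lit 0) (XT.lf (nat_lit 0) (nat_lit 268469156206) (nat_lit 76) (nat_lit 382715097759) (nat_lit 76) (nat_lit 382505450210) (nat_lit 1) (nat_lit 4) (nat_lit 2) (nat_lit 5) (nat_lit 2) (nat_lit 4) (nat_lit 310) (nat_lit 237) (nat_lit 233)) (XT.nd (nat_lit 78) (nat_lit 0) (nat_lit 0) (XT.lf (nat_lit 0) (nat_lit 312511423711) (nat_lit 76) (nat_lit 438163325832) (nat_lit 76) (nat_lit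 437917169465) (nat_lit 1) (nat_lit 4) (nat_lit 2) (nat_lit 5) (nat_lit 2) (nat_lit 4) (nat_lit 311) (nat_lit 237) (nat_lit 232)) (XT.lf (nat_lit 0) (nat_lit 362905842563) (nat_lit 76) (nat_lit 502055859408) (nat_lit 76) (nat_lit 501777956243) (nat_lit 1) (nat_lit 4) (nat_lit 2) (nat_lit 5) (nat_lit 2) (nat_lit 4) (nat_lit 312) (nat_lit 237) (nat_lit 231)))) (XT.nd (nat_lit 156) (nat_lit 0) (nat_lit 0) (XT.nd (nat_lit 78) (nat_lit 0) (nat_lit 0) (XT.lf (nat_lit 0) (nat_lit 420638390525) (nat_lit 76) (nat_lit 575642769798) (nat_lit 76) (nat_lit 575337260721) (nat_lit 1) (nat_lit 4) (nat_lit 2) (nat_lit 5) (nat_lit 2) (nat_lit 4) (nat_lit 313) (nat_lit 237) (nat_lit 230)) (XT.lf (nat_lit 0) (nat_lit 486838617446) (nat_lit 76) (nat_lit 660363800898) (nat_lit 76) (nat_lit 660034286682) (nat_lit 1) (nat_lit 4) (nat_lit 2) (nat_lit 5) (nat_lit 2) (nat_lit 4) (nat_lit 314) (nat_lit 237) (nat_lit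 229))) (XT.nd (nat_lit 78) (nat_lit 0) (nat_lit 0) (XT.lf (nat_lit 0) (nat_lit 562801745159) (nat_lit 76) (nat_lit 757876538102) (nat_lit 76) (nat_lit 757526149851) (nat_lit 1) (nat_lit 4) (nat_lit 2) (nat_lit 5) (nat_lit 2) (nat_lit 4) (nat_lit 315) (nat_lit 237) (nat_lit 228)) (XT.lf (nat_lit 0) (nat_lit 650014008771) (nat_lit 76) (nat_lit 870088839310) (nat_lit 76) (nat_lit 869720299724) (nat_lit 1) (nat_lit 4) (nat_lit 2) (nat_lit 5) (nat_lit 2) (nat_lit 4) (nat_lit 316) (nat_lit 237) (nat_lit 227))))))))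
noncomputable def xc3 : XT := (XT.nd (nat_lit 40638) (nat_lit 0) (nat_lit 0) (XT.nd (nat_lit 39624) (nat_lit 0) (nat_lit 0) (XT.nd (nat_lit 468) (nat_lit 0) (nat_lit 0) (XT.nd (nat_lit 234) (nat_lit 0) (nat_lit 0) (XT.nd (nat_lit 78) (nat_lit 0) (nat_lit 0) (XT.lf (nat_lit 0) (nat_lit 750181735177) (nat_lit 76) (nat_lit 999196162590) (nat_lit 76) (nat_lit 998811839234) (nat_lit 1) (nat_lit 4) (nat_lit 2) (nat_lit 5) (nat_lit 2) (nat_lit 4) (nat_lit 317) (nat_lit 237) (nat_lit 226)) (XT.nd (nat_lit 78) (nat_lit 0) (nat_lit 0) (XT.lf (nat_lit 0) (nat_lit 865264727722) (nat_lit 76) (nat_lit 1147724520788) (nat_lit 76) (nat_lit 1147326472416) (nat_lit 1) (nat_lit 4) (nat_lit 2) (nat_lit 5) (nat_lit 2) (nat_lit 4) (nat_lit 318) (nat_lit 237) (nat_lit 225)) (XT.lf (nat_lit 0) (nat_lit 997514610173) (nat_lit 76) (nat_lit 1318579903521) (nat_lit 76) (nat_lit 1318169920352) (nat_lit 1) (nat_lit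 4) (nat_lit 2) (nat_lit 5) (nat_lit 2) (nat_lit 4) (nat_lit 319) (nat_lit 237) (nat_lit 224)))) (XT.nd (nat_lit 78) (nat_lit 0) (nat_lit 0) (XT.lf (nat_lit 0) (nat_lit 1149518880228) (nat_lit 76) (nat_lit 1515105133496) (nat_lit 76) (nat_lit 1514684772242) (nat_lit 1) (nat_lit 4) (nat_lit 2) (nat_lit 5) (nat_lit 2) (nat_lit 4) (nat_lit 320) (nat_lit 237) (nat_lit 223)) (XT.nd (nat_lit 78) (nat_lit 0) (nat_lit 0) (XT.lf (nat_lit 0) (nat_lit 1324251534478) (nat_lit 76) (nat_lit 1741145269559) (nat_lit 76) (nat_lit 1740715883883) (nat_lit 1) (nat_lit 4) (nat_lit 2) (nat_lit 5) (nat_lit 2) (nat_lit 4) (nat_lit 321) (nat_lit 237) (nat_lit 222)) (XT.lf (nat_lit 0) (nat_lit 1525131255286) (nat_lit 76) (nat_lit 2001122836111) (nat_lit 76) (nat_lit 2000685603113) (nat_lit 1) (nat_lit 4) (nat_lit 2) (nat_lit 5) (nat_lit 2) (nat_lit 4) (nat_lit 322) (nat_lit 237) (nat_lit 221))))) (XT.nd (nat_lit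 234) (nat_lit 0) (nat_lit 0) (XT.nd (nat_lit 78) (nat_lit 0) (nat_lit 0) (XT.lf (nat_lit 0) (nat_lit 1756088298061) (nat_lit 76) (nat_lit 2300124350760) (nat_lit 76) (nat_lit 2299680294002) (nat_lit 1) (nat_lit 4) (nat_lit 2) (nat_lit 5) (nat_lit 2) (nat_lit 4) (nat_lit 323) (nat_lit 237) (nat_lit 220)) (XT.nd (nat_lit 78) (nat_lit 0) (nat_lit 0) (XT.lf (nat_lit 0) (nat_lit 2021641387552) (nat_lit 76) (nat_lit 2643999843139) (nat_lit 76) (nat_lit 2643549852678) (nat_lit 1) (nat_lit 4) (nat_lit 2) (nat_lit 5) (nat_lit 2) (nat_lit 4) (nat_lit 324) (nat_lit 237) (nat_lit 219)) (XT.lf (nat_lit 0) (nat_lit 2326986127684) (nat_lit 76) (nat_lit 3039477312012) (nat_lit 76) (nat_lit 3039022161809) (nat_lit 1) (nat_lit 4) (nat_lit 2) (nat_lit 5) (nat_lit 2) (nat_lit 4) (nat_lit 325) (nat_lit 237) (nat_lit 218)))) (XT.nd (nat_lit 156) (nat_lit 0) (nat_lit 0) (XT.nd (nat_lit 78) (nat_lit 0) (nat_lit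 0) (XT.lf (nat_lit 0) (nat_lit 2678096654677) (nat_lit 76) (nat_lit 3494294360032) (nat_lit 76) (nat_lit 3493834723096) (nat_lit 1) (nat_lit 4) (nat_lit 2) (nat_lit 5) (nat_lit 2) (nat_lit 4) (nat_lit 326) (nat_lit 237) (nat_lit 217)) (XT.lf (nat_lit 0) (nat_lit 3081842522321) (nat_lit 76) (nat_lit 4017349581615) (nat_lit 76) (nat_lit 4016886043173) (nat_lit 1) (nat_lit 4) (nat_lit 2) (nat_lit 5) (nat_lit 2) (nat_lit 4) (nat_lit 327) (nat_lit 237) (nat_lit 216))) (XT.nd (nat_lit 78) (nat_lit 0) (nat_lit 0) (XT.lf (nat_lit 0) (nat_lit 3546123106285) (nat_lit 76) (nat_lit 4618876665881) (nat_lit 76) (nat_lit 4618409734825) (nat_lit 1) (nat_lit 4) (nat_lit 2) (nat_lit 5) (nat_lit 2) (nat_lit 4) (nat_lit 328) (nat_lit 237) (nat_lit 215)) (XT.lf (nat_lit 0) (nat_lit 4080022157127) (nat_lit 76) (nat_lit 5310644620999) (nat_lit 76) (nat_lit 5310174739843) (nat_lit 1) (nat_lit 4) (nat_lit 2) (nat_lit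 5) (nat_lit 2) (nat_lit 4) (nat_lit 329) (nat_lit 237) (nat_lit 214)))))) (XT.nd (nat_lit 468) (nat_lit 0) (nat_lit 0) (XT.nd (nat_lit 234) (nat_lit 0) (nat_lit 0) (XT.nd (nat_lit 78) (nat_lit 0) (nat_lit 0) (XT.lf (nat_lit 0) (nat_lit 48185536052) (nat_lit 76) (nat_lit 87827810200) (nat_lit 76) (nat_lit 87827810200) (nat_lit 1) (nat_lit 4) (nat_lit 2) (nat_lit 5) (nat_lit 2) (nat_lit 4) (nat_lit 304) (nat_lit 238) (nat_lit 238)) (XT.nd (nat_lit 78) (nat_lit 0) (nat_lit 0) (XT.lf (nat_lit 0) (nat_lit 116843007303) (nat_lit 76) (nat_lit 198911925800) (nat_lit 76) (nat_lit 198838493527) (nat_lit 1) (nat_lit 4) (nat_lit 2) (nat_lit 5) (nat_lit 2) (nat_lit 4) (nat_lit 305) (nat_lit 238) (nat_lit 237)) (XT.lf (nat_lit 0) (nat_lit 139874468356) (nat_lit 76) (nat_lit 225912262768) (nat_lit 76) (nat_lit 225774976346) (nat_lit 1) (nat_lit 4) (nat_lit 2) (nat_lit 5) (nat_lit 2) (nat_lit 4) (nat_lit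 306) (nat_lit 238) (nat_lit 236)))) (XT.nd (nat_lit 78) (nat_lit 0) (nat_lit 0) (XT.lf (nat_lit 0) (nat_lit 165916070808) (nat_lit 76) (nat_lit 257184898767) (nat_lit 76) (nat_lit 256992086996) (nat_lit 1) (nat_lit 4) (nat_lit 2) (nat_lit 5) (nat_lit 2) (nat_lit 4) (nat_lit 307) (nat_lit 238) (nat_lit 235)) (XT.nd (nat_lit 78) (nat_lit 0) (nat_lit 0) (XT.lf (nat_lit 0) (nat_lit 195477324271) (nat_lit 76) (nat_lit 293341689718) (nat_lit 76) (nat_lit 293100595036) (nat_lit 1) (nat_lit 4) (nat_lit 2) (nat_lit 5) (nat_lit 2) (nat_lit 4) (nat_lit 308) (nat_lit 238) (nat_lit 234)) (XT.lf (nat_lit 0) (nat_lit 229136601095) (nat_lit 76) (nat_lit 335090051096) (nat_lit 76) (nat_lit 334806971274) (nat_lit 1) (nat_lit 4) (nat_lit 2) (nat_lit 5) (nat_lit 2) (nat_lit 4) (nat_lit 309) (nat_lit 238) (nat_lit 233))))) (XT.nd (nat_lit 234) (nat_lit 0) (nat_lit 0) (XT.nd (nat_lit 78) (nat_lit 0) (nat_lit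 0) (XT.lf (nat_lit 0) (nat_lit 267552452350) (nat_lit 76) (nat_lit 383246798667) (nat_lit 76) (nat_lit 382927210028) (nat_lit 1) (nat_lit 4) (nat_lit 2) (nat_lit 5) (nat_lit 2) (nat_lit 4) (nat_lit 310) (nat_lit 238) (nat_lit 232)) (XT.nd (nat_lit 78) (nat_lit 0) (nat_lit 0) (XT.lf (nat_lit 0) (nat_lit 311476492516) (nat_lit 76) (nat_lit 438754129667) (nat_lit 76) (nat_lit 438402794229) (nat_lit 1) (nat_lit 4) (nat_lit 2) (nat_lit 5) (nat_lit 2) (nat_lit 4) (nat_lit 311) (nat_lit 238) (nat_lit 231)) (XT.lf (nat_lit 0) (nat_lit 361768104988) (nat_lit 76) (nat_lit 502698057093) (nat_lit 76) (nat_lit 502319115744) (nat_lit 1) (nat_lit 4) (nat_lit 2) (nat_lit 5) (nat_lit 2) (nat_lit 4) (nat_lit 312) (nat_lit 238) (nat_lit 230)))) (XT.nd (nat_lit 156) (nat_lit 0) (nat_lit 0) (XT.nd (nat_lit 78) (nat_lit 0) (nat_lit 0) (XT.lf (nat_lit 0) (nat_lit 419411256096) (nat_lit 76) (nat_lit 576329657786)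 (nat_lit 76) (nat_lit 575926711297) (nat_lit 1) (nat_lit 4) (nat_lit 2) (nat_lit 5) (nat_lit 2) (nat_lit 4) (nat_lit 313) (nat_lit 238) (nat_lit 229)) (XT.lf (nat_lit 0) (nat_lit 485533746624) (nat_lit 76) (nat_lit 661089550020) (nat_lit 76) (nat_lit 660665729496) (nat_lit 1) (nat_lit 4) (nat_lit 2) (nat_lit 5) (nat_lit 2) (nat_lit 4) (nat_lit 314) (nat_lit 238) (nat_lit 228))) (XT.nd (nat_lit 78) (nat_lit 0) (nat_lit 0) (XT.lf (nat_lit 0) (nat_lit 561429277472) (nat_lit 76) (nat_lit 758636079514) (nat_lit 76) (nat_lit 758194107655) (nat_lit 1) (nat_lit 4) (nat_lit 2) (nat_lit 5) (nat_lit 2) (nat_lit 4) (nat_lit 315) (nat_lit 238) (nat_lit 227)) (XT.lf (nat_lit 0) (nat_lit 648582761202) (nat_lit 76) (nat_lit 870877765322) (nat_lit 76) (nat_lit 870420009694) (nat_lit 1) (nat_lit 4) (nat_lit 2) (nat_lit 5) (nat_lit 2) (nat_lit 4) (nat_lit 316) (nat_lit 238) (nat_lit 226))))))) (XT.nd (nat_lit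 39468) (nat_lit 0) (nat_lit 0) (XT.nd (nat_lit 468) (nat_lit 0) (nat_lit 0) (XT.nd (nat_lit 234) (nat_lit 0) (nat_lit 0) (XT.nd (nat_lit 78) (nat_lit 0) (nat_lit 0) (XT.lf (nat_lit 0) (nat_lit 748699374668) (nat_lit 76) (nat_lit 1000010640428) (nat_lit 76) (nat_lit 999539159784) (nat_lit 1) (nat_lit 4) (nat_lit 2) (nat_lit 5) (nat_lit 2) (nat_lit 4) (nat_lit 317) (nat_lit 238) (nat_lit 225)) (XT.nd (nat_lit 78) (nat_lit 0) (nat_lit 0) (XT.lf (nat_lit 0) (nat_lit 863737921177) (nat_lit 76) (nat_lit 1148561217606) (nat_lit 76) (nat_lit 1148077802164) (nat_lit 1) (nat_lit 4) (nat_lit 2) (nat_lit 5) (nat_lit 2) (nat_lit 4) (nat_lit 318) (nat_lit 238) (nat_lit 224)) (XT.lf (nat_lit 0) (nat_lit 995949154901) (nat_lit 76) (nat_lit 1319435921191) (nat_lit 76) (nat_lit 1318942127664) (nat_lit 1) (nat_lit 4) (nat_lit 2) (nat_lit 5) (nat_lit 2) (nat_lit 4) (nat_lit 319) (nat_lit 238) (nat_lit 223))))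 (XT.nd (nat_lit 78) (nat_lit 0) (nat_lit 0) (XT.lf (nat_lit 0) (nat_lit 1147919817368) (nat_lit 76) (nat_lit 1515977951906) (nat_lit 76) (nat_lit 1515475133958) (nat_lit 1) (nat_lit 4) (nat_lit 2) (nat_lit 5) (nat_lit 2) (nat_lit 4) (nat_lit 320) (nat_lit 238) (nat_lit 222)) (XT.nd (nat_lit 78) (nat_lit 0) (nat_lit 0) (XT.lf (nat_lit 0) (nat_lit 1322623247628) (nat_lit 76) (nat_lit 1742032697309) (nat_lit 76) (nat_lit 1741522032038) (nat_lit 1) (nat_lit 4) (nat_lit 2) (nat_lit 5) (nat_lit 2) (nat_lit 4) (nat_lit 321) (nat_lit 238) (nat_lit 221)) (XT.lf (nat_lit 0) (nat_lit 1523477556271) (nat_lit 76) (nat_lit 2002022967635) (nat_lit 76) (nat_lit 2001505478605) (nat_lit 1) (nat_lit 4) (nat_lit 2) (nat_lit 5) (nat_lit 2) (nat_lit 4) (nat_lit 322) (nat_lit 238) (nat_lit 220))))) (XT.nd (nat_lit 234) (nat_lit 0) (nat_lit 0) (XT.nd (nat_lit 78) (nat_lit 0) (nat_lit 0) (XT.lf (nat_lit 0) (nat_lit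 1754412501511) (nat_lit 76) (nat_lit 2301035529043) (nat_lit 76) (nat_lit 2300512106309) (nat_lit 1) (nat_lit 4) (nat_lit 2) (nat_lit 5) (nat_lit 2) (nat_lit 4) (nat_lit 323) (nat_lit 238) (nat_lit 219)) (XT.nd (nat_lit 78) (nat_lit 0) (nat_lit 0) (XT.lf (nat_lit 0) (nat_lit 2019946375754) (nat_lit 76) (nat_lit 2644920627300) (nat_lit 76) (nat_lit 2644392044824) (nat_lit 1) (nat_lit 4) (nat_lit 2) (nat_lit 5) (nat_lit 2) (nat_lit 4) (nat_lit 324) (nat_lit 238) (nat_lit 218)) (XT.lf (nat_lit 0) (nat_lit 2325274406975) (nat_lit 76) (nat_lit 3040406449110) (nat_lit 76) (nat_lit 3039873379902) (nat_lit 1) (nat_lit 4) (nat_lit 2) (nat_lit 5) (nat_lit 2) (nat_lit 4) (nat_lit 325) (nat_lit 238) (nat_lit 217)))) (XT.nd (nat_lit 156) (nat_lit 0) (nat_lit 0) (XT.nd (nat_lit 78) (nat_lit 0) (nat_lit 0) (XT.lf (nat_lit 0) (nat_lit 2676370404481) (nat_lit 76) (nat_lit 3495230760554) (nat_lit 76) (nat_lit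 3494693789839) (nat_lit 1) (nat_lit 4) (nat_lit 2) (nat_lit 5) (nat_lit 2) (nat_lit 4) (nat_lit 326) (nat_lit 238) (nat_lit 216)) (XT.lf (nat_lit 0) (nat_lit 3080103637787) (nat_lit 76) (nat_lit 4018292298158) (nat_lit 76) (nat_lit 4017751934829) (nat_lit 1) (nat_lit 4) (nat_lit 2) (nat_lit 5) (nat_lit 2) (nat_lit 4) (nat_lit 327) (nat_lit 238) (nat_lit 215))) (XT.nd (nat_lit 78) (nat_lit 0) (nat_lit 0) (XT.lf (nat_lit 0) (nat_lit 3544373235371) (nat_lit 76) (nat_lit 4619824874615) (nat_lit 76) (nat_lit 4619281561187) (nat_lit 1) (nat_lit 4) (nat_lit 2) (nat_lit 5) (nat_lit 2) (nat_lit 4) (nat_lit 328) (nat_lit 238) (nat_lit 214)) (XT.lf (nat_lit 0) (nat_lit 4078262732839) (nat_lit 76) (nat_lit 5311597605552) (nat_lit 76) (nat_lit 5311051726821) (nat_lit 1) (nat_lit 4) (nat_lit 2) (nat_lit 5) (nat_lit 2) (nat_lit 4) (nat_lit 329) (nat_lit 238) (nat_lit 213)))))) (XT.nd (nat_lit 468) (nat_lit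 0) (nat_lit 0) (XT.nd (nat_lit 234) (nat_lit 0) (nat_lit 0) (XT.nd (nat_lit 78) (nat_lit 0) (nat_lit 0) (XT.lf (nat_lit 0) (nat_lit 30930177983) (nat_lit 76) (nat_lit 69273314051) (nat_lit 76) (nat_lit 69273314051) (nat_lit 1) (nat_lit 4) (nat_lit 2) (nat_lit 5) (nat_lit 2) (nat_lit 4) (nat_lit 302) (nat_lit 239) (nat_lit 239)) (XT.nd (nat_lit 78) (nat_lit 0) (nat_lit 0) (XT.lf (nat_lit 0) (nat_lit 78058124901) (nat_lit 76) (nat_lit 155772779010) (nat_lit 76) (nat_lit 155688331896) (nat_lit 1) (nat_lit 4) (nat_lit 2) (nat_lit 5) (nat_lit 2) (nat_lit 4) (nat_lit 303) (nat_lit 239) (nat_lit 238)) (XT.lf (nat_lit 0) (nat_lit 96097605088) (nat_lit 76) (nat_lit 175876776174) (nat_lit 76) (nat_lit 175718896788) (nat_lit 1) (nat_lit 4) (nat_lit 2) (nat_lit 5) (nat_lit 2) (nat_lit 4) (nat_lit 304) (nat_lit 239) (nat_lit 237)))) (XT.nd (nat_lit 78) (nat_lit 0) (nat_lit 0) (XT.lf (nat_lit 0) (nat_lit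 116331742879) (nat_lit 76) (nat_lit 199251958671) (nat_lit 76) (nat_lit 199030225135) (nat_lit 1) (nat_lit 4) (nat_lit 2) (nat_lit 5) (nat_lit 2) (nat_lit 4) (nat_lit 305) (nat_lit 239) (nat_lit 236)) (XT.nd (nat_lit 78) (nat_lit 0) (nat_lit 0) (XT.lf (nat_lit 0) (nat_lit 139156423579) (nat_lit 76) (nat_lit 226355667028) (nat_lit 76) (nat_lit 226078408144) (nat_lit 1) (nat_lit 4) (nat_lit 2) (nat_lit 5) (nat_lit 2) (nat_lit 4) (nat_lit 306) (nat_lit 239) (nat_lit 235)) (XT.lf (nat_lit 0) (nat_lit 165018217028) (nat_lit 76) (nat_lit 257718191191) (nat_lit 76) (nat_lit 257392649395) (nat_lit 1) (nat_lit 4) (nat_lit 2) (nat_lit 5) (nat_lit 2) (nat_lit 4) (nat_lit 307) (nat_lit 239) (nat_lit 234))))) (XT.nd (nat_lit 234) (nat_lit 0) (nat_lit 0) (XT.nd (nat_lit 78) (nat_lit 0) (nat_lit 0) (XT.lf (nat_lit 0) (nat_lit 194423114836) (nat_lit 76) (nat_lit 293953145762) (nat_lit 76) (nat_lit 293585618827)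 (nat_lit 1) (nat_lit 4) (nat_lit 2) (nat_lit 5) (nat_lit 2) (nat_lit 4) (nat_lit 308) (nat_lit 239) (nat_lit 233)) (XT.nd (nat_lit 78) (nat_lit 0) (nat_lit 0) (XT.lf (nat_lit 0) (nat_lit 227946430222) (nat_lit 76) (nat_lit 335769475506) (nat_lit 76) (nat_lit 335365439753) (nat_lit 1) (nat_lit 4) (nat_lit 2) (nat_lit 5) (nat_lit 2) (nat_lit 4) (nat_lit 309) (nat_lit 239) (nat_lit 232)) (XT.lf (nat_lit 0) (nat_lit 266244054138) (nat_lit 76) (nat_lit 383985326004) (nat_lit 76) (nat_lit 383549543453) (nat_lit 1) (nat_lit 4) (nat_lit 2) (nat_lit 5) (nat_lit 2) (nat_lit 4) (nat_lit 310) (nat_lit 239) (nat_lit 231)))) (XT.nd (nat_lit 156) (nat_lit 0) (nat_lit 0) (XT.nd (nat_lit 78) (nat_lit 0) (nat_lit 0) (XT.lf (nat_lit 0) (nat_lit 310065287923) (nat_lit 76) (nat_lit 439544050853) (nat_lit 76) (nat_lit 439080662391) (nat_lit 1) (nat_lit 4) (nat_lit 2) (nat_lit 5) (nat_lit 2) (nat_lit 4) (nat_lit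 311) (nat_lit 239) (nat_lit 230)) (XT.lf (nat_lit 0) (nat_lit 360267503542) (nat_lit 76) (nat_lit 503532668583) (nat_lit 76) (nat_lit 503045274981) (nat_lit 1) (nat_lit 4) (nat_lit 2) (nat_lit 5) (nat_lit 2) (nat_lit 4) (nat_lit 312) (nat_lit 239) (nat_lit 229))) (XT.nd (nat_lit 78) (nat_lit 0) (nat_lit 0) (XT.lf (nat_lit 0) (nat_lit 417832918256) (nat_lit 76) (nat_lit 577203130410) (nat_lit 76) (nat_lit 576694862772) (nat_lit 1) (nat_lit 4) (nat_lit 2) (nat_lit 5) (nat_lit 2) (nat_lit 4) (nat_lit 313) (nat_lit 239) (nat_lit 228)) (XT.lf (nat_lit 0) (nat_lit 483887811920) (nat_lit 76) (nat_lit 661996814935) (nat_lit 76) (nat_lit 661470395962) (nat_lit 1) (nat_lit 4) (nat_lit 2) (nat_lit 5) (nat_lit 2) (nat_lit 4) (nat_lit 314) (nat_lit 239) (nat_lit 227))))))))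
noncomputable def xc4 : XT := (XT.nd (nat_lit 40248) (nat_lit 0) (nat_lit 0) (XT.nd (nat_lit 936) (nat_lit 0) (nat_lit 0) (XT.nd (nat_lit 468) (nat_lit 0) (nat_lit 0) (XT.nd (nat_lit 234) (nat_lit 0) (nat_lit 0) (XT.nd (nat_lit 78) (nat_lit 0) (nat_lit 0) (XT.lf (nat_lit 0) (nat_lit 559724562886) (nat_lit 76) (nat_lit 759572729029) (nat_lit 76) (nat_lit 759030526287) (nat_lit 1) (nat_lit 4) (nat_lit 2) (nat_lit 5) (nat_lit 2) (nat_lit 4) (nat_lit 315) (nat_lit 239) (nat_lit 226)) (XT.nd (nat_lit 78) (nat_lit 0) (nat_lit 0) (XT.lf (nat_lit 0) (nat_lit 646826933675) (nat_lit 76) (nat_lit 871839966663) (nat_lit 76) (nat_lit 871284038905) (nat_lit 1) (nat_lit 4) (nat_lit 2) (nat_lit 5) (nat_lit 2) (nat_lit 4) (nat_lit 316) (nat_lit 239) (nat_lit 225)) (XT.lf (nat_lit 0) (nat_lit 746899101105) (nat_lit 76) (nat_lit 1000995060749) (nat_lit 76) (nat_lit 1000427198193) (nat_lit 1) (nat_lit 4)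 (nat_lit 2) (nat_lit 5) (nat_lit 2) (nat_lit 4) (nat_lit 317) (nat_lit 239) (nat_lit 224)))) (XT.nd (nat_lit 78) (nat_lit 0) (nat_lit 0) (XT.lf (nat_lit 0) (nat_lit 861898998888) (nat_lit 76) (nat_lit 1149564958778) (nat_lit 76) (nat_lit 1148986718138) (nat_lit 1) (nat_lit 4) (nat_lit 2) (nat_lit 5) (nat_lit 2) (nat_lit 4) (nat_lit 318) (nat_lit 239) (nat_lit 223)) (XT.nd (nat_lit 78) (nat_lit 0) (nat_lit 0) (XT.lf (nat_lit 0) (nat_lit 994076625023) (nat_lit 76) (nat_lit 1320456463103) (nat_lit 76) (nat_lit 1319869198042) (nat_lit 1) (nat_lit 4) (nat_lit 2) (nat_lit 5) (nat_lit 2) (nat_lit 4) (nat_lit 319) (nat_lit 239) (nat_lit 222)) (XT.lf (nat_lit 0) (nat_lit 1146018063501) (nat_lit 76) (nat_lit 1517013103158) (nat_lit 76) (nat_lit 1516417990774) (nat_lit 1) (nat_lit 4) (nat_lit 2) (nat_lit 5) (nat_lit 2) (nat_lit 4) (nat_lit 320) (nat_lit 239) (nat_lit 221))))) (XT.nd (nat_lit 234)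 (nat_lit 0) (nat_lit 0) (XT.nd (nat_lit 78) (nat_lit 0) (nat_lit 0) (XT.lf (nat_lit 0) (nat_lit 1320696081595) (nat_lit 76) (nat_lit 1743080552334) (nat_lit 76) (nat_lit 1742478616191) (nat_lit 1) (nat_lit 4) (nat_lit 2) (nat_lit 5) (nat_lit 2) (nat_lit 4) (nat_lit 321) (nat_lit 239) (nat_lit 220)) (XT.nd (nat_lit 78) (nat_lit 0) (nat_lit 0) (XT.lf (nat_lit 0) (nat_lit 1521528292704) (nat_lit 76) (nat_lit 2003081869420) (nat_lit 76) (nat_lit 2002473999573) (nat_lit 1) (nat_lit 4) (nat_lit 2) (nat_lit 5) (nat_lit 2) (nat_lit 4) (nat_lit 322) (nat_lit 239) (nat_lit 219)) (XT.lf (nat_lit 0) (nat_lit 1752444022696) (nat_lit 76) (nat_lit 2302104036706) (nat_lit 76) (nat_lit 2301491007117) (nat_lit 1) (nat_lit 4) (nat_lit 2) (nat_lit 5) (nat_lit 2) (nat_lit 4) (nat_lit 323) (nat_lit 239) (nat_lit 218)))) (XT.nd (nat_lit 78) (nat_lit 0) (nat_lit 0) (XT.lf (nat_lit 0) (nat_lit 2017961188028) (nat_lit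 76) (nat_lit 2645997487900) (nat_lit 76) (nat_lit 2645379971578) (nat_lit 1) (nat_lit 4) (nat_lit 2) (nat_lit 5) (nat_lit 2) (nat_lit 4) (nat_lit 324) (nat_lit 239) (nat_lit 217)) (XT.nd (nat_lit 78) (nat_lit 0) (nat_lit 0) (XT.lf (nat_lit 0) (nat_lit 2323274689761) (nat_lit 76) (nat_lit 3041490573134) (nat_lit 76) (nat_lit 3040869155307) (nat_lit 1) (nat_lit 4) (nat_lit 2) (nat_lit 5) (nat_lit 2) (nat_lit 4) (nat_lit 325) (nat_lit 239) (nat_lit 216)) (XT.lf (nat_lit 0) (nat_lit 2674358052929) (nat_lit 76) (nat_lit 3496321200598) (nat_lit 76) (nat_lit 3495696390156) (nat_lit 1) (nat_lit 4) (nat_lit 2) (nat_lit 5) (nat_lit 2) (nat_lit 4) (nat_lit 326) (nat_lit 239) (nat_lit 215)))))) (XT.nd (nat_lit 38766) (nat_lit 0) (nat_lit 0) (XT.nd (nat_lit 38532) (nat_lit 0) (nat_lit 0) (XT.nd (nat_lit 78) (nat_lit 0) (nat_lit 0) (XT.lf (nat_lit 0) (nat_lit 3078080299855) (nat_lit 76) (nat_lit 4019388230395)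 (nat_lit 76) (nat_lit 4018760469853) (nat_lit 1) (nat_lit 4) (nat_lit 2) (nat_lit 5) (nat_lit 2) (nat_lit 4) (nat_lit 327) (nat_lit 239) (nat_lit 214)) (XT.nd (nat_lit 78) (nat_lit 0) (nat_lit 0) (XT.lf (nat_lit 0) (nat_lit 3542340344066) (nat_lit 76) (nat_lit 4620925582671) (nat_lit 76) (nat_lit 4620295256826) (nat_lit 1) (nat_lit 4) (nat_lit 2) (nat_lit 5) (nat_lit 2) (nat_lit 4) (nat_lit 328) (nat_lit 239) (nat_lit 213)) (XT.lf (nat_lit 0) (nat_lit 4076221534251) (nat_lit 76) (nat_lit 5312702466494) (nat_lit 76) (nat_lit 5312069909950) (nat_lit 1) (nat_lit 4) (nat_lit 2) (nat_lit 5) (nat_lit 2) (nat_lit 4) (nat_lit 329) (nat_lit 239) (nat_lit 212)))) (XT.nd (nat_lit 78) (nat_lit 0) (nat_lit 0) (XT.lf (nat_lit 0) (nat_lit 17056896759) (nat_lit 76) (nat_lit 55672880022) (nat_lit 76) (nat_lit 55672880022) (nat_lit 1) (nat_lit 4) (nat_lit 2) (nat_lit 5) (nat_lit 2) (nat_lit 4) (nat_lit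 300) (nat_lit 240) (nat_lit 240)) (XT.nd (nat_lit 78) (nat_lit 0) (nat_lit 0) (XT.lf (nat_lit 0) (nat_lit 47187385416) (nat_lit 76) (nat_lit 123958404247) (nat_lit 76) (nat_lit 123861290066) (nat_lit 1) (nat_lit 4) (nat_lit 2) (nat_lit 5) (nat_lit 2) (nat_lit 4) (nat_lit 301) (nat_lit 240) (nat_lit 239)) (XT.lf (nat_lit 0) (nat_lit 61545868897) (nat_lit 76) (nat_lit 138800957244) (nat_lit 76) (nat_lit 138619395950) (nat_lit 1) (nat_lit 4) (nat_lit 2) (nat_lit 5) (nat_lit 2) (nat_lit 4) (nat_lit 302) (nat_lit 240) (nat_lit 238))))) (XT.nd (nat_lit 234) (nat_lit 0) (nat_lit 0) (XT.nd (nat_lit 78) (nat_lit 0) (nat_lit 0) (XT.lf (nat_lit 0) (nat_lit 77470170814) (nat_lit 76) (nat_lit 156163816812) (nat_lit 76) (nat_lit 155908823245) (nat_lit 1) (nat_lit 4) (nat_lit 2) (nat_lit 5) (nat_lit 2) (nat_lit 4) (nat_lit 303) (nat_lit 240) (nat_lit 237)) (XT.nd (nat_lit 78) (nat_lit 0) (nat_lit 0)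 (XT.lf (nat_lit 0) (nat_lit 95271853594) (nat_lit 76) (nat_lit 176386691073) (nat_lit 76) (nat_lit 176067843356) (nat_lit 1) (nat_lit 4) (nat_lit 2) (nat_lit 5) (nat_lit 2) (nat_lit 4) (nat_lit 304) (nat_lit 240) (nat_lit 236)) (XT.lf (nat_lit 0) (nat_lit 115299211032) (nat_lit 76) (nat_lit 199865244959) (nat_lit 76) (nat_lit 199490871894) (nat_lit 1) (nat_lit 4) (nat_lit 2) (nat_lit 5) (nat_lit 2) (nat_lit 4) (nat_lit 305) (nat_lit 240) (nat_lit 235)))) (XT.nd (nat_lit 156) (nat_lit 0) (nat_lit 0) (XT.nd (nat_lit 78) (nat_lit 0) (nat_lit 0) (XT.lf (nat_lit 0) (nat_lit 137944082729) (nat_lit 76) (nat_lit 227058841479) (nat_lit 76) (nat_lit 226636185503) (nat_lit 1) (nat_lit 4) (nat_lit 2) (nat_lit 5) (nat_lit 2) (nat_lit 4) (nat_lit 306) (nat_lit 240) (nat_lit 234)) (XT.lf (nat_lit 0) (nat_lit 163649520523) (nat_lit 76) (nat_lit 258499529263) (nat_lit 76) (nat_lit 258034888146) (nat_lit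 1) (nat_lit 4) (nat_lit 2) (nat_lit 5) (nat_lit 2) (nat_lit 4) (nat_lit 307) (nat_lit 240) (nat_lit 233))) (XT.nd (nat_lit 78) (nat_lit 0) (nat_lit 0) (XT.lf (nat_lit 0) (nat_lit 192918456892) (nat_lit 76) (nat_lit 294802452200) (nat_lit 76) (nat_lit 294301302266) (nat_lit 1) (nat_lit 4) (nat_lit 2) (nat_lit 5) (nat_lit 2) (nat_lit 4) (nat_lit 308) (nat_lit 240) (nat_lit 232)) (XT.lf (nat_lit 0) (nat_lit 226323544940) (nat_lit 76) (nat_lit 336677884871) (nat_lit 76) (nat_lit 336144988139) (nat_lit 1) (nat_lit 4) (nat_lit 2) (nat_lit 5) (nat_lit 2) (nat_lit 4) (nat_lit 309) (nat_lit 240) (nat_lit 231))))))) (XT.nd (nat_lit 1014) (nat_lit 0) (nat_lit 0) (XT.nd (nat_lit 468) (nat_lit 0) (nat_lit 0) (XT.nd (nat_lit 234) (nat_lit 0) (nat_lit 0) (XT.nd (nat_lit 78) (nat_lit 0) (nat_lit 0) (XT.lf (nat_lit 0) (nat_lit 264518362475) (nat_lit 76) (nat_lit 384945129218) (nat_lit 76) (nat_lit 384384626575)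 (nat_lit 1) (nat_lit 4) (nat_lit 2) (nat_lit 5) (nat_lit 2) (nat_lit 4) (nat_lit 310) (nat_lit 240) (nat_lit 230)) (XT.nd (nat_lit 78) (nat_lit 0) (nat_lit 0) (XT.lf (nat_lit 0) (nat_lit 308250199407) (nat_lit 76) (nat_lit 440548544371) (nat_lit 76) (nat_lit 439964036588) (nat_lit 1) (nat_lit 4) (nat_lit 2) (nat_lit 5) (nat_lit 2) (nat_lit 4) (nat_lit 311) (nat_lit 240) (nat_lit 229)) (XT.lf (nat_lit 0) (nat_lit 358374678632) (nat_lit 76) (nat_lit 504576023235) (nat_lit 76) (nat_lit 503970641417) (nat_lit 1) (nat_lit 4) (nat_lit 2) (nat_lit 5) (nat_lit 2) (nat_lit 4) (nat_lit 312) (nat_lit 240) (nat_lit 228)))) (XT.nd (nat_lit 78) (nat_lit 0) (nat_lit 0) (XT.lf (nat_lit 0) (nat_lit 415872496482) (nat_lit 76) (nat_lit 578280277352) (nat_lit 76) (nat_lit 577656744199) (nat_lit 1) (nat_lit 4) (nat_lit 2) (nat_lit 5) (nat_lit 2) (nat_lit 4) (nat_lit 313) (nat_lit 240) (nat_lit 227)) (XT.nd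 (nat_lit 78) (nat_lit 0) (nat_lit 0) (XT.lf (nat_lit 0) (nat_lit 481868610263) (nat_lit 76) (nat_lit 663103346477) (nat_lit 76) (nat_lit 662464029555) (nat_lit 1) (nat_lit 4) (nat_lit 2) (nat_lit 5) (nat_lit 2) (nat_lit 4) (nat_lit 314) (nat_lit 240) (nat_lit 226)) (XT.lf (nat_lit 0) (nat_lit 557654248289) (nat_lit 76) (nat_lit 760704812397) (nat_lit 76) (nat_lit 760051770458) (nat_lit 1) (nat_lit 4) (nat_lit 2) (nat_lit 5) (nat_lit 2) (nat_lit 4) (nat_lit 315) (nat_lit 240) (nat_lit 225))))) (XT.nd (nat_lit 234) (nat_lit 0) (nat_lit 0) (XT.nd (nat_lit 78) (nat_lit 0) (nat_lit 0) (XT.lf (nat_lit 0) (nat_lit 644712173042) (nat_lit 76) (nat_lit 872994269011) (nat_lit 76) (nat_lit 872329292275) (nat_lit 1) (nat_lit 4) (nat_lit 2) (nat_lit 5) (nat_lit 2) (nat_lit 4) (nat_lit 316) (nat_lit 240) (nat_lit 224)) (XT.nd (nat_lit 78) (nat_lit 0) (nat_lit 0) (XT.lf (nat_lit 0) (nat_lit 744745691746)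 (nat_lit 76) (nat_lit 1002168683948) (nat_lit 76) (nat_lit 1001493329127) (nat_lit 1) (nat_lit 4) (nat_lit 2) (nat_lit 5) (nat_lit 2) (nat_lit 4) (nat_lit 317) (nat_lit 240) (nat_lit 223)) (XT.lf (nat_lit 0) (nat_lit 859711981940) (nat_lit 76) (nat_lit 1150755382717) (nat_lit 76) (nat_lit 1150071003475) (nat_lit 1) (nat_lit 4) (nat_lit 2) (nat_lit 5) (nat_lit 2) (nat_lit 4) (nat_lit 318) (nat_lit 240) (nat_lit 222)))) (XT.nd (nat_lit 156) (nat_lit 0) (nat_lit 0) (XT.nd (nat_lit 78) (nat_lit 0) (nat_lit 0) (XT.lf (nat_lit 0) (nat_lit 991860384086) (nat_lit 76) (nat_lit 1321661496383) (nat_lit 76) (nat_lit 1320969269818) (nat_lit 1) (nat_lit 4) (nat_lit 2) (nat_lit 5) (nat_lit 2) (nat_lit 4) (nat_lit 319) (nat_lit 240) (nat_lit 221)) (XT.lf (nat_lit 0) (nat_lit 1143776410399) (nat_lit 76) (nat_lit 1518230840211) (nat_lit 76) (nat_lit 1517531789887) (nat_lit 1) (nat_lit 4) (nat_lit 2) (nat_lit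 5) (nat_lit 2) (nat_lit 4) (nat_lit 320) (nat_lit 240) (nat_lit 220))) (XT.nd (nat_lit 78) (nat_lit 0) (nat_lit 0) (XT.lf (nat_lit 0) (nat_lit 1318432330958) (nat_lit 76) (nat_lit 1744309336147) (nat_lit 76) (nat_lit 1743604352119) (nat_lit 1) (nat_lit 4) (nat_lit 2) (nat_lit 5) (nat_lit 2) (nat_lit 4) (nat_lit 321) (nat_lit 240) (nat_lit 219)) (XT.lf (nat_lit 0) (nat_lit 1519245326819) (nat_lit 76) (nat_lit 2004320259110) (nat_lit 76) (nat_lit 2003610115341) (nat_lit 1) (nat_lit 4) (nat_lit 2) (nat_lit 5) (nat_lit 2) (nat_lit 4) (nat_lit 322) (nat_lit 240) (nat_lit 218)))))) (XT.nd (nat_lit 468) (nat_lit 0) (nat_lit 0) (XT.nd (nat_lit 234) (nat_lit 0) (nat_lit 0) (XT.nd (nat_lit 78) (nat_lit 0) (nat_lit 0) (XT.lf (nat_lit 0) (nat_lit 1750144347900) (nat_lit 76) (nat_lit 2303350779334) (nat_lit 76) (nat_lit 2302636148832) (nat_lit 1) (nat_lit 4) (nat_lit 2) (nat_lit 5) (nat_lit 2) (nat_lit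 4) (nat_lit 323) (nat_lit 240) (nat_lit 217)) (XT.nd (nat_lit 78) (nat_lit 0) (nat_lit 0) (XT.lf (nat_lit 0) (nat_lit 2015646983744) (nat_lit 76) (nat_lit 2647251493952) (nat_lit 76) (nat_lit 2646532961943) (nat_lit 1) (nat_lit 4) (nat_lit 2) (nat_lit 5) (nat_lit 2) (nat_lit 4) (nat_lit 324) (nat_lit 240) (nat_lit 216)) (XT.lf (nat_lit 0) (nat_lit 2320947851140) (nat_lit 76) (nat_lit 3042750895207) (nat_lit 76) (nat_lit 3042028970584) (nat_lit 1) (nat_lit 4) (nat_lit 2) (nat_lit 5) (nat_lit 2) (nat_lit 4) (nat_lit 325) (nat_lit 240) (nat_lit 215)))) (XT.nd (nat_lit 78) (nat_lit 0) (nat_lit 0) (XT.lf (nat_lit 0) (nat_lit 2672020227928) (nat_lit 76) (nat_lit 3497587014863) (nat_lit 76) (nat_lit 3496862140140) (nat_lit 1) (nat_lit 4) (nat_lit 2) (nat_lit 5) (nat_lit 2) (nat_lit 4) (nat_lit 326) (nat_lit 240) (nat_lit 214)) (XT.nd (nat_lit 78) (nat_lit 0) (nat_lit 0) (XT.lf (nat_lit 0) (nat_lit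 3075732921480) (nat_lit 76) (nat_lit 4020658820478) (nat_lit 76) (nat_lit 4019931380452) (nat_lit 1) (nat_lit 4) (nat_lit 2) (nat_lit 5) (nat_lit 2) (nat_lit 4) (nat_lit 327) (nat_lit 240) (nat_lit 213)) (XT.lf (nat_lit 0) (nat_lit 3539984658408) (nat_lit 76) (nat_lit 4622200325640) (nat_lit 76) (nat_lit 4621470654916) (nat_lit 1) (nat_lit 4) (nat_lit 2) (nat_lit 5) (nat_lit 2) (nat_lit 4) (nat_lit 328) (nat_lit 240) (nat_lit 212))))) (XT.nd (nat_lit 38376) (nat_lit 0) (nat_lit 0) (XT.nd (nat_lit 38220) (nat_lit 0) (nat_lit 0) (XT.lf (nat_lit 0) (nat_lit 4073858624871) (nat_lit 76) (nat_lit 5313980820669) (nat_lit 76) (nat_lit 5313249210206) (nat_lit 1) (nat_lit 4) (nat_lit 2) (nat_lit 5) (nat_lit 2) (nat_lit 4) (nat_lit 329) (nat_lit 240) (nat_lit 211)) (XT.nd (nat_lit 78) (nat_lit 0) (nat_lit 0) (XT.lf (nat_lit 0) (nat_lit 5617088799) (nat_lit 76) (nat_lit 45882843302) (nat_lit 76) (nat_lit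 45882843302) (nat_lit 1) (nat_lit 4) (nat_lit 2) (nat_lit 5) (nat_lit 2) (nat_lit 4) (nat_lit 298) (nat_lit 241) (nat_lit 241)) (XT.lf (nat_lit 0) (nat_lit 22069305537) (nat_lit 76) (nat_lit 100827936820) (nat_lit 76) (nat_lit 100716255512) (nat_lit 1) (nat_lit 4) (nat_lit 2) (nat_lit 5) (nat_lit 2) (nat_lit 4) (nat_lit 299) (nat_lit 241) (nat_lit 240)))) (XT.nd (nat_lit 156) (nat_lit 0) (nat_lit 0) (XT.nd (nat_lit 78) (nat_lit 0) (nat_lit 0) (XT.lf (nat_lit 0) (nat_lit 33752133388) (nat_lit 76) (nat_lit 111638238557) (nat_lit 76) (nat_lit 111429443068) (nat_lit 1) (nat_lit 4) (nat_lit 2) (nat_lit 5) (nat_lit 2) (nat_lit 4) (nat_lit 300) (nat_lit 241) (nat_lit 239)) (XT.lf (nat_lit 0) (nat_lit 46511238215) (nat_lit 76) (nat_lit 124408097719) (nat_lit 76) (nat_lit 124114855117) (nat_lit 1) (nat_lit 4) (nat_lit 2) (nat_lit 5) (nat_lit 2) (nat_lit 4) (nat_lit 301) (nat_lit 241) (nat_lit 238)))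 (XT.nd (nat_lit 78) (nat_lit 0) (nat_lit 0) (XT.lf (nat_lit 0) (nat_lit 60596254679) (nat_lit 76) (nat_lit 139387359377) (nat_lit 76) (nat_lit 139020684503) (nat_lit 1) (nat_lit 4) (nat_lit 2) (nat_lit 5) (nat_lit 2) (nat_lit 4) (nat_lit 302) (nat_lit 241) (nat_lit 237)) (XT.lf (nat_lit 0) (nat_lit 76282759190) (nat_lit 76) (nat_lit 156869096042) (nat_lit 76) (nat_lit 156438567018) (nat_lit 1) (nat_lit 4) (nat_lit 2) (nat_lit 5) (nat_lit 2) (nat_lit 4) (nat_lit 303) (nat_lit 241) (nat_lit 236))))))))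
noncomputable def xc5 : XT := (XT.nd (nat_lit 40014) (nat_lit 0) (nat_lit 0) (XT.nd (nat_lit 1014) (nat_lit 0) (nat_lit 0) (XT.nd (nat_lit 468) (nat_lit 0) (nat_lit 0) (XT.nd (nat_lit 234) (nat_lit 0) (nat_lit 0) (XT.nd (nat_lit 78) (nat_lit 0) (nat_lit 0) (XT.lf (nat_lit 0) (nat_lit 93877661617) (nat_lit 76) (nat_lit 177195341692) (nat_lit 76) (nat_lit 176709287319) (nat_lit 1) (nat_lit 4) (nat_lit 2) (nat_lit 5) (nat_lit 2) (nat_lit 4) (nat_lit 304) (nat_lit 241) (nat_lit 235)) (XT.nd (nat_lit 78) (nat_lit 0) (nat_lit 0) (XT.lf (nat_lit 0) (nat_lit 113725210051) (nat_lit 76) (nat_lit 200763783741) (nat_lit 76) (nat_lit 200229446457) (nat_lit 1) (nat_lit 4) (nat_lit 2) (nat_lit 5) (nat_lit 2) (nat_lit 4) (nat_lit 305) (nat_lit 241) (nat_lit 234)) (XT.lf (nat_lit 0) (nat_lit 136213726094) (nat_lit 76) (nat_lit 228035543883) (nat_lit 76) (nat_lit 227459221459) (nat_lit 1) (nat_lit 4) (nat_lit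 2) (nat_lit 5) (nat_lit 2) (nat_lit 4) (nat_lit 306) (nat_lit 241) (nat_lit 233)))) (XT.nd (nat_lit 78) (nat_lit 0) (nat_lit 0) (XT.lf (nat_lit 0) (nat_lit 161783202449) (nat_lit 76) (nat_lit 259544200032) (nat_lit 76) (nat_lit 258931368790) (nat_lit 1) (nat_lit 4) (nat_lit 2) (nat_lit 5) (nat_lit 2) (nat_lit 4) (nat_lit 307) (nat_lit 241) (nat_lit 232)) (XT.nd (nat_lit 78) (nat_lit 0) (nat_lit 0) (XT.lf (nat_lit 0) (nat_lit 190933911480) (nat_lit 76) (nat_lit 295906225896) (nat_lit 76) (nat_lit 295261647857) (nat_lit 1) (nat_lit 4) (nat_lit 2) (nat_lit 5) (nat_lit 2) (nat_lit 4) (nat_lit 308) (nat_lit 241) (nat_lit 231)) (XT.lf (nat_lit 0) (nat_lit 224236193147) (nat_lit 76) (nat_lit 337833052416) (nat_lit 76) (nat_lit 337160868465) (nat_lit 1) (nat_lit 4) (nat_lit 2) (nat_lit 5) (nat_lit 2) (nat_lit 4) (nat_lit 309) (nat_lit 241) (nat_lit 230))))) (XT.nd (nat_lit 234) (nat_lit 0) (nat_lit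 0) (XT.nd (nat_lit 78) (nat_lit 0) (nat_lit 0) (XT.lf (nat_lit 0) (nat_lit 262341613829) (nat_lit 76) (nat_lit 386144987067) (nat_lit 76) (nat_lit 385448797977) (nat_lit 1) (nat_lit 4) (nat_lit 2) (nat_lit 5) (nat_lit 2) (nat_lit 4) (nat_lit 310) (nat_lit 241) (nat_lit 229)) (XT.nd (nat_lit 78) (nat_lit 0) (nat_lit 0) (XT.lf (nat_lit 0) (nat_lit 305995714367) (nat_lit 76) (nat_lit 441787263354) (nat_lit 76) (nat_lit 441070200228) (nat_lit 1) (nat_lit 4) (nat_lit 2) (nat_lit 5) (nat_lit 2) (nat_lit 4) (nat_lit 311) (nat_lit 241) (nat_lit 228)) (XT.lf (nat_lit 0) (nat_lit 356052596727) (nat_lit 76) (nat_lit 505848534508) (nat_lit 76) (nat_lit 505113320047) (nat_lit 1) (nat_lit 4) (nat_lit 2) (nat_lit 5) (nat_lit 2) (nat_lit 4) (nat_lit 312) (nat_lit 241) (nat_lit 227)))) (XT.nd (nat_lit 156) (nat_lit 0) (nat_lit 0) (XT.nd (nat_lit 78) (nat_lit 0) (nat_lit 0) (XT.lf (nat_lit 0) (nat_lit 413491634696)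 (nat_lit 76) (nat_lit 579582173225) (nat_lit 76) (nat_lit 578831174995) (nat_lit 1) (nat_lit 4) (nat_lit 2) (nat_lit 5) (nat_lit 2) (nat_lit 4) (nat_lit 313) (nat_lit 241) (nat_lit 226)) (XT.lf (nat_lit 0) (nat_lit 479436635536) (nat_lit 76) (nat_lit 664430794176) (nat_lit 76) (nat_lit 663666070930) (nat_lit 1) (nat_lit 4) (nat_lit 2) (nat_lit 5) (nat_lit 2) (nat_lit 4) (nat_lit 314) (nat_lit 241) (nat_lit 225))) (XT.nd (nat_lit 78) (nat_lit 0) (nat_lit 0) (XT.lf (nat_lit 0) (nat_lit 555177827526) (nat_lit 76) (nat_lit 762054479076) (nat_lit 76) (nat_lit 761277821032) (nat_lit 1) (nat_lit 4) (nat_lit 2) (nat_lit 5) (nat_lit 2) (nat_lit 4) (nat_lit 315) (nat_lit 241) (nat_lit 224)) (XT.lf (nat_lit 0) (nat_lit 642197103553) (nat_lit 76) (nat_lit 874363256542) (nat_lit 76) (nat_lit 873576220413) (nat_lit 1) (nat_lit 4) (nat_lit 2) (nat_lit 5) (nat_lit 2) (nat_lit 4) (nat_lit 316) (nat_lit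 241) (nat_lit 223)))))) (XT.nd (nat_lit 468) (nat_lit 0) (nat_lit 0) (XT.nd (nat_lit 234) (nat_lit 0) (nat_lit 0) (XT.nd (nat_lit 78) (nat_lit 0) (nat_lit 0) (XT.lf (nat_lit 0) (nat_lit 742197014668) (nat_lit 76) (nat_lit 1003554472219) (nat_lit 76) (nat_lit 1002758411669) (nat_lit 1) (nat_lit 4) (nat_lit 2) (nat_lit 5) (nat_lit 2) (nat_lit 4) (nat_lit 317) (nat_lit 241) (nat_lit 222)) (XT.nd (nat_lit 78) (nat_lit 0) (nat_lit 0) (XT.lf (nat_lit 0) (nat_lit 857134080873) (nat_lit 76) (nat_lit 1152155780328) (nat_lit 76) (nat_lit 1151351872456) (nat_lit 1) (nat_lit 4) (nat_lit 2) (nat_lit 5) (nat_lit 2) (nat_lit 4) (nat_lit 318) (nat_lit 241) (nat_lit 221)) (XT.lf (nat_lit 0) (nat_lit 989257070853) (nat_lit 76) (nat_lit 1323074597767) (nat_lit 76) (nat_lit 1322263866136) (nat_lit 1) (nat_lit 4) (nat_lit 2) (nat_lit 5) (nat_lit 2) (nat_lit 4) (nat_lit 319) (nat_lit 241) (nat_lit 220)))) (XT.nd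 (nat_lit 78) (nat_lit 0) (nat_lit 0) (XT.lf (nat_lit 0) (nat_lit 1141150999631) (nat_lit 76) (nat_lit 1519654988355) (nat_lit 76) (nat_lit 1518838323020) (nat_lit 1) (nat_lit 4) (nat_lit 2) (nat_lit 5) (nat_lit 2) (nat_lit 4) (nat_lit 320) (nat_lit 241) (nat_lit 219)) (XT.nd (nat_lit 78) (nat_lit 0) (nat_lit 0) (XT.lf (nat_lit 0) (nat_lit 1315787704943) (nat_lit 76) (nat_lit 1745743090169) (nat_lit 76) (nat_lit 1744921265091) (nat_lit 1) (nat_lit 4) (nat_lit 2) (nat_lit 5) (nat_lit 2) (nat_lit 4) (nat_lit 321) (nat_lit 241) (nat_lit 218)) (XT.lf (nat_lit 0) (nat_lit 1516583991892) (nat_lit 76) (nat_lit 2005762366070) (nat_lit 76) (nat_lit 2004936054260) (nat_lit 1) (nat_lit 4) (nat_lit 2) (nat_lit 5) (nat_lit 2) (nat_lit 4) (nat_lit 322) (nat_lit 241) (nat_lit 217))))) (XT.nd (nat_lit 234) (nat_lit 0) (nat_lit 0) (XT.nd (nat_lit 78) (nat_lit 0) (nat_lit 0) (XT.lf (nat_lit 0) (nat_lit 1747468483486)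 (nat_lit 76) (nat_lit 2304800149717) (nat_lit 76) (nat_lit 2303969936401) (nat_lit 1) (nat_lit 4) (nat_lit 2) (nat_lit 5) (nat_lit 2) (nat_lit 4) (nat_lit 323) (nat_lit 241) (nat_lit 216)) (XT.nd (nat_lit 78) (nat_lit 0) (nat_lit 0) (XT.lf (nat_lit 0) (nat_lit 2012958484993) (nat_lit 76) (nat_lit 2648707180355) (nat_lit 76) (nat_lit 2647873574425) (nat_lit 1) (nat_lit 4) (nat_lit 2) (nat_lit 5) (nat_lit 2) (nat_lit 4) (nat_lit 324) (nat_lit 241) (nat_lit 215)) (XT.lf (nat_lit 0) (nat_lit 2318248366008) (nat_lit 76) (nat_lit 3044212073802) (nat_lit 76) (nat_lit 3043375517773) (nat_lit 1) (nat_lit 4) (nat_lit 2) (nat_lit 5) (nat_lit 2) (nat_lit 4) (nat_lit 325) (nat_lit 241) (nat_lit 214)))) (XT.nd (nat_lit 156) (nat_lit 0) (nat_lit 0) (XT.nd (nat_lit 78) (nat_lit 0) (nat_lit 0) (XT.lf (nat_lit 0) (nat_lit 2669311189422) (nat_lit 76) (nat_lit 3499052969277) (nat_lit 76) (nat_lit 3498213847944)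 (nat_lit 1) (nat_lit 4) (nat_lit 2) (nat_lit 5) (nat_lit 2) (nat_lit 4) (nat_lit 326) (nat_lit 241) (nat_lit 213)) (XT.lf (nat_lit 0) (nat_lit 3073015575692) (nat_lit 76) (nat_lit 4022128927778) (nat_lit 76) (nat_lit 4021287575746) (nat_lit 1) (nat_lit 4) (nat_lit 2) (nat_lit 5) (nat_lit 2) (nat_lit 4) (nat_lit 327) (nat_lit 241) (nat_lit 212))) (XT.nd (nat_lit 78) (nat_lit 0) (nat_lit 0) (XT.lf (nat_lit 0) (nat_lit 3537260088897) (nat_lit 76) (nat_lit 4623674044146) (nat_lit 76) (nat_lit 4622830752376) (nat_lit 1) (nat_lit 4) (nat_lit 2) (nat_lit 5) (nat_lit 2) (nat_lit 4) (nat_lit 328) (nat_lit 241) (nat_lit 211)) (XT.lf (nat_lit 0) (nat_lit 4071127773861) (nat_lit 76) (nat_lit 5315457679353) (nat_lit 76) (nat_lit 5314612700854) (nat_lit 1) (nat_lit 4) (nat_lit 2) (nat_lit 5) (nat_lit 2) (nat_lit 4) (nat_lit 329) (nat_lit 241) (nat_lit 210))))))) (XT.nd (nat_lit 1014) (nat_lit 0) (nat_lit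 0) (XT.nd (nat_lit 468) (nat_lit 0) (nat_lit 0) (XT.nd (nat_lit 234) (nat_lit 0) (nat_lit 0) (XT.nd (nat_lit 78) (nat_lit 76) (nat_lit 0) (XT.lf (nat_lit 0) (nat_lit 35022194179) (nat_lit 152) (nat_lit 3918751391) (nat_lit 0) (nat_lit 35022194179) (nat_lit 2) (nat_lit 5) (nat_lit 4) (nat_lit 4) (nat_lit 2) (nat_lit 4) (nat_lit 296) (nat_lit 242) (nat_lit 242)) (XT.nd (nat_lit 78) (nat_lit 0) (nat_lit 0) (XT.lf (nat_lit 0) (nat_lit 1034757935) (nat_lit 76) (nat_lit 84402616519) (nat_lit 76) (nat_lit 84274183015) (nat_lit 1) (nat_lit 4) (nat_lit 2) (nat_lit 5) (nat_lit 2) (nat_lit 4) (nat_lit 297) (nat_lit 242) (nat_lit 241)) (XT.lf (nat_lit 0) (nat_lit 10818268448) (nat_lit 76) (nat_lit 92102036893) (nat_lit 76) (nat_lit 91861922082) (nat_lit 1) (nat_lit 4) (nat_lit 2) (nat_lit 5) (nat_lit 2) (nat_lit 4) (nat_lit 298) (nat_lit 242) (nat_lit 240)))) (XT.nd (nat_lit 78) (nat_lit 0) (nat_lit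 0) (XT.lf (nat_lit 0) (nat_lit 21291736257) (nat_lit 76) (nat_lit 101345084313) (nat_lit 76) (nat_lit 101007855321) (nat_lit 1) (nat_lit 4) (nat_lit 2) (nat_lit 5) (nat_lit 2) (nat_lit 4) (nat_lit 299) (nat_lit 242) (nat_lit 239)) (XT.nd (nat_lit 78) (nat_lit 0) (nat_lit 0) (XT.lf (nat_lit 0) (nat_lit 32660077037) (nat_lit 76) (nat_lit 112312601010) (nat_lit 76) (nat_lit 111890924905) (nat_lit 1) (nat_lit 4) (nat_lit 2) (nat_lit 5) (nat_lit 2) (nat_lit 4) (nat_lit 300) (nat_lit 242) (nat_lit 238)) (XT.lf (nat_lit 0) (nat_lit 45145714847) (nat_lit 76) (nat_lit 125219168834) (nat_lit 76) (nat_lit 124724060456) (nat_lit 1) (nat_lit 4) (nat_lit 2) (nat_lit 5) (nat_lit 2) (nat_lit 4) (nat_lit 301) (nat_lit 242) (nat_lit 237))))) (XT.nd (nat_lit 234) (nat_lit 0) (nat_lit 0) (XT.nd (nat_lit 78) (nat_lit 0) (nat_lit 0) (XT.lf (nat_lit 0) (nat_lit 58992933905) (nat_lit 76) (nat_lit 140317307589)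 (nat_lit 76) (nat_lit 139758345060) (nat_lit 1) (nat_lit 4) (nat_lit 2) (nat_lit 5) (nat_lit 2) (nat_lit 4) (nat_lit 302) (nat_lit 242) (nat_lit 236)) (XT.nd (nat_lit 78) (nat_lit 0) (nat_lit 0) (XT.lf (nat_lit 0) (nat_lit 74472658062) (nat_lit 76) (nat_lit 157902415642) (nat_lit 76) (nat_lit 157287927766) (nat_lit 1) (nat_lit 4) (nat_lit 2) (nat_lit 5) (nat_lit 2) (nat_lit 4) (nat_lit 303) (nat_lit 242) (nat_lit 235)) (XT.lf (nat_lit 0) (nat_lit 91887751486) (nat_lit 76) (nat_lit 178318549456) (nat_lit 76) (nat_lit 177655778668) (nat_lit 1) (nat_lit 4) (nat_lit 2) (nat_lit 5) (nat_lit 2) (nat_lit 4) (nat_lit 304) (nat_lit 242) (nat_lit 234)))) (XT.nd (nat_lit 156) (nat_lit 0) (nat_lit 0) (XT.nd (nat_lit 78) (nat_lit 0) (nat_lit 0) (XT.lf (nat_lit 0) (nat_lit 111578944266) (nat_lit 76) (nat_lit 201965155126) (nat_lit 76) (nat_lit 201260399198) (nat_lit 1) (nat_lit 4) (nat_lit 2) (nat_lit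 5) (nat_lit 2) (nat_lit 4) (nat_lit 305) (nat_lit 242) (nat_lit 233)) (XT.lf (nat_lit 0) (nat_lit 133931498870) (nat_lit 76) (nat_lit 229304883633) (nat_lit 76) (nat_lit 228563618888) (nat_lit 1) (nat_lit 4) (nat_lit 2) (nat_lit 5) (nat_lit 2) (nat_lit 4) (nat_lit 306) (nat_lit 242) (nat_lit 232))) (XT.nd (nat_lit 78) (nat_lit 0) (nat_lit 0) (XT.lf (nat_lit 0) (nat_lit 159382747886) (nat_lit 76) (nat_lit 260872642709) (nat_lit 76) (nat_lit 260099631166) (nat_lit 1) (nat_lit 4) (nat_lit 2) (nat_lit 5) (nat_lit 2) (nat_lit 4) (nat_lit 307) (nat_lit 242) (nat_lit 231)) (XT.lf (nat_lit 0) (nat_lit 188430650537) (nat_lit 76) (nat_lit 297286062423) (nat_lit 76) (nat_lit 296485444968) (nat_lit 1) (nat_lit 4) (nat_lit 2) (nat_lit 5) (nat_lit 2) (nat_lit 4) (nat_lit 308) (nat_lit 242) (nat_lit 230)))))) (XT.nd (nat_lit 468) (nat_lit 0) (nat_lit 0) (XT.nd (nat_lit 234) (nat_lit 0) (nat_lit 0) (XT.nd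 (nat_lit 78) (nat_lit 0) (nat_lit 0) (XT.lf (nat_lit 0) (nat_lit 221643535350) (nat_lit 76) (nat_lit 339257579247) (nat_lit 76) (nat_lit 338432956652) (nat_lit 1) (nat_lit 4) (nat_lit 2) (nat_lit 5) (nat_lit 2) (nat_lit 4) (nat_lit 309) (nat_lit 242) (nat_lit 229)) (XT.nd (nat_lit 78) (nat_lit 0) (nat_lit 0) (XT.lf (nat_lit 0) (nat_lit 259671219639) (nat_lit 76) (nat_lit 387608375032) (nat_lit 76) (nat_lit 386762878402) (nat_lit 1) (nat_lit 4) (nat_lit 2) (nat_lit 5) (nat_lit 2) (nat_lit 4) (nat_lit 310) (nat_lit 242) (nat_lit 228)) (XT.lf (nat_lit 0) (nat_lit 303257723313) (nat_lit 76) (nat_lit 443284443609) (nat_lit 76) (nat_lit 442420795644) (nat_lit 1) (nat_lit 4) (nat_lit 2) (nat_lit 5) (nat_lit 2) (nat_lit 4) (nat_lit 311) (nat_lit 242) (nat_lit 227)))) (XT.nd (nat_lit 78) (nat_lit 0) (nat_lit 0) (XT.lf (nat_lit 0) (nat_lit 353255825791) (nat_lit 76) (nat_lit 507375099363) (nat_lit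 76) (nat_lit 506495667629) (nat_lit 1) (nat_lit 4) (nat_lit 2) (nat_lit 5) (nat_lit 2) (nat_lit 4) (nat_lit 312) (nat_lit 242) (nat_lit 226)) (XT.nd (nat_lit 78) (nat_lit 0) (nat_lit 0) (XT.lf (nat_lit 0) (nat_lit 410643750818) (nat_lit 76) (nat_lit 581134289906) (nat_lit 76) (nat_lit 580241133156) (nat_lit 1) (nat_lit 4) (nat_lit 2) (nat_lit 5) (nat_lit 2) (nat_lit 4) (nat_lit 313) (nat_lit 242) (nat_lit 225)) (XT.lf (nat_lit 0) (nat_lit 476544305623) (nat_lit 76) (nat_lit 666005129837) (nat_lit 76) (nat_lit 665100038289) (nat_lit 1) (nat_lit 4) (nat_lit 2) (nat_lit 5) (nat_lit 2) (nat_lit 4) (nat_lit 314) (nat_lit 242) (nat_lit 224))))) (XT.nd (nat_lit 234) (nat_lit 0) (nat_lit 0) (XT.nd (nat_lit 78) (nat_lit 0) (nat_lit 0) (XT.lf (nat_lit 0) (nat_lit 552246848886) (nat_lit 76) (nat_lit 763648135588) (nat_lit 76) (nat_lit 762732665956) (nat_lit 1) (nat_lit 4) (nat_lit 2) (nat_lit 5)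 (nat_lit 2) (nat_lit 4) (nat_lit 315) (nat_lit 242) (nat_lit 223)) (XT.nd (nat_lit 78) (nat_lit 0) (nat_lit 0) (XT.lf (nat_lit 0) (nat_lit 639232517325) (nat_lit 76) (nat_lit 875973713794) (nat_lit 76) (nat_lit 875049219740) (nat_lit 1) (nat_lit 4) (nat_lit 2) (nat_lit 5) (nat_lit 2) (nat_lit 4) (nat_lit 316) (nat_lit 242) (nat_lit 222)) (XT.lf (nat_lit 0) (nat_lit 739203204450) (nat_lit 76) (nat_lit 1005179538811) (nat_lit 76) (nat_lit 1004247197435) (nat_lit 1) (nat_lit 4) (nat_lit 2) (nat_lit 5) (nat_lit 2) (nat_lit 4) (nat_lit 317) (nat_lit 242) (nat_lit 221)))) (XT.nd (nat_lit 156) (nat_lit 0) (nat_lit 0) (XT.nd (nat_lit 78) (nat_lit 0) (nat_lit 0) (XT.lf (nat_lit 0) (nat_lit 854114858490) (nat_lit 76) (nat_lit 1153793550694) (nat_lit 76) (nat_lit 1152854385558) (nat_lit 1) (nat_lit 4) (nat_lit 2) (nat_lit 5) (nat_lit 2) (nat_lit 4) (nat_lit 318) (nat_lit 242) (nat_lit 220)) (XT.lf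 (nat_lit 0) (nat_lit 986215750936) (nat_lit 76) (nat_lit 1324723414892) (nat_lit 76) (nat_lit 1323778316053) (nat_lit 1) (nat_lit 4) (nat_lit 2) (nat_lit 5) (nat_lit 2) (nat_lit 4) (nat_lit 319) (nat_lit 242) (nat_lit 219))) (XT.nd (nat_lit 78) (nat_lit 0) (nat_lit 0) (XT.lf (nat_lit 0) (nat_lit 1138090464465) (nat_lit 76) (nat_lit 1521313411358) (nat_lit 76) (nat_lit 1520363152777) (nat_lit 1) (nat_lit 4) (nat_lit 2) (nat_lit 5) (nat_lit 2) (nat_lit 4) (nat_lit 320) (nat_lit 242) (nat_lit 218)) (XT.lf (nat_lit 0) (nat_lit 1312710460866) (nat_lit 76) (nat_lit 1747409866109) (nat_lit 76) (nat_lit 1746455120796) (nat_lit 1) (nat_lit 4) (nat_lit 2) (nat_lit 5) (nat_lit 2) (nat_lit 4) (nat_lit 321) (nat_lit 242) (nat_lit 217))))))))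
noncomputable def xc6 : XT := (XT.nd (nat_lit 39858) (nat_lit 0) (nat_lit 0) (XT.nd (nat_lit 38844) (nat_lit 0) (nat_lit 0) (XT.nd (nat_lit 468) (nat_lit 0) (nat_lit 0) (XT.nd (nat_lit 234) (nat_lit 0) (nat_lit 0) (XT.nd (nat_lit 78) (nat_lit 0) (nat_lit 0) (XT.lf (nat_lit 0) (nat_lit 1513492218328) (nat_lit 76) (nat_lit 2007436405434) (nat_lit 76) (nat_lit 2006477758614) (nat_lit 1) (nat_lit 4) (nat_lit 2) (nat_lit 5) (nat_lit 2) (nat_lit 4) (nat_lit 322) (nat_lit 242) (nat_lit 216)) (XT.nd (nat_lit 78) (nat_lit 0) (nat_lit 0) (XT.lf (nat_lit 0) (nat_lit 1744364075584) (nat_lit 76) (nat_lit 2306480505102) (nat_lit 76) (nat_lit 2305518465667) (nat_lit 1) (nat_lit 4) (nat_lit 2) (nat_lit 5) (nat_lit 2) (nat_lit 4) (nat_lit 323) (nat_lit 242) (nat_lit 215)) (XT.lf (nat_lit 0) (nat_lit 2009843090711) (nat_lit 76) (nat_lit 2650393027932) (nat_lit 76) (nat_lit 2649428038399) (nat_lit 1) (nat_lit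 4) (nat_lit 2) (nat_lit 5) (nat_lit 2) (nat_lit 4) (nat_lit 324) (nat_lit 242) (nat_lit 214)))) (XT.nd (nat_lit 78) (nat_lit 0) (nat_lit 0) (XT.lf (nat_lit 0) (nat_lit 2315123418353) (nat_lit 76) (nat_lit 3045902697198) (nat_lit 76) (nat_lit 3044935142361) (nat_lit 1) (nat_lit 4) (nat_lit 2) (nat_lit 5) (nat_lit 2) (nat_lit 4) (nat_lit 325) (nat_lit 242) (nat_lit 213)) (XT.nd (nat_lit 78) (nat_lit 0) (nat_lit 0) (XT.lf (nat_lit 0) (nat_lit 2666177934484) (nat_lit 76) (nat_lit 3500747745559) (nat_lit 76) (nat_lit 3499777960023) (nat_lit 1) (nat_lit 4) (nat_lit 2) (nat_lit 5) (nat_lit 2) (nat_lit 4) (nat_lit 326) (nat_lit 242) (nat_lit 212)) (XT.lf (nat_lit 0) (nat_lit 3069875097031) (nat_lit 76) (nat_lit 4023827315266) (nat_lit 76) (nat_lit 4022855589991) (nat_lit 1) (nat_lit 4) (nat_lit 2) (nat_lit 5) (nat_lit 2) (nat_lit 4) (nat_lit 327) (nat_lit 242) (nat_lit 211))))) (XT.nd (nat_lit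 38064) (nat_lit 0) (nat_lit 0) (XT.nd (nat_lit 78) (nat_lit 0) (nat_lit 0) (XT.lf (nat_lit 0) (nat_lit 3534113328738) (nat_lit 76) (nat_lit 4625375571812) (nat_lit 76) (nat_lit 4624402159809) (nat_lit 1) (nat_lit 4) (nat_lit 2) (nat_lit 5) (nat_lit 2) (nat_lit 4) (nat_lit 328) (nat_lit 242) (nat_lit 210)) (XT.nd (nat_lit 37908) (nat_lit 0) (nat_lit 76) (XT.lf (nat_lit 0) (nat_lit 4067975551529) (nat_lit 76) (nat_lit 5317161937609) (nat_lit 76) (nat_lit 5316187058885) (nat_lit 1) (nat_lit 4) (nat_lit 2) (nat_lit 5) (nat_lit 2) (nat_lit 4) (nat_lit 329) (nat_lit 242) (nat_lit 209)) (XT.lf (nat_lit 0) (nat_lit 22092254535) (nat_lit 152) (nat_lit 12109789469) (nat_lit 0) (nat_lit 22092254535) (nat_lit 2) (nat_lit 5) (nat_lit 4) (nat_lit 4) (nat_lit 2) (nat_lit 4) (nat_lit 294) (nat_lit 243) (nat_lit 243)))) (XT.nd (nat_lit 156) (nat_lit 76) (nat_lit 0) (XT.nd (nat_lit 78) (nat_lit 0) (nat_lit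 0) (XT.lf (nat_lit 0) (nat_lit 56402843605) (nat_lit 152) (nat_lit 16356973922) (nat_lit 0) (nat_lit 56255145076) (nat_lit 2) (nat_lit 5) (nat_lit 4) (nat_lit 4) (nat_lit 2) (nat_lit 4) (nat_lit 295) (nat_lit 243) (nat_lit 242)) (XT.lf (nat_lit 0) (nat_lit 69964398687) (nat_lit 152) (nat_lit 8291872027) (nat_lit 0) (nat_lit 69688266653) (nat_lit 2) (nat_lit 5) (nat_lit 4) (nat_lit 4) (nat_lit 2) (nat_lit 4) (nat_lit 296) (nat_lit 243) (nat_lit 241))) (XT.nd (nat_lit 78) (nat_lit 0) (nat_lit 0) (XT.lf (nat_lit 0) (nat_lit 140553262) (nat_lit 76) (nat_lit 84997336136) (nat_lit 76) (nat_lit 84609522796) (nat_lit 1) (nat_lit 4) (nat_lit 2) (nat_lit 5) (nat_lit 2) (nat_lit 4) (nat_lit 297) (nat_lit 243) (nat_lit 240)) (XT.lf (nat_lit 0) (nat_lit 9562403645) (nat_lit 76) (nat_lit 92877553715) (nat_lit 76) (nat_lit 92392626194) (nat_lit 1) (nat_lit 4) (nat_lit 2) (nat_lit 5) (nat_lit 2) (nat_lit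 4) (nat_lit 298) (nat_lit 243) (nat_lit 239)))))) (XT.nd (nat_lit 468) (nat_lit 0) (nat_lit 0) (XT.nd (nat_lit 234) (nat_lit 0) (nat_lit 0) (XT.nd (nat_lit 78) (nat_lit 0) (nat_lit 0) (XT.lf (nat_lit 0) (nat_lit 19721384384) (nat_lit 76) (nat_lit 102277816095) (nat_lit 76) (nat_lit 101708441460) (nat_lit 1) (nat_lit 4) (nat_lit 2) (nat_lit 5) (nat_lit 2) (nat_lit 4) (nat_lit 299) (nat_lit 243) (nat_lit 238)) (XT.nd (nat_lit 78) (nat_lit 0) (nat_lit 0) (XT.lf (nat_lit 0) (nat_lit 30816258147) (nat_lit 76) (nat_lit 113382041454) (nat_lit 76) (nat_lit 112739234546) (nat_lit 1) (nat_lit 4) (nat_lit 2) (nat_lit 5) (nat_lit 2) (nat_lit 4) (nat_lit 300) (nat_lit 243) (nat_lit 237)) (XT.lf (nat_lit 0) (nat_lit 43064098551) (nat_lit 76) (nat_lit 126407486374) (nat_lit 76) (nat_lit 125700825316) (nat_lit 1) (nat_lit 4) (nat_lit 2) (nat_lit 5) (nat_lit 2) (nat_lit 4) (nat_lit 301) (nat_lit 243) (nat_lit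 236)))) (XT.nd (nat_lit 78) (nat_lit 0) (nat_lit 0) (XT.lf (nat_lit 0) (nat_lit 56704537255) (nat_lit 76) (nat_lit 141608996517) (nat_lit 76) (nat_lit 140846810111) (nat_lit 1) (nat_lit 4) (nat_lit 2) (nat_lit 5) (nat_lit 2) (nat_lit 4) (nat_lit 302) (nat_lit 243) (nat_lit 235)) (XT.nd (nat_lit 78) (nat_lit 0) (nat_lit 0) (XT.lf (nat_lit 0) (nat_lit 72004452409) (nat_lit 76) (nat_lit 159283992734) (nat_lit 76) (nat_lit 158473523417) (nat_lit 1) (nat_lit 4) (nat_lit 2) (nat_lit 5) (nat_lit 2) (nat_lit 4) (nat_lit 303) (nat_lit 243) (nat_lit 234)) (XT.lf (nat_lit 0) (nat_lit 89263190179) (nat_lit 76) (nat_lit 179778290168) (nat_lit 76) (nat_lit 178925835711) (nat_lit 1) (nat_lit 4) (nat_lit 2) (nat_lit 5) (nat_lit 2) (nat_lit 4) (nat_lit 304) (nat_lit 243) (nat_lit 233))))) (XT.nd (nat_lit 234) (nat_lit 0) (nat_lit 0) (XT.nd (nat_lit 78) (nat_lit 0) (nat_lit 0) (XT.lf (nat_lit 0) (nat_lit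 108818421520) (nat_lit 76) (nat_lit 203492864204) (nat_lit 76) (nat_lit 202603900930) (nat_lit 1) (nat_lit 4) (nat_lit 2) (nat_lit 5) (nat_lit 2) (nat_lit 4) (nat_lit 305) (nat_lit 243) (nat_lit 232)) (XT.nd (nat_lit 78) (nat_lit 0) (nat_lit 0) (XT.lf (nat_lit 0) (nat_lit 131052748785) (nat_lit 76) (nat_lit 230891695639) (nat_lit 76) (nat_lit 229970985566) (nat_lit 1) (nat_lit 4) (nat_lit 2) (nat_lit 5) (nat_lit 2) (nat_lit 4) (nat_lit 306) (nat_lit 243) (nat_lit 231)) (XT.lf (nat_lit 0) (nat_lit 156401191421) (nat_lit 76) (nat_lit 262510848564) (nat_lit 76) (nat_lit 261562532580) (nat_lit 1) (nat_lit 4) (nat_lit 2) (nat_lit 5) (nat_lit 2) (nat_lit 4) (nat_lit 307) (nat_lit 243) (nat_lit 230)))) (XT.nd (nat_lit 156) (nat_lit 0) (nat_lit 0) (XT.nd (nat_lit 78) (nat_lit 0) (nat_lit 0) (XT.lf (nat_lit 0) (nat_lit 185359697218) (nat_lit 76) (nat_lit 298968958581) (nat_lit 76) (nat_lit 297996637457)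 (nat_lit 1) (nat_lit 4) (nat_lit 2) (nat_lit 5) (nat_lit 2) (nat_lit 4) (nat_lit 308) (nat_lit 243) (nat_lit 229)) (XT.lf (nat_lit 0) (nat_lit 218494845637) (nat_lit 76) (nat_lit 340979336539) (nat_lit 76) (nat_lit 339986141380) (nat_lit 1) (nat_lit 4) (nat_lit 2) (nat_lit 5) (nat_lit 2) (nat_lit 4) (nat_lit 309) (nat_lit 243) (nat_lit 228))) (XT.nd (nat_lit 78) (nat_lit 0) (nat_lit 0) (XT.lf (nat_lit 0) (nat_lit 256454933062) (nat_lit 76) (nat_lit 389363924615) (nat_lit 76) (nat_lit 388352578121) (nat_lit 1) (nat_lit 4) (nat_lit 2) (nat_lit 5) (nat_lit 2) (nat_lit 4) (nat_lit 310) (nat_lit 243) (nat_lit 227)) (XT.lf (nat_lit 0) (nat_lit 299982656853) (nat_lit 76) (nat_lit 445069377792) (nat_lit 76) (nat_lit 444042247529) (nat_lit 1) (nat_lit 4) (nat_lit 2) (nat_lit 5) (nat_lit 2) (nat_lit 4) (nat_lit 311) (nat_lit 243) (nat_lit 226))))))) (XT.nd (nat_lit 1014) (nat_lit 0) (nat_lit 0)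 (XT.nd (nat_lit 468) (nat_lit 0) (nat_lit 0) (XT.nd (nat_lit 234) (nat_lit 0) (nat_lit 0) (XT.nd (nat_lit 78) (nat_lit 0) (nat_lit 0) (XT.lf (nat_lit 0) (nat_lit 349929646391) (nat_lit 76) (nat_lit 509185585372) (nat_lit 76) (nat_lit 508144730092) (nat_lit 1) (nat_lit 4) (nat_lit 2) (nat_lit 5) (nat_lit 2) (nat_lit 4) (nat_lit 312) (nat_lit 243) (nat_lit 225)) (XT.nd (nat_lit 78) (nat_lit 0) (nat_lit 0) (XT.lf (nat_lit 0) (nat_lit 407273125383) (nat_lit 76) (nat_lit 582966994895) (nat_lit 76) (nat_lit 581914204818) (nat_lit 1) (nat_lit 4) (nat_lit 2) (nat_lit 5) (nat_lit 2) (nat_lit 4) (nat_lit 313) (nat_lit 243) (nat_lit 224)) (XT.lf (nat_lit 0) (nat_lit 473135031461) (nat_lit 76) (nat_lit 667857155677) (nat_lit 76) (nat_lit 666793987515) (nat_lit 1) (nat_lit 4) (nat_lit 2) (nat_lit 5) (nat_lit 2) (nat_lit 4) (nat_lit 314) (nat_lit 243) (nat_lit 223)))) (XT.nd (nat_lit 78) (nat_lit 0)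 (nat_lit 0) (XT.lf (nat_lit 0) (nat_lit 548803967136) (nat_lit 76) (nat_lit 765516962169) (nat_lit 76) (nat_lit 764444769586) (nat_lit 1) (nat_lit 4) (nat_lit 2) (nat_lit 5) (nat_lit 2) (nat_lit 4) (nat_lit 315) (nat_lit 243) (nat_lit 222)) (XT.nd (nat_lit 78) (nat_lit 0) (nat_lit 0) (XT.lf (nat_lit 0) (nat_lit 635760411584) (nat_lit 76) (nat_lit 877857149714) (nat_lit 76) (nat_lit 876777109809) (nat_lit 1) (nat_lit 4) (nat_lit 2) (nat_lit 5) (nat_lit 2) (nat_lit 4) (nat_lit 316) (nat_lit 243) (nat_lit 221)) (XT.lf (nat_lit 0) (nat_lit 735705686545) (nat_lit 76) (nat_lit 1007075678505) (nat_lit 76) (nat_lit 1005988814840) (nat_lit 1) (nat_lit 4) (nat_lit 2) (nat_lit 5) (nat_lit 2) (nat_lit 4) (nat_lit 317) (nat_lit 243) (nat_lit 220))))) (XT.nd (nat_lit 234) (nat_lit 0) (nat_lit 0) (XT.nd (nat_lit 78) (nat_lit 0) (nat_lit 0) (XT.lf (nat_lit 0) (nat_lit 850595243050) (nat_lit 76) (nat_lit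 1155700737148) (nat_lit 76) (nat_lit 1154607939779) (nat_lit 1) (nat_lit 4) (nat_lit 2) (nat_lit 5) (nat_lit 2) (nat_lit 4) (nat_lit 318) (nat_lit 243) (nat_lit 219)) (XT.nd (nat_lit 78) (nat_lit 0) (nat_lit 0) (XT.lf (nat_lit 0) (nat_lit 982676920248) (nat_lit 76) (nat_lit 1326640207224) (nat_lit 76) (nat_lit 1325542250113) (nat_lit 1) (nat_lit 4) (nat_lit 2) (nat_lit 5) (nat_lit 2) (nat_lit 4) (nat_lit 319) (nat_lit 243) (nat_lit 218)) (XT.lf (nat_lit 0) (nat_lit 1134534924867) (nat_lit 76) (nat_lit 1523238556627) (nat_lit 76) (nat_lit 1522136112784) (nat_lit 1) (nat_lit 4) (nat_lit 2) (nat_lit 5) (nat_lit 2) (nat_lit 4) (nat_lit 320) (nat_lit 243) (nat_lit 217)))) (XT.nd (nat_lit 156) (nat_lit 0) (nat_lit 0) (XT.nd (nat_lit 78) (nat_lit 0) (nat_lit 0) (XT.lf (nat_lit 0) (nat_lit 1309140391779) (nat_lit 76) (nat_lit 1749342274802) (nat_lit 76) (nat_lit 1748235929453) (nat_lit 1) (nat_lit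 4) (nat_lit 2) (nat_lit 5) (nat_lit 2) (nat_lit 4) (nat_lit 321) (nat_lit 243) (nat_lit 216)) (XT.lf (nat_lit 0) (nat_lit 1509909514904) (nat_lit 76) (nat_lit 2009375130147) (nat_lit 76) (nat_lit 2008265392184) (nat_lit 1) (nat_lit 4) (nat_lit 2) (nat_lit 5) (nat_lit 2) (nat_lit 4) (nat_lit 322) (nat_lit 243) (nat_lit 215))) (XT.nd (nat_lit 78) (nat_lit 0) (nat_lit 0) (XT.lf (nat_lit 0) (nat_lit 1740770385780) (nat_lit 76) (nat_lit 2308424722007) (nat_lit 76) (nat_lit 2307312033944) (nat_lit 1) (nat_lit 4) (nat_lit 2) (nat_lit 5) (nat_lit 2) (nat_lit 4) (nat_lit 323) (nat_lit 243) (nat_lit 214)) (XT.lf (nat_lit 0) (nat_lit 2006239847533) (nat_lit 76) (nat_lit 2652342020656) (nat_lit 76) (nat_lit 2651226767290) (nat_lit 1) (nat_lit 4) (nat_lit 2) (nat_lit 5) (nat_lit 2) (nat_lit 4) (nat_lit 324) (nat_lit 243) (nat_lit 213)))))) (XT.nd (nat_lit 38142) (nat_lit 0) (nat_lit 0) (XT.nd (nat_lit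 234) (nat_lit 0) (nat_lit 0) (XT.nd (nat_lit 78) (nat_lit 0) (nat_lit 0) (XT.lf (nat_lit 0) (nat_lit 2311511867892) (nat_lit 76) (nat_lit 3047855842808) (nat_lit 76) (nat_lit 3046738358743) (nat_lit 1) (nat_lit 4) (nat_lit 2) (nat_lit 5) (nat_lit 2) (nat_lit 4) (nat_lit 325) (nat_lit 243) (nat_lit 212)) (XT.nd (nat_lit 78) (nat_lit 0) (nat_lit 0) (XT.lf (nat_lit 0) (nat_lit 2662559160301) (nat_lit 76) (nat_lit 3502704502375) (nat_lit 76) (nat_lit 3501585078571) (nat_lit 1) (nat_lit 4) (nat_lit 2) (nat_lit 5) (nat_lit 2) (nat_lit 4) (nat_lit 326) (nat_lit 243) (nat_lit 211)) (XT.lf (nat_lit 0) (nat_lit 3066250041349) (nat_lit 76) (nat_lit 4025787212260) (nat_lit 76) (nat_lit 4024666101727) (nat_lit 1) (nat_lit 4) (nat_lit 2) (nat_lit 5) (nat_lit 2) (nat_lit 4) (nat_lit 327) (nat_lit 243) (nat_lit 210)))) (XT.nd (nat_lit 78) (nat_lit 0) (nat_lit 0) (XT.lf (nat_lit 0) (nat_lit 3530482810883)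 (nat_lit 76) (nat_lit 4627338199396) (nat_lit 76) (nat_lit 4626215622143) (nat_lit 1) (nat_lit 4) (nat_lit 2) (nat_lit 5) (nat_lit 2) (nat_lit 4) (nat_lit 328) (nat_lit 243) (nat_lit 209)) (XT.nd (nat_lit 37752) (nat_lit 0) (nat_lit 76) (XT.lf (nat_lit 0) (nat_lit 4064340283959) (nat_lit 76) (nat_lit 5319126939620) (nat_lit 76) (nat_lit 5318003086957) (nat_lit 1) (nat_lit 4) (nat_lit 2) (nat_lit 5) (nat_lit 2) (nat_lit 4) (nat_lit 329) (nat_lit 243) (nat_lit 208)) (XT.lf (nat_lit 0) (nat_lit 11656929185) (nat_lit 152) (nat_lit 19675388603) (nat_lit 0) (nat_lit 11656929185) (nat_lit 2) (nat_lit 5) (nat_lit 4) (nat_lit 4) (nat_lit 2) (nat_lit 4) (nat_lit 292) (nat_lit 244) (nat_lit 244))))) (XT.nd (nat_lit 234) (nat_lit 76) (nat_lit 0) (XT.nd (nat_lit 78) (nat_lit 0) (nat_lit 0) (XT.lf (nat_lit 0) (nat_lit 33240194024) (nat_lit 152) (nat_lit 32033520652) (nat_lit 0) (nat_lit 33070340715)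 (nat_lit 2) (nat_lit 5) (nat_lit 4) (nat_lit 4) (nat_lit 2) (nat_lit 4) (nat_lit 293) (nat_lit 244) (nat_lit 243)) (XT.nd (nat_lit 78) (nat_lit 0) (nat_lit 0) (XT.lf (nat_lit 0) (nat_lit 44092520949) (nat_lit 152) (nat_lit 24742103568) (nat_lit 0) (nat_lit 43774969111) (nat_lit 2) (nat_lit 5) (nat_lit 4) (nat_lit 4) (nat_lit 2) (nat_lit 4) (nat_lit 294) (nat_lit 244) (nat_lit 242)) (XT.lf (nat_lit 0) (nat_lit 56083167282) (nat_lit 152) (nat_lit 17333867795) (nat_lit 0) (nat_lit 55637181940) (nat_lit 2) (nat_lit 5) (nat_lit 4) (nat_lit 4) (nat_lit 2) (nat_lit 4) (nat_lit 295) (nat_lit 244) (nat_lit 241)))) (XT.nd (nat_lit 156) (nat_lit 76) (nat_lit 0) (XT.nd (nat_lit 78) (nat_lit 0) (nat_lit 0) (XT.lf (nat_lit 0) (nat_lit 69446732624) (nat_lit 152) (nat_lit 9663869590) (nat_lit 0) (nat_lit 68889065974) (nat_lit 2) (nat_lit 5) (nat_lit 4) (nat_lit 4) (nat_lit 2) (nat_lit 4) (nat_lit 296)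 (nat_lit 244) (nat_lit 240)) (XT.lf (nat_lit 0) (nat_lit 84444678036) (nat_lit 152) (nat_lit 1582043769) (nat_lit 0) (nat_lit 83789897206) (nat_lit 2) (nat_lit 5) (nat_lit 4) (nat_lit 4) (nat_lit 2) (nat_lit 4) (nat_lit 297) (nat_lit 244) (nat_lit 239))) (XT.nd (nat_lit 78) (nat_lit 0) (nat_lit 0) (XT.lf (nat_lit 0) (nat_lit 7442011921) (nat_lit 76) (nat_lit 94107410225) (nat_lit 76) (nat_lit 93368182281) (nat_lit 1) (nat_lit 4) (nat_lit 2) (nat_lit 5) (nat_lit 2) (nat_lit 4) (nat_lit 298) (nat_lit 244) (nat_lit 238)) (XT.lf (nat_lit 0) (nat_lit 17327525643) (nat_lit 76) (nat_lit 103644381266) (nat_lit 76) (nat_lit 102831721050) (nat_lit 1) (nat_lit 4) (nat_lit 2) (nat_lit 5) (nat_lit 2) (nat_lit 4) (nat_lit 299) (nat_lit 244) (nat_lit 237))))))))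
noncomputable def xc7 : XT := (XT.nd (nat_lit 2028) (nat_lit 0) (nat_lit 0) (XT.nd (nat_lit 1014) (nat_lit 0) (nat_lit 0) (XT.nd (nat_lit 468) (nat_lit 0) (nat_lit 0) (XT.nd (nat_lit 234) (nat_lit 0) (nat_lit 0) (XT.nd (nat_lit 78) (nat_lit 0) (nat_lit 0) (XT.lf (nat_lit 0) (nat_lit 28184602000) (nat_lit 76) (nat_lit 114867483721) (nat_lit 76) (nat_lit 113990969355) (nat_lit 1) (nat_lit 4) (nat_lit 2) (nat_lit 5) (nat_lit 2) (nat_lit 4) (nat_lit 300) (nat_lit 244) (nat_lit 236)) (XT.nd (nat_lit 78) (nat_lit 0) (nat_lit 0) (XT.lf (nat_lit 0) (nat_lit 40225662050) (nat_lit 76) (nat_lit 127996300030) (nat_lit 76) (nat_lit 127064260315) (nat_lit 1) (nat_lit 4) (nat_lit 2) (nat_lit 5) (nat_lit 2) (nat_lit 4) (nat_lit 301) (nat_lit 244) (nat_lit 235)) (XT.lf (nat_lit 0) (nat_lit 53686291752) (nat_lit 76) (nat_lit 143287698337) (nat_lit 76) (nat_lit 142307375711) (nat_lit 1) (nat_lit 4) (nat_lit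 2) (nat_lit 5) (nat_lit 2) (nat_lit 4) (nat_lit 302) (nat_lit 244) (nat_lit 234)))) (XT.nd (nat_lit 78) (nat_lit 0) (nat_lit 0) (XT.lf (nat_lit 0) (nat_lit 68829851251) (nat_lit 76) (nat_lit 161040858175) (nat_lit 76) (nat_lit 160018550409) (nat_lit 1) (nat_lit 4) (nat_lit 2) (nat_lit 5) (nat_lit 2) (nat_lit 4) (nat_lit 303) (nat_lit 244) (nat_lit 233)) (XT.nd (nat_lit 78) (nat_lit 0) (nat_lit 0) (XT.lf (nat_lit 0) (nat_lit 85952627581) (nat_lit 76) (nat_lit 181603123975) (nat_lit 76) (nat_lit 180544307391) (nat_lit 1) (nat_lit 4) (nat_lit 2) (nat_lit 5) (nat_lit 2) (nat_lit 4) (nat_lit 304) (nat_lit 244) (nat_lit 232)) (XT.lf (nat_lit 0) (nat_lit 105389631584) (nat_lit 76) (nat_lit 205376800938) (nat_lit 76) (nat_lit 204286237556) (nat_lit 1) (nat_lit 4) (nat_lit 2) (nat_lit 5) (nat_lit 2) (nat_lit 4) (nat_lit 305) (nat_lit 244) (nat_lit 231))))) (XT.nd (nat_lit 234) (nat_lit 0) (nat_lit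 0) (XT.nd (nat_lit 78) (nat_lit 0) (nat_lit 0) (XT.lf (nat_lit 0) (nat_lit 127521152468) (nat_lit 76) (nat_lit 232827026221) (nat_lit 76) (nat_lit 231708856929) (nat_lit 1) (nat_lit 4) (nat_lit 2) (nat_lit 5) (nat_lit 2) (nat_lit 4) (nat_lit 306) (nat_lit 244) (nat_lit 230)) (XT.nd (nat_lit 78) (nat_lit 0) (nat_lit 0) (XT.lf (nat_lit 0) (nat_lit 152780198251) (nat_lit 76) (nat_lit 264490869450) (nat_lit 76) (nat_lit 263348695018) (nat_lit 1) (nat_lit 4) (nat_lit 2) (nat_lit 5) (nat_lit 2) (nat_lit 4) (nat_lit 307) (nat_lit 244) (nat_lit 229)) (XT.lf (nat_lit 0) (nat_lit 181660967654) (nat_lit 76) (nat_lit 300987840602) (nat_lit 76) (nat_lit 299824792134) (nat_lit 1) (nat_lit 4) (nat_lit 2) (nat_lit 5) (nat_lit 2) (nat_lit 4) (nat_lit 308) (nat_lit 244) (nat_lit 228)))) (XT.nd (nat_lit 156) (nat_lit 0) (nat_lit 0) (XT.nd (nat_lit 78) (nat_lit 0) (nat_lit 0) (XT.lf (nat_lit 0) (nat_lit 214728519210)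 (nat_lit 76) (nat_lit 343032010850) (nat_lit 76) (nat_lit 341850811047) (nat_lit 1) (nat_lit 4) (nat_lit 2) (nat_lit 5) (nat_lit 2) (nat_lit 4) (nat_lit 309) (nat_lit 244) (nat_lit 227)) (XT.lf (nat_lit 0) (nat_lit 252629826752) (nat_lit 76) (nat_lit 391445983525) (nat_lit 76) (nat_lit 390248999954) (nat_lit 1) (nat_lit 4) (nat_lit 2) (nat_lit 5) (nat_lit 2) (nat_lit 4) (nat_lit 310) (nat_lit 244) (nat_lit 226))) (XT.nd (nat_lit 78) (nat_lit 0) (nat_lit 0) (XT.lf (nat_lit 0) (nat_lit 296106437603) (nat_lit 76) (nat_lit 447176988529) (nat_lit 76) (nat_lit 445966279940) (nat_lit 1) (nat_lit 4) (nat_lit 2) (nat_lit 5) (nat_lit 2) (nat_lit 4) (nat_lit 311) (nat_lit 244) (nat_lit 225)) (XT.lf (nat_lit 0) (nat_lit 346008981104) (nat_lit 76) (nat_lit 511315415088) (nat_lit 76) (nat_lit 510092771702) (nat_lit 1) (nat_lit 4) (nat_lit 2) (nat_lit 5) (nat_lit 2) (nat_lit 4) (nat_lit 312) (nat_lit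 244) (nat_lit 224)))))) (XT.nd (nat_lit 468) (nat_lit 0) (nat_lit 0) (XT.nd (nat_lit 234) (nat_lit 0) (nat_lit 0) (XT.nd (nat_lit 78) (nat_lit 0) (nat_lit 0) (XT.lf (nat_lit 0) (nat_lit 403313811370) (nat_lit 76) (nat_lit 585116145463) (nat_lit 76) (nat_lit 583883123992) (nat_lit 1) (nat_lit 4) (nat_lit 2) (nat_lit 5) (nat_lit 2) (nat_lit 4) (nat_lit 313) (nat_lit 244) (nat_lit 223)) (XT.nd (nat_lit 78) (nat_lit 0) (nat_lit 0) (XT.lf (nat_lit 0) (nat_lit 469142109860) (nat_lit 76) (nat_lit 670023106986) (nat_lit 76) (nat_lit 668781061094) (nat_lit 1) (nat_lit 4) (nat_lit 2) (nat_lit 5) (nat_lit 2) (nat_lit 4) (nat_lit 314) (nat_lit 244) (nat_lit 222)) (XT.lf (nat_lit 0) (nat_lit 544781821545) (nat_lit 76) (nat_lit 767697522817) (nat_lit 76) (nat_lit 766447629602) (nat_lit 1) (nat_lit 4) (nat_lit 2) (nat_lit 5) (nat_lit 2) (nat_lit 4) (nat_lit 315) (nat_lit 244) (nat_lit 221)))) (XT.nd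 (nat_lit 78) (nat_lit 0) (nat_lit 0) (XT.lf (nat_lit 0) (nat_lit 631712853828) (nat_lit 76) (nat_lit 880050414136) (nat_lit 76) (nat_lit 878793697163) (nat_lit 1) (nat_lit 4) (nat_lit 2) (nat_lit 5) (nat_lit 2) (nat_lit 4) (nat_lit 316) (nat_lit 244) (nat_lit 220)) (XT.nd (nat_lit 78) (nat_lit 0) (nat_lit 0) (XT.lf (nat_lit 0) (nat_lit 731636031254) (nat_lit 76) (nat_lit 1009279989686) (nat_lit 76) (nat_lit 1008017339009) (nat_lit 1) (nat_lit 4) (nat_lit 2) (nat_lit 5) (nat_lit 2) (nat_lit 4) (nat_lit 317) (nat_lit 244) (nat_lit 219)) (XT.lf (nat_lit 0) (nat_lit 846506372511) (nat_lit 76) (nat_lit 1157914654207) (nat_lit 76) (nat_lit 1156646843788) (nat_lit 1) (nat_lit 4) (nat_lit 2) (nat_lit 5) (nat_lit 2) (nat_lit 4) (nat_lit 318) (nat_lit 244) (nat_lit 218))))) (XT.nd (nat_lit 234) (nat_lit 0) (nat_lit 0) (XT.nd (nat_lit 78) (nat_lit 0) (nat_lit 0) (XT.lf (nat_lit 0) (nat_lit 978571340798)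 (nat_lit 76) (nat_lit 1328862477221) (nat_lit 76) (nat_lit 1327590180069) (nat_lit 1) (nat_lit 4) (nat_lit 2) (nat_lit 5) (nat_lit 2) (nat_lit 4) (nat_lit 319) (nat_lit 244) (nat_lit 217)) (XT.nd (nat_lit 78) (nat_lit 0) (nat_lit 0) (XT.lf (nat_lit 0) (nat_lit 1130414815929) (nat_lit 76) (nat_lit 1525468090047) (nat_lit 76) (nat_lit 1524191891389) (nat_lit 1) (nat_lit 4) (nat_lit 2) (nat_lit 5) (nat_lit 2) (nat_lit 4) (nat_lit 320) (nat_lit 244) (nat_lit 216)) (XT.lf (nat_lit 0) (nat_lit 1305007648504) (nat_lit 76) (nat_lit 1751578124243) (nat_lit 76) (nat_lit 1750298532971) (nat_lit 1) (nat_lit 4) (nat_lit 2) (nat_lit 5) (nat_lit 2) (nat_lit 4) (nat_lit 321) (nat_lit 244) (nat_lit 215)))) (XT.nd (nat_lit 156) (nat_lit 0) (nat_lit 0) (XT.nd (nat_lit 78) (nat_lit 0) (nat_lit 0) (XT.lf (nat_lit 0) (nat_lit 1505765785249) (nat_lit 76) (nat_lit 2011616471780) (nat_lit 76) (nat_lit 2010333930408)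 (nat_lit 1) (nat_lit 4) (nat_lit 2) (nat_lit 5) (nat_lit 2) (nat_lit 4) (nat_lit 322) (nat_lit 244) (nat_lit 214)) (XT.lf (nat_lit 0) (nat_lit 1736617102750) (nat_lit 76) (nat_lit 2310670839459) (nat_lit 76) (nat_lit 2309385732783) (nat_lit 1) (nat_lit 4) (nat_lit 2) (nat_lit 5) (nat_lit 2) (nat_lit 4) (nat_lit 323) (nat_lit 244) (nat_lit 213))) (XT.nd (nat_lit 78) (nat_lit 0) (nat_lit 0) (XT.lf (nat_lit 0) (nat_lit 2002078257221) (nat_lit 76) (nat_lit 2654592290994) (nat_lit 76) (nat_lit 2653304953620) (nat_lit 1) (nat_lit 4) (nat_lit 2) (nat_lit 5) (nat_lit 2) (nat_lit 4) (nat_lit 324) (nat_lit 244) (nat_lit 212)) (XT.lf (nat_lit 0) (nat_lit 2307343053858) (nat_lit 76) (nat_lit 3050109724352) (nat_lit 76) (nat_lit 3048820447239) (nat_lit 1) (nat_lit 4) (nat_lit 2) (nat_lit 5) (nat_lit 2) (nat_lit 4) (nat_lit 325) (nat_lit 244) (nat_lit 211))))))) (XT.nd (nat_lit 38532) (nat_lit 0) (nat_lit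 0) (XT.nd (nat_lit 37986) (nat_lit 0) (nat_lit 0) (XT.nd (nat_lit 234) (nat_lit 0) (nat_lit 0) (XT.nd (nat_lit 78) (nat_lit 0) (nat_lit 0) (XT.lf (nat_lit 0) (nat_lit 2658384064768) (nat_lit 76) (nat_lit 3504961524097) (nat_lit 76) (nat_lit 3503670560255) (nat_lit 1) (nat_lit 4) (nat_lit 2) (nat_lit 5) (nat_lit 2) (nat_lit 4) (nat_lit 326) (nat_lit 244) (nat_lit 210)) (XT.nd (nat_lit 78) (nat_lit 0) (nat_lit 0) (XT.lf (nat_lit 0) (nat_lit 3062069483643) (nat_lit 76) (nat_lit 4028046964572) (nat_lit 76) (nat_lit 4026754534010) (nat_lit 1) (nat_lit 4) (nat_lit 2) (nat_lit 5) (nat_lit 2) (nat_lit 4) (nat_lit 327) (nat_lit 244) (nat_lit 209)) (XT.lf (nat_lit 0) (nat_lit 3526297503462) (nat_lit 76) (nat_lit 4629600326134) (nat_lit 76) (nat_lit 4628306620163) (nat_lit 1) (nat_lit 4) (nat_lit 2) (nat_lit 5) (nat_lit 2) (nat_lit 4) (nat_lit 328) (nat_lit 244) (nat_lit 208)))) (XT.nd (nat_lit 37596)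 (nat_lit 0) (nat_lit 76) (XT.lf (nat_lit 0) (nat_lit 4060150846350) (nat_lit 76) (nat_lit 5321391131076) (nat_lit 76) (nat_lit 5320096316053) (nat_lit 1) (nat_lit 4) (nat_lit 2) (nat_lit 5) (nat_lit 2) (nat_lit 4) (nat_lit 329) (nat_lit 244) (nat_lit 207)) (XT.nd (nat_lit 78) (nat_lit 0) (nat_lit 0) (XT.lf (nat_lit 0) (nat_lit 3009125627) (nat_lit 152) (nat_lit 26973865675) (nat_lit 0) (nat_lit 3009125627) (nat_lit 2) (nat_lit 5) (nat_lit 4) (nat_lit 4) (nat_lit 2) (nat_lit 4) (nat_lit 290) (nat_lit 245) (nat_lit 245)) (XT.lf (nat_lit 0) (nat_lit 14314634377) (nat_lit 152) (nat_lit 46837036947) (nat_lit 0) (nat_lit 14119303072) (nat_lit 2) (nat_lit 5) (nat_lit 4) (nat_lit 4) (nat_lit 2) (nat_lit 4) (nat_lit 291) (nat_lit 245) (nat_lit 244))))) (XT.nd (nat_lit 234) (nat_lit 76) (nat_lit 0) (XT.nd (nat_lit 78) (nat_lit 0) (nat_lit 0) (XT.lf (nat_lit 0) (nat_lit 23208072029) (nat_lit 152)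 (nat_lit 39951680531) (nat_lit 0) (nat_lit 22842887415) (nat_lit 2) (nat_lit 5) (nat_lit 4) (nat_lit 4) (nat_lit 2) (nat_lit 4) (nat_lit 292) (nat_lit 245) (nat_lit 243)) (XT.nd (nat_lit 78) (nat_lit 0) (nat_lit 0) (XT.lf (nat_lit 0) (nat_lit 32872566252) (nat_lit 152) (nat_lit 33156948606) (nat_lit 0) (nat_lit 32359683109) (nat_lit 2) (nat_lit 5) (nat_lit 4) (nat_lit 4) (nat_lit 2) (nat_lit 4) (nat_lit 293) (nat_lit 245) (nat_lit 242)) (XT.lf (nat_lit 0) (nat_lit 43497204977) (nat_lit 152) (nat_lit 26319900766) (nat_lit 0) (nat_lit 42855888330) (nat_lit 2) (nat_lit 5) (nat_lit 4) (nat_lit 4) (nat_lit 2) (nat_lit 4) (nat_lit 294) (nat_lit 245) (nat_lit 241)))) (XT.nd (nat_lit 156) (nat_lit 76) (nat_lit 0) (XT.nd (nat_lit 78) (nat_lit 0) (nat_lit 0) (XT.lf (nat_lit 0) (nat_lit 55289861570) (nat_lit 152) (nat_lit 19306768683) (nat_lit 0) (nat_lit 54536863615) (nat_lit 2) (nat_lit 5) (nat_lit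 4) (nat_lit 4) (nat_lit 2) (nat_lit 4) (nat_lit 295) (nat_lit 245) (nat_lit 240)) (XT.lf (nat_lit 0) (nat_lit 68481261920) (nat_lit 152) (nat_lit 11980338903) (nat_lit 0) (nat_lit 67631149785) (nat_lit 2) (nat_lit 5) (nat_lit 4) (nat_lit 4) (nat_lit 2) (nat_lit 4) (nat_lit 296) (nat_lit 245) (nat_lit 239))) (XT.nd (nat_lit 78) (nat_lit 76) (nat_lit 0) (XT.lf (nat_lit 0) (nat_lit 83329498644) (nat_lit 152) (nat_lit 4197268236) (nat_lit 0) (nat_lit 82394939396) (nat_lit 2) (nat_lit 5) (nat_lit 4) (nat_lit 4) (nat_lit 2) (nat_lit 4) (nat_lit 297) (nat_lit 245) (nat_lit 238)) (XT.lf (nat_lit 0) (nat_lit 4415607351) (nat_lit 76) (nat_lit 95815668832) (nat_lit 76) (nat_lit 94807677311) (nat_lit 1) (nat_lit 4) (nat_lit 2) (nat_lit 5) (nat_lit 2) (nat_lit 4) (nat_lit 298) (nat_lit 245) (nat_lit 237)))))) (XT.nd (nat_lit 468) (nat_lit 0) (nat_lit 0) (XT.nd (nat_lit 234) (nat_lit 0) (nat_lit 0)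 (XT.nd (nat_lit 78) (nat_lit 0) (nat_lit 0) (XT.lf (nat_lit 0) (nat_lit 14063323667) (nat_lit 76) (nat_lit 105471516970) (nat_lit 76) (nat_lit 104399671299) (nat_lit 1) (nat_lit 4) (nat_lit 2) (nat_lit 5) (nat_lit 2) (nat_lit 4) (nat_lit 299) (nat_lit 245) (nat_lit 236)) (XT.nd (nat_lit 78) (nat_lit 0) (nat_lit 0) (XT.lf (nat_lit 0) (nat_lit 24713619670) (nat_lit 76) (nat_lit 116797990814) (nat_lit 76) (nat_lit 115670619794) (nat_lit 1) (nat_lit 4) (nat_lit 2) (nat_lit 5) (nat_lit 2) (nat_lit 4) (nat_lit 300) (nat_lit 245) (nat_lit 235)) (XT.lf (nat_lit 0) (nat_lit 36574870718) (nat_lit 76) (nat_lit 130016695286) (nat_lit 76) (nat_lit 128841041356) (nat_lit 1) (nat_lit 4) (nat_lit 2) (nat_lit 5) (nat_lit 2) (nat_lit 4) (nat_lit 301) (nat_lit 245) (nat_lit 234)))) (XT.nd (nat_lit 78) (nat_lit 0) (nat_lit 0) (XT.lf (nat_lit 0) (nat_lit 49879144764) (nat_lit 76) (nat_lit 145386257214) (nat_lit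 76) (nat_lit 144168618143) (nat_lit 1) (nat_lit 4) (nat_lit 2) (nat_lit 5) (nat_lit 2) (nat_lit 4) (nat_lit 302) (nat_lit 245) (nat_lit 233)) (XT.nd (nat_lit 78) (nat_lit 0) (nat_lit 0) (XT.lf (nat_lit 0) (nat_lit 64886742825) (nat_lit 76) (nat_lit 163207385418) (nat_lit 76) (nat_lit 161953237530) (nat_lit 1) (nat_lit 4) (nat_lit 2) (nat_lit 5) (nat_lit 2) (nat_lit 4) (nat_lit 303) (nat_lit 245) (nat_lit 232)) (XT.lf (nat_lit 0) (nat_lit 81891291817) (nat_lit 76) (nat_lit 183828754145) (nat_lit 76) (nat_lit 182542859459) (nat_lit 1) (nat_lit 4) (nat_lit 2) (nat_lit 5) (nat_lit 2) (nat_lit 4) (nat_lit 304) (nat_lit 245) (nat_lit 231))))) (XT.nd (nat_lit 234) (nat_lit 0) (nat_lit 0) (XT.nd (nat_lit 78) (nat_lit 0) (nat_lit 0) (XT.lf (nat_lit 0) (nat_lit 101225489439) (nat_lit 76) (nat_lit 207653824957) (nat_lit 76) (nat_lit 206340324360) (nat_lit 1) (nat_lit 4) (nat_lit 2) (nat_lit 5) (nat_lit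 2) (nat_lit 4) (nat_lit 305) (nat_lit 245) (nat_lit 230)) (XT.nd (nat_lit 78) (nat_lit 0) (nat_lit 0) (XT.lf (nat_lit 0) (nat_lit 123267613470) (nat_lit 76) (nat_lit 235148740545) (nat_lit 76) (nat_lit 233811234807) (nat_lit 1) (nat_lit 4) (nat_lit 2) (nat_lit 5) (nat_lit 2) (nat_lit 4) (nat_lit 306) (nat_lit 245) (nat_lit 229)) (XT.lf (nat_lit 0) (nat_lit 148448922859) (nat_lit 76) (nat_lit 266851444908) (nat_lit 76) (nat_lit 265493065135) (nat_lit 1) (nat_lit 4) (nat_lit 2) (nat_lit 5) (nat_lit 2) (nat_lit 4) (nat_lit 307) (nat_lit 245) (nat_lit 228)))) (XT.nd (nat_lit 156) (nat_lit 0) (nat_lit 0) (XT.nd (nat_lit 78) (nat_lit 0) (nat_lit 0) (XT.lf (nat_lit 0) (nat_lit 177262095398) (nat_lit 76) (nat_lit 303382208349) (nat_lit 76) (nat_lit 302005677242) (nat_lit 1) (nat_lit 4) (nat_lit 2) (nat_lit 5) (nat_lit 2) (nat_lit 4) (nat_lit 308) (nat_lit 245) (nat_lit 227)) (XT.lf (nat_lit 0)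 (nat_lit 210270867071) (nat_lit 76) (nat_lit 345455763197) (nat_lit 76) (nat_lit 344063448320) (nat_lit 1) (nat_lit 4) (nat_lit 2) (nat_lit 5) (nat_lit 2) (nat_lit 4) (nat_lit 309) (nat_lit 245) (nat_lit 226))) (XT.nd (nat_lit 78) (nat_lit 0) (nat_lit 0) (XT.lf (nat_lit 0) (nat_lit 248121061672) (nat_lit 76) (nat_lit 393895287699) (nat_lit 76) (nat_lit 392489247805) (nat_lit 1) (nat_lit 4) (nat_lit 2) (nat_lit 5) (nat_lit 2) (nat_lit 4) (nat_lit 310) (nat_lit 245) (nat_lit 225)) (XT.lf (nat_lit 0) (nat_lit 291553226488) (nat_lit 76) (nat_lit 449648511682) (nat_lit 76) (nat_lit 448230536991) (nat_lit 1) (nat_lit 4) (nat_lit 2) (nat_lit 5) (nat_lit 2) (nat_lit 4) (nat_lit 311) (nat_lit 245) (nat_lit 224))))))))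
noncomputable def xc8 : XT := (XT.nd (nat_lit 39312) (nat_lit 0) (nat_lit 0) (XT.nd (nat_lit 936) (nat_lit 0) (nat_lit 0) (XT.nd (nat_lit 468) (nat_lit 0) (nat_lit 0) (XT.nd (nat_lit 234) (nat_lit 0) (nat_lit 0) (XT.nd (nat_lit 78) (nat_lit 0) (nat_lit 0) (XT.lf (nat_lit 0) (nat_lit 341417121263) (nat_lit 76) (nat_lit 513806259093) (nat_lit 76) (nat_lit 512377906318) (nat_lit 1) (nat_lit 4) (nat_lit 2) (nat_lit 5) (nat_lit 2) (nat_lit 4) (nat_lit 312) (nat_lit 245) (nat_lit 223)) (XT.nd (nat_lit 78) (nat_lit 0) (nat_lit 0) (XT.lf (nat_lit 0) (nat_lit 398688343940) (nat_lit 76) (nat_lit 587623790208) (nat_lit 76) (nat_lit 586186413011) (nat_lit 1) (nat_lit 4) (nat_lit 2) (nat_lit 5) (nat_lit 2) (nat_lit 4) (nat_lit 313) (nat_lit 245) (nat_lit 222)) (XT.lf (nat_lit 0) (nat_lit 464487418440) (nat_lit 76) (nat_lit 672545361070) (nat_lit 76) (nat_lit 671100136551) (nat_lit 1) (nat_lit 4) (nat_lit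 2) (nat_lit 5) (nat_lit 2) (nat_lit 4) (nat_lit 314) (nat_lit 245) (nat_lit 221)))) (XT.nd (nat_lit 78) (nat_lit 0) (nat_lit 0) (XT.lf (nat_lit 0) (nat_lit 540101717960) (nat_lit 76) (nat_lit 770232480675) (nat_lit 76) (nat_lit 768780432397) (nat_lit 1) (nat_lit 4) (nat_lit 2) (nat_lit 5) (nat_lit 2) (nat_lit 4) (nat_lit 315) (nat_lit 245) (nat_lit 220)) (XT.nd (nat_lit 78) (nat_lit 0) (nat_lit 0) (XT.lf (nat_lit 0) (nat_lit 627010652709) (nat_lit 76) (nat_lit 882596418754) (nat_lit 76) (nat_lit 881138436772) (nat_lit 1) (nat_lit 4) (nat_lit 2) (nat_lit 5) (nat_lit 2) (nat_lit 4) (nat_lit 316) (nat_lit 245) (nat_lit 219)) (XT.lf (nat_lit 0) (nat_lit 726914614887) (nat_lit 76) (nat_lit 1011835600183) (nat_lit 76) (nat_lit 1010372458458) (nat_lit 1) (nat_lit 4) (nat_lit 2) (nat_lit 5) (nat_lit 2) (nat_lit 4) (nat_lit 317) (nat_lit 245) (nat_lit 218))))) (XT.nd (nat_lit 234) (nat_lit 0) (nat_lit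 0) (XT.nd (nat_lit 78) (nat_lit 0) (nat_lit 0) (XT.lf (nat_lit 0) (nat_lit 841768247233) (nat_lit 76) (nat_lit 1160478617640) (nat_lit 76) (nat_lit 1159010989184) (nat_lit 1) (nat_lit 4) (nat_lit 2) (nat_lit 5) (nat_lit 2) (nat_lit 4) (nat_lit 318) (nat_lit 245) (nat_lit 217)) (XT.nd (nat_lit 78) (nat_lit 0) (nat_lit 0) (XT.lf (nat_lit 0) (nat_lit 973818686032) (nat_lit 76) (nat_lit 1331433704078) (nat_lit 76) (nat_lit 1329962174115) (nat_lit 1) (nat_lit 4) (nat_lit 2) (nat_lit 5) (nat_lit 2) (nat_lit 4) (nat_lit 319) (nat_lit 245) (nat_lit 216)) (XT.lf (nat_lit 0) (nat_lit 1125649526825) (nat_lit 76) (nat_lit 1528045632925) (nat_lit 76) (nat_lit 1526570710348) (nat_lit 1) (nat_lit 4) (nat_lit 2) (nat_lit 5) (nat_lit 2) (nat_lit 4) (nat_lit 320) (nat_lit 245) (nat_lit 215)))) (XT.nd (nat_lit 78) (nat_lit 0) (nat_lit 0) (XT.lf (nat_lit 0) (nat_lit 1300231373021) (nat_lit 76) (nat_lit 1754161159313)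 (nat_lit 76) (nat_lit 1752683286636) (nat_lit 1) (nat_lit 4) (nat_lit 2) (nat_lit 5) (nat_lit 2) (nat_lit 4) (nat_lit 321) (nat_lit 245) (nat_lit 214)) (XT.nd (nat_lit 78) (nat_lit 0) (nat_lit 0) (XT.lf (nat_lit 0) (nat_lit 1500979956391) (nat_lit 76) (nat_lit 2014204282669) (nat_lit 76) (nat_lit 2012723844688) (nat_lit 1) (nat_lit 4) (nat_lit 2) (nat_lit 5) (nat_lit 2) (nat_lit 4) (nat_lit 322) (nat_lit 245) (nat_lit 213)) (XT.lf (nat_lit 0) (nat_lit 1731822966611) (nat_lit 76) (nat_lit 2313262803234) (nat_lit 76) (nat_lit 2311780134554) (nat_lit 1) (nat_lit 4) (nat_lit 2) (nat_lit 5) (nat_lit 2) (nat_lit 4) (nat_lit 323) (nat_lit 245) (nat_lit 212)))))) (XT.nd (nat_lit 37830) (nat_lit 0) (nat_lit 76) (XT.nd (nat_lit 234) (nat_lit 0) (nat_lit 0) (XT.nd (nat_lit 78) (nat_lit 0) (nat_lit 0) (XT.lf (nat_lit 0) (nat_lit 1997276897358) (nat_lit 76) (nat_lit 2657187865975) (nat_lit 76) (nat_lit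 2655703257557) (nat_lit 1) (nat_lit 4) (nat_lit 2) (nat_lit 5) (nat_lit 2) (nat_lit 4) (nat_lit 324) (nat_lit 245) (nat_lit 211)) (XT.nd (nat_lit 78) (nat_lit 0) (nat_lit 0) (XT.lf (nat_lit 0) (nat_lit 2302535412496) (nat_lit 76) (nat_lit 3052708439511) (nat_lit 76) (nat_lit 3051222144364) (nat_lit 1) (nat_lit 4) (nat_lit 2) (nat_lit 5) (nat_lit 2) (nat_lit 4) (nat_lit 325) (nat_lit 245) (nat_lit 210)) (XT.lf (nat_lit 0) (nat_lit 2653570961234) (nat_lit 76) (nat_lit 3507562969845) (nat_lit 76) (nat_lit 3506075207978) (nat_lit 1) (nat_lit 4) (nat_lit 2) (nat_lit 5) (nat_lit 2) (nat_lit 4) (nat_lit 326) (nat_lit 245) (nat_lit 209)))) (XT.nd (nat_lit 78) (nat_lit 0) (nat_lit 0) (XT.lf (nat_lit 0) (nat_lit 3057251630394) (nat_lit 76) (nat_lit 4030650784747) (nat_lit 76) (nat_lit 4029161747470) (nat_lit 1) (nat_lit 4) (nat_lit 2) (nat_lit 5) (nat_lit 2) (nat_lit 4) (nat_lit 327) (nat_lit 245)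 (nat_lit 208)) (XT.nd (nat_lit 78) (nat_lit 0) (nat_lit 0) (XT.lf (nat_lit 0) (nat_lit 3521475520025) (nat_lit 76) (nat_lit 4632206211028) (nat_lit 76) (nat_lit 4630716064699) (nat_lit 1) (nat_lit 4) (nat_lit 2) (nat_lit 5) (nat_lit 2) (nat_lit 4) (nat_lit 328) (nat_lit 245) (nat_lit 207)) (XT.lf (nat_lit 0) (nat_lit 4055325271446) (nat_lit 76) (nat_lit 5323998811376) (nat_lit 76) (nat_lit 5322507700656) (nat_lit 1) (nat_lit 4) (nat_lit 2) (nat_lit 5) (nat_lit 2) (nat_lit 4) (nat_lit 329) (nat_lit 245) (nat_lit 206))))) (XT.nd (nat_lit 234) (nat_lit 0) (nat_lit 0) (XT.nd (nat_lit 78) (nat_lit 152) (nat_lit 0) (XT.lf (nat_lit 0) (nat_lit 16892978686) (nat_lit 76) (nat_lit 4289225935) (nat_lit 76) (nat_lit 4289225935) (nat_lit 4) (nat_lit 4) (nat_lit 5) (nat_lit 5) (nat_lit 5) (nat_lit 4) (nat_lit 288) (nat_lit 246) (nat_lit 246)) (XT.nd (nat_lit 78) (nat_lit 152) (nat_lit 0) (XT.lf (nat_lit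 0) (nat_lit 54572701712) (nat_lit 76) (nat_lit 1808558244) (nat_lit 76) (nat_lit 1565956763) (nat_lit 4) (nat_lit 4) (nat_lit 5) (nat_lit 5) (nat_lit 5) (nat_lit 4) (nat_lit 289) (nat_lit 246) (nat_lit 245)) (XT.lf (nat_lit 0) (nat_lit 5896596964) (nat_lit 152) (nat_lit 54638770173) (nat_lit 0) (nat_lit 5476634658) (nat_lit 2) (nat_lit 5) (nat_lit 4) (nat_lit 4) (nat_lit 2) (nat_lit 4) (nat_lit 290) (nat_lit 246) (nat_lit 244)))) (XT.nd (nat_lit 156) (nat_lit 0) (nat_lit 0) (XT.nd (nat_lit 78) (nat_lit 0) (nat_lit 0) (XT.lf (nat_lit 0) (nat_lit 13891862440) (nat_lit 152) (nat_lit 48128979094) (nat_lit 0) (nat_lit 13302046825) (nat_lit 2) (nat_lit 5) (nat_lit 4) (nat_lit 4) (nat_lit 2) (nat_lit 4) (nat_lit 291) (nat_lit 246) (nat_lit 243)) (XT.lf (nat_lit 0) (nat_lit 22523458661) (nat_lit 152) (nat_lit 41766147308) (nat_lit 0) (nat_lit 21785944517) (nat_lit 2) (nat_lit 5) (nat_lit 4) (nat_lit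 4) (nat_lit 2) (nat_lit 4) (nat_lit 292) (nat_lit 246) (nat_lit 242))) (XT.nd (nat_lit 78) (nat_lit 0) (nat_lit 0) (XT.lf (nat_lit 0) (nat_lit 31960264683) (nat_lit 152) (nat_lit 35425784627) (nat_lit 0) (nat_lit 31094317035) (nat_lit 2) (nat_lit 5) (nat_lit 4) (nat_lit 4) (nat_lit 2) (nat_lit 4) (nat_lit 293) (nat_lit 246) (nat_lit 241)) (XT.lf (nat_lit 0) (nat_lit 42386913668) (nat_lit 152) (nat_lit 28983840476) (nat_lit 0) (nat_lit 41409284712) (nat_lit 2) (nat_lit 5) (nat_lit 4) (nat_lit 4) (nat_lit 2) (nat_lit 4) (nat_lit 294) (nat_lit 246) (nat_lit 240))))))) (XT.nd (nat_lit 1014) (nat_lit 0) (nat_lit 0) (XT.nd (nat_lit 468) (nat_lit 0) (nat_lit 0) (XT.nd (nat_lit 234) (nat_lit 76) (nat_lit 0) (XT.nd (nat_lit 78) (nat_lit 0) (nat_lit 0) (XT.lf (nat_lit 0) (nat_lit 54007405270) (nat_lit 152) (nat_lit 22314276819) (nat_lit 0) (nat_lit 52932662133) (nat_lit 2) (nat_lit 5) (nat_lit 4)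 (nat_lit 4) (nat_lit 2) (nat_lit 4) (nat_lit 295) (nat_lit 246) (nat_lit 239)) (XT.nd (nat_lit 78) (nat_lit 0) (nat_lit 0) (XT.lf (nat_lit 0) (nat_lit 67049096932) (nat_lit 152) (nat_lit 15286602193) (nat_lit 0) (nat_lit 65889906683) (nat_lit 2) (nat_lit 5) (nat_lit 4) (nat_lit 4) (nat_lit 2) (nat_lit 4) (nat_lit 296) (nat_lit 246) (nat_lit 238)) (XT.lf (nat_lit 0) (nat_lit 81767152188) (nat_lit 152) (nat_lit 7763318615) (nat_lit 0) (nat_lit 80534529666) (nat_lit 2) (nat_lit 5) (nat_lit 4) (nat_lit 4) (nat_lit 2) (nat_lit 4) (nat_lit 297) (nat_lit 246) (nat_lit 237)))) (XT.nd (nat_lit 78) (nat_lit 0) (nat_lit 0) (XT.lf (nat_lit 0) (nat_lit 423977672) (nat_lit 76) (nat_lit 98035751989) (nat_lit 76) (nat_lit 96739275317) (nat_lit 1) (nat_lit 4) (nat_lit 2) (nat_lit 5) (nat_lit 2) (nat_lit 4) (nat_lit 298) (nat_lit 246) (nat_lit 236)) (XT.nd (nat_lit 78) (nat_lit 0) (nat_lit 0) (XT.lf (nat_lit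 0) (nat_lit 9864913635) (nat_lit 76) (nat_lit 107794971515) (nat_lit 76) (nat_lit 106442969495) (nat_lit 1) (nat_lit 4) (nat_lit 2) (nat_lit 5) (nat_lit 2) (nat_lit 4) (nat_lit 299) (nat_lit 246) (nat_lit 235)) (XT.lf (nat_lit 0) (nat_lit 20335400635) (nat_lit 76) (nat_lit 119211333523) (nat_lit 76) (nat_lit 117811048591) (nat_lit 1) (nat_lit 4) (nat_lit 2) (nat_lit 5) (nat_lit 2) (nat_lit 4) (nat_lit 300) (nat_lit 246) (nat_lit 234))))) (XT.nd (nat_lit 234) (nat_lit 0) (nat_lit 0) (XT.nd (nat_lit 78) (nat_lit 0) (nat_lit 0) (XT.lf (nat_lit 0) (nat_lit 32040296028) (nat_lit 76) (nat_lit 132508201616) (nat_lit 76) (nat_lit 131065931544) (nat_lit 1) (nat_lit 4) (nat_lit 2) (nat_lit 5) (nat_lit 2) (nat_lit 4) (nat_lit 301) (nat_lit 246) (nat_lit 233)) (XT.nd (nat_lit 78) (nat_lit 0) (nat_lit 0) (XT.lf (nat_lit 0) (nat_lit 45208608636) (nat_lit 76) (nat_lit 147945731910) (nat_lit 76) (nat_lit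 146466953021) (nat_lit 1) (nat_lit 4) (nat_lit 2) (nat_lit 5) (nat_lit 2) (nat_lit 4) (nat_lit 302) (nat_lit 246) (nat_lit 232)) (XT.lf (nat_lit 0) (nat_lit 60097979358) (nat_lit 76) (nat_lit 165825963040) (nat_lit 76) (nat_lit 164315437353) (nat_lit 1) (nat_lit 4) (nat_lit 2) (nat_lit 5) (nat_lit 2) (nat_lit 4) (nat_lit 303) (nat_lit 246) (nat_lit 231)))) (XT.nd (nat_lit 156) (nat_lit 0) (nat_lit 0) (XT.nd (nat_lit 78) (nat_lit 0) (nat_lit 0) (XT.lf (nat_lit 0) (nat_lit 76999721969) (nat_lit 76) (nat_lit 186498725617) (nat_lit 76) (nat_lit 184960594018) (nat_lit 1) (nat_lit 4) (nat_lit 2) (nat_lit 5) (nat_lit 2) (nat_lit 4) (nat_lit 304) (nat_lit 246) (nat_lit 230)) (XT.lf (nat_lit 0) (nat_lit 96244522738) (nat_lit 76) (nat_lit 210368486733) (nat_lit 76) (nat_lit 208806349994) (nat_lit 1) (nat_lit 4) (nat_lit 2) (nat_lit 5) (nat_lit 2) (nat_lit 4) (nat_lit 305) (nat_lit 246) (nat_lit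 229))) (XT.nd (nat_lit 78) (nat_lit 0) (nat_lit 0) (XT.lf (nat_lit 0) (nat_lit 118208910375) (nat_lit 76) (nat_lit 237902263454) (nat_lit 76) (nat_lit 236319252680) (nat_lit 1) (nat_lit 4) (nat_lit 2) (nat_lit 5) (nat_lit 2) (nat_lit 4) (nat_lit 306) (nat_lit 246) (nat_lit 228)) (XT.lf (nat_lit 0) (nat_lit 143322622900) (nat_lit 76) (nat_lit 269638760107) (nat_lit 76) (nat_lit 268037597999) (nat_lit 1) (nat_lit 4) (nat_lit 2) (nat_lit 5) (nat_lit 2) (nat_lit 4) (nat_lit 307) (nat_lit 246) (nat_lit 227)))))) (XT.nd (nat_lit 468) (nat_lit 0) (nat_lit 0) (XT.nd (nat_lit 234) (nat_lit 0) (nat_lit 0) (XT.nd (nat_lit 78) (nat_lit 0) (nat_lit 0) (XT.lf (nat_lit 0) (nat_lit 172077015556) (nat_lit 76) (nat_lit 306198908149) (nat_lit 76) (nat_lit 304581962271) (nat_lit 1) (nat_lit 4) (nat_lit 2) (nat_lit 5) (nat_lit 2) (nat_lit 4) (nat_lit 308) (nat_lit 246) (nat_lit 226)) (XT.nd (nat_lit 78) (nat_lit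 0) (nat_lit 0) (XT.lf (nat_lit 0) (nat_lit 205034674289) (nat_lit 76) (nat_lit 348298014823) (nat_lit 76) (nat_lit 346667343929) (nat_lit 1) (nat_lit 4) (nat_lit 2) (nat_lit 5) (nat_lit 2) (nat_lit 4) (nat_lit 309) (nat_lit 246) (nat_lit 225)) (XT.lf (nat_lit 0) (nat_lit 242840422855) (nat_lit 76) (nat_lit 396759758305) (nat_lit 76) (nat_lit 395117152613) (nat_lit 1) (nat_lit 4) (nat_lit 2) (nat_lit 5) (nat_lit 2) (nat_lit 4) (nat_lit 310) (nat_lit 246) (nat_lit 224)))) (XT.nd (nat_lit 78) (nat_lit 0) (nat_lit 0) (XT.lf (nat_lit 0) (nat_lit 286233938943) (nat_lit 76) (nat_lit 452532303139) (nat_lit 76) (nat_lit 450879319363) (nat_lit 1) (nat_lit 4) (nat_lit 2) (nat_lit 5) (nat_lit 2) (nat_lit 4) (nat_lit 311) (nat_lit 246) (nat_lit 223)) (XT.nd (nat_lit 78) (nat_lit 0) (nat_lit 0) (XT.lf (nat_lit 0) (nat_lit 336064226130) (nat_lit 76) (nat_lit 516706851291) (nat_lit 76) (nat_lit 515044843093)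 (nat_lit 1) (nat_lit 4) (nat_lit 2) (nat_lit 5) (nat_lit 2) (nat_lit 4) (nat_lit 312) (nat_lit 246) (nat_lit 222)) (XT.lf (nat_lit 0) (nat_lit 393306224817) (nat_lit 76) (nat_lit 590538991745) (nat_lit 76) (nat_lit 588869136225) (nat_lit 1) (nat_lit 4) (nat_lit 2) (nat_lit 5) (nat_lit 2) (nat_lit 4) (nat_lit 313) (nat_lit 246) (nat_lit 221))))) (XT.nd (nat_lit 234) (nat_lit 0) (nat_lit 0) (XT.nd (nat_lit 78) (nat_lit 0) (nat_lit 0) (XT.lf (nat_lit 0) (nat_lit 459079887152) (nat_lit 76) (nat_lit 675473266381) (nat_lit 76) (nat_lit 673796587102) (nat_lit 1) (nat_lit 4) (nat_lit 2) (nat_lit 5) (nat_lit 2) (nat_lit 4) (nat_lit 314) (nat_lit 246) (nat_lit 220)) (XT.nd (nat_lit 78) (nat_lit 0) (nat_lit 0) (XT.lf (nat_lit 0) (nat_lit 534672089138) (nat_lit 76) (nat_lit 773171432746) (nat_lit 76) (nat_lit 771488819763) (nat_lit 1) (nat_lit 4) (nat_lit 2) (nat_lit 5) (nat_lit 2) (nat_lit 4) (nat_lit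 315) (nat_lit 246) (nat_lit 219)) (XT.lf (nat_lit 0) (nat_lit 621561808638) (nat_lit 76) (nat_lit 885544976703) (nat_lit 76) (nat_lit 883857203977) (nat_lit 1) (nat_lit 4) (nat_lit 2) (nat_lit 5) (nat_lit 2) (nat_lit 4) (nat_lit 316) (nat_lit 246) (nat_lit 218)))) (XT.nd (nat_lit 156) (nat_lit 0) (nat_lit 0) (XT.nd (nat_lit 78) (nat_lit 0) (nat_lit 0) (XT.lf (nat_lit 0) (nat_lit 721449061905) (nat_lit 76) (nat_lit 1014792511068) (nat_lit 76) (nat_lit 1013100251611) (nat_lit 1) (nat_lit 4) (nat_lit 2) (nat_lit 5) (nat_lit 2) (nat_lit 4) (nat_lit 317) (nat_lit 246) (nat_lit 217)) (XT.lf (nat_lit 0) (nat_lit 836288164764) (nat_lit 76) (nat_lit 1163442791950) (nat_lit 76) (nat_lit 1161746630986) (nat_lit 1) (nat_lit 4) (nat_lit 2) (nat_lit 5) (nat_lit 2) (nat_lit 4) (nat_lit 318) (nat_lit 246) (nat_lit 216))) (XT.nd (nat_lit 78) (nat_lit 0) (nat_lit 0) (XT.lf (nat_lit 0) (nat_lit 968325969225)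 (nat_lit 76) (nat_lit 1334404194408) (nat_lit 76) (nat_lit 1332704640830) (nat_lit 1) (nat_lit 4) (nat_lit 2) (nat_lit 5) (nat_lit 2) (nat_lit 4) (nat_lit 319) (nat_lit 246) (nat_lit 215)) (XT.lf (nat_lit 0) (nat_lit 1120145823639) (nat_lit 76) (nat_lit 1531021615447) (nat_lit 76) (nat_lit 1529319111770) (nat_lit 1) (nat_lit 4) (nat_lit 2) (nat_lit 5) (nat_lit 2) (nat_lit 4) (nat_lit 320) (nat_lit 246) (nat_lit 214))))))))
noncomputable def xc9 : XT := (XT.nd (nat_lit 39234) (nat_lit 0) (nat_lit 0) (XT.nd (nat_lit 38220) (nat_lit 0) (nat_lit 0) (XT.nd (nat_lit 468) (nat_lit 0) (nat_lit 0) (XT.nd (nat_lit 234) (nat_lit 0) (nat_lit 0) (XT.nd (nat_lit 78) (nat_lit 0) (nat_lit 0) (XT.lf (nat_lit 0) (nat_lit 1294718116460) (nat_lit 76) (nat_lit 1757141917654) (nat_lit 76) (nat_lit 1755436848672) (nat_lit 1) (nat_lit 4) (nat_lit 2) (nat_lit 5) (nat_lit 2) (nat_lit 4) (nat_lit 321) (nat_lit 246)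 (nat_lit 213)) (XT.nd (nat_lit 78) (nat_lit 0) (nat_lit 0) (XT.lf (nat_lit 0) (nat_lit 1495458392549) (nat_lit 76) (nat_lit 2017189193896) (nat_lit 76) (nat_lit 2015481894216) (nat_lit 1) (nat_lit 4) (nat_lit 2) (nat_lit 5) (nat_lit 2) (nat_lit 4) (nat_lit 322) (nat_lit 246) (nat_lit 212)) (XT.lf (nat_lit 0) (nat_lit 1726294179045) (nat_lit 76) (nat_lit 2316251325666) (nat_lit 76) (nat_lit 2314542086248) (nat_lit 1) (nat_lit 4) (nat_lit 2) (nat_lit 5) (nat_lit 2) (nat_lit 4) (nat_lit 323) (nat_lit 246) (nat_lit 211)))) (XT.nd (nat_lit 78) (nat_lit 0) (nat_lit 0) (XT.lf (nat_lit 0) (nat_lit 1991741828294) (nat_lit 76) (nat_lit 2660179528586) (nat_lit 76) (nat_lit 2658468602438) (nat_lit 1) (nat_lit 4) (nat_lit 2) (nat_lit 5) (nat_lit 2) (nat_lit 4) (nat_lit 324) (nat_lit 246) (nat_lit 210)) (XT.nd (nat_lit 78) (nat_lit 0) (nat_lit 0) (XT.lf (nat_lit 0) (nat_lit 2296994881259) (nat_lit 76)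 (nat_lit 3055702832712) (nat_lit 76) (nat_lit 3053990439843) (nat_lit 1) (nat_lit 4) (nat_lit 2) (nat_lit 5) (nat_lit 2) (nat_lit 4) (nat_lit 325) (nat_lit 246) (nat_lit 209)) (XT.lf (nat_lit 0) (nat_lit 2648025680281) (nat_lit 76) (nat_lit 3510559737473) (nat_lit 76) (nat_lit 3508846069195) (nat_lit 1) (nat_lit 4) (nat_lit 2) (nat_lit 5) (nat_lit 2) (nat_lit 4) (nat_lit 326) (nat_lit 246) (nat_lit 208))))) (XT.nd (nat_lit 37440) (nat_lit 0) (nat_lit 228) (XT.nd (nat_lit 78) (nat_lit 0) (nat_lit 0) (XT.lf (nat_lit 0) (nat_lit 3051702219254) (nat_lit 76) (nat_lit 4033649617092) (nat_lit 76) (nat_lit 4031934839763) (nat_lit 1) (nat_lit 4) (nat_lit 2) (nat_lit 5) (nat_lit 2) (nat_lit 4) (nat_lit 327) (nat_lit 246) (nat_lit 207)) (XT.nd (nat_lit 78) (nat_lit 0) (nat_lit 0) (XT.lf (nat_lit 0) (nat_lit 3515922517418) (nat_lit 76) (nat_lit 4635206838781) (nat_lit 76) (nat_lit 4633491097059) (nat_lit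 1) (nat_lit 4) (nat_lit 2) (nat_lit 5) (nat_lit 2) (nat_lit 4) (nat_lit 328) (nat_lit 246) (nat_lit 206)) (XT.lf (nat_lit 0) (nat_lit 4049769145825) (nat_lit 76) (nat_lit 5327001000353) (nat_lit 76) (nat_lit 5325284420029) (nat_lit 1) (nat_lit 4) (nat_lit 2) (nat_lit 5) (nat_lit 2) (nat_lit 4) (nat_lit 329) (nat_lit 246) (nat_lit 205)))) (XT.nd (nat_lit 156) (nat_lit 0) (nat_lit 0) (XT.nd (nat_lit 78) (nat_lit 76) (nat_lit 0) (XT.lf (nat_lit 0) (nat_lit 9155437278) (nat_lit 152) (nat_lit 1529024494) (nat_lit 0) (nat_lit 9155437278) (nat_lit 5) (nat_lit 5) (nat_lit 7) (nat_lit 4) (nat_lit 5) (nat_lit 4) (nat_lit 286) (nat_lit 247) (nat_lit 247)) (XT.lf (nat_lit 0) (nat_lit 14374735849) (nat_lit 76) (nat_lit 15405255811) (nat_lit 76) (nat_lit 15126264108) (nat_lit 4) (nat_lit 4) (nat_lit 5) (nat_lit 5) (nat_lit 5) (nat_lit 4) (nat_lit 287) (nat_lit 247) (nat_lit 246))) (XT.nd (nat_lit 78)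 (nat_lit 0) (nat_lit 0) (XT.lf (nat_lit 0) (nat_lit 33071464157) (nat_lit 76) (nat_lit 9210974014) (nat_lit 76) (nat_lit 8689380830) (nat_lit 4) (nat_lit 4) (nat_lit 5) (nat_lit 5) (nat_lit 5) (nat_lit 4) (nat_lit 288) (nat_lit 247) (nat_lit 245)) (XT.lf (nat_lit 0) (nat_lit 53236910049) (nat_lit 76) (nat_lit 2748498163) (nat_lit 76) (nat_lit 2015947170) (nat_lit 4) (nat_lit 4) (nat_lit 5) (nat_lit 5) (nat_lit 5) (nat_lit 4) (nat_lit 289) (nat_lit 247) (nat_lit 244)))))) (XT.nd (nat_lit 468) (nat_lit 76) (nat_lit 0) (XT.nd (nat_lit 234) (nat_lit 0) (nat_lit 0) (XT.nd (nat_lit 78) (nat_lit 0) (nat_lit 0) (XT.lf (nat_lit 0) (nat_lit 5109291590) (nat_lit 152) (nat_lit 56725406967) (nat_lit 0) (nat_lit 4261150325) (nat_lit 2) (nat_lit 5) (nat_lit 4) (nat_lit 4) (nat_lit 2) (nat_lit 4) (nat_lit 290) (nat_lit 247) (nat_lit 243)) (XT.nd (nat_lit 78) (nat_lit 0) (nat_lit 0) (XT.lf (nat_lit 0)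 (nat_lit 12842715636) (nat_lit 152) (nat_lit 50738140518) (nat_lit 0) (nat_lit 11846875840) (nat_lit 2) (nat_lit 5) (nat_lit 4) (nat_lit 4) (nat_lit 2) (nat_lit 4) (nat_lit 291) (nat_lit 247) (nat_lit 242)) (XT.lf (nat_lit 0) (nat_lit 21246623656) (nat_lit 152) (nat_lit 44829677975) (nat_lit 0) (nat_lit 20122350357) (nat_lit 2) (nat_lit 5) (nat_lit 4) (nat_lit 4) (nat_lit 2) (nat_lit 4) (nat_lit 292) (nat_lit 247) (nat_lit 241)))) (XT.nd (nat_lit 78) (nat_lit 0) (nat_lit 0) (XT.lf (nat_lit 0) (nat_lit 30485439938) (nat_lit 152) (nat_lit 38884418983) (nat_lit 0) (nat_lit 29249485331) (nat_lit 2) (nat_lit 5) (nat_lit 4) (nat_lit 4) (nat_lit 2) (nat_lit 4) (nat_lit 293) (nat_lit 247) (nat_lit 240)) (XT.nd (nat_lit 78) (nat_lit 0) (nat_lit 0) (XT.lf (nat_lit 0) (nat_lit 40739923932) (nat_lit 152) (nat_lit 32786043259) (nat_lit 0) (nat_lit 39406855145) (nat_lit 2) (nat_lit 5) (nat_lit 4) (nat_lit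 4) (nat_lit 2) (nat_lit 4) (nat_lit 294) (nat_lit 247) (nat_lit 239)) (XT.lf (nat_lit 0) (nat_lit 52210706845) (nat_lit 152) (nat_lit 26415234755) (nat_lit 0) (nat_lit 50793190945) (nat_lit 2) (nat_lit 5) (nat_lit 4) (nat_lit 4) (nat_lit 2) (nat_lit 4) (nat_lit 295) (nat_lit 247) (nat_lit 238))))) (XT.nd (nat_lit 234) (nat_lit 76) (nat_lit 0) (XT.nd (nat_lit 78) (nat_lit 0) (nat_lit 0) (XT.lf (nat_lit 0) (nat_lit 65122217040) (nat_lit 152) (nat_lit 19647347218) (nat_lit 0) (nat_lit 63631268867) (nat_lit 2) (nat_lit 5) (nat_lit 4) (nat_lit 4) (nat_lit 2) (nat_lit 4) (nat_lit 296) (nat_lit 247) (nat_lit 237)) (XT.nd (nat_lit 78) (nat_lit 0) (nat_lit 0) (XT.lf (nat_lit 0) (nat_lit 79727071020) (nat_lit 152) (nat_lit 12349965457) (nat_lit 0) (nat_lit 78172268697) (nat_lit 2) (nat_lit 5) (nat_lit 4) (nat_lit 4) (nat_lit 2) (nat_lit 4) (nat_lit 297) (nat_lit 247) (nat_lit 236)) (XT.lf (nat_lit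 0) (nat_lit 96311015928) (nat_lit 152) (nat_lit 4380314612) (nat_lit 0) (nat_lit 94700688257) (nat_lit 2) (nat_lit 5) (nat_lit 4) (nat_lit 4) (nat_lit 2) (nat_lit 4) (nat_lit 298) (nat_lit 247) (nat_lit 235)))) (XT.nd (nat_lit 156) (nat_lit 0) (nat_lit 0) (XT.nd (nat_lit 78) (nat_lit 0) (nat_lit 0) (XT.lf (nat_lit 0) (nat_lit 4650152741) (nat_lit 76) (nat_lit 110660203795) (nat_lit 76) (nat_lit 109001593212) (nat_lit 1) (nat_lit 4) (nat_lit 2) (nat_lit 5) (nat_lit 2) (nat_lit 4) (nat_lit 299) (nat_lit 247) (nat_lit 234)) (XT.lf (nat_lit 0) (nat_lit 14964284087) (nat_lit 76) (nat_lit 122154729423) (nat_lit 76) (nat_lit 120454133700) (nat_lit 1) (nat_lit 4) (nat_lit 2) (nat_lit 5) (nat_lit 2) (nat_lit 4) (nat_lit 300) (nat_lit 247) (nat_lit 233))) (XT.nd (nat_lit 78) (nat_lit 0) (nat_lit 0) (XT.lf (nat_lit 0) (nat_lit 26533218041) (nat_lit 76) (nat_lit 135519565882) (nat_lit 76) (nat_lit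 133782461342) (nat_lit 1) (nat_lit 4) (nat_lit 2) (nat_lit 5) (nat_lit 2) (nat_lit 4) (nat_lit 301) (nat_lit 247) (nat_lit 232)) (XT.lf (nat_lit 0) (nat_lit 39583303311) (nat_lit 76) (nat_lit 151016199103) (nat_lit 76) (nat_lit 149247347764) (nat_lit 1) (nat_lit 4) (nat_lit 2) (nat_lit 5) (nat_lit 2) (nat_lit 4) (nat_lit 302) (nat_lit 247) (nat_lit 231))))))) (XT.nd (nat_lit 1014) (nat_lit 0) (nat_lit 0) (XT.nd (nat_lit 468) (nat_lit 0) (nat_lit 0) (XT.nd (nat_lit 234) (nat_lit 0) (nat_lit 0) (XT.nd (nat_lit 78) (nat_lit 0) (nat_lit 0) (XT.lf (nat_lit 0) (nat_lit 54369867652) (nat_lit 76) (nat_lit 168947824083) (nat_lit 76) (nat_lit 167151366833) (nat_lit 1) (nat_lit 4) (nat_lit 2) (nat_lit 5) (nat_lit 2) (nat_lit 4) (nat_lit 303) (nat_lit 247) (nat_lit 230)) (XT.nd (nat_lit 78) (nat_lit 0) (nat_lit 0) (XT.lf (nat_lit 0) (nat_lit 71182213410) (nat_lit 76) (nat_lit 189665276963) (nat_lit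 76) (nat_lit 187844814573) (nat_lit 1) (nat_lit 4) (nat_lit 2) (nat_lit 5) (nat_lit 2) (nat_lit 4) (nat_lit 304) (nat_lit 247) (nat_lit 229)) (XT.lf (nat_lit 0) (nat_lit 90349277785) (nat_lit 76) (nat_lit 213573899213) (nat_lit 76) (nat_lit 211732562788) (nat_lit 1) (nat_lit 4) (nat_lit 2) (nat_lit 5) (nat_lit 2) (nat_lit 4) (nat_lit 305) (nat_lit 247) (nat_lit 228)))) (XT.nd (nat_lit 78) (nat_lit 0) (nat_lit 0) (XT.lf (nat_lit 0) (nat_lit 112246068558) (nat_lit 76) (nat_lit 241141468224) (nat_lit 76) (nat_lit 239281980465) (nat_lit 1) (nat_lit 4) (nat_lit 2) (nat_lit 5) (nat_lit 2) (nat_lit 4) (nat_lit 306) (nat_lit 247) (nat_lit 227)) (XT.nd (nat_lit 78) (nat_lit 0) (nat_lit 0) (XT.lf (nat_lit 0) (nat_lit 137301001200) (nat_lit 76) (nat_lit 272907349477) (nat_lit 76) (nat_lit 271032077949) (nat_lit 1) (nat_lit 4) (nat_lit 2) (nat_lit 5) (nat_lit 2) (nat_lit 4) (nat_lit 307) (nat_lit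 247) (nat_lit 226)) (XT.lf (nat_lit 0) (nat_lit 166004280916) (nat_lit 76) (nat_lit 309493049345) (nat_lit 76) (nat_lit 307604052800) (nat_lit 1) (nat_lit 4) (nat_lit 2) (nat_lit 5) (nat_lit 2) (nat_lit 4) (nat_lit 308) (nat_lit 247) (nat_lit 225))))) (XT.nd (nat_lit 234) (nat_lit 0) (nat_lit 0) (XT.nd (nat_lit 78) (nat_lit 0) (nat_lit 0) (XT.lf (nat_lit 0) (nat_lit 198917493613) (nat_lit 76) (nat_lit 351614374999) (nat_lit 76) (nat_lit 349713443656) (nat_lit 1) (nat_lit 4) (nat_lit 2) (nat_lit 5) (nat_lit 2) (nat_lit 4) (nat_lit 309) (nat_lit 247) (nat_lit 224)) (XT.nd (nat_lit 78) (nat_lit 0) (nat_lit 0) (XT.lf (nat_lit 0) (nat_lit 236684593452) (nat_lit 76) (nat_lit 400095439332) (nat_lit 76) (nat_lit 398184129905) (nat_lit 1) (nat_lit 4) (nat_lit 2) (nat_lit 5) (nat_lit 2) (nat_lit 4) (nat_lit 310) (nat_lit 247) (nat_lit 223)) (XT.lf (nat_lit 0) (nat_lit 280044501953) (nat_lit 76)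 (nat_lit 455884784907) (nat_lit 76) (nat_lit 453964451058) (nat_lit 1) (nat_lit 4) (nat_lit 2) (nat_lit 5) (nat_lit 2) (nat_lit 4) (nat_lit 311) (nat_lit 247) (nat_lit 222)))) (XT.nd (nat_lit 156) (nat_lit 0) (nat_lit 0) (XT.nd (nat_lit 78) (nat_lit 0) (nat_lit 0) (XT.lf (nat_lit 0) (nat_lit 329845565150) (nat_lit 76) (nat_lit 520073942398) (nat_lit 76) (nat_lit 518145761227) (nat_lit 1) (nat_lit 4) (nat_lit 2) (nat_lit 5) (nat_lit 2) (nat_lit 4) (nat_lit 312) (nat_lit 247) (nat_lit 221)) (XT.lf (nat_lit 0) (nat_lit 387062151672) (nat_lit 76) (nat_lit 593918786626) (nat_lit 76) (nat_lit 591983781696) (nat_lit 1) (nat_lit 4) (nat_lit 2) (nat_lit 5) (nat_lit 2) (nat_lit 4) (nat_lit 313) (nat_lit 247) (nat_lit 220))) (XT.nd (nat_lit 78) (nat_lit 0) (nat_lit 0) (XT.lf (nat_lit 0) (nat_lit 452813716472) (nat_lit 76) (nat_lit 678864108022) (nat_lit 76) (nat_lit 676923169388) (nat_lit 1) (nat_lit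 4) (nat_lit 2) (nat_lit 5) (nat_lit 2) (nat_lit 4) (nat_lit 314) (nat_lit 247) (nat_lit 219)) (XT.lf (nat_lit 0) (nat_lit 528386703210) (nat_lit 76) (nat_lit 776571880264) (nat_lit 76) (nat_lit 774625781888) (nat_lit 1) (nat_lit 4) (nat_lit 2) (nat_lit 5) (nat_lit 2) (nat_lit 4) (nat_lit 315) (nat_lit 247) (nat_lit 218)))))) (XT.nd (nat_lit 468) (nat_lit 0) (nat_lit 0) (XT.nd (nat_lit 234) (nat_lit 0) (nat_lit 0) (XT.nd (nat_lit 78) (nat_lit 0) (nat_lit 0) (XT.lf (nat_lit 0) (nat_lit 615259713799) (nat_lit 76) (nat_lit 888953777159) (nat_lit 76) (nat_lit 887003192050) (nat_lit 1) (nat_lit 4) (nat_lit 2) (nat_lit 5) (nat_lit 2) (nat_lit 4) (nat_lit 316) (nat_lit 247) (nat_lit 217)) (XT.nd (nat_lit 78) (nat_lit 0) (nat_lit 0) (XT.lf (nat_lit 0) (nat_lit 715132437578) (nat_lit 76) (nat_lit 1018208574948) (nat_lit 76) (nat_lit 1016254088333) (nat_lit 1) (nat_lit 4) (nat_lit 2) (nat_lit 5)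 (nat_lit 2) (nat_lit 4) (nat_lit 317) (nat_lit 247) (nat_lit 216)) (XT.lf (nat_lit 0) (nat_lit 829958906099) (nat_lit 76) (nat_lit 1166865171850) (nat_lit 76) (nat_lit 1164907292621) (nat_lit 1) (nat_lit 4) (nat_lit 2) (nat_lit 5) (nat_lit 2) (nat_lit 4) (nat_lit 318) (nat_lit 247) (nat_lit 215)))) (XT.nd (nat_lit 78) (nat_lit 0) (nat_lit 0) (XT.lf (nat_lit 0) (nat_lit 961985724181) (nat_lit 76) (nat_lit 1337832066500) (nat_lit 76) (nat_lit 1335871237172) (nat_lit 1) (nat_lit 4) (nat_lit 2) (nat_lit 5) (nat_lit 2) (nat_lit 4) (nat_lit 319) (nat_lit 247) (nat_lit 214)) (XT.nd (nat_lit 78) (nat_lit 0) (nat_lit 0) (XT.lf (nat_lit 0) (nat_lit 1113796025220) (nat_lit 76) (nat_lit 1534454263359) (nat_lit 76) (nat_lit 1532490868726) (nat_lit 1) (nat_lit 4) (nat_lit 2) (nat_lit 5) (nat_lit 2) (nat_lit 4) (nat_lit 320) (nat_lit 247) (nat_lit 213)) (XT.lf (nat_lit 0) (nat_lit 1288360010759) (nat_lit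 76) (nat_lit 1760578718451) (nat_lit 76) (nat_lit 1758613093120) (nat_lit 1) (nat_lit 4) (nat_lit 2) (nat_lit 5) (nat_lit 2) (nat_lit 4) (nat_lit 321) (nat_lit 247) (nat_lit 212))))) (XT.nd (nat_lit 234) (nat_lit 0) (nat_lit 0) (XT.nd (nat_lit 78) (nat_lit 0) (nat_lit 0) (XT.lf (nat_lit 0) (nat_lit 1489093063125) (nat_lit 76) (nat_lit 2020629605899) (nat_lit 76) (nat_lit 2018662040829) (nat_lit 1) (nat_lit 4) (nat_lit 2) (nat_lit 5) (nat_lit 2) (nat_lit 4) (nat_lit 322) (nat_lit 247) (nat_lit 211)) (XT.nd (nat_lit 78) (nat_lit 0) (nat_lit 0) (XT.lf (nat_lit 0) (nat_lit 1719922568122) (nat_lit 76) (nat_lit 2319694877847) (nat_lit 76) (nat_lit 2317725626049) (nat_lit 1) (nat_lit 4) (nat_lit 2) (nat_lit 5) (nat_lit 2) (nat_lit 4) (nat_lit 323) (nat_lit 247) (nat_lit 210)) (XT.lf (nat_lit 0) (nat_lit 1985364755199) (nat_lit 76) (nat_lit 2663625811357) (nat_lit 76) (nat_lit 2661655092838) (nat_lit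 1) (nat_lit 4) (nat_lit 2) (nat_lit 5) (nat_lit 2) (nat_lit 4) (nat_lit 324) (nat_lit 247) (nat_lit 209)))) (XT.nd (nat_lit 156) (nat_lit 0) (nat_lit 0) (XT.nd (nat_lit 78) (nat_lit 0) (nat_lit 0) (XT.lf (nat_lit 0) (nat_lit 2290613058449) (nat_lit 76) (nat_lit 3059151489909) (nat_lit 76) (nat_lit 3057179495981) (nat_lit 1) (nat_lit 4) (nat_lit 2) (nat_lit 5) (nat_lit 2) (nat_lit 4) (nat_lit 325) (nat_lit 247) (nat_lit 208)) (XT.lf (nat_lit 0) (nat_lit 2641639727283) (nat_lit 76) (nat_lit 3514010459388) (nat_lit 76) (nat_lit 3512037356408) (nat_lit 1) (nat_lit 4) (nat_lit 2) (nat_lit 5) (nat_lit 2) (nat_lit 4) (nat_lit 326) (nat_lit 247) (nat_lit 207))) (XT.nd (nat_lit 78) (nat_lit 0) (nat_lit 0) (XT.lf (nat_lit 0) (nat_lit 3045312674789) (nat_lit 76) (nat_lit 4037102134415) (nat_lit 76) (nat_lit 4035128067043) (nat_lit 1) (nat_lit 4) (nat_lit 2) (nat_lit 5) (nat_lit 2) (nat_lit 4) (nat_lit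 327) (nat_lit 247) (nat_lit 206)) (XT.lf (nat_lit 0) (nat_lit 3509529849938) (nat_lit 76) (nat_lit 4638660917327) (nat_lit 76) (nat_lit 4636686011352) (nat_lit 1) (nat_lit 4) (nat_lit 2) (nat_lit 5) (nat_lit 2) (nat_lit 4) (nat_lit 328) (nat_lit 247) (nat_lit 205))))))))
noncomputable def xc10 : XT := (XT.nd (nat_lit 39000) (nat_lit 0) (nat_lit 0) (XT.nd (nat_lit 37986) (nat_lit 0) (nat_lit 0) (XT.nd (nat_lit 37518) (nat_lit 0) (nat_lit 76) (XT.nd (nat_lit 37284) (nat_lit 0) (nat_lit 228) (XT.nd (nat_lit 37128) (nat_lit 0) (nat_lit 304) (XT.lf (nat_lit 0) (nat_lit 4043373762680) (nat_lit 76) (nat_lit 5330456436486) (nat_lit 76) (nat_lit 5328480801291) (nat_lit 1) (nat_lit 4) (nat_lit 2) (nat_lit 5) (nat_lit 2) (nat_lit 4) (nat_lit 329) (nat_lit 247) (nat_lit 204)) (XT.nd (nat_lit 78) (nat_lit 152) (nat_lit 0) (XT.lf (nat_lit 0) (nat_lit 14437791666) (nat_lit 76) (nat_lit 598890040) (nat_lit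 76) (nat_lit 598890040) (nat_lit 7) (nat_lit 4) (nat_lit 8) (nat_lit 5) (nat_lit 8) (nat_lit 4) (nat_lit 284) (nat_lit 248) (nat_lit 248)) (XT.lf (nat_lit 0) (nat_lit 8220064215) (nat_lit 152) (nat_lit 19051018639) (nat_lit 0) (nat_lit 7899223756) (nat_lit 5) (nat_lit 5) (nat_lit 7) (nat_lit 4) (nat_lit 5) (nat_lit 4) (nat_lit 285) (nat_lit 248) (nat_lit 247)))) (XT.nd (nat_lit 78) (nat_lit 76) (nat_lit 0) (XT.lf (nat_lit 0) (nat_lit 18236368941) (nat_lit 152) (nat_lit 3838613065) (nat_lit 0) (nat_lit 17636536779) (nat_lit 5) (nat_lit 5) (nat_lit 7) (nat_lit 4) (nat_lit 5) (nat_lit 4) (nat_lit 286) (nat_lit 248) (nat_lit 246)) (XT.nd (nat_lit 78) (nat_lit 0) (nat_lit 0) (XT.lf (nat_lit 0) (nat_lit 12838575436) (nat_lit 76) (nat_lit 16486186718) (nat_lit 76) (nat_lit 15643753076) (nat_lit 4) (nat_lit 4) (nat_lit 5) (nat_lit 5) (nat_lit 5) (nat_lit 4) (nat_lit 287) (nat_lit 248) (nat_lit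 245)) (XT.lf (nat_lit 0) (nat_lit 30914005297) (nat_lit 76) (nat_lit 10599322696) (nat_lit 76) (nat_lit 9545931244) (nat_lit 4) (nat_lit 4) (nat_lit 5) (nat_lit 5) (nat_lit 5) (nat_lit 4) (nat_lit 288) (nat_lit 248) (nat_lit 244))))) (XT.nd (nat_lit 234) (nat_lit 0) (nat_lit 0) (XT.nd (nat_lit 78) (nat_lit 152) (nat_lit 0) (XT.lf (nat_lit 0) (nat_lit 50539191668) (nat_lit 76) (nat_lit 4404166649) (nat_lit 76) (nat_lit 3167333624) (nat_lit 4) (nat_lit 4) (nat_lit 5) (nat_lit 5) (nat_lit 5) (nat_lit 4) (nat_lit 289) (nat_lit 248) (nat_lit 243)) (XT.nd (nat_lit 78) (nat_lit 0) (nat_lit 0) (XT.lf (nat_lit 0) (nat_lit 3640931334) (nat_lit 152) (nat_lit 60248467234) (nat_lit 0) (nat_lit 2348017041) (nat_lit 2) (nat_lit 5) (nat_lit 4) (nat_lit 4) (nat_lit 2) (nat_lit 4) (nat_lit 290) (nat_lit 248) (nat_lit 242)) (XT.lf (nat_lit 0) (nat_lit 11146667179) (nat_lit 152) (nat_lit 54715570028) (nat_lit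 0) (nat_lit 9725319381) (nat_lit 2) (nat_lit 5) (nat_lit 4) (nat_lit 4) (nat_lit 2) (nat_lit 4) (nat_lit 291) (nat_lit 248) (nat_lit 241)))) (XT.nd (nat_lit 78) (nat_lit 0) (nat_lit 0) (XT.lf (nat_lit 0) (nat_lit 19352585459) (nat_lit 152) (nat_lit 49202211175) (nat_lit 0) (nat_lit 17819556354) (nat_lit 2) (nat_lit 5) (nat_lit 4) (nat_lit 4) (nat_lit 2) (nat_lit 4) (nat_lit 292) (nat_lit 248) (nat_lit 240)) (XT.nd (nat_lit 78) (nat_lit 0) (nat_lit 0) (XT.lf (nat_lit 0) (nat_lit 28419236750) (nat_lit 152) (nat_lit 43600520610) (nat_lit 0) (nat_lit 26789093464) (nat_lit 2) (nat_lit 5) (nat_lit 4) (nat_lit 4) (nat_lit 2) (nat_lit 4) (nat_lit 293) (nat_lit 248) (nat_lit 239)) (XT.lf (nat_lit 0) (nat_lit 38524012056) (nat_lit 152) (nat_lit 37800900038) (nat_lit 0) (nat_lit 36809421657) (nat_lit 2) (nat_lit 5) (nat_lit 4) (nat_lit 4) (nat_lit 2) (nat_lit 4) (nat_lit 294) (nat_lit 248) (nat_lit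 238)))))) (XT.nd (nat_lit 468) (nat_lit 0) (nat_lit 0) (XT.nd (nat_lit 234) (nat_lit 76) (nat_lit 0) (XT.nd (nat_lit 78) (nat_lit 0) (nat_lit 0) (XT.lf (nat_lit 0) (nat_lit 49864613501) (nat_lit 152) (nat_lit 31689878624) (nat_lit 0) (nat_lit 48076590830) (nat_lit 2) (nat_lit 5) (nat_lit 4) (nat_lit 4) (nat_lit 2) (nat_lit 4) (nat_lit 295) (nat_lit 248) (nat_lit 237)) (XT.nd (nat_lit 78) (nat_lit 0) (nat_lit 0) (XT.lf (nat_lit 0) (nat_lit 62662922420) (nat_lit 152) (nat_lit 25147892904) (nat_lit 0) (nat_lit 60811045598) (nat_lit 2) (nat_lit 5) (nat_lit 4) (nat_lit 4) (nat_lit 2) (nat_lit 4) (nat_lit 296) (nat_lit 248) (nat_lit 236)) (XT.lf (nat_lit 0) (nat_lit 77169340507) (nat_lit 152) (nat_lit 18046947506) (nat_lit 0) (nat_lit 75261938337) (nat_lit 2) (nat_lit 5) (nat_lit 4) (nat_lit 4) (nat_lit 2) (nat_lit 4) (nat_lit 297) (nat_lit 248) (nat_lit 235)))) (XT.nd (nat_lit 78) (nat_lit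 76) (nat_lit 0) (XT.lf (nat_lit 0) (nat_lit 93667688987) (nat_lit 152) (nat_lit 10248110889) (nat_lit 0) (nat_lit 91712003906) (nat_lit 2) (nat_lit 5) (nat_lit 4) (nat_lit 4) (nat_lit 2) (nat_lit 4) (nat_lit 298) (nat_lit 248) (nat_lit 234)) (XT.nd (nat_lit 78) (nat_lit 76) (nat_lit 0) (XT.lf (nat_lit 0) (nat_lit 112480761634) (nat_lit 152) (nat_lit 1598797120) (nat_lit 0) (nat_lit 110483091412) (nat_lit 2) (nat_lit 5) (nat_lit 4) (nat_lit 4) (nat_lit 2) (nat_lit 4) (nat_lit 299) (nat_lit 248) (nat_lit 233)) (XT.lf (nat_lit 0) (nat_lit 8495182963) (nat_lit 76) (nat_lit 125685766694) (nat_lit 76) (nat_lit 123651587655) (nat_lit 1) (nat_lit 4) (nat_lit 2) (nat_lit 5) (nat_lit 2) (nat_lit 4) (nat_lit 300) (nat_lit 248) (nat_lit 232))))) (XT.nd (nat_lit 234) (nat_lit 0) (nat_lit 0) (XT.nd (nat_lit 78) (nat_lit 0) (nat_lit 0) (XT.lf (nat_lit 0) (nat_lit 19945889579) (nat_lit 76) (nat_lit 139109706080)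 (nat_lit 76) (nat_lit 137043780243) (nat_lit 1) (nat_lit 4) (nat_lit 2) (nat_lit 5) (nat_lit 2) (nat_lit 4) (nat_lit 301) (nat_lit 248) (nat_lit 231)) (XT.nd (nat_lit 78) (nat_lit 0) (nat_lit 0) (XT.lf (nat_lit 0) (nat_lit 32893168468) (nat_lit 76) (nat_lit 154657733150) (nat_lit 76) (nat_lit 152564201402) (nat_lit 1) (nat_lit 4) (nat_lit 2) (nat_lit 5) (nat_lit 2) (nat_lit 4) (nat_lit 302) (nat_lit 248) (nat_lit 230)) (XT.lf (nat_lit 0) (nat_lit 47590335956) (nat_lit 76) (nat_lit 172634048434) (nat_lit 76) (nat_lit 170516511546) (nat_lit 1) (nat_lit 4) (nat_lit 2) (nat_lit 5) (nat_lit 2) (nat_lit 4) (nat_lit 303) (nat_lit 248) (nat_lit 229)))) (XT.nd (nat_lit 156) (nat_lit 0) (nat_lit 0) (XT.nd (nat_lit 78) (nat_lit 0) (nat_lit 0) (XT.lf (nat_lit 0) (nat_lit 64324945320) (nat_lit 76) (nat_lit 193390362448) (nat_lit 76) (nat_lit 191251951525) (nat_lit 1) (nat_lit 4) (nat_lit 2) (nat_lit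 5) (nat_lit 2) (nat_lit 4) (nat_lit 304) (nat_lit 248) (nat_lit 228)) (XT.lf (nat_lit 0) (nat_lit 83424412830) (nat_lit 76) (nat_lit 217332776988) (nat_lit 76) (nat_lit 215176214730) (nat_lit 1) (nat_lit 4) (nat_lit 2) (nat_lit 5) (nat_lit 2) (nat_lit 4) (nat_lit 305) (nat_lit 248) (nat_lit 227))) (XT.nd (nat_lit 78) (nat_lit 0) (nat_lit 0) (XT.lf (nat_lit 0) (nat_lit 105262423721) (nat_lit 76) (nat_lit 244929730600) (nat_lit 76) (nat_lit 242757384572) (nat_lit 1) (nat_lit 4) (nat_lit 2) (nat_lit 5) (nat_lit 2) (nat_lit 4) (nat_lit 306) (nat_lit 248) (nat_lit 226)) (XT.lf (nat_lit 0) (nat_lit 130266243423) (nat_lit 76) (nat_lit 276721163679) (nat_lit 76) (nat_lit 274535092635) (nat_lit 1) (nat_lit 4) (nat_lit 2) (nat_lit 5) (nat_lit 2) (nat_lit 4) (nat_lit 307) (nat_lit 248) (nat_lit 225))))))) (XT.nd (nat_lit 1014) (nat_lit 0) (nat_lit 0) (XT.nd (nat_lit 468) (nat_lit 0) (nat_lit 0) (XT.nd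 (nat_lit 234) (nat_lit 0) (nat_lit 0) (XT.nd (nat_lit 78) (nat_lit 0) (nat_lit 0) (XT.lf (nat_lit 0) (nat_lit 158925077103) (nat_lit 76) (nat_lit 313329082527) (nat_lit 76) (nat_lit 311131076685) (nat_lit 1) (nat_lit 4) (nat_lit 2) (nat_lit 5) (nat_lit 2) (nat_lit 4) (nat_lit 308) (nat_lit 248) (nat_lit 224)) (XT.nd (nat_lit 78) (nat_lit 0) (nat_lit 0) (XT.lf (nat_lit 0) (nat_lit 191799641073) (nat_lit 76) (nat_lit 355469729032) (nat_lit 76) (nat_lit 353261345106) (nat_lit 1) (nat_lit 4) (nat_lit 2) (nat_lit 5) (nat_lit 2) (nat_lit 4) (nat_lit 309) (nat_lit 248) (nat_lit 223)) (XT.lf (nat_lit 0) (nat_lit 229533133324) (nat_lit 76) (nat_lit 403967594106) (nat_lit 76) (nat_lit 401750185758) (nat_lit 1) (nat_lit 4) (nat_lit 2) (nat_lit 5) (nat_lit 2) (nat_lit 4) (nat_lit 310) (nat_lit 248) (nat_lit 222)))) (XT.nd (nat_lit 78) (nat_lit 0) (nat_lit 0) (XT.lf (nat_lit 0) (nat_lit 272863817835)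 (nat_lit 76) (nat_lit 459771549020) (nat_lit 76) (nat_lit 457546293350) (nat_lit 1) (nat_lit 4) (nat_lit 2) (nat_lit 5) (nat_lit 2) (nat_lit 4) (nat_lit 311) (nat_lit 248) (nat_lit 221)) (XT.nd (nat_lit 78) (nat_lit 0) (nat_lit 0) (XT.lf (nat_lit 0) (nat_lit 322639468867) (nat_lit 76) (nat_lit 523973410285) (nat_lit 76) (nat_lit 521741330856) (nat_lit 1) (nat_lit 4) (nat_lit 2) (nat_lit 5) (nat_lit 2) (nat_lit 4) (nat_lit 312) (nat_lit 248) (nat_lit 220)) (XT.lf (nat_lit 0) (nat_lit 379833957854) (nat_lit 76) (nat_lit 597829301273) (nat_lit 76) (nat_lit 595591288140) (nat_lit 1) (nat_lit 4) (nat_lit 2) (nat_lit 5) (nat_lit 2) (nat_lit 4) (nat_lit 313) (nat_lit 248) (nat_lit 219))))) (XT.nd (nat_lit 234) (nat_lit 0) (nat_lit 0) (XT.nd (nat_lit 78) (nat_lit 0) (nat_lit 0) (XT.lf (nat_lit 0) (nat_lit 445566307407) (nat_lit 76) (nat_lit 682784228546) (nat_lit 76) (nat_lit 680541055671) (nat_lit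 1) (nat_lit 4) (nat_lit 2) (nat_lit 5) (nat_lit 2) (nat_lit 4) (nat_lit 314) (nat_lit 248) (nat_lit 218)) (XT.nd (nat_lit 78) (nat_lit 0) (nat_lit 0) (XT.lf (nat_lit 0) (nat_lit 521122585233) (nat_lit 76) (nat_lit 780500353726) (nat_lit 76) (nat_lit 778252694119) (nat_lit 1) (nat_lit 4) (nat_lit 2) (nat_lit 5) (nat_lit 2) (nat_lit 4) (nat_lit 315) (nat_lit 248) (nat_lit 217)) (XT.lf (nat_lit 0) (nat_lit 607981066335) (nat_lit 76) (nat_lit 892889514044) (nat_lit 76) (nat_lit 890637952930) (nat_lit 1) (nat_lit 4) (nat_lit 2) (nat_lit 5) (nat_lit 2) (nat_lit 4) (nat_lit 316) (nat_lit 248) (nat_lit 216)))) (XT.nd (nat_lit 156) (nat_lit 0) (nat_lit 0) (XT.nd (nat_lit 78) (nat_lit 0) (nat_lit 0) (XT.lf (nat_lit 0) (nat_lit 707841155777) (nat_lit 76) (nat_lit 1022150627854) (nat_lit 76) (nat_lit 1019895674126) (nat_lit 1) (nat_lit 4) (nat_lit 2) (nat_lit 5) (nat_lit 2) (nat_lit 4) (nat_lit 317)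 (nat_lit 248) (nat_lit 215)) (XT.lf (nat_lit 0) (nat_lit 822656637918) (nat_lit 76) (nat_lit 1170812716948) (nat_lit 76) (nat_lit 1168554813121) (nat_lit 1) (nat_lit 4) (nat_lit 2) (nat_lit 5) (nat_lit 2) (nat_lit 4) (nat_lit 318) (nat_lit 248) (nat_lit 214))) (XT.nd (nat_lit 78) (nat_lit 0) (nat_lit 0) (XT.lf (nat_lit 0) (nat_lit 954673902625) (nat_lit 76) (nat_lit 1341784387417) (nat_lit 76) (nat_lit 1339523918286) (nat_lit 1) (nat_lit 4) (nat_lit 2) (nat_lit 5) (nat_lit 2) (nat_lit 4) (nat_lit 319) (nat_lit 248) (nat_lit 213)) (XT.lf (nat_lit 0) (nat_lit 1106475896383) (nat_lit 76) (nat_lit 1538410737162) (nat_lit 76) (nat_lit 1536148037332) (nat_lit 1) (nat_lit 4) (nat_lit 2) (nat_lit 5) (nat_lit 2) (nat_lit 4) (nat_lit 320) (nat_lit 248) (nat_lit 212)))))) (XT.nd (nat_lit 468) (nat_lit 0) (nat_lit 0) (XT.nd (nat_lit 234) (nat_lit 0) (nat_lit 0) (XT.nd (nat_lit 78) (nat_lit 0) (nat_lit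 0) (XT.lf (nat_lit 0) (nat_lit 1281032658199) (nat_lit 76) (nat_lit 1764538803459) (nat_lit 76) (nat_lit 1762274163891) (nat_lit 1) (nat_lit 4) (nat_lit 2) (nat_lit 5) (nat_lit 2) (nat_lit 4) (nat_lit 321) (nat_lit 248) (nat_lit 211)) (XT.nd (nat_lit 78) (nat_lit 0) (nat_lit 0) (XT.lf (nat_lit 0) (nat_lit 1481759429065) (nat_lit 76) (nat_lit 2024592831086) (nat_lit 76) (nat_lit 2022326504789) (nat_lit 1) (nat_lit 4) (nat_lit 2) (nat_lit 5) (nat_lit 2) (nat_lit 4) (nat_lit 322) (nat_lit 248) (nat_lit 210)) (XT.lf (nat_lit 0) (nat_lit 1712583471890) (nat_lit 76) (nat_lit 2323660833624) (nat_lit 76) (nat_lit 2321393040607) (nat_lit 1) (nat_lit 4) (nat_lit 2) (nat_lit 5) (nat_lit 2) (nat_lit 4) (nat_lit 323) (nat_lit 248) (nat_lit 209)))) (XT.nd (nat_lit 78) (nat_lit 0) (nat_lit 0) (XT.lf (nat_lit 0) (nat_lit 1978020909251) (nat_lit 76) (nat_lit 2667594141560) (nat_lit 76) (nat_lit 2665325073133)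 (nat_lit 1) (nat_lit 4) (nat_lit 2) (nat_lit 5) (nat_lit 2) (nat_lit 4) (nat_lit 324) (nat_lit 248) (nat_lit 208)) (XT.nd (nat_lit 78) (nat_lit 0) (nat_lit 0) (XT.lf (nat_lit 0) (nat_lit 2283265082314) (nat_lit 76) (nat_lit 3063121884830) (nat_lit 76) (nat_lit 3060851707352) (nat_lit 1) (nat_lit 4) (nat_lit 2) (nat_lit 5) (nat_lit 2) (nat_lit 4) (nat_lit 325) (nat_lit 248) (nat_lit 207)) (XT.lf (nat_lit 0) (nat_lit 2634288159681) (nat_lit 76) (nat_lit 3517982649717) (nat_lit 76) (nat_lit 3515711507846) (nat_lit 1) (nat_lit 4) (nat_lit 2) (nat_lit 5) (nat_lit 2) (nat_lit 4) (nat_lit 326) (nat_lit 248) (nat_lit 206))))) (XT.nd (nat_lit 37128) (nat_lit 0) (nat_lit 304) (XT.nd (nat_lit 78) (nat_lit 0) (nat_lit 0) (XT.lf (nat_lit 0) (nat_lit 3037957984172) (nat_lit 76) (nat_lit 4041075885968) (nat_lit 76) (nat_lit 4038803905494) (nat_lit 1) (nat_lit 4) (nat_lit 2) (nat_lit 5) (nat_lit 2) (nat_lit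 4) (nat_lit 327) (nat_lit 248) (nat_lit 205)) (XT.nd (nat_lit 78) (nat_lit 0) (nat_lit 0) (XT.lf (nat_lit 0) (nat_lit 3502172443656) (nat_lit 76) (nat_lit 4642636026466) (nat_lit 76) (nat_lit 4640363316772) (nat_lit 1) (nat_lit 4) (nat_lit 2) (nat_lit 5) (nat_lit 2) (nat_lit 4) (nat_lit 328) (nat_lit 248) (nat_lit 204)) (XT.lf (nat_lit 0) (nat_lit 4036013994949) (nat_lit 76) (nat_lit 5334432726133) (nat_lit 76) (nat_lit 5332159382336) (nat_lit 1) (nat_lit 4) (nat_lit 2) (nat_lit 5) (nat_lit 2) (nat_lit 4) (nat_lit 329) (nat_lit 248) (nat_lit 203)))) (XT.nd (nat_lit 156) (nat_lit 152) (nat_lit 0) (XT.nd (nat_lit 78) (nat_lit 76) (nat_lit 0) (XT.lf (nat_lit 0) (nat_lit 3715962713) (nat_lit 152) (nat_lit 5047304669) (nat_lit 0) (nat_lit 3715962713) (nat_lit 8) (nat_lit 5) (nat_lit 10) (nat_lit 4) (nat_lit 8) (nat_lit 4) (nat_lit 282) (nat_lit 249) (nat_lit 249)) (XT.lf (nat_lit 0) (nat_lit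 8177985776) (nat_lit 76) (nat_lit 10054155212) (nat_lit 76) (nat_lit 9655671363) (nat_lit 7) (nat_lit 4) (nat_lit 8) (nat_lit 5) (nat_lit 8) (nat_lit 4) (nat_lit 283) (nat_lit 249) (nat_lit 248))) (XT.nd (nat_lit 78) (nat_lit 152) (nat_lit 0) (XT.lf (nat_lit 0) (nat_lit 28069334899) (nat_lit 76) (nat_lit 1989959918) (nat_lit 76) (nat_lit 1244968374) (nat_lit 7) (nat_lit 4) (nat_lit 8) (nat_lit 5) (nat_lit 8) (nat_lit 4) (nat_lit 284) (nat_lit 249) (nat_lit 247)) (XT.lf (nat_lit 0) (nat_lit 7739036682) (nat_lit 152) (nat_lit 20729231403) (nat_lit 0) (nat_lit 6770237993) (nat_lit 5) (nat_lit 5) (nat_lit 7) (nat_lit 4) (nat_lit 5) (nat_lit 4) (nat_lit 285) (nat_lit 249) (nat_lit 246))))))))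
noncomputable def xc11 : XT := (XT.nd (nat_lit 2028) (nat_lit 0) (nat_lit 0) (XT.nd (nat_lit 1014) (nat_lit 76) (nat_lit 0) (XT.nd (nat_lit 468) (nat_lit 0) (nat_lit 0) (XT.nd (nat_lit 234) (nat_lit 152) (nat_lit 0) (XT.nd (nat_lit 78) (nat_lit 76) (nat_lit 0) (XT.lf (nat_lit 0) (nat_lit 17411562213) (nat_lit 152) (nat_lit 6195577200) (nat_lit 0) (nat_lit 16200162044) (nat_lit 5) (nat_lit 5) (nat_lit 7) (nat_lit 4) (nat_lit 5) (nat_lit 4) (nat_lit 286) (nat_lit 249) (nat_lit 245)) (XT.nd (nat_lit 78) (nat_lit 0) (nat_lit 0) (XT.lf (nat_lit 0) (nat_lit 9736199299) (nat_lit 76) (nat_lit 18390205477) (nat_lit 76) (nat_lit 16967847497) (nat_lit 4) (nat_lit 4) (nat_lit 5) (nat_lit 5) (nat_lit 5) (nat_lit 4) (nat_lit 287) (nat_lit 249) (nat_lit 244)) (XT.lf (nat_lit 0) (nat_lit 27271369639) (nat_lit 76) (nat_lit 12770661259) (nat_lit 76) (nat_lit 11164861706) (nat_lit 4) (nat_lit 4) (nat_lit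 5) (nat_lit 5) (nat_lit 5) (nat_lit 4) (nat_lit 288) (nat_lit 249) (nat_lit 243)))) (XT.nd (nat_lit 78) (nat_lit 152) (nat_lit 0) (XT.lf (nat_lit 0) (nat_lit 46426765124) (nat_lit 76) (nat_lit 6807957216) (nat_lit 76) (nat_lit 5042643251) (nat_lit 4) (nat_lit 4) (nat_lit 5) (nat_lit 5) (nat_lit 5) (nat_lit 4) (nat_lit 289) (nat_lit 249) (nat_lit 242)) (XT.nd (nat_lit 78) (nat_lit 0) (nat_lit 0) (XT.lf (nat_lit 0) (nat_lit 1154383453) (nat_lit 76) (nat_lit 316003855) (nat_lit 152) (nat_lit 64968476460) (nat_lit 2) (nat_lit 5) (nat_lit 3) (nat_lit 5) (nat_lit 4) (nat_lit 4) (nat_lit 290) (nat_lit 249) (nat_lit 241)) (XT.lf (nat_lit 0) (nat_lit 8770533512) (nat_lit 152) (nat_lit 60139086899) (nat_lit 0) (nat_lit 6895868734) (nat_lit 2) (nat_lit 5) (nat_lit 4) (nat_lit 4) (nat_lit 2) (nat_lit 4) (nat_lit 291) (nat_lit 249) (nat_lit 240))))) (XT.nd (nat_lit 234) (nat_lit 0) (nat_lit 0) (XT.nd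 (nat_lit 78) (nat_lit 0) (nat_lit 0) (XT.lf (nat_lit 0) (nat_lit 16804286802) (nat_lit 152) (nat_lit 54969296471) (nat_lit 0) (nat_lit 14832507842) (nat_lit 2) (nat_lit 5) (nat_lit 4) (nat_lit 4) (nat_lit 2) (nat_lit 4) (nat_lit 292) (nat_lit 249) (nat_lit 239)) (XT.nd (nat_lit 78) (nat_lit 0) (nat_lit 0) (XT.lf (nat_lit 0) (nat_lit 25721229405) (nat_lit 152) (nat_lit 49666361059) (nat_lit 0) (nat_lit 23665003332) (nat_lit 2) (nat_lit 5) (nat_lit 4) (nat_lit 4) (nat_lit 2) (nat_lit 4) (nat_lit 293) (nat_lit 249) (nat_lit 238)) (XT.lf (nat_lit 0) (nat_lit 35695823243) (nat_lit 152) (nat_lit 44126527577) (nat_lit 0) (nat_lit 33566164897) (nat_lit 2) (nat_lit 5) (nat_lit 4) (nat_lit 4) (nat_lit 2) (nat_lit 4) (nat_lit 294) (nat_lit 249) (nat_lit 237)))) (XT.nd (nat_lit 156) (nat_lit 0) (nat_lit 0) (XT.nd (nat_lit 78) (nat_lit 0) (nat_lit 0) (XT.lf (nat_lit 0) (nat_lit 46923223412) (nat_lit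 152) (nat_lit 38241407980) (nat_lit 0) (nat_lit 44729710917) (nat_lit 2) (nat_lit 5) (nat_lit 4) (nat_lit 4) (nat_lit 2) (nat_lit 4) (nat_lit 295) (nat_lit 249) (nat_lit 236)) (XT.lf (nat_lit 0) (nat_lit 59623096438) (nat_lit 152) (nat_lit 31895858623) (nat_lit 0) (nat_lit 57374058595) (nat_lit 2) (nat_lit 5) (nat_lit 4) (nat_lit 4) (nat_lit 2) (nat_lit 4) (nat_lit 296) (nat_lit 249) (nat_lit 235))) (XT.nd (nat_lit 78) (nat_lit 0) (nat_lit 0) (XT.lf (nat_lit 0) (nat_lit 74043918097) (nat_lit 152) (nat_lit 24965727453) (nat_lit 0) (nat_lit 71746597342) (nat_lit 2) (nat_lit 5) (nat_lit 4) (nat_lit 4) (nat_lit 2) (nat_lit 4) (nat_lit 297) (nat_lit 249) (nat_lit 234)) (XT.lf (nat_lit 0) (nat_lit 90467834900) (nat_lit 152) (nat_lit 17315424948) (nat_lit 0) (nat_lit 88128529005) (nat_lit 2) (nat_lit 5) (nat_lit 4) (nat_lit 4) (nat_lit 2) (nat_lit 4) (nat_lit 298) (nat_lit 249) (nat_lit 233))))))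 (XT.nd (nat_lit 468) (nat_lit 0) (nat_lit 0) (XT.nd (nat_lit 234) (nat_lit 0) (nat_lit 0) (XT.nd (nat_lit 78) (nat_lit 76) (nat_lit 0) (XT.lf (nat_lit 0) (nat_lit 109216184349) (nat_lit 152) (nat_lit 8795271275) (nat_lit 0) (nat_lit 106840369637) (nat_lit 2) (nat_lit 5) (nat_lit 4) (nat_lit 4) (nat_lit 2) (nat_lit 4) (nat_lit 299) (nat_lit 249) (nat_lit 232)) (XT.nd (nat_lit 78) (nat_lit 0) (nat_lit 0) (XT.lf (nat_lit 0) (nat_lit 801527894) (nat_lit 76) (nat_lit 129873530849) (nat_lit 76) (nat_lit 127465969339) (nat_lit 1) (nat_lit 4) (nat_lit 2) (nat_lit 5) (nat_lit 2) (nat_lit 4) (nat_lit 300) (nat_lit 249) (nat_lit 231)) (XT.lf (nat_lit 0) (nat_lit 12149428128) (nat_lit 76) (nat_lit 143348864085) (nat_lit 76) (nat_lit 140913696663) (nat_lit 1) (nat_lit 4) (nat_lit 2) (nat_lit 5) (nat_lit 2) (nat_lit 4) (nat_lit 301) (nat_lit 249) (nat_lit 230)))) (XT.nd (nat_lit 78) (nat_lit 0) (nat_lit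 0) (XT.lf (nat_lit 0) (nat_lit 25007310164) (nat_lit 76) (nat_lit 158941581459) (nat_lit 76) (nat_lit 156482408897) (nat_lit 1) (nat_lit 4) (nat_lit 2) (nat_lit 5) (nat_lit 2) (nat_lit 4) (nat_lit 302) (nat_lit 249) (nat_lit 229)) (XT.nd (nat_lit 78) (nat_lit 0) (nat_lit 0) (XT.lf (nat_lit 0) (nat_lit 39626741258) (nat_lit 76) (nat_lit 176956757876) (nat_lit 76) (nat_lit 174476711279) (nat_lit 1) (nat_lit 4) (nat_lit 2) (nat_lit 5) (nat_lit 2) (nat_lit 4) (nat_lit 303) (nat_lit 249) (nat_lit 228)) (XT.lf (nat_lit 0) (nat_lit 56293753758) (nat_lit 76) (nat_lit 197746864180) (nat_lit 76) (nat_lit 195248666249) (nat_lit 1) (nat_lit 4) (nat_lit 2) (nat_lit 5) (nat_lit 2) (nat_lit 4) (nat_lit 304) (nat_lit 249) (nat_lit 227))))) (XT.nd (nat_lit 234) (nat_lit 0) (nat_lit 0) (XT.nd (nat_lit 78) (nat_lit 0) (nat_lit 0) (XT.lf (nat_lit 0) (nat_lit 75334441386) (nat_lit 76) (nat_lit 221718663321)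 (nat_lit 76) (nat_lit 219204681620) (nat_lit 1) (nat_lit 4) (nat_lit 2) (nat_lit 5) (nat_lit 2) (nat_lit 4) (nat_lit 305) (nat_lit 249) (nat_lit 226)) (XT.nd (nat_lit 78) (nat_lit 0) (nat_lit 0) (XT.lf (nat_lit 0) (nat_lit 97121339336) (nat_lit 76) (nat_lit 249341168758) (nat_lit 76) (nat_lit 246813462041) (nat_lit 1) (nat_lit 4) (nat_lit 2) (nat_lit 5) (nat_lit 2) (nat_lit 4) (nat_lit 306) (nat_lit 249) (nat_lit 225)) (XT.lf (nat_lit 0) (nat_lit 122080713002) (nat_lit 76) (nat_lit 281154820817) (nat_lit 76) (nat_lit 278615179303) (nat_lit 1) (nat_lit 4) (nat_lit 2) (nat_lit 5) (nat_lit 2) (nat_lit 4) (nat_lit 307) (nat_lit 249) (nat_lit 224)))) (XT.nd (nat_lit 156) (nat_lit 0) (nat_lit 0) (XT.nd (nat_lit 78) (nat_lit 0) (nat_lit 0) (XT.lf (nat_lit 0) (nat_lit 150700897956) (nat_lit 76) (nat_lit 317782060516) (nat_lit 76) (nat_lit 315232040917) (nat_lit 1) (nat_lit 4) (nat_lit 2) (nat_lit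 5) (nat_lit 2) (nat_lit 4) (nat_lit 308) (nat_lit 249) (nat_lit 223)) (XT.lf (nat_lit 0) (nat_lit 183541854338) (nat_lit 76) (nat_lit 359939507762) (nat_lit 76) (nat_lit 357380463742) (nat_lit 1) (nat_lit 4) (nat_lit 2) (nat_lit 5) (nat_lit 2) (nat_lit 4) (nat_lit 309) (nat_lit 249) (nat_lit 222))) (XT.nd (nat_lit 78) (nat_lit 0) (nat_lit 0) (XT.lf (nat_lit 0) (nat_lit 221246122599) (nat_lit 76) (nat_lit 408451982175) (nat_lit 76) (nat_lit 405885090832) (nat_lit 1) (nat_lit 4) (nat_lit 2) (nat_lit 5) (nat_lit 2) (nat_lit 4) (nat_lit 310) (nat_lit 249) (nat_lit 221)) (XT.lf (nat_lit 0) (nat_lit 264551394945) (nat_lit 76) (nat_lit 464268640863) (nat_lit 76) (nat_lit 461694925761) (nat_lit 1) (nat_lit 4) (nat_lit 2) (nat_lit 5) (nat_lit 2) (nat_lit 4) (nat_lit 311) (nat_lit 249) (nat_lit 220))))))) (XT.nd (nat_lit 1014) (nat_lit 0) (nat_lit 0) (XT.nd (nat_lit 468) (nat_lit 0) (nat_lit 0)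 (XT.nd (nat_lit 234) (nat_lit 0) (nat_lit 0) (XT.nd (nat_lit 78) (nat_lit 0) (nat_lit 0) (XT.lf (nat_lit 0) (nat_lit 314304948442) (nat_lit 76) (nat_lit 528481548888) (nat_lit 76) (nat_lit 525901900082) (nat_lit 1) (nat_lit 4) (nat_lit 2) (nat_lit 5) (nat_lit 2) (nat_lit 4) (nat_lit 312) (nat_lit 249) (nat_lit 219)) (XT.nd (nat_lit 78) (nat_lit 0) (nat_lit 0) (XT.lf (nat_lit 0) (nat_lit 371480222181) (nat_lit 76) (nat_lit 602347045754) (nat_lit 76) (nat_lit 599762237205) (nat_lit 1) (nat_lit 4) (nat_lit 2) (nat_lit 5) (nat_lit 2) (nat_lit 4) (nat_lit 313) (nat_lit 249) (nat_lit 218)) (XT.lf (nat_lit 0) (nat_lit 437195862823) (nat_lit 76) (nat_lit 687310325965) (nat_lit 76) (nat_lit 684721030684) (nat_lit 1) (nat_lit 4) (nat_lit 2) (nat_lit 5) (nat_lit 2) (nat_lit 4) (nat_lit 314) (nat_lit 249) (nat_lit 217)))) (XT.nd (nat_lit 78) (nat_lit 0) (nat_lit 0) (XT.lf (nat_lit 0) (nat_lit 512737611162)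 (nat_lit 76) (nat_lit 785033714568) (nat_lit 76) (nat_lit 782440517781) (nat_lit 1) (nat_lit 4) (nat_lit 2) (nat_lit 5) (nat_lit 2) (nat_lit 4) (nat_lit 315) (nat_lit 249) (nat_lit 216)) (XT.nd (nat_lit 78) (nat_lit 0) (nat_lit 0) (XT.lf (nat_lit 0) (nat_lit 599583457926) (nat_lit 76) (nat_lit 897429190907) (nat_lit 76) (nat_lit 894832601505) (nat_lit 1) (nat_lit 4) (nat_lit 2) (nat_lit 5) (nat_lit 2) (nat_lit 4) (nat_lit 316) (nat_lit 249) (nat_lit 215)) (XT.lf (nat_lit 0) (nat_lit 699432560988) (nat_lit 76) (nat_lit 1026695796909) (nat_lit 76) (nat_lit 1024096257408) (nat_lit 1) (nat_lit 4) (nat_lit 2) (nat_lit 5) (nat_lit 2) (nat_lit 4) (nat_lit 317) (nat_lit 249) (nat_lit 214))))) (XT.nd (nat_lit 234) (nat_lit 0) (nat_lit 0) (XT.nd (nat_lit 78) (nat_lit 0) (nat_lit 0) (XT.lf (nat_lit 0) (nat_lit 814238489754) (nat_lit 76) (nat_lit 1175362661822) (nat_lit 76) (nat_lit 1172760557017)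 (nat_lit 1) (nat_lit 4) (nat_lit 2) (nat_lit 5) (nat_lit 2) (nat_lit 4) (nat_lit 318) (nat_lit 249) (nat_lit 213)) (XT.nd (nat_lit 78) (nat_lit 0) (nat_lit 0) (XT.lf (nat_lit 0) (nat_lit 946247447180) (nat_lit 76) (nat_lit 1346338485177) (nat_lit 76) (nat_lit 1343734149674) (nat_lit 1) (nat_lit 4) (nat_lit 2) (nat_lit 5) (nat_lit 2) (nat_lit 4) (nat_lit 319) (nat_lit 249) (nat_lit 212)) (XT.lf (nat_lit 0) (nat_lit 1098042217214) (nat_lit 76) (nat_lit 1542968446127) (nat_lit 76) (nat_lit 1540362170885) (nat_lit 1) (nat_lit 4) (nat_lit 2) (nat_lit 5) (nat_lit 2) (nat_lit 4) (nat_lit 320) (nat_lit 249) (nat_lit 211)))) (XT.nd (nat_lit 156) (nat_lit 0) (nat_lit 0) (XT.nd (nat_lit 78) (nat_lit 0) (nat_lit 0) (XT.lf (nat_lit 0) (nat_lit 1272592697532) (nat_lit 76) (nat_lit 1769099652603) (nat_lit 76) (nat_lit 1766491690633) (nat_lit 1) (nat_lit 4) (nat_lit 2) (nat_lit 5) (nat_lit 2) (nat_lit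 4) (nat_lit 321) (nat_lit 249) (nat_lit 210)) (XT.lf (nat_lit 0) (nat_lit 1473314006225) (nat_lit 76) (nat_lit 2029156410819) (nat_lit 76) (nat_lit 2026546982128) (nat_lit 1) (nat_lit 4) (nat_lit 2) (nat_lit 5) (nat_lit 2) (nat_lit 4) (nat_lit 322) (nat_lit 249) (nat_lit 209))) (XT.nd (nat_lit 78) (nat_lit 0) (nat_lit 0) (XT.lf (nat_lit 0) (nat_lit 1704133299335) (nat_lit 76) (nat_lit 2328226787784) (nat_lit 76) (nat_lit 2325616083684) (nat_lit 1) (nat_lit 4) (nat_lit 2) (nat_lit 5) (nat_lit 2) (nat_lit 4) (nat_lit 323) (nat_lit 249) (nat_lit 208)) (XT.lf (nat_lit 0) (nat_lit 1969566606509) (nat_lit 76) (nat_lit 2672162160438) (nat_lit 76) (nat_lit 2669550347286) (nat_lit 1) (nat_lit 4) (nat_lit 2) (nat_lit 5) (nat_lit 2) (nat_lit 4) (nat_lit 324) (nat_lit 249) (nat_lit 207)))))) (XT.nd (nat_lit 37206) (nat_lit 0) (nat_lit 228) (XT.nd (nat_lit 234) (nat_lit 0) (nat_lit 0) (XT.nd (nat_lit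 78) (nat_lit 0) (nat_lit 0) (XT.lf (nat_lit 0) (nat_lit 2274807188105) (nat_lit 76) (nat_lit 3067691699116) (nat_lit 76) (nat_lit 3065078921571) (nat_lit 1) (nat_lit 4) (nat_lit 2) (nat_lit 5) (nat_lit 2) (nat_lit 4) (nat_lit 325) (nat_lit 249) (nat_lit 206)) (XT.nd (nat_lit 78) (nat_lit 0) (nat_lit 0) (XT.lf (nat_lit 0) (nat_lit 2625827142457) (nat_lit 76) (nat_lit 3522554025226) (nat_lit 76) (nat_lit 3519940409079) (nat_lit 1) (nat_lit 4) (nat_lit 2) (nat_lit 5) (nat_lit 2) (nat_lit 4) (nat_lit 326) (nat_lit 249) (nat_lit 205)) (XT.lf (nat_lit 0) (nat_lit 3029494251282) (nat_lit 76) (nat_lit 4045648619063) (nat_lit 76) (nat_lit 4043034273696) (nat_lit 1) (nat_lit 4) (nat_lit 2) (nat_lit 5) (nat_lit 2) (nat_lit 4) (nat_lit 327) (nat_lit 249) (nat_lit 204)))) (XT.nd (nat_lit 78) (nat_lit 0) (nat_lit 0) (XT.lf (nat_lit 0) (nat_lit 3493706349319) (nat_lit 76) (nat_lit 4647209940070) (nat_lit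 76) (nat_lit 4644594960599) (nat_lit 1) (nat_lit 4) (nat_lit 2) (nat_lit 5) (nat_lit 2) (nat_lit 4) (nat_lit 328) (nat_lit 249) (nat_lit 203)) (XT.nd (nat_lit 36816) (nat_lit 0) (nat_lit 760) (XT.lf (nat_lit 0) (nat_lit 4027545847179) (nat_lit 76) (nat_lit 5339007666268) (nat_lit 76) (nat_lit 5336392135402) (nat_lit 1) (nat_lit 4) (nat_lit 2) (nat_lit 5) (nat_lit 2) (nat_lit 4) (nat_lit 329) (nat_lit 249) (nat_lit 202)) (XT.lf (nat_lit 0) (nat_lit 4599616295) (nat_lit 152) (nat_lit 921411152) (nat_lit 0) (nat_lit 4599616295) (nat_lit 11) (nat_lit 5) (nat_lit 13) (nat_lit 4) (nat_lit 11) (nat_lit 4) (nat_lit 280) (nat_lit 250) (nat_lit 250))))) (XT.nd (nat_lit 234) (nat_lit 228) (nat_lit 0) (XT.nd (nat_lit 78) (nat_lit 228) (nat_lit 0) (XT.lf (nat_lit 0) (nat_lit 17758965258) (nat_lit 76) (nat_lit 2591289769) (nat_lit 76) (nat_lit 2096372828) (nat_lit 10) (nat_lit 4) (nat_lit 11) (nat_lit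 5) (nat_lit 11) (nat_lit 4) (nat_lit 281) (nat_lit 250) (nat_lit 249)) (XT.nd (nat_lit 78) (nat_lit 76) (nat_lit 0) (XT.lf (nat_lit 0) (nat_lit 7438045380) (nat_lit 152) (nat_lit 10975413453) (nat_lit 0) (nat_lit 6581305104) (nat_lit 8) (nat_lit 5) (nat_lit 10) (nat_lit 4) (nat_lit 8) (nat_lit 4) (nat_lit 282) (nat_lit 250) (nat_lit 248)) (XT.lf (nat_lit 0) (nat_lit 6444551642) (nat_lit 76) (nat_lit 11358858016) (nat_lit 76) (nat_lit 10155610044) (nat_lit 7) (nat_lit 4) (nat_lit 8) (nat_lit 5) (nat_lit 8) (nat_lit 4) (nat_lit 283) (nat_lit 250) (nat_lit 247)))) (XT.nd (nat_lit 156) (nat_lit 76) (nat_lit 0) (XT.nd (nat_lit 78) (nat_lit 152) (nat_lit 0) (XT.lf (nat_lit 0) (nat_lit 25634815170) (nat_lit 76) (nat_lit 3637007060) (nat_lit 76) (nat_lit 2132448049) (nat_lit 7) (nat_lit 4) (nat_lit 8) (nat_lit 5) (nat_lit 8) (nat_lit 4) (nat_lit 284) (nat_lit 250) (nat_lit 246)) (XT.lf (nat_lit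 0) (nat_lit 6446729750) (nat_lit 152) (nat_lit 24118491529) (nat_lit 0) (nat_lit 4811018074) (nat_lit 5) (nat_lit 5) (nat_lit 7) (nat_lit 4) (nat_lit 5) (nat_lit 4) (nat_lit 285) (nat_lit 250) (nat_lit 245))) (XT.nd (nat_lit 78) (nat_lit 76) (nat_lit 0) (XT.lf (nat_lit 0) (nat_lit 15820316851) (nat_lit 152) (nat_lit 10175055910) (nat_lit 0) (nat_lit 13973647365) (nat_lit 5) (nat_lit 5) (nat_lit 7) (nat_lit 4) (nat_lit 5) (nat_lit 4) (nat_lit 286) (nat_lit 250) (nat_lit 244)) (XT.lf (nat_lit 0) (nat_lit 5006908773) (nat_lit 76) (nat_lit 21154564628) (nat_lit 76) (nat_lit 19124453569) (nat_lit 4) (nat_lit 4) (nat_lit 5) (nat_lit 5) (nat_lit 5) (nat_lit 4) (nat_lit 287) (nat_lit 250) (nat_lit 243))))))))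
noncomputable def xc12 : XT := (XT.nd (nat_lit 1950) (nat_lit 0) (nat_lit 0) (XT.nd (nat_lit 936) (nat_lit 76) (nat_lit 0) (XT.nd (nat_lit 468) (nat_lit 0) (nat_lit 0) (XT.nd (nat_lit 234) (nat_lit 152) (nat_lit 0) (XT.nd (nat_lit 78) (nat_lit 0) (nat_lit 0) (XT.lf (nat_lit 0) (nat_lit 22072288226) (nat_lit 76) (nat_lit 15767472414) (nat_lit 76) (nat_lit 13577846943) (nat_lit 4) (nat_lit 4) (nat_lit 5) (nat_lit 5) (nat_lit 5) (nat_lit 4) (nat_lit 288) (nat_lit 250) (nat_lit 242)) (XT.nd (nat_lit 78) (nat_lit 0) (nat_lit 0) (XT.lf (nat_lit 0) (nat_lit 40819169896) (nat_lit 76) (nat_lit 10006900548) (nat_lit 76) (nat_lit 7678566893) (nat_lit 4) (nat_lit 4) (nat_lit 5) (nat_lit 5) (nat_lit 5) (nat_lit 4) (nat_lit 289) (nat_lit 250) (nat_lit 241)) (XT.lf (nat_lit 0) (nat_lit 61614340598) (nat_lit 76) (nat_lit 3760142190) (nat_lit 76) (nat_lit 1311192722) (nat_lit 4) (nat_lit 4) (nat_lit 5)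 (nat_lit 5) (nat_lit 5) (nat_lit 4) (nat_lit 290) (nat_lit 250) (nat_lit 240)))) (XT.nd (nat_lit 78) (nat_lit 0) (nat_lit 0) (XT.lf (nat_lit 0) (nat_lit 5667825065) (nat_lit 152) (nat_lit 67114803415) (nat_lit 0) (nat_lit 3303165082) (nat_lit 2) (nat_lit 5) (nat_lit 4) (nat_lit 4) (nat_lit 2) (nat_lit 4) (nat_lit 291) (nat_lit 250) (nat_lit 239)) (XT.nd (nat_lit 78) (nat_lit 0) (nat_lit 0) (XT.lf (nat_lit 0) (nat_lit 13551869666) (nat_lit 152) (nat_lit 62243768141) (nat_lit 0) (nat_lit 11102762569) (nat_lit 2) (nat_lit 5) (nat_lit 4) (nat_lit 4) (nat_lit 2) (nat_lit 4) (nat_lit 292) (nat_lit 250) (nat_lit 238)) (XT.lf (nat_lit 0) (nat_lit 22338630802) (nat_lit 152) (nat_lit 57200619818) (nat_lit 0) (nat_lit 19816091432) (nat_lit 2) (nat_lit 5) (nat_lit 4) (nat_lit 4) (nat_lit 2) (nat_lit 4) (nat_lit 293) (nat_lit 250) (nat_lit 237))))) (XT.nd (nat_lit 234) (nat_lit 0) (nat_lit 0) (XT.nd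 (nat_lit 78) (nat_lit 0) (nat_lit 0) (XT.lf (nat_lit 0) (nat_lit 32200023363) (nat_lit 152) (nat_lit 51886688153) (nat_lit 0) (nat_lit 29613629843) (nat_lit 2) (nat_lit 5) (nat_lit 4) (nat_lit 4) (nat_lit 2) (nat_lit 4) (nat_lit 294) (nat_lit 250) (nat_lit 236)) (XT.nd (nat_lit 78) (nat_lit 0) (nat_lit 0) (XT.lf (nat_lit 0) (nat_lit 43328987640) (nat_lit 152) (nat_lit 46198004919) (nat_lit 0) (nat_lit 40687068772) (nat_lit 2) (nat_lit 5) (nat_lit 4) (nat_lit 4) (nat_lit 2) (nat_lit 4) (nat_lit 295) (nat_lit 250) (nat_lit 235)) (XT.lf (nat_lit 0) (nat_lit 55943264238) (nat_lit 152) (nat_lit 40023269790) (nat_lit 0) (nat_lit 53253062459) (nat_lit 2) (nat_lit 5) (nat_lit 4) (nat_lit 4) (nat_lit 2) (nat_lit 4) (nat_lit 296) (nat_lit 250) (nat_lit 234)))) (XT.nd (nat_lit 78) (nat_lit 0) (nat_lit 0) (XT.lf (nat_lit 0) (nat_lit 70289654220) (nat_lit 152) (nat_lit 33241672732) (nat_lit 0) (nat_lit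 67557467301) (nat_lit 2) (nat_lit 5) (nat_lit 4) (nat_lit 4) (nat_lit 2) (nat_lit 4) (nat_lit 297) (nat_lit 250) (nat_lit 233)) (XT.nd (nat_lit 78) (nat_lit 0) (nat_lit 0) (XT.lf (nat_lit 0) (nat_lit 86648847826) (nat_lit 152) (nat_lit 25720530324) (nat_lit 0) (nat_lit 83880152089) (nat_lit 2) (nat_lit 5) (nat_lit 4) (nat_lit 4) (nat_lit 2) (nat_lit 4) (nat_lit 298) (nat_lit 250) (nat_lit 232)) (XT.lf (nat_lit 0) (nat_lit 105340916235) (nat_lit 152) (nat_lit 17312689779) (nat_lit 0) (nat_lit 102540473700) (nat_lit 2) (nat_lit 5) (nat_lit 4) (nat_lit 4) (nat_lit 2) (nat_lit 4) (nat_lit 299) (nat_lit 250) (nat_lit 231)))))) (XT.nd (nat_lit 468) (nat_lit 0) (nat_lit 0) (XT.nd (nat_lit 234) (nat_lit 0) (nat_lit 0) (XT.nd (nat_lit 78) (nat_lit 76) (nat_lit 0) (XT.lf (nat_lit 0) (nat_lit 126731573828) (nat_lit 152) (nat_lit 7853649870) (nat_lit 0) (nat_lit 123903525382) (nat_lit 2) (nat_lit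 5) (nat_lit 4) (nat_lit 4) (nat_lit 2) (nat_lit 4) (nat_lit 300) (nat_lit 250) (nat_lit 230)) (XT.nd (nat_lit 78) (nat_lit 0) (nat_lit 0) (XT.lf (nat_lit 0) (nat_lit 2991294226) (nat_lit 76) (nat_lit 148319979943) (nat_lit 76) (nat_lit 145467926357) (nat_lit 1) (nat_lit 4) (nat_lit 2) (nat_lit 5) (nat_lit 2) (nat_lit 4) (nat_lit 301) (nat_lit 250) (nat_lit 229)) (XT.lf (nat_lit 0) (nat_lit 15771439868) (nat_lit 76) (nat_lit 163951558451) (nat_lit 76) (nat_lit 161078630829) (nat_lit 1) (nat_lit 4) (nat_lit 2) (nat_lit 5) (nat_lit 2) (nat_lit 4) (nat_lit 302) (nat_lit 250) (nat_lit 228)))) (XT.nd (nat_lit 78) (nat_lit 0) (nat_lit 0) (XT.lf (nat_lit 0) (nat_lit 30323274097) (nat_lit 76) (nat_lit 182000527158) (nat_lit 76) (nat_lit 179109448203) (nat_lit 1) (nat_lit 4) (nat_lit 2) (nat_lit 5) (nat_lit 2) (nat_lit 4) (nat_lit 303) (nat_lit 250) (nat_lit 227)) (XT.nd (nat_lit 78) (nat_lit 0)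 (nat_lit 0) (XT.lf (nat_lit 0) (nat_lit 46931506715) (nat_lit 76) (nat_lit 202820018063) (nat_lit 76) (nat_lit 199913155338) (nat_lit 1) (nat_lit 4) (nat_lit 2) (nat_lit 5) (nat_lit 2) (nat_lit 4) (nat_lit 304) (nat_lit 250) (nat_lit 226)) (XT.lf (nat_lit 0) (nat_lit 65921081403) (nat_lit 76) (nat_lit 226817369029) (nat_lit 76) (nat_lit 223896781287) (nat_lit 1) (nat_lit 4) (nat_lit 2) (nat_lit 5) (nat_lit 2) (nat_lit 4) (nat_lit 305) (nat_lit 250) (nat_lit 225))))) (XT.nd (nat_lit 234) (nat_lit 0) (nat_lit 0) (XT.nd (nat_lit 78) (nat_lit 0) (nat_lit 0) (XT.lf (nat_lit 0) (nat_lit 87663533317) (nat_lit 76) (nat_lit 254462093446) (nat_lit 76) (nat_lit 251529570907) (nat_lit 1) (nat_lit 4) (nat_lit 2) (nat_lit 5) (nat_lit 2) (nat_lit 4) (nat_lit 306) (nat_lit 250) (nat_lit 224)) (XT.nd (nat_lit 78) (nat_lit 0) (nat_lit 0) (XT.lf (nat_lit 0) (nat_lit 112584258257) (nat_lit 76) (nat_lit 286295066357)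 (nat_lit 76) (nat_lit 283352165734) (nat_lit 1) (nat_lit 4) (nat_lit 2) (nat_lit 5) (nat_lit 2) (nat_lit 4) (nat_lit 307) (nat_lit 250) (nat_lit 223)) (XT.lf (nat_lit 0) (nat_lit 141170835622) (nat_lit 76) (nat_lit 322939106797) (nat_lit 76) (nat_lit 319987181752) (nat_lit 1) (nat_lit 4) (nat_lit 2) (nat_lit 5) (nat_lit 2) (nat_lit 4) (nat_lit 308) (nat_lit 250) (nat_lit 222)))) (XT.nd (nat_lit 156) (nat_lit 0) (nat_lit 0) (XT.nd (nat_lit 78) (nat_lit 0) (nat_lit 0) (XT.lf (nat_lit 0) (nat_lit 173982568015) (nat_lit 76) (nat_lit 365111163382) (nat_lit 76) (nat_lit 362151391014) (nat_lit 1) (nat_lit 4) (nat_lit 2) (nat_lit 5) (nat_lit 2) (nat_lit 4) (nat_lit 309) (nat_lit 250) (nat_lit 221)) (XT.lf (nat_lit 0) (nat_lit 211661424111) (nat_lit 76) (nat_lit 413636341569) (nat_lit 76) (nat_lit 410669745442) (nat_lit 1) (nat_lit 4) (nat_lit 2) (nat_lit 5) (nat_lit 2) (nat_lit 4) (nat_lit 310)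 (nat_lit 250) (nat_lit 220))) (XT.nd (nat_lit 78) (nat_lit 0) (nat_lit 0) (XT.lf (nat_lit 0) (nat_lit 254944598921) (nat_lit 76) (nat_lit 469464047017) (nat_lit 76) (nat_lit 466491517186) (nat_lit 1) (nat_lit 4) (nat_lit 2) (nat_lit 5) (nat_lit 2) (nat_lit 4) (nat_lit 311) (nat_lit 250) (nat_lit 219)) (XT.lf (nat_lit 0) (nat_lit 304678937171) (nat_lit 76) (nat_lit 533686560919) (nat_lit 76) (nat_lit 530708871346) (nat_lit 1) (nat_lit 4) (nat_lit 2) (nat_lit 5) (nat_lit 2) (nat_lit 4) (nat_lit 312) (nat_lit 250) (nat_lit 218))))))) (XT.nd (nat_lit 1014) (nat_lit 0) (nat_lit 0) (XT.nd (nat_lit 468) (nat_lit 0) (nat_lit 0) (XT.nd (nat_lit 234) (nat_lit 0) (nat_lit 0) (XT.nd (nat_lit 78) (nat_lit 0) (nat_lit 0) (XT.lf (nat_lit 0) (nat_lit 361837501999) (nat_lit 76) (nat_lit 607560410722) (nat_lit 76) (nat_lit 604578234417) (nat_lit 1) (nat_lit 4) (nat_lit 2) (nat_lit 5) (nat_lit 2) (nat_lit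 4) (nat_lit 313) (nat_lit 250) (nat_lit 217)) (XT.nd (nat_lit 78) (nat_lit 0) (nat_lit 0) (XT.lf (nat_lit 0) (nat_lit 427538613153) (nat_lit 76) (nat_lit 692530954357) (nat_lit 76) (nat_lit 689544876545) (nat_lit 1) (nat_lit 4) (nat_lit 2) (nat_lit 5) (nat_lit 2) (nat_lit 4) (nat_lit 314) (nat_lit 250) (nat_lit 216)) (XT.lf (nat_lit 0) (nat_lit 503067727154) (nat_lit 76) (nat_lit 790260658981) (nat_lit 76) (nat_lit 787271188555) (nat_lit 1) (nat_lit 4) (nat_lit 2) (nat_lit 5) (nat_lit 2) (nat_lit 4) (nat_lit 315) (nat_lit 250) (nat_lit 215)))) (XT.nd (nat_lit 78) (nat_lit 0) (nat_lit 0) (XT.lf (nat_lit 0) (nat_lit 589902587538) (nat_lit 76) (nat_lit 902661627511) (nat_lit 76) (nat_lit 899669206986) (nat_lit 1) (nat_lit 4) (nat_lit 2) (nat_lit 5) (nat_lit 2) (nat_lit 4) (nat_lit 316) (nat_lit 250) (nat_lit 214)) (XT.nd (nat_lit 78) (nat_lit 0) (nat_lit 0) (XT.lf (nat_lit 0) (nat_lit 689742137226)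 (nat_lit 76) (nat_lit 1031933009332) (nat_lit 76) (nat_lit 1028938023503) (nat_lit 1) (nat_lit 4) (nat_lit 2) (nat_lit 5) (nat_lit 2) (nat_lit 4) (nat_lit 317) (nat_lit 250) (nat_lit 213)) (XT.lf (nat_lit 0) (nat_lit 804539758711) (nat_lit 76) (nat_lit 1180604027131) (nat_lit 76) (nat_lit 1177606810604) (nat_lit 1) (nat_lit 4) (nat_lit 2) (nat_lit 5) (nat_lit 2) (nat_lit 4) (nat_lit 318) (nat_lit 250) (nat_lit 212))))) (XT.nd (nat_lit 234) (nat_lit 0) (nat_lit 0) (XT.nd (nat_lit 78) (nat_lit 0) (nat_lit 0) (XT.lf (nat_lit 0) (nat_lit 936541492413) (nat_lit 76) (nat_lit 1351583461692) (nat_lit 76) (nat_lit 1348584305426) (nat_lit 1) (nat_lit 4) (nat_lit 2) (nat_lit 5) (nat_lit 2) (nat_lit 4) (nat_lit 319) (nat_lit 250) (nat_lit 211)) (XT.nd (nat_lit 78) (nat_lit 0) (nat_lit 0) (XT.lf (nat_lit 0) (nat_lit 1088329980949) (nat_lit 76) (nat_lit 1548216562820) (nat_lit 76) (nat_lit 1545215719826)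 (nat_lit 1) (nat_lit 4) (nat_lit 2) (nat_lit 5) (nat_lit 2) (nat_lit 4) (nat_lit 320) (nat_lit 250) (nat_lit 210)) (XT.lf (nat_lit 0) (nat_lit 1262874999093) (nat_lit 76) (nat_lit 1774350499887) (nat_lit 76) (nat_lit 1771348190171) (nat_lit 1) (nat_lit 4) (nat_lit 2) (nat_lit 5) (nat_lit 2) (nat_lit 4) (nat_lit 321) (nat_lit 250) (nat_lit 209)))) (XT.nd (nat_lit 156) (nat_lit 0) (nat_lit 0) (XT.nd (nat_lit 78) (nat_lit 0) (nat_lit 0) (XT.lf (nat_lit 0) (nat_lit 1463591558072) (nat_lit 76) (nat_lit 2034409632529) (nat_lit 76) (nat_lit 2031406047404) (nat_lit 1) (nat_lit 4) (nat_lit 2) (nat_lit 5) (nat_lit 2) (nat_lit 4) (nat_lit 322) (nat_lit 250) (nat_lit 208)) (XT.lf (nat_lit 0) (nat_lit 1694406720995) (nat_lit 76) (nat_lit 2333482074212) (nat_lit 76) (nat_lit 2330477380036) (nat_lit 1) (nat_lit 4) (nat_lit 2) (nat_lit 5) (nat_lit 2) (nat_lit 4) (nat_lit 323) (nat_lit 250) (nat_lit 207)))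 (XT.nd (nat_lit 78) (nat_lit 0) (nat_lit 0) (XT.lf (nat_lit 0) (nat_lit 1959836436701) (nat_lit 76) (nat_lit 2677419242273) (nat_lit 76) (nat_lit 2674413583704) (nat_lit 1) (nat_lit 4) (nat_lit 2) (nat_lit 5) (nat_lit 2) (nat_lit 4) (nat_lit 324) (nat_lit 250) (nat_lit 206)) (XT.lf (nat_lit 0) (nat_lit 2265073895282) (nat_lit 76) (nat_lit 3072950342175) (nat_lit 76) (nat_lit 3069943845003) (nat_lit 1) (nat_lit 4) (nat_lit 2) (nat_lit 5) (nat_lit 2) (nat_lit 4) (nat_lit 325) (nat_lit 250) (nat_lit 205)))))) (XT.nd (nat_lit 37050) (nat_lit 0) (nat_lit 304) (XT.nd (nat_lit 234) (nat_lit 0) (nat_lit 0) (XT.nd (nat_lit 78) (nat_lit 0) (nat_lit 0) (XT.lf (nat_lit 0) (nat_lit 2616091133969) (nat_lit 76) (nat_lit 3527814025871) (nat_lit 76) (nat_lit 3524806799480) (nat_lit 1) (nat_lit 4) (nat_lit 2) (nat_lit 5) (nat_lit 2) (nat_lit 4) (nat_lit 326) (nat_lit 250) (nat_lit 204)) (XT.nd (nat_lit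 78) (nat_lit 0) (nat_lit 0) (XT.lf (nat_lit 0) (nat_lit 3019755881346) (nat_lit 76) (nat_lit 4050909800217) (nat_lit 76) (nat_lit 4047901939722) (nat_lit 1) (nat_lit 4) (nat_lit 2) (nat_lit 5) (nat_lit 2) (nat_lit 4) (nat_lit 327) (nat_lit 250) (nat_lit 203)) (XT.lf (nat_lit 0) (nat_lit 3483965925949) (nat_lit 76) (nat_lit 4652472147754) (nat_lit 76) (nat_lit 4649463735865) (nat_lit 1) (nat_lit 4) (nat_lit 2) (nat_lit 5) (nat_lit 2) (nat_lit 4) (nat_lit 328) (nat_lit 250) (nat_lit 202)))) (XT.nd (nat_lit 36660) (nat_lit 0) (nat_lit 912) (XT.lf (nat_lit 0) (nat_lit 4017803638216) (nat_lit 76) (nat_lit 5344270766587) (nat_lit 76) (nat_lit 5341261875223) (nat_lit 1) (nat_lit 4) (nat_lit 2) (nat_lit 5) (nat_lit 2) (nat_lit 4) (nat_lit 329) (nat_lit 250) (nat_lit 201)) (XT.nd (nat_lit 78) (nat_lit 76) (nat_lit 0) (XT.lf (nat_lit 0) (nat_lit 3647440728) (nat_lit 152) (nat_lit 1046839674) (nat_lit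 0) (nat_lit 3647440728) (nat_lit 14) (nat_lit 5) (nat_lit 16) (nat_lit 4) (nat_lit 14) (nat_lit 4) (nat_lit 278) (nat_lit 251) (nat_lit 251)) (XT.lf (nat_lit 0) (nat_lit 17023353497) (nat_lit 76) (nat_lit 973795129) (nat_lit 76) (nat_lit 359108288) (nat_lit 13) (nat_lit 4) (nat_lit 14) (nat_lit 5) (nat_lit 14) (nat_lit 4) (nat_lit 279) (nat_lit 251) (nat_lit 250))))) (XT.nd (nat_lit 234) (nat_lit 228) (nat_lit 0) (XT.nd (nat_lit 78) (nat_lit 228) (nat_lit 0) (XT.lf (nat_lit 0) (nat_lit 9317787596) (nat_lit 152) (nat_lit 2705996648) (nat_lit 0) (nat_lit 8253716172) (nat_lit 11) (nat_lit 5) (nat_lit 13) (nat_lit 4) (nat_lit 11) (nat_lit 4) (nat_lit 280) (nat_lit 251) (nat_lit 249)) (XT.nd (nat_lit 78) (nat_lit 152) (nat_lit 0) (XT.lf (nat_lit 0) (nat_lit 16060226750) (nat_lit 76) (nat_lit 3975902949) (nat_lit 76) (nat_lit 2481468968) (nat_lit 10) (nat_lit 4) (nat_lit 11) (nat_lit 5) (nat_lit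 11) (nat_lit 4) (nat_lit 281) (nat_lit 251) (nat_lit 248)) (XT.lf (nat_lit 0) (nat_lit 6599784701) (nat_lit 152) (nat_lit 13635058925) (nat_lit 0) (nat_lit 4869541839) (nat_lit 8) (nat_lit 5) (nat_lit 10) (nat_lit 4) (nat_lit 8) (nat_lit 4) (nat_lit 282) (nat_lit 251) (nat_lit 247)))) (XT.nd (nat_lit 156) (nat_lit 152) (nat_lit 0) (XT.nd (nat_lit 78) (nat_lit 0) (nat_lit 0) (XT.lf (nat_lit 0) (nat_lit 2943768359) (nat_lit 76) (nat_lit 13595306567) (nat_lit 76) (nat_lit 11563752666) (nat_lit 7) (nat_lit 4) (nat_lit 8) (nat_lit 5) (nat_lit 8) (nat_lit 4) (nat_lit 283) (nat_lit 251) (nat_lit 246)) (XT.lf (nat_lit 0) (nat_lit 21524392238) (nat_lit 76) (nat_lit 6171146341) (nat_lit 76) (nat_lit 3877582840) (nat_lit 7) (nat_lit 4) (nat_lit 8) (nat_lit 5) (nat_lit 8) (nat_lit 4) (nat_lit 284) (nat_lit 251) (nat_lit 245))) (XT.nd (nat_lit 78) (nat_lit 0) (nat_lit 0) (XT.lf (nat_lit 0) (nat_lit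 4317859153) (nat_lit 152) (nat_lit 29285110629) (nat_lit 0) (nat_lit 1983231435) (nat_lit 5) (nat_lit 5) (nat_lit 7) (nat_lit 4) (nat_lit 5) (nat_lit 4) (nat_lit 285) (nat_lit 251) (nat_lit 244)) (XT.lf (nat_lit 0) (nat_lit 13431499792) (nat_lit 152) (nat_lit 15854908560) (nat_lit 0) (nat_lit 10913430501) (nat_lit 5) (nat_lit 5) (nat_lit 7) (nat_lit 4) (nat_lit 5) (nat_lit 4) (nat_lit 286) (nat_lit 251) (nat_lit 243))))))))
noncomputable def xc13 : XT := (XT.nd (nat_lit 2028) (nat_lit 0) (nat_lit 0) (XT.nd (nat_lit 1014) (nat_lit 76) (nat_lit 0) (XT.nd (nat_lit 468) (nat_lit 0) (nat_lit 0) (XT.nd (nat_lit 234) (nat_lit 152) (nat_lit 0) (XT.nd (nat_lit 78) (nat_lit 76) (nat_lit 0) (XT.lf (nat_lit 0) (nat_lit 23426199665) (nat_lit 152) (nat_lit 1369699775) (nat_lit 0) (nat_lit 20748615962) (nat_lit 5) (nat_lit 5) (nat_lit 7) (nat_lit 4) (nat_lit 5) (nat_lit 4) (nat_lit 287) (nat_lit 251)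 (nat_lit 242)) (XT.nd (nat_lit 78) (nat_lit 0) (nat_lit 0) (XT.lf (nat_lit 0) (nat_lit 15215039899) (nat_lit 76) (nat_lit 19648389423) (nat_lit 76) (nat_lit 16832097536) (nat_lit 4) (nat_lit 4) (nat_lit 5) (nat_lit 5) (nat_lit 5) (nat_lit 4) (nat_lit 288) (nat_lit 251) (nat_lit 241)) (XT.lf (nat_lit 0) (nat_lit 33606692165) (nat_lit 76) (nat_lit 14063584668) (nat_lit 76) (nat_lit 11126676968) (nat_lit 4) (nat_lit 4) (nat_lit 5) (nat_lit 5) (nat_lit 5) (nat_lit 4) (nat_lit 289) (nat_lit 251) (nat_lit 240)))) (XT.nd (nat_lit 78) (nat_lit 152) (nat_lit 0) (XT.lf (nat_lit 0) (nat_lit 54092967733) (nat_lit 76) (nat_lit 7969667275) (nat_lit 76) (nat_lit 4927876260) (nat_lit 4) (nat_lit 4) (nat_lit 5) (nat_lit 5) (nat_lit 5) (nat_lit 4) (nat_lit 290) (nat_lit 251) (nat_lit 239)) (XT.nd (nat_lit 78) (nat_lit 0) (nat_lit 0) (XT.lf (nat_lit 0) (nat_lit 624045973) (nat_lit 76) (nat_lit 1182223194)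 (nat_lit 152) (nat_lit 74625410290) (nat_lit 2) (nat_lit 5) (nat_lit 3) (nat_lit 5) (nat_lit 4) (nat_lit 4) (nat_lit 291) (nat_lit 251) (nat_lit 238)) (XT.lf (nat_lit 0) (nat_lit 9531699805) (nat_lit 152) (nat_lit 71167952804) (nat_lit 0) (nat_lit 6557347257) (nat_lit 2) (nat_lit 5) (nat_lit 4) (nat_lit 4) (nat_lit 2) (nat_lit 4) (nat_lit 292) (nat_lit 251) (nat_lit 237))))) (XT.nd (nat_lit 234) (nat_lit 0) (nat_lit 0) (XT.nd (nat_lit 78) (nat_lit 0) (nat_lit 0) (XT.lf (nat_lit 0) (nat_lit 18205259664) (nat_lit 152) (nat_lit 66350706298) (nat_lit 0) (nat_lit 15167052966) (nat_lit 2) (nat_lit 5) (nat_lit 4) (nat_lit 4) (nat_lit 2) (nat_lit 4) (nat_lit 293) (nat_lit 251) (nat_lit 236)) (XT.nd (nat_lit 78) (nat_lit 0) (nat_lit 0) (XT.lf (nat_lit 0) (nat_lit 27968216333) (nat_lit 152) (nat_lit 61233210996) (nat_lit 0) (nat_lit 24874484287) (nat_lit 2) (nat_lit 5) (nat_lit 4) (nat_lit 4) (nat_lit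 2) (nat_lit 4) (nat_lit 294) (nat_lit 251) (nat_lit 235)) (XT.lf (nat_lit 0) (nat_lit 39011584182) (nat_lit 152) (nat_lit 55715341990) (nat_lit 0) (nat_lit 35869569225) (nat_lit 2) (nat_lit 5) (nat_lit 4) (nat_lit 4) (nat_lit 2) (nat_lit 4) (nat_lit 295) (nat_lit 251) (nat_lit 234)))) (XT.nd (nat_lit 156) (nat_lit 0) (nat_lit 0) (XT.nd (nat_lit 78) (nat_lit 0) (nat_lit 0) (XT.lf (nat_lit 0) (nat_lit 51551429103) (nat_lit 152) (nat_lit 49689140972) (nat_lit 0) (nat_lit 48367429006) (nat_lit 2) (nat_lit 5) (nat_lit 4) (nat_lit 4) (nat_lit 2) (nat_lit 4) (nat_lit 296) (nat_lit 251) (nat_lit 233)) (XT.lf (nat_lit 0) (nat_lit 65833095888) (nat_lit 152) (nat_lit 43036704011) (nat_lit 0) (nat_lit 62612586973) (nat_lit 2) (nat_lit 5) (nat_lit 4) (nat_lit 4) (nat_lit 2) (nat_lit 4) (nat_lit 297) (nat_lit 251) (nat_lit 232))) (XT.nd (nat_lit 78) (nat_lit 0) (nat_lit 0) (XT.lf (nat_lit 0) (nat_lit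 82136008453) (nat_lit 152) (nat_lit 35627874731) (nat_lit 0) (nat_lit 78883752740) (nat_lit 2) (nat_lit 5) (nat_lit 4) (nat_lit 4) (nat_lit 2) (nat_lit 4) (nat_lit 298) (nat_lit 251) (nat_lit 231)) (XT.lf (nat_lit 0) (nat_lit 100779136826) (nat_lit 152) (nat_lit 27317697776) (nat_lit 0) (nat_lit 97499275202) (nat_lit 2) (nat_lit 5) (nat_lit 4) (nat_lit 4) (nat_lit 2) (nat_lit 4) (nat_lit 299) (nat_lit 251) (nat_lit 230)))))) (XT.nd (nat_lit 468) (nat_lit 0) (nat_lit 0) (XT.nd (nat_lit 234) (nat_lit 0) (nat_lit 0) (XT.nd (nat_lit 78) (nat_lit 76) (nat_lit 0) (XT.lf (nat_lit 0) (nat_lit 122127237866) (nat_lit 152) (nat_lit 17943582728) (nat_lit 0) (nat_lit 118823371102) (nat_lit 2) (nat_lit 5) (nat_lit 4) (nat_lit 4) (nat_lit 2) (nat_lit 4) (nat_lit 300) (nat_lit 251) (nat_lit 229)) (XT.nd (nat_lit 78) (nat_lit 76) (nat_lit 0) (XT.lf (nat_lit 0) (nat_lit 146597991812) (nat_lit 152) (nat_lit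 7322122987) (nat_lit 0) (nat_lit 143273251012) (nat_lit 2) (nat_lit 5) (nat_lit 4) (nat_lit 4) (nat_lit 2) (nat_lit 4) (nat_lit 301) (nat_lit 251) (nat_lit 228)) (XT.lf (nat_lit 0) (nat_lit 5004855769) (nat_lit 76) (nat_lit 169785685415) (nat_lit 76) (nat_lit 166442793282) (nat_lit 1) (nat_lit 4) (nat_lit 2) (nat_lit 5) (nat_lit 2) (nat_lit 4) (nat_lit 302) (nat_lit 251) (nat_lit 227)))) (XT.nd (nat_lit 78) (nat_lit 0) (nat_lit 0) (XT.lf (nat_lit 0) (nat_lit 19497910117) (nat_lit 76) (nat_lit 187864038723) (nat_lit 76) (nat_lit 184505362820) (nat_lit 1) (nat_lit 4) (nat_lit 2) (nat_lit 5) (nat_lit 2) (nat_lit 4) (nat_lit 303) (nat_lit 251) (nat_lit 226)) (XT.nd (nat_lit 78) (nat_lit 0) (nat_lit 0) (XT.lf (nat_lit 0) (nat_lit 36055029794) (nat_lit 76) (nat_lit 208709081454) (nat_lit 76) (nat_lit 205336680534) (nat_lit 1) (nat_lit 4) (nat_lit 2) (nat_lit 5) (nat_lit 2) (nat_lit 4) (nat_lit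 304) (nat_lit 251) (nat_lit 225)) (XT.lf (nat_lit 0) (nat_lit 55000158446) (nat_lit 76) (nat_lit 232728651400) (nat_lit 76) (nat_lit 229344315683) (nat_lit 1) (nat_lit 4) (nat_lit 2) (nat_lit 5) (nat_lit 2) (nat_lit 4) (nat_lit 305) (nat_lit 251) (nat_lit 224))))) (XT.nd (nat_lit 234) (nat_lit 0) (nat_lit 0) (XT.nd (nat_lit 78) (nat_lit 0) (nat_lit 0) (XT.lf (nat_lit 0) (nat_lit 76703961634) (nat_lit 76) (nat_lit 260392696669) (nat_lit 76) (nat_lit 256997982867) (nat_lit 1) (nat_lit 4) (nat_lit 2) (nat_lit 5) (nat_lit 2) (nat_lit 4) (nat_lit 306) (nat_lit 251) (nat_lit 223)) (XT.nd (nat_lit 78) (nat_lit 0) (nat_lit 0) (XT.lf (nat_lit 0) (nat_lit 101591078985) (nat_lit 76) (nat_lit 292242470320) (nat_lit 76) (nat_lit 288838732097) (nat_lit 1) (nat_lit 4) (nat_lit 2) (nat_lit 5) (nat_lit 2) (nat_lit 4) (nat_lit 307) (nat_lit 251) (nat_lit 222)) (XT.lf (nat_lit 0) (nat_lit 130148432360) (nat_lit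 76) (nat_lit 328901120099) (nat_lit 76) (nat_lit 325489534553) (nat_lit 1) (nat_lit 4) (nat_lit 2) (nat_lit 5) (nat_lit 2) (nat_lit 4) (nat_lit 308) (nat_lit 251) (nat_lit 221)))) (XT.nd (nat_lit 156) (nat_lit 0) (nat_lit 0) (XT.nd (nat_lit 78) (nat_lit 0) (nat_lit 0) (XT.lf (nat_lit 0) (nat_lit 162934752587) (nat_lit 76) (nat_lit 371085880458) (nat_lit 76) (nat_lit 367667471153) (nat_lit 1) (nat_lit 4) (nat_lit 2) (nat_lit 5) (nat_lit 2) (nat_lit 4) (nat_lit 309) (nat_lit 251) (nat_lit 220)) (XT.lf (nat_lit 0) (nat_lit 200591511149) (nat_lit 76) (nat_lit 419622105404) (nat_lit 76) (nat_lit 416197762396) (nat_lit 1) (nat_lit 4) (nat_lit 2) (nat_lit 5) (nat_lit 2) (nat_lit 4) (nat_lit 310) (nat_lit 251) (nat_lit 219))) (XT.nd (nat_lit 78) (nat_lit 0) (nat_lit 0) (XT.lf (nat_lit 0) (nat_lit 243855470712) (nat_lit 76) (nat_lit 475459416730) (nat_lit 76) (nat_lit 472029913979) (nat_lit 1)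 (nat_lit 4) (nat_lit 2) (nat_lit 5) (nat_lit 2) (nat_lit 4) (nat_lit 311) (nat_lit 251) (nat_lit 218)) (XT.lf (nat_lit 0) (nat_lit 293573100050) (nat_lit 76) (nat_lit 539690283570) (nat_lit 76) (nat_lit 536256294087) (nat_lit 1) (nat_lit 4) (nat_lit 2) (nat_lit 5) (nat_lit 2) (nat_lit 4) (nat_lit 312) (nat_lit 251) (nat_lit 217))))))) (XT.nd (nat_lit 1014) (nat_lit 0) (nat_lit 0) (XT.nd (nat_lit 468) (nat_lit 0) (nat_lit 0) (XT.nd (nat_lit 234) (nat_lit 0) (nat_lit 0) (XT.nd (nat_lit 78) (nat_lit 0) (nat_lit 0) (XT.lf (nat_lit 0) (nat_lit 350717135390) (nat_lit 76) (nat_lit 613571396797) (nat_lit 76) (nat_lit 610133505807) (nat_lit 1) (nat_lit 4) (nat_lit 2) (nat_lit 5) (nat_lit 2) (nat_lit 4) (nat_lit 313) (nat_lit 251) (nat_lit 216)) (XT.nd (nat_lit 78) (nat_lit 0) (nat_lit 0) (XT.lf (nat_lit 0) (nat_lit 416405612207) (nat_lit 76) (nat_lit 698548256452) (nat_lit 76) (nat_lit 695106972848)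 (nat_lit 1) (nat_lit 4) (nat_lit 2) (nat_lit 5) (nat_lit 2) (nat_lit 4) (nat_lit 314) (nat_lit 251) (nat_lit 215)) (XT.lf (nat_lit 0) (nat_lit 491923739828) (nat_lit 76) (nat_lit 796283453268) (nat_lit 76) (nat_lit 792839219565) (nat_lit 1) (nat_lit 4) (nat_lit 2) (nat_lit 5) (nat_lit 2) (nat_lit 4) (nat_lit 315) (nat_lit 251) (nat_lit 214)))) (XT.nd (nat_lit 78) (nat_lit 0) (nat_lit 0) (XT.lf (nat_lit 0) (nat_lit 578749046838) (nat_lit 76) (nat_lit 908689197618) (nat_lit 76) (nat_lit 905242398611) (nat_lit 1) (nat_lit 4) (nat_lit 2) (nat_lit 5) (nat_lit 2) (nat_lit 4) (nat_lit 316) (nat_lit 251) (nat_lit 213)) (XT.nd (nat_lit 78) (nat_lit 0) (nat_lit 0) (XT.lf (nat_lit 0) (nat_lit 678580289244) (nat_lit 76) (nat_lit 1037964732325) (nat_lit 76) (nat_lit 1034515702619) (nat_lit 1) (nat_lit 4) (nat_lit 2) (nat_lit 5) (nat_lit 2) (nat_lit 4) (nat_lit 317) (nat_lit 251) (nat_lit 212)) (XT.lf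 (nat_lit 0) (nat_lit 793370687005) (nat_lit 76) (nat_lit 1186639361329) (nat_lit 76) (nat_lit 1183188391885) (nat_lit 1) (nat_lit 4) (nat_lit 2) (nat_lit 5) (nat_lit 2) (nat_lit 4) (nat_lit 318) (nat_lit 251) (nat_lit 211))))) (XT.nd (nat_lit 234) (nat_lit 0) (nat_lit 0) (XT.nd (nat_lit 78) (nat_lit 0) (nat_lit 0) (XT.lf (nat_lit 0) (nat_lit 925366139209) (nat_lit 76) (nat_lit 1357621936068) (nat_lit 76) (nat_lit 1354169279895) (nat_lit 1) (nat_lit 4) (nat_lit 2) (nat_lit 5) (nat_lit 2) (nat_lit 4) (nat_lit 319) (nat_lit 251) (nat_lit 210)) (XT.nd (nat_lit 78) (nat_lit 0) (nat_lit 0) (XT.lf (nat_lit 0) (nat_lit 1077149165572) (nat_lit 76) (nat_lit 1554257767787) (nat_lit 76) (nat_lit 1550803644893) (nat_lit 1) (nat_lit 4) (nat_lit 2) (nat_lit 5) (nat_lit 2) (nat_lit 4) (nat_lit 320) (nat_lit 251) (nat_lit 209)) (XT.lf (nat_lit 0) (nat_lit 1251689434001) (nat_lit 76) (nat_lit 1780394079279)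 (nat_lit 76) (nat_lit 1776938680976) (nat_lit 1) (nat_lit 4) (nat_lit 2) (nat_lit 5) (nat_lit 2) (nat_lit 4) (nat_lit 321) (nat_lit 251) (nat_lit 208)))) (XT.nd (nat_lit 156) (nat_lit 0) (nat_lit 0) (XT.nd (nat_lit 78) (nat_lit 0) (nat_lit 0) (XT.lf (nat_lit 0) (nat_lit 1452401862793) (nat_lit 76) (nat_lit 2040455276640) (nat_lit 76) (nat_lit 2036998769285) (nat_lit 1) (nat_lit 4) (nat_lit 2) (nat_lit 5) (nat_lit 2) (nat_lit 4) (nat_lit 322) (nat_lit 251) (nat_lit 207)) (XT.lf (nat_lit 0) (nat_lit 1683213434248) (nat_lit 76) (nat_lit 2339529513730) (nat_lit 76) (nat_lit 2336072041983) (nat_lit 1) (nat_lit 4) (nat_lit 2) (nat_lit 5) (nat_lit 2) (nat_lit 4) (nat_lit 323) (nat_lit 251) (nat_lit 206))) (XT.nd (nat_lit 78) (nat_lit 0) (nat_lit 0) (XT.lf (nat_lit 0) (nat_lit 1948640026940) (nat_lit 76) (nat_lit 2683468243015) (nat_lit 76) (nat_lit 2680009932665) (nat_lit 1) (nat_lit 4) (nat_lit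 2) (nat_lit 5) (nat_lit 2) (nat_lit 4) (nat_lit 324) (nat_lit 251) (nat_lit 205)) (XT.lf (nat_lit 0) (nat_lit 2253874769855) (nat_lit 76) (nat_lit 3079000700502) (nat_lit 76) (nat_lit 3075541660933) (nat_lit 1) (nat_lit 4) (nat_lit 2) (nat_lit 5) (nat_lit 2) (nat_lit 4) (nat_lit 325) (nat_lit 251) (nat_lit 204)))))) (XT.nd (nat_lit 36894) (nat_lit 0) (nat_lit 456) (XT.nd (nat_lit 234) (nat_lit 0) (nat_lit 0) (XT.nd (nat_lit 78) (nat_lit 0) (nat_lit 0) (XT.lf (nat_lit 0) (nat_lit 2604889647094) (nat_lit 76) (nat_lit 3533865564708) (nat_lit 76) (nat_lit 3530405891035) (nat_lit 1) (nat_lit 4) (nat_lit 2) (nat_lit 5) (nat_lit 2) (nat_lit 4) (nat_lit 326) (nat_lit 251) (nat_lit 203)) (XT.nd (nat_lit 78) (nat_lit 0) (nat_lit 0) (XT.lf (nat_lit 0) (nat_lit 3008552341039) (nat_lit 76) (nat_lit 4056962365584) (nat_lit 76) (nat_lit 4053502140516) (nat_lit 1) (nat_lit 4) (nat_lit 2) (nat_lit 5) (nat_lit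 2) (nat_lit 4) (nat_lit 327) (nat_lit 251) (nat_lit 202)) (XT.lf (nat_lit 0) (nat_lit 3472760600048) (nat_lit 76) (nat_lit 4658525605756) (nat_lit 76) (nat_lit 4655064901214) (nat_lit 1) (nat_lit 4) (nat_lit 2) (nat_lit 5) (nat_lit 2) (nat_lit 4) (nat_lit 328) (nat_lit 251) (nat_lit 201)))) (XT.nd (nat_lit 36504) (nat_lit 0) (nat_lit 1140) (XT.lf (nat_lit 0) (nat_lit 4006596759624) (nat_lit 76) (nat_lit 5350325000792) (nat_lit 76) (nat_lit 5346863879317) (nat_lit 1) (nat_lit 4) (nat_lit 2) (nat_lit 5) (nat_lit 2) (nat_lit 4) (nat_lit 329) (nat_lit 251) (nat_lit 200)) (XT.nd (nat_lit 78) (nat_lit 76) (nat_lit 0) (XT.lf (nat_lit 0) (nat_lit 1837142086) (nat_lit 152) (nat_lit 3313815071) (nat_lit 0) (nat_lit 1837142086) (nat_lit 17) (nat_lit 5) (nat_lit 19) (nat_lit 4) (nat_lit 17) (nat_lit 4) (nat_lit 276) (nat_lit 252) (nat_lit 252)) (XT.lf (nat_lit 0) (nat_lit 11072375103) (nat_lit 76)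 (nat_lit 2471203465) (nat_lit 76) (nat_lit 1707762408) (nat_lit 16) (nat_lit 4) (nat_lit 17) (nat_lit 5) (nat_lit 17) (nat_lit 4) (nat_lit 277) (nat_lit 252) (nat_lit 251))))) (XT.nd (nat_lit 234) (nat_lit 304) (nat_lit 0) (XT.nd (nat_lit 78) (nat_lit 228) (nat_lit 0) (XT.lf (nat_lit 0) (nat_lit 7551520745) (nat_lit 152) (nat_lit 2938202423) (nat_lit 0) (nat_lit 6229944037) (nat_lit 14) (nat_lit 5) (nat_lit 16) (nat_lit 4) (nat_lit 14) (nat_lit 4) (nat_lit 278) (nat_lit 252) (nat_lit 250)) (XT.nd (nat_lit 78) (nat_lit 152) (nat_lit 0) (XT.lf (nat_lit 0) (nat_lit 15361320929) (nat_lit 76) (nat_lit 2460972817) (nat_lit 76) (nat_lit 604885813) (nat_lit 13) (nat_lit 4) (nat_lit 14) (nat_lit 5) (nat_lit 14) (nat_lit 4) (nat_lit 279) (nat_lit 252) (nat_lit 249)) (XT.lf (nat_lit 0) (nat_lit 8611700743) (nat_lit 152) (nat_lit 5312407870) (nat_lit 0) (nat_lit 6462739108) (nat_lit 11) (nat_lit 5)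 (nat_lit 13) (nat_lit 4) (nat_lit 11) (nat_lit 4) (nat_lit 280) (nat_lit 252) (nat_lit 248)))) (XT.nd (nat_lit 156) (nat_lit 76) (nat_lit 0) (XT.nd (nat_lit 78) (nat_lit 152) (nat_lit 0) (XT.lf (nat_lit 0) (nat_lit 12629513545) (nat_lit 76) (nat_lit 6277302625) (nat_lit 76) (nat_lit 3754112678) (nat_lit 10) (nat_lit 4) (nat_lit 11) (nat_lit 5) (nat_lit 11) (nat_lit 4) (nat_lit 281) (nat_lit 252) (nat_lit 247)) (XT.lf (nat_lit 0) (nat_lit 4900742639) (nat_lit 152) (nat_lit 18125582293) (nat_lit 0) (nat_lit 2263144613) (nat_lit 8) (nat_lit 5) (nat_lit 10) (nat_lit 4) (nat_lit 8) (nat_lit 4) (nat_lit 282) (nat_lit 252) (nat_lit 246))) (XT.nd (nat_lit 78) (nat_lit 76) (nat_lit 0) (XT.lf (nat_lit 0) (nat_lit 14471948094) (nat_lit 152) (nat_lit 2273157228) (nat_lit 0) (nat_lit 11572340468) (nat_lit 8) (nat_lit 5) (nat_lit 10) (nat_lit 4) (nat_lit 8) (nat_lit 4) (nat_lit 283) (nat_lit 252) (nat_lit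 245)) (XT.lf (nat_lit 0) (nat_lit 15657644786) (nat_lit 76) (nat_lit 9641958746) (nat_lit 76) (nat_lit 6514516686) (nat_lit 7) (nat_lit 4) (nat_lit 8) (nat_lit 5) (nat_lit 8) (nat_lit 4) (nat_lit 284) (nat_lit 252) (nat_lit 244))))))))
noncomputable def xc14 : XT := (XT.nd (nat_lit 2028) (nat_lit 0) (nat_lit 0) (XT.nd (nat_lit 1014) (nat_lit 76) (nat_lit 0) (XT.nd (nat_lit 468) (nat_lit 152) (nat_lit 0) (XT.nd (nat_lit 234) (nat_lit 76) (nat_lit 0) (XT.nd (nat_lit 78) (nat_lit 76) (nat_lit 0) (XT.lf (nat_lit 0) (nat_lit 1367713891) (nat_lit 152) (nat_lit 480714066) (nat_lit 76) (nat_lit 34019516395) (nat_lit 6) (nat_lit 5) (nat_lit 8) (nat_lit 5) (nat_lit 7) (nat_lit 4) (nat_lit 285) (nat_lit 252) (nat_lit 243)) (XT.nd (nat_lit 78) (nat_lit 0) (nat_lit 0) (XT.lf (nat_lit 0) (nat_lit 10198373312) (nat_lit 152) (nat_lit 23346262702) (nat_lit 0) (nat_lit 6959637642) (nat_lit 5) (nat_lit 5)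 (nat_lit 7) (nat_lit 4) (nat_lit 5) (nat_lit 4) (nat_lit 286) (nat_lit 252) (nat_lit 242)) (XT.lf (nat_lit 0) (nat_lit 19996516315) (nat_lit 152) (nat_lit 9249132217) (nat_lit 0) (nat_lit 16619072460) (nat_lit 5) (nat_lit 5) (nat_lit 7) (nat_lit 4) (nat_lit 5) (nat_lit 4) (nat_lit 287) (nat_lit 252) (nat_lit 241)))) (XT.nd (nat_lit 78) (nat_lit 0) (nat_lit 0) (XT.lf (nat_lit 0) (nat_lit 6565461105) (nat_lit 76) (nat_lit 24489343271) (nat_lit 76) (nat_lit 20991283604) (nat_lit 4) (nat_lit 4) (nat_lit 5) (nat_lit 5) (nat_lit 5) (nat_lit 4) (nat_lit 288) (nat_lit 252) (nat_lit 240)) (XT.nd (nat_lit 78) (nat_lit 0) (nat_lit 0) (XT.lf (nat_lit 0) (nat_lit 24648218237) (nat_lit 76) (nat_lit 19057379481) (nat_lit 76) (nat_lit 15454436500) (nat_lit 4) (nat_lit 4) (nat_lit 5) (nat_lit 5) (nat_lit 5) (nat_lit 4) (nat_lit 289) (nat_lit 252) (nat_lit 239)) (XT.lf (nat_lit 0) (nat_lit 44865889340)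 (nat_lit 76) (nat_lit 13096367276) (nat_lit 76) (nat_lit 9402221412) (nat_lit 4) (nat_lit 4) (nat_lit 5) (nat_lit 5) (nat_lit 5) (nat_lit 4) (nat_lit 290) (nat_lit 252) (nat_lit 238))))) (XT.nd (nat_lit 234) (nat_lit 0) (nat_lit 0) (XT.nd (nat_lit 78) (nat_lit 152) (nat_lit 0) (XT.lf (nat_lit 0) (nat_lit 67614037545) (nat_lit 76) (nat_lit 6489678156) (nat_lit 76) (nat_lit 2716225438) (nat_lit 4) (nat_lit 4) (nat_lit 5) (nat_lit 5) (nat_lit 5) (nat_lit 4) (nat_lit 291) (nat_lit 252) (nat_lit 237)) (XT.nd (nat_lit 78) (nat_lit 0) (nat_lit 0) (XT.lf (nat_lit 0) (nat_lit 4665121721) (nat_lit 152) (nat_lit 81916454072) (nat_lit 0) (nat_lit 1107329868) (nat_lit 2) (nat_lit 5) (nat_lit 4) (nat_lit 4) (nat_lit 2) (nat_lit 4) (nat_lit 292) (nat_lit 252) (nat_lit 236)) (XT.lf (nat_lit 0) (nat_lit 13240245687) (nat_lit 152) (nat_lit 77295643929) (nat_lit 0) (nat_lit 9626928487) (nat_lit 2) (nat_lit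 5) (nat_lit 4) (nat_lit 4) (nat_lit 2) (nat_lit 4) (nat_lit 293) (nat_lit 252) (nat_lit 235)))) (XT.nd (nat_lit 156) (nat_lit 0) (nat_lit 0) (XT.nd (nat_lit 78) (nat_lit 0) (nat_lit 0) (XT.lf (nat_lit 0) (nat_lit 22917605928) (nat_lit 152) (nat_lit 72348962856) (nat_lit 0) (nat_lit 19256005816) (nat_lit 2) (nat_lit 5) (nat_lit 4) (nat_lit 4) (nat_lit 2) (nat_lit 4) (nat_lit 294) (nat_lit 252) (nat_lit 234)) (XT.lf (nat_lit 0) (nat_lit 33886542100) (nat_lit 152) (nat_lit 66979627961) (nat_lit 0) (nat_lit 30182956848) (nat_lit 2) (nat_lit 5) (nat_lit 4) (nat_lit 4) (nat_lit 2) (nat_lit 4) (nat_lit 295) (nat_lit 252) (nat_lit 233))) (XT.nd (nat_lit 78) (nat_lit 0) (nat_lit 0) (XT.lf (nat_lit 0) (nat_lit 46361663824) (nat_lit 152) (nat_lit 61082587041) (nat_lit 0) (nat_lit 42621569754) (nat_lit 2) (nat_lit 5) (nat_lit 4) (nat_lit 4) (nat_lit 2) (nat_lit 4) (nat_lit 296) (nat_lit 252) (nat_lit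 232)) (XT.lf (nat_lit 0) (nat_lit 60587049568) (nat_lit 152) (nat_lit 54542463208) (nat_lit 0) (nat_lit 56815208700) (nat_lit 2) (nat_lit 5) (nat_lit 4) (nat_lit 4) (nat_lit 2) (nat_lit 4) (nat_lit 297) (nat_lit 252) (nat_lit 231)))))) (XT.nd (nat_lit 468) (nat_lit 0) (nat_lit 0) (XT.nd (nat_lit 234) (nat_lit 76) (nat_lit 0) (XT.nd (nat_lit 78) (nat_lit 0) (nat_lit 0) (XT.lf (nat_lit 0) (nat_lit 76841022097) (nat_lit 152) (nat_lit 47231297517) (nat_lit 0) (nat_lit 73041575318) (nat_lit 2) (nat_lit 5) (nat_lit 4) (nat_lit 4) (nat_lit 2) (nat_lit 4) (nat_lit 298) (nat_lit 252) (nat_lit 230)) (XT.nd (nat_lit 78) (nat_lit 0) (nat_lit 0) (XT.lf (nat_lit 0) (nat_lit 95441593917) (nat_lit 152) (nat_lit 39006045422) (nat_lit 0) (nat_lit 91618141998) (nat_lit 2) (nat_lit 5) (nat_lit 4) (nat_lit 4) (nat_lit 2) (nat_lit 4) (nat_lit 299) (nat_lit 252) (nat_lit 229)) (XT.lf (nat_lit 0) (nat_lit 116752689259)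 (nat_lit 152) (nat_lit 29705778078) (nat_lit 0) (nat_lit 112908363305) (nat_lit 2) (nat_lit 5) (nat_lit 4) (nat_lit 4) (nat_lit 2) (nat_lit 4) (nat_lit 300) (nat_lit 252) (nat_lit 228)))) (XT.nd (nat_lit 78) (nat_lit 76) (nat_lit 0) (XT.lf (nat_lit 0) (nat_lit 141191264337) (nat_lit 152) (nat_lit 19148533733) (nat_lit 0) (nat_lit 137328787048) (nat_lit 2) (nat_lit 5) (nat_lit 4) (nat_lit 4) (nat_lit 2) (nat_lit 4) (nat_lit 301) (nat_lit 252) (nat_lit 227)) (XT.nd (nat_lit 78) (nat_lit 76) (nat_lit 0) (XT.lf (nat_lit 0) (nat_lit 169235465184) (nat_lit 152) (nat_lit 7127757606) (nat_lit 0) (nat_lit 165357204126) (nat_lit 2) (nat_lit 5) (nat_lit 4) (nat_lit 4) (nat_lit 2) (nat_lit 4) (nat_lit 302) (nat_lit 252) (nat_lit 226)) (XT.lf (nat_lit 0) (nat_lit 6938848716) (nat_lit 76) (nat_lit 194662013450) (nat_lit 76) (nat_lit 190770027375) (nat_lit 1) (nat_lit 4) (nat_lit 2) (nat_lit 5) (nat_lit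 2) (nat_lit 4) (nat_lit 303) (nat_lit 252) (nat_lit 225))))) (XT.nd (nat_lit 234) (nat_lit 0) (nat_lit 0) (XT.nd (nat_lit 78) (nat_lit 0) (nat_lit 0) (XT.lf (nat_lit 0) (nat_lit 23451522357) (nat_lit 76) (nat_lit 215529275160) (nat_lit 76) (nat_lit 211625354288) (nat_lit 1) (nat_lit 4) (nat_lit 2) (nat_lit 5) (nat_lit 2) (nat_lit 4) (nat_lit 304) (nat_lit 252) (nat_lit 224)) (XT.nd (nat_lit 78) (nat_lit 0) (nat_lit 0) (XT.lf (nat_lit 0) (nat_lit 42358002283) (nat_lit 76) (nat_lit 239568165957) (nat_lit 76) (nat_lit 235653867001) (nat_lit 1) (nat_lit 4) (nat_lit 2) (nat_lit 5) (nat_lit 2) (nat_lit 4) (nat_lit 305) (nat_lit 252) (nat_lit 223)) (XT.lf (nat_lit 0) (nat_lit 64028197882) (nat_lit 76) (nat_lit 267249011967) (nat_lit 76) (nat_lit 263325688589) (nat_lit 1) (nat_lit 4) (nat_lit 2) (nat_lit 5) (nat_lit 2) (nat_lit 4) (nat_lit 306) (nat_lit 252) (nat_lit 222)))) (XT.nd (nat_lit 156)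 (nat_lit 0) (nat_lit 0) (XT.nd (nat_lit 78) (nat_lit 0) (nat_lit 0) (XT.lf (nat_lit 0) (nat_lit 88886091243) (nat_lit 76) (nat_lit 299113394957) (nat_lit 76) (nat_lit 295182224257) (nat_lit 1) (nat_lit 4) (nat_lit 2) (nat_lit 5) (nat_lit 2) (nat_lit 4) (nat_lit 307) (nat_lit 252) (nat_lit 221)) (XT.lf (nat_lit 0) (nat_lit 117418032454) (nat_lit 76) (nat_lit 335784748510) (nat_lit 76) (nat_lit 331846754050) (nat_lit 1) (nat_lit 4) (nat_lit 2) (nat_lit 5) (nat_lit 2) (nat_lit 4) (nat_lit 308) (nat_lit 252) (nat_lit 220))) (XT.nd (nat_lit 78) (nat_lit 0) (nat_lit 0) (XT.lf (nat_lit 0) (nat_lit 150182255146) (nat_lit 76) (nat_lit 377980555629) (nat_lit 76) (nat_lit 374036627465) (nat_lit 1) (nat_lit 4) (nat_lit 2) (nat_lit 5) (nat_lit 2) (nat_lit 4) (nat_lit 309) (nat_lit 252) (nat_lit 219)) (XT.lf (nat_lit 0) (nat_lit 187819798460) (nat_lit 76) (nat_lit 426526386453) (nat_lit 76) (nat_lit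 422577298547) (nat_lit 1) (nat_lit 4) (nat_lit 2) (nat_lit 5) (nat_lit 2) (nat_lit 4) (nat_lit 310) (nat_lit 252) (nat_lit 218))))))) (XT.nd (nat_lit 1014) (nat_lit 0) (nat_lit 0) (XT.nd (nat_lit 468) (nat_lit 0) (nat_lit 0) (XT.nd (nat_lit 234) (nat_lit 0) (nat_lit 0) (XT.nd (nat_lit 78) (nat_lit 0) (nat_lit 0) (XT.lf (nat_lit 0) (nat_lit 231067049112) (nat_lit 76) (nat_lit 482372050716) (nat_lit 76) (nat_lit 478418476078) (nat_lit 1) (nat_lit 4) (nat_lit 2) (nat_lit 5) (nat_lit 2) (nat_lit 4) (nat_lit 311) (nat_lit 252) (nat_lit 217)) (XT.nd (nat_lit 78) (nat_lit 0) (nat_lit 0) (XT.lf (nat_lit 0) (nat_lit 280770148962) (nat_lit 76) (nat_lit 546610180979) (nat_lit 76) (nat_lit 542652704835) (nat_lit 1) (nat_lit 4) (nat_lit 2) (nat_lit 5) (nat_lit 2) (nat_lit 4) (nat_lit 312) (nat_lit 252) (nat_lit 216)) (XT.lf (nat_lit 0) (nat_lit 337901549965) (nat_lit 76) (nat_lit 620497610227) (nat_lit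 76) (nat_lit 616536741468) (nat_lit 1) (nat_lit 4) (nat_lit 2) (nat_lit 5) (nat_lit 2) (nat_lit 4) (nat_lit 313) (nat_lit 252) (nat_lit 215)))) (XT.nd (nat_lit 78) (nat_lit 0) (nat_lit 0) (XT.lf (nat_lit 0) (nat_lit 403579040402) (nat_lit 76) (nat_lit 705479962074) (nat_lit 76) (nat_lit 701516143216) (nat_lit 1) (nat_lit 4) (nat_lit 2) (nat_lit 5) (nat_lit 2) (nat_lit 4) (nat_lit 314) (nat_lit 252) (nat_lit 214)) (XT.nd (nat_lit 78) (nat_lit 0) (nat_lit 0) (XT.lf (nat_lit 0) (nat_lit 479087614649) (nat_lit 76) (nat_lit 803219934709) (nat_lit 76) (nat_lit 799253550548) (nat_lit 1) (nat_lit 4) (nat_lit 2) (nat_lit 5) (nat_lit 2) (nat_lit 4) (nat_lit 315) (nat_lit 252) (nat_lit 213)) (XT.lf (nat_lit 0) (nat_lit 565904614377) (nat_lit 76) (nat_lit 915629831945) (nat_lit 76) (nat_lit 911661217084) (nat_lit 1) (nat_lit 4) (nat_lit 2) (nat_lit 5) (nat_lit 2) (nat_lit 4) (nat_lit 316) (nat_lit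 252) (nat_lit 212))))) (XT.nd (nat_lit 234) (nat_lit 0) (nat_lit 0) (XT.nd (nat_lit 78) (nat_lit 0) (nat_lit 0) (XT.lf (nat_lit 0) (nat_lit 665728633059) (nat_lit 76) (nat_lit 1044908977857) (nat_lit 76) (nat_lit 1040938423258) (nat_lit 1) (nat_lit 4) (nat_lit 2) (nat_lit 5) (nat_lit 2) (nat_lit 4) (nat_lit 317) (nat_lit 252) (nat_lit 211)) (XT.nd (nat_lit 78) (nat_lit 0) (nat_lit 0) (XT.lf (nat_lit 0) (nat_lit 780512749322) (nat_lit 76) (nat_lit 1193586747040) (nat_lit 76) (nat_lit 1189614505713) (nat_lit 1) (nat_lit 4) (nat_lit 2) (nat_lit 5) (nat_lit 2) (nat_lit 4) (nat_lit 318) (nat_lit 252) (nat_lit 210)) (XT.lf (nat_lit 0) (nat_lit 912502739353) (nat_lit 76) (nat_lit 1364572052369) (nat_lit 76) (nat_lit 1360598344321) (nat_lit 1) (nat_lit 4) (nat_lit 2) (nat_lit 5) (nat_lit 2) (nat_lit 4) (nat_lit 319) (nat_lit 252) (nat_lit 209)))) (XT.nd (nat_lit 156) (nat_lit 0) (nat_lit 0) (XT.nd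 (nat_lit 78) (nat_lit 0) (nat_lit 0) (XT.lf (nat_lit 0) (nat_lit 1064281016001) (nat_lit 76) (nat_lit 1561210258514) (nat_lit 76) (nat_lit 1557235275056) (nat_lit 1) (nat_lit 4) (nat_lit 2) (nat_lit 5) (nat_lit 2) (nat_lit 4) (nat_lit 320) (nat_lit 252) (nat_lit 208)) (XT.lf (nat_lit 0) (nat_lit 1238817154243) (nat_lit 76) (nat_lit 1787348634725) (nat_lit 76) (nat_lit 1783372542215) (nat_lit 1) (nat_lit 4) (nat_lit 2) (nat_lit 5) (nat_lit 2) (nat_lit 4) (nat_lit 321) (nat_lit 252) (nat_lit 207))) (XT.nd (nat_lit 78) (nat_lit 0) (nat_lit 0) (XT.lf (nat_lit 0) (nat_lit 1439525991567) (nat_lit 76) (nat_lit 2047411627493) (nat_lit 76) (nat_lit 2043434570590) (nat_lit 1) (nat_lit 4) (nat_lit 2) (nat_lit 5) (nat_lit 2) (nat_lit 4) (nat_lit 322) (nat_lit 252) (nat_lit 206)) (XT.lf (nat_lit 0) (nat_lit 1670334440008) (nat_lit 76) (nat_lit 2346487425807) (nat_lit 76) (nat_lit 2342509530302) (nat_lit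 1) (nat_lit 4) (nat_lit 2) (nat_lit 5) (nat_lit 2) (nat_lit 4) (nat_lit 323) (nat_lit 252) (nat_lit 205)))))) (XT.nd (nat_lit 36738) (nat_lit 0) (nat_lit 760) (XT.nd (nat_lit 234) (nat_lit 0) (nat_lit 0) (XT.nd (nat_lit 78) (nat_lit 0) (nat_lit 0) (XT.lf (nat_lit 0) (nat_lit 1935758317034) (nat_lit 76) (nat_lit 2690427512678) (nat_lit 76) (nat_lit 2686448887954) (nat_lit 1) (nat_lit 4) (nat_lit 2) (nat_lit 5) (nat_lit 2) (nat_lit 4) (nat_lit 324) (nat_lit 252) (nat_lit 204)) (XT.nd (nat_lit 78) (nat_lit 0) (nat_lit 0) (XT.lf (nat_lit 0) (nat_lit 2240990698501) (nat_lit 76) (nat_lit 3085961150674) (nat_lit 76) (nat_lit 3081981891846) (nat_lit 1) (nat_lit 4) (nat_lit 2) (nat_lit 5) (nat_lit 2) (nat_lit 4) (nat_lit 325) (nat_lit 252) (nat_lit 203)) (XT.lf (nat_lit 0) (nat_lit 2592003522308) (nat_lit 76) (nat_lit 3540827041410) (nat_lit 76) (nat_lit 3536847231187) (nat_lit 1) (nat_lit 4) (nat_lit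 2) (nat_lit 5) (nat_lit 2) (nat_lit 4) (nat_lit 326) (nat_lit 252) (nat_lit 202)))) (XT.nd (nat_lit 78) (nat_lit 0) (nat_lit 0) (XT.lf (nat_lit 0) (nat_lit 2995664430658) (nat_lit 76) (nat_lit 4063924734920) (nat_lit 76) (nat_lit 4059944445224) (nat_lit 1) (nat_lit 4) (nat_lit 2) (nat_lit 5) (nat_lit 2) (nat_lit 4) (nat_lit 327) (nat_lit 252) (nat_lit 201)) (XT.nd (nat_lit 78) (nat_lit 0) (nat_lit 0) (XT.lf (nat_lit 0) (nat_lit 3459871136977) (nat_lit 76) (nat_lit 4665488751296) (nat_lit 76) (nat_lit 4661508044667) (nat_lit 1) (nat_lit 4) (nat_lit 2) (nat_lit 5) (nat_lit 2) (nat_lit 4) (nat_lit 328) (nat_lit 252) (nat_lit 200)) (XT.lf (nat_lit 0) (nat_lit 3993705946388) (nat_lit 76) (nat_lit 5357288821293) (nat_lit 76) (nat_lit 5353307752112) (nat_lit 1) (nat_lit 4) (nat_lit 2) (nat_lit 5) (nat_lit 2) (nat_lit 4) (nat_lit 329) (nat_lit 252) (nat_lit 199))))) (XT.nd (nat_lit 234) (nat_lit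 456) (nat_lit 0) (XT.nd (nat_lit 78) (nat_lit 380) (nat_lit 0) (XT.lf (nat_lit 0) (nat_lit 5462155664) (nat_lit 152) (nat_lit 243889821) (nat_lit 152) (nat_lit 243889821) (nat_lit 22) (nat_lit 4) (nat_lit 24) (nat_lit 5) (nat_lit 24) (nat_lit 4) (nat_lit 274) (nat_lit 253) (nat_lit 253)) (XT.nd (nat_lit 78) (nat_lit 152) (nat_lit 0) (XT.lf (nat_lit 0) (nat_lit 2972438888) (nat_lit 76) (nat_lit 5426476995) (nat_lit 76) (nat_lit 4478283203) (nat_lit 19) (nat_lit 4) (nat_lit 20) (nat_lit 5) (nat_lit 20) (nat_lit 4) (nat_lit 275) (nat_lit 253) (nat_lit 252)) (XT.lf (nat_lit 0) (nat_lit 4100886020) (nat_lit 152) (nat_lit 7452187630) (nat_lit 0) (nat_lit 2459487749) (nat_lit 17) (nat_lit 5) (nat_lit 19) (nat_lit 4) (nat_lit 17) (nat_lit 4) (nat_lit 276) (nat_lit 253) (nat_lit 251)))) (XT.nd (nat_lit 156) (nat_lit 228) (nat_lit 0) (XT.nd (nat_lit 78) (nat_lit 152) (nat_lit 0) (XT.lf (nat_lit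 0) (nat_lit 9449635077) (nat_lit 76) (nat_lit 4089035472) (nat_lit 76) (nat_lit 1783775413) (nat_lit 16) (nat_lit 4) (nat_lit 17) (nat_lit 5) (nat_lit 17) (nat_lit 4) (nat_lit 277) (nat_lit 253) (nat_lit 250)) (XT.lf (nat_lit 0) (nat_lit 7004883102) (nat_lit 152) (nat_lit 5488294927) (nat_lit 0) (nat_lit 4335872751) (nat_lit 14) (nat_lit 5) (nat_lit 16) (nat_lit 4) (nat_lit 14) (nat_lit 4) (nat_lit 278) (nat_lit 253) (nat_lit 249))) (XT.nd (nat_lit 78) (nat_lit 152) (nat_lit 0) (XT.lf (nat_lit 0) (nat_lit 12004737766) (nat_lit 76) (nat_lit 4849738307) (nat_lit 76) (nat_lit 1715936394) (nat_lit 13) (nat_lit 4) (nat_lit 14) (nat_lit 5) (nat_lit 14) (nat_lit 4) (nat_lit 279) (nat_lit 253) (nat_lit 248)) (XT.lf (nat_lit 0) (nat_lit 7067157290) (nat_lit 152) (nat_lit 9713050974) (nat_lit 0) (nat_lit 3791260541) (nat_lit 11) (nat_lit 5) (nat_lit 13) (nat_lit 4) (nat_lit 11) (nat_lit 4) (nat_lit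 280) (nat_lit 253) (nat_lit 247))))))))
noncomputable def xc15 : XT := (XT.nd (nat_lit 2028) (nat_lit 0) (nat_lit 0) (XT.nd (nat_lit 1014) (nat_lit 76) (nat_lit 0) (XT.nd (nat_lit 468) (nat_lit 228) (nat_lit 0) (XT.nd (nat_lit 234) (nat_lit 228) (nat_lit 0) (XT.nd (nat_lit 78) (nat_lit 152) (nat_lit 0) (XT.lf (nat_lit 0) (nat_lit 7399702995) (nat_lit 76) (nat_lit 9540516182) (nat_lit 76) (nat_lit 5939203510) (nat_lit 10) (nat_lit 4) (nat_lit 11) (nat_lit 5) (nat_lit 11) (nat_lit 4) (nat_lit 281) (nat_lit 253) (nat_lit 246)) (XT.nd (nat_lit 78) (nat_lit 0) (nat_lit 0) (XT.lf (nat_lit 0) (nat_lit 983555463) (nat_lit 76) (nat_lit 1356751508) (nat_lit 152) (nat_lit 23210720022) (nat_lit 8) (nat_lit 5) (nat_lit 9) (nat_lit 5) (nat_lit 10) (nat_lit 4) (nat_lit 282) (nat_lit 253) (nat_lit 245)) (XT.lf (nat_lit 0) (nat_lit 11620372023) (nat_lit 152) (nat_lit 9186019172) (nat_lit 0) (nat_lit 7795979220)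 (nat_lit 8) (nat_lit 5) (nat_lit 10) (nat_lit 4) (nat_lit 8) (nat_lit 4) (nat_lit 283) (nat_lit 253) (nat_lit 244)))) (XT.nd (nat_lit 78) (nat_lit 152) (nat_lit 0) (XT.lf (nat_lit 0) (nat_lit 7919788624) (nat_lit 76) (nat_lit 14117351476) (nat_lit 76) (nat_lit 10094841773) (nat_lit 7) (nat_lit 4) (nat_lit 8) (nat_lit 5) (nat_lit 8) (nat_lit 4) (nat_lit 284) (nat_lit 253) (nat_lit 243)) (XT.nd (nat_lit 78) (nat_lit 152) (nat_lit 0) (XT.lf (nat_lit 0) (nat_lit 27285921881) (nat_lit 76) (nat_lit 6556952894) (nat_lit 76) (nat_lit 2362167627) (nat_lit 7) (nat_lit 4) (nat_lit 8) (nat_lit 5) (nat_lit 8) (nat_lit 4) (nat_lit 285) (nat_lit 253) (nat_lit 242)) (XT.lf (nat_lit 0) (nat_lit 6057680589) (nat_lit 152) (nat_lit 32795688309) (nat_lit 0) (nat_lit 2034911972) (nat_lit 5) (nat_lit 5) (nat_lit 7) (nat_lit 4) (nat_lit 5) (nat_lit 4) (nat_lit 286) (nat_lit 253) (nat_lit 241))))) (XT.nd (nat_lit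 234) (nat_lit 152) (nat_lit 0) (XT.nd (nat_lit 78) (nat_lit 76) (nat_lit 0) (XT.lf (nat_lit 0) (nat_lit 15684904573) (nat_lit 152) (nat_lit 19036017215) (nat_lit 0) (nat_lit 11541520144) (nat_lit 5) (nat_lit 5) (nat_lit 7) (nat_lit 4) (nat_lit 5) (nat_lit 4) (nat_lit 287) (nat_lit 253) (nat_lit 240)) (XT.nd (nat_lit 78) (nat_lit 76) (nat_lit 0) (XT.lf (nat_lit 0) (nat_lit 26436667905) (nat_lit 152) (nat_lit 3843297795) (nat_lit 0) (nat_lit 22188400161) (nat_lit 5) (nat_lit 5) (nat_lit 7) (nat_lit 4) (nat_lit 5) (nat_lit 4) (nat_lit 288) (nat_lit 253) (nat_lit 239)) (XT.lf (nat_lit 0) (nat_lit 13768473620) (nat_lit 76) (nat_lit 25085989670) (nat_lit 76) (nat_lit 20746519044) (nat_lit 4) (nat_lit 4) (nat_lit 5) (nat_lit 5) (nat_lit 5) (nat_lit 4) (nat_lit 289) (nat_lit 253) (nat_lit 238)))) (XT.nd (nat_lit 156) (nat_lit 152) (nat_lit 0) (XT.nd (nat_lit 78) (nat_lit 0) (nat_lit 0) (XT.lf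 (nat_lit 0) (nat_lit 33752575624) (nat_lit 76) (nat_lit 19240547194) (nat_lit 76) (nat_lit 14821769713) (nat_lit 4) (nat_lit 4) (nat_lit 5) (nat_lit 5) (nat_lit 5) (nat_lit 4) (nat_lit 290) (nat_lit 253) (nat_lit 237)) (XT.lf (nat_lit 0) (nat_lit 56297620264) (nat_lit 76) (nat_lit 12734353490) (nat_lit 76) (nat_lit 8246613526) (nat_lit 4) (nat_lit 4) (nat_lit 5) (nat_lit 5) (nat_lit 5) (nat_lit 4) (nat_lit 291) (nat_lit 253) (nat_lit 236))) (XT.nd (nat_lit 78) (nat_lit 152) (nat_lit 0) (XT.lf (nat_lit 0) (nat_lit 81844706240) (nat_lit 76) (nat_lit 5440113464) (nat_lit 76) (nat_lit 892406125) (nat_lit 4) (nat_lit 4) (nat_lit 5) (nat_lit 5) (nat_lit 5) (nat_lit 4) (nat_lit 292) (nat_lit 253) (nat_lit 235)) (XT.lf (nat_lit 0) (nat_lit 7346447293) (nat_lit 152) (nat_lit 90249572796) (nat_lit 0) (nat_lit 3087324253) (nat_lit 2) (nat_lit 5) (nat_lit 4) (nat_lit 4) (nat_lit 2) (nat_lit 4) (nat_lit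 293) (nat_lit 253) (nat_lit 234)))))) (XT.nd (nat_lit 468) (nat_lit 76) (nat_lit 0) (XT.nd (nat_lit 234) (nat_lit 0) (nat_lit 0) (XT.nd (nat_lit 78) (nat_lit 0) (nat_lit 0) (XT.lf (nat_lit 0) (nat_lit 16949375857) (nat_lit 152) (nat_lit 85451425834) (nat_lit 0) (nat_lit 12648267677) (nat_lit 2) (nat_lit 5) (nat_lit 4) (nat_lit 4) (nat_lit 2) (nat_lit 4) (nat_lit 294) (nat_lit 253) (nat_lit 233)) (XT.nd (nat_lit 78) (nat_lit 0) (nat_lit 0) (XT.lf (nat_lit 0) (nat_lit 27853588832) (nat_lit 152) (nat_lit 80211251037) (nat_lit 0) (nat_lit 23515971834) (nat_lit 2) (nat_lit 5) (nat_lit 4) (nat_lit 4) (nat_lit 2) (nat_lit 4) (nat_lit 295) (nat_lit 253) (nat_lit 232)) (XT.lf (nat_lit 0) (nat_lit 40272429514) (nat_lit 152) (nat_lit 74426523245) (nat_lit 0) (nat_lit 35903065719) (nat_lit 2) (nat_lit 5) (nat_lit 4) (nat_lit 4) (nat_lit 2) (nat_lit 4) (nat_lit 296) (nat_lit 253) (nat_lit 231)))) (XT.nd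 (nat_lit 78) (nat_lit 0) (nat_lit 0) (XT.lf (nat_lit 0) (nat_lit 54448875223) (nat_lit 152) (nat_lit 67984063001) (nat_lit 0) (nat_lit 50051905516) (nat_lit 2) (nat_lit 5) (nat_lit 4) (nat_lit 4) (nat_lit 2) (nat_lit 4) (nat_lit 297) (nat_lit 253) (nat_lit 230)) (XT.nd (nat_lit 78) (nat_lit 0) (nat_lit 0) (XT.lf (nat_lit 0) (nat_lit 70660291199) (nat_lit 152) (nat_lit 60757822170) (nat_lit 0) (nat_lit 66239316352) (nat_lit 2) (nat_lit 5) (nat_lit 4) (nat_lit 4) (nat_lit 2) (nat_lit 4) (nat_lit 298) (nat_lit 253) (nat_lit 229)) (XT.lf (nat_lit 0) (nat_lit 89223857321) (nat_lit 152) (nat_lit 52606417780) (nat_lit 0) (nat_lit 84782008439) (nat_lit 2) (nat_lit 5) (nat_lit 4) (nat_lit 4) (nat_lit 2) (nat_lit 4) (nat_lit 299) (nat_lit 253) (nat_lit 228))))) (XT.nd (nat_lit 234) (nat_lit 76) (nat_lit 0) (XT.nd (nat_lit 78) (nat_lit 0) (nat_lit 0) (XT.lf (nat_lit 0) (nat_lit 110502773796) (nat_lit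 152) (nat_lit 43370365832) (nat_lit 0) (nat_lit 106042773579) (nat_lit 2) (nat_lit 5) (nat_lit 4) (nat_lit 4) (nat_lit 2) (nat_lit 4) (nat_lit 300) (nat_lit 253) (nat_lit 227)) (XT.nd (nat_lit 78) (nat_lit 0) (nat_lit 0) (XT.lf (nat_lit 0) (nat_lit 134913367249) (nat_lit 152) (nat_lit 32868960961) (nat_lit 0) (nat_lit 130437583263) (nat_lit 2) (nat_lit 5) (nat_lit 4) (nat_lit 4) (nat_lit 2) (nat_lit 4) (nat_lit 301) (nat_lit 253) (nat_lit 226)) (XT.lf (nat_lit 0) (nat_lit 162933236249) (nat_lit 152) (nat_lit 20896740899) (nat_lit 0) (nat_lit 158443727246) (nat_lit 2) (nat_lit 5) (nat_lit 4) (nat_lit 4) (nat_lit 2) (nat_lit 4) (nat_lit 302) (nat_lit 253) (nat_lit 225)))) (XT.nd (nat_lit 156) (nat_lit 0) (nat_lit 0) (XT.nd (nat_lit 78) (nat_lit 76) (nat_lit 0) (XT.lf (nat_lit 0) (nat_lit 195110595624) (nat_lit 152) (nat_lit 7219466556) (nat_lit 0) (nat_lit 190609151824) (nat_lit 2) (nat_lit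 5) (nat_lit 4) (nat_lit 4) (nat_lit 2) (nat_lit 4) (nat_lit 303) (nat_lit 253) (nat_lit 224)) (XT.lf (nat_lit 0) (nat_lit 8874394043) (nat_lit 76) (nat_lit 223414037752) (nat_lit 76) (nat_lit 218902215868) (nat_lit 1) (nat_lit 4) (nat_lit 2) (nat_lit 5) (nat_lit 2) (nat_lit 4) (nat_lit 304) (nat_lit 253) (nat_lit 223))) (XT.nd (nat_lit 78) (nat_lit 0) (nat_lit 0) (XT.lf (nat_lit 0) (nat_lit 27747266380) (nat_lit 76) (nat_lit 247469729290) (nat_lit 76) (nat_lit 242948882984) (nat_lit 1) (nat_lit 4) (nat_lit 2) (nat_lit 5) (nat_lit 2) (nat_lit 4) (nat_lit 305) (nat_lit 253) (nat_lit 222)) (XT.lf (nat_lit 0) (nat_lit 49388237990) (nat_lit 76) (nat_lit 275165184639) (nat_lit 76) (nat_lit 270636491010) (nat_lit 1) (nat_lit 4) (nat_lit 2) (nat_lit 5) (nat_lit 2) (nat_lit 4) (nat_lit 306) (nat_lit 253) (nat_lit 221))))))) (XT.nd (nat_lit 1014) (nat_lit 0) (nat_lit 0) (XT.nd (nat_lit 468) (nat_lit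 0) (nat_lit 0) (XT.nd (nat_lit 234) (nat_lit 0) (nat_lit 0) (XT.nd (nat_lit 78) (nat_lit 0) (nat_lit 0) (XT.lf (nat_lit 0) (nat_lit 74220719186) (nat_lit 76) (nat_lit 307042271404) (nat_lit 76) (nat_lit 302506754016) (nat_lit 1) (nat_lit 4) (nat_lit 2) (nat_lit 5) (nat_lit 2) (nat_lit 4) (nat_lit 307) (nat_lit 253) (nat_lit 220)) (XT.nd (nat_lit 78) (nat_lit 0) (nat_lit 0) (XT.lf (nat_lit 0) (nat_lit 102730562862) (nat_lit 76) (nat_lit 343724671716) (nat_lit 76) (nat_lit 339183220624) (nat_lit 1) (nat_lit 4) (nat_lit 2) (nat_lit 5) (nat_lit 2) (nat_lit 4) (nat_lit 308) (nat_lit 253) (nat_lit 219)) (XT.lf (nat_lit 0) (nat_lit 135475570306) (nat_lit 76) (nat_lit 385930084713) (nat_lit 76) (nat_lit 381383473879) (nat_lit 1) (nat_lit 4) (nat_lit 2) (nat_lit 5) (nat_lit 2) (nat_lit 4) (nat_lit 309) (nat_lit 253) (nat_lit 218)))) (XT.nd (nat_lit 78) (nat_lit 0) (nat_lit 0) (XT.lf (nat_lit 0)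 (nat_lit 173096404709) (nat_lit 76) (nat_lit 434484268474) (nat_lit 76) (nat_lit 429933170908) (nat_lit 1) (nat_lit 4) (nat_lit 2) (nat_lit 5) (nat_lit 2) (nat_lit 4) (nat_lit 310) (nat_lit 253) (nat_lit 217)) (XT.nd (nat_lit 78) (nat_lit 0) (nat_lit 0) (XT.lf (nat_lit 0) (nat_lit 216329125873) (nat_lit 76) (nat_lit 490337196161) (nat_lit 76) (nat_lit 485782197088) (nat_lit 1) (nat_lit 4) (nat_lit 2) (nat_lit 5) (nat_lit 2) (nat_lit 4) (nat_lit 311) (nat_lit 253) (nat_lit 216)) (XT.lf (nat_lit 0) (nat_lit 266019591386) (nat_lit 76) (nat_lit 554581642445) (nat_lit 76) (nat_lit 550023250758) (nat_lit 1) (nat_lit 4) (nat_lit 2) (nat_lit 5) (nat_lit 2) (nat_lit 4) (nat_lit 312) (nat_lit 253) (nat_lit 215))))) (XT.nd (nat_lit 234) (nat_lit 0) (nat_lit 0) (XT.nd (nat_lit 78) (nat_lit 0) (nat_lit 0) (XT.lf (nat_lit 0) (nat_lit 323140006009) (nat_lit 76) (nat_lit 628474563884) (nat_lit 76) (nat_lit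 623913222098) (nat_lit 1) (nat_lit 4) (nat_lit 2) (nat_lit 5) (nat_lit 2) (nat_lit 4) (nat_lit 313) (nat_lit 253) (nat_lit 214)) (XT.nd (nat_lit 78) (nat_lit 0) (nat_lit 0) (XT.lf (nat_lit 0) (nat_lit 388807943071) (nat_lit 76) (nat_lit 713461691551) (nat_lit 76) (nat_lit 708897784461) (nat_lit 1) (nat_lit 4) (nat_lit 2) (nat_lit 5) (nat_lit 2) (nat_lit 4) (nat_lit 314) (nat_lit 253) (nat_lit 213)) (XT.lf (nat_lit 0) (nat_lit 464308210036) (nat_lit 76) (nat_lit 811205817072) (nat_lit 76) (nat_lit 806639679283) (nat_lit 1) (nat_lit 4) (nat_lit 2) (nat_lit 5) (nat_lit 2) (nat_lit 4) (nat_lit 315) (nat_lit 253) (nat_lit 212)))) (XT.nd (nat_lit 156) (nat_lit 0) (nat_lit 0) (XT.nd (nat_lit 78) (nat_lit 0) (nat_lit 0) (XT.lf (nat_lit 0) (nat_lit 551117986041) (nat_lit 76) (nat_lit 923619325513) (nat_lit 76) (nat_lit 919051247986) (nat_lit 1) (nat_lit 4) (nat_lit 2) (nat_lit 5) (nat_lit 2) (nat_lit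 4) (nat_lit 316) (nat_lit 253) (nat_lit 211)) (XT.lf (nat_lit 0) (nat_lit 650935723225) (nat_lit 76) (nat_lit 1052901611604) (nat_lit 76) (nat_lit 1048331847348) (nat_lit 1) (nat_lit 4) (nat_lit 2) (nat_lit 5) (nat_lit 2) (nat_lit 4) (nat_lit 317) (nat_lit 253) (nat_lit 210))) (XT.nd (nat_lit 78) (nat_lit 0) (nat_lit 0) (XT.lf (nat_lit 0) (nat_lit 765714377315) (nat_lit 76) (nat_lit 1201582111377) (nat_lit 76) (nat_lit 1197010880400) (nat_lit 1) (nat_lit 4) (nat_lit 2) (nat_lit 5) (nat_lit 2) (nat_lit 4) (nat_lit 318) (nat_lit 253) (nat_lit 209)) (XT.lf (nat_lit 0) (nat_lit 897699617631) (nat_lit 76) (nat_lit 1372569791132) (nat_lit 76) (nat_lit 1367997284746) (nat_lit 1) (nat_lit 4) (nat_lit 2) (nat_lit 5) (nat_lit 2) (nat_lit 4) (nat_lit 319) (nat_lit 253) (nat_lit 208)))))) (XT.nd (nat_lit 468) (nat_lit 0) (nat_lit 0) (XT.nd (nat_lit 234) (nat_lit 0) (nat_lit 0) (XT.nd (nat_lit 78)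 (nat_lit 0) (nat_lit 0) (XT.lf (nat_lit 0) (nat_lit 1049473764091) (nat_lit 76) (nat_lit 1569210061995) (nat_lit 76) (nat_lit 1564636446557) (nat_lit 1) (nat_lit 4) (nat_lit 2) (nat_lit 5) (nat_lit 2) (nat_lit 4) (nat_lit 320) (nat_lit 253) (nat_lit 207)) (XT.nd (nat_lit 78) (nat_lit 0) (nat_lit 0) (XT.lf (nat_lit 0) (nat_lit 1224006310866) (nat_lit 76) (nat_lit 1795350233613) (nat_lit 76) (nat_lit 1790775653783) (nat_lit 1) (nat_lit 4) (nat_lit 2) (nat_lit 5) (nat_lit 2) (nat_lit 4) (nat_lit 321) (nat_lit 253) (nat_lit 206)) (XT.lf (nat_lit 0) (nat_lit 1424712025176) (nat_lit 76) (nat_lit 2055414787605) (nat_lit 76) (nat_lit 2050839369172) (nat_lit 1) (nat_lit 4) (nat_lit 2) (nat_lit 5) (nat_lit 2) (nat_lit 4) (nat_lit 322) (nat_lit 253) (nat_lit 205)))) (XT.nd (nat_lit 78) (nat_lit 0) (nat_lit 0) (XT.lf (nat_lit 0) (nat_lit 1655517757951) (nat_lit 76) (nat_lit 2354491943504) (nat_lit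 76) (nat_lit 2349915795852) (nat_lit 1) (nat_lit 4) (nat_lit 2) (nat_lit 5) (nat_lit 2) (nat_lit 4) (nat_lit 323) (nat_lit 253) (nat_lit 204)) (XT.nd (nat_lit 78) (nat_lit 0) (nat_lit 0) (XT.lf (nat_lit 0) (nat_lit 1920939273529) (nat_lit 76) (nat_lit 2698433210885) (nat_lit 76) (nat_lit 2693856429129) (nat_lit 1) (nat_lit 4) (nat_lit 2) (nat_lit 5) (nat_lit 2) (nat_lit 4) (nat_lit 324) (nat_lit 253) (nat_lit 203)) (XT.lf (nat_lit 0) (nat_lit 2226169601564) (nat_lit 76) (nat_lit 3093967875411) (nat_lit 76) (nat_lit 3089390542261) (nat_lit 1) (nat_lit 4) (nat_lit 2) (nat_lit 5) (nat_lit 2) (nat_lit 4) (nat_lit 325) (nat_lit 253) (nat_lit 202))))) (XT.nd (nat_lit 234) (nat_lit 0) (nat_lit 0) (XT.nd (nat_lit 78) (nat_lit 0) (nat_lit 0) (XT.lf (nat_lit 0) (nat_lit 2577180639776) (nat_lit 76) (nat_lit 3548834658782) (nat_lit 76) (nat_lit 3544256846158) (nat_lit 1) (nat_lit 4) (nat_lit 2) (nat_lit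 5) (nat_lit 2) (nat_lit 4) (nat_lit 326) (nat_lit 253) (nat_lit 201)) (XT.nd (nat_lit 78) (nat_lit 0) (nat_lit 0) (XT.lf (nat_lit 0) (nat_lit 2980839995436) (nat_lit 76) (nat_lit 4071933128496) (nat_lit 76) (nat_lit 4067354898939) (nat_lit 1) (nat_lit 4) (nat_lit 2) (nat_lit 5) (nat_lit 2) (nat_lit 4) (nat_lit 327) (nat_lit 253) (nat_lit 200)) (XT.lf (nat_lit 0) (nat_lit 3445045351589) (nat_lit 76) (nat_lit 4673497819832) (nat_lit 76) (nat_lit 4668919227724) (nat_lit 1) (nat_lit 4) (nat_lit 2) (nat_lit 5) (nat_lit 2) (nat_lit 4) (nat_lit 328) (nat_lit 253) (nat_lit 199)))) (XT.nd (nat_lit 36270) (nat_lit 0) (nat_lit 1520) (XT.nd (nat_lit 36192) (nat_lit 0) (nat_lit 1900) (XT.lf (nat_lit 0) (nat_lit 3978878986943) (nat_lit 76) (nat_lit 5365298476751) (nat_lit 76) (nat_lit 5360719569380) (nat_lit 1) (nat_lit 4) (nat_lit 2) (nat_lit 5) (nat_lit 2) (nat_lit 4) (nat_lit 329) (nat_lit 253) (nat_lit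 198)) (XT.lf (nat_lit 0) (nat_lit 696590897) (nat_lit 152) (nat_lit 2221342485) (nat_lit 152) (nat_lit 2221342485) (nat_lit 26) (nat_lit 4) (nat_lit 28) (nat_lit 5) (nat_lit 28) (nat_lit 4) (nat_lit 272) (nat_lit 254) (nat_lit 254))) (XT.nd (nat_lit 78) (nat_lit 228) (nat_lit 0) (XT.lf (nat_lit 0) (nat_lit 3509094550) (nat_lit 152) (nat_lit 5203643015) (nat_lit 0) (nat_lit 2331437860) (nat_lit 24) (nat_lit 5) (nat_lit 26) (nat_lit 4) (nat_lit 24) (nat_lit 4) (nat_lit 273) (nat_lit 254) (nat_lit 253)) (XT.lf (nat_lit 0) (nat_lit 227655426) (nat_lit 228) (nat_lit 1728182697) (nat_lit 76) (nat_lit 9977238124) (nat_lit 21) (nat_lit 5) (nat_lit 24) (nat_lit 5) (nat_lit 22) (nat_lit 4) (nat_lit 274) (nat_lit 254) (nat_lit 252))))))))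
noncomputable def xc16 : XT := (XT.nd (nat_lit 1950) (nat_lit 76) (nat_lit 0) (XT.nd (nat_lit 936) (nat_lit 304) (nat_lit 0) (XT.nd (nat_lit 468) (nat_lit 380) (nat_lit 0) (XT.nd (nat_lit 234) (nat_lit 380) (nat_lit 0) (XT.nd (nat_lit 78) (nat_lit 228) (nat_lit 0) (XT.lf (nat_lit 0) (nat_lit 1392292488) (nat_lit 76) (nat_lit 7209804901) (nat_lit 76) (nat_lit 4346671908) (nat_lit 19) (nat_lit 4) (nat_lit 20) (nat_lit 5) (nat_lit 20) (nat_lit 4) (nat_lit 275) (nat_lit 254) (nat_lit 251)) (XT.nd (nat_lit 78) (nat_lit 76) (nat_lit 0) (XT.lf (nat_lit 0) (nat_lit 3747639847) (nat_lit 152) (nat_lit 9941992739) (nat_lit 0) (nat_lit 432728991) (nat_lit 17) (nat_lit 5) (nat_lit 19) (nat_lit 4) (nat_lit 17) (nat_lit 4) (nat_lit 276) (nat_lit 254) (nat_lit 250)) (XT.lf (nat_lit 0) (nat_lit 6172405763) (nat_lit 76) (nat_lit 6592911666) (nat_lit 76) (nat_lit 2700729690) (nat_lit 16) (nat_lit 4) (nat_lit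 17) (nat_lit 5) (nat_lit 17) (nat_lit 4) (nat_lit 277) (nat_lit 254) (nat_lit 249)))) (XT.nd (nat_lit 78) (nat_lit 228) (nat_lit 0) (XT.lf (nat_lit 0) (nat_lit 5644273444) (nat_lit 152) (nat_lit 9793849974) (nat_lit 0) (nat_lit 1575609682) (nat_lit 14) (nat_lit 5) (nat_lit 16) (nat_lit 4) (nat_lit 14) (nat_lit 4) (nat_lit 278) (nat_lit 254) (nat_lit 248)) (XT.nd (nat_lit 78) (nat_lit 152) (nat_lit 0) (XT.lf (nat_lit 0) (nat_lit 6887931727) (nat_lit 76) (nat_lit 8186828315) (nat_lit 76) (nat_lit 3713997978) (nat_lit 13) (nat_lit 4) (nat_lit 14) (nat_lit 5) (nat_lit 14) (nat_lit 4) (nat_lit 279) (nat_lit 254) (nat_lit 247)) (XT.lf (nat_lit 0) (nat_lit 4653937907) (nat_lit 152) (nat_lit 15994025498) (nat_lit 0) (nat_lit 187012413) (nat_lit 11) (nat_lit 5) (nat_lit 13) (nat_lit 4) (nat_lit 11) (nat_lit 4) (nat_lit 280) (nat_lit 254) (nat_lit 246))))) (XT.nd (nat_lit 234) (nat_lit 152) (nat_lit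 0) (XT.nd (nat_lit 78) (nat_lit 152) (nat_lit 0) (XT.lf (nat_lit 0) (nat_lit 268472718) (nat_lit 76) (nat_lit 13829389103) (nat_lit 76) (nat_lit 9079493241) (nat_lit 10) (nat_lit 4) (nat_lit 11) (nat_lit 5) (nat_lit 11) (nat_lit 4) (nat_lit 281) (nat_lit 254) (nat_lit 245)) (XT.nd (nat_lit 78) (nat_lit 152) (nat_lit 0) (XT.lf (nat_lit 0) (nat_lit 18967636008) (nat_lit 76) (nat_lit 5951369060) (nat_lit 76) (nat_lit 955412009) (nat_lit 10) (nat_lit 4) (nat_lit 11) (nat_lit 5) (nat_lit 11) (nat_lit 4) (nat_lit 282) (nat_lit 254) (nat_lit 244)) (XT.lf (nat_lit 0) (nat_lit 7857757311) (nat_lit 152) (nat_lit 18077328333) (nat_lit 0) (nat_lit 3033754253) (nat_lit 8) (nat_lit 5) (nat_lit 10) (nat_lit 4) (nat_lit 8) (nat_lit 4) (nat_lit 283) (nat_lit 254) (nat_lit 243)))) (XT.nd (nat_lit 78) (nat_lit 152) (nat_lit 0) (XT.lf (nat_lit 0) (nat_lit 17888583206) (nat_lit 152) (nat_lit 1748496365) (nat_lit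 0) (nat_lit 12892304584) (nat_lit 8) (nat_lit 5) (nat_lit 10) (nat_lit 4) (nat_lit 8) (nat_lit 4) (nat_lit 284) (nat_lit 254) (nat_lit 242)) (XT.nd (nat_lit 78) (nat_lit 76) (nat_lit 0) (XT.lf (nat_lit 0) (nat_lit 17177000724) (nat_lit 76) (nat_lit 12294693619) (nat_lit 76) (nat_lit 7148610158) (nat_lit 7) (nat_lit 4) (nat_lit 8) (nat_lit 5) (nat_lit 8) (nat_lit 4) (nat_lit 285) (nat_lit 254) (nat_lit 241)) (XT.lf (nat_lit 0) (nat_lit 1104029992) (nat_lit 152) (nat_lit 2979966153) (nat_lit 76) (nat_lit 37261327779) (nat_lit 6) (nat_lit 5) (nat_lit 8) (nat_lit 5) (nat_lit 7) (nat_lit 4) (nat_lit 286) (nat_lit 254) (nat_lit 240)))))) (XT.nd (nat_lit 468) (nat_lit 152) (nat_lit 0) (XT.nd (nat_lit 234) (nat_lit 0) (nat_lit 0) (XT.nd (nat_lit 78) (nat_lit 76) (nat_lit 0) (XT.lf (nat_lit 0) (nat_lit 10407006820) (nat_lit 152) (nat_lit 30921837301) (nat_lit 0) (nat_lit 5416615599) (nat_lit 5)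 (nat_lit 5) (nat_lit 7) (nat_lit 4) (nat_lit 5) (nat_lit 4) (nat_lit 287) (nat_lit 254) (nat_lit 239)) (XT.nd (nat_lit 78) (nat_lit 76) (nat_lit 0) (XT.lf (nat_lit 0) (nat_lit 21029530818) (nat_lit 152) (nat_lit 15984285662) (nat_lit 0) (nat_lit 15947936715) (nat_lit 5) (nat_lit 5) (nat_lit 7) (nat_lit 4) (nat_lit 5) (nat_lit 4) (nat_lit 288) (nat_lit 254) (nat_lit 238)) (XT.lf (nat_lit 0) (nat_lit 754593748) (nat_lit 76) (nat_lit 32267366304) (nat_lit 76) (nat_lit 27106465346) (nat_lit 4) (nat_lit 4) (nat_lit 5) (nat_lit 5) (nat_lit 5) (nat_lit 4) (nat_lit 289) (nat_lit 254) (nat_lit 237)))) (XT.nd (nat_lit 78) (nat_lit 0) (nat_lit 0) (XT.lf (nat_lit 0) (nat_lit 20535592187) (nat_lit 76) (nat_lit 26522419243) (nat_lit 76) (nat_lit 21292555803) (nat_lit 4) (nat_lit 4) (nat_lit 5) (nat_lit 5) (nat_lit 5) (nat_lit 4) (nat_lit 290) (nat_lit 254) (nat_lit 236)) (XT.nd (nat_lit 78) (nat_lit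 0) (nat_lit 0) (XT.lf (nat_lit 0) (nat_lit 42904025032) (nat_lit 76) (nat_lit 20103612857) (nat_lit 76) (nat_lit 14813782041) (nat_lit 4) (nat_lit 4) (nat_lit 5) (nat_lit 5) (nat_lit 5) (nat_lit 4) (nat_lit 291) (nat_lit 254) (nat_lit 235)) (XT.lf (nat_lit 0) (nat_lit 68297535533) (nat_lit 76) (nat_lit 12885361804) (nat_lit 76) (nat_lit 7543385444) (nat_lit 4) (nat_lit 4) (nat_lit 5) (nat_lit 5) (nat_lit 5) (nat_lit 4) (nat_lit 292) (nat_lit 254) (nat_lit 234))))) (XT.nd (nat_lit 234) (nat_lit 0) (nat_lit 0) (XT.nd (nat_lit 78) (nat_lit 76) (nat_lit 0) (XT.lf (nat_lit 0) (nat_lit 627820940) (nat_lit 152) (nat_lit 4081452755) (nat_lit 76) (nat_lit 96567966568) (nat_lit 3) (nat_lit 5) (nat_lit 5) (nat_lit 5) (nat_lit 4) (nat_lit 4) (nat_lit 293) (nat_lit 254) (nat_lit 233)) (XT.nd (nat_lit 78) (nat_lit 0) (nat_lit 0) (XT.lf (nat_lit 0) (nat_lit 9946756401) (nat_lit 152) (nat_lit 100796952469)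 (nat_lit 0) (nat_lit 4921988036) (nat_lit 2) (nat_lit 5) (nat_lit 4) (nat_lit 4) (nat_lit 2) (nat_lit 4) (nat_lit 294) (nat_lit 254) (nat_lit 232)) (XT.lf (nat_lit 0) (nat_lit 20794688335) (nat_lit 152) (nat_lit 95669090799) (nat_lit 0) (nat_lit 15738173172) (nat_lit 2) (nat_lit 5) (nat_lit 4) (nat_lit 4) (nat_lit 2) (nat_lit 4) (nat_lit 295) (nat_lit 254) (nat_lit 231)))) (XT.nd (nat_lit 156) (nat_lit 0) (nat_lit 0) (XT.nd (nat_lit 78) (nat_lit 0) (nat_lit 0) (XT.lf (nat_lit 0) (nat_lit 33164588982) (nat_lit 152) (nat_lit 89982026596) (nat_lit 0) (nat_lit 28080467908) (nat_lit 2) (nat_lit 5) (nat_lit 4) (nat_lit 4) (nat_lit 2) (nat_lit 4) (nat_lit 296) (nat_lit 254) (nat_lit 230)) (XT.lf (nat_lit 0) (nat_lit 47298478138) (nat_lit 152) (nat_lit 83624491213) (nat_lit 0) (nat_lit 42190351924) (nat_lit 2) (nat_lit 5) (nat_lit 4) (nat_lit 4) (nat_lit 2) (nat_lit 4) (nat_lit 297) (nat_lit 254)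 (nat_lit 229))) (XT.nd (nat_lit 78) (nat_lit 0) (nat_lit 0) (XT.lf (nat_lit 0) (nat_lit 63472888416) (nat_lit 152) (nat_lit 76472098087) (nat_lit 0) (nat_lit 58343888167) (nat_lit 2) (nat_lit 5) (nat_lit 4) (nat_lit 4) (nat_lit 2) (nat_lit 4) (nat_lit 298) (nat_lit 254) (nat_lit 228)) (XT.lf (nat_lit 0) (nat_lit 82004275670) (nat_lit 152) (nat_lit 68384909093) (nat_lit 0) (nat_lit 76857124086) (nat_lit 2) (nat_lit 5) (nat_lit 4) (nat_lit 4) (nat_lit 2) (nat_lit 4) (nat_lit 299) (nat_lit 254) (nat_lit 227))))))) (XT.nd (nat_lit 1014) (nat_lit 0) (nat_lit 0) (XT.nd (nat_lit 468) (nat_lit 0) (nat_lit 0) (XT.nd (nat_lit 234) (nat_lit 76) (nat_lit 0) (XT.nd (nat_lit 78) (nat_lit 0) (nat_lit 0) (XT.lf (nat_lit 0) (nat_lit 103255210521) (nat_lit 152) (nat_lit 59204696619) (nat_lit 0) (nat_lit 98092275167) (nat_lit 2) (nat_lit 5) (nat_lit 4) (nat_lit 4) (nat_lit 2) (nat_lit 4) (nat_lit 300) (nat_lit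 254) (nat_lit 226)) (XT.nd (nat_lit 78) (nat_lit 0) (nat_lit 0) (XT.lf (nat_lit 0) (nat_lit 127641472127) (nat_lit 152) (nat_lit 48751847812) (nat_lit 0) (nat_lit 122464811757) (nat_lit 2) (nat_lit 5) (nat_lit 4) (nat_lit 4) (nat_lit 2) (nat_lit 4) (nat_lit 301) (nat_lit 254) (nat_lit 225)) (XT.lf (nat_lit 0) (nat_lit 155640182999) (nat_lit 152) (nat_lit 36821850414) (nat_lit 0) (nat_lit 150451587832) (nat_lit 2) (nat_lit 5) (nat_lit 4) (nat_lit 4) (nat_lit 2) (nat_lit 4) (nat_lit 302) (nat_lit 254) (nat_lit 224)))) (XT.nd (nat_lit 78) (nat_lit 76) (nat_lit 0) (XT.lf (nat_lit 0) (nat_lit 187799144002) (nat_lit 152) (nat_lit 23181291433) (nat_lit 0) (nat_lit 182600170750) (nat_lit 2) (nat_lit 5) (nat_lit 4) (nat_lit 4) (nat_lit 2) (nat_lit 4) (nat_lit 303) (nat_lit 254) (nat_lit 223)) (XT.nd (nat_lit 78) (nat_lit 76) (nat_lit 0) (XT.lf (nat_lit 0) (nat_lit 224747552199) (nat_lit 152) (nat_lit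 7563290365) (nat_lit 0) (nat_lit 219539554525) (nat_lit 2) (nat_lit 5) (nat_lit 4) (nat_lit 4) (nat_lit 2) (nat_lit 4) (nat_lit 304) (nat_lit 254) (nat_lit 222)) (XT.lf (nat_lit 0) (nat_lit 10882088514) (nat_lit 76) (nat_lit 256587937203) (nat_lit 76) (nat_lit 251372092207) (nat_lit 1) (nat_lit 4) (nat_lit 2) (nat_lit 5) (nat_lit 2) (nat_lit 4) (nat_lit 305) (nat_lit 254) (nat_lit 221))))) (XT.nd (nat_lit 234) (nat_lit 0) (nat_lit 0) (XT.nd (nat_lit 78) (nat_lit 0) (nat_lit 0) (XT.lf (nat_lit 0) (nat_lit 32497647959) (nat_lit 76) (nat_lit 284296096326) (nat_lit 76) (nat_lit 279073427571) (nat_lit 1) (nat_lit 4) (nat_lit 2) (nat_lit 5) (nat_lit 2) (nat_lit 4) (nat_lit 306) (nat_lit 254) (nat_lit 220)) (XT.nd (nat_lit 78) (nat_lit 0) (nat_lit 0) (XT.lf (nat_lit 0) (nat_lit 57308031620) (nat_lit 76) (nat_lit 316184229850) (nat_lit 76) (nat_lit 310955627391) (nat_lit 1) (nat_lit 4) (nat_lit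 2) (nat_lit 5) (nat_lit 2) (nat_lit 4) (nat_lit 307) (nat_lit 254) (nat_lit 219)) (XT.lf (nat_lit 0) (nat_lit 85798660048) (nat_lit 76) (nat_lit 352876236040) (nat_lit 76) (nat_lit 347642473839) (nat_lit 1) (nat_lit 4) (nat_lit 2) (nat_lit 5) (nat_lit 2) (nat_lit 4) (nat_lit 308) (nat_lit 254) (nat_lit 218)))) (XT.nd (nat_lit 156) (nat_lit 0) (nat_lit 0) (XT.nd (nat_lit 78) (nat_lit 0) (nat_lit 0) (XT.lf (nat_lit 0) (nat_lit 118526958582) (nat_lit 76) (nat_lit 395090001974) (nat_lit 76) (nat_lit 389851753041) (nat_lit 1) (nat_lit 4) (nat_lit 2) (nat_lit 5) (nat_lit 2) (nat_lit 4) (nat_lit 309) (nat_lit 254) (nat_lit 217)) (XT.lf (nat_lit 0) (nat_lit 156133263496) (nat_lit 76) (nat_lit 443651449159) (nat_lit 76) (nat_lit 438409298720) (nat_lit 1) (nat_lit 4) (nat_lit 2) (nat_lit 5) (nat_lit 2) (nat_lit 4) (nat_lit 310) (nat_lit 254) (nat_lit 216))) (XT.nd (nat_lit 78) (nat_lit 0) (nat_lit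 0) (XT.lf (nat_lit 0) (nat_lit 199353350323) (nat_lit 76) (nat_lit 499510692867) (nat_lit 76) (nat_lit 494265149813) (nat_lit 1) (nat_lit 4) (nat_lit 2) (nat_lit 5) (nat_lit 2) (nat_lit 4) (nat_lit 311) (nat_lit 254) (nat_lit 215)) (XT.lf (nat_lit 0) (nat_lit 249032829456) (nat_lit 76) (nat_lit 563760631343) (nat_lit 76) (nat_lit 558512138190) (nat_lit 1) (nat_lit 4) (nat_lit 2) (nat_lit 5) (nat_lit 2) (nat_lit 4) (nat_lit 312) (nat_lit 254) (nat_lit 214)))))) (XT.nd (nat_lit 468) (nat_lit 0) (nat_lit 0) (XT.nd (nat_lit 234) (nat_lit 0) (nat_lit 0) (XT.nd (nat_lit 78) (nat_lit 0) (nat_lit 0) (XT.lf (nat_lit 0) (nat_lit 306143690705) (nat_lit 76) (nat_lit 637658328601) (nat_lit 76) (nat_lit 632407270144) (nat_lit 1) (nat_lit 4) (nat_lit 2) (nat_lit 5) (nat_lit 2) (nat_lit 4) (nat_lit 313) (nat_lit 254) (nat_lit 213)) (XT.nd (nat_lit 78) (nat_lit 0) (nat_lit 0) (XT.lf (nat_lit 0) (nat_lit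 371803320485) (nat_lit 76) (nat_lit 722649609154) (nat_lit 76) (nat_lit 717396319998) (nat_lit 1) (nat_lit 4) (nat_lit 2) (nat_lit 5) (nat_lit 2) (nat_lit 4) (nat_lit 314) (nat_lit 254) (nat_lit 212)) (XT.lf (nat_lit 0) (nat_lit 447296363727) (nat_lit 76) (nat_lit 820397345880) (nat_lit 76) (nat_lit 815142116986) (nat_lit 1) (nat_lit 4) (nat_lit 2) (nat_lit 5) (nat_lit 2) (nat_lit 4) (nat_lit 315) (nat_lit 254) (nat_lit 211)))) (XT.nd (nat_lit 78) (nat_lit 0) (nat_lit 0) (XT.lf (nat_lit 0) (nat_lit 534099858234) (nat_lit 76) (nat_lit 932813994500) (nat_lit 76) (nat_lit 927557078877) (nat_lit 1) (nat_lit 4) (nat_lit 2) (nat_lit 5) (nat_lit 2) (nat_lit 4) (nat_lit 316) (nat_lit 254) (nat_lit 210)) (XT.nd (nat_lit 78) (nat_lit 0) (nat_lit 0) (XT.lf (nat_lit 0) (nat_lit 633912133245) (nat_lit 76) (nat_lit 1062099011180) (nat_lit 76) (nat_lit 1056840628837) (nat_lit 1) (nat_lit 4) (nat_lit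 2) (nat_lit 5) (nat_lit 2) (nat_lit 4) (nat_lit 317) (nat_lit 254) (nat_lit 209)) (XT.lf (nat_lit 0) (nat_lit 748686037620) (nat_lit 76) (nat_lit 1210781885380) (nat_lit 76) (nat_lit 1205522227627) (nat_lit 1) (nat_lit 4) (nat_lit 2) (nat_lit 5) (nat_lit 2) (nat_lit 4) (nat_lit 318) (nat_lit 254) (nat_lit 208))))) (XT.nd (nat_lit 234) (nat_lit 0) (nat_lit 0) (XT.nd (nat_lit 78) (nat_lit 0) (nat_lit 0) (XT.lf (nat_lit 0) (nat_lit 880667147748) (nat_lit 76) (nat_lit 1381771629853) (nat_lit 76) (nat_lit 1376510863048) (nat_lit 1) (nat_lit 4) (nat_lit 2) (nat_lit 5) (nat_lit 2) (nat_lit 4) (nat_lit 319) (nat_lit 254) (nat_lit 207)) (XT.nd (nat_lit 78) (nat_lit 0) (nat_lit 0) (XT.lf (nat_lit 0) (nat_lit 1032437702741) (nat_lit 76) (nat_lit 1578413696123) (nat_lit 76) (nat_lit 1573151964926) (nat_lit 1) (nat_lit 4) (nat_lit 2) (nat_lit 5) (nat_lit 2) (nat_lit 4) (nat_lit 320) (nat_lit 254) (nat_lit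 206)) (XT.lf (nat_lit 0) (nat_lit 1206967126501) (nat_lit 76) (nat_lit 1804555428965) (nat_lit 76) (nat_lit 1799292859165) (nat_lit 1) (nat_lit 4) (nat_lit 2) (nat_lit 5) (nat_lit 2) (nat_lit 4) (nat_lit 321) (nat_lit 254) (nat_lit 205)))) (XT.nd (nat_lit 156) (nat_lit 0) (nat_lit 0) (XT.nd (nat_lit 78) (nat_lit 0) (nat_lit 0) (XT.lf (nat_lit 0) (nat_lit 1407670125145) (nat_lit 76) (nat_lit 2064621340543) (nat_lit 76) (nat_lit 2059358041523) (nat_lit 1) (nat_lit 4) (nat_lit 2) (nat_lit 5) (nat_lit 2) (nat_lit 4) (nat_lit 322) (nat_lit 254) (nat_lit 204)) (XT.lf (nat_lit 0) (nat_lit 1638473496473) (nat_lit 76) (nat_lit 2363699676952) (nat_lit 76) (nat_lit 2358435743829) (nat_lit 1) (nat_lit 4) (nat_lit 2) (nat_lit 5) (nat_lit 2) (nat_lit 4) (nat_lit 323) (nat_lit 254) (nat_lit 203))) (XT.nd (nat_lit 78) (nat_lit 0) (nat_lit 0) (XT.lf (nat_lit 0) (nat_lit 1903892958618) (nat_lit 76) (nat_lit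 2707641970862) (nat_lit 76) (nat_lit 2702377486345) (nat_lit 1) (nat_lit 4) (nat_lit 2) (nat_lit 5) (nat_lit 2) (nat_lit 4) (nat_lit 324) (nat_lit 254) (nat_lit 202)) (XT.lf (nat_lit 0) (nat_lit 2209121501058) (nat_lit 76) (nat_lit 3103177528024) (nat_lit 76) (nat_lit 3097912564032) (nat_lit 1) (nat_lit 4) (nat_lit 2) (nat_lit 5) (nat_lit 2) (nat_lit 4) (nat_lit 325) (nat_lit 254) (nat_lit 201))))))))
noncomputable def xc17 : XT := (XT.nd (nat_lit 37986) (nat_lit 0) (nat_lit 0) (XT.nd (nat_lit 36972) (nat_lit 0) (nat_lit 228) (XT.nd (nat_lit 36426) (nat_lit 0) (nat_lit 988) (XT.nd (nat_lit 234) (nat_lit 0) (nat_lit 0) (XT.nd (nat_lit 78) (nat_lit 0) (nat_lit 0) (XT.lf (nat_lit 0) (nat_lit 2560130986580) (nat_lit 76) (nat_lit 3558045087598) (nat_lit 76) (nat_lit 3552779706673) (nat_lit 1) (nat_lit 4) (nat_lit 2) (nat_lit 5) (nat_lit 2) (nat_lit 4) (nat_lit 326) (nat_lit 254) (nat_lit 200))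 (XT.nd (nat_lit 78) (nat_lit 0) (nat_lit 0) (XT.lf (nat_lit 0) (nat_lit 2963788992075) (nat_lit 76) (nat_lit 4081144232273) (nat_lit 76) (nat_lit 4075878488797) (nat_lit 1) (nat_lit 4) (nat_lit 2) (nat_lit 5) (nat_lit 2) (nat_lit 4) (nat_lit 327) (nat_lit 254) (nat_lit 199)) (XT.lf (nat_lit 0) (nat_lit 3427993174171) (nat_lit 76) (nat_lit 4682709510531) (nat_lit 76) (nat_lit 4677443451793) (nat_lit 1) (nat_lit 4) (nat_lit 2) (nat_lit 5) (nat_lit 2) (nat_lit 4) (nat_lit 328) (nat_lit 254) (nat_lit 198)))) (XT.nd (nat_lit 36036) (nat_lit 0) (nat_lit 2280) (XT.lf (nat_lit 0) (nat_lit 3961825788606) (nat_lit 76) (nat_lit 5374510677816) (nat_lit 76) (nat_lit 5369244344938) (nat_lit 1) (nat_lit 4) (nat_lit 2) (nat_lit 5) (nat_lit 2) (nat_lit 4) (nat_lit 329) (nat_lit 254) (nat_lit 197)) (XT.nd (nat_lit 78) (nat_lit 152) (nat_lit 0) (XT.lf (nat_lit 0) (nat_lit 639941289) (nat_lit 228) (nat_lit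 3231592889) (nat_lit 0) (nat_lit 639941289) (nat_lit 33) (nat_lit 5) (nat_lit 36) (nat_lit 4) (nat_lit 33) (nat_lit 4) (nat_lit 270) (nat_lit 255) (nat_lit 255)) (XT.lf (nat_lit 0) (nat_lit 6732576377) (nat_lit 152) (nat_lit 2233513854) (nat_lit 152) (nat_lit 653852277) (nat_lit 31) (nat_lit 4) (nat_lit 33) (nat_lit 5) (nat_lit 33) (nat_lit 4) (nat_lit 271) (nat_lit 255) (nat_lit 254))))) (XT.nd (nat_lit 234) (nat_lit 532) (nat_lit 0) (XT.nd (nat_lit 78) (nat_lit 380) (nat_lit 0) (XT.lf (nat_lit 0) (nat_lit 704205940) (nat_lit 152) (nat_lit 6171554529) (nat_lit 152) (nat_lit 3437035696) (nat_lit 26) (nat_lit 4) (nat_lit 28) (nat_lit 5) (nat_lit 28) (nat_lit 4) (nat_lit 272) (nat_lit 255) (nat_lit 253)) (XT.nd (nat_lit 78) (nat_lit 228) (nat_lit 0) (XT.lf (nat_lit 0) (nat_lit 4004658212) (nat_lit 152) (nat_lit 6660303403) (nat_lit 0) (nat_lit 448647034) (nat_lit 24) (nat_lit 5) (nat_lit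 26) (nat_lit 4) (nat_lit 24) (nat_lit 4) (nat_lit 273) (nat_lit 255) (nat_lit 252)) (XT.lf (nat_lit 0) (nat_lit 222710996) (nat_lit 228) (nat_lit 3983249951) (nat_lit 76) (nat_lit 7828784134) (nat_lit 21) (nat_lit 5) (nat_lit 24) (nat_lit 5) (nat_lit 22) (nat_lit 4) (nat_lit 274) (nat_lit 255) (nat_lit 251)))) (XT.nd (nat_lit 156) (nat_lit 228) (nat_lit 0) (XT.nd (nat_lit 78) (nat_lit 228) (nat_lit 0) (XT.lf (nat_lit 0) (nat_lit 8107505880) (nat_lit 152) (nat_lit 1708927144) (nat_lit 0) (nat_lit 3273415865) (nat_lit 20) (nat_lit 5) (nat_lit 22) (nat_lit 4) (nat_lit 20) (nat_lit 4) (nat_lit 275) (nat_lit 255) (nat_lit 250)) (XT.lf (nat_lit 0) (nat_lit 95119942) (nat_lit 76) (nat_lit 2574429464) (nat_lit 152) (nat_lit 11633244673) (nat_lit 17) (nat_lit 5) (nat_lit 18) (nat_lit 5) (nat_lit 19) (nat_lit 4) (nat_lit 276) (nat_lit 255) (nat_lit 249))) (XT.nd (nat_lit 78) (nat_lit 152) (nat_lit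 0) (XT.lf (nat_lit 0) (nat_lit 1176567457) (nat_lit 76) (nat_lit 10031820929) (nat_lit 76) (nat_lit 4476565650) (nat_lit 16) (nat_lit 4) (nat_lit 17) (nat_lit 5) (nat_lit 17) (nat_lit 4) (nat_lit 277) (nat_lit 255) (nat_lit 248)) (XT.lf (nat_lit 0) (nat_lit 1280670496) (nat_lit 76) (nat_lit 2215688002) (nat_lit 152) (nat_lit 13776706032) (nat_lit 14) (nat_lit 5) (nat_lit 15) (nat_lit 5) (nat_lit 16) (nat_lit 4) (nat_lit 278) (nat_lit 255) (nat_lit 247)))))) (XT.nd (nat_lit 468) (nat_lit 304) (nat_lit 0) (XT.nd (nat_lit 234) (nat_lit 228) (nat_lit 0) (XT.nd (nat_lit 78) (nat_lit 228) (nat_lit 0) (XT.lf (nat_lit 0) (nat_lit 12450470593) (nat_lit 152) (nat_lit 84746033) (nat_lit 0) (nat_lit 6551099933) (nat_lit 14) (nat_lit 5) (nat_lit 16) (nat_lit 4) (nat_lit 14) (nat_lit 4) (nat_lit 279) (nat_lit 255) (nat_lit 246)) (XT.nd (nat_lit 78) (nat_lit 76) (nat_lit 0) (XT.lf (nat_lit 0) (nat_lit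 1514097775) (nat_lit 152) (nat_lit 3055655284) (nat_lit 76) (nat_lit 16597629649) (nat_lit 12) (nat_lit 5) (nat_lit 14) (nat_lit 5) (nat_lit 13) (nat_lit 4) (nat_lit 280) (nat_lit 255) (nat_lit 245)) (XT.lf (nat_lit 0) (nat_lit 10538266996) (nat_lit 152) (nat_lit 8458302152) (nat_lit 0) (nat_lit 4546855199) (nat_lit 11) (nat_lit 5) (nat_lit 13) (nat_lit 4) (nat_lit 11) (nat_lit 4) (nat_lit 281) (nat_lit 255) (nat_lit 244)))) (XT.nd (nat_lit 78) (nat_lit 152) (nat_lit 0) (XT.lf (nat_lit 0) (nat_lit 9402637160) (nat_lit 76) (nat_lit 11538384817) (nat_lit 76) (nat_lit 5333006768) (nat_lit 10) (nat_lit 4) (nat_lit 11) (nat_lit 5) (nat_lit 11) (nat_lit 4) (nat_lit 282) (nat_lit 255) (nat_lit 243)) (XT.nd (nat_lit 78) (nat_lit 0) (nat_lit 0) (XT.lf (nat_lit 0) (nat_lit 226216926) (nat_lit 76) (nat_lit 2955346816) (nat_lit 152) (nat_lit 26236774456) (nat_lit 8) (nat_lit 5) (nat_lit 9) (nat_lit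 5) (nat_lit 10) (nat_lit 4) (nat_lit 283) (nat_lit 255) (nat_lit 242)) (XT.lf (nat_lit 0) (nat_lit 12971338628) (nat_lit 152) (nat_lit 13123340033) (nat_lit 0) (nat_lit 6903537809) (nat_lit 8) (nat_lit 5) (nat_lit 10) (nat_lit 4) (nat_lit 8) (nat_lit 4) (nat_lit 284) (nat_lit 255) (nat_lit 241))))) (XT.nd (nat_lit 234) (nat_lit 76) (nat_lit 0) (XT.nd (nat_lit 78) (nat_lit 152) (nat_lit 0) (XT.lf (nat_lit 0) (nat_lit 4900079296) (nat_lit 76) (nat_lit 19211305998) (nat_lit 76) (nat_lit 13013240102) (nat_lit 7) (nat_lit 4) (nat_lit 8) (nat_lit 5) (nat_lit 8) (nat_lit 4) (nat_lit 285) (nat_lit 255) (nat_lit 240)) (XT.nd (nat_lit 78) (nat_lit 152) (nat_lit 0) (XT.lf (nat_lit 0) (nat_lit 25855058436) (nat_lit 76) (nat_lit 11159494579) (nat_lit 76) (nat_lit 4848154702) (nat_lit 7) (nat_lit 4) (nat_lit 8) (nat_lit 5) (nat_lit 8) (nat_lit 4) (nat_lit 286) (nat_lit 255) (nat_lit 239)) (XT.lf (nat_lit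 0) (nat_lit 2132804729) (nat_lit 76) (nat_lit 1974235520) (nat_lit 152) (nat_lit 43212386022) (nat_lit 5) (nat_lit 5) (nat_lit 6) (nat_lit 5) (nat_lit 7) (nat_lit 4) (nat_lit 287) (nat_lit 255) (nat_lit 238)))) (XT.nd (nat_lit 156) (nat_lit 76) (nat_lit 0) (XT.nd (nat_lit 78) (nat_lit 0) (nat_lit 0) (XT.lf (nat_lit 0) (nat_lit 14569701807) (nat_lit 152) (nat_lit 30423474518) (nat_lit 0) (nat_lit 8555358851) (nat_lit 5) (nat_lit 5) (nat_lit 7) (nat_lit 4) (nat_lit 5) (nat_lit 4) (nat_lit 288) (nat_lit 255) (nat_lit 237)) (XT.lf (nat_lit 0) (nat_lit 26446259540) (nat_lit 152) (nat_lit 13915286444) (nat_lit 0) (nat_lit 20362954102) (nat_lit 5) (nat_lit 5) (nat_lit 7) (nat_lit 4) (nat_lit 5) (nat_lit 4) (nat_lit 289) (nat_lit 255) (nat_lit 236))) (XT.nd (nat_lit 78) (nat_lit 0) (nat_lit 0) (XT.lf (nat_lit 0) (nat_lit 4956345874) (nat_lit 76) (nat_lit 35084454834) (nat_lit 76) (nat_lit 28941182020)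 (nat_lit 4) (nat_lit 4) (nat_lit 5) (nat_lit 5) (nat_lit 5) (nat_lit 4) (nat_lit 290) (nat_lit 255) (nat_lit 235)) (XT.lf (nat_lit 0) (nat_lit 27171203245) (nat_lit 76) (nat_lit 28741637420) (nat_lit 76) (nat_lit 22546219062) (nat_lit 4) (nat_lit 4) (nat_lit 5) (nat_lit 5) (nat_lit 5) (nat_lit 4) (nat_lit 291) (nat_lit 255) (nat_lit 234))))))) (XT.nd (nat_lit 1014) (nat_lit 76) (nat_lit 0) (XT.nd (nat_lit 468) (nat_lit 0) (nat_lit 0) (XT.nd (nat_lit 234) (nat_lit 76) (nat_lit 0) (XT.nd (nat_lit 78) (nat_lit 76) (nat_lit 0) (XT.lf (nat_lit 0) (nat_lit 52431169856) (nat_lit 76) (nat_lit 21589463734) (nat_lit 76) (nat_lit 15348701425) (nat_lit 4) (nat_lit 4) (nat_lit 5) (nat_lit 5) (nat_lit 5) (nat_lit 4) (nat_lit 292) (nat_lit 255) (nat_lit 233)) (XT.nd (nat_lit 78) (nat_lit 76) (nat_lit 0) (XT.lf (nat_lit 0) (nat_lit 81230462445) (nat_lit 76) (nat_lit 13487999943) (nat_lit 76) (nat_lit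 7207808110) (nat_lit 4) (nat_lit 4) (nat_lit 5) (nat_lit 5) (nat_lit 5) (nat_lit 4) (nat_lit 293) (nat_lit 255) (nat_lit 232)) (XT.lf (nat_lit 0) (nat_lit 1933903307) (nat_lit 152) (nat_lit 2291959495) (nat_lit 76) (nat_lit 112145765783) (nat_lit 3) (nat_lit 5) (nat_lit 5) (nat_lit 5) (nat_lit 4) (nat_lit 4) (nat_lit 294) (nat_lit 255) (nat_lit 231)))) (XT.nd (nat_lit 78) (nat_lit 0) (nat_lit 0) (XT.lf (nat_lit 0) (nat_lit 12571731687) (nat_lit 152) (nat_lit 113655583243) (nat_lit 0) (nat_lit 6697386541) (nat_lit 2) (nat_lit 5) (nat_lit 4) (nat_lit 4) (nat_lit 2) (nat_lit 4) (nat_lit 295) (nat_lit 255) (nat_lit 230)) (XT.nd (nat_lit 78) (nat_lit 0) (nat_lit 0) (XT.lf (nat_lit 0) (nat_lit 24899075782) (nat_lit 152) (nat_lit 108053443900) (nat_lit 0) (nat_lit 19000725495) (nat_lit 2) (nat_lit 5) (nat_lit 4) (nat_lit 4) (nat_lit 2) (nat_lit 4) (nat_lit 296) (nat_lit 255) (nat_lit 229)) (XT.lf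 (nat_lit 0) (nat_lit 38995959239) (nat_lit 152) (nat_lit 101769756222) (nat_lit 0) (nat_lit 33076734918) (nat_lit 2) (nat_lit 5) (nat_lit 4) (nat_lit 4) (nat_lit 2) (nat_lit 4) (nat_lit 297) (nat_lit 255) (nat_lit 228))))) (XT.nd (nat_lit 234) (nat_lit 0) (nat_lit 0) (XT.nd (nat_lit 78) (nat_lit 0) (nat_lit 0) (XT.lf (nat_lit 0) (nat_lit 55138190650) (nat_lit 152) (nat_lit 94681578491) (nat_lit 0) (nat_lit 49200814993) (nat_lit 2) (nat_lit 5) (nat_lit 4) (nat_lit 4) (nat_lit 2) (nat_lit 4) (nat_lit 298) (nat_lit 255) (nat_lit 227)) (XT.nd (nat_lit 78) (nat_lit 0) (nat_lit 0) (XT.lf (nat_lit 0) (nat_lit 73641596280) (nat_lit 152) (nat_lit 86650228971) (nat_lit 0) (nat_lit 67688436854) (nat_lit 2) (nat_lit 5) (nat_lit 4) (nat_lit 4) (nat_lit 2) (nat_lit 4) (nat_lit 299) (nat_lit 255) (nat_lit 226)) (XT.lf (nat_lit 0) (nat_lit 94868199283) (nat_lit 152) (nat_lit 77518572562) (nat_lit 0) (nat_lit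 88901314840) (nat_lit 2) (nat_lit 5) (nat_lit 4) (nat_lit 4) (nat_lit 2) (nat_lit 4) (nat_lit 300) (nat_lit 255) (nat_lit 225)))) (XT.nd (nat_lit 156) (nat_lit 0) (nat_lit 0) (XT.nd (nat_lit 78) (nat_lit 0) (nat_lit 0) (XT.lf (nat_lit 0) (nat_lit 119233302761) (nat_lit 152) (nat_lit 67107946420) (nat_lit 0) (nat_lit 113254483521) (nat_lit 2) (nat_lit 5) (nat_lit 4) (nat_lit 4) (nat_lit 2) (nat_lit 4) (nat_lit 301) (nat_lit 255) (nat_lit 224)) (XT.lf (nat_lit 0) (nat_lit 147213615261) (nat_lit 152) (nat_lit 55214664383) (nat_lit 0) (nat_lit 141224417937) (nat_lit 2) (nat_lit 5) (nat_lit 4) (nat_lit 4) (nat_lit 2) (nat_lit 4) (nat_lit 302) (nat_lit 255) (nat_lit 223))) (XT.nd (nat_lit 78) (nat_lit 0) (nat_lit 0) (XT.lf (nat_lit 0) (nat_lit 179356577679) (nat_lit 152) (nat_lit 41606031802) (nat_lit 0) (nat_lit 173358355934) (nat_lit 2) (nat_lit 5) (nat_lit 4) (nat_lit 4) (nat_lit 2) (nat_lit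 4) (nat_lit 303) (nat_lit 255) (nat_lit 222)) (XT.lf (nat_lit 0) (nat_lit 216291074064) (nat_lit 152) (nat_lit 26015792822) (nat_lit 0) (nat_lit 210285004995) (nat_lit 2) (nat_lit 5) (nat_lit 4) (nat_lit 4) (nat_lit 2) (nat_lit 4) (nat_lit 304) (nat_lit 255) (nat_lit 221)))))) (XT.nd (nat_lit 468) (nat_lit 0) (nat_lit 0) (XT.nd (nat_lit 234) (nat_lit 0) (nat_lit 0) (XT.nd (nat_lit 78) (nat_lit 76) (nat_lit 0) (XT.lf (nat_lit 0) (nat_lit 258739735864) (nat_lit 152) (nat_lit 8138921027) (nat_lit 0) (nat_lit 252726843037) (nat_lit 2) (nat_lit 5) (nat_lit 4) (nat_lit 4) (nat_lit 2) (nat_lit 4) (nat_lit 305) (nat_lit 255) (nat_lit 220)) (XT.nd (nat_lit 78) (nat_lit 0) (nat_lit 0) (XT.lf (nat_lit 0) (nat_lit 13025959723) (nat_lit 76) (nat_lit 294820395299) (nat_lit 76) (nat_lit 288801568768) (nat_lit 1) (nat_lit 4) (nat_lit 2) (nat_lit 5) (nat_lit 2) (nat_lit 4) (nat_lit 306) (nat_lit 255) (nat_lit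 219)) (XT.lf (nat_lit 0) (nat_lit 37817128137) (nat_lit 76) (nat_lit 326718134701) (nat_lit 76) (nat_lit 320694148427) (nat_lit 1) (nat_lit 4) (nat_lit 2) (nat_lit 5) (nat_lit 2) (nat_lit 4) (nat_lit 307) (nat_lit 255) (nat_lit 218)))) (XT.nd (nat_lit 78) (nat_lit 0) (nat_lit 0) (XT.lf (nat_lit 0) (nat_lit 66291047654) (nat_lit 76) (nat_lit 363418493828) (nat_lit 76) (nat_lit 357390020823) (nat_lit 1) (nat_lit 4) (nat_lit 2) (nat_lit 5) (nat_lit 2) (nat_lit 4) (nat_lit 308) (nat_lit 255) (nat_lit 217)) (XT.nd (nat_lit 78) (nat_lit 0) (nat_lit 0) (XT.lf (nat_lit 0) (nat_lit 99004816700) (nat_lit 76) (nat_lit 405639523186) (nat_lit 76) (nat_lit 399607148674) (nat_lit 1) (nat_lit 4) (nat_lit 2) (nat_lit 5) (nat_lit 2) (nat_lit 4) (nat_lit 309) (nat_lit 255) (nat_lit 216)) (XT.lf (nat_lit 0) (nat_lit 136598487277) (nat_lit 76) (nat_lit 454207286392) (nat_lit 76) (nat_lit 448171519266) (nat_lit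 1) (nat_lit 4) (nat_lit 2) (nat_lit 5) (nat_lit 2) (nat_lit 4) (nat_lit 310) (nat_lit 255) (nat_lit 215))))) (XT.nd (nat_lit 234) (nat_lit 0) (nat_lit 0) (XT.nd (nat_lit 78) (nat_lit 0) (nat_lit 0) (XT.lf (nat_lit 0) (nat_lit 179807587723) (nat_lit 76) (nat_lit 510072022291) (nat_lit 76) (nat_lit 504033305066) (nat_lit 1) (nat_lit 4) (nat_lit 2) (nat_lit 5) (nat_lit 2) (nat_lit 4) (nat_lit 311) (nat_lit 255) (nat_lit 214)) (XT.nd (nat_lit 78) (nat_lit 0) (nat_lit 0) (XT.lf (nat_lit 0) (nat_lit 229477513483) (nat_lit 76) (nat_lit 574326736586) (nat_lit 76) (nat_lit 568285454057) (nat_lit 1) (nat_lit 4) (nat_lit 2) (nat_lit 5) (nat_lit 2) (nat_lit 4) (nat_lit 312) (nat_lit 255) (nat_lit 213)) (XT.lf (nat_lit 0) (nat_lit 286580067449) (nat_lit 76) (nat_lit 648228586731) (nat_lit 76) (nat_lit 642185073503) (nat_lit 1) (nat_lit 4) (nat_lit 2) (nat_lit 5) (nat_lit 2) (nat_lit 4) (nat_lit 313)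 (nat_lit 255) (nat_lit 212)))) (XT.nd (nat_lit 156) (nat_lit 0) (nat_lit 0) (XT.nd (nat_lit 78) (nat_lit 0) (nat_lit 0) (XT.lf (nat_lit 0) (nat_lit 352232473506) (nat_lit 76) (nat_lit 733223478488) (nat_lit 76) (nat_lit 727178025522) (nat_lit 1) (nat_lit 4) (nat_lit 2) (nat_lit 5) (nat_lit 2) (nat_lit 4) (nat_lit 314) (nat_lit 255) (nat_lit 211)) (XT.lf (nat_lit 0) (nat_lit 427719235250) (nat_lit 76) (nat_lit 830974355394) (nat_lit 76) (nat_lit 824927215698) (nat_lit 1) (nat_lit 4) (nat_lit 2) (nat_lit 5) (nat_lit 2) (nat_lit 4) (nat_lit 315) (nat_lit 255) (nat_lit 210))) (XT.nd (nat_lit 78) (nat_lit 0) (nat_lit 0) (XT.lf (nat_lit 0) (nat_lit 514517267583) (nat_lit 76) (nat_lit 943393734603) (nat_lit 76) (nat_lit 937345128187) (nat_lit 1) (nat_lit 4) (nat_lit 2) (nat_lit 5) (nat_lit 2) (nat_lit 4) (nat_lit 316) (nat_lit 255) (nat_lit 209)) (XT.lf (nat_lit 0) (nat_lit 614324792879) (nat_lit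 76) (nat_lit 1072681125710) (nat_lit 76) (nat_lit 1066631243885) (nat_lit 1) (nat_lit 4) (nat_lit 2) (nat_lit 5) (nat_lit 2) (nat_lit 4) (nat_lit 317) (nat_lit 255) (nat_lit 208))))))))
noncomputable def xc18 : XT := (XT.nd (nat_lit 37752) (nat_lit 0) (nat_lit 76) (XT.nd (nat_lit 36738) (nat_lit 0) (nat_lit 912) (XT.nd (nat_lit 468) (nat_lit 0) (nat_lit 0) (XT.nd (nat_lit 234) (nat_lit 0) (nat_lit 0) (XT.nd (nat_lit 78) (nat_lit 0) (nat_lit 0) (XT.lf (nat_lit 0) (nat_lit 729094567067) (nat_lit 76) (nat_lit 1221366064628) (nat_lit 76) (nat_lit 1215315073751) (nat_lit 1) (nat_lit 4) (nat_lit 2) (nat_lit 5) (nat_lit 2) (nat_lit 4) (nat_lit 318) (nat_lit 255) (nat_lit 207)) (XT.nd (nat_lit 78) (nat_lit 0) (nat_lit 0) (XT.lf (nat_lit 0) (nat_lit 861072085728) (nat_lit 76) (nat_lit 1392357604508) (nat_lit 76) (nat_lit 1386305649239) (nat_lit 1) (nat_lit 4) (nat_lit 2) (nat_lit 5) (nat_lit 2)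 (nat_lit 4) (nat_lit 319) (nat_lit 255) (nat_lit 206)) (XT.lf (nat_lit 0) (nat_lit 1012839517706) (nat_lit 76) (nat_lit 1589001232002) (nat_lit 76) (nat_lit 1582948438130) (nat_lit 1) (nat_lit 4) (nat_lit 2) (nat_lit 5) (nat_lit 2) (nat_lit 4) (nat_lit 320) (nat_lit 255) (nat_lit 205)))) (XT.nd (nat_lit 78) (nat_lit 0) (nat_lit 0) (XT.lf (nat_lit 0) (nat_lit 1187366225801) (nat_lit 76) (nat_lit 1815144322430) (nat_lit 76) (nat_lit 1809090799338) (nat_lit 1) (nat_lit 4) (nat_lit 2) (nat_lit 5) (nat_lit 2) (nat_lit 4) (nat_lit 321) (nat_lit 255) (nat_lit 204)) (XT.nd (nat_lit 78) (nat_lit 0) (nat_lit 0) (XT.lf (nat_lit 0) (nat_lit 1388066862997) (nat_lit 76) (nat_lit 2075211414517) (nat_lit 76) (nat_lit 2069157257321) (nat_lit 1) (nat_lit 4) (nat_lit 2) (nat_lit 5) (nat_lit 2) (nat_lit 4) (nat_lit 322) (nat_lit 255) (nat_lit 203)) (XT.lf (nat_lit 0) (nat_lit 1618868180891) (nat_lit 76) (nat_lit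 2374290777456) (nat_lit 76) (nat_lit 2368236068866) (nat_lit 1) (nat_lit 4) (nat_lit 2) (nat_lit 5) (nat_lit 2) (nat_lit 4) (nat_lit 323) (nat_lit 255) (nat_lit 202))))) (XT.nd (nat_lit 234) (nat_lit 0) (nat_lit 0) (XT.nd (nat_lit 78) (nat_lit 0) (nat_lit 0) (XT.lf (nat_lit 0) (nat_lit 1884285857443) (nat_lit 76) (nat_lit 2718233964001) (nat_lit 76) (nat_lit 2712178775937) (nat_lit 1) (nat_lit 4) (nat_lit 2) (nat_lit 5) (nat_lit 2) (nat_lit 4) (nat_lit 324) (nat_lit 255) (nat_lit 201)) (XT.nd (nat_lit 78) (nat_lit 0) (nat_lit 0) (XT.lf (nat_lit 0) (nat_lit 2189512847193) (nat_lit 76) (nat_lit 3113770297367) (nat_lit 76) (nat_lit 3107714692369) (nat_lit 1) (nat_lit 4) (nat_lit 2) (nat_lit 5) (nat_lit 2) (nat_lit 4) (nat_lit 325) (nat_lit 255) (nat_lit 200)) (XT.lf (nat_lit 0) (nat_lit 2540520982550) (nat_lit 76) (nat_lit 3568638531901) (nat_lit 76) (nat_lit 3562582564353) (nat_lit 1) (nat_lit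 4) (nat_lit 2) (nat_lit 5) (nat_lit 2) (nat_lit 4) (nat_lit 326) (nat_lit 255) (nat_lit 199)))) (XT.nd (nat_lit 78) (nat_lit 0) (nat_lit 0) (XT.lf (nat_lit 0) (nat_lit 2944177813987) (nat_lit 76) (nat_lit 4091738263498) (nat_lit 76) (nat_lit 4085681980688) (nat_lit 1) (nat_lit 4) (nat_lit 2) (nat_lit 5) (nat_lit 2) (nat_lit 4) (nat_lit 327) (nat_lit 255) (nat_lit 198)) (XT.nd (nat_lit 78) (nat_lit 0) (nat_lit 0) (XT.lf (nat_lit 0) (nat_lit 3408380975164) (nat_lit 76) (nat_lit 4693304052122) (nat_lit 76) (nat_lit 4687247495172) (nat_lit 1) (nat_lit 4) (nat_lit 2) (nat_lit 5) (nat_lit 2) (nat_lit 4) (nat_lit 328) (nat_lit 255) (nat_lit 197)) (XT.lf (nat_lit 0) (nat_lit 3942212701843) (nat_lit 76) (nat_lit 5385105663205) (nat_lit 76) (nat_lit 5379048867871) (nat_lit 1) (nat_lit 4) (nat_lit 2) (nat_lit 5) (nat_lit 2) (nat_lit 4) (nat_lit 329) (nat_lit 255) (nat_lit 196)))))) (XT.nd (nat_lit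 468) (nat_lit 836) (nat_lit 0) (XT.nd (nat_lit 234) (nat_lit 684) (nat_lit 0) (XT.nd (nat_lit 78) (nat_lit 684) (nat_lit 0) (XT.lf (nat_lit 0) (nat_lit 1777319057) (nat_lit 228) (nat_lit 1124770859) (nat_lit 228) (nat_lit 1124770859) (nat_lit 42) (nat_lit 4) (nat_lit 45) (nat_lit 5) (nat_lit 45) (nat_lit 4) (nat_lit 268) (nat_lit 256) (nat_lit 256)) (XT.nd (nat_lit 78) (nat_lit 456) (nat_lit 0) (XT.lf (nat_lit 0) (nat_lit 4530262037) (nat_lit 228) (nat_lit 1414260791) (nat_lit 0) (nat_lit 2568322358) (nat_lit 39) (nat_lit 5) (nat_lit 42) (nat_lit 4) (nat_lit 39) (nat_lit 4) (nat_lit 269) (nat_lit 256) (nat_lit 255)) (XT.lf (nat_lit 0) (nat_lit 1945427792) (nat_lit 152) (nat_lit 753323156) (nat_lit 228) (nat_lit 6356545939) (nat_lit 33) (nat_lit 5) (nat_lit 35) (nat_lit 5) (nat_lit 36) (nat_lit 4) (nat_lit 270) (nat_lit 256) (nat_lit 254)))) (XT.nd (nat_lit 78) (nat_lit 456) (nat_lit 0)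 (XT.lf (nat_lit 0) (nat_lit 275462832) (nat_lit 228) (nat_lit 4196928462) (nat_lit 76) (nat_lit 5212555955) (nat_lit 30) (nat_lit 5) (nat_lit 33) (nat_lit 5) (nat_lit 31) (nat_lit 4) (nat_lit 271) (nat_lit 256) (nat_lit 253)) (XT.nd (nat_lit 78) (nat_lit 304) (nat_lit 0) (XT.lf (nat_lit 0) (nat_lit 7314366173) (nat_lit 228) (nat_lit 1307358412) (nat_lit 0) (nat_lit 1791827051) (nat_lit 28) (nat_lit 5) (nat_lit 31) (nat_lit 4) (nat_lit 28) (nat_lit 4) (nat_lit 272) (nat_lit 256) (nat_lit 252)) (XT.lf (nat_lit 0) (nat_lit 1592210674) (nat_lit 76) (nat_lit 2290705506) (nat_lit 152) (nat_lit 7366510073) (nat_lit 24) (nat_lit 5) (nat_lit 25) (nat_lit 5) (nat_lit 26) (nat_lit 4) (nat_lit 273) (nat_lit 256) (nat_lit 251))))) (XT.nd (nat_lit 234) (nat_lit 380) (nat_lit 0) (XT.nd (nat_lit 78) (nat_lit 304) (nat_lit 0) (XT.lf (nat_lit 0) (nat_lit 4421576149) (nat_lit 152) (nat_lit 7281764046) (nat_lit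 152) (nat_lit 503495858) (nat_lit 22) (nat_lit 4) (nat_lit 24) (nat_lit 5) (nat_lit 24) (nat_lit 4) (nat_lit 274) (nat_lit 256) (nat_lit 250)) (XT.nd (nat_lit 78) (nat_lit 152) (nat_lit 0) (XT.lf (nat_lit 0) (nat_lit 6935086474) (nat_lit 152) (nat_lit 6330282470) (nat_lit 0) (nat_lit 35459417) (nat_lit 20) (nat_lit 5) (nat_lit 22) (nat_lit 4) (nat_lit 20) (nat_lit 4) (nat_lit 275) (nat_lit 256) (nat_lit 249)) (XT.lf (nat_lit 0) (nat_lit 954474021) (nat_lit 152) (nat_lit 5456453971) (nat_lit 76) (nat_lit 8137744925) (nat_lit 18) (nat_lit 5) (nat_lit 20) (nat_lit 5) (nat_lit 19) (nat_lit 4) (nat_lit 276) (nat_lit 256) (nat_lit 248)))) (XT.nd (nat_lit 156) (nat_lit 152) (nat_lit 0) (XT.nd (nat_lit 78) (nat_lit 152) (nat_lit 0) (XT.lf (nat_lit 0) (nat_lit 8972958669) (nat_lit 152) (nat_lit 5353707740) (nat_lit 0) (nat_lit 1645940309) (nat_lit 17) (nat_lit 5) (nat_lit 19) (nat_lit 4) (nat_lit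 17) (nat_lit 4) (nat_lit 277) (nat_lit 256) (nat_lit 247)) (XT.lf (nat_lit 0) (nat_lit 688633085) (nat_lit 152) (nat_lit 6274226674) (nat_lit 76) (nat_lit 10635697645) (nat_lit 15) (nat_lit 5) (nat_lit 17) (nat_lit 5) (nat_lit 16) (nat_lit 4) (nat_lit 278) (nat_lit 256) (nat_lit 246))) (XT.nd (nat_lit 78) (nat_lit 76) (nat_lit 0) (XT.lf (nat_lit 0) (nat_lit 9141754545) (nat_lit 152) (nat_lit 8609814915) (nat_lit 0) (nat_lit 1700421093) (nat_lit 14) (nat_lit 5) (nat_lit 16) (nat_lit 4) (nat_lit 14) (nat_lit 4) (nat_lit 279) (nat_lit 256) (nat_lit 245)) (XT.lf (nat_lit 0) (nat_lit 8794804929) (nat_lit 76) (nat_lit 10241032153) (nat_lit 76) (nat_lit 2533952616) (nat_lit 13) (nat_lit 4) (nat_lit 14) (nat_lit 5) (nat_lit 14) (nat_lit 4) (nat_lit 280) (nat_lit 256) (nat_lit 244))))))) (XT.nd (nat_lit 1014) (nat_lit 152) (nat_lit 0) (XT.nd (nat_lit 468) (nat_lit 228) (nat_lit 0) (XT.nd (nat_lit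 234) (nat_lit 228) (nat_lit 0) (XT.nd (nat_lit 78) (nat_lit 76) (nat_lit 0) (XT.lf (nat_lit 0) (nat_lit 4680492758) (nat_lit 76) (nat_lit 1386168706) (nat_lit 152) (nat_lit 17928141622) (nat_lit 11) (nat_lit 5) (nat_lit 12) (nat_lit 5) (nat_lit 13) (nat_lit 4) (nat_lit 281) (nat_lit 256) (nat_lit 243)) (XT.nd (nat_lit 78) (nat_lit 76) (nat_lit 0) (XT.lf (nat_lit 0) (nat_lit 16040548371) (nat_lit 152) (nat_lit 2214890824) (nat_lit 0) (nat_lit 8504339754) (nat_lit 11) (nat_lit 5) (nat_lit 13) (nat_lit 4) (nat_lit 11) (nat_lit 4) (nat_lit 282) (nat_lit 256) (nat_lit 242)) (XT.lf (nat_lit 0) (nat_lit 17689322741) (nat_lit 76) (nat_lit 9968263408) (nat_lit 76) (nat_lit 2270265565) (nat_lit 10) (nat_lit 4) (nat_lit 11) (nat_lit 5) (nat_lit 11) (nat_lit 4) (nat_lit 283) (nat_lit 256) (nat_lit 241)))) (XT.nd (nat_lit 78) (nat_lit 76) (nat_lit 0) (XT.lf (nat_lit 0) (nat_lit 6732325679) (nat_lit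 76) (nat_lit 272967496) (nat_lit 152) (nat_lit 26557070950) (nat_lit 8) (nat_lit 5) (nat_lit 9) (nat_lit 5) (nat_lit 10) (nat_lit 4) (nat_lit 284) (nat_lit 256) (nat_lit 240)) (XT.nd (nat_lit 78) (nat_lit 76) (nat_lit 0) (XT.lf (nat_lit 0) (nat_lit 17892402538) (nat_lit 152) (nat_lit 9295555556) (nat_lit 0) (nat_lit 10521087700) (nat_lit 8) (nat_lit 5) (nat_lit 10) (nat_lit 4) (nat_lit 8) (nat_lit 4) (nat_lit 285) (nat_lit 256) (nat_lit 239)) (XT.lf (nat_lit 0) (nat_lit 10940749976) (nat_lit 76) (nat_lit 19502216608) (nat_lit 76) (nat_lit 12032402657) (nat_lit 7) (nat_lit 4) (nat_lit 8) (nat_lit 5) (nat_lit 8) (nat_lit 4) (nat_lit 286) (nat_lit 256) (nat_lit 238))))) (XT.nd (nat_lit 234) (nat_lit 76) (nat_lit 0) (XT.nd (nat_lit 78) (nat_lit 152) (nat_lit 0) (XT.lf (nat_lit 0) (nat_lit 34346933538) (nat_lit 76) (nat_lit 10580561992) (nat_lit 76) (nat_lit 3025096638) (nat_lit 7) (nat_lit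 4) (nat_lit 8) (nat_lit 5) (nat_lit 8) (nat_lit 4) (nat_lit 287) (nat_lit 256) (nat_lit 237)) (XT.nd (nat_lit 78) (nat_lit 0) (nat_lit 0) (XT.lf (nat_lit 0) (nat_lit 6793159089) (nat_lit 76) (nat_lit 141025489) (nat_lit 152) (nat_lit 47305736409) (nat_lit 5) (nat_lit 5) (nat_lit 6) (nat_lit 5) (nat_lit 7) (nat_lit 4) (nat_lit 288) (nat_lit 256) (nat_lit 236)) (XT.lf (nat_lit 0) (nat_lit 18722373686) (nat_lit 152) (nat_lit 31102959116) (nat_lit 0) (nat_lit 11597642574) (nat_lit 5) (nat_lit 5) (nat_lit 7) (nat_lit 4) (nat_lit 5) (nat_lit 4) (nat_lit 289) (nat_lit 256) (nat_lit 235)))) (XT.nd (nat_lit 156) (nat_lit 0) (nat_lit 0) (XT.nd (nat_lit 78) (nat_lit 76) (nat_lit 0) (XT.lf (nat_lit 0) (nat_lit 32123821609) (nat_lit 152) (nat_lit 12625156297) (nat_lit 0) (nat_lit 24946944953) (nat_lit 5) (nat_lit 5) (nat_lit 7) (nat_lit 4) (nat_lit 5) (nat_lit 4) (nat_lit 290) (nat_lit 256) (nat_lit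 234)) (XT.lf (nat_lit 0) (nat_lit 8791338825) (nat_lit 76) (nat_lit 38817432007) (nat_lit 76) (nat_lit 31595211400) (nat_lit 4) (nat_lit 4) (nat_lit 5) (nat_lit 5) (nat_lit 5) (nat_lit 4) (nat_lit 291) (nat_lit 256) (nat_lit 233))) (XT.nd (nat_lit 78) (nat_lit 0) (nat_lit 0) (XT.lf (nat_lit 0) (nat_lit 33935180313) (nat_lit 76) (nat_lit 31722716901) (nat_lit 76) (nat_lit 24461066771) (nat_lit 4) (nat_lit 4) (nat_lit 5) (nat_lit 5) (nat_lit 5) (nat_lit 4) (nat_lit 292) (nat_lit 256) (nat_lit 232)) (XT.lf (nat_lit 0) (nat_lit 62633494536) (nat_lit 76) (nat_lit 23671217093) (nat_lit 76) (nat_lit 16375280421) (nat_lit 4) (nat_lit 4) (nat_lit 5) (nat_lit 5) (nat_lit 5) (nat_lit 4) (nat_lit 293) (nat_lit 256) (nat_lit 231)))))) (XT.nd (nat_lit 468) (nat_lit 0) (nat_lit 0) (XT.nd (nat_lit 234) (nat_lit 0) (nat_lit 0) (XT.nd (nat_lit 78) (nat_lit 152) (nat_lit 0) (XT.lf (nat_lit 0) (nat_lit 95447770248)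 (nat_lit 76) (nat_lit 14505403237) (nat_lit 76) (nat_lit 7179652181) (nat_lit 4) (nat_lit 4) (nat_lit 5) (nat_lit 5) (nat_lit 5) (nat_lit 4) (nat_lit 294) (nat_lit 256) (nat_lit 230)) (XT.nd (nat_lit 78) (nat_lit 76) (nat_lit 0) (XT.lf (nat_lit 0) (nat_lit 3140366289) (nat_lit 152) (nat_lit 819714725) (nat_lit 76) (nat_lit 129793796420) (nat_lit 3) (nat_lit 5) (nat_lit 5) (nat_lit 5) (nat_lit 4) (nat_lit 4) (nat_lit 295) (nat_lit 256) (nat_lit 229)) (XT.lf (nat_lit 0) (nat_lit 15314173350) (nat_lit 152) (nat_lit 128994346365) (nat_lit 0) (nat_lit 8486191345) (nat_lit 2) (nat_lit 5) (nat_lit 4) (nat_lit 4) (nat_lit 2) (nat_lit 4) (nat_lit 296) (nat_lit 256) (nat_lit 228)))) (XT.nd (nat_lit 78) (nat_lit 0) (nat_lit 0) (XT.lf (nat_lit 0) (nat_lit 29378877940) (nat_lit 152) (nat_lit 122774874082) (nat_lit 0) (nat_lit 22532744600) (nat_lit 2) (nat_lit 5) (nat_lit 4) (nat_lit 4) (nat_lit 2)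 (nat_lit 4) (nat_lit 297) (nat_lit 256) (nat_lit 227)) (XT.nd (nat_lit 78) (nat_lit 0) (nat_lit 0) (XT.lf (nat_lit 0) (nat_lit 45493127726) (nat_lit 152) (nat_lit 115742535826) (nat_lit 0) (nat_lit 38631210617) (nat_lit 2) (nat_lit 5) (nat_lit 4) (nat_lit 4) (nat_lit 2) (nat_lit 4) (nat_lit 298) (nat_lit 256) (nat_lit 226)) (XT.lf (nat_lit 0) (nat_lit 63972201509) (nat_lit 152) (nat_lit 107759742370) (nat_lit 0) (nat_lit 57096559383) (nat_lit 2) (nat_lit 5) (nat_lit 4) (nat_lit 4) (nat_lit 2) (nat_lit 4) (nat_lit 299) (nat_lit 256) (nat_lit 225))))) (XT.nd (nat_lit 234) (nat_lit 0) (nat_lit 0) (XT.nd (nat_lit 78) (nat_lit 0) (nat_lit 0) (XT.lf (nat_lit 0) (nat_lit 85177646384) (nat_lit 152) (nat_lit 98670308626) (nat_lit 0) (nat_lit 78290069461) (nat_lit 2) (nat_lit 5) (nat_lit 4) (nat_lit 4) (nat_lit 2) (nat_lit 4) (nat_lit 300) (nat_lit 256) (nat_lit 224)) (XT.nd (nat_lit 78) (nat_lit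 0) (nat_lit 0) (XT.lf (nat_lit 0) (nat_lit 109524351490) (nat_lit 152) (nat_lit 88296397845) (nat_lit 0) (nat_lit 102626396483) (nat_lit 2) (nat_lit 5) (nat_lit 4) (nat_lit 4) (nat_lit 2) (nat_lit 4) (nat_lit 301) (nat_lit 256) (nat_lit 223)) (XT.lf (nat_lit 0) (nat_lit 137488665406) (nat_lit 152) (nat_lit 76435042209) (nat_lit 0) (nat_lit 130581685977) (nat_lit 2) (nat_lit 5) (nat_lit 4) (nat_lit 4) (nat_lit 2) (nat_lit 4) (nat_lit 302) (nat_lit 256) (nat_lit 222)))) (XT.nd (nat_lit 156) (nat_lit 0) (nat_lit 0) (XT.nd (nat_lit 78) (nat_lit 0) (nat_lit 0) (XT.lf (nat_lit 0) (nat_lit 169617716012) (nat_lit 152) (nat_lit 62854171715) (nat_lit 0) (nat_lit 162702889260) (nat_lit 2) (nat_lit 5) (nat_lit 4) (nat_lit 4) (nat_lit 2) (nat_lit 4) (nat_lit 303) (nat_lit 256) (nat_lit 221)) (XT.lf (nat_lit 0) (nat_lit 206540115167) (nat_lit 152) (nat_lit 47288073680) (nat_lit 0) (nat_lit 199618464657)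 (nat_lit 2) (nat_lit 5) (nat_lit 4) (nat_lit 4) (nat_lit 2) (nat_lit 4) (nat_lit 304) (nat_lit 256) (nat_lit 220))) (XT.nd (nat_lit 78) (nat_lit 0) (nat_lit 0) (XT.lf (nat_lit 0) (nat_lit 248978257639) (nat_lit 152) (nat_lit 29432194013) (nat_lit 0) (nat_lit 242050673425) (nat_lit 2) (nat_lit 5) (nat_lit 4) (nat_lit 4) (nat_lit 2) (nat_lit 4) (nat_lit 305) (nat_lit 256) (nat_lit 219)) (XT.lf (nat_lit 0) (nat_lit 297762454910) (nat_lit 152) (nat_lit 8937178545) (nat_lit 0) (nat_lit 290829710954) (nat_lit 2) (nat_lit 5) (nat_lit 4) (nat_lit 4) (nat_lit 2) (nat_lit 4) (nat_lit 306) (nat_lit 256) (nat_lit 218))))))))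
noncomputable def xc19 : XT := (XT.nd (nat_lit 37674) (nat_lit 0) (nat_lit 228) (XT.nd (nat_lit 1014) (nat_lit 0) (nat_lit 0) (XT.nd (nat_lit 468) (nat_lit 0) (nat_lit 0) (XT.nd (nat_lit 234) (nat_lit 0) (nat_lit 0) (XT.nd (nat_lit 78) (nat_lit 0) (nat_lit 0) (XT.lf (nat_lit 0) (nat_lit 15366664973) (nat_lit 76) (nat_lit 338850084094) (nat_lit 76) (nat_lit 331912853406) (nat_lit 1) (nat_lit 4) (nat_lit 2) (nat_lit 5) (nat_lit 2) (nat_lit 4) (nat_lit 307) (nat_lit 256) (nat_lit 217)) (XT.nd (nat_lit 78) (nat_lit 0) (nat_lit 0) (XT.lf (nat_lit 0) (nat_lit 43826055002) (nat_lit 76) (nat_lit 375557706646) (nat_lit 76) (nat_lit 368616574451) (nat_lit 1) (nat_lit 4) (nat_lit 2) (nat_lit 5) (nat_lit 2) (nat_lit 4) (nat_lit 308) (nat_lit 256) (nat_lit 216)) (XT.lf (nat_lit 0) (nat_lit 76527189710) (nat_lit 76) (nat_lit 417785052024) (nat_lit 76) (nat_lit 410840527215) (nat_lit 1) (nat_lit 4) (nat_lit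 2) (nat_lit 5) (nat_lit 2) (nat_lit 4) (nat_lit 309) (nat_lit 256) (nat_lit 215)))) (XT.nd (nat_lit 78) (nat_lit 0) (nat_lit 0) (XT.lf (nat_lit 0) (nat_lit 114109873907) (nat_lit 76) (nat_lit 466358307422) (nat_lit 76) (nat_lit 459410832513) (nat_lit 1) (nat_lit 4) (nat_lit 2) (nat_lit 5) (nat_lit 2) (nat_lit 4) (nat_lit 310) (nat_lit 256) (nat_lit 214)) (XT.nd (nat_lit 78) (nat_lit 0) (nat_lit 0) (XT.lf (nat_lit 0) (nat_lit 157309420979) (nat_lit 76) (nat_lit 522227819140) (nat_lit 76) (nat_lit 515277778928) (nat_lit 1) (nat_lit 4) (nat_lit 2) (nat_lit 5) (nat_lit 2) (nat_lit 4) (nat_lit 311) (nat_lit 256) (nat_lit 213)) (XT.lf (nat_lit 0) (nat_lit 206971039457) (nat_lit 76) (nat_lit 586486686321) (nat_lit 76) (nat_lit 579534415410) (nat_lit 1) (nat_lit 4) (nat_lit 2) (nat_lit 5) (nat_lit 2) (nat_lit 4) (nat_lit 312) (nat_lit 256) (nat_lit 212))))) (XT.nd (nat_lit 234) (nat_lit 0) (nat_lit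 0) (XT.nd (nat_lit 78) (nat_lit 0) (nat_lit 0) (XT.lf (nat_lit 0) (nat_lit 264066369700) (nat_lit 76) (nat_lit 660392147671) (nat_lit 76) (nat_lit 653437937022) (nat_lit 1) (nat_lit 4) (nat_lit 2) (nat_lit 5) (nat_lit 2) (nat_lit 4) (nat_lit 313) (nat_lit 256) (nat_lit 211)) (XT.nd (nat_lit 78) (nat_lit 0) (nat_lit 0) (XT.lf (nat_lit 0) (nat_lit 329712494259) (nat_lit 76) (nat_lit 745390179607) (nat_lit 76) (nat_lit 738434282229) (nat_lit 1) (nat_lit 4) (nat_lit 2) (nat_lit 5) (nat_lit 2) (nat_lit 4) (nat_lit 314) (nat_lit 256) (nat_lit 210)) (XT.lf (nat_lit 0) (nat_lit 405193793829) (nat_lit 76) (nat_lit 843143787103) (nat_lit 76) (nat_lit 836186423003) (nat_lit 1) (nat_lit 4) (nat_lit 2) (nat_lit 5) (nat_lit 2) (nat_lit 4) (nat_lit 315) (nat_lit 256) (nat_lit 209)))) (XT.nd (nat_lit 156) (nat_lit 0) (nat_lit 0) (XT.nd (nat_lit 78) (nat_lit 0) (nat_lit 0) (XT.lf (nat_lit 0) (nat_lit 491987076448)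 (nat_lit 76) (nat_lit 955565540738) (nat_lit 76) (nat_lit 948606901230) (nat_lit 1) (nat_lit 4) (nat_lit 2) (nat_lit 5) (nat_lit 2) (nat_lit 4) (nat_lit 316) (nat_lit 256) (nat_lit 208)) (XT.lf (nat_lit 0) (nat_lit 591790471556) (nat_lit 76) (nat_lit 1084854996564) (nat_lit 76) (nat_lit 1077895248003) (nat_lit 1) (nat_lit 4) (nat_lit 2) (nat_lit 5) (nat_lit 2) (nat_lit 4) (nat_lit 317) (nat_lit 256) (nat_lit 207))) (XT.nd (nat_lit 78) (nat_lit 0) (nat_lit 0) (XT.lf (nat_lit 0) (nat_lit 706556654277) (nat_lit 76) (nat_lit 1233541730888) (nat_lit 76) (nat_lit 1226581017935) (nat_lit 1) (nat_lit 4) (nat_lit 2) (nat_lit 5) (nat_lit 2) (nat_lit 4) (nat_lit 318) (nat_lit 256) (nat_lit 206)) (XT.lf (nat_lit 0) (nat_lit 838531049923) (nat_lit 76) (nat_lit 1404534831993) (nat_lit 76) (nat_lit 1397573280438) (nat_lit 1) (nat_lit 4) (nat_lit 2) (nat_lit 5) (nat_lit 2) (nat_lit 4) (nat_lit 319) (nat_lit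 256) (nat_lit 205)))))) (XT.nd (nat_lit 468) (nat_lit 0) (nat_lit 0) (XT.nd (nat_lit 234) (nat_lit 0) (nat_lit 0) (XT.nd (nat_lit 78) (nat_lit 0) (nat_lit 0) (XT.lf (nat_lit 0) (nat_lit 990295766236) (nat_lit 76) (nat_lit 1601179817073) (nat_lit 76) (nat_lit 1594217536298) (nat_lit 1) (nat_lit 4) (nat_lit 2) (nat_lit 5) (nat_lit 2) (nat_lit 4) (nat_lit 320) (nat_lit 256) (nat_lit 204)) (XT.nd (nat_lit 78) (nat_lit 0) (nat_lit 0) (XT.lf (nat_lit 0) (nat_lit 1164820112883) (nat_lit 76) (nat_lit 1827324088010) (nat_lit 76) (nat_lit 1820361173131) (nat_lit 1) (nat_lit 4) (nat_lit 2) (nat_lit 5) (nat_lit 2) (nat_lit 4) (nat_lit 321) (nat_lit 256) (nat_lit 203)) (XT.lf (nat_lit 0) (nat_lit 1365518696646) (nat_lit 76) (nat_lit 2087392206627) (nat_lit 76) (nat_lit 2080428740353) (nat_lit 1) (nat_lit 4) (nat_lit 2) (nat_lit 5) (nat_lit 2) (nat_lit 4) (nat_lit 322) (nat_lit 256) (nat_lit 202))))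 (XT.nd (nat_lit 78) (nat_lit 0) (nat_lit 0) (XT.lf (nat_lit 0) (nat_lit 1596318228946) (nat_lit 76) (nat_lit 2386472462201) (nat_lit 76) (nat_lit 2379508516454) (nat_lit 1) (nat_lit 4) (nat_lit 2) (nat_lit 5) (nat_lit 2) (nat_lit 4) (nat_lit 323) (nat_lit 256) (nat_lit 201)) (XT.nd (nat_lit 78) (nat_lit 0) (nat_lit 0) (XT.lf (nat_lit 0) (nat_lit 1861734352807) (nat_lit 76) (nat_lit 2730416424950) (nat_lit 76) (nat_lit 2723452062269) (nat_lit 1) (nat_lit 4) (nat_lit 2) (nat_lit 5) (nat_lit 2) (nat_lit 4) (nat_lit 324) (nat_lit 256) (nat_lit 200)) (XT.lf (nat_lit 0) (nat_lit 2166959992392) (nat_lit 76) (nat_lit 3125953433275) (nat_lit 76) (nat_lit 3118988708044) (nat_lit 1) (nat_lit 4) (nat_lit 2) (nat_lit 5) (nat_lit 2) (nat_lit 4) (nat_lit 325) (nat_lit 256) (nat_lit 199))))) (XT.nd (nat_lit 234) (nat_lit 0) (nat_lit 0) (XT.nd (nat_lit 78) (nat_lit 0) (nat_lit 0) (XT.lf (nat_lit 0) (nat_lit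 2517966953691) (nat_lit 76) (nat_lit 3580822254731) (nat_lit 76) (nat_lit 3573857214238) (nat_lit 1) (nat_lit 4) (nat_lit 2) (nat_lit 5) (nat_lit 2) (nat_lit 4) (nat_lit 326) (nat_lit 256) (nat_lit 198)) (XT.nd (nat_lit 78) (nat_lit 0) (nat_lit 0) (XT.lf (nat_lit 0) (nat_lit 2921622764210) (nat_lit 76) (nat_lit 4103922496695) (nat_lit 76) (nat_lit 4096957182061) (nat_lit 1) (nat_lit 4) (nat_lit 2) (nat_lit 5) (nat_lit 2) (nat_lit 4) (nat_lit 327) (nat_lit 256) (nat_lit 197)) (XT.lf (nat_lit 0) (nat_lit 3385825037631) (nat_lit 76) (nat_lit 4705488729117) (nat_lit 76) (nat_lit 4698523176100) (nat_lit 1) (nat_lit 4) (nat_lit 2) (nat_lit 5) (nat_lit 2) (nat_lit 4) (nat_lit 328) (nat_lit 256) (nat_lit 196)))) (XT.nd (nat_lit 35802) (nat_lit 0) (nat_lit 3116) (XT.nd (nat_lit 35724) (nat_lit 0) (nat_lit 3952) (XT.lf (nat_lit 0) (nat_lit 3919655992348) (nat_lit 76) (nat_lit 5397290726110) (nat_lit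 76) (nat_lit 5390324965803) (nat_lit 1) (nat_lit 4) (nat_lit 2) (nat_lit 5) (nat_lit 2) (nat_lit 4) (nat_lit 329) (nat_lit 256) (nat_lit 195)) (XT.lf (nat_lit 0) (nat_lit 1297314098) (nat_lit 532) (nat_lit 1071413904) (nat_lit 0) (nat_lit 1297314098) (nat_lit 53) (nat_lit 5) (nat_lit 60) (nat_lit 4) (nat_lit 53) (nat_lit 4) (nat_lit 266) (nat_lit 257) (nat_lit 257))) (XT.nd (nat_lit 78) (nat_lit 228) (nat_lit 0) (XT.lf (nat_lit 0) (nat_lit 272246582) (nat_lit 228) (nat_lit 1123865912) (nat_lit 304) (nat_lit 6278485848) (nat_lit 45) (nat_lit 5) (nat_lit 48) (nat_lit 5) (nat_lit 49) (nat_lit 4) (nat_lit 267) (nat_lit 257) (nat_lit 256)) (XT.lf (nat_lit 0) (nat_lit 3037748408) (nat_lit 228) (nat_lit 4802190488) (nat_lit 228) (nat_lit 246566555) (nat_lit 42) (nat_lit 4) (nat_lit 45) (nat_lit 5) (nat_lit 45) (nat_lit 4) (nat_lit 268) (nat_lit 257) (nat_lit 255))))))) (XT.nd (nat_lit 1014) (nat_lit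 608) (nat_lit 0) (XT.nd (nat_lit 468) (nat_lit 912) (nat_lit 0) (XT.nd (nat_lit 234) (nat_lit 456) (nat_lit 0) (XT.nd (nat_lit 78) (nat_lit 684) (nat_lit 0) (XT.lf (nat_lit 0) (nat_lit 5984223163) (nat_lit 228) (nat_lit 2534007890) (nat_lit 0) (nat_lit 60018350) (nat_lit 39) (nat_lit 5) (nat_lit 42) (nat_lit 4) (nat_lit 39) (nat_lit 4) (nat_lit 269) (nat_lit 257) (nat_lit 254)) (XT.nd (nat_lit 78) (nat_lit 228) (nat_lit 0) (XT.lf (nat_lit 0) (nat_lit 77588707) (nat_lit 152) (nat_lit 3521114072) (nat_lit 228) (nat_lit 5553316119) (nat_lit 33) (nat_lit 5) (nat_lit 35) (nat_lit 5) (nat_lit 36) (nat_lit 4) (nat_lit 270) (nat_lit 257) (nat_lit 253)) (XT.lf (nat_lit 0) (nat_lit 585578171) (nat_lit 228) (nat_lit 6835442090) (nat_lit 76) (nat_lit 2395706936) (nat_lit 30) (nat_lit 5) (nat_lit 33) (nat_lit 5) (nat_lit 31) (nat_lit 4) (nat_lit 271) (nat_lit 257) (nat_lit 252)))) (XT.nd (nat_lit 78)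 (nat_lit 304) (nat_lit 0) (XT.lf (nat_lit 0) (nat_lit 5903265915) (nat_lit 152) (nat_lit 1306043570) (nat_lit 228) (nat_lit 3369556433) (nat_lit 28) (nat_lit 5) (nat_lit 30) (nat_lit 5) (nat_lit 31) (nat_lit 4) (nat_lit 272) (nat_lit 257) (nat_lit 251)) (XT.nd (nat_lit 78) (nat_lit 76) (nat_lit 0) (XT.lf (nat_lit 0) (nat_lit 3183426729) (nat_lit 228) (nat_lit 2633356151) (nat_lit 76) (nat_lit 5634147441) (nat_lit 25) (nat_lit 5) (nat_lit 28) (nat_lit 5) (nat_lit 26) (nat_lit 4) (nat_lit 273) (nat_lit 257) (nat_lit 250)) (XT.lf (nat_lit 0) (nat_lit 10481688999) (nat_lit 152) (nat_lit 729625346) (nat_lit 0) (nat_lit 1239023160) (nat_lit 24) (nat_lit 5) (nat_lit 26) (nat_lit 4) (nat_lit 24) (nat_lit 4) (nat_lit 274) (nat_lit 257) (nat_lit 249))))) (XT.nd (nat_lit 234) (nat_lit 380) (nat_lit 0) (XT.nd (nat_lit 78) (nat_lit 228) (nat_lit 0) (XT.lf (nat_lit 0) (nat_lit 845346314) (nat_lit 76)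 (nat_lit 4286151599) (nat_lit 152) (nat_lit 8448769868) (nat_lit 20) (nat_lit 5) (nat_lit 21) (nat_lit 5) (nat_lit 22) (nat_lit 4) (nat_lit 275) (nat_lit 257) (nat_lit 248)) (XT.nd (nat_lit 78) (nat_lit 152) (nat_lit 0) (XT.lf (nat_lit 0) (nat_lit 2064719101) (nat_lit 76) (nat_lit 11188472523) (nat_lit 76) (nat_lit 1616895827) (nat_lit 19) (nat_lit 4) (nat_lit 20) (nat_lit 5) (nat_lit 20) (nat_lit 4) (nat_lit 276) (nat_lit 257) (nat_lit 247)) (XT.lf (nat_lit 0) (nat_lit 2572489892) (nat_lit 76) (nat_lit 3463085555) (nat_lit 152) (nat_lit 10297435003) (nat_lit 17) (nat_lit 5) (nat_lit 18) (nat_lit 5) (nat_lit 19) (nat_lit 4) (nat_lit 277) (nat_lit 257) (nat_lit 246)))) (XT.nd (nat_lit 156) (nat_lit 152) (nat_lit 0) (XT.nd (nat_lit 78) (nat_lit 152) (nat_lit 0) (XT.lf (nat_lit 0) (nat_lit 2206081042) (nat_lit 76) (nat_lit 12683215503) (nat_lit 76) (nat_lit 3111022719) (nat_lit 16) (nat_lit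 4) (nat_lit 17) (nat_lit 5) (nat_lit 17) (nat_lit 4) (nat_lit 278) (nat_lit 257) (nat_lit 245)) (XT.lf (nat_lit 0) (nat_lit 592427821) (nat_lit 76) (nat_lit 4432392551) (nat_lit 152) (nat_lit 14872838582) (nat_lit 14) (nat_lit 5) (nat_lit 15) (nat_lit 5) (nat_lit 16) (nat_lit 4) (nat_lit 279) (nat_lit 257) (nat_lit 244))) (XT.nd (nat_lit 78) (nat_lit 152) (nat_lit 0) (XT.lf (nat_lit 0) (nat_lit 14431522622) (nat_lit 152) (nat_lit 2551451409) (nat_lit 0) (nat_lit 5071551519) (nat_lit 14) (nat_lit 5) (nat_lit 16) (nat_lit 4) (nat_lit 14) (nat_lit 4) (nat_lit 280) (nat_lit 257) (nat_lit 243)) (XT.lf (nat_lit 0) (nat_lit 895103422) (nat_lit 152) (nat_lit 7699098201) (nat_lit 76) (nat_lit 15922157288) (nat_lit 12) (nat_lit 5) (nat_lit 14) (nat_lit 5) (nat_lit 13) (nat_lit 4) (nat_lit 281) (nat_lit 257) (nat_lit 242)))))) (XT.nd (nat_lit 468) (nat_lit 228) (nat_lit 0) (XT.nd (nat_lit 234) (nat_lit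 152) (nat_lit 0) (XT.nd (nat_lit 78) (nat_lit 152) (nat_lit 0) (XT.lf (nat_lit 0) (nat_lit 10348358619) (nat_lit 152) (nat_lit 15640808747) (nat_lit 0) (nat_lit 1333871874) (nat_lit 11) (nat_lit 5) (nat_lit 13) (nat_lit 4) (nat_lit 11) (nat_lit 4) (nat_lit 282) (nat_lit 257) (nat_lit 241)) (XT.nd (nat_lit 78) (nat_lit 76) (nat_lit 0) (XT.lf (nat_lit 0) (nat_lit 3298131107) (nat_lit 76) (nat_lit 18193068291) (nat_lit 76) (nat_lit 9037895263) (nat_lit 10) (nat_lit 4) (nat_lit 11) (nat_lit 5) (nat_lit 11) (nat_lit 4) (nat_lit 283) (nat_lit 257) (nat_lit 240)) (XT.lf (nat_lit 0) (nat_lit 294440162) (nat_lit 152) (nat_lit 8665073389) (nat_lit 76) (nat_lit 25239693617) (nat_lit 9) (nat_lit 5) (nat_lit 11) (nat_lit 5) (nat_lit 10) (nat_lit 4) (nat_lit 284) (nat_lit 257) (nat_lit 239)))) (XT.nd (nat_lit 78) (nat_lit 76) (nat_lit 0) (XT.lf (nat_lit 0) (nat_lit 10635809820) (nat_lit 152) (nat_lit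 25806746362) (nat_lit 0) (nat_lit 1947024663) (nat_lit 8) (nat_lit 5) (nat_lit 10) (nat_lit 4) (nat_lit 8) (nat_lit 4) (nat_lit 285) (nat_lit 257) (nat_lit 238)) (XT.nd (nat_lit 78) (nat_lit 76) (nat_lit 0) (XT.lf (nat_lit 0) (nat_lit 22826064897) (nat_lit 152) (nat_lit 6307064328) (nat_lit 0) (nat_lit 14051628337) (nat_lit 8) (nat_lit 5) (nat_lit 10) (nat_lit 4) (nat_lit 8) (nat_lit 4) (nat_lit 286) (nat_lit 257) (nat_lit 237)) (XT.lf (nat_lit 0) (nat_lit 16593702765) (nat_lit 76) (nat_lit 20468543209) (nat_lit 76) (nat_lit 11619627169) (nat_lit 7) (nat_lit 4) (nat_lit 8) (nat_lit 5) (nat_lit 8) (nat_lit 4) (nat_lit 287) (nat_lit 257) (nat_lit 236))))) (XT.nd (nat_lit 234) (nat_lit 76) (nat_lit 0) (XT.nd (nat_lit 78) (nat_lit 152) (nat_lit 0) (XT.lf (nat_lit 0) (nat_lit 42987530344) (nat_lit 76) (nat_lit 10464162908) (nat_lit 76) (nat_lit 1550482101) (nat_lit 7) (nat_lit 4) (nat_lit 8)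 (nat_lit 5) (nat_lit 8) (nat_lit 4) (nat_lit 288) (nat_lit 257) (nat_lit 235)) (XT.nd (nat_lit 78) (nat_lit 0) (nat_lit 0) (XT.lf (nat_lit 0) (nat_lit 9681034986) (nat_lit 152) (nat_lit 51182452653) (nat_lit 0) (nat_lit 1375481288) (nat_lit 5) (nat_lit 5) (nat_lit 7) (nat_lit 4) (nat_lit 5) (nat_lit 4) (nat_lit 289) (nat_lit 257) (nat_lit 234)) (XT.lf (nat_lit 0) (nat_lit 23018228119) (nat_lit 152) (nat_lit 32831513319) (nat_lit 0) (nat_lit 14667330470) (nat_lit 5) (nat_lit 5) (nat_lit 7) (nat_lit 4) (nat_lit 5) (nat_lit 4) (nat_lit 290) (nat_lit 257) (nat_lit 233)))) (XT.nd (nat_lit 156) (nat_lit 0) (nat_lit 0) (XT.nd (nat_lit 78) (nat_lit 76) (nat_lit 0) (XT.lf (nat_lit 0) (nat_lit 38235871702) (nat_lit 152) (nat_lit 11965112643) (nat_lit 0) (nat_lit 29845544530) (nat_lit 5) (nat_lit 5) (nat_lit 7) (nat_lit 4) (nat_lit 5) (nat_lit 4) (nat_lit 291) (nat_lit 257) (nat_lit 232)) (XT.lf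 (nat_lit 0) (nat_lit 12447688850) (nat_lit 76) (nat_lit 43483380606) (nat_lit 76) (nat_lit 35058766892) (nat_lit 4) (nat_lit 4) (nat_lit 5) (nat_lit 5) (nat_lit 5) (nat_lit 4) (nat_lit 292) (nat_lit 257) (nat_lit 231))) (XT.nd (nat_lit 78) (nat_lit 0) (nat_lit 0) (XT.lf (nat_lit 0) (nat_lit 41058195796) (nat_lit 76) (nat_lit 35475327739) (nat_lit 76) (nat_lit 27020899641) (nat_lit 4) (nat_lit 4) (nat_lit 5) (nat_lit 5) (nat_lit 5) (nat_lit 4) (nat_lit 293) (nat_lit 257) (nat_lit 230)) (XT.lf (nat_lit 0) (nat_lit 73796117356) (nat_lit 76) (nat_lit 26347293833) (nat_lit 76) (nat_lit 17866940183) (nat_lit 4) (nat_lit 4) (nat_lit 5) (nat_lit 5) (nat_lit 5) (nat_lit 4) (nat_lit 294) (nat_lit 257) (nat_lit 229))))))))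
noncomputable def xc20 : XT := (XT.nd (nat_lit 1950) (nat_lit 0) (nat_lit 0) (XT.nd (nat_lit 936) (nat_lit 76) (nat_lit 0) (XT.nd (nat_lit 468) (nat_lit 0) (nat_lit 0) (XT.nd (nat_lit 234) (nat_lit 0) (nat_lit 0) (XT.nd (nat_lit 78) (nat_lit 152) (nat_lit 0) (XT.lf (nat_lit 0) (nat_lit 111301978081) (nat_lit 76) (nat_lit 15920686920) (nat_lit 76) (nat_lit 7417789312) (nat_lit 4) (nat_lit 4) (nat_lit 5) (nat_lit 5) (nat_lit 5) (nat_lit 4) (nat_lit 295) (nat_lit 257) (nat_lit 228)) (XT.nd (nat_lit 78) (nat_lit 0) (nat_lit 0) (XT.lf (nat_lit 0) (nat_lit 453184340) (nat_lit 76) (nat_lit 3862049020) (nat_lit 152) (nat_lit 149445280652) (nat_lit 2) (nat_lit 5) (nat_lit 3) (nat_lit 5) (nat_lit 4) (nat_lit 4) (nat_lit 296) (nat_lit 257) (nat_lit 227)) (XT.lf (nat_lit 0) (nat_lit 18259073954) (nat_lit 152) (nat_lit 147050814491) (nat_lit 0) (nat_lit 10352085509) (nat_lit 2) (nat_lit 5) (nat_lit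 4) (nat_lit 4) (nat_lit 2) (nat_lit 4) (nat_lit 297) (nat_lit 257) (nat_lit 226)))) (XT.nd (nat_lit 78) (nat_lit 0) (nat_lit 0) (XT.lf (nat_lit 0) (nat_lit 34348991893) (nat_lit 152) (nat_lit 140067032300) (nat_lit 0) (nat_lit 26428278431) (nat_lit 2) (nat_lit 5) (nat_lit 4) (nat_lit 4) (nat_lit 2) (nat_lit 4) (nat_lit 298) (nat_lit 257) (nat_lit 225)) (XT.nd (nat_lit 78) (nat_lit 0) (nat_lit 0) (XT.lf (nat_lit 0) (nat_lit 52806907547) (nat_lit 152) (nat_lit 132126461509) (nat_lit 0) (nat_lit 44874259289) (nat_lit 2) (nat_lit 5) (nat_lit 4) (nat_lit 4) (nat_lit 2) (nat_lit 4) (nat_lit 299) (nat_lit 257) (nat_lit 224)) (XT.lf (nat_lit 0) (nat_lit 73993954050) (nat_lit 152) (nat_lit 123073743125) (nat_lit 0) (nat_lit 66050927707) (nat_lit 2) (nat_lit 5) (nat_lit 4) (nat_lit 4) (nat_lit 2) (nat_lit 4) (nat_lit 300) (nat_lit 257) (nat_lit 223))))) (XT.nd (nat_lit 234) (nat_lit 0) (nat_lit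 0) (XT.nd (nat_lit 78) (nat_lit 0) (nat_lit 0) (XT.lf (nat_lit 0) (nat_lit 98324660572) (nat_lit 152) (nat_lit 112731758745) (nat_lit 0) (nat_lit 90372609808) (nat_lit 2) (nat_lit 5) (nat_lit 4) (nat_lit 4) (nat_lit 2) (nat_lit 4) (nat_lit 301) (nat_lit 257) (nat_lit 222)) (XT.nd (nat_lit 78) (nat_lit 0) (nat_lit 0) (XT.lf (nat_lit 0) (nat_lit 126275062675) (nat_lit 152) (nat_lit 100898165196) (nat_lit 0) (nat_lit 118315164588) (nat_lit 2) (nat_lit 5) (nat_lit 4) (nat_lit 4) (nat_lit 2) (nat_lit 4) (nat_lit 302) (nat_lit 257) (nat_lit 221)) (XT.lf (nat_lit 0) (nat_lit 158392016053) (nat_lit 152) (nat_lit 87341435648) (nat_lit 0) (nat_lit 150425294206) (nat_lit 2) (nat_lit 5) (nat_lit 4) (nat_lit 4) (nat_lit 2) (nat_lit 4) (nat_lit 303) (nat_lit 257) (nat_lit 220)))) (XT.nd (nat_lit 78) (nat_lit 0) (nat_lit 0) (XT.lf (nat_lit 0) (nat_lit 195303895879) (nat_lit 152) (nat_lit 71796329740)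 (nat_lit 0) (nat_lit 187331240330) (nat_lit 2) (nat_lit 5) (nat_lit 4) (nat_lit 4) (nat_lit 2) (nat_lit 4) (nat_lit 304) (nat_lit 257) (nat_lit 219)) (XT.nd (nat_lit 78) (nat_lit 0) (nat_lit 0) (XT.lf (nat_lit 0) (nat_lit 237732891109) (nat_lit 152) (nat_lit 53958704096) (nat_lit 0) (nat_lit 229755075817) (nat_lit 2) (nat_lit 5) (nat_lit 4) (nat_lit 4) (nat_lit 2) (nat_lit 4) (nat_lit 305) (nat_lit 257) (nat_lit 218)) (XT.lf (nat_lit 0) (nat_lit 286509134256) (nat_lit 152) (nat_lit 33479561691) (nat_lit 0) (nat_lit 278526832231) (nat_lit 2) (nat_lit 5) (nat_lit 4) (nat_lit 4) (nat_lit 2) (nat_lit 4) (nat_lit 306) (nat_lit 257) (nat_lit 217)))))) (XT.nd (nat_lit 468) (nat_lit 0) (nat_lit 0) (XT.nd (nat_lit 234) (nat_lit 0) (nat_lit 0) (XT.nd (nat_lit 78) (nat_lit 76) (nat_lit 0) (XT.lf (nat_lit 0) (nat_lit 342586943121) (nat_lit 152) (nat_lit 9958223654) (nat_lit 0) (nat_lit 334600739590)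 (nat_lit 2) (nat_lit 5) (nat_lit 4) (nat_lit 4) (nat_lit 2) (nat_lit 4) (nat_lit 307) (nat_lit 257) (nat_lit 216)) (XT.nd (nat_lit 78) (nat_lit 0) (nat_lit 0) (XT.lf (nat_lit 0) (nat_lit 17964149626) (nat_lit 76) (nat_lit 389531380830) (nat_lit 76) (nat_lit 381541784685) (nat_lit 1) (nat_lit 4) (nat_lit 2) (nat_lit 5) (nat_lit 2) (nat_lit 4) (nat_lit 308) (nat_lit 257) (nat_lit 215)) (XT.lf (nat_lit 0) (nat_lit 50654297954) (nat_lit 76) (nat_lit 431764218400) (nat_lit 76) (nat_lit 423771672156) (nat_lit 1) (nat_lit 4) (nat_lit 2) (nat_lit 5) (nat_lit 2) (nat_lit 4) (nat_lit 309) (nat_lit 257) (nat_lit 214)))) (XT.nd (nat_lit 78) (nat_lit 0) (nat_lit 0) (XT.lf (nat_lit 0) (nat_lit 88227428777) (nat_lit 76) (nat_lit 480342249617) (nat_lit 76) (nat_lit 472347138069) (nat_lit 1) (nat_lit 4) (nat_lit 2) (nat_lit 5) (nat_lit 2) (nat_lit 4) (nat_lit 310) (nat_lit 257) (nat_lit 213)) (XT.nd (nat_lit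 78) (nat_lit 0) (nat_lit 0) (XT.lf (nat_lit 0) (nat_lit 131418668568) (nat_lit 76) (nat_lit 536215914222) (nat_lit 76) (nat_lit 528218571975) (nat_lit 1) (nat_lit 4) (nat_lit 2) (nat_lit 5) (nat_lit 2) (nat_lit 4) (nat_lit 311) (nat_lit 257) (nat_lit 212)) (XT.lf (nat_lit 0) (nat_lit 181073063322) (nat_lit 76) (nat_lit 600478392608) (nat_lit 76) (nat_lit 592479110623) (nat_lit 1) (nat_lit 4) (nat_lit 2) (nat_lit 5) (nat_lit 2) (nat_lit 4) (nat_lit 312) (nat_lit 257) (nat_lit 211))))) (XT.nd (nat_lit 234) (nat_lit 0) (nat_lit 0) (XT.nd (nat_lit 78) (nat_lit 0) (nat_lit 0) (XT.lf (nat_lit 0) (nat_lit 238162112067) (nat_lit 76) (nat_lit 674386994137) (nat_lit 76) (nat_lit 666386025422) (nat_lit 1) (nat_lit 4) (nat_lit 2) (nat_lit 5) (nat_lit 2) (nat_lit 4) (nat_lit 313) (nat_lit 257) (nat_lit 210)) (XT.nd (nat_lit 78) (nat_lit 0) (nat_lit 0) (XT.lf (nat_lit 0) (nat_lit 303802774452) (nat_lit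 76) (nat_lit 759387756663) (nat_lit 76) (nat_lit 751385321228) (nat_lit 1) (nat_lit 4) (nat_lit 2) (nat_lit 5) (nat_lit 2) (nat_lit 4) (nat_lit 314) (nat_lit 257) (nat_lit 209)) (XT.lf (nat_lit 0) (nat_lit 379279324308) (nat_lit 76) (nat_lit 857143738584) (nat_lit 76) (nat_lit 849140027740) (nat_lit 1) (nat_lit 4) (nat_lit 2) (nat_lit 5) (nat_lit 2) (nat_lit 4) (nat_lit 315) (nat_lit 257) (nat_lit 208)))) (XT.nd (nat_lit 156) (nat_lit 0) (nat_lit 0) (XT.nd (nat_lit 78) (nat_lit 0) (nat_lit 0) (XT.lf (nat_lit 0) (nat_lit 466068476739) (nat_lit 76) (nat_lit 969567556938) (nat_lit 76) (nat_lit 961562737042) (nat_lit 1) (nat_lit 4) (nat_lit 2) (nat_lit 5) (nat_lit 2) (nat_lit 4) (nat_lit 316) (nat_lit 257) (nat_lit 207)) (XT.lf (nat_lit 0) (nat_lit 565868280380) (nat_lit 76) (nat_lit 1098858808171) (nat_lit 76) (nat_lit 1090853023882) (nat_lit 1) (nat_lit 4) (nat_lit 2) (nat_lit 5) (nat_lit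 2) (nat_lit 4) (nat_lit 317) (nat_lit 257) (nat_lit 206))) (XT.nd (nat_lit 78) (nat_lit 0) (nat_lit 0) (XT.lf (nat_lit 0) (nat_lit 680631340086) (nat_lit 76) (nat_lit 1247547103719) (nat_lit 76) (nat_lit 1239540480828) (nat_lit 1) (nat_lit 4) (nat_lit 2) (nat_lit 5) (nat_lit 2) (nat_lit 4) (nat_lit 318) (nat_lit 257) (nat_lit 205)) (XT.lf (nat_lit 0) (nat_lit 812603020067) (nat_lit 76) (nat_lit 1418541562410) (nat_lit 76) (nat_lit 1410534210299) (nat_lit 1) (nat_lit 4) (nat_lit 2) (nat_lit 5) (nat_lit 2) (nat_lit 4) (nat_lit 319) (nat_lit 257) (nat_lit 204))))))) (XT.nd (nat_lit 36582) (nat_lit 0) (nat_lit 988) (XT.nd (nat_lit 468) (nat_lit 0) (nat_lit 0) (XT.nd (nat_lit 234) (nat_lit 0) (nat_lit 0) (XT.nd (nat_lit 78) (nat_lit 0) (nat_lit 0) (XT.lf (nat_lit 0) (nat_lit 964365374932) (nat_lit 76) (nat_lit 1615187727999) (nat_lit 76) (nat_lit 1607179741784) (nat_lit 1) (nat_lit 4) (nat_lit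 2) (nat_lit 5) (nat_lit 2) (nat_lit 4) (nat_lit 320) (nat_lit 257) (nat_lit 203)) (XT.nd (nat_lit 78) (nat_lit 0) (nat_lit 0) (XT.lf (nat_lit 0) (nat_lit 1138887668146) (nat_lit 76) (nat_lit 1841333025466) (nat_lit 76) (nat_lit 1833324487857) (nat_lit 1) (nat_lit 4) (nat_lit 2) (nat_lit 5) (nat_lit 2) (nat_lit 4) (nat_lit 321) (nat_lit 257) (nat_lit 202)) (XT.lf (nat_lit 0) (nat_lit 1339584466315) (nat_lit 76) (nat_lit 2101402036717) (nat_lit 76) (nat_lit 2093393019635) (nat_lit 1) (nat_lit 4) (nat_lit 2) (nat_lit 5) (nat_lit 2) (nat_lit 4) (nat_lit 322) (nat_lit 257) (nat_lit 201)))) (XT.nd (nat_lit 78) (nat_lit 0) (nat_lit 0) (XT.lf (nat_lit 0) (nat_lit 1570382445925) (nat_lit 76) (nat_lit 2400483068495) (nat_lit 76) (nat_lit 2392473634479) (nat_lit 1) (nat_lit 4) (nat_lit 2) (nat_lit 5) (nat_lit 2) (nat_lit 4) (nat_lit 323) (nat_lit 257) (nat_lit 200)) (XT.nd (nat_lit 78) (nat_lit 0)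 (nat_lit 0) (XT.lf (nat_lit 0) (nat_lit 1835797219621) (nat_lit 76) (nat_lit 2744427706205) (nat_lit 76) (nat_lit 2736417909638) (nat_lit 1) (nat_lit 4) (nat_lit 2) (nat_lit 5) (nat_lit 2) (nat_lit 4) (nat_lit 324) (nat_lit 257) (nat_lit 199)) (XT.lf (nat_lit 0) (nat_lit 2141021685148) (nat_lit 76) (nat_lit 3139965301452) (nat_lit 76) (nat_lit 3131955189623) (nat_lit 1) (nat_lit 4) (nat_lit 2) (nat_lit 5) (nat_lit 2) (nat_lit 4) (nat_lit 325) (nat_lit 257) (nat_lit 198))))) (XT.nd (nat_lit 35802) (nat_lit 0) (nat_lit 3572) (XT.nd (nat_lit 78) (nat_lit 0) (nat_lit 0) (XT.lf (nat_lit 0) (nat_lit 2492027625528) (nat_lit 76) (nat_lit 3594834633275) (nat_lit 76) (nat_lit 3586824247306) (nat_lit 1) (nat_lit 4) (nat_lit 2) (nat_lit 5) (nat_lit 2) (nat_lit 4) (nat_lit 326) (nat_lit 257) (nat_lit 197)) (XT.nd (nat_lit 78) (nat_lit 0) (nat_lit 0) (XT.lf (nat_lit 0) (nat_lit 2895682548291) (nat_lit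 76) (nat_lit 4117935319036) (nat_lit 76) (nat_lit 4109924694683) (nat_lit 1) (nat_lit 4) (nat_lit 2) (nat_lit 5) (nat_lit 2) (nat_lit 4) (nat_lit 327) (nat_lit 257) (nat_lit 196)) (XT.lf (nat_lit 0) (nat_lit 3359884049751) (nat_lit 76) (nat_lit 4719501937368) (nat_lit 76) (nat_lit 4711491105726) (nat_lit 1) (nat_lit 4) (nat_lit 2) (nat_lit 5) (nat_lit 2) (nat_lit 4) (nat_lit 328) (nat_lit 257) (nat_lit 195)))) (XT.nd (nat_lit 156) (nat_lit 912) (nat_lit 0) (XT.nd (nat_lit 78) (nat_lit 380) (nat_lit 0) (XT.lf (nat_lit 0) (nat_lit 303147057) (nat_lit 380) (nat_lit 2810387590) (nat_lit 0) (nat_lit 303147057) (nat_lit 65) (nat_lit 5) (nat_lit 70) (nat_lit 4) (nat_lit 65) (nat_lit 4) (nat_lit 264) (nat_lit 258) (nat_lit 258)) (XT.lf (nat_lit 0) (nat_lit 2810689913) (nat_lit 380) (nat_lit 3760797464) (nat_lit 380) (nat_lit 492266544) (nat_lit 60) (nat_lit 4) (nat_lit 65) (nat_lit 5) (nat_lit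 65) (nat_lit 4) (nat_lit 265) (nat_lit 258) (nat_lit 257))) (XT.nd (nat_lit 78) (nat_lit 380) (nat_lit 0) (XT.lf (nat_lit 0) (nat_lit 4754405572) (nat_lit 456) (nat_lit 469218126) (nat_lit 532) (nat_lit 2141131487) (nat_lit 53) (nat_lit 5) (nat_lit 59) (nat_lit 5) (nat_lit 60) (nat_lit 4) (nat_lit 266) (nat_lit 258) (nat_lit 256)) (XT.lf (nat_lit 0) (nat_lit 3456925167) (nat_lit 380) (nat_lit 756087018) (nat_lit 76) (nat_lit 3522418760) (nat_lit 48) (nat_lit 5) (nat_lit 53) (nat_lit 5) (nat_lit 49) (nat_lit 4) (nat_lit 267) (nat_lit 258) (nat_lit 255)))))) (XT.nd (nat_lit 468) (nat_lit 836) (nat_lit 0) (XT.nd (nat_lit 234) (nat_lit 760) (nat_lit 0) (XT.nd (nat_lit 78) (nat_lit 456) (nat_lit 0) (XT.lf (nat_lit 0) (nat_lit 1183597499) (nat_lit 304) (nat_lit 6738496841) (nat_lit 76) (nat_lit 261007074) (nat_lit 41) (nat_lit 5) (nat_lit 45) (nat_lit 5) (nat_lit 42) (nat_lit 4) (nat_lit 268)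 (nat_lit 258) (nat_lit 254)) (XT.nd (nat_lit 78) (nat_lit 304) (nat_lit 0) (XT.lf (nat_lit 0) (nat_lit 3831706455) (nat_lit 152) (nat_lit 3204002689) (nat_lit 228) (nat_lit 1668463837) (nat_lit 39) (nat_lit 5) (nat_lit 41) (nat_lit 5) (nat_lit 42) (nat_lit 4) (nat_lit 269) (nat_lit 258) (nat_lit 253)) (XT.lf (nat_lit 0) (nat_lit 4038183336) (nat_lit 304) (nat_lit 2892964147) (nat_lit 76) (nat_lit 2380594878) (nat_lit 35) (nat_lit 5) (nat_lit 39) (nat_lit 5) (nat_lit 36) (nat_lit 4) (nat_lit 270) (nat_lit 258) (nat_lit 252)))) (XT.nd (nat_lit 78) (nat_lit 532) (nat_lit 0) (XT.lf (nat_lit 0) (nat_lit 364462400) (nat_lit 228) (nat_lit 808161620) (nat_lit 76) (nat_lit 8842559219) (nat_lit 32) (nat_lit 5) (nat_lit 35) (nat_lit 5) (nat_lit 33) (nat_lit 5) (nat_lit 271) (nat_lit 258) (nat_lit 251)) (XT.nd (nat_lit 78) (nat_lit 228) (nat_lit 0) (XT.lf (nat_lit 0) (nat_lit 1276513975) (nat_lit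 152) (nat_lit 5297647671) (nat_lit 228) (nat_lit 4236561638) (nat_lit 28) (nat_lit 5) (nat_lit 30) (nat_lit 5) (nat_lit 31) (nat_lit 4) (nat_lit 272) (nat_lit 258) (nat_lit 250)) (XT.lf (nat_lit 0) (nat_lit 1889376248) (nat_lit 228) (nat_lit 8276683733) (nat_lit 76) (nat_lit 1556253581) (nat_lit 25) (nat_lit 5) (nat_lit 28) (nat_lit 5) (nat_lit 26) (nat_lit 4) (nat_lit 273) (nat_lit 258) (nat_lit 249))))) (XT.nd (nat_lit 234) (nat_lit 456) (nat_lit 0) (XT.nd (nat_lit 78) (nat_lit 304) (nat_lit 0) (XT.lf (nat_lit 0) (nat_lit 5441343657) (nat_lit 76) (nat_lit 3347249503) (nat_lit 152) (nat_lit 3965246380) (nat_lit 24) (nat_lit 5) (nat_lit 25) (nat_lit 5) (nat_lit 26) (nat_lit 4) (nat_lit 274) (nat_lit 258) (nat_lit 248)) (XT.nd (nat_lit 78) (nat_lit 76) (nat_lit 0) (XT.lf (nat_lit 0) (nat_lit 2750314225) (nat_lit 228) (nat_lit 6676378154) (nat_lit 76) (nat_lit 4499833135) (nat_lit 21) (nat_lit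 5) (nat_lit 24) (nat_lit 5) (nat_lit 22) (nat_lit 4) (nat_lit 275) (nat_lit 258) (nat_lit 247)) (XT.lf (nat_lit 0) (nat_lit 8726543840) (nat_lit 76) (nat_lit 1641869790) (nat_lit 152) (nat_lit 4888355740) (nat_lit 20) (nat_lit 5) (nat_lit 21) (nat_lit 5) (nat_lit 22) (nat_lit 4) (nat_lit 276) (nat_lit 258) (nat_lit 246)))) (XT.nd (nat_lit 156) (nat_lit 228) (nat_lit 0) (XT.nd (nat_lit 78) (nat_lit 76) (nat_lit 0) (XT.lf (nat_lit 0) (nat_lit 2473639836) (nat_lit 152) (nat_lit 7099953744) (nat_lit 76) (nat_lit 7188833294) (nat_lit 18) (nat_lit 5) (nat_lit 20) (nat_lit 5) (nat_lit 19) (nat_lit 4) (nat_lit 277) (nat_lit 258) (nat_lit 245)) (XT.lf (nat_lit 0) (nat_lit 9898127636) (nat_lit 76) (nat_lit 896688937) (nat_lit 152) (nat_lit 7677618332) (nat_lit 17) (nat_lit 5) (nat_lit 18) (nat_lit 5) (nat_lit 19) (nat_lit 4) (nat_lit 278) (nat_lit 258) (nat_lit 244))) (XT.nd (nat_lit 78) (nat_lit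 76) (nat_lit 0) (XT.lf (nat_lit 0) (nat_lit 269680176) (nat_lit 152) (nat_lit 11313719578) (nat_lit 76) (nat_lit 8828596744) (nat_lit 15) (nat_lit 5) (nat_lit 17) (nat_lit 5) (nat_lit 16) (nat_lit 4) (nat_lit 279) (nat_lit 258) (nat_lit 243)) (XT.lf (nat_lit 0) (nat_lit 6872397176) (nat_lit 76) (nat_lit 2244943745) (nat_lit 152) (nat_lit 13496312474) (nat_lit 14) (nat_lit 5) (nat_lit 15) (nat_lit 5) (nat_lit 16) (nat_lit 4) (nat_lit 280) (nat_lit 258) (nat_lit 242))))))))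
noncomputable def xc21 : XT := (XT.nd (nat_lit 2028) (nat_lit 76) (nat_lit 0) (XT.nd (nat_lit 1014) (nat_lit 152) (nat_lit 0) (XT.nd (nat_lit 468) (nat_lit 304) (nat_lit 0) (XT.nd (nat_lit 234) (nat_lit 228) (nat_lit 0) (XT.nd (nat_lit 78) (nat_lit 152) (nat_lit 0) (XT.lf (nat_lit 0) (nat_lit 2761504260) (nat_lit 76) (nat_lit 16864113660) (nat_lit 76) (nat_lit 5493388758) (nat_lit 13) (nat_lit 4) (nat_lit 14) (nat_lit 5) (nat_lit 14) (nat_lit 4) (nat_lit 281) (nat_lit 258) (nat_lit 241)) (XT.nd (nat_lit 78) (nat_lit 76) (nat_lit 0) (XT.lf (nat_lit 0) (nat_lit 3799407933) (nat_lit 152) (nat_lit 3619897586) (nat_lit 76) (nat_lit 20551818480) (nat_lit 12) (nat_lit 5) (nat_lit 14) (nat_lit 5) (nat_lit 13) (nat_lit 4) (nat_lit 282) (nat_lit 258) (nat_lit 240)) (XT.lf (nat_lit 0) (nat_lit 14479089490) (nat_lit 152) (nat_lit 13047565120) (nat_lit 0) (nat_lit 3687618325) (nat_lit 11) (nat_lit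 5) (nat_lit 13) (nat_lit 4) (nat_lit 11) (nat_lit 4) (nat_lit 283) (nat_lit 258) (nat_lit 239)))) (XT.nd (nat_lit 78) (nat_lit 152) (nat_lit 0) (XT.lf (nat_lit 0) (nat_lit 8314123071) (nat_lit 76) (nat_lit 18751646925) (nat_lit 76) (nat_lit 7853796717) (nat_lit 10) (nat_lit 4) (nat_lit 11) (nat_lit 5) (nat_lit 11) (nat_lit 4) (nat_lit 284) (nat_lit 258) (nat_lit 238)) (XT.nd (nat_lit 78) (nat_lit 76) (nat_lit 0) (XT.lf (nat_lit 0) (nat_lit 2436634544) (nat_lit 152) (nat_lit 5922153870) (nat_lit 76) (nat_lit 30801796618) (nat_lit 9) (nat_lit 5) (nat_lit 11) (nat_lit 5) (nat_lit 10) (nat_lit 4) (nat_lit 285) (nat_lit 258) (nat_lit 237)) (XT.lf (nat_lit 0) (nat_lit 14187530840) (nat_lit 152) (nat_lit 25866606524) (nat_lit 0) (nat_lit 3936797912) (nat_lit 8) (nat_lit 5) (nat_lit 10) (nat_lit 4) (nat_lit 8) (nat_lit 4) (nat_lit 286) (nat_lit 258) (nat_lit 236))))) (XT.nd (nat_lit 234) (nat_lit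 228) (nat_lit 0) (XT.nd (nat_lit 78) (nat_lit 76) (nat_lit 0) (XT.lf (nat_lit 0) (nat_lit 27951148150) (nat_lit 152) (nat_lit 3939078941) (nat_lit 0) (nat_lit 17635650457) (nat_lit 8) (nat_lit 5) (nat_lit 10) (nat_lit 4) (nat_lit 8) (nat_lit 4) (nat_lit 287) (nat_lit 258) (nat_lit 235)) (XT.nd (nat_lit 78) (nat_lit 0) (nat_lit 0) (XT.lf (nat_lit 0) (nat_lit 22116285810) (nat_lit 76) (nat_lit 22057534793) (nat_lit 76) (nat_lit 11685719912) (nat_lit 7) (nat_lit 4) (nat_lit 8) (nat_lit 5) (nat_lit 8) (nat_lit 4) (nat_lit 288) (nat_lit 258) (nat_lit 234)) (XT.lf (nat_lit 0) (nat_lit 52073510009) (nat_lit 76) (nat_lit 10745709172) (nat_lit 76) (nat_lit 324922823) (nat_lit 7) (nat_lit 4) (nat_lit 8) (nat_lit 5) (nat_lit 8) (nat_lit 4) (nat_lit 289) (nat_lit 258) (nat_lit 233)))) (XT.nd (nat_lit 156) (nat_lit 76) (nat_lit 0) (XT.nd (nat_lit 78) (nat_lit 0) (nat_lit 0) (XT.lf (nat_lit 0) (nat_lit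 12426667087) (nat_lit 152) (nat_lit 56306003452) (nat_lit 0) (nat_lit 2738361315) (nat_lit 5) (nat_lit 5) (nat_lit 7) (nat_lit 4) (nat_lit 5) (nat_lit 4) (nat_lit 290) (nat_lit 258) (nat_lit 232)) (XT.lf (nat_lit 0) (nat_lit 27595724818) (nat_lit 152) (nat_lit 35535529796) (nat_lit 0) (nat_lit 17873132505) (nat_lit 5) (nat_lit 5) (nat_lit 7) (nat_lit 4) (nat_lit 5) (nat_lit 4) (nat_lit 291) (nat_lit 258) (nat_lit 231))) (XT.nd (nat_lit 78) (nat_lit 76) (nat_lit 0) (XT.lf (nat_lit 0) (nat_lit 44949306789) (nat_lit 152) (nat_lit 11828826912) (nat_lit 0) (nat_lit 35196900091) (nat_lit 5) (nat_lit 5) (nat_lit 7) (nat_lit 4) (nat_lit 5) (nat_lit 4) (nat_lit 292) (nat_lit 258) (nat_lit 230)) (XT.lf (nat_lit 0) (nat_lit 16082440817) (nat_lit 76) (nat_lit 49131281874) (nat_lit 76) (nat_lit 39352949625) (nat_lit 4) (nat_lit 4) (nat_lit 5) (nat_lit 5) (nat_lit 5) (nat_lit 4) (nat_lit 293) (nat_lit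 258) (nat_lit 229)))))) (XT.nd (nat_lit 468) (nat_lit 0) (nat_lit 0) (XT.nd (nat_lit 234) (nat_lit 152) (nat_lit 0) (XT.nd (nat_lit 78) (nat_lit 0) (nat_lit 0) (XT.lf (nat_lit 0) (nat_lit 48753967462) (nat_lit 76) (nat_lit 40036100097) (nat_lit 76) (nat_lit 30235223891) (nat_lit 4) (nat_lit 4) (nat_lit 5) (nat_lit 5) (nat_lit 5) (nat_lit 4) (nat_lit 294) (nat_lit 258) (nat_lit 228)) (XT.nd (nat_lit 78) (nat_lit 0) (nat_lit 0) (XT.lf (nat_lit 0) (nat_lit 86202093478) (nat_lit 76) (nat_lit 29638060253) (nat_lit 76) (nat_lit 19817580605) (nat_lit 4) (nat_lit 4) (nat_lit 5) (nat_lit 5) (nat_lit 5) (nat_lit 4) (nat_lit 295) (nat_lit 258) (nat_lit 227)) (XT.lf (nat_lit 0) (nat_lit 129159499592) (nat_lit 76) (nat_lit 17733722432) (nat_lit 76) (nat_lit 7896196313) (nat_lit 4) (nat_lit 4) (nat_lit 5) (nat_lit 5) (nat_lit 5) (nat_lit 4) (nat_lit 296) (nat_lit 258) (nat_lit 226)))) (XT.nd (nat_lit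 78) (nat_lit 0) (nat_lit 0) (XT.lf (nat_lit 0) (nat_lit 1614164416) (nat_lit 76) (nat_lit 3898582484) (nat_lit 152) (nat_lit 171267720019) (nat_lit 2) (nat_lit 5) (nat_lit 3) (nat_lit 5) (nat_lit 4) (nat_lit 4) (nat_lit 297) (nat_lit 258) (nat_lit 225)) (XT.nd (nat_lit 78) (nat_lit 0) (nat_lit 0) (XT.lf (nat_lit 0) (nat_lit 21487745709) (nat_lit 152) (nat_lit 168130981974) (nat_lit 0) (nat_lit 12353265415) (nat_lit 2) (nat_lit 5) (nat_lit 4) (nat_lit 4) (nat_lit 2) (nat_lit 4) (nat_lit 298) (nat_lit 258) (nat_lit 224)) (XT.lf (nat_lit 0) (nat_lit 39927262992) (nat_lit 152) (nat_lit 160227126544) (nat_lit 0) (nat_lit 30782404613) (nat_lit 2) (nat_lit 5) (nat_lit 4) (nat_lit 4) (nat_lit 2) (nat_lit 4) (nat_lit 299) (nat_lit 258) (nat_lit 223))))) (XT.nd (nat_lit 234) (nat_lit 0) (nat_lit 0) (XT.nd (nat_lit 78) (nat_lit 0) (nat_lit 0) (XT.lf (nat_lit 0) (nat_lit 61098310910) (nat_lit 152)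 (nat_lit 151206334561) (nat_lit 0) (nat_lit 51944428110) (nat_lit 2) (nat_lit 5) (nat_lit 4) (nat_lit 4) (nat_lit 2) (nat_lit 4) (nat_lit 300) (nat_lit 258) (nat_lit 222)) (XT.nd (nat_lit 78) (nat_lit 0) (nat_lit 0) (XT.lf (nat_lit 0) (nat_lit 85415105619) (nat_lit 152) (nat_lit 140892112268) (nat_lit 0) (nat_lit 76253375496) (nat_lit 2) (nat_lit 5) (nat_lit 4) (nat_lit 4) (nat_lit 2) (nat_lit 4) (nat_lit 301) (nat_lit 258) (nat_lit 221)) (XT.lf (nat_lit 0) (nat_lit 113353410494) (nat_lit 152) (nat_lit 129082659665) (nat_lit 0) (nat_lit 104184856612) (nat_lit 2) (nat_lit 5) (nat_lit 4) (nat_lit 4) (nat_lit 2) (nat_lit 4) (nat_lit 302) (nat_lit 258) (nat_lit 220)))) (XT.nd (nat_lit 156) (nat_lit 0) (nat_lit 0) (XT.nd (nat_lit 78) (nat_lit 0) (nat_lit 0) (XT.lf (nat_lit 0) (nat_lit 145459844542) (nat_lit 152) (nat_lit 115546922243) (nat_lit 0) (nat_lit 136285356957) (nat_lit 2) (nat_lit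 5) (nat_lit 4) (nat_lit 4) (nat_lit 2) (nat_lit 4) (nat_lit 303) (nat_lit 258) (nat_lit 219)) (XT.lf (nat_lit 0) (nat_lit 182362577127) (nat_lit 152) (nat_lit 100020070358) (nat_lit 0) (nat_lit 173182929799) (nat_lit 2) (nat_lit 5) (nat_lit 4) (nat_lit 4) (nat_lit 2) (nat_lit 4) (nat_lit 304) (nat_lit 258) (nat_lit 218))) (XT.nd (nat_lit 78) (nat_lit 0) (nat_lit 0) (XT.lf (nat_lit 0) (nat_lit 224783618232) (nat_lit 152) (nat_lit 82198317778) (nat_lit 0) (nat_lit 215599484171) (nat_lit 2) (nat_lit 5) (nat_lit 4) (nat_lit 4) (nat_lit 2) (nat_lit 4) (nat_lit 305) (nat_lit 258) (nat_lit 217)) (XT.lf (nat_lit 0) (nat_lit 273552944749) (nat_lit 152) (nat_lit 61732978038) (nat_lit 0) (nat_lit 264364909183) (nat_lit 2) (nat_lit 5) (nat_lit 4) (nat_lit 4) (nat_lit 2) (nat_lit 4) (nat_lit 306) (nat_lit 258) (nat_lit 216))))))) (XT.nd (nat_lit 1014) (nat_lit 0) (nat_lit 0) (XT.nd (nat_lit 468) (nat_lit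 0) (nat_lit 0) (XT.nd (nat_lit 234) (nat_lit 0) (nat_lit 0) (XT.nd (nat_lit 78) (nat_lit 76) (nat_lit 0) (XT.lf (nat_lit 0) (nat_lit 329624739154) (nat_lit 152) (nat_lit 38223642317) (nat_lit 0) (nat_lit 320433310973) (nat_lit 2) (nat_lit 5) (nat_lit 4) (nat_lit 4) (nat_lit 2) (nat_lit 4) (nat_lit 307) (nat_lit 258) (nat_lit 215)) (XT.nd (nat_lit 78) (nat_lit 76) (nat_lit 0) (XT.lf (nat_lit 0) (nat_lit 394096058294) (nat_lit 152) (nat_lit 11210345352) (nat_lit 0) (nat_lit 384901680014) (nat_lit 2) (nat_lit 5) (nat_lit 4) (nat_lit 4) (nat_lit 2) (nat_lit 4) (nat_lit 308) (nat_lit 258) (nat_lit 214)) (XT.lf (nat_lit 0) (nat_lit 20879932681) (nat_lit 76) (nat_lit 447850527744) (nat_lit 76) (nat_lit 438653584160) (nat_lit 1) (nat_lit 4) (nat_lit 2) (nat_lit 5) (nat_lit 2) (nat_lit 4) (nat_lit 309) (nat_lit 258) (nat_lit 213)))) (XT.nd (nat_lit 78) (nat_lit 0) (nat_lit 0) (XT.lf (nat_lit 0)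 (nat_lit 58444756222) (nat_lit 76) (nat_lit 496432711847) (nat_lit 76) (nat_lit 487233537564) (nat_lit 1) (nat_lit 4) (nat_lit 2) (nat_lit 5) (nat_lit 2) (nat_lit 4) (nat_lit 310) (nat_lit 258) (nat_lit 212)) (XT.nd (nat_lit 78) (nat_lit 0) (nat_lit 0) (XT.lf (nat_lit 0) (nat_lit 101628772290) (nat_lit 76) (nat_lit 552309987657) (nat_lit 76) (nat_lit 543108873636) (nat_lit 1) (nat_lit 4) (nat_lit 2) (nat_lit 5) (nat_lit 2) (nat_lit 4) (nat_lit 311) (nat_lit 258) (nat_lit 211)) (XT.lf (nat_lit 0) (nat_lit 151276885545) (nat_lit 76) (nat_lit 616575606222) (nat_lit 76) (nat_lit 607372805472) (nat_lit 1) (nat_lit 4) (nat_lit 2) (nat_lit 5) (nat_lit 2) (nat_lit 4) (nat_lit 312) (nat_lit 258) (nat_lit 210))))) (XT.nd (nat_lit 234) (nat_lit 0) (nat_lit 0) (XT.nd (nat_lit 78) (nat_lit 0) (nat_lit 0) (XT.lf (nat_lit 0) (nat_lit 208360472117) (nat_lit 76) (nat_lit 690486938340) (nat_lit 76) (nat_lit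 681282670869) (nat_lit 1) (nat_lit 4) (nat_lit 2) (nat_lit 5) (nat_lit 2) (nat_lit 4) (nat_lit 313) (nat_lit 258) (nat_lit 209)) (XT.nd (nat_lit 78) (nat_lit 0) (nat_lit 0) (XT.lf (nat_lit 0) (nat_lit 273996384787) (nat_lit 76) (nat_lit 775490075293) (nat_lit 76) (nat_lit 766284532412) (nat_lit 1) (nat_lit 4) (nat_lit 2) (nat_lit 5) (nat_lit 2) (nat_lit 4) (nat_lit 314) (nat_lit 258) (nat_lit 208)) (XT.lf (nat_lit 0) (nat_lit 349468804456) (nat_lit 76) (nat_lit 873248121932) (nat_lit 76) (nat_lit 864041470000) (nat_lit 1) (nat_lit 4) (nat_lit 2) (nat_lit 5) (nat_lit 2) (nat_lit 4) (nat_lit 315) (nat_lit 258) (nat_lit 207)))) (XT.nd (nat_lit 156) (nat_lit 0) (nat_lit 0) (XT.nd (nat_lit 78) (nat_lit 0) (nat_lit 0) (XT.lf (nat_lit 0) (nat_lit 436254365420) (nat_lit 76) (nat_lit 985673735694) (nat_lit 76) (nat_lit 976466119369) (nat_lit 1) (nat_lit 4) (nat_lit 2) (nat_lit 5) (nat_lit 2) (nat_lit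 4) (nat_lit 316) (nat_lit 258) (nat_lit 206)) (XT.lf (nat_lit 0) (nat_lit 536051046046) (nat_lit 76) (nat_lit 1114966548150) (nat_lit 76) (nat_lit 1105758093223) (nat_lit 1) (nat_lit 4) (nat_lit 2) (nat_lit 5) (nat_lit 2) (nat_lit 4) (nat_lit 317) (nat_lit 258) (nat_lit 205))) (XT.nd (nat_lit 78) (nat_lit 0) (nat_lit 0) (XT.lf (nat_lit 0) (nat_lit 650811390086) (nat_lit 76) (nat_lit 1263656201284) (nat_lit 76) (nat_lit 1254447017138) (nat_lit 1) (nat_lit 4) (nat_lit 2) (nat_lit 5) (nat_lit 2) (nat_lit 4) (nat_lit 318) (nat_lit 258) (nat_lit 204)) (XT.lf (nat_lit 0) (nat_lit 782780708619) (nat_lit 76) (nat_lit 1434651840484) (nat_lit 76) (nat_lit 1425442022234) (nat_lit 1) (nat_lit 4) (nat_lit 2) (nat_lit 5) (nat_lit 2) (nat_lit 4) (nat_lit 319) (nat_lit 258) (nat_lit 203)))))) (XT.nd (nat_lit 468) (nat_lit 0) (nat_lit 0) (XT.nd (nat_lit 234) (nat_lit 0) (nat_lit 0) (XT.nd (nat_lit 78)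 (nat_lit 0) (nat_lit 0) (XT.lf (nat_lit 0) (nat_lit 934541010051) (nat_lit 76) (nat_lit 1631299032603) (nat_lit 76) (nat_lit 1622088662958) (nat_lit 1) (nat_lit 4) (nat_lit 2) (nat_lit 5) (nat_lit 2) (nat_lit 4) (nat_lit 320) (nat_lit 258) (nat_lit 202)) (XT.nd (nat_lit 78) (nat_lit 0) (nat_lit 0) (XT.lf (nat_lit 0) (nat_lit 1109061517671) (nat_lit 76) (nat_lit 1857445222705) (nat_lit 76) (nat_lit 1848234373586) (nat_lit 1) (nat_lit 4) (nat_lit 2) (nat_lit 5) (nat_lit 2) (nat_lit 4) (nat_lit 321) (nat_lit 258) (nat_lit 201)) (XT.lf (nat_lit 0) (nat_lit 1309756763150) (nat_lit 76) (nat_lit 2117515010160) (nat_lit 76) (nat_lit 2108303744108) (nat_lit 1) (nat_lit 4) (nat_lit 2) (nat_lit 5) (nat_lit 2) (nat_lit 4) (nat_lit 322) (nat_lit 258) (nat_lit 200)))) (XT.nd (nat_lit 78) (nat_lit 0) (nat_lit 0) (XT.lf (nat_lit 0) (nat_lit 1540553392594) (nat_lit 76) (nat_lit 2416596716899) (nat_lit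 76) (nat_lit 2407385088296) (nat_lit 1) (nat_lit 4) (nat_lit 2) (nat_lit 5) (nat_lit 2) (nat_lit 4) (nat_lit 323) (nat_lit 258) (nat_lit 199)) (XT.nd (nat_lit 78) (nat_lit 0) (nat_lit 0) (XT.lf (nat_lit 0) (nat_lit 1805966992233) (nat_lit 76) (nat_lit 2760541941530) (nat_lit 76) (nat_lit 2751329997665) (nat_lit 1) (nat_lit 4) (nat_lit 2) (nat_lit 5) (nat_lit 2) (nat_lit 4) (nat_lit 324) (nat_lit 258) (nat_lit 198)) (XT.lf (nat_lit 0) (nat_lit 2111190436841) (nat_lit 76) (nat_lit 3156080047144) (nat_lit 76) (nat_lit 3146867829139) (nat_lit 1) (nat_lit 4) (nat_lit 2) (nat_lit 5) (nat_lit 2) (nat_lit 4) (nat_lit 325) (nat_lit 258) (nat_lit 197))))) (XT.nd (nat_lit 35646) (nat_lit 0) (nat_lit 4408) (XT.nd (nat_lit 78) (nat_lit 0) (nat_lit 0) (XT.lf (nat_lit 0) (nat_lit 2462195489466) (nat_lit 76) (nat_lit 3610949822764) (nat_lit 76) (nat_lit 3601737366376) (nat_lit 1) (nat_lit 4) (nat_lit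 2) (nat_lit 5) (nat_lit 2) (nat_lit 4) (nat_lit 326) (nat_lit 258) (nat_lit 196)) (XT.nd (nat_lit 78) (nat_lit 0) (nat_lit 0) (XT.lf (nat_lit 0) (nat_lit 2865849640267) (nat_lit 76) (nat_lit 4134050894435) (nat_lit 76) (nat_lit 4124838230757) (nat_lit 1) (nat_lit 4) (nat_lit 2) (nat_lit 5) (nat_lit 2) (nat_lit 4) (nat_lit 327) (nat_lit 258) (nat_lit 195)) (XT.lf (nat_lit 0) (nat_lit 3330050470456) (nat_lit 76) (nat_lit 4735617848342) (nat_lit 76) (nat_lit 4726405004412) (nat_lit 1) (nat_lit 4) (nat_lit 2) (nat_lit 5) (nat_lit 2) (nat_lit 4) (nat_lit 328) (nat_lit 258) (nat_lit 194)))) (XT.nd (nat_lit 156) (nat_lit 1064) (nat_lit 0) (XT.nd (nat_lit 78) (nat_lit 228) (nat_lit 0) (XT.lf (nat_lit 0) (nat_lit 3014725021) (nat_lit 76) (nat_lit 127374247) (nat_lit 76) (nat_lit 127374247) (nat_lit 76) (nat_lit 4) (nat_lit 77) (nat_lit 5) (nat_lit 77) (nat_lit 4) (nat_lit 262) (nat_lit 259) (nat_lit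 259)) (XT.lf (nat_lit 0) (nat_lit 5331776901) (nat_lit 228) (nat_lit 64262538) (nat_lit 0) (nat_lit 1272261498) (nat_lit 73) (nat_lit 5) (nat_lit 76) (nat_lit 4) (nat_lit 73) (nat_lit 4) (nat_lit 263) (nat_lit 259) (nat_lit 258))) (XT.nd (nat_lit 78) (nat_lit 456) (nat_lit 0) (XT.lf (nat_lit 0) (nat_lit 748602061) (nat_lit 304) (nat_lit 3260114696) (nat_lit 380) (nat_lit 2854247197) (nat_lit 65) (nat_lit 5) (nat_lit 69) (nat_lit 5) (nat_lit 70) (nat_lit 4) (nat_lit 264) (nat_lit 259) (nat_lit 257)) (XT.lf (nat_lit 0) (nat_lit 1923560591) (nat_lit 380) (nat_lit 331464208) (nat_lit 456) (nat_lit 4872179389) (nat_lit 59) (nat_lit 5) (nat_lit 64) (nat_lit 5) (nat_lit 65) (nat_lit 5) (nat_lit 265) (nat_lit 259) (nat_lit 256))))))))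
noncomputable def xc22 : XT := (XT.nd (nat_lit 2028) (nat_lit 304) (nat_lit 0) (XT.nd (nat_lit 1014) (nat_lit 988) (nat_lit 0) (XT.nd (nat_lit 468) (nat_lit 1140) (nat_lit 0) (XT.nd (nat_lit 234) (nat_lit 836) (nat_lit 0) (XT.nd (nat_lit 78) (nat_lit 608) (nat_lit 0) (XT.lf (nat_lit 0) (nat_lit 95060212) (nat_lit 532) (nat_lit 4079571668) (nat_lit 76) (nat_lit 3284174712) (nat_lit 52) (nat_lit 5) (nat_lit 59) (nat_lit 5) (nat_lit 53) (nat_lit 5) (nat_lit 266) (nat_lit 259) (nat_lit 255)) (XT.nd (nat_lit 78) (nat_lit 304) (nat_lit 0) (XT.lf (nat_lit 0) (nat_lit 5119889663) (nat_lit 304) (nat_lit 12483763) (nat_lit 380) (nat_lit 2729894388) (nat_lit 48) (nat_lit 5) (nat_lit 52) (nat_lit 5) (nat_lit 53) (nat_lit 5) (nat_lit 267) (nat_lit 259) (nat_lit 254)) (XT.lf (nat_lit 0) (nat_lit 2260785883) (nat_lit 304) (nat_lit 1243300411) (nat_lit 76) (nat_lit 4834883376) (nat_lit 44) (nat_lit 5)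 (nat_lit 48) (nat_lit 5) (nat_lit 45) (nat_lit 5) (nat_lit 268) (nat_lit 259) (nat_lit 253)))) (XT.nd (nat_lit 78) (nat_lit 456) (nat_lit 0) (XT.lf (nat_lit 0) (nat_lit 482957842) (nat_lit 152) (nat_lit 7161901954) (nat_lit 228) (nat_lit 1253054461) (nat_lit 39) (nat_lit 5) (nat_lit 41) (nat_lit 5) (nat_lit 42) (nat_lit 4) (nat_lit 269) (nat_lit 259) (nat_lit 252)) (XT.nd (nat_lit 78) (nat_lit 152) (nat_lit 0) (XT.lf (nat_lit 0) (nat_lit 2388454947) (nat_lit 228) (nat_lit 1635517387) (nat_lit 304) (nat_lit 5513765466) (nat_lit 35) (nat_lit 5) (nat_lit 38) (nat_lit 5) (nat_lit 39) (nat_lit 5) (nat_lit 270) (nat_lit 259) (nat_lit 251)) (XT.lf (nat_lit 0) (nat_lit 4435084417) (nat_lit 152) (nat_lit 5569007436) (nat_lit 228) (nat_lit 268627867) (nat_lit 33) (nat_lit 5) (nat_lit 35) (nat_lit 5) (nat_lit 36) (nat_lit 4) (nat_lit 271) (nat_lit 259) (nat_lit 250))))) (XT.nd (nat_lit 234) (nat_lit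 532) (nat_lit 0) (XT.nd (nat_lit 78) (nat_lit 380) (nat_lit 0) (XT.lf (nat_lit 0) (nat_lit 5466948298) (nat_lit 228) (nat_lit 4574698746) (nat_lit 76) (nat_lit 1066376835) (nat_lit 30) (nat_lit 5) (nat_lit 33) (nat_lit 5) (nat_lit 31) (nat_lit 4) (nat_lit 272) (nat_lit 259) (nat_lit 249)) (XT.nd (nat_lit 78) (nat_lit 152) (nat_lit 0) (XT.lf (nat_lit 0) (nat_lit 108398632) (nat_lit 228) (nat_lit 3371138280) (nat_lit 76) (nat_lit 8578712551) (nat_lit 27) (nat_lit 5) (nat_lit 30) (nat_lit 5) (nat_lit 28) (nat_lit 5) (nat_lit 273) (nat_lit 259) (nat_lit 248)) (XT.lf (nat_lit 0) (nat_lit 6517815708) (nat_lit 228) (nat_lit 2389920915) (nat_lit 76) (nat_lit 4221392518) (nat_lit 25) (nat_lit 5) (nat_lit 28) (nat_lit 5) (nat_lit 26) (nat_lit 4) (nat_lit 274) (nat_lit 259) (nat_lit 247)))) (XT.nd (nat_lit 156) (nat_lit 228) (nat_lit 0) (XT.nd (nat_lit 78) (nat_lit 228) (nat_lit 0) (XT.lf (nat_lit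 0) (nat_lit 12782438424) (nat_lit 76) (nat_lit 1259657135) (nat_lit 152) (nat_lit 306586479) (nat_lit 24) (nat_lit 5) (nat_lit 25) (nat_lit 5) (nat_lit 26) (nat_lit 4) (nat_lit 275) (nat_lit 259) (nat_lit 246)) (XT.lf (nat_lit 0) (nat_lit 6885207124) (nat_lit 228) (nat_lit 1272192002) (nat_lit 76) (nat_lit 7557566863) (nat_lit 21) (nat_lit 5) (nat_lit 24) (nat_lit 5) (nat_lit 22) (nat_lit 4) (nat_lit 276) (nat_lit 259) (nat_lit 245))) (XT.nd (nat_lit 78) (nat_lit 152) (nat_lit 0) (XT.lf (nat_lit 0) (nat_lit 15315882538) (nat_lit 152) (nat_lit 1388071942) (nat_lit 0) (nat_lit 567561842) (nat_lit 20) (nat_lit 5) (nat_lit 22) (nat_lit 4) (nat_lit 20) (nat_lit 4) (nat_lit 277) (nat_lit 259) (nat_lit 244)) (XT.lf (nat_lit 0) (nat_lit 6050775648) (nat_lit 152) (nat_lit 2432243200) (nat_lit 76) (nat_lit 10535359019) (nat_lit 18) (nat_lit 5) (nat_lit 20) (nat_lit 5) (nat_lit 19) (nat_lit 4) (nat_lit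 278) (nat_lit 259) (nat_lit 243)))))) (XT.nd (nat_lit 468) (nat_lit 456) (nat_lit 0) (XT.nd (nat_lit 234) (nat_lit 228) (nat_lit 0) (XT.nd (nat_lit 78) (nat_lit 228) (nat_lit 0) (XT.lf (nat_lit 0) (nat_lit 15359461774) (nat_lit 152) (nat_lit 4409508450) (nat_lit 0) (nat_lit 1237021447) (nat_lit 17) (nat_lit 5) (nat_lit 19) (nat_lit 4) (nat_lit 17) (nat_lit 4) (nat_lit 279) (nat_lit 259) (nat_lit 242)) (XT.nd (nat_lit 78) (nat_lit 76) (nat_lit 0) (XT.lf (nat_lit 0) (nat_lit 3083959388) (nat_lit 152) (nat_lit 7896515753) (nat_lit 76) (nat_lit 12270066306) (nat_lit 15) (nat_lit 5) (nat_lit 17) (nat_lit 5) (nat_lit 16) (nat_lit 4) (nat_lit 280) (nat_lit 259) (nat_lit 241)) (XT.lf (nat_lit 0) (nat_lit 12584621729) (nat_lit 76) (nat_lit 424930910) (nat_lit 152) (nat_lit 12793007439) (nat_lit 14) (nat_lit 5) (nat_lit 15) (nat_lit 5) (nat_lit 16) (nat_lit 4) (nat_lit 281) (nat_lit 259) (nat_lit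 240)))) (XT.nd (nat_lit 78) (nat_lit 152) (nat_lit 0) (XT.lf (nat_lit 0) (nat_lit 7599307613) (nat_lit 76) (nat_lit 17316958037) (nat_lit 76) (nat_lit 3781828079) (nat_lit 13) (nat_lit 4) (nat_lit 14) (nat_lit 5) (nat_lit 14) (nat_lit 4) (nat_lit 282) (nat_lit 259) (nat_lit 239)) (XT.nd (nat_lit 78) (nat_lit 76) (nat_lit 0) (XT.lf (nat_lit 0) (nat_lit 6463866568) (nat_lit 152) (nat_lit 205176859) (nat_lit 76) (nat_lit 25329364484) (nat_lit 12) (nat_lit 5) (nat_lit 14) (nat_lit 5) (nat_lit 13) (nat_lit 4) (nat_lit 283) (nat_lit 259) (nat_lit 238)) (XT.lf (nat_lit 0) (nat_lit 18600652027) (nat_lit 152) (nat_lit 11269830370) (nat_lit 0) (nat_lit 5869241731) (nat_lit 11) (nat_lit 5) (nat_lit 13) (nat_lit 4) (nat_lit 11) (nat_lit 4) (nat_lit 284) (nat_lit 259) (nat_lit 237))))) (XT.nd (nat_lit 234) (nat_lit 228) (nat_lit 0) (XT.nd (nat_lit 78) (nat_lit 152) (nat_lit 0) (XT.lf (nat_lit 0) (nat_lit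 12979972948) (nat_lit 76) (nat_lit 19923273653) (nat_lit 76) (nat_lit 7111425518) (nat_lit 10) (nat_lit 4) (nat_lit 11) (nat_lit 5) (nat_lit 11) (nat_lit 4) (nat_lit 285) (nat_lit 259) (nat_lit 236)) (XT.nd (nat_lit 78) (nat_lit 76) (nat_lit 0) (XT.lf (nat_lit 0) (nat_lit 4388540582) (nat_lit 152) (nat_lit 3753629670) (nat_lit 76) (nat_lit 36765089898) (nat_lit 9) (nat_lit 5) (nat_lit 11) (nat_lit 5) (nat_lit 10) (nat_lit 4) (nat_lit 286) (nat_lit 259) (nat_lit 235)) (XT.lf (nat_lit 0) (nat_lit 17794941786) (nat_lit 152) (nat_lit 26864819210) (nat_lit 0) (nat_lit 5811037485) (nat_lit 8) (nat_lit 5) (nat_lit 10) (nat_lit 4) (nat_lit 8) (nat_lit 4) (nat_lit 287) (nat_lit 259) (nat_lit 234)))) (XT.nd (nat_lit 156) (nat_lit 152) (nat_lit 0) (XT.nd (nat_lit 78) (nat_lit 76) (nat_lit 0) (XT.lf (nat_lit 0) (nat_lit 33430151955) (nat_lit 152) (nat_lit 2024046614) (nat_lit 0) (nat_lit 21397276187)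 (nat_lit 8) (nat_lit 5) (nat_lit 10) (nat_lit 4) (nat_lit 8) (nat_lit 4) (nat_lit 288) (nat_lit 259) (nat_lit 233)) (XT.lf (nat_lit 0) (nat_lit 27727511390) (nat_lit 76) (nat_lit 24246097036) (nat_lit 76) (nat_lit 12170637383) (nat_lit 7) (nat_lit 4) (nat_lit 8) (nat_lit 5) (nat_lit 8) (nat_lit 4) (nat_lit 289) (nat_lit 259) (nat_lit 232))) (XT.nd (nat_lit 78) (nat_lit 76) (nat_lit 0) (XT.lf (nat_lit 0) (nat_lit 692433406) (nat_lit 152) (nat_lit 10672227631) (nat_lit 76) (nat_lit 61167764406) (nat_lit 6) (nat_lit 5) (nat_lit 8) (nat_lit 5) (nat_lit 7) (nat_lit 4) (nat_lit 290) (nat_lit 259) (nat_lit 231)) (XT.lf (nat_lit 0) (nat_lit 15268721481) (nat_lit 152) (nat_lit 62820851343) (nat_lit 0) (nat_lit 4023639395) (nat_lit 5) (nat_lit 5) (nat_lit 7) (nat_lit 4) (nat_lit 5) (nat_lit 4) (nat_lit 291) (nat_lit 259) (nat_lit 230))))))) (XT.nd (nat_lit 1014) (nat_lit 76) (nat_lit 0) (XT.nd (nat_lit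 468) (nat_lit 152) (nat_lit 0) (XT.nd (nat_lit 234) (nat_lit 0) (nat_lit 0) (XT.nd (nat_lit 78) (nat_lit 76) (nat_lit 0) (XT.lf (nat_lit 0) (nat_lit 32585565567) (nat_lit 152) (nat_lit 39186683068) (nat_lit 0) (nat_lit 21314557930) (nat_lit 5) (nat_lit 5) (nat_lit 7) (nat_lit 4) (nat_lit 5) (nat_lit 4) (nat_lit 292) (nat_lit 259) (nat_lit 229)) (XT.nd (nat_lit 78) (nat_lit 76) (nat_lit 0) (XT.lf (nat_lit 0) (nat_lit 52431252396) (nat_lit 152) (nat_lit 12142997734) (nat_lit 0) (nat_lit 41137700800) (nat_lit 5) (nat_lit 5) (nat_lit 7) (nat_lit 4) (nat_lit 5) (nat_lit 4) (nat_lit 293) (nat_lit 259) (nat_lit 228)) (XT.lf (nat_lit 0) (nat_lit 19831365458) (nat_lit 76) (nat_lit 55839646500) (nat_lit 76) (nat_lit 44526491464) (nat_lit 4) (nat_lit 4) (nat_lit 5) (nat_lit 5) (nat_lit 5) (nat_lit 4) (nat_lit 294) (nat_lit 259) (nat_lit 227)))) (XT.nd (nat_lit 78) (nat_lit 0) (nat_lit 0) (XT.lf (nat_lit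 0) (nat_lit 57229287379) (nat_lit 76) (nat_lit 45466447586) (nat_lit 76) (nat_lit 34136246078) (nat_lit 4) (nat_lit 4) (nat_lit 5) (nat_lit 5) (nat_lit 5) (nat_lit 4) (nat_lit 295) (nat_lit 259) (nat_lit 226)) (XT.nd (nat_lit 78) (nat_lit 0) (nat_lit 0) (XT.lf (nat_lit 0) (nat_lit 100143037759) (nat_lit 76) (nat_lit 33583710573) (nat_lit 76) (nat_lit 22238686047) (nat_lit 4) (nat_lit 4) (nat_lit 5) (nat_lit 5) (nat_lit 5) (nat_lit 4) (nat_lit 296) (nat_lit 259) (nat_lit 225)) (XT.lf (nat_lit 0) (nat_lit 149412233452) (nat_lit 76) (nat_lit 19958947128) (nat_lit 76) (nat_lit 8601033022) (nat_lit 4) (nat_lit 4) (nat_lit 5) (nat_lit 5) (nat_lit 5) (nat_lit 4) (nat_lit 297) (nat_lit 259) (nat_lit 224))))) (XT.nd (nat_lit 234) (nat_lit 0) (nat_lit 0) (XT.nd (nat_lit 78) (nat_lit 0) (nat_lit 0) (XT.lf (nat_lit 0) (nat_lit 2682755941) (nat_lit 76) (nat_lit 4072954817) (nat_lit 152) (nat_lit 196508461968)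 (nat_lit 2) (nat_lit 5) (nat_lit 3) (nat_lit 5) (nat_lit 4) (nat_lit 4) (nat_lit 298) (nat_lit 259) (nat_lit 223)) (XT.nd (nat_lit 78) (nat_lit 0) (nat_lit 0) (XT.lf (nat_lit 0) (nat_lit 25081274796) (nat_lit 152) (nat_lit 192611533095) (nat_lit 0) (nat_lit 14545285154) (nat_lit 2) (nat_lit 5) (nat_lit 4) (nat_lit 4) (nat_lit 2) (nat_lit 4) (nat_lit 299) (nat_lit 259) (nat_lit 222)) (XT.lf (nat_lit 0) (nat_lit 46238410902) (nat_lit 152) (nat_lit 183618503200) (nat_lit 0) (nat_lit 35694573937) (nat_lit 2) (nat_lit 5) (nat_lit 4) (nat_lit 4) (nat_lit 2) (nat_lit 4) (nat_lit 300) (nat_lit 259) (nat_lit 221)))) (XT.nd (nat_lit 156) (nat_lit 0) (nat_lit 0) (XT.nd (nat_lit 78) (nat_lit 0) (nat_lit 0) (XT.lf (nat_lit 0) (nat_lit 70543108383) (nat_lit 152) (nat_lit 173328421853) (nat_lit 0) (nat_lit 59992447659) (nat_lit 2) (nat_lit 5) (nat_lit 4) (nat_lit 4) (nat_lit 2) (nat_lit 4) (nat_lit 301)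 (nat_lit 259) (nat_lit 220)) (XT.lf (nat_lit 0) (nat_lit 98470893928) (nat_lit 152) (nat_lit 161539961376) (nat_lit 0) (nat_lit 87914299501) (nat_lit 2) (nat_lit 5) (nat_lit 4) (nat_lit 4) (nat_lit 2) (nat_lit 4) (nat_lit 302) (nat_lit 259) (nat_lit 219))) (XT.nd (nat_lit 78) (nat_lit 0) (nat_lit 0) (XT.lf (nat_lit 0) (nat_lit 130568180734) (nat_lit 152) (nat_lit 148022477978) (nat_lit 0) (nat_lit 120006426565) (nat_lit 2) (nat_lit 5) (nat_lit 4) (nat_lit 4) (nat_lit 2) (nat_lit 4) (nat_lit 303) (nat_lit 259) (nat_lit 218)) (XT.lf (nat_lit 0) (nat_lit 167462959194) (nat_lit 152) (nat_lit 132511499157) (nat_lit 0) (nat_lit 156896718293) (nat_lit 2) (nat_lit 5) (nat_lit 4) (nat_lit 4) (nat_lit 2) (nat_lit 4) (nat_lit 304) (nat_lit 259) (nat_lit 217)))))) (XT.nd (nat_lit 468) (nat_lit 0) (nat_lit 0) (XT.nd (nat_lit 234) (nat_lit 76) (nat_lit 0) (XT.nd (nat_lit 78) (nat_lit 0) (nat_lit 0)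 (XT.lf (nat_lit 0) (nat_lit 209877083670) (nat_lit 152) (nat_lit 114703549240) (nat_lit 0) (nat_lit 199306941262) (nat_lit 2) (nat_lit 5) (nat_lit 4) (nat_lit 4) (nat_lit 2) (nat_lit 4) (nat_lit 305) (nat_lit 259) (nat_lit 216)) (XT.nd (nat_lit 78) (nat_lit 0) (nat_lit 0) (XT.lf (nat_lit 0) (nat_lit 258640395727) (nat_lit 152) (nat_lit 94250211816) (nat_lit 0) (nat_lit 248066860705) (nat_lit 2) (nat_lit 5) (nat_lit 4) (nat_lit 4) (nat_lit 2) (nat_lit 4) (nat_lit 306) (nat_lit 259) (nat_lit 215)) (XT.lf (nat_lit 0) (nat_lit 314706960166) (nat_lit 152) (nat_lit 70751312893) (nat_lit 0) (nat_lit 304130475045) (nat_lit 2) (nat_lit 5) (nat_lit 4) (nat_lit 4) (nat_lit 2) (nat_lit 4) (nat_lit 307) (nat_lit 259) (nat_lit 214)))) (XT.nd (nat_lit 78) (nat_lit 76) (nat_lit 0) (XT.lf (nat_lit 0) (nat_lit 379173731510) (nat_lit 152) (nat_lit 43747091403) (nat_lit 0) (nat_lit 368594681084) (nat_lit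 2) (nat_lit 5) (nat_lit 4) (nat_lit 4) (nat_lit 2) (nat_lit 4) (nat_lit 308) (nat_lit 259) (nat_lit 213)) (XT.nd (nat_lit 78) (nat_lit 76) (nat_lit 0) (XT.lf (nat_lit 0) (nat_lit 453302016153) (nat_lit 152) (nat_lit 12709203884) (nat_lit 0) (nat_lit 442720735029) (nat_lit 2) (nat_lit 5) (nat_lit 4) (nat_lit 4) (nat_lit 2) (nat_lit 4) (nat_lit 309) (nat_lit 259) (nat_lit 212)) (XT.lf (nat_lit 0) (nat_lit 24179151779) (nat_lit 76) (nat_lit 514944507503) (nat_lit 76) (nat_lit 504361286640) (nat_lit 1) (nat_lit 4) (nat_lit 2) (nat_lit 5) (nat_lit 2) (nat_lit 4) (nat_lit 310) (nat_lit 259) (nat_lit 211))))) (XT.nd (nat_lit 234) (nat_lit 0) (nat_lit 0) (XT.nd (nat_lit 78) (nat_lit 0) (nat_lit 0) (XT.lf (nat_lit 0) (nat_lit 67356886347) (nat_lit 76) (nat_lit 570824923491) (nat_lit 76) (nat_lit 560240015900) (nat_lit 1) (nat_lit 4) (nat_lit 2) (nat_lit 5) (nat_lit 2) (nat_lit 4) (nat_lit 311)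 (nat_lit 259) (nat_lit 210)) (XT.nd (nat_lit 78) (nat_lit 0) (nat_lit 0) (XT.lf (nat_lit 0) (nat_lit 116999537430) (nat_lit 76) (nat_lit 635093272646) (nat_lit 76) (nat_lit 624506898334) (nat_lit 1) (nat_lit 4) (nat_lit 2) (nat_lit 5) (nat_lit 2) (nat_lit 4) (nat_lit 312) (nat_lit 259) (nat_lit 209)) (XT.lf (nat_lit 0) (nat_lit 174078374287) (nat_lit 76) (nat_lit 709006979191) (nat_lit 76) (nat_lit 698419329469) (nat_lit 1) (nat_lit 4) (nat_lit 2) (nat_lit 5) (nat_lit 2) (nat_lit 4) (nat_lit 313) (nat_lit 259) (nat_lit 208)))) (XT.nd (nat_lit 156) (nat_lit 0) (nat_lit 0) (XT.nd (nat_lit 78) (nat_lit 0) (nat_lit 0) (XT.lf (nat_lit 0) (nat_lit 239710156770) (nat_lit 76) (nat_lit 794012180861) (nat_lit 76) (nat_lit 783423422088) (nat_lit 1) (nat_lit 4) (nat_lit 2) (nat_lit 5) (nat_lit 2) (nat_lit 4) (nat_lit 314) (nat_lit 259) (nat_lit 207)) (XT.lf (nat_lit 0) (nat_lit 315178984971) (nat_lit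 76) (nat_lit 891772022908) (nat_lit 76) (nat_lit 881182299742) (nat_lit 1) (nat_lit 4) (nat_lit 2) (nat_lit 5) (nat_lit 2) (nat_lit 4) (nat_lit 315) (nat_lit 259) (nat_lit 206))) (XT.nd (nat_lit 78) (nat_lit 0) (nat_lit 0) (XT.lf (nat_lit 0) (nat_lit 401961422920) (nat_lit 76) (nat_lit 1004199197893) (nat_lit 76) (nat_lit 993608636125) (nat_lit 1) (nat_lit 4) (nat_lit 2) (nat_lit 5) (nat_lit 2) (nat_lit 4) (nat_lit 316) (nat_lit 259) (nat_lit 205)) (XT.lf (nat_lit 0) (nat_lit 501755387881) (nat_lit 76) (nat_lit 1133493367935) (nat_lit 76) (nat_lit 1122902076948) (nat_lit 1) (nat_lit 4) (nat_lit 2) (nat_lit 5) (nat_lit 2) (nat_lit 4) (nat_lit 317) (nat_lit 259) (nat_lit 204))))))))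
noncomputable def xc23 : XT := (XT.nd (nat_lit 37284) (nat_lit 0) (nat_lit 76) (XT.nd (nat_lit 36270) (nat_lit 0) (nat_lit 1824) (XT.nd (nat_lit 468) (nat_lit 0) (nat_lit 0) (XT.nd (nat_lit 234) (nat_lit 0) (nat_lit 0) (XT.nd (nat_lit 78) (nat_lit 0) (nat_lit 0) (XT.lf (nat_lit 0) (nat_lit 616513370473) (nat_lit 76) (nat_lit 1282184201579) (nat_lit 76) (nat_lit 1271592276488) (nat_lit 1) (nat_lit 4) (nat_lit 2) (nat_lit 5) (nat_lit 2) (nat_lit 4) (nat_lit 318) (nat_lit 259) (nat_lit 203)) (XT.nd (nat_lit 78) (nat_lit 0) (nat_lit 0) (XT.lf (nat_lit 0) (nat_lit 748480635574) (nat_lit 76) (nat_lit 1453180867309) (nat_lit 76) (nat_lit 1442588390823) (nat_lit 1) (nat_lit 4) (nat_lit 2) (nat_lit 5) (nat_lit 2) (nat_lit 4) (nat_lit 319) (nat_lit 259) (nat_lit 202)) (XT.lf (nat_lit 0) (nat_lit 900239151412) (nat_lit 76) (nat_lit 1649828952063) (nat_lit 76) (nat_lit 1639235996103) (nat_lit 1) (nat_lit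 4) (nat_lit 2) (nat_lit 5) (nat_lit 2) (nat_lit 4) (nat_lit 320) (nat_lit 259) (nat_lit 201)))) (XT.nd (nat_lit 78) (nat_lit 0) (nat_lit 0) (XT.lf (nat_lit 0) (nat_lit 1074758106341) (nat_lit 76) (nat_lit 1875975918369) (nat_lit 76) (nat_lit 1865382545475) (nat_lit 1) (nat_lit 4) (nat_lit 2) (nat_lit 5) (nat_lit 2) (nat_lit 4) (nat_lit 321) (nat_lit 259) (nat_lit 200)) (XT.nd (nat_lit 78) (nat_lit 0) (nat_lit 0) (XT.lf (nat_lit 0) (nat_lit 1275452001654) (nat_lit 76) (nat_lit 2136046380784) (nat_lit 76) (nat_lit 2125452645340) (nat_lit 1) (nat_lit 4) (nat_lit 2) (nat_lit 5) (nat_lit 2) (nat_lit 4) (nat_lit 322) (nat_lit 259) (nat_lit 199)) (XT.lf (nat_lit 0) (nat_lit 1506247457042) (nat_lit 76) (nat_lit 2435128674444) (nat_lit 76) (nat_lit 2424534623738) (nat_lit 1) (nat_lit 4) (nat_lit 2) (nat_lit 5) (nat_lit 2) (nat_lit 4) (nat_lit 323) (nat_lit 259) (nat_lit 198))))) (XT.nd (nat_lit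 234) (nat_lit 0) (nat_lit 0) (XT.nd (nat_lit 78) (nat_lit 0) (nat_lit 0) (XT.lf (nat_lit 0) (nat_lit 1771660035761) (nat_lit 76) (nat_lit 2779074409442) (nat_lit 76) (nat_lit 2768480084595) (nat_lit 1) (nat_lit 4) (nat_lit 2) (nat_lit 5) (nat_lit 2) (nat_lit 4) (nat_lit 324) (nat_lit 259) (nat_lit 197)) (XT.nd (nat_lit 78) (nat_lit 0) (nat_lit 0) (XT.lf (nat_lit 0) (nat_lit 2076882592614) (nat_lit 76) (nat_lit 3174612958854) (nat_lit 76) (nat_lit 3164018395624) (nat_lit 1) (nat_lit 4) (nat_lit 2) (nat_lit 5) (nat_lit 2) (nat_lit 4) (nat_lit 325) (nat_lit 259) (nat_lit 196)) (XT.lf (nat_lit 0) (nat_lit 2427886873277) (nat_lit 76) (nat_lit 3629483120385) (nat_lit 76) (nat_lit 3618888349865) (nat_lit 1) (nat_lit 4) (nat_lit 2) (nat_lit 5) (nat_lit 2) (nat_lit 4) (nat_lit 326) (nat_lit 259) (nat_lit 195)))) (XT.nd (nat_lit 35412) (nat_lit 0) (nat_lit 5776) (XT.nd (nat_lit 78) (nat_lit 0) (nat_lit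 0) (XT.lf (nat_lit 0) (nat_lit 2831540352807) (nat_lit 76) (nat_lit 4152584527630) (nat_lit 76) (nat_lit 4141989576859) (nat_lit 1) (nat_lit 4) (nat_lit 2) (nat_lit 5) (nat_lit 2) (nat_lit 4) (nat_lit 327) (nat_lit 259) (nat_lit 194)) (XT.lf (nat_lit 0) (nat_lit 3295740599282) (nat_lit 76) (nat_lit 4754151773341) (nat_lit 76) (nat_lit 4743556665829) (nat_lit 1) (nat_lit 4) (nat_lit 2) (nat_lit 5) (nat_lit 2) (nat_lit 4) (nat_lit 328) (nat_lit 259) (nat_lit 193))) (XT.nd (nat_lit 78) (nat_lit 76) (nat_lit 0) (XT.lf (nat_lit 0) (nat_lit 1073741823) (nat_lit 0) (nat_lit 0) (nat_lit 0) (nat_lit 0) (nat_lit 78) (nat_lit 0) (nat_lit 1) (nat_lit 0) (nat_lit 1) (nat_lit 0) (nat_lit 260) (nat_lit 260) (nat_lit 260)) (XT.lf (nat_lit 0) (nat_lit 5438068840) (nat_lit 76) (nat_lit 638722993) (nat_lit 0) (nat_lit 396150710) (nat_lit 77) (nat_lit 5) (nat_lit 78) (nat_lit 0) (nat_lit 77) (nat_lit 4) (nat_lit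 261) (nat_lit 260) (nat_lit 259)))))) (XT.nd (nat_lit 468) (nat_lit 1748) (nat_lit 0) (XT.nd (nat_lit 234) (nat_lit 1520) (nat_lit 0) (XT.nd (nat_lit 78) (nat_lit 532) (nat_lit 0) (XT.lf (nat_lit 0) (nat_lit 4083700089) (nat_lit 152) (nat_lit 932098578) (nat_lit 76) (nat_lit 1552410685) (nat_lit 75) (nat_lit 5) (nat_lit 77) (nat_lit 5) (nat_lit 76) (nat_lit 4) (nat_lit 262) (nat_lit 260) (nat_lit 258)) (XT.nd (nat_lit 78) (nat_lit 304) (nat_lit 0) (XT.lf (nat_lit 0) (nat_lit 2346118669) (nat_lit 228) (nat_lit 887834046) (nat_lit 76) (nat_lit 3495809967) (nat_lit 72) (nat_lit 5) (nat_lit 75) (nat_lit 5) (nat_lit 73) (nat_lit 5) (nat_lit 263) (nat_lit 260) (nat_lit 257)) (XT.lf (nat_lit 0) (nat_lit 182446394) (nat_lit 304) (nat_lit 506119373) (nat_lit 76) (nat_lit 6271617887) (nat_lit 68) (nat_lit 5) (nat_lit 72) (nat_lit 5) (nat_lit 69) (nat_lit 5) (nat_lit 264) (nat_lit 260) (nat_lit 256))))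 (XT.nd (nat_lit 78) (nat_lit 836) (nat_lit 0) (XT.lf (nat_lit 0) (nat_lit 96507122) (nat_lit 380) (nat_lit 4639605308) (nat_lit 456) (nat_lit 2516608678) (nat_lit 59) (nat_lit 5) (nat_lit 64) (nat_lit 5) (nat_lit 65) (nat_lit 5) (nat_lit 265) (nat_lit 260) (nat_lit 255)) (XT.nd (nat_lit 78) (nat_lit 304) (nat_lit 0) (XT.lf (nat_lit 0) (nat_lit 1042972354) (nat_lit 456) (nat_lit 838231809) (nat_lit 532) (nat_lit 5735328725) (nat_lit 52) (nat_lit 5) (nat_lit 58) (nat_lit 5) (nat_lit 59) (nat_lit 5) (nat_lit 266) (nat_lit 260) (nat_lit 254)) (XT.lf (nat_lit 0) (nat_lit 2207124220) (nat_lit 304) (nat_lit 4345160666) (nat_lit 380) (nat_lit 1497541887) (nat_lit 48) (nat_lit 5) (nat_lit 52) (nat_lit 5) (nat_lit 53) (nat_lit 5) (nat_lit 267) (nat_lit 260) (nat_lit 253))))) (XT.nd (nat_lit 234) (nat_lit 988) (nat_lit 0) (XT.nd (nat_lit 78) (nat_lit 456) (nat_lit 0) (XT.lf (nat_lit 0) (nat_lit 2985422405)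 (nat_lit 304) (nat_lit 4941541719) (nat_lit 76) (nat_lit 633308956) (nat_lit 44) (nat_lit 5) (nat_lit 48) (nat_lit 5) (nat_lit 45) (nat_lit 5) (nat_lit 268) (nat_lit 260) (nat_lit 252)) (XT.nd (nat_lit 78) (nat_lit 228) (nat_lit 0) (XT.lf (nat_lit 0) (nat_lit 5221251217) (nat_lit 228) (nat_lit 2765108100) (nat_lit 304) (nat_lit 1163883225) (nat_lit 41) (nat_lit 5) (nat_lit 44) (nat_lit 5) (nat_lit 45) (nat_lit 5) (nat_lit 269) (nat_lit 260) (nat_lit 251)) (XT.lf (nat_lit 0) (nat_lit 3665229642) (nat_lit 228) (nat_lit 2837182030) (nat_lit 76) (nat_lit 3323260164) (nat_lit 38) (nat_lit 5) (nat_lit 41) (nat_lit 5) (nat_lit 39) (nat_lit 5) (nat_lit 270) (nat_lit 260) (nat_lit 250)))) (XT.nd (nat_lit 156) (nat_lit 532) (nat_lit 0) (XT.nd (nat_lit 78) (nat_lit 228) (nat_lit 0) (XT.lf (nat_lit 0) (nat_lit 8976044697) (nat_lit 228) (nat_lit 178866632) (nat_lit 304) (nat_lit 1445239243) (nat_lit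 35) (nat_lit 5) (nat_lit 38) (nat_lit 5) (nat_lit 39) (nat_lit 5) (nat_lit 271) (nat_lit 260) (nat_lit 249)) (XT.lf (nat_lit 0) (nat_lit 3935220016) (nat_lit 228) (nat_lit 476646048) (nat_lit 76) (nat_lit 7059181313) (nat_lit 32) (nat_lit 5) (nat_lit 35) (nat_lit 5) (nat_lit 33) (nat_lit 5) (nat_lit 272) (nat_lit 260) (nat_lit 248))) (XT.nd (nat_lit 78) (nat_lit 228) (nat_lit 0) (XT.lf (nat_lit 0) (nat_lit 742139559) (nat_lit 152) (nat_lit 9422350355) (nat_lit 228) (nat_lit 2295294479) (nat_lit 28) (nat_lit 5) (nat_lit 30) (nat_lit 5) (nat_lit 31) (nat_lit 4) (nat_lit 273) (nat_lit 260) (nat_lit 247)) (XT.lf (nat_lit 0) (nat_lit 1869671984) (nat_lit 152) (nat_lit 1881596748) (nat_lit 228) (nat_lit 9822172967) (nat_lit 25) (nat_lit 5) (nat_lit 27) (nat_lit 5) (nat_lit 28) (nat_lit 5) (nat_lit 274) (nat_lit 260) (nat_lit 246))))))) (XT.nd (nat_lit 1014) (nat_lit 532) (nat_lit 0) (XT.nd (nat_lit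 468) (nat_lit 608) (nat_lit 0) (XT.nd (nat_lit 234) (nat_lit 228) (nat_lit 0) (XT.nd (nat_lit 78) (nat_lit 304) (nat_lit 0) (XT.lf (nat_lit 0) (nat_lit 2780684786) (nat_lit 76) (nat_lit 8067148018) (nat_lit 152) (nat_lit 3979507381) (nat_lit 24) (nat_lit 5) (nat_lit 25) (nat_lit 5) (nat_lit 26) (nat_lit 4) (nat_lit 275) (nat_lit 260) (nat_lit 245)) (XT.nd (nat_lit 78) (nat_lit 76) (nat_lit 0) (XT.lf (nat_lit 0) (nat_lit 2820262252) (nat_lit 228) (nat_lit 12786032350) (nat_lit 76) (nat_lit 640560230) (nat_lit 21) (nat_lit 5) (nat_lit 24) (nat_lit 5) (nat_lit 22) (nat_lit 4) (nat_lit 276) (nat_lit 260) (nat_lit 244)) (XT.lf (nat_lit 0) (nat_lit 3558580080) (nat_lit 76) (nat_lit 7259620226) (nat_lit 152) (nat_lit 7019913693) (nat_lit 20) (nat_lit 5) (nat_lit 21) (nat_lit 5) (nat_lit 22) (nat_lit 4) (nat_lit 277) (nat_lit 260) (nat_lit 243)))) (XT.nd (nat_lit 78) (nat_lit 76) (nat_lit 0) (XT.lf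 (nat_lit 0) (nat_lit 609966494) (nat_lit 152) (nat_lit 16505719582) (nat_lit 76) (nat_lit 2529494696) (nat_lit 18) (nat_lit 5) (nat_lit 20) (nat_lit 5) (nat_lit 19) (nat_lit 4) (nat_lit 278) (nat_lit 260) (nat_lit 242)) (XT.nd (nat_lit 78) (nat_lit 0) (nat_lit 0) (XT.lf (nat_lit 0) (nat_lit 1618638710) (nat_lit 76) (nat_lit 7802946111) (nat_lit 152) (nat_lit 12251038081) (nat_lit 17) (nat_lit 5) (nat_lit 18) (nat_lit 5) (nat_lit 19) (nat_lit 4) (nat_lit 279) (nat_lit 260) (nat_lit 241)) (XT.lf (nat_lit 0) (nat_lit 19909296287) (nat_lit 152) (nat_lit 967989757) (nat_lit 0) (nat_lit 3098664880) (nat_lit 17) (nat_lit 5) (nat_lit 19) (nat_lit 4) (nat_lit 17) (nat_lit 4) (nat_lit 280) (nat_lit 260) (nat_lit 240))))) (XT.nd (nat_lit 234) (nat_lit 304) (nat_lit 0) (XT.nd (nat_lit 78) (nat_lit 152) (nat_lit 0) (XT.lf (nat_lit 0) (nat_lit 5643965157) (nat_lit 152) (nat_lit 5213876471) (nat_lit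 76) (nat_lit 15711468539) (nat_lit 15) (nat_lit 5) (nat_lit 17) (nat_lit 5) (nat_lit 16) (nat_lit 4) (nat_lit 281) (nat_lit 260) (nat_lit 239)) (XT.nd (nat_lit 78) (nat_lit 76) (nat_lit 0) (XT.lf (nat_lit 0) (nat_lit 16897422468) (nat_lit 152) (nat_lit 11534709223) (nat_lit 0) (nat_lit 1085010881) (nat_lit 14) (nat_lit 5) (nat_lit 16) (nat_lit 4) (nat_lit 14) (nat_lit 4) (nat_lit 282) (nat_lit 260) (nat_lit 238)) (XT.lf (nat_lit 0) (nat_lit 12084064031) (nat_lit 76) (nat_lit 18344163238) (nat_lit 76) (nat_lit 2431847855) (nat_lit 13) (nat_lit 4) (nat_lit 14) (nat_lit 5) (nat_lit 14) (nat_lit 4) (nat_lit 283) (nat_lit 260) (nat_lit 237)))) (XT.nd (nat_lit 156) (nat_lit 152) (nat_lit 0) (XT.nd (nat_lit 78) (nat_lit 0) (nat_lit 0) (XT.lf (nat_lit 0) (nat_lit 2901800261) (nat_lit 76) (nat_lit 6185213446) (nat_lit 152) (nat_lit 27578249308) (nat_lit 11) (nat_lit 5) (nat_lit 12) (nat_lit 5)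 (nat_lit 13) (nat_lit 4) (nat_lit 284) (nat_lit 260) (nat_lit 236)) (XT.lf (nat_lit 0) (nat_lit 22865002469) (nat_lit 152) (nat_lit 10136206990) (nat_lit 0) (nat_lit 7980993328) (nat_lit 11) (nat_lit 5) (nat_lit 13) (nat_lit 4) (nat_lit 11) (nat_lit 4) (nat_lit 285) (nat_lit 260) (nat_lit 235))) (XT.nd (nat_lit 78) (nat_lit 76) (nat_lit 0) (XT.lf (nat_lit 0) (nat_lit 17512021002) (nat_lit 76) (nat_lit 21670841972) (nat_lit 76) (nat_lit 6726010267) (nat_lit 10) (nat_lit 4) (nat_lit 11) (nat_lit 5) (nat_lit 11) (nat_lit 4) (nat_lit 286) (nat_lit 260) (nat_lit 234)) (XT.lf (nat_lit 0) (nat_lit 6246376192) (nat_lit 152) (nat_lit 2005258408) (nat_lit 76) (nat_lit 43295372314) (nat_lit 9) (nat_lit 5) (nat_lit 11) (nat_lit 5) (nat_lit 10) (nat_lit 4) (nat_lit 287) (nat_lit 260) (nat_lit 233)))))) (XT.nd (nat_lit 468) (nat_lit 228) (nat_lit 0) (XT.nd (nat_lit 234) (nat_lit 152) (nat_lit 0) (XT.nd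 (nat_lit 78) (nat_lit 76) (nat_lit 0) (XT.lf (nat_lit 0) (nat_lit 21582732256) (nat_lit 152) (nat_lit 28715503685) (nat_lit 0) (nat_lit 7653369771) (nat_lit 8) (nat_lit 5) (nat_lit 10) (nat_lit 4) (nat_lit 8) (nat_lit 4) (nat_lit 288) (nat_lit 260) (nat_lit 232)) (XT.nd (nat_lit 78) (nat_lit 76) (nat_lit 0) (XT.lf (nat_lit 0) (nat_lit 39417326229) (nat_lit 152) (nat_lit 432837600) (nat_lit 0) (nat_lit 25450934278) (nat_lit 8) (nat_lit 5) (nat_lit 10) (nat_lit 4) (nat_lit 8) (nat_lit 4) (nat_lit 289) (nat_lit 260) (nat_lit 231)) (XT.lf (nat_lit 0) (nat_lit 33621067367) (nat_lit 76) (nat_lit 27036079285) (nat_lit 76) (nat_lit 13037487799) (nat_lit 7) (nat_lit 4) (nat_lit 8) (nat_lit 5) (nat_lit 8) (nat_lit 4) (nat_lit 290) (nat_lit 260) (nat_lit 230)))) (XT.nd (nat_lit 78) (nat_lit 76) (nat_lit 0) (XT.lf (nat_lit 0) (nat_lit 1588285265) (nat_lit 152) (nat_lit 10722957729) (nat_lit 76) (nat_lit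 71037487260) (nat_lit 6) (nat_lit 5) (nat_lit 8) (nat_lit 5) (nat_lit 7) (nat_lit 4) (nat_lit 291) (nat_lit 260) (nat_lit 229)) (XT.nd (nat_lit 78) (nat_lit 0) (nat_lit 0) (XT.lf (nat_lit 0) (nat_lit 18298579292) (nat_lit 152) (nat_lit 70783825829) (nat_lit 0) (nat_lit 5288450999) (nat_lit 5) (nat_lit 5) (nat_lit 7) (nat_lit 4) (nat_lit 5) (nat_lit 4) (nat_lit 292) (nat_lit 260) (nat_lit 228)) (XT.lf (nat_lit 0) (nat_lit 38116487001) (nat_lit 152) (nat_lit 43794987081) (nat_lit 0) (nat_lit 25086755267) (nat_lit 5) (nat_lit 5) (nat_lit 7) (nat_lit 4) (nat_lit 5) (nat_lit 4) (nat_lit 293) (nat_lit 260) (nat_lit 227))))) (XT.nd (nat_lit 234) (nat_lit 152) (nat_lit 0) (XT.nd (nat_lit 78) (nat_lit 76) (nat_lit 0) (XT.lf (nat_lit 0) (nat_lit 60855145993) (nat_lit 152) (nat_lit 12860361788) (nat_lit 0) (nat_lit 47808367788) (nat_lit 5) (nat_lit 5) (nat_lit 7) (nat_lit 4) (nat_lit 5) (nat_lit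 4) (nat_lit 294) (nat_lit 260) (nat_lit 226)) (XT.nd (nat_lit 78) (nat_lit 0) (nat_lit 0) (XT.lf (nat_lit 0) (nat_lit 23816700536) (nat_lit 76) (nat_lit 63715534757) (nat_lit 76) (nat_lit 50653933534) (nat_lit 4) (nat_lit 4) (nat_lit 5) (nat_lit 5) (nat_lit 5) (nat_lit 4) (nat_lit 295) (nat_lit 260) (nat_lit 225)) (XT.lf (nat_lit 0) (nat_lit 66692489408) (nat_lit 76) (nat_lit 51851581056) (nat_lit 76) (nat_lit 38777090252) (nat_lit 4) (nat_lit 4) (nat_lit 5) (nat_lit 5) (nat_lit 5) (nat_lit 4) (nat_lit 296) (nat_lit 260) (nat_lit 224)))) (XT.nd (nat_lit 156) (nat_lit 152) (nat_lit 0) (XT.nd (nat_lit 78) (nat_lit 0) (nat_lit 0) (XT.lf (nat_lit 0) (nat_lit 115928675093) (nat_lit 76) (nat_lit 38243150926) (nat_lit 76) (nat_lit 25157451791) (nat_lit 4) (nat_lit 4) (nat_lit 5) (nat_lit 5) (nat_lit 5) (nat_lit 4) (nat_lit 297) (nat_lit 260) (nat_lit 223)) (XT.lf (nat_lit 0) (nat_lit 172488574271)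 (nat_lit 76) (nat_lit 22623992473) (nat_lit 76) (nat_lit 9528546963) (nat_lit 4) (nat_lit 4) (nat_lit 5) (nat_lit 5) (nat_lit 5) (nat_lit 4) (nat_lit 298) (nat_lit 260) (nat_lit 222))) (XT.nd (nat_lit 78) (nat_lit 0) (nat_lit 0) (XT.lf (nat_lit 0) (nat_lit 3710097017) (nat_lit 76) (nat_lit 4373565307) (nat_lit 152) (nat_lit 225644908161) (nat_lit 2) (nat_lit 5) (nat_lit 3) (nat_lit 5) (nat_lit 4) (nat_lit 4) (nat_lit 299) (nat_lit 260) (nat_lit 221)) (XT.lf (nat_lit 0) (nat_lit 29123516851) (nat_lit 152) (nat_lit 220944400168) (nat_lit 0) (nat_lit 16983433260) (nat_lit 2) (nat_lit 5) (nat_lit 4) (nat_lit 4) (nat_lit 2) (nat_lit 4) (nat_lit 300) (nat_lit 260) (nat_lit 220))))))))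
noncomputable def xc24 : XT := (XT.nd (nat_lit 1950) (nat_lit 0) (nat_lit 0) (XT.nd (nat_lit 936) (nat_lit 0) (nat_lit 0) (XT.nd (nat_lit 468) (nat_lit 76) (nat_lit 0) (XT.nd (nat_lit 234) (nat_lit 0) (nat_lit 0) (XT.nd (nat_lit 78) (nat_lit 0) (nat_lit 0) (XT.lf (nat_lit 0) (nat_lit 53417695003) (nat_lit 152) (nat_lit 210675310947) (nat_lit 0) (nat_lit 41271677708) (nat_lit 2) (nat_lit 5) (nat_lit 4) (nat_lit 4) (nat_lit 2) (nat_lit 4) (nat_lit 301) (nat_lit 260) (nat_lit 219)) (XT.nd (nat_lit 78) (nat_lit 0) (nat_lit 0) (XT.lf (nat_lit 0) (nat_lit 81336333306) (nat_lit 152) (nat_lit 198905104494) (nat_lit 0) (nat_lit 69185156269) (nat_lit 2) (nat_lit 5) (nat_lit 4) (nat_lit 4) (nat_lit 2) (nat_lit 4) (nat_lit 302) (nat_lit 260) (nat_lit 218)) (XT.lf (nat_lit 0) (nat_lit 113425665988) (nat_lit 152) (nat_lit 185403494159) (nat_lit 0) (nat_lit 101270002219) (nat_lit 2) (nat_lit 5) (nat_lit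 4) (nat_lit 4) (nat_lit 2) (nat_lit 4) (nat_lit 303) (nat_lit 260) (nat_lit 217)))) (XT.nd (nat_lit 78) (nat_lit 0) (nat_lit 0) (XT.lf (nat_lit 0) (nat_lit 150313527819) (nat_lit 152) (nat_lit 169906318002) (nat_lit 0) (nat_lit 138153962543) (nat_lit 2) (nat_lit 5) (nat_lit 4) (nat_lit 4) (nat_lit 2) (nat_lit 4) (nat_lit 304) (nat_lit 260) (nat_lit 216)) (XT.nd (nat_lit 78) (nat_lit 0) (nat_lit 0) (XT.lf (nat_lit 0) (nat_lit 192721637834) (nat_lit 152) (nat_lit 152110370402) (nat_lit 0) (nat_lit 180558679944) (nat_lit 2) (nat_lit 5) (nat_lit 4) (nat_lit 4) (nat_lit 2) (nat_lit 4) (nat_lit 305) (nat_lit 260) (nat_lit 215)) (XT.lf (nat_lit 0) (nat_lit 241479719925) (nat_lit 152) (nat_lit 131667469775) (nat_lit 0) (nat_lit 229313811936) (nat_lit 2) (nat_lit 5) (nat_lit 4) (nat_lit 4) (nat_lit 2) (nat_lit 4) (nat_lit 306) (nat_lit 260) (nat_lit 214))))) (XT.nd (nat_lit 234) (nat_lit 76) (nat_lit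 0) (XT.nd (nat_lit 78) (nat_lit 0) (nat_lit 0) (XT.lf (nat_lit 0) (nat_lit 297541736568) (nat_lit 152) (nat_lit 108177646327) (nat_lit 0) (nat_lit 285373263275) (nat_lit 2) (nat_lit 5) (nat_lit 4) (nat_lit 4) (nat_lit 2) (nat_lit 4) (nat_lit 307) (nat_lit 260) (nat_lit 213)) (XT.nd (nat_lit 78) (nat_lit 0) (nat_lit 0) (XT.lf (nat_lit 0) (nat_lit 362004553307) (nat_lit 152) (nat_lit 81181316556) (nat_lit 0) (nat_lit 349833849314) (nat_lit 2) (nat_lit 5) (nat_lit 4) (nat_lit 4) (nat_lit 2) (nat_lit 4) (nat_lit 308) (nat_lit 260) (nat_lit 212)) (XT.lf (nat_lit 0) (nat_lit 436129399163) (nat_lit 152) (nat_lit 50150291400) (nat_lit 0) (nat_lit 423956755432) (nat_lit 2) (nat_lit 5) (nat_lit 4) (nat_lit 4) (nat_lit 2) (nat_lit 4) (nat_lit 309) (nat_lit 260) (nat_lit 211)))) (XT.nd (nat_lit 78) (nat_lit 76) (nat_lit 0) (XT.lf (nat_lit 0) (nat_lit 521366542860) (nat_lit 152) (nat_lit 14477442107)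 (nat_lit 0) (nat_lit 509192212401) (nat_lit 2) (nat_lit 5) (nat_lit 4) (nat_lit 4) (nat_lit 2) (nat_lit 4) (nat_lit 310) (nat_lit 260) (nat_lit 210)) (XT.nd (nat_lit 78) (nat_lit 0) (nat_lit 0) (XT.lf (nat_lit 0) (nat_lit 27932473843) (nat_lit 76) (nat_lit 592122970469) (nat_lit 76) (nat_lit 579947173289) (nat_lit 1) (nat_lit 4) (nat_lit 2) (nat_lit 5) (nat_lit 2) (nat_lit 4) (nat_lit 311) (nat_lit 260) (nat_lit 209)) (XT.lf (nat_lit 0) (nat_lit 77570375210) (nat_lit 76) (nat_lit 656393694050) (nat_lit 76) (nat_lit 644216621461) (nat_lit 1) (nat_lit 4) (nat_lit 2) (nat_lit 5) (nat_lit 2) (nat_lit 4) (nat_lit 312) (nat_lit 260) (nat_lit 208)))))) (XT.nd (nat_lit 468) (nat_lit 0) (nat_lit 0) (XT.nd (nat_lit 234) (nat_lit 0) (nat_lit 0) (XT.nd (nat_lit 78) (nat_lit 0) (nat_lit 0) (XT.lf (nat_lit 0) (nat_lit 134645081880) (nat_lit 76) (nat_lit 730309465313) (nat_lit 76) (nat_lit 718131283672)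 (nat_lit 1) (nat_lit 4) (nat_lit 2) (nat_lit 5) (nat_lit 2) (nat_lit 4) (nat_lit 313) (nat_lit 260) (nat_lit 207)) (XT.nd (nat_lit 78) (nat_lit 0) (nat_lit 0) (XT.lf (nat_lit 0) (nat_lit 200273272896) (nat_lit 76) (nat_lit 815316462391) (nat_lit 76) (nat_lit 803137316358) (nat_lit 1) (nat_lit 4) (nat_lit 2) (nat_lit 5) (nat_lit 2) (nat_lit 4) (nat_lit 314) (nat_lit 260) (nat_lit 206)) (XT.lf (nat_lit 0) (nat_lit 275738978082) (nat_lit 76) (nat_lit 913077865662) (nat_lit 76) (nat_lit 900897881026) (nat_lit 1) (nat_lit 4) (nat_lit 2) (nat_lit 5) (nat_lit 2) (nat_lit 4) (nat_lit 315) (nat_lit 260) (nat_lit 205)))) (XT.nd (nat_lit 78) (nat_lit 0) (nat_lit 0) (XT.lf (nat_lit 0) (nat_lit 362518700365) (nat_lit 76) (nat_lit 1025506398233) (nat_lit 76) (nat_lit 1013325684377) (nat_lit 1) (nat_lit 4) (nat_lit 2) (nat_lit 5) (nat_lit 2) (nat_lit 4) (nat_lit 316) (nat_lit 260) (nat_lit 204)) (XT.nd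 (nat_lit 78) (nat_lit 0) (nat_lit 0) (XT.lf (nat_lit 0) (nat_lit 462310303879) (nat_lit 76) (nat_lit 1154801748784) (nat_lit 76) (nat_lit 1142620400825) (nat_lit 1) (nat_lit 4) (nat_lit 2) (nat_lit 5) (nat_lit 2) (nat_lit 4) (nat_lit 317) (nat_lit 260) (nat_lit 203)) (XT.lf (nat_lit 0) (nat_lit 577066233038) (nat_lit 76) (nat_lit 1303493608958) (nat_lit 76) (nat_lit 1291311709604) (nat_lit 1) (nat_lit 4) (nat_lit 2) (nat_lit 5) (nat_lit 2) (nat_lit 4) (nat_lit 318) (nat_lit 260) (nat_lit 202))))) (XT.nd (nat_lit 234) (nat_lit 0) (nat_lit 0) (XT.nd (nat_lit 78) (nat_lit 0) (nat_lit 0) (XT.lf (nat_lit 0) (nat_lit 709031712544) (nat_lit 76) (nat_lit 1474491167322) (nat_lit 76) (nat_lit 1462308788495) (nat_lit 1) (nat_lit 4) (nat_lit 2) (nat_lit 5) (nat_lit 2) (nat_lit 4) (nat_lit 319) (nat_lit 260) (nat_lit 201)) (XT.nd (nat_lit 78) (nat_lit 0) (nat_lit 0) (XT.lf (nat_lit 0) (nat_lit 860788675692)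 (nat_lit 76) (nat_lit 1671140028280) (nat_lit 76) (nat_lit 1658957232519) (nat_lit 1) (nat_lit 4) (nat_lit 2) (nat_lit 5) (nat_lit 2) (nat_lit 4) (nat_lit 320) (nat_lit 260) (nat_lit 200)) (XT.lf (nat_lit 0) (nat_lit 1035306280456) (nat_lit 76) (nat_lit 1897287669546) (nat_lit 76) (nat_lit 1885104511234) (nat_lit 1) (nat_lit 4) (nat_lit 2) (nat_lit 5) (nat_lit 2) (nat_lit 4) (nat_lit 321) (nat_lit 260) (nat_lit 199)))) (XT.nd (nat_lit 156) (nat_lit 0) (nat_lit 0) (XT.nd (nat_lit 78) (nat_lit 0) (nat_lit 0) (XT.lf (nat_lit 0) (nat_lit 1235999001712) (nat_lit 76) (nat_lit 2157358718884) (nat_lit 76) (nat_lit 2145175245310) (nat_lit 1) (nat_lit 4) (nat_lit 2) (nat_lit 5) (nat_lit 2) (nat_lit 4) (nat_lit 322) (nat_lit 260) (nat_lit 198)) (XT.lf (nat_lit 0) (nat_lit 1466793436180) (nat_lit 76) (nat_lit 2456441522911) (nat_lit 76) (nat_lit 2444257775196) (nat_lit 1) (nat_lit 4) (nat_lit 2) (nat_lit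 5) (nat_lit 2) (nat_lit 4) (nat_lit 323) (nat_lit 260) (nat_lit 197))) (XT.nd (nat_lit 78) (nat_lit 0) (nat_lit 0) (XT.lf (nat_lit 0) (nat_lit 1732205127144) (nat_lit 76) (nat_lit 2800387701706) (nat_lit 76) (nat_lit 2788203715608) (nat_lit 1) (nat_lit 4) (nat_lit 2) (nat_lit 5) (nat_lit 2) (nat_lit 4) (nat_lit 324) (nat_lit 260) (nat_lit 196)) (XT.lf (nat_lit 0) (nat_lit 2037426912035) (nat_lit 76) (nat_lit 3195926637028) (nat_lit 76) (nat_lit 3183742443640) (nat_lit 1) (nat_lit 4) (nat_lit 2) (nat_lit 5) (nat_lit 2) (nat_lit 4) (nat_lit 325) (nat_lit 260) (nat_lit 195))))))) (XT.nd (nat_lit 36348) (nat_lit 0) (nat_lit 988) (XT.nd (nat_lit 35802) (nat_lit 0) (nat_lit 2812) (XT.nd (nat_lit 35568) (nat_lit 0) (nat_lit 5320) (XT.nd (nat_lit 78) (nat_lit 0) (nat_lit 0) (XT.lf (nat_lit 0) (nat_lit 2388430521427) (nat_lit 76) (nat_lit 3650797134133) (nat_lit 76) (nat_lit 3638612760494) (nat_lit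 1) (nat_lit 4) (nat_lit 2) (nat_lit 5) (nat_lit 2) (nat_lit 4) (nat_lit 326) (nat_lit 260) (nat_lit 194)) (XT.nd (nat_lit 78) (nat_lit 0) (nat_lit 0) (XT.lf (nat_lit 0) (nat_lit 2792083417244) (nat_lit 76) (nat_lit 4173898833183) (nat_lit 76) (nat_lit 4161714302803) (nat_lit 1) (nat_lit 4) (nat_lit 2) (nat_lit 5) (nat_lit 2) (nat_lit 4) (nat_lit 327) (nat_lit 260) (nat_lit 193)) (XT.lf (nat_lit 0) (nat_lit 3256283156142) (nat_lit 76) (nat_lit 4775466332636) (nat_lit 76) (nat_lit 4763281665960) (nat_lit 1) (nat_lit 4) (nat_lit 2) (nat_lit 5) (nat_lit 2) (nat_lit 4) (nat_lit 328) (nat_lit 260) (nat_lit 192)))) (XT.nd (nat_lit 78) (nat_lit 228) (nat_lit 0) (XT.lf (nat_lit 0) (nat_lit 1835396246) (nat_lit 228) (nat_lit 716058847) (nat_lit 228) (nat_lit 716058847) (nat_lit 74) (nat_lit 3) (nat_lit 77) (nat_lit 3) (nat_lit 77) (nat_lit 5) (nat_lit 261) (nat_lit 261) (nat_lit 258)) (XT.nd (nat_lit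 78) (nat_lit 0) (nat_lit 0) (XT.lf (nat_lit 0) (nat_lit 1533015184) (nat_lit 228) (nat_lit 2127833494) (nat_lit 304) (nat_lit 3002147218) (nat_lit 71) (nat_lit 5) (nat_lit 74) (nat_lit 3) (nat_lit 75) (nat_lit 5) (nat_lit 262) (nat_lit 261) (nat_lit 257)) (XT.lf (nat_lit 76) (nat_lit 4342381493) (nat_lit 0) (nat_lit 1445672047) (nat_lit 304) (nat_lit 1068767234) (nat_lit 72) (nat_lit 5) (nat_lit 71) (nat_lit 5) (nat_lit 75) (nat_lit 5) (nat_lit 263) (nat_lit 261) (nat_lit 256))))) (XT.nd (nat_lit 234) (nat_lit 1520) (nat_lit 0) (XT.nd (nat_lit 78) (nat_lit 760) (nat_lit 0) (XT.lf (nat_lit 0) (nat_lit 2920319721) (nat_lit 304) (nat_lit 2653549404) (nat_lit 76) (nat_lit 1540651985) (nat_lit 68) (nat_lit 5) (nat_lit 72) (nat_lit 5) (nat_lit 69) (nat_lit 5) (nat_lit 264) (nat_lit 261) (nat_lit 255)) (XT.nd (nat_lit 78) (nat_lit 456) (nat_lit 0) (XT.lf (nat_lit 0) (nat_lit 4916613458) (nat_lit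 304) (nat_lit 2138270031) (nat_lit 380) (nat_lit 386366563) (nat_lit 64) (nat_lit 5) (nat_lit 68) (nat_lit 5) (nat_lit 69) (nat_lit 5) (nat_lit 265) (nat_lit 261) (nat_lit 254)) (XT.lf (nat_lit 0) (nat_lit 3493145825) (nat_lit 456) (nat_lit 2212011298) (nat_lit 76) (nat_lit 2129279152) (nat_lit 58) (nat_lit 5) (nat_lit 64) (nat_lit 5) (nat_lit 59) (nat_lit 5) (nat_lit 266) (nat_lit 261) (nat_lit 253)))) (XT.nd (nat_lit 156) (nat_lit 684) (nat_lit 0) (XT.nd (nat_lit 78) (nat_lit 380) (nat_lit 0) (XT.lf (nat_lit 0) (nat_lit 6643978569) (nat_lit 456) (nat_lit 1078583855) (nat_lit 532) (nat_lit 580965266) (nat_lit 52) (nat_lit 5) (nat_lit 58) (nat_lit 5) (nat_lit 59) (nat_lit 5) (nat_lit 267) (nat_lit 261) (nat_lit 252)) (XT.lf (nat_lit 0) (nat_lit 3463347657) (nat_lit 380) (nat_lit 997350419) (nat_lit 76) (nat_lit 4383310382) (nat_lit 47) (nat_lit 5) (nat_lit 52) (nat_lit 5) (nat_lit 48)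 (nat_lit 5) (nat_lit 268) (nat_lit 261) (nat_lit 251))) (XT.nd (nat_lit 78) (nat_lit 456) (nat_lit 0) (XT.lf (nat_lit 0) (nat_lit 8007917796) (nat_lit 304) (nat_lit 126374230) (nat_lit 76) (nat_lit 1336520380) (nat_lit 44) (nat_lit 5) (nat_lit 48) (nat_lit 5) (nat_lit 45) (nat_lit 5) (nat_lit 269) (nat_lit 261) (nat_lit 250)) (XT.lf (nat_lit 0) (nat_lit 871430688) (nat_lit 152) (nat_lit 2091040941) (nat_lit 228) (nat_lit 7218103510) (nat_lit 38) (nat_lit 5) (nat_lit 40) (nat_lit 5) (nat_lit 41) (nat_lit 5) (nat_lit 270) (nat_lit 261) (nat_lit 249)))))) (XT.nd (nat_lit 468) (nat_lit 760) (nat_lit 0) (XT.nd (nat_lit 234) (nat_lit 456) (nat_lit 0) (XT.nd (nat_lit 78) (nat_lit 380) (nat_lit 0) (XT.lf (nat_lit 0) (nat_lit 1982230851) (nat_lit 228) (nat_lit 6087001860) (nat_lit 304) (nat_lit 2916682457) (nat_lit 35) (nat_lit 5) (nat_lit 38) (nat_lit 5) (nat_lit 39) (nat_lit 5) (nat_lit 271)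 (nat_lit 261) (nat_lit 248)) (XT.nd (nat_lit 78) (nat_lit 152) (nat_lit 0) (XT.lf (nat_lit 0) (nat_lit 2044777298) (nat_lit 228) (nat_lit 8697181679) (nat_lit 76) (nat_lit 1157275907) (nat_lit 32) (nat_lit 5) (nat_lit 35) (nat_lit 5) (nat_lit 33) (nat_lit 5) (nat_lit 272) (nat_lit 261) (nat_lit 247)) (XT.lf (nat_lit 0) (nat_lit 4381196107) (nat_lit 152) (nat_lit 3447170837) (nat_lit 228) (nat_lit 5095418757) (nat_lit 30) (nat_lit 5) (nat_lit 32) (nat_lit 5) (nat_lit 33) (nat_lit 5) (nat_lit 273) (nat_lit 261) (nat_lit 246)))) (XT.nd (nat_lit 78) (nat_lit 228) (nat_lit 0) (XT.lf (nat_lit 0) (nat_lit 606927872) (nat_lit 228) (nat_lit 8496198569) (nat_lit 76) (nat_lit 4978575548) (nat_lit 27) (nat_lit 5) (nat_lit 30) (nat_lit 5) (nat_lit 28) (nat_lit 5) (nat_lit 274) (nat_lit 261) (nat_lit 245)) (XT.nd (nat_lit 78) (nat_lit 76) (nat_lit 0) (XT.lf (nat_lit 0) (nat_lit 6649651628) (nat_lit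 152) (nat_lit 480759111) (nat_lit 228) (nat_lit 8251147821) (nat_lit 25) (nat_lit 5) (nat_lit 27) (nat_lit 5) (nat_lit 28) (nat_lit 5) (nat_lit 275) (nat_lit 261) (nat_lit 244)) (XT.lf (nat_lit 0) (nat_lit 7488010710) (nat_lit 76) (nat_lit 7574463720) (nat_lit 152) (nat_lit 1779723135) (nat_lit 24) (nat_lit 5) (nat_lit 25) (nat_lit 5) (nat_lit 26) (nat_lit 4) (nat_lit 276) (nat_lit 261) (nat_lit 243))))) (XT.nd (nat_lit 234) (nat_lit 304) (nat_lit 0) (XT.nd (nat_lit 78) (nat_lit 228) (nat_lit 0) (XT.lf (nat_lit 0) (nat_lit 5690804353) (nat_lit 228) (nat_lit 10492123033) (nat_lit 76) (nat_lit 2303346825) (nat_lit 21) (nat_lit 5) (nat_lit 24) (nat_lit 5) (nat_lit 22) (nat_lit 4) (nat_lit 277) (nat_lit 261) (nat_lit 242)) (XT.nd (nat_lit 78) (nat_lit 152) (nat_lit 0) (XT.lf (nat_lit 0) (nat_lit 7947672170) (nat_lit 76) (nat_lit 6714241634) (nat_lit 152) (nat_lit 5672665902) (nat_lit 20) (nat_lit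 5) (nat_lit 21) (nat_lit 5) (nat_lit 22) (nat_lit 4) (nat_lit 278) (nat_lit 261) (nat_lit 241)) (XT.lf (nat_lit 0) (nat_lit 2809517578) (nat_lit 152) (nat_lit 15212231843) (nat_lit 76) (nat_lit 4400297700) (nat_lit 18) (nat_lit 5) (nat_lit 20) (nat_lit 5) (nat_lit 19) (nat_lit 4) (nat_lit 279) (nat_lit 261) (nat_lit 240)))) (XT.nd (nat_lit 156) (nat_lit 152) (nat_lit 0) (XT.nd (nat_lit 78) (nat_lit 76) (nat_lit 0) (XT.lf (nat_lit 0) (nat_lit 5311723856) (nat_lit 76) (nat_lit 7439170501) (nat_lit 152) (nat_lit 12018235126) (nat_lit 17) (nat_lit 5) (nat_lit 18) (nat_lit 5) (nat_lit 19) (nat_lit 4) (nat_lit 280) (nat_lit 261) (nat_lit 239)) (XT.lf (nat_lit 0) (nat_lit 2093976829) (nat_lit 76) (nat_lit 22550308685) (nat_lit 76) (nat_lit 2787212979) (nat_lit 16) (nat_lit 4) (nat_lit 17) (nat_lit 5) (nat_lit 17) (nat_lit 4) (nat_lit 281) (nat_lit 261) (nat_lit 238))) (XT.nd (nat_lit 78) (nat_lit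 76) (nat_lit 0) (XT.lf (nat_lit 0) (nat_lit 8076504627) (nat_lit 152) (nat_lit 3071862181) (nat_lit 76) (nat_lit 19278693385) (nat_lit 15) (nat_lit 5) (nat_lit 17) (nat_lit 5) (nat_lit 16) (nat_lit 4) (nat_lit 282) (nat_lit 261) (nat_lit 237)) (XT.lf (nat_lit 0) (nat_lit 20905146970) (nat_lit 152) (nat_lit 10501840113) (nat_lit 0) (nat_lit 2419207616) (nat_lit 14) (nat_lit 5) (nat_lit 16) (nat_lit 4) (nat_lit 14) (nat_lit 4) (nat_lit 283) (nat_lit 261) (nat_lit 236))))))))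
noncomputable def xc25 : XT := (XT.nd (nat_lit 2028) (nat_lit 76) (nat_lit 0) (XT.nd (nat_lit 1014) (nat_lit 152) (nat_lit 0) (XT.nd (nat_lit 468) (nat_lit 304) (nat_lit 0) (XT.nd (nat_lit 234) (nat_lit 228) (nat_lit 0) (XT.nd (nat_lit 78) (nat_lit 152) (nat_lit 0) (XT.lf (nat_lit 0) (nat_lit 16425868551) (nat_lit 76) (nat_lit 19908386208) (nat_lit 76) (nat_lit 1346905232) (nat_lit 13) (nat_lit 4) (nat_lit 14) (nat_lit 5) (nat_lit 14) (nat_lit 4) (nat_lit 284) (nat_lit 261) (nat_lit 235)) (XT.nd (nat_lit 78) (nat_lit 0) (nat_lit 0) (XT.lf (nat_lit 0) (nat_lit 5719057852) (nat_lit 76) (nat_lit 5985859069) (nat_lit 152) (nat_lit 30359278106) (nat_lit 11) (nat_lit 5) (nat_lit 12) (nat_lit 5) (nat_lit 13) (nat_lit 4) (nat_lit 285) (nat_lit 261) (nat_lit 234)) (XT.lf (nat_lit 0) (nat_lit 27409499635) (nat_lit 152) (nat_lit 9521214270) (nat_lit 0) (nat_lit 10109231428) (nat_lit 11) (nat_lit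 5) (nat_lit 13) (nat_lit 4) (nat_lit 11) (nat_lit 4) (nat_lit 286) (nat_lit 261) (nat_lit 233)))) (XT.nd (nat_lit 78) (nat_lit 152) (nat_lit 0) (XT.lf (nat_lit 0) (nat_lit 22093494935) (nat_lit 76) (nat_lit 23983152404) (nat_lit 76) (nat_lit 6636893601) (nat_lit 10) (nat_lit 4) (nat_lit 11) (nat_lit 5) (nat_lit 11) (nat_lit 4) (nat_lit 287) (nat_lit 261) (nat_lit 232)) (XT.nd (nat_lit 78) (nat_lit 76) (nat_lit 0) (XT.lf (nat_lit 0) (nat_lit 8090368177) (nat_lit 152) (nat_lit 558284816) (nat_lit 76) (nat_lit 50557556370) (nat_lit 9) (nat_lit 5) (nat_lit 11) (nat_lit 5) (nat_lit 10) (nat_lit 4) (nat_lit 288) (nat_lit 261) (nat_lit 231)) (XT.lf (nat_lit 0) (nat_lit 25665925991) (nat_lit 152) (nat_lit 31375163146) (nat_lit 0) (nat_lit 9535346247) (nat_lit 8) (nat_lit 5) (nat_lit 10) (nat_lit 4) (nat_lit 8) (nat_lit 4) (nat_lit 289) (nat_lit 261) (nat_lit 230))))) (XT.nd (nat_lit 234) (nat_lit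 152) (nat_lit 0) (XT.nd (nat_lit 78) (nat_lit 76) (nat_lit 0) (XT.lf (nat_lit 0) (nat_lit 984224792) (nat_lit 76) (nat_lit 45104835258) (nat_lit 76) (nat_lit 28946255919) (nat_lit 7) (nat_lit 4) (nat_lit 8) (nat_lit 5) (nat_lit 8) (nat_lit 4) (nat_lit 290) (nat_lit 261) (nat_lit 229)) (XT.nd (nat_lit 78) (nat_lit 76) (nat_lit 0) (XT.lf (nat_lit 0) (nat_lit 39975705180) (nat_lit 76) (nat_lit 30451088677) (nat_lit 76) (nat_lit 14268161863) (nat_lit 7) (nat_lit 4) (nat_lit 8) (nat_lit 5) (nat_lit 8) (nat_lit 4) (nat_lit 291) (nat_lit 261) (nat_lit 228)) (XT.lf (nat_lit 0) (nat_lit 2425383893) (nat_lit 152) (nat_lit 11159300030) (nat_lit 76) (nat_lit 82218296128) (nat_lit 6) (nat_lit 5) (nat_lit 8) (nat_lit 5) (nat_lit 7) (nat_lit 4) (nat_lit 292) (nat_lit 261) (nat_lit 227)))) (XT.nd (nat_lit 156) (nat_lit 76) (nat_lit 0) (XT.nd (nat_lit 78) (nat_lit 0) (nat_lit 0) (XT.lf (nat_lit 0) (nat_lit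 21602571924) (nat_lit 152) (nat_lit 80297314097) (nat_lit 0) (nat_lit 6581730517) (nat_lit 5) (nat_lit 5) (nat_lit 7) (nat_lit 4) (nat_lit 5) (nat_lit 4) (nat_lit 293) (nat_lit 261) (nat_lit 226)) (XT.lf (nat_lit 0) (nat_lit 44320225911) (nat_lit 152) (nat_lit 49404160702) (nat_lit 0) (nat_lit 29284561486) (nat_lit 5) (nat_lit 5) (nat_lit 7) (nat_lit 4) (nat_lit 5) (nat_lit 4) (nat_lit 294) (nat_lit 261) (nat_lit 225))) (XT.nd (nat_lit 78) (nat_lit 76) (nat_lit 0) (XT.lf (nat_lit 0) (nat_lit 70406257770) (nat_lit 152) (nat_lit 13954568716) (nat_lit 0) (nat_lit 55357703764) (nat_lit 5) (nat_lit 5) (nat_lit 7) (nat_lit 4) (nat_lit 5) (nat_lit 4) (nat_lit 295) (nat_lit 261) (nat_lit 224)) (XT.lf (nat_lit 0) (nat_lit 28153387288) (nat_lit 76) (nat_lit 72894748738) (nat_lit 76) (nat_lit 57834986401) (nat_lit 4) (nat_lit 4) (nat_lit 5) (nat_lit 5) (nat_lit 5) (nat_lit 4) (nat_lit 296) (nat_lit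 261) (nat_lit 223)))))) (XT.nd (nat_lit 468) (nat_lit 0) (nat_lit 0) (XT.nd (nat_lit 234) (nat_lit 152) (nat_lit 0) (XT.nd (nat_lit 78) (nat_lit 0) (nat_lit 0) (XT.lf (nat_lit 0) (nat_lit 77360868619) (nat_lit 76) (nat_lit 59300521490) (nat_lit 76) (nat_lit 44231012778) (nat_lit 4) (nat_lit 4) (nat_lit 5) (nat_lit 5) (nat_lit 5) (nat_lit 4) (nat_lit 297) (nat_lit 261) (nat_lit 222)) (XT.nd (nat_lit 78) (nat_lit 0) (nat_lit 0) (XT.lf (nat_lit 0) (nat_lit 133895807488) (nat_lit 76) (nat_lit 43693713370) (nat_lit 76) (nat_lit 28615729549) (nat_lit 4) (nat_lit 4) (nat_lit 5) (nat_lit 5) (nat_lit 5) (nat_lit 4) (nat_lit 298) (nat_lit 261) (nat_lit 221)) (XT.lf (nat_lit 0) (nat_lit 198864322264) (nat_lit 76) (nat_lit 25768973783) (nat_lit 76) (nat_lit 10683620303) (nat_lit 4) (nat_lit 4) (nat_lit 5) (nat_lit 5) (nat_lit 5) (nat_lit 4) (nat_lit 299) (nat_lit 261) (nat_lit 220)))) (XT.nd (nat_lit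 78) (nat_lit 0) (nat_lit 0) (XT.lf (nat_lit 0) (nat_lit 4739146680) (nat_lit 76) (nat_lit 4794943973) (nat_lit 152) (nat_lit 259234689298) (nat_lit 2) (nat_lit 5) (nat_lit 3) (nat_lit 5) (nat_lit 4) (nat_lit 4) (nat_lit 300) (nat_lit 261) (nat_lit 219)) (XT.nd (nat_lit 78) (nat_lit 0) (nat_lit 0) (XT.lf (nat_lit 0) (nat_lit 33703803045) (nat_lit 152) (nat_lit 253663479556) (nat_lit 0) (nat_lit 19724789710) (nat_lit 2) (nat_lit 5) (nat_lit 4) (nat_lit 4) (nat_lit 2) (nat_lit 4) (nat_lit 301) (nat_lit 261) (nat_lit 218)) (XT.lf (nat_lit 0) (nat_lit 61614487224) (nat_lit 152) (nat_lit 241909146166) (nat_lit 0) (nat_lit 47630987157) (nat_lit 2) (nat_lit 5) (nat_lit 4) (nat_lit 4) (nat_lit 2) (nat_lit 4) (nat_lit 302) (nat_lit 261) (nat_lit 217))))) (XT.nd (nat_lit 234) (nat_lit 0) (nat_lit 0) (XT.nd (nat_lit 78) (nat_lit 0) (nat_lit 0) (XT.lf (nat_lit 0) (nat_lit 93696903277) (nat_lit 152)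 (nat_lit 228421338496) (nat_lit 0) (nat_lit 79709501703) (nat_lit 2) (nat_lit 5) (nat_lit 4) (nat_lit 4) (nat_lit 2) (nat_lit 4) (nat_lit 303) (nat_lit 261) (nat_lit 216)) (XT.nd (nat_lit 78) (nat_lit 0) (nat_lit 0) (XT.lf (nat_lit 0) (nat_lit 130578750647) (nat_lit 152) (nat_lit 212936164655) (nat_lit 0) (nat_lit 116587956459) (nat_lit 2) (nat_lit 5) (nat_lit 4) (nat_lit 4) (nat_lit 2) (nat_lit 4) (nat_lit 304) (nat_lit 261) (nat_lit 215)) (XT.lf (nat_lit 0) (nat_lit 172981630696) (nat_lit 152) (nat_lit 195150653852) (nat_lit 0) (nat_lit 158987886409) (nat_lit 2) (nat_lit 5) (nat_lit 4) (nat_lit 4) (nat_lit 2) (nat_lit 4) (nat_lit 305) (nat_lit 261) (nat_lit 214)))) (XT.nd (nat_lit 156) (nat_lit 0) (nat_lit 0) (XT.nd (nat_lit 78) (nat_lit 0) (nat_lit 0) (XT.lf (nat_lit 0) (nat_lit 221735164991) (nat_lit 152) (nat_lit 174716828701) (nat_lit 0) (nat_lit 207738855400) (nat_lit 2) (nat_lit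 5) (nat_lit 4) (nat_lit 4) (nat_lit 2) (nat_lit 4) (nat_lit 306) (nat_lit 261) (nat_lit 213)) (XT.lf (nat_lit 0) (nat_lit 277793227029) (nat_lit 152) (nat_lit 151234896971) (nat_lit 0) (nat_lit 263794686739) (nat_lit 2) (nat_lit 5) (nat_lit 4) (nat_lit 4) (nat_lit 2) (nat_lit 4) (nat_lit 307) (nat_lit 261) (nat_lit 212))) (XT.nd (nat_lit 78) (nat_lit 0) (nat_lit 0) (XT.lf (nat_lit 0) (nat_lit 342252604980) (nat_lit 152) (nat_lit 124245429563) (nat_lit 0) (nat_lit 328252124952) (nat_lit 2) (nat_lit 5) (nat_lit 4) (nat_lit 4) (nat_lit 2) (nat_lit 4) (nat_lit 308) (nat_lit 261) (nat_lit 211)) (XT.lf (nat_lit 0) (nat_lit 416374460586) (nat_lit 152) (nat_lit 93220371680) (nat_lit 0) (nat_lit 402372293829) (nat_lit 2) (nat_lit 5) (nat_lit 4) (nat_lit 4) (nat_lit 2) (nat_lit 4) (nat_lit 309) (nat_lit 261) (nat_lit 210))))))) (XT.nd (nat_lit 1014) (nat_lit 0) (nat_lit 0) (XT.nd (nat_lit 468) (nat_lit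 0) (nat_lit 0) (XT.nd (nat_lit 234) (nat_lit 0) (nat_lit 0) (XT.nd (nat_lit 78) (nat_lit 76) (nat_lit 0) (XT.lf (nat_lit 0) (nat_lit 501609004066) (nat_lit 152) (nat_lit 57552711319) (nat_lit 0) (nat_lit 487605370589) (nat_lit 2) (nat_lit 5) (nat_lit 4) (nat_lit 4) (nat_lit 2) (nat_lit 4) (nat_lit 310) (nat_lit 261) (nat_lit 209)) (XT.nd (nat_lit 78) (nat_lit 76) (nat_lit 0) (XT.lf (nat_lit 0) (nat_lit 599623867793) (nat_lit 152) (nat_lit 16544602953) (nat_lit 0) (nat_lit 585618958906) (nat_lit 2) (nat_lit 5) (nat_lit 4) (nat_lit 4) (nat_lit 2) (nat_lit 4) (nat_lit 311) (nat_lit 261) (nat_lit 208)) (XT.lf (nat_lit 0) (nat_lit 32217958754) (nat_lit 76) (nat_lit 680893617810) (nat_lit 76) (nat_lit 666887599871) (nat_lit 1) (nat_lit 4) (nat_lit 2) (nat_lit 5) (nat_lit 2) (nat_lit 4) (nat_lit 312) (nat_lit 261) (nat_lit 207)))) (XT.nd (nat_lit 78) (nat_lit 0) (nat_lit 0) (XT.lf (nat_lit 0)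 (nat_lit 89289073957) (nat_lit 76) (nat_lit 754811184480) (nat_lit 76) (nat_lit 740804202148) (nat_lit 1) (nat_lit 4) (nat_lit 2) (nat_lit 5) (nat_lit 2) (nat_lit 4) (nat_lit 313) (nat_lit 261) (nat_lit 206)) (XT.nd (nat_lit 78) (nat_lit 0) (nat_lit 0) (XT.lf (nat_lit 0) (nat_lit 154914141958) (nat_lit 76) (nat_lit 839819742781) (nat_lit 76) (nat_lit 825811921848) (nat_lit 1) (nat_lit 4) (nat_lit 2) (nat_lit 5) (nat_lit 2) (nat_lit 4) (nat_lit 314) (nat_lit 261) (nat_lit 205)) (XT.lf (nat_lit 0) (nat_lit 230377131479) (nat_lit 76) (nat_lit 937582503638) (nat_lit 76) (nat_lit 923573953485) (nat_lit 1) (nat_lit 4) (nat_lit 2) (nat_lit 5) (nat_lit 2) (nat_lit 4) (nat_lit 315) (nat_lit 261) (nat_lit 204))))) (XT.nd (nat_lit 234) (nat_lit 0) (nat_lit 0) (XT.nd (nat_lit 78) (nat_lit 0) (nat_lit 0) (XT.lf (nat_lit 0) (nat_lit 317154492315) (nat_lit 76) (nat_lit 1050012216718) (nat_lit 76) (nat_lit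 1036003032461) (nat_lit 1) (nat_lit 4) (nat_lit 2) (nat_lit 5) (nat_lit 2) (nat_lit 4) (nat_lit 316) (nat_lit 261) (nat_lit 203)) (XT.nd (nat_lit 78) (nat_lit 0) (nat_lit 0) (XT.lf (nat_lit 0) (nat_lit 416944042395) (nat_lit 76) (nat_lit 1179308593800) (nat_lit 76) (nat_lit 1165298858148) (nat_lit 1) (nat_lit 4) (nat_lit 2) (nat_lit 5) (nat_lit 2) (nat_lit 4) (nat_lit 317) (nat_lit 261) (nat_lit 202)) (XT.lf (nat_lit 0) (nat_lit 531698185960) (nat_lit 76) (nat_lit 1328001346608) (nat_lit 76) (nat_lit 1313991131483) (nat_lit 1) (nat_lit 4) (nat_lit 2) (nat_lit 5) (nat_lit 2) (nat_lit 4) (nat_lit 318) (nat_lit 261) (nat_lit 201)))) (XT.nd (nat_lit 156) (nat_lit 0) (nat_lit 0) (XT.nd (nat_lit 78) (nat_lit 0) (nat_lit 0) (XT.lf (nat_lit 0) (nat_lit 663662112776) (nat_lit 76) (nat_lit 1498999681177) (nat_lit 76) (nat_lit 1484989049118) (nat_lit 1) (nat_lit 4) (nat_lit 2) (nat_lit 5) (nat_lit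 2) (nat_lit 4) (nat_lit 319) (nat_lit 261) (nat_lit 200)) (XT.lf (nat_lit 0) (nat_lit 815417725758) (nat_lit 76) (nat_lit 1695649217095) (nat_lit 76) (nat_lit 1681638222485) (nat_lit 1) (nat_lit 4) (nat_lit 2) (nat_lit 5) (nat_lit 2) (nat_lit 4) (nat_lit 320) (nat_lit 261) (nat_lit 199))) (XT.nd (nat_lit 78) (nat_lit 0) (nat_lit 0) (XT.lf (nat_lit 0) (nat_lit 989934156465) (nat_lit 76) (nat_lit 1921797445282) (nat_lit 76) (nat_lit 1907786135411) (nat_lit 1) (nat_lit 4) (nat_lit 2) (nat_lit 5) (nat_lit 2) (nat_lit 4) (nat_lit 321) (nat_lit 261) (nat_lit 198)) (XT.lf (nat_lit 0) (nat_lit 1190625856802) (nat_lit 76) (nat_lit 2181869004987) (nat_lit 76) (nat_lit 2167857420975) (nat_lit 1) (nat_lit 4) (nat_lit 2) (nat_lit 5) (nat_lit 2) (nat_lit 4) (nat_lit 322) (nat_lit 261) (nat_lit 197)))))) (XT.nd (nat_lit 35880) (nat_lit 0) (nat_lit 3496) (XT.nd (nat_lit 234) (nat_lit 0) (nat_lit 0) (XT.nd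 (nat_lit 78) (nat_lit 0) (nat_lit 0) (XT.lf (nat_lit 0) (nat_lit 1421419403515) (nat_lit 76) (nat_lit 2480952252811) (nat_lit 76) (nat_lit 2466940430416) (nat_lit 1) (nat_lit 4) (nat_lit 2) (nat_lit 5) (nat_lit 2) (nat_lit 4) (nat_lit 323) (nat_lit 261) (nat_lit 196)) (XT.nd (nat_lit 78) (nat_lit 0) (nat_lit 0) (XT.lf (nat_lit 0) (nat_lit 1686830322517) (nat_lit 76) (nat_lit 2824898817516) (nat_lit 76) (nat_lit 2810886787831) (nat_lit 1) (nat_lit 4) (nat_lit 2) (nat_lit 5) (nat_lit 2) (nat_lit 4) (nat_lit 324) (nat_lit 261) (nat_lit 195)) (XT.lf (nat_lit 0) (nat_lit 1992051436137) (nat_lit 76) (nat_lit 3220438088413) (nat_lit 76) (nat_lit 3206425878476) (nat_lit 1) (nat_lit 4) (nat_lit 2) (nat_lit 5) (nat_lit 2) (nat_lit 4) (nat_lit 325) (nat_lit 261) (nat_lit 194)))) (XT.nd (nat_lit 78) (nat_lit 0) (nat_lit 0) (XT.lf (nat_lit 0) (nat_lit 2343054461816) (nat_lit 76) (nat_lit 3675308877322)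 (nat_lit 76) (nat_lit 3661296510645) (nat_lit 1) (nat_lit 4) (nat_lit 2) (nat_lit 5) (nat_lit 2) (nat_lit 4) (nat_lit 326) (nat_lit 261) (nat_lit 193)) (XT.nd (nat_lit 78) (nat_lit 0) (nat_lit 0) (XT.lf (nat_lit 0) (nat_lit 2746706850055) (nat_lit 76) (nat_lit 4198410830114) (nat_lit 76) (nat_lit 4184398327140) (nat_lit 1) (nat_lit 4) (nat_lit 2) (nat_lit 5) (nat_lit 2) (nat_lit 4) (nat_lit 327) (nat_lit 261) (nat_lit 192)) (XT.lf (nat_lit 0) (nat_lit 3210906147581) (nat_lit 76) (nat_lit 4799978550213) (nat_lit 76) (nat_lit 4785965928721) (nat_lit 1) (nat_lit 4) (nat_lit 2) (nat_lit 5) (nat_lit 2) (nat_lit 4) (nat_lit 328) (nat_lit 261) (nat_lit 191))))) (XT.nd (nat_lit 234) (nat_lit 1520) (nat_lit 0) (XT.nd (nat_lit 78) (nat_lit 304) (nat_lit 0) (XT.lf (nat_lit 0) (nat_lit 1334136011) (nat_lit 0) (nat_lit 1334136011) (nat_lit 228) (nat_lit 742945878) (nat_lit 71) (nat_lit 5) (nat_lit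 71) (nat_lit 3) (nat_lit 74) (nat_lit 3) (nat_lit 262) (nat_lit 262) (nat_lit 256)) (XT.nd (nat_lit 78) (nat_lit 0) (nat_lit 0) (XT.lf (nat_lit 0) (nat_lit 1998525743) (nat_lit 304) (nat_lit 5026592365) (nat_lit 380) (nat_lit 22787887) (nat_lit 67) (nat_lit 5) (nat_lit 71) (nat_lit 5) (nat_lit 72) (nat_lit 5) (nat_lit 263) (nat_lit 262) (nat_lit 255)) (XT.lf (nat_lit 76) (nat_lit 1631005407) (nat_lit 0) (nat_lit 3907096843) (nat_lit 380) (nat_lit 1797794786) (nat_lit 68) (nat_lit 5) (nat_lit 67) (nat_lit 5) (nat_lit 72) (nat_lit 5) (nat_lit 264) (nat_lit 262) (nat_lit 254)))) (XT.nd (nat_lit 156) (nat_lit 836) (nat_lit 0) (XT.nd (nat_lit 78) (nat_lit 380) (nat_lit 0) (XT.lf (nat_lit 0) (nat_lit 1471358170) (nat_lit 380) (nat_lit 6138758715) (nat_lit 76) (nat_lit 84226358) (nat_lit 63) (nat_lit 5) (nat_lit 68) (nat_lit 5) (nat_lit 64) (nat_lit 5) (nat_lit 265) (nat_lit 262) (nat_lit 253))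 (XT.lf (nat_lit 0) (nat_lit 1663056064) (nat_lit 380) (nat_lit 3287601386) (nat_lit 456) (nat_lit 3167063886) (nat_lit 58) (nat_lit 5) (nat_lit 63) (nat_lit 5) (nat_lit 64) (nat_lit 5) (nat_lit 266) (nat_lit 262) (nat_lit 252))) (XT.nd (nat_lit 78) (nat_lit 304) (nat_lit 0) (XT.lf (nat_lit 0) (nat_lit 159695862) (nat_lit 532) (nat_lit 6566088013) (nat_lit 76) (nat_lit 1892572406) (nat_lit 51) (nat_lit 5) (nat_lit 58) (nat_lit 5) (nat_lit 52) (nat_lit 5) (nat_lit 267) (nat_lit 262) (nat_lit 251)) (XT.lf (nat_lit 0) (nat_lit 2589002722) (nat_lit 304) (nat_lit 1159016695) (nat_lit 380) (nat_lit 5444179166) (nat_lit 47) (nat_lit 5) (nat_lit 51) (nat_lit 5) (nat_lit 52) (nat_lit 5) (nat_lit 268) (nat_lit 262) (nat_lit 250))))))))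
noncomputable def xc26 : XT := (XT.nd (nat_lit 2028) (nat_lit 304) (nat_lit 0) (XT.nd (nat_lit 1014) (nat_lit 912) (nat_lit 0) (XT.nd (nat_lit 468) (nat_lit 988) (nat_lit 0) (XT.nd (nat_lit 234) (nat_lit 608) (nat_lit 0) (XT.nd (nat_lit 78) (nat_lit 456) (nat_lit 0) (XT.lf (nat_lit 0) (nat_lit 3313978148) (nat_lit 228) (nat_lit 4604429811) (nat_lit 304) (nat_lit 1930811833) (nat_lit 44) (nat_lit 5) (nat_lit 47) (nat_lit 5) (nat_lit 48) (nat_lit 5) (nat_lit 269) (nat_lit 262) (nat_lit 249)) (XT.nd (nat_lit 78) (nat_lit 152) (nat_lit 0) (XT.lf (nat_lit 0) (nat_lit 2061552356) (nat_lit 304) (nat_lit 6383296991) (nat_lit 76) (nat_lit 2151773829) (nat_lit 40) (nat_lit 5) (nat_lit 44) (nat_lit 5) (nat_lit 41) (nat_lit 5) (nat_lit 270) (nat_lit 262) (nat_lit 248)) (XT.lf (nat_lit 0) (nat_lit 5231871782) (nat_lit 152) (nat_lit 1462346983) (nat_lit 228) (nat_lit 4745869966) (nat_lit 38) (nat_lit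 5) (nat_lit 40) (nat_lit 5) (nat_lit 41) (nat_lit 5) (nat_lit 271) (nat_lit 262) (nat_lit 247)))) (XT.nd (nat_lit 78) (nat_lit 380) (nat_lit 0) (XT.lf (nat_lit 0) (nat_lit 6375445488) (nat_lit 228) (nat_lit 5880973739) (nat_lit 304) (nat_lit 135254247) (nat_lit 35) (nat_lit 5) (nat_lit 38) (nat_lit 5) (nat_lit 39) (nat_lit 5) (nat_lit 272) (nat_lit 262) (nat_lit 246)) (XT.nd (nat_lit 78) (nat_lit 152) (nat_lit 0) (XT.lf (nat_lit 0) (nat_lit 5131925244) (nat_lit 228) (nat_lit 5905955549) (nat_lit 76) (nat_lit 2420596409) (nat_lit 32) (nat_lit 5) (nat_lit 35) (nat_lit 5) (nat_lit 33) (nat_lit 5) (nat_lit 273) (nat_lit 262) (nat_lit 245)) (XT.lf (nat_lit 0) (nat_lit 8787489549) (nat_lit 152) (nat_lit 2723065111) (nat_lit 228) (nat_lit 3148374363) (nat_lit 30) (nat_lit 5) (nat_lit 32) (nat_lit 5) (nat_lit 33) (nat_lit 5) (nat_lit 274) (nat_lit 262) (nat_lit 244))))) (XT.nd (nat_lit 234) (nat_lit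 456) (nat_lit 0) (XT.nd (nat_lit 78) (nat_lit 304) (nat_lit 0) (XT.lf (nat_lit 0) (nat_lit 3052956548) (nat_lit 228) (nat_lit 6053720363) (nat_lit 76) (nat_lit 6896634905) (nat_lit 27) (nat_lit 5) (nat_lit 30) (nat_lit 5) (nat_lit 28) (nat_lit 5) (nat_lit 275) (nat_lit 262) (nat_lit 243)) (XT.nd (nat_lit 78) (nat_lit 152) (nat_lit 0) (XT.lf (nat_lit 0) (nat_lit 10346925075) (nat_lit 228) (nat_lit 6484388655) (nat_lit 76) (nat_lit 683769081) (nat_lit 25) (nat_lit 5) (nat_lit 28) (nat_lit 5) (nat_lit 26) (nat_lit 4) (nat_lit 276) (nat_lit 262) (nat_lit 242)) (XT.lf (nat_lit 0) (nat_lit 64629919) (nat_lit 152) (nat_lit 7356707717) (nat_lit 76) (nat_lit 11788840408) (nat_lit 23) (nat_lit 5) (nat_lit 25) (nat_lit 5) (nat_lit 24) (nat_lit 5) (nat_lit 277) (nat_lit 262) (nat_lit 241)))) (XT.nd (nat_lit 156) (nat_lit 228) (nat_lit 0) (XT.nd (nat_lit 78) (nat_lit 76) (nat_lit 0) (XT.lf (nat_lit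 0) (nat_lit 8395088721) (nat_lit 228) (nat_lit 8881204876) (nat_lit 76) (nat_lit 3833501069) (nat_lit 21) (nat_lit 5) (nat_lit 24) (nat_lit 5) (nat_lit 22) (nat_lit 4) (nat_lit 278) (nat_lit 262) (nat_lit 240)) (XT.lf (nat_lit 0) (nat_lit 12054987516) (nat_lit 76) (nat_lit 6485595932) (nat_lit 152) (nat_lit 4708643409) (nat_lit 20) (nat_lit 5) (nat_lit 21) (nat_lit 5) (nat_lit 22) (nat_lit 4) (nat_lit 279) (nat_lit 262) (nat_lit 239))) (XT.nd (nat_lit 78) (nat_lit 76) (nat_lit 0) (XT.lf (nat_lit 0) (nat_lit 4824938493) (nat_lit 152) (nat_lit 14643899757) (nat_lit 76) (nat_lit 6188038990) (nat_lit 18) (nat_lit 5) (nat_lit 20) (nat_lit 5) (nat_lit 19) (nat_lit 4) (nat_lit 280) (nat_lit 262) (nat_lit 238)) (XT.lf (nat_lit 0) (nat_lit 8717396868) (nat_lit 76) (nat_lit 7394957208) (nat_lit 152) (nat_lit 12255406186) (nat_lit 17) (nat_lit 5) (nat_lit 18) (nat_lit 5) (nat_lit 19) (nat_lit 4)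 (nat_lit 281) (nat_lit 262) (nat_lit 237)))))) (XT.nd (nat_lit 468) (nat_lit 456) (nat_lit 0) (XT.nd (nat_lit 234) (nat_lit 228) (nat_lit 0) (XT.nd (nat_lit 78) (nat_lit 152) (nat_lit 0) (XT.lf (nat_lit 0) (nat_lit 4877474918) (nat_lit 76) (nat_lit 24806951922) (nat_lit 76) (nat_lit 1753592549) (nat_lit 16) (nat_lit 4) (nat_lit 17) (nat_lit 5) (nat_lit 17) (nat_lit 4) (nat_lit 282) (nat_lit 262) (nat_lit 236)) (XT.nd (nat_lit 78) (nat_lit 76) (nat_lit 0) (XT.lf (nat_lit 0) (nat_lit 10487182360) (nat_lit 152) (nat_lit 1321605015) (nat_lit 76) (nat_lit 23085812754) (nat_lit 15) (nat_lit 5) (nat_lit 17) (nat_lit 5) (nat_lit 16) (nat_lit 4) (nat_lit 283) (nat_lit 262) (nat_lit 235)) (XT.lf (nat_lit 0) (nat_lit 25154802668) (nat_lit 152) (nat_lit 9987834093) (nat_lit 0) (nat_lit 3667869555) (nat_lit 14) (nat_lit 5) (nat_lit 16) (nat_lit 4) (nat_lit 14) (nat_lit 4) (nat_lit 284) (nat_lit 262)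 (nat_lit 234)))) (XT.nd (nat_lit 78) (nat_lit 152) (nat_lit 0) (XT.lf (nat_lit 0) (nat_lit 20802183552) (nat_lit 76) (nat_lit 21996798003) (nat_lit 76) (nat_lit 452744570) (nat_lit 13) (nat_lit 4) (nat_lit 14) (nat_lit 5) (nat_lit 14) (nat_lit 4) (nat_lit 285) (nat_lit 262) (nat_lit 233)) (XT.nd (nat_lit 78) (nat_lit 0) (nat_lit 0) (XT.lf (nat_lit 0) (nat_lit 8378041333) (nat_lit 76) (nat_lit 6031460882) (nat_lit 152) (nat_lit 33888059351) (nat_lit 11) (nat_lit 5) (nat_lit 12) (nat_lit 5) (nat_lit 13) (nat_lit 4) (nat_lit 286) (nat_lit 262) (nat_lit 232)) (XT.lf (nat_lit 0) (nat_lit 32363833311) (nat_lit 152) (nat_lit 9334709250) (nat_lit 0) (nat_lit 12329653270) (nat_lit 11) (nat_lit 5) (nat_lit 13) (nat_lit 4) (nat_lit 11) (nat_lit 4) (nat_lit 287) (nat_lit 262) (nat_lit 231))))) (XT.nd (nat_lit 234) (nat_lit 228) (nat_lit 0) (XT.nd (nat_lit 78) (nat_lit 152) (nat_lit 0) (XT.lf (nat_lit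 0) (nat_lit 26885531110) (nat_lit 76) (nat_lit 26871123666) (nat_lit 76) (nat_lit 6802168127) (nat_lit 10) (nat_lit 4) (nat_lit 11) (nat_lit 5) (nat_lit 11) (nat_lit 4) (nat_lit 288) (nat_lit 262) (nat_lit 230)) (XT.nd (nat_lit 78) (nat_lit 0) (nat_lit 0) (XT.lf (nat_lit 0) (nat_lit 715314841) (nat_lit 76) (nat_lit 9291661092) (nat_lit 152) (nat_lit 58023704568) (nat_lit 8) (nat_lit 5) (nat_lit 9) (nat_lit 5) (nat_lit 10) (nat_lit 4) (nat_lit 289) (nat_lit 262) (nat_lit 229)) (XT.lf (nat_lit 0) (nat_lit 30155349027) (nat_lit 152) (nat_lit 34835565336) (nat_lit 0) (nat_lit 11520635717) (nat_lit 8) (nat_lit 5) (nat_lit 10) (nat_lit 4) (nat_lit 8) (nat_lit 4) (nat_lit 290) (nat_lit 262) (nat_lit 228)))) (XT.nd (nat_lit 156) (nat_lit 152) (nat_lit 0) (XT.nd (nat_lit 78) (nat_lit 0) (nat_lit 0) (XT.lf (nat_lit 0) (nat_lit 2272273909) (nat_lit 76) (nat_lit 51313688807) (nat_lit 76) (nat_lit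 32657803781) (nat_lit 7) (nat_lit 4) (nat_lit 8) (nat_lit 5) (nat_lit 8) (nat_lit 4) (nat_lit 291) (nat_lit 262) (nat_lit 227)) (XT.lf (nat_lit 0) (nat_lit 46963726520) (nat_lit 76) (nat_lit 34534515683) (nat_lit 76) (nat_lit 15860220468) (nat_lit 7) (nat_lit 4) (nat_lit 8) (nat_lit 5) (nat_lit 8) (nat_lit 4) (nat_lit 292) (nat_lit 262) (nat_lit 226))) (XT.nd (nat_lit 78) (nat_lit 76) (nat_lit 0) (XT.lf (nat_lit 0) (nat_lit 3242012528) (nat_lit 152) (nat_lit 11946918015) (nat_lit 76) (nat_lit 94948156449) (nat_lit 6) (nat_lit 5) (nat_lit 8) (nat_lit 5) (nat_lit 7) (nat_lit 4) (nat_lit 293) (nat_lit 262) (nat_lit 225)) (XT.lf (nat_lit 0) (nat_lit 25265797590) (nat_lit 152) (nat_lit 91507063872) (nat_lit 0) (nat_lit 7947070902) (nat_lit 5) (nat_lit 5) (nat_lit 7) (nat_lit 4) (nat_lit 5) (nat_lit 4) (nat_lit 294) (nat_lit 262) (nat_lit 224))))))) (XT.nd (nat_lit 1014) (nat_lit 76) (nat_lit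 0) (XT.nd (nat_lit 468) (nat_lit 152) (nat_lit 0) (XT.nd (nat_lit 234) (nat_lit 0) (nat_lit 0) (XT.nd (nat_lit 78) (nat_lit 76) (nat_lit 0) (XT.lf (nat_lit 0) (nat_lit 51335946647) (nat_lit 152) (nat_lit 56088830599) (nat_lit 0) (nat_lit 34006011629) (nat_lit 5) (nat_lit 5) (nat_lit 7) (nat_lit 4) (nat_lit 5) (nat_lit 4) (nat_lit 295) (nat_lit 262) (nat_lit 223)) (XT.nd (nat_lit 78) (nat_lit 76) (nat_lit 0) (XT.lf (nat_lit 0) (nat_lit 81286924131) (nat_lit 152) (nat_lit 15416489494) (nat_lit 0) (nat_lit 63947242737) (nat_lit 5) (nat_lit 5) (nat_lit 7) (nat_lit 4) (nat_lit 5) (nat_lit 4) (nat_lit 296) (nat_lit 262) (nat_lit 222)) (XT.lf (nat_lit 0) (nat_lit 32954226512) (nat_lit 76) (nat_lit 83543050853) (nat_lit 76) (nat_lit 66194894351) (nat_lit 4) (nat_lit 4) (nat_lit 5) (nat_lit 5) (nat_lit 5) (nat_lit 4) (nat_lit 297) (nat_lit 262) (nat_lit 221)))) (XT.nd (nat_lit 78) (nat_lit 0) (nat_lit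 0) (XT.lf (nat_lit 0) (nat_lit 89467460765) (nat_lit 76) (nat_lit 67946982153) (nat_lit 76) (nat_lit 50591455991) (nat_lit 4) (nat_lit 4) (nat_lit 5) (nat_lit 5) (nat_lit 5) (nat_lit 4) (nat_lit 298) (nat_lit 262) (nat_lit 220)) (XT.nd (nat_lit 78) (nat_lit 0) (nat_lit 0) (XT.lf (nat_lit 0) (nat_lit 154417101962) (nat_lit 76) (nat_lit 50031581192) (nat_lit 76) (nat_lit 32669646630) (nat_lit 4) (nat_lit 4) (nat_lit 5) (nat_lit 5) (nat_lit 5) (nat_lit 4) (nat_lit 299) (nat_lit 262) (nat_lit 219)) (XT.lf (nat_lit 0) (nat_lit 229073903952) (nat_lit 76) (nat_lit 29446329257) (nat_lit 76) (nat_lit 12078822173) (nat_lit 4) (nat_lit 4) (nat_lit 5) (nat_lit 5) (nat_lit 5) (nat_lit 4) (nat_lit 300) (nat_lit 262) (nat_lit 218))))) (XT.nd (nat_lit 234) (nat_lit 0) (nat_lit 0) (XT.nd (nat_lit 78) (nat_lit 0) (nat_lit 0) (XT.lf (nat_lit 0) (nat_lit 5807323114) (nat_lit 76) (nat_lit 5336751822) (nat_lit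 152) (nat_lit 297925597730) (nat_lit 2) (nat_lit 5) (nat_lit 3) (nat_lit 5) (nat_lit 4) (nat_lit 4) (nat_lit 301) (nat_lit 262) (nat_lit 217)) (XT.nd (nat_lit 78) (nat_lit 0) (nat_lit 0) (XT.lf (nat_lit 0) (nat_lit 38919493476) (nat_lit 152) (nat_lit 291393469817) (nat_lit 0) (nat_lit 22830080160) (nat_lit 2) (nat_lit 5) (nat_lit 4) (nat_lit 4) (nat_lit 2) (nat_lit 4) (nat_lit 302) (nat_lit 262) (nat_lit 216)) (XT.lf (nat_lit 0) (nat_lit 70995895068) (nat_lit 152) (nat_lit 277917664463) (nat_lit 0) (nat_lit 54903089138) (nat_lit 2) (nat_lit 5) (nat_lit 4) (nat_lit 4) (nat_lit 2) (nat_lit 4) (nat_lit 303) (nat_lit 262) (nat_lit 215)))) (XT.nd (nat_lit 156) (nat_lit 0) (nat_lit 0) (XT.nd (nat_lit 78) (nat_lit 0) (nat_lit 0) (XT.lf (nat_lit 0) (nat_lit 107872512473) (nat_lit 152) (nat_lit 262442927419) (nat_lit 0) (nat_lit 91776756443) (nat_lit 2) (nat_lit 5) (nat_lit 4) (nat_lit 4) (nat_lit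 2) (nat_lit 4) (nat_lit 304) (nat_lit 262) (nat_lit 214)) (XT.lf (nat_lit 0) (nat_lit 150270844726) (nat_lit 152) (nat_lit 244666492092) (nat_lit 0) (nat_lit 134172523393) (nat_lit 2) (nat_lit 5) (nat_lit 4) (nat_lit 4) (nat_lit 2) (nat_lit 4) (nat_lit 305) (nat_lit 262) (nat_lit 213))) (XT.nd (nat_lit 78) (nat_lit 0) (nat_lit 0) (XT.lf (nat_lit 0) (nat_lit 199020424416) (nat_lit 152) (nat_lit 224240558659) (nat_lit 0) (nat_lit 182919872384) (nat_lit 2) (nat_lit 5) (nat_lit 4) (nat_lit 4) (nat_lit 2) (nat_lit 4) (nat_lit 306) (nat_lit 262) (nat_lit 212)) (XT.lf (nat_lit 0) (nat_lit 255075047666) (nat_lit 152) (nat_lit 200765489293) (nat_lit 0) (nat_lit 238972555896) (nat_lit 2) (nat_lit 5) (nat_lit 4) (nat_lit 4) (nat_lit 2) (nat_lit 4) (nat_lit 307) (nat_lit 262) (nat_lit 211)))))) (XT.nd (nat_lit 468) (nat_lit 0) (nat_lit 0) (XT.nd (nat_lit 234) (nat_lit 76) (nat_lit 0) (XT.nd (nat_lit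 78) (nat_lit 0) (nat_lit 0) (XT.lf (nat_lit 0) (nat_lit 319531435367) (nat_lit 152) (nat_lit 173781989157) (nat_lit 0) (nat_lit 303427256868) (nat_lit 2) (nat_lit 5) (nat_lit 4) (nat_lit 4) (nat_lit 2) (nat_lit 4) (nat_lit 308) (nat_lit 262) (nat_lit 210)) (XT.nd (nat_lit 78) (nat_lit 0) (nat_lit 0) (XT.lf (nat_lit 0) (nat_lit 393650690756) (nat_lit 152) (nat_lit 142762120206) (nat_lit 0) (nat_lit 377545045536) (nat_lit 2) (nat_lit 5) (nat_lit 4) (nat_lit 4) (nat_lit 2) (nat_lit 4) (nat_lit 309) (nat_lit 262) (nat_lit 209)) (XT.lf (nat_lit 0) (nat_lit 478882973178) (nat_lit 152) (nat_lit 107098971961) (nat_lit 0) (nat_lit 462776052548) (nat_lit 2) (nat_lit 5) (nat_lit 4) (nat_lit 4) (nat_lit 2) (nat_lit 4) (nat_lit 310) (nat_lit 262) (nat_lit 208)))) (XT.nd (nat_lit 78) (nat_lit 76) (nat_lit 0) (XT.lf (nat_lit 0) (nat_lit 576895870766) (nat_lit 152) (nat_lit 66094787173) (nat_lit 0) (nat_lit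 560787841085) (nat_lit 2) (nat_lit 5) (nat_lit 4) (nat_lit 4) (nat_lit 2) (nat_lit 4) (nat_lit 311) (nat_lit 262) (nat_lit 207)) (XT.nd (nat_lit 78) (nat_lit 76) (nat_lit 0) (XT.lf (nat_lit 0) (nat_lit 689607027170) (nat_lit 152) (nat_lit 18947310053) (nat_lit 0) (nat_lit 673498033097) (nat_lit 2) (nat_lit 5) (nat_lit 4) (nat_lit 4) (nat_lit 2) (nat_lit 4) (nat_lit 312) (nat_lit 262) (nat_lit 206)) (XT.lf (nat_lit 0) (nat_lit 37122950364) (nat_lit 76) (nat_lit 782991518152) (nat_lit 76) (nat_lit 766881685476) (nat_lit 1) (nat_lit 4) (nat_lit 2) (nat_lit 5) (nat_lit 2) (nat_lit 4) (nat_lit 313) (nat_lit 262) (nat_lit 205))))) (XT.nd (nat_lit 234) (nat_lit 0) (nat_lit 0) (XT.nd (nat_lit 78) (nat_lit 0) (nat_lit 0) (XT.lf (nat_lit 0) (nat_lit 102745302699) (nat_lit 76) (nat_lit 868001434040) (nat_lit 76) (nat_lit 851890872144) (nat_lit 1) (nat_lit 4) (nat_lit 2) (nat_lit 5) (nat_lit 2) (nat_lit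 4) (nat_lit 314) (nat_lit 262) (nat_lit 204)) (XT.nd (nat_lit 78) (nat_lit 0) (nat_lit 0) (XT.lf (nat_lit 0) (nat_lit 178205930772) (nat_lit 76) (nat_lit 965765375406) (nat_lit 76) (nat_lit 949654179406) (nat_lit 1) (nat_lit 4) (nat_lit 2) (nat_lit 5) (nat_lit 2) (nat_lit 4) (nat_lit 315) (nat_lit 262) (nat_lit 203)) (XT.lf (nat_lit 0) (nat_lit 264981238175) (nat_lit 76) (nat_lit 1078196115016) (nat_lit 76) (nat_lit 1062084367622) (nat_lit 1) (nat_lit 4) (nat_lit 2) (nat_lit 5) (nat_lit 2) (nat_lit 4) (nat_lit 316) (nat_lit 262) (nat_lit 202)))) (XT.nd (nat_lit 156) (nat_lit 0) (nat_lit 0) (XT.nd (nat_lit 78) (nat_lit 0) (nat_lit 0) (XT.lf (nat_lit 0) (nat_lit 364769002661) (nat_lit 76) (nat_lit 1207493384732) (nat_lit 76) (nat_lit 1191381157864) (nat_lit 1) (nat_lit 4) (nat_lit 2) (nat_lit 5) (nat_lit 2) (nat_lit 4) (nat_lit 317) (nat_lit 262) (nat_lit 201)) (XT.lf (nat_lit 0) (nat_lit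 479521593536) (nat_lit 76) (nat_lit 1356186913744) (nat_lit 76) (nat_lit 1340074269943) (nat_lit 1) (nat_lit 4) (nat_lit 2) (nat_lit 5) (nat_lit 2) (nat_lit 4) (nat_lit 318) (nat_lit 262) (nat_lit 200))) (XT.nd (nat_lit 78) (nat_lit 0) (nat_lit 0) (XT.lf (nat_lit 0) (nat_lit 611484170186) (nat_lit 76) (nat_lit 1527185923273) (nat_lit 76) (nat_lit 1511072916921) (nat_lit 1) (nat_lit 4) (nat_lit 2) (nat_lit 5) (nat_lit 2) (nat_lit 4) (nat_lit 319) (nat_lit 262) (nat_lit 199)) (XT.lf (nat_lit 0) (nat_lit 763238609112) (nat_lit 76) (nat_lit 1723836046113) (nat_lit 76) (nat_lit 1707722724499) (nat_lit 1) (nat_lit 4) (nat_lit 2) (nat_lit 5) (nat_lit 2) (nat_lit 4) (nat_lit 320) (nat_lit 262) (nat_lit 198))))))))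
noncomputable def xc27 : XT := (XT.nd (nat_lit 37518) (nat_lit 0) (nat_lit 76) (XT.nd (nat_lit 36504) (nat_lit 0) (nat_lit 1444) (XT.nd (nat_lit 468) (nat_lit 0) (nat_lit 0) (XT.nd (nat_lit 234) (nat_lit 0) (nat_lit 0) (XT.nd (nat_lit 78) (nat_lit 0) (nat_lit 0) (XT.lf (nat_lit 0) (nat_lit 937754018900) (nat_lit 76) (nat_lit 1949984784667) (nat_lit 76) (nat_lit 1933871188913) (nat_lit 1) (nat_lit 4) (nat_lit 2) (nat_lit 5) (nat_lit 2) (nat_lit 4) (nat_lit 321) (nat_lit 262) (nat_lit 197)) (XT.nd (nat_lit 78) (nat_lit 0) (nat_lit 0) (XT.lf (nat_lit 0) (nat_lit 1138444831481) (nat_lit 76) (nat_lit 2210056788169) (nat_lit 76) (nat_lit 2193942954031) (nat_lit 1) (nat_lit 4) (nat_lit 2) (nat_lit 5) (nat_lit 2) (nat_lit 4) (nat_lit 322) (nat_lit 262) (nat_lit 196)) (XT.lf (nat_lit 0) (nat_lit 1369237606232) (nat_lit 76) (nat_lit 2509140421904) (nat_lit 76) (nat_lit 2493026380476) (nat_lit 1)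 (nat_lit 4) (nat_lit 2) (nat_lit 5) (nat_lit 2) (nat_lit 4) (nat_lit 323) (nat_lit 262) (nat_lit 195)))) (XT.nd (nat_lit 78) (nat_lit 0) (nat_lit 0) (XT.lf (nat_lit 0) (nat_lit 1634647853963) (nat_lit 76) (nat_lit 2853087322184) (nat_lit 76) (nat_lit 2836973100505) (nat_lit 1) (nat_lit 4) (nat_lit 2) (nat_lit 5) (nat_lit 2) (nat_lit 4) (nat_lit 324) (nat_lit 262) (nat_lit 194)) (XT.nd (nat_lit 78) (nat_lit 0) (nat_lit 0) (XT.lf (nat_lit 0) (nat_lit 1939868383870) (nat_lit 76) (nat_lit 3248626884884) (nat_lit 76) (nat_lit 3232512506464) (nat_lit 1) (nat_lit 4) (nat_lit 2) (nat_lit 5) (nat_lit 2) (nat_lit 4) (nat_lit 325) (nat_lit 262) (nat_lit 193)) (XT.lf (nat_lit 0) (nat_lit 2290870901971) (nat_lit 76) (nat_lit 3703497927536) (nat_lit 76) (nat_lit 3687383412820) (nat_lit 1) (nat_lit 4) (nat_lit 2) (nat_lit 5) (nat_lit 2) (nat_lit 4) (nat_lit 326) (nat_lit 262) (nat_lit 192))))) (XT.nd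 (nat_lit 35724) (nat_lit 0) (nat_lit 4256) (XT.nd (nat_lit 78) (nat_lit 0) (nat_lit 0) (XT.lf (nat_lit 0) (nat_lit 2694522848838) (nat_lit 76) (nat_lit 4226600100974) (nat_lit 76) (nat_lit 4210485467739) (nat_lit 1) (nat_lit 4) (nat_lit 2) (nat_lit 5) (nat_lit 2) (nat_lit 4) (nat_lit 327) (nat_lit 262) (nat_lit 191)) (XT.nd (nat_lit 35568) (nat_lit 0) (nat_lit 4940) (XT.lf (nat_lit 0) (nat_lit 3158721762563) (nat_lit 76) (nat_lit 4828168012939) (nat_lit 76) (nat_lit 4812053276644) (nat_lit 1) (nat_lit 4) (nat_lit 2) (nat_lit 5) (nat_lit 2) (nat_lit 4) (nat_lit 328) (nat_lit 262) (nat_lit 190)) (XT.lf (nat_lit 0) (nat_lit 2511551211) (nat_lit 380) (nat_lit 569729763) (nat_lit 380) (nat_lit 569729763) (nat_lit 66) (nat_lit 3) (nat_lit 71) (nat_lit 3) (nat_lit 71) (nat_lit 5) (nat_lit 263) (nat_lit 263) (nat_lit 254)))) (XT.nd (nat_lit 156) (nat_lit 304) (nat_lit 0) (XT.nd (nat_lit 78) (nat_lit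 0) (nat_lit 76) (XT.lf (nat_lit 0) (nat_lit 506524797) (nat_lit 380) (nat_lit 2018408834) (nat_lit 456) (nat_lit 5097140328) (nat_lit 61) (nat_lit 5) (nat_lit 66) (nat_lit 3) (nat_lit 67) (nat_lit 5) (nat_lit 264) (nat_lit 263) (nat_lit 253)) (XT.lf (nat_lit 0) (nat_lit 3305373804) (nat_lit 380) (nat_lit 2711323087) (nat_lit 456) (nat_lit 1991258395) (nat_lit 62) (nat_lit 5) (nat_lit 67) (nat_lit 5) (nat_lit 68) (nat_lit 5) (nat_lit 265) (nat_lit 263) (nat_lit 252))) (XT.nd (nat_lit 78) (nat_lit 380) (nat_lit 0) (XT.lf (nat_lit 76) (nat_lit 5269534769) (nat_lit 0) (nat_lit 1085819990) (nat_lit 456) (nat_lit 2110727915) (nat_lit 63) (nat_lit 5) (nat_lit 62) (nat_lit 5) (nat_lit 68) (nat_lit 5) (nat_lit 266) (nat_lit 263) (nat_lit 251)) (XT.lf (nat_lit 0) (nat_lit 772698669) (nat_lit 456) (nat_lit 3544919723) (nat_lit 76) (nat_lit 4678631253) (nat_lit 57) (nat_lit 5) (nat_lit 63) (nat_lit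 5) (nat_lit 58) (nat_lit 5) (nat_lit 267) (nat_lit 263) (nat_lit 250)))))) (XT.nd (nat_lit 468) (nat_lit 1064) (nat_lit 0) (XT.nd (nat_lit 234) (nat_lit 684) (nat_lit 0) (XT.nd (nat_lit 78) (nat_lit 608) (nat_lit 0) (XT.lf (nat_lit 0) (nat_lit 3940556612) (nat_lit 532) (nat_lit 3766737085) (nat_lit 76) (nat_lit 1896718235) (nat_lit 51) (nat_lit 5) (nat_lit 58) (nat_lit 5) (nat_lit 52) (nat_lit 5) (nat_lit 268) (nat_lit 263) (nat_lit 249)) (XT.nd (nat_lit 78) (nat_lit 304) (nat_lit 0) (XT.lf (nat_lit 0) (nat_lit 6441298151) (nat_lit 304) (nat_lit 1219107245) (nat_lit 380) (nat_lit 2636916781) (nat_lit 47) (nat_lit 5) (nat_lit 51) (nat_lit 5) (nat_lit 52) (nat_lit 5) (nat_lit 269) (nat_lit 263) (nat_lit 248)) (XT.lf (nat_lit 0) (nat_lit 971011447) (nat_lit 304) (nat_lit 3876563754) (nat_lit 76) (nat_lit 6232287513) (nat_lit 43) (nat_lit 5) (nat_lit 47) (nat_lit 5) (nat_lit 44) (nat_lit 5)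 (nat_lit 270) (nat_lit 263) (nat_lit 247)))) (XT.nd (nat_lit 78) (nat_lit 456) (nat_lit 0) (XT.lf (nat_lit 0) (nat_lit 5140916834) (nat_lit 304) (nat_lit 3846758113) (nat_lit 76) (nat_lit 2972846335) (nat_lit 40) (nat_lit 5) (nat_lit 44) (nat_lit 5) (nat_lit 41) (nat_lit 5) (nat_lit 271) (nat_lit 263) (nat_lit 246)) (XT.nd (nat_lit 78) (nat_lit 304) (nat_lit 0) (XT.lf (nat_lit 0) (nat_lit 9214933449) (nat_lit 152) (nat_lit 969146971) (nat_lit 228) (nat_lit 2769698233) (nat_lit 38) (nat_lit 5) (nat_lit 40) (nat_lit 5) (nat_lit 41) (nat_lit 5) (nat_lit 272) (nat_lit 263) (nat_lit 245)) (XT.lf (nat_lit 0) (nat_lit 2164455211) (nat_lit 304) (nat_lit 3693300500) (nat_lit 76) (nat_lit 8205200788) (nat_lit 34) (nat_lit 5) (nat_lit 38) (nat_lit 5) (nat_lit 35) (nat_lit 5) (nat_lit 273) (nat_lit 263) (nat_lit 244))))) (XT.nd (nat_lit 234) (nat_lit 532) (nat_lit 0) (XT.nd (nat_lit 78) (nat_lit 380)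 (nat_lit 0) (XT.lf (nat_lit 0) (nat_lit 8004119589) (nat_lit 228) (nat_lit 3694833091) (nat_lit 76) (nat_lit 3607677640) (nat_lit 32) (nat_lit 5) (nat_lit 35) (nat_lit 5) (nat_lit 33) (nat_lit 5) (nat_lit 274) (nat_lit 263) (nat_lit 243)) (XT.nd (nat_lit 78) (nat_lit 228) (nat_lit 0) (XT.lf (nat_lit 0) (nat_lit 12940481810) (nat_lit 152) (nat_lit 2193013460) (nat_lit 228) (nat_lit 1570454934) (nat_lit 30) (nat_lit 5) (nat_lit 32) (nat_lit 5) (nat_lit 33) (nat_lit 5) (nat_lit 275) (nat_lit 263) (nat_lit 242)) (XT.lf (nat_lit 0) (nat_lit 5291610424) (nat_lit 228) (nat_lit 4151261978) (nat_lit 76) (nat_lit 8816780821) (nat_lit 27) (nat_lit 5) (nat_lit 30) (nat_lit 5) (nat_lit 28) (nat_lit 5) (nat_lit 276) (nat_lit 263) (nat_lit 241)))) (XT.nd (nat_lit 156) (nat_lit 228) (nat_lit 0) (XT.nd (nat_lit 78) (nat_lit 152) (nat_lit 0) (XT.lf (nat_lit 0) (nat_lit 13532422690) (nat_lit 228) (nat_lit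 4777267967) (nat_lit 76) (nat_lit 1700500882) (nat_lit 25) (nat_lit 5) (nat_lit 28) (nat_lit 5) (nat_lit 26) (nat_lit 4) (nat_lit 277) (nat_lit 263) (nat_lit 240)) (XT.lf (nat_lit 0) (nat_lit 1593362760) (nat_lit 152) (nat_lit 5926085765) (nat_lit 76) (nat_lit 14449543958) (nat_lit 23) (nat_lit 5) (nat_lit 25) (nat_lit 5) (nat_lit 24) (nat_lit 5) (nat_lit 278) (nat_lit 263) (nat_lit 239))) (XT.nd (nat_lit 78) (nat_lit 76) (nat_lit 0) (XT.lf (nat_lit 0) (nat_lit 11053719678) (nat_lit 228) (nat_lit 7805267186) (nat_lit 76) (nat_lit 5304293503) (nat_lit 21) (nat_lit 5) (nat_lit 24) (nat_lit 5) (nat_lit 22) (nat_lit 4) (nat_lit 279) (nat_lit 263) (nat_lit 238)) (XT.lf (nat_lit 0) (nat_lit 16067518835) (nat_lit 76) (nat_lit 6524006627) (nat_lit 152) (nat_lit 4042597857) (nat_lit 20) (nat_lit 5) (nat_lit 21) (nat_lit 5) (nat_lit 22) (nat_lit 4) (nat_lit 280) (nat_lit 263) (nat_lit 237)))))))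 (XT.nd (nat_lit 1014) (nat_lit 380) (nat_lit 0) (XT.nd (nat_lit 468) (nat_lit 380) (nat_lit 0) (XT.nd (nat_lit 234) (nat_lit 304) (nat_lit 0) (XT.nd (nat_lit 78) (nat_lit 152) (nat_lit 0) (XT.lf (nat_lit 0) (nat_lit 6753967190) (nat_lit 152) (nat_lit 14685349096) (nat_lit 76) (nat_lit 7968945508) (nat_lit 18) (nat_lit 5) (nat_lit 20) (nat_lit 5) (nat_lit 19) (nat_lit 4) (nat_lit 281) (nat_lit 263) (nat_lit 236)) (XT.nd (nat_lit 78) (nat_lit 76) (nat_lit 0) (XT.lf (nat_lit 0) (nat_lit 11997720526) (nat_lit 76) (nat_lit 7627006938) (nat_lit 152) (nat_lit 12909925651) (nat_lit 17) (nat_lit 5) (nat_lit 18) (nat_lit 5) (nat_lit 19) (nat_lit 4) (nat_lit 282) (nat_lit 263) (nat_lit 235)) (XT.lf (nat_lit 0) (nat_lit 7476318511) (nat_lit 76) (nat_lit 27676650236) (nat_lit 76) (nat_lit 918935872) (nat_lit 16) (nat_lit 4) (nat_lit 17) (nat_lit 5) (nat_lit 17) (nat_lit 4) (nat_lit 283) (nat_lit 263)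 (nat_lit 234)))) (XT.nd (nat_lit 78) (nat_lit 152) (nat_lit 0) (XT.lf (nat_lit 0) (nat_lit 160020339) (nat_lit 76) (nat_lit 12810856895) (nat_lit 152) (nat_lit 27084622735) (nat_lit 14) (nat_lit 5) (nat_lit 15) (nat_lit 5) (nat_lit 16) (nat_lit 4) (nat_lit 284) (nat_lit 263) (nat_lit 233)) (XT.nd (nat_lit 78) (nat_lit 152) (nat_lit 0) (XT.lf (nat_lit 0) (nat_lit 29770279139) (nat_lit 152) (nat_lit 9906211826) (nat_lit 0) (nat_lit 4887827528) (nat_lit 14) (nat_lit 5) (nat_lit 16) (nat_lit 4) (nat_lit 14) (nat_lit 4) (nat_lit 285) (nat_lit 263) (nat_lit 232)) (XT.lf (nat_lit 0) (nat_lit 292807045) (nat_lit 152) (nat_lit 24316604124) (nat_lit 76) (nat_lit 25067773577) (nat_lit 12) (nat_lit 5) (nat_lit 14) (nat_lit 5) (nat_lit 13) (nat_lit 4) (nat_lit 286) (nat_lit 263) (nat_lit 231))))) (XT.nd (nat_lit 234) (nat_lit 228) (nat_lit 0) (XT.nd (nat_lit 78) (nat_lit 76) (nat_lit 0) (XT.lf (nat_lit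 0) (nat_lit 10996656647) (nat_lit 76) (nat_lit 6291736123) (nat_lit 152) (nat_lit 38196137463) (nat_lit 11) (nat_lit 5) (nat_lit 12) (nat_lit 5) (nat_lit 13) (nat_lit 4) (nat_lit 287) (nat_lit 263) (nat_lit 230)) (XT.nd (nat_lit 78) (nat_lit 76) (nat_lit 0) (XT.lf (nat_lit 0) (nat_lit 37855768407) (nat_lit 152) (nat_lit 9513980167) (nat_lit 0) (nat_lit 14711454476) (nat_lit 11) (nat_lit 5) (nat_lit 13) (nat_lit 4) (nat_lit 11) (nat_lit 4) (nat_lit 288) (nat_lit 263) (nat_lit 229)) (XT.lf (nat_lit 0) (nat_lit 32035950141) (nat_lit 76) (nat_lit 30365307075) (nat_lit 76) (nat_lit 7194697872) (nat_lit 10) (nat_lit 4) (nat_lit 11) (nat_lit 5) (nat_lit 11) (nat_lit 4) (nat_lit 289) (nat_lit 263) (nat_lit 228)))) (XT.nd (nat_lit 156) (nat_lit 76) (nat_lit 0) (XT.nd (nat_lit 78) (nat_lit 0) (nat_lit 0) (XT.lf (nat_lit 0) (nat_lit 1874521643) (nat_lit 76) (nat_lit 10177399654) (nat_lit 152) (nat_lit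 66139685987) (nat_lit 8) (nat_lit 5) (nat_lit 9) (nat_lit 5) (nat_lit 10) (nat_lit 4) (nat_lit 290) (nat_lit 263) (nat_lit 227)) (XT.lf (nat_lit 0) (nat_lit 35162231068) (nat_lit 152) (nat_lit 39118841701) (nat_lit 0) (nat_lit 13668381382) (nat_lit 8) (nat_lit 5) (nat_lit 10) (nat_lit 4) (nat_lit 8) (nat_lit 4) (nat_lit 291) (nat_lit 263) (nat_lit 226))) (XT.nd (nat_lit 78) (nat_lit 0) (nat_lit 0) (XT.lf (nat_lit 0) (nat_lit 3475432877) (nat_lit 76) (nat_lit 58589667089) (nat_lit 76) (nat_lit 37079808543) (nat_lit 7) (nat_lit 4) (nat_lit 8) (nat_lit 5) (nat_lit 8) (nat_lit 4) (nat_lit 292) (nat_lit 263) (nat_lit 225)) (XT.lf (nat_lit 0) (nat_lit 54758127134) (nat_lit 76) (nat_lit 39348540827) (nat_lit 76) (nat_lit 17824761535) (nat_lit 7) (nat_lit 4) (nat_lit 8) (nat_lit 5) (nat_lit 8) (nat_lit 4) (nat_lit 293) (nat_lit 263) (nat_lit 224)))))) (XT.nd (nat_lit 468) (nat_lit 152) (nat_lit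 0) (XT.nd (nat_lit 234) (nat_lit 76) (nat_lit 0) (XT.nd (nat_lit 78) (nat_lit 76) (nat_lit 0) (XT.lf (nat_lit 0) (nat_lit 4070712177) (nat_lit 152) (nat_lit 13068802962) (nat_lit 76) (nat_lit 109490656590) (nat_lit 6) (nat_lit 5) (nat_lit 8) (nat_lit 5) (nat_lit 7) (nat_lit 4) (nat_lit 294) (nat_lit 263) (nat_lit 223)) (XT.nd (nat_lit 78) (nat_lit 0) (nat_lit 0) (XT.lf (nat_lit 0) (nat_lit 29375394924) (nat_lit 152) (nat_lit 104601858923) (nat_lit 0) (nat_lit 9425014946) (nat_lit 5) (nat_lit 5) (nat_lit 7) (nat_lit 4) (nat_lit 5) (nat_lit 4) (nat_lit 295) (nat_lit 263) (nat_lit 222)) (XT.lf (nat_lit 0) (nat_lit 59314362728) (nat_lit 152) (nat_lit 63953229511) (nat_lit 0) (nat_lit 39355507641) (nat_lit 5) (nat_lit 5) (nat_lit 7) (nat_lit 4) (nat_lit 5) (nat_lit 4) (nat_lit 296) (nat_lit 263) (nat_lit 221)))) (XT.nd (nat_lit 78) (nat_lit 76) (nat_lit 0) (XT.lf (nat_lit 0) (nat_lit 93721722823)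 (nat_lit 152) (nat_lit 17251636243) (nat_lit 0) (nat_lit 73755498077) (nat_lit 5) (nat_lit 5) (nat_lit 7) (nat_lit 4) (nat_lit 5) (nat_lit 4) (nat_lit 297) (nat_lit 263) (nat_lit 220)) (XT.nd (nat_lit 78) (nat_lit 0) (nat_lit 0) (XT.lf (nat_lit 0) (nat_lit 38334283839) (nat_lit 76) (nat_lit 95858319298) (nat_lit 76) (nat_lit 75885686152) (nat_lit 4) (nat_lit 4) (nat_lit 5) (nat_lit 5) (nat_lit 5) (nat_lit 4) (nat_lit 298) (nat_lit 263) (nat_lit 219)) (XT.lf (nat_lit 0) (nat_lit 103267513228) (nat_lit 76) (nat_lit 77951038881) (nat_lit 76) (nat_lit 57972833214) (nat_lit 4) (nat_lit 4) (nat_lit 5) (nat_lit 5) (nat_lit 5) (nat_lit 4) (nat_lit 299) (nat_lit 263) (nat_lit 218))))) (XT.nd (nat_lit 234) (nat_lit 0) (nat_lit 0) (XT.nd (nat_lit 78) (nat_lit 152) (nat_lit 0) (XT.lf (nat_lit 0) (nat_lit 177910044081) (nat_lit 76) (nat_lit 57372848289) (nat_lit 76) (nat_lit 37389796950) (nat_lit 4)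 (nat_lit 4) (nat_lit 5) (nat_lit 5) (nat_lit 5) (nat_lit 4) (nat_lit 300) (nat_lit 263) (nat_lit 217)) (XT.nd (nat_lit 78) (nat_lit 152) (nat_lit 0) (XT.lf (nat_lit 0) (nat_lit 263722273740) (nat_lit 76) (nat_lit 33721130748) (nat_lit 76) (nat_lit 13733865783) (nat_lit 4) (nat_lit 4) (nat_lit 5) (nat_lit 5) (nat_lit 5) (nat_lit 4) (nat_lit 301) (nat_lit 263) (nat_lit 216)) (XT.lf (nat_lit 0) (nat_lit 6948595065) (nat_lit 76) (nat_lit 6003099191) (nat_lit 152) (nat_lit 342467522485) (nat_lit 2) (nat_lit 5) (nat_lit 3) (nat_lit 5) (nat_lit 4) (nat_lit 4) (nat_lit 302) (nat_lit 263) (nat_lit 215)))) (XT.nd (nat_lit 156) (nat_lit 0) (nat_lit 0) (XT.nd (nat_lit 78) (nat_lit 0) (nat_lit 0) (XT.lf (nat_lit 0) (nat_lit 44878491203) (nat_lit 152) (nat_lit 334860878439) (nat_lit 0) (nat_lit 26365421669) (nat_lit 2) (nat_lit 5) (nat_lit 4) (nat_lit 4) (nat_lit 2) (nat_lit 4) (nat_lit 303) (nat_lit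 263) (nat_lit 214)) (XT.lf (nat_lit 0) (nat_lit 81750560811) (nat_lit 152) (nat_lit 319395216871) (nat_lit 0) (nat_lit 63234925974) (nat_lit 2) (nat_lit 5) (nat_lit 4) (nat_lit 4) (nat_lit 2) (nat_lit 4) (nat_lit 304) (nat_lit 263) (nat_lit 213))) (XT.nd (nat_lit 78) (nat_lit 0) (nat_lit 0) (XT.lf (nat_lit 0) (nat_lit 124144938459) (nat_lit 152) (nat_lit 301626673262) (nat_lit 0) (nat_lit 105627072923) (nat_lit 2) (nat_lit 5) (nat_lit 4) (nat_lit 4) (nat_lit 2) (nat_lit 4) (nat_lit 305) (nat_lit 263) (nat_lit 212)) (XT.lf (nat_lit 0) (nat_lit 172891079361) (nat_lit 152) (nat_lit 281207602192) (nat_lit 0) (nat_lit 154371274087) (nat_lit 2) (nat_lit 5) (nat_lit 4) (nat_lit 4) (nat_lit 2) (nat_lit 4) (nat_lit 306) (nat_lit 263) (nat_lit 211))))))))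
noncomputable def xc28 : XT := (XT.nd (nat_lit 37518) (nat_lit 0) (nat_lit 532) (XT.nd (nat_lit 936) (nat_lit 0) (nat_lit 0) (XT.nd (nat_lit 468) (nat_lit 76) (nat_lit 0) (XT.nd (nat_lit 234) (nat_lit 0) (nat_lit 0) (XT.nd (nat_lit 78) (nat_lit 0) (nat_lit 0) (XT.lf (nat_lit 0) (nat_lit 228942712362) (nat_lit 152) (nat_lit 257738500098) (nat_lit 0) (nat_lit 210421220359) (nat_lit 2) (nat_lit 5) (nat_lit 4) (nat_lit 4) (nat_lit 2) (nat_lit 4) (nat_lit 307) (nat_lit 263) (nat_lit 210)) (XT.nd (nat_lit 78) (nat_lit 0) (nat_lit 0) (XT.lf (nat_lit 0) (nat_lit 293396499846) (nat_lit 152) (nat_lit 230760188895) (nat_lit 0) (nat_lit 274873541122) (nat_lit 2) (nat_lit 5) (nat_lit 4) (nat_lit 4) (nat_lit 2) (nat_lit 4) (nat_lit 308) (nat_lit 263) (nat_lit 209)) (XT.lf (nat_lit 0) (nat_lit 367513494176) (nat_lit 152) (nat_lit 199744832060) (nat_lit 0) (nat_lit 348989260043) (nat_lit 2) (nat_lit 5)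 (nat_lit 4) (nat_lit 4) (nat_lit 2) (nat_lit 4) (nat_lit 309) (nat_lit 263) (nat_lit 208)))) (XT.nd (nat_lit 78) (nat_lit 0) (nat_lit 0) (XT.lf (nat_lit 0) (nat_lit 452743810460) (nat_lit 152) (nat_lit 164085607394) (nat_lit 0) (nat_lit 434218467275) (nat_lit 2) (nat_lit 5) (nat_lit 4) (nat_lit 4) (nat_lit 2) (nat_lit 4) (nat_lit 310) (nat_lit 263) (nat_lit 207)) (XT.nd (nat_lit 78) (nat_lit 0) (nat_lit 0) (XT.lf (nat_lit 0) (nat_lit 550754998363) (nat_lit 152) (nat_lit 123084834413) (nat_lit 0) (nat_lit 532228690786) (nat_lit 2) (nat_lit 5) (nat_lit 4) (nat_lit 4) (nat_lit 2) (nat_lit 4) (nat_lit 311) (nat_lit 263) (nat_lit 206)) (XT.lf (nat_lit 0) (nat_lit 663464668085) (nat_lit 152) (nat_lit 75940324082) (nat_lit 0) (nat_lit 644937521905) (nat_lit 2) (nat_lit 5) (nat_lit 4) (nat_lit 4) (nat_lit 2) (nat_lit 4) (nat_lit 312) (nat_lit 263) (nat_lit 205))))) (XT.nd (nat_lit 234) (nat_lit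 0) (nat_lit 0) (XT.nd (nat_lit 78) (nat_lit 76) (nat_lit 0) (XT.lf (nat_lit 0) (nat_lit 793078008814) (nat_lit 152) (nat_lit 21729683807) (nat_lit 0) (nat_lit 774550133415) (nat_lit 2) (nat_lit 5) (nat_lit 4) (nat_lit 4) (nat_lit 2) (nat_lit 4) (nat_lit 313) (nat_lit 263) (nat_lit 204)) (XT.nd (nat_lit 78) (nat_lit 0) (nat_lit 0) (XT.lf (nat_lit 0) (nat_lit 42746060439) (nat_lit 76) (nat_lit 900412917082) (nat_lit 76) (nat_lit 881884407579) (nat_lit 1) (nat_lit 4) (nat_lit 2) (nat_lit 5) (nat_lit 2) (nat_lit 4) (nat_lit 314) (nat_lit 263) (nat_lit 203)) (XT.lf (nat_lit 0) (nat_lit 118204635079) (nat_lit 76) (nat_lit 998177884978) (nat_lit 76) (nat_lit 979648824080) (nat_lit 1) (nat_lit 4) (nat_lit 2) (nat_lit 5) (nat_lit 2) (nat_lit 4) (nat_lit 315) (nat_lit 263) (nat_lit 202)))) (XT.nd (nat_lit 78) (nat_lit 0) (nat_lit 0) (XT.lf (nat_lit 0) (nat_lit 204978156888) (nat_lit 76) (nat_lit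 1110609517223) (nat_lit 76) (nat_lit 1092079976851) (nat_lit 1) (nat_lit 4) (nat_lit 2) (nat_lit 5) (nat_lit 2) (nat_lit 4) (nat_lit 316) (nat_lit 263) (nat_lit 201)) (XT.nd (nat_lit 78) (nat_lit 0) (nat_lit 0) (XT.lf (nat_lit 0) (nat_lit 304764368684) (nat_lit 76) (nat_lit 1239907563143) (nat_lit 76) (nat_lit 1221377605838) (nat_lit 1) (nat_lit 4) (nat_lit 2) (nat_lit 5) (nat_lit 2) (nat_lit 4) (nat_lit 317) (nat_lit 263) (nat_lit 200)) (XT.lf (nat_lit 0) (nat_lit 419515609393) (nat_lit 76) (nat_lit 1388601767116) (nat_lit 76) (nat_lit 1370071447260) (nat_lit 1) (nat_lit 4) (nat_lit 2) (nat_lit 5) (nat_lit 2) (nat_lit 4) (nat_lit 318) (nat_lit 263) (nat_lit 199)))))) (XT.nd (nat_lit 468) (nat_lit 0) (nat_lit 0) (XT.nd (nat_lit 234) (nat_lit 0) (nat_lit 0) (XT.nd (nat_lit 78) (nat_lit 0) (nat_lit 0) (XT.lf (nat_lit 0) (nat_lit 551477011986) (nat_lit 76) (nat_lit 1559601363566) (nat_lit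 76) (nat_lit 1541070728448) (nat_lit 1) (nat_lit 4) (nat_lit 2) (nat_lit 5) (nat_lit 2) (nat_lit 4) (nat_lit 319) (nat_lit 263) (nat_lit 198)) (XT.nd (nat_lit 78) (nat_lit 0) (nat_lit 0) (XT.lf (nat_lit 0) (nat_lit 703230429992) (nat_lit 76) (nat_lit 1756251996773) (nat_lit 76) (nat_lit 1737721087514) (nat_lit 1) (nat_lit 4) (nat_lit 2) (nat_lit 5) (nat_lit 2) (nat_lit 4) (nat_lit 320) (nat_lit 263) (nat_lit 197)) (XT.lf (nat_lit 0) (nat_lit 877744952024) (nat_lit 76) (nat_lit 1982401179124) (nat_lit 76) (nat_lit 1963870031483) (nat_lit 1) (nat_lit 4) (nat_lit 2) (nat_lit 5) (nat_lit 2) (nat_lit 4) (nat_lit 321) (nat_lit 263) (nat_lit 196)))) (XT.nd (nat_lit 78) (nat_lit 0) (nat_lit 0) (XT.lf (nat_lit 0) (nat_lit 1078434992644) (nat_lit 76) (nat_lit 2242473568537) (nat_lit 76) (nat_lit 2223942213606) (nat_lit 1) (nat_lit 4) (nat_lit 2) (nat_lit 5) (nat_lit 2) (nat_lit 4) (nat_lit 322)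 (nat_lit 263) (nat_lit 195)) (XT.nd (nat_lit 78) (nat_lit 0) (nat_lit 0) (XT.lf (nat_lit 0) (nat_lit 1309227096124) (nat_lit 76) (nat_lit 2541557537846) (nat_lit 76) (nat_lit 2523026002663) (nat_lit 1) (nat_lit 4) (nat_lit 2) (nat_lit 5) (nat_lit 2) (nat_lit 4) (nat_lit 323) (nat_lit 263) (nat_lit 194)) (XT.lf (nat_lit 0) (nat_lit 1574636760142) (nat_lit 76) (nat_lit 2885504729930) (nat_lit 76) (nat_lit 2866973038006) (nat_lit 1) (nat_lit 4) (nat_lit 2) (nat_lit 5) (nat_lit 2) (nat_lit 4) (nat_lit 324) (nat_lit 263) (nat_lit 193))))) (XT.nd (nat_lit 234) (nat_lit 0) (nat_lit 0) (XT.nd (nat_lit 78) (nat_lit 0) (nat_lit 0) (XT.lf (nat_lit 0) (nat_lit 1879856782471) (nat_lit 76) (nat_lit 3281044546373) (nat_lit 76) (nat_lit 3262512718153) (nat_lit 1) (nat_lit 4) (nat_lit 2) (nat_lit 5) (nat_lit 2) (nat_lit 4) (nat_lit 325) (nat_lit 263) (nat_lit 192)) (XT.nd (nat_lit 78) (nat_lit 0) (nat_lit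 0) (XT.lf (nat_lit 0) (nat_lit 2230858859201) (nat_lit 76) (nat_lit 3735915809670) (nat_lit 76) (nat_lit 3717383862931) (nat_lit 1) (nat_lit 4) (nat_lit 2) (nat_lit 5) (nat_lit 2) (nat_lit 4) (nat_lit 326) (nat_lit 263) (nat_lit 191)) (XT.lf (nat_lit 0) (nat_lit 2634510422267) (nat_lit 76) (nat_lit 4259018174974) (nat_lit 76) (nat_lit 4240486125175) (nat_lit 1) (nat_lit 4) (nat_lit 2) (nat_lit 5) (nat_lit 2) (nat_lit 4) (nat_lit 327) (nat_lit 263) (nat_lit 190)))) (XT.nd (nat_lit 35724) (nat_lit 0) (nat_lit 4560) (XT.nd (nat_lit 35646) (nat_lit 0) (nat_lit 4560) (XT.lf (nat_lit 0) (nat_lit 3098709002252) (nat_lit 76) (nat_lit 4860586253778) (nat_lit 76) (nat_lit 4842054114363) (nat_lit 1) (nat_lit 4) (nat_lit 2) (nat_lit 5) (nat_lit 2) (nat_lit 4) (nat_lit 328) (nat_lit 263) (nat_lit 189)) (XT.lf (nat_lit 0) (nat_lit 686795271) (nat_lit 0) (nat_lit 686795271) (nat_lit 380) (nat_lit 2612744031)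 (nat_lit 61) (nat_lit 5) (nat_lit 61) (nat_lit 3) (nat_lit 66) (nat_lit 3) (nat_lit 264) (nat_lit 264) (nat_lit 252))) (XT.nd (nat_lit 78) (nat_lit 0) (nat_lit 76) (XT.lf (nat_lit 76) (nat_lit 439442662) (nat_lit 0) (nat_lit 4708271237) (nat_lit 456) (nat_lit 3243105699) (nat_lit 62) (nat_lit 5) (nat_lit 61) (nat_lit 5) (nat_lit 67) (nat_lit 5) (nat_lit 265) (nat_lit 264) (nat_lit 251)) (XT.lf (nat_lit 0) (nat_lit 7785614571) (nat_lit 380) (nat_lit 244993401) (nat_lit 456) (nat_lit 851656592) (nat_lit 62) (nat_lit 5) (nat_lit 67) (nat_lit 5) (nat_lit 68) (nat_lit 5) (nat_lit 266) (nat_lit 264) (nat_lit 250))))))) (XT.nd (nat_lit 1014) (nat_lit 1140) (nat_lit 0) (XT.nd (nat_lit 468) (nat_lit 1292) (nat_lit 0) (XT.nd (nat_lit 234) (nat_lit 836) (nat_lit 0) (XT.nd (nat_lit 78) (nat_lit 380) (nat_lit 0) (XT.lf (nat_lit 0) (nat_lit 1320412648) (nat_lit 456) (nat_lit 790310845) (nat_lit 532)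 (nat_lit 7333290541) (nat_lit 56) (nat_lit 5) (nat_lit 62) (nat_lit 5) (nat_lit 63) (nat_lit 5) (nat_lit 267) (nat_lit 264) (nat_lit 249)) (XT.nd (nat_lit 78) (nat_lit 456) (nat_lit 0) (XT.lf (nat_lit 0) (nat_lit 4089078610) (nat_lit 456) (nat_lit 1210606881) (nat_lit 76) (nat_lit 4784272041) (nat_lit 57) (nat_lit 5) (nat_lit 63) (nat_lit 5) (nat_lit 58) (nat_lit 5) (nat_lit 268) (nat_lit 264) (nat_lit 248)) (XT.lf (nat_lit 0) (nat_lit 7372401065) (nat_lit 532) (nat_lit 1470300290) (nat_lit 76) (nat_lit 1969702317) (nat_lit 51) (nat_lit 5) (nat_lit 58) (nat_lit 5) (nat_lit 52) (nat_lit 5) (nat_lit 269) (nat_lit 264) (nat_lit 247)))) (XT.nd (nat_lit 78) (nat_lit 532) (nat_lit 0) (XT.lf (nat_lit 0) (nat_lit 10026732964) (nat_lit 304) (nat_lit 1315952951) (nat_lit 380) (nat_lit 292273382) (nat_lit 47) (nat_lit 5) (nat_lit 51) (nat_lit 5) (nat_lit 52) (nat_lit 5) (nat_lit 270) (nat_lit 264)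 (nat_lit 246)) (XT.nd (nat_lit 78) (nat_lit 228) (nat_lit 0) (XT.lf (nat_lit 0) (nat_lit 3445865413) (nat_lit 304) (nat_lit 1746847820) (nat_lit 76) (nat_lit 7359327628) (nat_lit 43) (nat_lit 5) (nat_lit 47) (nat_lit 5) (nat_lit 44) (nat_lit 5) (nat_lit 271) (nat_lit 264) (nat_lit 245)) (XT.lf (nat_lit 0) (nat_lit 8006671844) (nat_lit 304) (nat_lit 1781780581) (nat_lit 76) (nat_lit 3795564537) (nat_lit 40) (nat_lit 5) (nat_lit 44) (nat_lit 5) (nat_lit 41) (nat_lit 5) (nat_lit 272) (nat_lit 264) (nat_lit 244))))) (XT.nd (nat_lit 234) (nat_lit 684) (nat_lit 0) (XT.nd (nat_lit 78) (nat_lit 456) (nat_lit 0) (XT.lf (nat_lit 0) (nat_lit 13015533316) (nat_lit 152) (nat_lit 575727290) (nat_lit 228) (nat_lit 1152599298) (nat_lit 38) (nat_lit 5) (nat_lit 40) (nat_lit 5) (nat_lit 41) (nat_lit 5) (nat_lit 273) (nat_lit 264) (nat_lit 243)) (XT.nd (nat_lit 78) (nat_lit 152) (nat_lit 0) (XT.lf (nat_lit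 0) (nat_lit 4237491536) (nat_lit 304) (nat_lit 1811287344) (nat_lit 76) (nat_lit 9981642072) (nat_lit 34) (nat_lit 5) (nat_lit 38) (nat_lit 5) (nat_lit 35) (nat_lit 5) (nat_lit 274) (nat_lit 264) (nat_lit 242)) (XT.lf (nat_lit 0) (nat_lit 10794458177) (nat_lit 228) (nat_lit 1907269178) (nat_lit 76) (nat_lit 4771885444) (nat_lit 32) (nat_lit 5) (nat_lit 35) (nat_lit 5) (nat_lit 33) (nat_lit 5) (nat_lit 275) (nat_lit 264) (nat_lit 241)))) (XT.nd (nat_lit 156) (nat_lit 304) (nat_lit 0) (XT.nd (nat_lit 78) (nat_lit 228) (nat_lit 0) (XT.lf (nat_lit 0) (nat_lit 17025122194) (nat_lit 152) (nat_lit 1812316013) (nat_lit 228) (nat_lit 255795891) (nat_lit 30) (nat_lit 5) (nat_lit 32) (nat_lit 5) (nat_lit 33) (nat_lit 5) (nat_lit 276) (nat_lit 264) (nat_lit 240)) (XT.lf (nat_lit 0) (nat_lit 7431824876) (nat_lit 228) (nat_lit 2648797066) (nat_lit 76) (nat_lit 10808977097) (nat_lit 27) (nat_lit 5) (nat_lit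 30) (nat_lit 5) (nat_lit 28) (nat_lit 5) (nat_lit 277) (nat_lit 264) (nat_lit 239))) (XT.nd (nat_lit 78) (nat_lit 152) (nat_lit 0) (XT.lf (nat_lit 0) (nat_lit 16797415661) (nat_lit 228) (nat_lit 3467560252) (nat_lit 76) (nat_lit 2646817177) (nat_lit 25) (nat_lit 5) (nat_lit 28) (nat_lit 5) (nat_lit 26) (nat_lit 4) (nat_lit 278) (nat_lit 264) (nat_lit 238)) (XT.lf (nat_lit 0) (nat_lit 2980978406) (nat_lit 152) (nat_lit 4898833707) (nat_lit 76) (nat_lit 17291741138) (nat_lit 23) (nat_lit 5) (nat_lit 25) (nat_lit 5) (nat_lit 24) (nat_lit 5) (nat_lit 279) (nat_lit 264) (nat_lit 237)))))) (XT.nd (nat_lit 468) (nat_lit 456) (nat_lit 0) (XT.nd (nat_lit 234) (nat_lit 304) (nat_lit 0) (XT.nd (nat_lit 78) (nat_lit 228) (nat_lit 0) (XT.lf (nat_lit 0) (nat_lit 13769900615) (nat_lit 228) (nat_lit 7155173770) (nat_lit 76) (nat_lit 6777266280) (nat_lit 21) (nat_lit 5) (nat_lit 24) (nat_lit 5) (nat_lit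 22) (nat_lit 4) (nat_lit 280) (nat_lit 264) (nat_lit 236)) (XT.nd (nat_lit 78) (nat_lit 152) (nat_lit 0) (XT.lf (nat_lit 0) (nat_lit 20144401436) (nat_lit 76) (nat_lit 6796045282) (nat_lit 152) (nat_lit 3611299775) (nat_lit 20) (nat_lit 5) (nat_lit 21) (nat_lit 5) (nat_lit 22) (nat_lit 4) (nat_lit 281) (nat_lit 264) (nat_lit 235)) (XT.lf (nat_lit 0) (nat_lit 8678433098) (nat_lit 152) (nat_lit 15258559306) (nat_lit 76) (nat_lit 9809051545) (nat_lit 18) (nat_lit 5) (nat_lit 20) (nat_lit 5) (nat_lit 19) (nat_lit 4) (nat_lit 282) (nat_lit 264) (nat_lit 234)))) (XT.nd (nat_lit 78) (nat_lit 228) (nat_lit 0) (XT.lf (nat_lit 0) (nat_lit 15289033900) (nat_lit 76) (nat_lit 8107773404) (nat_lit 152) (nat_lit 13951298080) (nat_lit 17) (nat_lit 5) (nat_lit 18) (nat_lit 5) (nat_lit 19) (nat_lit 4) (nat_lit 283) (nat_lit 264) (nat_lit 233)) (XT.nd (nat_lit 78) (nat_lit 152) (nat_lit 0) (XT.lf (nat_lit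 0) (nat_lit 10009654648) (nat_lit 76) (nat_lit 31184409039) (nat_lit 76) (nat_lit 226760707) (nat_lit 16) (nat_lit 4) (nat_lit 17) (nat_lit 5) (nat_lit 17) (nat_lit 4) (nat_lit 284) (nat_lit 264) (nat_lit 232)) (XT.lf (nat_lit 0) (nat_lit 1514759490) (nat_lit 76) (nat_lit 14119401223) (nat_lit 152) (nat_lit 30371918809) (nat_lit 14) (nat_lit 5) (nat_lit 15) (nat_lit 5) (nat_lit 16) (nat_lit 4) (nat_lit 285) (nat_lit 264) (nat_lit 231))))) (XT.nd (nat_lit 234) (nat_lit 228) (nat_lit 0) (XT.nd (nat_lit 78) (nat_lit 228) (nat_lit 0) (XT.lf (nat_lit 0) (nat_lit 34872687604) (nat_lit 152) (nat_lit 10197589814) (nat_lit 0) (nat_lit 6127449702) (nat_lit 14) (nat_lit 5) (nat_lit 16) (nat_lit 4) (nat_lit 14) (nat_lit 4) (nat_lit 286) (nat_lit 264) (nat_lit 230)) (XT.nd (nat_lit 78) (nat_lit 76) (nat_lit 0) (XT.lf (nat_lit 0) (nat_lit 932129211) (nat_lit 152) (nat_lit 26839067869) (nat_lit 76) (nat_lit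 29309699941) (nat_lit 12) (nat_lit 5) (nat_lit 14) (nat_lit 5) (nat_lit 13) (nat_lit 4) (nat_lit 287) (nat_lit 264) (nat_lit 229)) (XT.lf (nat_lit 0) (nat_lit 13675954096) (nat_lit 76) (nat_lit 6748204375) (nat_lit 152) (nat_lit 43339447843) (nat_lit 11) (nat_lit 5) (nat_lit 12) (nat_lit 5) (nat_lit 13) (nat_lit 4) (nat_lit 288) (nat_lit 264) (nat_lit 228)))) (XT.nd (nat_lit 156) (nat_lit 152) (nat_lit 0) (XT.nd (nat_lit 78) (nat_lit 76) (nat_lit 0) (XT.lf (nat_lit 0) (nat_lit 44016069470) (nat_lit 152) (nat_lit 10017874568) (nat_lit 0) (nat_lit 17320708160) (nat_lit 11) (nat_lit 5) (nat_lit 13) (nat_lit 4) (nat_lit 11) (nat_lit 4) (nat_lit 289) (nat_lit 264) (nat_lit 227)) (XT.lf (nat_lit 0) (nat_lit 37686400782) (nat_lit 76) (nat_lit 34514443295) (nat_lit 76) (nat_lit 7799198982) (nat_lit 10) (nat_lit 4) (nat_lit 11) (nat_lit 5) (nat_lit 11) (nat_lit 4) (nat_lit 290) (nat_lit 264) (nat_lit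 226))) (XT.nd (nat_lit 78) (nat_lit 0) (nat_lit 0) (XT.lf (nat_lit 0) (nat_lit 2951094654) (nat_lit 76) (nat_lit 11319880603) (nat_lit 152) (nat_lit 75616348324) (nat_lit 8) (nat_lit 5) (nat_lit 9) (nat_lit 5) (nat_lit 10) (nat_lit 4) (nat_lit 291) (nat_lit 264) (nat_lit 225)) (XT.lf (nat_lit 0) (nat_lit 40802221447) (nat_lit 152) (nat_lit 44274336436) (nat_lit 0) (nat_lit 16035954513) (nat_lit 8) (nat_lit 5) (nat_lit 10) (nat_lit 4) (nat_lit 8) (nat_lit 4) (nat_lit 292) (nat_lit 264) (nat_lit 224))))))))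
noncomputable def xc29 : XT := (XT.nd (nat_lit 2028) (nat_lit 0) (nat_lit 0) (XT.nd (nat_lit 1014) (nat_lit 76) (nat_lit 0) (XT.nd (nat_lit 468) (nat_lit 228) (nat_lit 0) (XT.nd (nat_lit 234) (nat_lit 76) (nat_lit 0) (XT.nd (nat_lit 78) (nat_lit 76) (nat_lit 0) (XT.lf (nat_lit 0) (nat_lit 4648784014) (nat_lit 76) (nat_lit 67059723928) (nat_lit 76) (nat_lit 42281351996) (nat_lit 7) (nat_lit 4) (nat_lit 8) (nat_lit 5) (nat_lit 8) (nat_lit 4) (nat_lit 293) (nat_lit 264) (nat_lit 223)) (XT.nd (nat_lit 78) (nat_lit 76) (nat_lit 0) (XT.lf (nat_lit 0) (nat_lit 63538834209) (nat_lit 76) (nat_lit 44973958278) (nat_lit 76) (nat_lit 20185060261) (nat_lit 7) (nat_lit 4) (nat_lit 8) (nat_lit 5) (nat_lit 8) (nat_lit 4) (nat_lit 294) (nat_lit 264) (nat_lit 222)) (XT.lf (nat_lit 0) (nat_lit 4940220908) (nat_lit 152) (nat_lit 14522391644) (nat_lit 76) (nat_lit 126141307384) (nat_lit 6) (nat_lit 5) (nat_lit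 8) (nat_lit 5) (nat_lit 7) (nat_lit 4) (nat_lit 295) (nat_lit 264) (nat_lit 221)))) (XT.nd (nat_lit 78) (nat_lit 0) (nat_lit 0) (XT.lf (nat_lit 0) (nat_lit 34023464235) (nat_lit 152) (nat_lit 119814811086) (nat_lit 0) (nat_lit 11054936117) (nat_lit 5) (nat_lit 5) (nat_lit 7) (nat_lit 4) (nat_lit 5) (nat_lit 4) (nat_lit 296) (nat_lit 264) (nat_lit 220)) (XT.nd (nat_lit 78) (nat_lit 0) (nat_lit 0) (XT.lf (nat_lit 0) (nat_lit 68421743287) (nat_lit 152) (nat_lit 73131147263) (nat_lit 0) (nat_lit 45446806769) (nat_lit 5) (nat_lit 5) (nat_lit 7) (nat_lit 4) (nat_lit 5) (nat_lit 4) (nat_lit 297) (nat_lit 264) (nat_lit 219)) (XT.lf (nat_lit 0) (nat_lit 107962786594) (nat_lit 152) (nat_lit 19478454136) (nat_lit 0) (nat_lit 84982277555) (nat_lit 5) (nat_lit 5) (nat_lit 7) (nat_lit 4) (nat_lit 5) (nat_lit 4) (nat_lit 298) (nat_lit 264) (nat_lit 218))))) (XT.nd (nat_lit 234) (nat_lit 152) (nat_lit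 0) (XT.nd (nat_lit 78) (nat_lit 0) (nat_lit 0) (XT.lf (nat_lit 0) (nat_lit 44414803239) (nat_lit 76) (nat_lit 110073597111) (nat_lit 76) (nat_lit 87088242401) (nat_lit 4) (nat_lit 4) (nat_lit 5) (nat_lit 5) (nat_lit 5) (nat_lit 4) (nat_lit 299) (nat_lit 264) (nat_lit 217)) (XT.nd (nat_lit 78) (nat_lit 0) (nat_lit 0) (XT.lf (nat_lit 0) (nat_lit 119044924408) (nat_lit 76) (nat_lit 89501546816) (nat_lit 76) (nat_lit 66511978479) (nat_lit 4) (nat_lit 4) (nat_lit 5) (nat_lit 5) (nat_lit 5) (nat_lit 4) (nat_lit 300) (nat_lit 264) (nat_lit 216)) (XT.lf (nat_lit 0) (nat_lit 204846363037) (nat_lit 76) (nat_lit 65855168665) (nat_lit 76) (nat_lit 42861936304) (nat_lit 4) (nat_lit 4) (nat_lit 5) (nat_lit 5) (nat_lit 5) (nat_lit 4) (nat_lit 301) (nat_lit 264) (nat_lit 215)))) (XT.nd (nat_lit 156) (nat_lit 0) (nat_lit 0) (XT.nd (nat_lit 78) (nat_lit 152) (nat_lit 0) (XT.lf (nat_lit 0) (nat_lit 303497842926)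 (nat_lit 76) (nat_lit 38671816128) (nat_lit 76) (nat_lit 15675397660) (nat_lit 4) (nat_lit 4) (nat_lit 5) (nat_lit 5) (nat_lit 5) (nat_lit 4) (nat_lit 302) (nat_lit 264) (nat_lit 214)) (XT.lf (nat_lit 0) (nat_lit 8195174293) (nat_lit 76) (nat_lit 6802115749) (nat_lit 152) (nat_lit 393726562082) (nat_lit 2) (nat_lit 5) (nat_lit 3) (nat_lit 5) (nat_lit 4) (nat_lit 4) (nat_lit 303) (nat_lit 264) (nat_lit 213))) (XT.nd (nat_lit 78) (nat_lit 0) (nat_lit 0) (XT.lf (nat_lit 0) (nat_lit 51701813998) (nat_lit 152) (nat_lit 384907316934) (nat_lit 0) (nat_lit 30404037933) (nat_lit 2) (nat_lit 5) (nat_lit 4) (nat_lit 4) (nat_lit 2) (nat_lit 4) (nat_lit 304) (nat_lit 264) (nat_lit 212)) (XT.lf (nat_lit 0) (nat_lit 94092752859) (nat_lit 152) (nat_lit 367145635688) (nat_lit 0) (nat_lit 72793037055) (nat_lit 2) (nat_lit 5) (nat_lit 4) (nat_lit 4) (nat_lit 2) (nat_lit 4) (nat_lit 305) (nat_lit 264) (nat_lit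 211)))))) (XT.nd (nat_lit 468) (nat_lit 76) (nat_lit 0) (XT.nd (nat_lit 234) (nat_lit 0) (nat_lit 0) (XT.nd (nat_lit 78) (nat_lit 0) (nat_lit 0) (XT.lf (nat_lit 0) (nat_lit 142835903511) (nat_lit 152) (nat_lit 346732531891) (nat_lit 0) (nat_lit 121534500979) (nat_lit 2) (nat_lit 5) (nat_lit 4) (nat_lit 4) (nat_lit 2) (nat_lit 4) (nat_lit 306) (nat_lit 264) (nat_lit 210)) (XT.nd (nat_lit 78) (nat_lit 0) (nat_lit 0) (XT.lf (nat_lit 0) (nat_lit 198884936295) (nat_lit 152) (nat_lit 323268618730) (nat_lit 0) (nat_lit 177582067041) (nat_lit 2) (nat_lit 5) (nat_lit 4) (nat_lit 4) (nat_lit 2) (nat_lit 4) (nat_lit 307) (nat_lit 264) (nat_lit 209)) (XT.lf (nat_lit 0) (nat_lit 263336462720) (nat_lit 152) (nat_lit 296294819643) (nat_lit 0) (nat_lit 242032318057) (nat_lit 2) (nat_lit 5) (nat_lit 4) (nat_lit 4) (nat_lit 2) (nat_lit 4) (nat_lit 308) (nat_lit 264) (nat_lit 208)))) (XT.nd (nat_lit 78)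 (nat_lit 0) (nat_lit 0) (XT.lf (nat_lit 0) (nat_lit 337451490913) (nat_lit 152) (nat_lit 265283386386) (nat_lit 0) (nat_lit 316146237198) (nat_lit 2) (nat_lit 5) (nat_lit 4) (nat_lit 4) (nat_lit 2) (nat_lit 4) (nat_lit 309) (nat_lit 264) (nat_lit 207)) (XT.nd (nat_lit 78) (nat_lit 0) (nat_lit 0) (XT.lf (nat_lit 0) (nat_lit 422680097511) (nat_lit 152) (nat_lit 229627573527) (nat_lit 0) (nat_lit 401373879404) (nat_lit 2) (nat_lit 5) (nat_lit 4) (nat_lit 4) (nat_lit 2) (nat_lit 4) (nat_lit 310) (nat_lit 264) (nat_lit 206)) (XT.lf (nat_lit 0) (nat_lit 520689798732) (nat_lit 152) (nat_lit 188629767335) (nat_lit 0) (nat_lit 499382742023) (nat_lit 2) (nat_lit 5) (nat_lit 4) (nat_lit 4) (nat_lit 2) (nat_lit 4) (nat_lit 311) (nat_lit 264) (nat_lit 205))))) (XT.nd (nat_lit 234) (nat_lit 76) (nat_lit 0) (XT.nd (nat_lit 78) (nat_lit 0) (nat_lit 0) (XT.lf (nat_lit 0) (nat_lit 633398175686) (nat_lit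 152) (nat_lit 141487836821) (nat_lit 0) (nat_lit 612090389757) (nat_lit 2) (nat_lit 5) (nat_lit 4) (nat_lit 4) (nat_lit 2) (nat_lit 4) (nat_lit 312) (nat_lit 264) (nat_lit 204)) (XT.nd (nat_lit 78) (nat_lit 0) (nat_lit 0) (XT.lf (nat_lit 0) (nat_lit 763010392270) (nat_lit 152) (nat_lit 87279439864) (nat_lit 0) (nat_lit 741701972237) (nat_lit 2) (nat_lit 5) (nat_lit 4) (nat_lit 4) (nat_lit 2) (nat_lit 4) (nat_lit 313) (nat_lit 264) (nat_lit 203)) (XT.lf (nat_lit 0) (nat_lit 912062339677) (nat_lit 152) (nat_lit 24943977395) (nat_lit 0) (nat_lit 890753368250) (nat_lit 2) (nat_lit 5) (nat_lit 4) (nat_lit 4) (nat_lit 2) (nat_lit 4) (nat_lit 314) (nat_lit 264) (nat_lit 202)))) (XT.nd (nat_lit 156) (nat_lit 0) (nat_lit 0) (XT.nd (nat_lit 78) (nat_lit 0) (nat_lit 0) (XT.lf (nat_lit 0) (nat_lit 49199306004) (nat_lit 76) (nat_lit 1035454190150) (nat_lit 76) (nat_lit 1014144739250) (nat_lit 1) (nat_lit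 4) (nat_lit 2) (nat_lit 5) (nat_lit 2) (nat_lit 4) (nat_lit 315) (nat_lit 264) (nat_lit 201)) (XT.lf (nat_lit 0) (nat_lit 135971275123) (nat_lit 76) (nat_lit 1147886598599) (nat_lit 76) (nat_lit 1126576730765) (nat_lit 1) (nat_lit 4) (nat_lit 2) (nat_lit 5) (nat_lit 2) (nat_lit 4) (nat_lit 316) (nat_lit 264) (nat_lit 200))) (XT.nd (nat_lit 78) (nat_lit 0) (nat_lit 0) (XT.lf (nat_lit 0) (nat_lit 235756136753) (nat_lit 76) (nat_lit 1277185319480) (nat_lit 76) (nat_lit 1255875089094) (nat_lit 1) (nat_lit 4) (nat_lit 2) (nat_lit 5) (nat_lit 2) (nat_lit 4) (nat_lit 317) (nat_lit 264) (nat_lit 199)) (XT.lf (nat_lit 0) (nat_lit 350506203406) (nat_lit 76) (nat_lit 1425880110374) (nat_lit 76) (nat_lit 1404569564727) (nat_lit 1) (nat_lit 4) (nat_lit 2) (nat_lit 5) (nat_lit 2) (nat_lit 4) (nat_lit 318) (nat_lit 264) (nat_lit 198))))))) (XT.nd (nat_lit 36660) (nat_lit 0) (nat_lit 1672) (XT.nd (nat_lit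 468) (nat_lit 0) (nat_lit 0) (XT.nd (nat_lit 234) (nat_lit 0) (nat_lit 0) (XT.nd (nat_lit 78) (nat_lit 0) (nat_lit 0) (XT.lf (nat_lit 0) (nat_lit 482466585080) (nat_lit 76) (nat_lit 1596880217192) (nat_lit 76) (nat_lit 1575569397404) (nat_lit 1) (nat_lit 4) (nat_lit 2) (nat_lit 5) (nat_lit 2) (nat_lit 4) (nat_lit 319) (nat_lit 264) (nat_lit 197)) (XT.nd (nat_lit 78) (nat_lit 0) (nat_lit 0) (XT.lf (nat_lit 0) (nat_lit 634219115330) (nat_lit 76) (nat_lit 1793531294195) (nat_lit 76) (nat_lit 1772220236025) (nat_lit 1) (nat_lit 4) (nat_lit 2) (nat_lit 5) (nat_lit 2) (nat_lit 4) (nat_lit 320) (nat_lit 264) (nat_lit 196)) (XT.lf (nat_lit 0) (nat_lit 808732865401) (nat_lit 76) (nat_lit 2019680862458) (nat_lit 76) (nat_lit 1998369596997) (nat_lit 1) (nat_lit 4) (nat_lit 2) (nat_lit 5) (nat_lit 2) (nat_lit 4) (nat_lit 321) (nat_lit 264) (nat_lit 195)))) (XT.nd (nat_lit 78) (nat_lit 0) (nat_lit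 0) (XT.lf (nat_lit 0) (nat_lit 1009422234749) (nat_lit 76) (nat_lit 2279753587444) (nat_lit 76) (nat_lit 2258442141732) (nat_lit 1) (nat_lit 4) (nat_lit 2) (nat_lit 5) (nat_lit 2) (nat_lit 4) (nat_lit 322) (nat_lit 264) (nat_lit 194)) (XT.nd (nat_lit 78) (nat_lit 0) (nat_lit 0) (XT.lf (nat_lit 0) (nat_lit 1240213754516) (nat_lit 76) (nat_lit 2578837848558) (nat_lit 76) (nat_lit 2557526246104) (nat_lit 1) (nat_lit 4) (nat_lit 2) (nat_lit 5) (nat_lit 2) (nat_lit 4) (nat_lit 323) (nat_lit 264) (nat_lit 193)) (XT.lf (nat_lit 0) (nat_lit 1505622910956) (nat_lit 76) (nat_lit 2922785294384) (nat_lit 76) (nat_lit 2901473555634) (nat_lit 1) (nat_lit 4) (nat_lit 2) (nat_lit 5) (nat_lit 2) (nat_lit 4) (nat_lit 324) (nat_lit 264) (nat_lit 192))))) (XT.nd (nat_lit 234) (nat_lit 0) (nat_lit 0) (XT.nd (nat_lit 78) (nat_lit 0) (nat_lit 0) (XT.lf (nat_lit 0) (nat_lit 1810842491914) (nat_lit 76) (nat_lit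 3318325331472) (nat_lit 76) (nat_lit 3297013474204) (nat_lit 1) (nat_lit 4) (nat_lit 2) (nat_lit 5) (nat_lit 2) (nat_lit 4) (nat_lit 325) (nat_lit 264) (nat_lit 191)) (XT.nd (nat_lit 78) (nat_lit 0) (nat_lit 0) (XT.lf (nat_lit 0) (nat_lit 2161844184842) (nat_lit 76) (nat_lit 3773196786636) (nat_lit 76) (nat_lit 3751884826308) (nat_lit 1) (nat_lit 4) (nat_lit 2) (nat_lit 5) (nat_lit 2) (nat_lit 4) (nat_lit 326) (nat_lit 264) (nat_lit 190)) (XT.lf (nat_lit 0) (nat_lit 2565495414168) (nat_lit 76) (nat_lit 4296299318779) (nat_lit 76) (nat_lit 4274987268834) (nat_lit 1) (nat_lit 4) (nat_lit 2) (nat_lit 5) (nat_lit 2) (nat_lit 4) (nat_lit 327) (nat_lit 264) (nat_lit 189)))) (XT.nd (nat_lit 35802) (nat_lit 0) (nat_lit 4104) (XT.nd (nat_lit 35724) (nat_lit 0) (nat_lit 4560) (XT.lf (nat_lit 0) (nat_lit 3029693703944) (nat_lit 76) (nat_lit 4897867542662) (nat_lit 76) (nat_lit 4876555414789) (nat_lit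 1) (nat_lit 4) (nat_lit 2) (nat_lit 5) (nat_lit 2) (nat_lit 4) (nat_lit 328) (nat_lit 264) (nat_lit 188)) (XT.lf (nat_lit 0) (nat_lit 1792005435) (nat_lit 0) (nat_lit 1792005435) (nat_lit 380) (nat_lit 835858728) (nat_lit 61) (nat_lit 5) (nat_lit 61) (nat_lit 3) (nat_lit 66) (nat_lit 3) (nat_lit 265) (nat_lit 265) (nat_lit 250))) (XT.nd (nat_lit 78) (nat_lit 0) (nat_lit 0) (XT.lf (nat_lit 0) (nat_lit 50916098) (nat_lit 456) (nat_lit 6678750118) (nat_lit 532) (nat_lit 2632893192) (nat_lit 55) (nat_lit 5) (nat_lit 61) (nat_lit 5) (nat_lit 62) (nat_lit 5) (nat_lit 266) (nat_lit 265) (nat_lit 249)) (XT.lf (nat_lit 76) (nat_lit 1936679215) (nat_lit 0) (nat_lit 11546371) (nat_lit 532) (nat_lit 8011410733) (nat_lit 56) (nat_lit 5) (nat_lit 55) (nat_lit 5) (nat_lit 62) (nat_lit 5) (nat_lit 267) (nat_lit 265) (nat_lit 248)))))) (XT.nd (nat_lit 468) (nat_lit 1292) (nat_lit 0) (XT.nd (nat_lit 234)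 (nat_lit 532) (nat_lit 0) (XT.nd (nat_lit 78) (nat_lit 684) (nat_lit 0) (XT.lf (nat_lit 76) (nat_lit 1293737039) (nat_lit 0) (nat_lit 2997874234) (nat_lit 532) (nat_lit 6342204754) (nat_lit 57) (nat_lit 5) (nat_lit 56) (nat_lit 5) (nat_lit 63) (nat_lit 5) (nat_lit 268) (nat_lit 265) (nat_lit 247)) (XT.nd (nat_lit 78) (nat_lit 304) (nat_lit 0) (XT.lf (nat_lit 0) (nat_lit 815755650) (nat_lit 456) (nat_lit 6326322704) (nat_lit 532) (nat_lit 4254998143) (nat_lit 51) (nat_lit 5) (nat_lit 57) (nat_lit 5) (nat_lit 58) (nat_lit 5) (nat_lit 269) (nat_lit 265) (nat_lit 246)) (XT.lf (nat_lit 0) (nat_lit 497717825) (nat_lit 304) (nat_lit 10140536935) (nat_lit 380) (nat_lit 1619467693) (nat_lit 47) (nat_lit 5) (nat_lit 51) (nat_lit 5) (nat_lit 52) (nat_lit 5) (nat_lit 270) (nat_lit 265) (nat_lit 245)))) (XT.nd (nat_lit 78) (nat_lit 228) (nat_lit 0) (XT.lf (nat_lit 0) (nat_lit 258750285) (nat_lit 228)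 (nat_lit 1396494171) (nat_lit 304) (nat_lit 11564628705) (nat_lit 43) (nat_lit 5) (nat_lit 46) (nat_lit 5) (nat_lit 47) (nat_lit 5) (nat_lit 271) (nat_lit 265) (nat_lit 244)) (XT.nd (nat_lit 78) (nat_lit 0) (nat_lit 0) (XT.lf (nat_lit 0) (nat_lit 43350667) (nat_lit 228) (nat_lit 5681648672) (nat_lit 304) (nat_lit 8566247224) (nat_lit 40) (nat_lit 5) (nat_lit 43) (nat_lit 5) (nat_lit 44) (nat_lit 5) (nat_lit 272) (nat_lit 265) (nat_lit 243)) (XT.lf (nat_lit 0) (nat_lit 10791504368) (nat_lit 304) (nat_lit 51322716) (nat_lit 76) (nat_lit 4649807537) (nat_lit 40) (nat_lit 5) (nat_lit 44) (nat_lit 5) (nat_lit 41) (nat_lit 5) (nat_lit 273) (nat_lit 265) (nat_lit 242))))) (XT.nd (nat_lit 234) (nat_lit 684) (nat_lit 0) (XT.nd (nat_lit 78) (nat_lit 380) (nat_lit 0) (XT.lf (nat_lit 0) (nat_lit 200837637) (nat_lit 228) (nat_lit 48353536) (nat_lit 76) (nat_lit 16590161904) (nat_lit 37) (nat_lit 5)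 (nat_lit 40) (nat_lit 5) (nat_lit 38) (nat_lit 5) (nat_lit 274) (nat_lit 265) (nat_lit 241)) (XT.nd (nat_lit 78) (nat_lit 152) (nat_lit 0) (XT.lf (nat_lit 0) (nat_lit 6195132690) (nat_lit 304) (nat_lit 241008249) (nat_lit 76) (nat_lit 11891486617) (nat_lit 34) (nat_lit 5) (nat_lit 38) (nat_lit 5) (nat_lit 35) (nat_lit 5) (nat_lit 275) (nat_lit 265) (nat_lit 240)) (XT.lf (nat_lit 0) (nat_lit 13615684106) (nat_lit 228) (nat_lit 422630725) (nat_lit 76) (nat_lit 5958788229) (nat_lit 32) (nat_lit 5) (nat_lit 35) (nat_lit 5) (nat_lit 33) (nat_lit 5) (nat_lit 276) (nat_lit 265) (nat_lit 239)))) (XT.nd (nat_lit 156) (nat_lit 304) (nat_lit 0) (XT.nd (nat_lit 78) (nat_lit 152) (nat_lit 0) (XT.lf (nat_lit 0) (nat_lit 834106688) (nat_lit 228) (nat_lit 690653822) (nat_lit 76) (nat_lit 20342823333) (nat_lit 29) (nat_lit 5) (nat_lit 32) (nat_lit 5) (nat_lit 30) (nat_lit 5) (nat_lit 277) (nat_lit 265)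 (nat_lit 238)) (XT.lf (nat_lit 0) (nat_lit 9564725554) (nat_lit 228) (nat_lit 1439194730) (nat_lit 76) (nat_lit 12936697312) (nat_lit 27) (nat_lit 5) (nat_lit 30) (nat_lit 5) (nat_lit 28) (nat_lit 5) (nat_lit 278) (nat_lit 265) (nat_lit 237))) (XT.nd (nat_lit 78) (nat_lit 152) (nat_lit 0) (XT.lf (nat_lit 0) (nat_lit 20250963411) (nat_lit 228) (nat_lit 2455521957) (nat_lit 76) (nat_lit 3566517382) (nat_lit 25) (nat_lit 5) (nat_lit 28) (nat_lit 5) (nat_lit 26) (nat_lit 4) (nat_lit 279) (nat_lit 265) (nat_lit 236)) (XT.lf (nat_lit 0) (nat_lit 4296640275) (nat_lit 152) (nat_lit 4184762792) (nat_lit 76) (nat_lit 20395722034) (nat_lit 23) (nat_lit 5) (nat_lit 25) (nat_lit 5) (nat_lit 24) (nat_lit 5) (nat_lit 280) (nat_lit 265) (nat_lit 235))))))))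
noncomputable def xc30 : XT := (XT.nd (nat_lit 2028) (nat_lit 76) (nat_lit 0) (XT.nd (nat_lit 1014) (nat_lit 456) (nat_lit 0) (XT.nd (nat_lit 468) (nat_lit 456) (nat_lit 0) (XT.nd (nat_lit 234) (nat_lit 304) (nat_lit 0) (XT.nd (nat_lit 78) (nat_lit 228) (nat_lit 0) (XT.lf (nat_lit 0) (nat_lit 16635478702) (nat_lit 228) (nat_lit 6851600312) (nat_lit 76) (nat_lit 8306014069) (nat_lit 21) (nat_lit 5) (nat_lit 24) (nat_lit 5) (nat_lit 22) (nat_lit 4) (nat_lit 281) (nat_lit 265) (nat_lit 234)) (XT.nd (nat_lit 78) (nat_lit 152) (nat_lit 0) (XT.lf (nat_lit 0) (nat_lit 24426367720) (nat_lit 76) (nat_lit 7281189436) (nat_lit 152) (nat_lit 3368353713) (nat_lit 20) (nat_lit 5) (nat_lit 21) (nat_lit 5) (nat_lit 22) (nat_lit 4) (nat_lit 282) (nat_lit 265) (nat_lit 233)) (XT.lf (nat_lit 0) (nat_lit 10669325345) (nat_lit 152) (nat_lit 16315137414) (nat_lit 76) (nat_lit 11767943652) (nat_lit 18) (nat_lit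 5) (nat_lit 20) (nat_lit 5) (nat_lit 19) (nat_lit 4) (nat_lit 283) (nat_lit 265) (nat_lit 232)))) (XT.nd (nat_lit 78) (nat_lit 228) (nat_lit 0) (XT.lf (nat_lit 0) (nat_lit 18710294691) (nat_lit 76) (nat_lit 8822400983) (nat_lit 152) (nat_lit 15367156181) (nat_lit 17) (nat_lit 5) (nat_lit 18) (nat_lit 5) (nat_lit 19) (nat_lit 4) (nat_lit 284) (nat_lit 265) (nat_lit 231)) (XT.nd (nat_lit 78) (nat_lit 76) (nat_lit 0) (XT.lf (nat_lit 0) (nat_lit 348485552) (nat_lit 152) (nat_lit 35017297664) (nat_lit 76) (nat_lit 12220679521) (nat_lit 15) (nat_lit 5) (nat_lit 17) (nat_lit 5) (nat_lit 16) (nat_lit 4) (nat_lit 285) (nat_lit 265) (nat_lit 230)) (XT.lf (nat_lit 0) (nat_lit 2748201088) (nat_lit 76) (nat_lit 15773731666) (nat_lit 152) (nat_lit 34341394845) (nat_lit 14) (nat_lit 5) (nat_lit 15) (nat_lit 5) (nat_lit 16) (nat_lit 4) (nat_lit 286) (nat_lit 265) (nat_lit 229))))) (XT.nd (nat_lit 234)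 (nat_lit 228) (nat_lit 0) (XT.nd (nat_lit 78) (nat_lit 228) (nat_lit 0) (XT.lf (nat_lit 0) (nat_lit 40585153386) (nat_lit 152) (nat_lit 10823974007) (nat_lit 0) (nat_lit 7429514639) (nat_lit 14) (nat_lit 5) (nat_lit 16) (nat_lit 4) (nat_lit 14) (nat_lit 4) (nat_lit 287) (nat_lit 265) (nat_lit 228)) (XT.nd (nat_lit 78) (nat_lit 76) (nat_lit 0) (XT.lf (nat_lit 0) (nat_lit 1522157371) (nat_lit 152) (nat_lit 30014246104) (nat_lit 76) (nat_lit 34070434952) (nat_lit 12) (nat_lit 5) (nat_lit 14) (nat_lit 5) (nat_lit 13) (nat_lit 4) (nat_lit 288) (nat_lit 265) (nat_lit 227)) (XT.lf (nat_lit 0) (nat_lit 16506023166) (nat_lit 76) (nat_lit 7391972144) (nat_lit 152) (nat_lit 49397181474) (nat_lit 11) (nat_lit 5) (nat_lit 12) (nat_lit 5) (nat_lit 13) (nat_lit 4) (nat_lit 289) (nat_lit 265) (nat_lit 226)))) (XT.nd (nat_lit 156) (nat_lit 152) (nat_lit 0) (XT.nd (nat_lit 78) (nat_lit 76) (nat_lit 0) (XT.lf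 (nat_lit 0) (nat_lit 50982892596) (nat_lit 152) (nat_lit 10822481935) (nat_lit 0) (nat_lit 20223189063) (nat_lit 11) (nat_lit 5) (nat_lit 13) (nat_lit 4) (nat_lit 11) (nat_lit 4) (nat_lit 290) (nat_lit 265) (nat_lit 225)) (XT.lf (nat_lit 0) (nat_lit 43978346246) (nat_lit 76) (nat_lit 39384872669) (nat_lit 76) (nat_lit 8610134729) (nat_lit 10) (nat_lit 4) (nat_lit 11) (nat_lit 5) (nat_lit 11) (nat_lit 4) (nat_lit 291) (nat_lit 265) (nat_lit 224))) (XT.nd (nat_lit 78) (nat_lit 0) (nat_lit 0) (XT.lf (nat_lit 0) (nat_lit 3995191565) (nat_lit 76) (nat_lit 12727405983) (nat_lit 152) (nat_lit 86622853079) (nat_lit 8) (nat_lit 5) (nat_lit 9) (nat_lit 5) (nat_lit 10) (nat_lit 4) (nat_lit 292) (nat_lit 265) (nat_lit 223)) (XT.lf (nat_lit 0) (nat_lit 47199042920) (nat_lit 152) (nat_lit 50376861933) (nat_lit 0) (nat_lit 18681284115) (nat_lit 8) (nat_lit 5) (nat_lit 10) (nat_lit 4) (nat_lit 8) (nat_lit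 4) (nat_lit 293) (nat_lit 265) (nat_lit 222)))))) (XT.nd (nat_lit 468) (nat_lit 228) (nat_lit 0) (XT.nd (nat_lit 234) (nat_lit 76) (nat_lit 0) (XT.nd (nat_lit 78) (nat_lit 76) (nat_lit 0) (XT.lf (nat_lit 0) (nat_lit 5839134663) (nat_lit 76) (nat_lit 76877931497) (nat_lit 76) (nat_lit 48351019574) (nat_lit 7) (nat_lit 4) (nat_lit 8) (nat_lit 5) (nat_lit 8) (nat_lit 4) (nat_lit 294) (nat_lit 265) (nat_lit 221)) (XT.nd (nat_lit 78) (nat_lit 76) (nat_lit 0) (XT.lf (nat_lit 0) (nat_lit 73498383729) (nat_lit 76) (nat_lit 51510703307) (nat_lit 76) (nat_lit 22975832152) (nat_lit 7) (nat_lit 4) (nat_lit 8) (nat_lit 5) (nat_lit 8) (nat_lit 4) (nat_lit 295) (nat_lit 265) (nat_lit 220)) (XT.lf (nat_lit 0) (nat_lit 5877021081) (nat_lit 152) (nat_lit 16317588377) (nat_lit 76) (nat_lit 145234187654) (nat_lit 6) (nat_lit 5) (nat_lit 8) (nat_lit 5) (nat_lit 7) (nat_lit 4) (nat_lit 296) (nat_lit 265) (nat_lit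 219)))) (XT.nd (nat_lit 78) (nat_lit 0) (nat_lit 0) (XT.lf (nat_lit 0) (nat_lit 39309789218) (nat_lit 152) (nat_lit 137426105206) (nat_lit 0) (nat_lit 12876631301) (nat_lit 5) (nat_lit 5) (nat_lit 7) (nat_lit 4) (nat_lit 5) (nat_lit 4) (nat_lit 297) (nat_lit 265) (nat_lit 218)) (XT.nd (nat_lit 78) (nat_lit 0) (nat_lit 0) (XT.lf (nat_lit 0) (nat_lit 78843965952) (nat_lit 152) (nat_lit 83786969315) (nat_lit 0) (nat_lit 52405962364) (nat_lit 5) (nat_lit 5) (nat_lit 7) (nat_lit 4) (nat_lit 5) (nat_lit 4) (nat_lit 298) (nat_lit 265) (nat_lit 217)) (XT.lf (nat_lit 0) (nat_lit 124295431689) (nat_lit 152) (nat_lit 22127309180) (nat_lit 0) (nat_lit 97853214475) (nat_lit 5) (nat_lit 5) (nat_lit 7) (nat_lit 4) (nat_lit 5) (nat_lit 4) (nat_lit 299) (nat_lit 265) (nat_lit 216))))) (XT.nd (nat_lit 234) (nat_lit 152) (nat_lit 0) (XT.nd (nat_lit 78) (nat_lit 0) (nat_lit 0) (XT.lf (nat_lit 0) (nat_lit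 51326836069) (nat_lit 76) (nat_lit 126461029810) (nat_lit 76) (nat_lit 100015148572) (nat_lit 4) (nat_lit 4) (nat_lit 5) (nat_lit 5) (nat_lit 5) (nat_lit 4) (nat_lit 300) (nat_lit 265) (nat_lit 215)) (XT.nd (nat_lit 78) (nat_lit 0) (nat_lit 0) (XT.lf (nat_lit 0) (nat_lit 137118891194) (nat_lit 76) (nat_lit 102819294606) (nat_lit 76) (nat_lit 76370227261) (nat_lit 4) (nat_lit 4) (nat_lit 5) (nat_lit 5) (nat_lit 5) (nat_lit 4) (nat_lit 301) (nat_lit 265) (nat_lit 214)) (XT.lf (nat_lit 0) (nat_lit 235762211514) (nat_lit 76) (nat_lit 75639979415) (nat_lit 76) (nat_lit 49188141542) (nat_lit 4) (nat_lit 4) (nat_lit 5) (nat_lit 5) (nat_lit 5) (nat_lit 4) (nat_lit 302) (nat_lit 265) (nat_lit 213)))) (XT.nd (nat_lit 156) (nat_lit 0) (nat_lit 0) (XT.nd (nat_lit 78) (nat_lit 152) (nat_lit 0) (XT.lf (nat_lit 0) (nat_lit 349186775036) (nat_lit 76) (nat_lit 44391315025) (nat_lit 76) (nat_lit 17937067997)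 (nat_lit 4) (nat_lit 4) (nat_lit 5) (nat_lit 5) (nat_lit 5) (nat_lit 4) (nat_lit 303) (nat_lit 265) (nat_lit 212)) (XT.lf (nat_lit 0) (nat_lit 9578923003) (nat_lit 76) (nat_lit 7745723606) (nat_lit 152) (nat_lit 452701547321) (nat_lit 2) (nat_lit 5) (nat_lit 3) (nat_lit 5) (nat_lit 4) (nat_lit 4) (nat_lit 304) (nat_lit 265) (nat_lit 211))) (XT.nd (nat_lit 78) (nat_lit 0) (nat_lit 0) (XT.lf (nat_lit 0) (nat_lit 59526310381) (nat_lit 152) (nat_lit 442505272115) (nat_lit 0) (nat_lit 35028010740) (nat_lit 2) (nat_lit 5) (nat_lit 4) (nat_lit 4) (nat_lit 2) (nat_lit 4) (nat_lit 305) (nat_lit 265) (nat_lit 210)) (XT.lf (nat_lit 0) (nat_lit 108266860817) (nat_lit 152) (nat_lit 422097357250) (nat_lit 0) (nat_lit 83767094455) (nat_lit 2) (nat_lit 5) (nat_lit 4) (nat_lit 4) (nat_lit 2) (nat_lit 4) (nat_lit 306) (nat_lit 265) (nat_lit 209))))))) (XT.nd (nat_lit 1014) (nat_lit 0) (nat_lit 0) (XT.nd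 (nat_lit 468) (nat_lit 76) (nat_lit 0) (XT.nd (nat_lit 234) (nat_lit 0) (nat_lit 0) (XT.nd (nat_lit 78) (nat_lit 0) (nat_lit 0) (XT.lf (nat_lit 0) (nat_lit 164313632542) (nat_lit 152) (nat_lit 398637956205) (nat_lit 0) (nat_lit 139812590770) (nat_lit 2) (nat_lit 5) (nat_lit 4) (nat_lit 4) (nat_lit 2) (nat_lit 4) (nat_lit 307) (nat_lit 265) (nat_lit 208)) (XT.nd (nat_lit 78) (nat_lit 0) (nat_lit 0) (XT.lf (nat_lit 0) (nat_lit 228763192829) (nat_lit 152) (nat_lit 371668080696) (nat_lit 0) (nat_lit 204261042006) (nat_lit 2) (nat_lit 5) (nat_lit 4) (nat_lit 4) (nat_lit 2) (nat_lit 4) (nat_lit 308) (nat_lit 265) (nat_lit 207)) (XT.lf (nat_lit 0) (nat_lit 302876511337) (nat_lit 152) (nat_lit 340660059246) (nat_lit 0) (nat_lit 278373396121) (nat_lit 2) (nat_lit 5) (nat_lit 4) (nat_lit 4) (nat_lit 2) (nat_lit 4) (nat_lit 309) (nat_lit 265) (nat_lit 206)))) (XT.nd (nat_lit 78) (nat_lit 0) (nat_lit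 0) (XT.lf (nat_lit 0) (nat_lit 388103631253) (nat_lit 152) (nat_lit 305007213176) (nat_lit 0) (nat_lit 363599677435) (nat_lit 2) (nat_lit 5) (nat_lit 4) (nat_lit 4) (nat_lit 2) (nat_lit 4) (nat_lit 310) (nat_lit 265) (nat_lit 205)) (XT.nd (nat_lit 78) (nat_lit 0) (nat_lit 0) (XT.lf (nat_lit 0) (nat_lit 486112039706) (nat_lit 152) (nat_lit 264011986802) (nat_lit 0) (nat_lit 461607356669) (nat_lit 2) (nat_lit 5) (nat_lit 4) (nat_lit 4) (nat_lit 2) (nat_lit 4) (nat_lit 311) (nat_lit 265) (nat_lit 204)) (XT.lf (nat_lit 0) (nat_lit 598819292514) (nat_lit 152) (nat_lit 216872299606) (nat_lit 0) (nat_lit 574313975373) (nat_lit 2) (nat_lit 5) (nat_lit 4) (nat_lit 4) (nat_lit 2) (nat_lit 4) (nat_lit 312) (nat_lit 265) (nat_lit 203))))) (XT.nd (nat_lit 234) (nat_lit 76) (nat_lit 0) (XT.nd (nat_lit 78) (nat_lit 0) (nat_lit 0) (XT.lf (nat_lit 0) (nat_lit 728430531580) (nat_lit 152) (nat_lit 162665853362)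 (nat_lit 0) (nat_lit 703924663044) (nat_lit 2) (nat_lit 5) (nat_lit 4) (nat_lit 4) (nat_lit 2) (nat_lit 4) (nat_lit 313) (nat_lit 265) (nat_lit 202)) (XT.nd (nat_lit 78) (nat_lit 0) (nat_lit 0) (XT.lf (nat_lit 0) (nat_lit 877481628972) (nat_lit 152) (nat_lit 100332087164) (nat_lit 0) (nat_lit 852975280962) (nat_lit 2) (nat_lit 5) (nat_lit 4) (nat_lit 4) (nat_lit 2) (nat_lit 4) (nat_lit 314) (nat_lit 265) (nat_lit 201)) (XT.lf (nat_lit 0) (nat_lit 1048888801813) (nat_lit 152) (nat_lit 28651427326) (nat_lit 0) (nat_lit 1024382036870) (nat_lit 2) (nat_lit 5) (nat_lit 4) (nat_lit 4) (nat_lit 2) (nat_lit 4) (nat_lit 315) (nat_lit 265) (nat_lit 200)))) (XT.nd (nat_lit 156) (nat_lit 0) (nat_lit 0) (XT.nd (nat_lit 78) (nat_lit 0) (nat_lit 0) (XT.lf (nat_lit 0) (nat_lit 56610458237) (nat_lit 76) (nat_lit 1190756693347) (nat_lit 76) (nat_lit 1166249565853) (nat_lit 1) (nat_lit 4) (nat_lit 2) (nat_lit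 5) (nat_lit 2) (nat_lit 4) (nat_lit 316) (nat_lit 265) (nat_lit 199)) (XT.lf (nat_lit 0) (nat_lit 156394145811) (nat_lit 76) (nat_lit 1320056001149) (nat_lit 76) (nat_lit 1295548558393) (nat_lit 1) (nat_lit 4) (nat_lit 2) (nat_lit 5) (nat_lit 2) (nat_lit 4) (nat_lit 317) (nat_lit 265) (nat_lit 198))) (XT.nd (nat_lit 78) (nat_lit 0) (nat_lit 0) (XT.lf (nat_lit 0) (nat_lit 271143191544) (nat_lit 76) (nat_lit 1468751302410) (nat_lit 76) (nat_lit 1444243585514) (nat_lit 1) (nat_lit 4) (nat_lit 2) (nat_lit 5) (nat_lit 2) (nat_lit 4) (nat_lit 318) (nat_lit 265) (nat_lit 197)) (XT.lf (nat_lit 0) (nat_lit 403102685462) (nat_lit 76) (nat_lit 1639751853025) (nat_lit 76) (nat_lit 1615243897745) (nat_lit 1) (nat_lit 4) (nat_lit 2) (nat_lit 5) (nat_lit 2) (nat_lit 4) (nat_lit 319) (nat_lit 265) (nat_lit 196)))))) (XT.nd (nat_lit 468) (nat_lit 0) (nat_lit 0) (XT.nd (nat_lit 234) (nat_lit 0) (nat_lit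 0) (XT.nd (nat_lit 78) (nat_lit 0) (nat_lit 0) (XT.lf (nat_lit 0) (nat_lit 554854443751) (nat_lit 76) (nat_lit 1836403315939) (nat_lit 76) (nat_lit 1811895153370) (nat_lit 1) (nat_lit 4) (nat_lit 2) (nat_lit 5) (nat_lit 2) (nat_lit 4) (nat_lit 320) (nat_lit 265) (nat_lit 195)) (XT.nd (nat_lit 78) (nat_lit 0) (nat_lit 0) (XT.lf (nat_lit 0) (nat_lit 729367522551) (nat_lit 76) (nat_lit 2062553219776) (nat_lit 76) (nat_lit 2038044876955) (nat_lit 1) (nat_lit 4) (nat_lit 2) (nat_lit 5) (nat_lit 2) (nat_lit 4) (nat_lit 321) (nat_lit 265) (nat_lit 194)) (XT.lf (nat_lit 0) (nat_lit 930056308186) (nat_lit 76) (nat_lit 2322626236567) (nat_lit 76) (nat_lit 2298117737005) (nat_lit 1) (nat_lit 4) (nat_lit 2) (nat_lit 5) (nat_lit 2) (nat_lit 4) (nat_lit 322) (nat_lit 265) (nat_lit 193)))) (XT.nd (nat_lit 78) (nat_lit 0) (nat_lit 0) (XT.lf (nat_lit 0) (nat_lit 1160847320375) (nat_lit 76) (nat_lit 2621710751422)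 (nat_lit 76) (nat_lit 2597202115564) (nat_lit 1) (nat_lit 4) (nat_lit 2) (nat_lit 5) (nat_lit 2) (nat_lit 4) (nat_lit 323) (nat_lit 265) (nat_lit 192)) (XT.nd (nat_lit 78) (nat_lit 0) (nat_lit 0) (XT.lf (nat_lit 0) (nat_lit 1426256035444) (nat_lit 76) (nat_lit 2965658417894) (nat_lit 76) (nat_lit 2941149663518) (nat_lit 1) (nat_lit 4) (nat_lit 2) (nat_lit 5) (nat_lit 2) (nat_lit 4) (nat_lit 324) (nat_lit 265) (nat_lit 191)) (XT.lf (nat_lit 0) (nat_lit 1731475232600) (nat_lit 76) (nat_lit 3361198646849) (nat_lit 76) (nat_lit 3336689789412) (nat_lit 1) (nat_lit 4) (nat_lit 2) (nat_lit 5) (nat_lit 2) (nat_lit 4) (nat_lit 325) (nat_lit 265) (nat_lit 190))))) (XT.nd (nat_lit 35958) (nat_lit 0) (nat_lit 4028) (XT.nd (nat_lit 78) (nat_lit 0) (nat_lit 0) (XT.lf (nat_lit 0) (nat_lit 2082476591788) (nat_lit 76) (nat_lit 3816070268852) (nat_lit 76) (nat_lit 3791561321798) (nat_lit 1) (nat_lit 4)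 (nat_lit 2) (nat_lit 5) (nat_lit 2) (nat_lit 4) (nat_lit 326) (nat_lit 265) (nat_lit 189)) (XT.nd (nat_lit 78) (nat_lit 0) (nat_lit 0) (XT.lf (nat_lit 0) (nat_lit 2486127530905) (nat_lit 76) (nat_lit 4339172946073) (nat_lit 76) (nat_lit 4314663921092) (nat_lit 1) (nat_lit 4) (nat_lit 2) (nat_lit 5) (nat_lit 2) (nat_lit 4) (nat_lit 327) (nat_lit 265) (nat_lit 188)) (XT.lf (nat_lit 0) (nat_lit 2950325568325) (nat_lit 76) (nat_lit 4940741296111) (nat_lit 76) (nat_lit 4916232203366) (nat_lit 1) (nat_lit 4) (nat_lit 2) (nat_lit 5) (nat_lit 2) (nat_lit 4) (nat_lit 328) (nat_lit 265) (nat_lit 187)))) (XT.nd (nat_lit 156) (nat_lit 0) (nat_lit 76) (XT.nd (nat_lit 78) (nat_lit 0) (nat_lit 76) (XT.lf (nat_lit 0) (nat_lit 644733960) (nat_lit 532) (nat_lit 2156244403) (nat_lit 532) (nat_lit 2156244403) (nat_lit 54) (nat_lit 3) (nat_lit 61) (nat_lit 3) (nat_lit 61) (nat_lit 5) (nat_lit 266) (nat_lit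 266) (nat_lit 248)) (XT.lf (nat_lit 0) (nat_lit 2776072892) (nat_lit 456) (nat_lit 5884239707) (nat_lit 532) (nat_lit 1884279997) (nat_lit 55) (nat_lit 5) (nat_lit 61) (nat_lit 5) (nat_lit 62) (nat_lit 5) (nat_lit 267) (nat_lit 266) (nat_lit 247))) (XT.nd (nat_lit 78) (nat_lit 0) (nat_lit 76) (XT.lf (nat_lit 76) (nat_lit 3871454237) (nat_lit 0) (nat_lit 771610325) (nat_lit 532) (nat_lit 6614005165) (nat_lit 56) (nat_lit 5) (nat_lit 55) (nat_lit 5) (nat_lit 62) (nat_lit 5) (nat_lit 268) (nat_lit 266) (nat_lit 246)) (XT.lf (nat_lit 76) (nat_lit 3189463633) (nat_lit 0) (nat_lit 3860177253) (nat_lit 532) (nat_lit 5006362225) (nat_lit 57) (nat_lit 5) (nat_lit 56) (nat_lit 5) (nat_lit 63) (nat_lit 5) (nat_lit 269) (nat_lit 266) (nat_lit 245))))))))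
noncomputable def xc31 : XT := (XT.nd (nat_lit 2028) (nat_lit 456) (nat_lit 0) (XT.nd (nat_lit 1014) (nat_lit 1064) (nat_lit 0) (XT.nd (nat_lit 468) (nat_lit 988) (nat_lit 0) (XT.nd (nat_lit 234) (nat_lit 684) (nat_lit 0) (XT.nd (nat_lit 78) (nat_lit 608) (nat_lit 0) (XT.lf (nat_lit 0) (nat_lit 2663082506) (nat_lit 456) (nat_lit 7421675065) (nat_lit 532) (nat_lit 2868916843) (nat_lit 51) (nat_lit 5) (nat_lit 57) (nat_lit 5) (nat_lit 58) (nat_lit 5) (nat_lit 270) (nat_lit 266) (nat_lit 244)) (XT.nd (nat_lit 78) (nat_lit 304) (nat_lit 0) (XT.lf (nat_lit 0) (nat_lit 2294568375) (nat_lit 304) (nat_lit 11605057679) (nat_lit 380) (nat_lit 60674415) (nat_lit 47) (nat_lit 5) (nat_lit 51) (nat_lit 5) (nat_lit 52) (nat_lit 5) (nat_lit 271) (nat_lit 266) (nat_lit 243)) (XT.lf (nat_lit 0) (nat_lit 1958879006) (nat_lit 228) (nat_lit 1472941098) (nat_lit 304) (nat_lit 11646492566) (nat_lit 43) (nat_lit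 5) (nat_lit 46) (nat_lit 5) (nat_lit 47) (nat_lit 5) (nat_lit 272) (nat_lit 266) (nat_lit 242)))) (XT.nd (nat_lit 78) (nat_lit 456) (nat_lit 0) (XT.lf (nat_lit 0) (nat_lit 1681618454) (nat_lit 228) (nat_lit 6273103724) (nat_lit 304) (nat_lit 8368552365) (nat_lit 40) (nat_lit 5) (nat_lit 43) (nat_lit 5) (nat_lit 44) (nat_lit 5) (nat_lit 273) (nat_lit 266) (nat_lit 241)) (XT.nd (nat_lit 78) (nat_lit 304) (nat_lit 0) (XT.lf (nat_lit 0) (nat_lit 1527981784) (nat_lit 152) (nat_lit 12116600582) (nat_lit 228) (nat_lit 4071476503) (nat_lit 38) (nat_lit 5) (nat_lit 40) (nat_lit 5) (nat_lit 41) (nat_lit 5) (nat_lit 274) (nat_lit 266) (nat_lit 240)) (XT.lf (nat_lit 0) (nat_lit 1372207313) (nat_lit 304) (nat_lit 17815259839) (nat_lit 76) (nat_lit 85102281) (nat_lit 34) (nat_lit 5) (nat_lit 38) (nat_lit 5) (nat_lit 35) (nat_lit 5) (nat_lit 275) (nat_lit 266) (nat_lit 239))))) (XT.nd (nat_lit 234) (nat_lit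 456) (nat_lit 0) (XT.nd (nat_lit 78) (nat_lit 380) (nat_lit 0) (XT.lf (nat_lit 0) (nat_lit 1174383546) (nat_lit 152) (nat_lit 6977898102) (nat_lit 228) (nat_lit 12841053558) (nat_lit 32) (nat_lit 5) (nat_lit 34) (nat_lit 5) (nat_lit 35) (nat_lit 5) (nat_lit 276) (nat_lit 266) (nat_lit 238)) (XT.nd (nat_lit 78) (nat_lit 228) (nat_lit 0) (XT.lf (nat_lit 0) (nat_lit 897812261) (nat_lit 152) (nat_lit 15690744807) (nat_lit 228) (nat_lit 6332620989) (nat_lit 30) (nat_lit 5) (nat_lit 32) (nat_lit 5) (nat_lit 33) (nat_lit 5) (nat_lit 277) (nat_lit 266) (nat_lit 237)) (XT.lf (nat_lit 0) (nat_lit 501616164) (nat_lit 152) (nat_lit 1311679199) (nat_lit 228) (nat_lit 23265255772) (nat_lit 27) (nat_lit 5) (nat_lit 29) (nat_lit 5) (nat_lit 30) (nat_lit 5) (nat_lit 278) (nat_lit 266) (nat_lit 236)))) (XT.nd (nat_lit 156) (nat_lit 304) (nat_lit 0) (XT.nd (nat_lit 78) (nat_lit 152) (nat_lit 0) (XT.lf (nat_lit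 0) (nat_lit 11769284631) (nat_lit 228) (nat_lit 440010124) (nat_lit 76) (nat_lit 15260093139) (nat_lit 27) (nat_lit 5) (nat_lit 30) (nat_lit 5) (nat_lit 28) (nat_lit 5) (nat_lit 279) (nat_lit 266) (nat_lit 235)) (XT.lf (nat_lit 0) (nat_lit 23994797261) (nat_lit 228) (nat_lit 1665307844) (nat_lit 76) (nat_lit 4496714368) (nat_lit 25) (nat_lit 5) (nat_lit 28) (nat_lit 5) (nat_lit 26) (nat_lit 4) (nat_lit 280) (nat_lit 266) (nat_lit 234))) (XT.nd (nat_lit 78) (nat_lit 152) (nat_lit 0) (XT.lf (nat_lit 0) (nat_lit 5597858516) (nat_lit 152) (nat_lit 3716903697) (nat_lit 76) (nat_lit 23840879753) (nat_lit 23) (nat_lit 5) (nat_lit 25) (nat_lit 5) (nat_lit 24) (nat_lit 5) (nat_lit 281) (nat_lit 266) (nat_lit 233)) (XT.lf (nat_lit 0) (nat_lit 19735785759) (nat_lit 228) (nat_lit 6838244311) (nat_lit 76) (nat_lit 9939181091) (nat_lit 21) (nat_lit 5) (nat_lit 24) (nat_lit 5) (nat_lit 22) (nat_lit 4)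 (nat_lit 282) (nat_lit 266) (nat_lit 232)))))) (XT.nd (nat_lit 468) (nat_lit 532) (nat_lit 0) (XT.nd (nat_lit 234) (nat_lit 228) (nat_lit 0) (XT.nd (nat_lit 78) (nat_lit 228) (nat_lit 0) (XT.lf (nat_lit 0) (nat_lit 29043295331) (nat_lit 76) (nat_lit 7969388541) (nat_lit 152) (nat_lit 3280305425) (nat_lit 20) (nat_lit 5) (nat_lit 21) (nat_lit 5) (nat_lit 22) (nat_lit 4) (nat_lit 283) (nat_lit 266) (nat_lit 231)) (XT.nd (nat_lit 78) (nat_lit 76) (nat_lit 0) (XT.lf (nat_lit 0) (nat_lit 12790803377) (nat_lit 152) (nat_lit 17830683423) (nat_lit 76) (nat_lit 13901781230) (nat_lit 18) (nat_lit 5) (nat_lit 20) (nat_lit 5) (nat_lit 19) (nat_lit 4) (nat_lit 284) (nat_lit 266) (nat_lit 230)) (XT.lf (nat_lit 0) (nat_lit 22369697650) (nat_lit 76) (nat_lit 9766526022) (nat_lit 152) (nat_lit 17160443891) (nat_lit 17) (nat_lit 5) (nat_lit 18) (nat_lit 5) (nat_lit 19) (nat_lit 4) (nat_lit 285) (nat_lit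 266) (nat_lit 229)))) (XT.nd (nat_lit 78) (nat_lit 76) (nat_lit 0) (XT.lf (nat_lit 0) (nat_lit 851582850) (nat_lit 152) (nat_lit 39438681800) (nat_lit 76) (nat_lit 14397882397) (nat_lit 15) (nat_lit 5) (nat_lit 17) (nat_lit 5) (nat_lit 16) (nat_lit 4) (nat_lit 286) (nat_lit 266) (nat_lit 228)) (XT.nd (nat_lit 78) (nat_lit 0) (nat_lit 0) (XT.lf (nat_lit 0) (nat_lit 3921283935) (nat_lit 76) (nat_lit 17789258530) (nat_lit 152) (nat_lit 39049268128) (nat_lit 14) (nat_lit 5) (nat_lit 15) (nat_lit 5) (nat_lit 16) (nat_lit 4) (nat_lit 287) (nat_lit 266) (nat_lit 227)) (XT.lf (nat_lit 0) (nat_lit 47037056936) (nat_lit 152) (nat_lit 11764580104) (nat_lit 0) (nat_lit 8833505149) (nat_lit 14) (nat_lit 5) (nat_lit 16) (nat_lit 4) (nat_lit 14) (nat_lit 4) (nat_lit 288) (nat_lit 266) (nat_lit 226))))) (XT.nd (nat_lit 234) (nat_lit 304) (nat_lit 0) (XT.nd (nat_lit 78) (nat_lit 76) (nat_lit 0) (XT.lf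 (nat_lit 0) (nat_lit 2090903493) (nat_lit 152) (nat_lit 33873145254) (nat_lit 76) (nat_lit 39456448225) (nat_lit 12) (nat_lit 5) (nat_lit 14) (nat_lit 5) (nat_lit 13) (nat_lit 4) (nat_lit 289) (nat_lit 266) (nat_lit 225)) (XT.nd (nat_lit 78) (nat_lit 0) (nat_lit 0) (XT.lf (nat_lit 0) (nat_lit 19570717534) (nat_lit 76) (nat_lit 8222157088) (nat_lit 152) (nat_lit 56471648264) (nat_lit 11) (nat_lit 5) (nat_lit 12) (nat_lit 5) (nat_lit 13) (nat_lit 4) (nat_lit 290) (nat_lit 266) (nat_lit 224)) (XT.lf (nat_lit 0) (nat_lit 58905874845) (nat_lit 152) (nat_lit 11918010128) (nat_lit 0) (nat_lit 23486818409) (nat_lit 11) (nat_lit 5) (nat_lit 13) (nat_lit 4) (nat_lit 11) (nat_lit 4) (nat_lit 291) (nat_lit 266) (nat_lit 223)))) (XT.nd (nat_lit 156) (nat_lit 76) (nat_lit 0) (XT.nd (nat_lit 78) (nat_lit 152) (nat_lit 0) (XT.lf (nat_lit 0) (nat_lit 51058262906) (nat_lit 76) (nat_lit 45060666238) (nat_lit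 76) (nat_lit 9630241631) (nat_lit 10) (nat_lit 4) (nat_lit 11) (nat_lit 5) (nat_lit 11) (nat_lit 4) (nat_lit 292) (nat_lit 266) (nat_lit 222)) (XT.lf (nat_lit 0) (nat_lit 5049239838) (nat_lit 76) (nat_lit 14416889879) (nat_lit 152) (nat_lit 99362256471) (nat_lit 8) (nat_lit 5) (nat_lit 9) (nat_lit 5) (nat_lit 10) (nat_lit 4) (nat_lit 293) (nat_lit 266) (nat_lit 221))) (XT.nd (nat_lit 78) (nat_lit 76) (nat_lit 0) (XT.lf (nat_lit 0) (nat_lit 54487964202) (nat_lit 152) (nat_lit 57526113364) (nat_lit 0) (nat_lit 21664903141) (nat_lit 8) (nat_lit 5) (nat_lit 10) (nat_lit 4) (nat_lit 8) (nat_lit 4) (nat_lit 294) (nat_lit 266) (nat_lit 220)) (XT.lf (nat_lit 0) (nat_lit 7087808679) (nat_lit 76) (nat_lit 88227578862) (nat_lit 76) (nat_lit 55397596729) (nat_lit 7) (nat_lit 4) (nat_lit 8) (nat_lit 5) (nat_lit 8) (nat_lit 4) (nat_lit 295) (nat_lit 266) (nat_lit 219))))))) (XT.nd (nat_lit 1014) (nat_lit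 76) (nat_lit 0) (XT.nd (nat_lit 468) (nat_lit 152) (nat_lit 0) (XT.nd (nat_lit 234) (nat_lit 76) (nat_lit 0) (XT.nd (nat_lit 78) (nat_lit 152) (nat_lit 0) (XT.lf (nat_lit 0) (nat_lit 84847318521) (nat_lit 76) (nat_lit 59079011099) (nat_lit 76) (nat_lit 26243010643) (nat_lit 7) (nat_lit 4) (nat_lit 8) (nat_lit 5) (nat_lit 8) (nat_lit 4) (nat_lit 296) (nat_lit 266) (nat_lit 218)) (XT.nd (nat_lit 78) (nat_lit 76) (nat_lit 0) (XT.lf (nat_lit 0) (nat_lit 6906602247) (nat_lit 152) (nat_lit 18475501104) (nat_lit 76) (nat_lit 167149133695) (nat_lit 6) (nat_lit 5) (nat_lit 8) (nat_lit 5) (nat_lit 7) (nat_lit 4) (nat_lit 297) (nat_lit 266) (nat_lit 217)) (XT.lf (nat_lit 0) (nat_lit 45344484707) (nat_lit 152) (nat_lit 157767107910) (nat_lit 0) (nat_lit 14931721283) (nat_lit 5) (nat_lit 5) (nat_lit 7) (nat_lit 4) (nat_lit 5) (nat_lit 4) (nat_lit 298) (nat_lit 266) (nat_lit 216)))) (XT.nd (nat_lit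 78) (nat_lit 76) (nat_lit 0) (XT.lf (nat_lit 0) (nat_lit 90790758328) (nat_lit 152) (nat_lit 96117698994) (nat_lit 0) (nat_lit 60374330881) (nat_lit 5) (nat_lit 5) (nat_lit 7) (nat_lit 4) (nat_lit 5) (nat_lit 4) (nat_lit 299) (nat_lit 266) (nat_lit 215)) (XT.nd (nat_lit 78) (nat_lit 76) (nat_lit 0) (XT.lf (nat_lit 0) (nat_lit 143044265993) (nat_lit 152) (nat_lit 25240044063) (nat_lit 0) (nat_lit 112624652439) (nat_lit 5) (nat_lit 5) (nat_lit 7) (nat_lit 4) (nat_lit 5) (nat_lit 4) (nat_lit 300) (nat_lit 266) (nat_lit 214)) (XT.lf (nat_lit 0) (nat_lit 59214755501) (nat_lit 76) (nat_lit 145336719732) (nat_lit 76) (nat_lit 114914335650) (nat_lit 4) (nat_lit 4) (nat_lit 5) (nat_lit 5) (nat_lit 5) (nat_lit 4) (nat_lit 301) (nat_lit 266) (nat_lit 213))))) (XT.nd (nat_lit 234) (nat_lit 152) (nat_lit 0) (XT.nd (nat_lit 78) (nat_lit 0) (nat_lit 0) (XT.lf (nat_lit 0) (nat_lit 157850980544) (nat_lit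 76) (nat_lit 118160915276) (nat_lit 76) (nat_lit 87736122039) (nat_lit 4) (nat_lit 4) (nat_lit 5) (nat_lit 5) (nat_lit 5) (nat_lit 4) (nat_lit 302) (nat_lit 266) (nat_lit 212)) (XT.nd (nat_lit 78) (nat_lit 0) (nat_lit 0) (XT.lf (nat_lit 0) (nat_lit 271269374260) (nat_lit 76) (nat_lit 86915303699) (nat_lit 76) (nat_lit 56488415545) (nat_lit 4) (nat_lit 4) (nat_lit 5) (nat_lit 5) (nat_lit 5) (nat_lit 4) (nat_lit 303) (nat_lit 266) (nat_lit 211)) (XT.lf (nat_lit 0) (nat_lit 401688992177) (nat_lit 76) (nat_lit 50988557820) (nat_lit 76) (nat_lit 20559847999) (nat_lit 4) (nat_lit 4) (nat_lit 5) (nat_lit 5) (nat_lit 5) (nat_lit 4) (nat_lit 304) (nat_lit 266) (nat_lit 210)))) (XT.nd (nat_lit 156) (nat_lit 0) (nat_lit 0) (XT.nd (nat_lit 78) (nat_lit 0) (nat_lit 0) (XT.lf (nat_lit 0) (nat_lit 11132564906) (nat_lit 76) (nat_lit 8849578740) (nat_lit 152) (nat_lit 520543264051) (nat_lit 2) (nat_lit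 5) (nat_lit 3) (nat_lit 5) (nat_lit 4) (nat_lit 4) (nat_lit 305) (nat_lit 266) (nat_lit 209)) (XT.lf (nat_lit 0) (nat_lit 68507600442) (nat_lit 152) (nat_lit 508776607462) (nat_lit 0) (nat_lit 40330126996) (nat_lit 2) (nat_lit 5) (nat_lit 4) (nat_lit 4) (nat_lit 2) (nat_lit 4) (nat_lit 306) (nat_lit 266) (nat_lit 208))) (XT.nd (nat_lit 78) (nat_lit 0) (nat_lit 0) (XT.lf (nat_lit 0) (nat_lit 124552406029) (nat_lit 152) (nat_lit 485321129994) (nat_lit 0) (nat_lit 96373823531) (nat_lit 2) (nat_lit 5) (nat_lit 4) (nat_lit 4) (nat_lit 2) (nat_lit 4) (nat_lit 307) (nat_lit 266) (nat_lit 207)) (XT.lf (nat_lit 0) (nat_lit 189000256632) (nat_lit 152) (nat_lit 458354666293) (nat_lit 0) (nat_lit 160820709741) (nat_lit 2) (nat_lit 5) (nat_lit 4) (nat_lit 4) (nat_lit 2) (nat_lit 4) (nat_lit 308) (nat_lit 266) (nat_lit 206)))))) (XT.nd (nat_lit 468) (nat_lit 76) (nat_lit 0) (XT.nd (nat_lit 234) (nat_lit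 0) (nat_lit 0) (XT.nd (nat_lit 78) (nat_lit 0) (nat_lit 0) (XT.lf (nat_lit 0) (nat_lit 263112088457) (nat_lit 152) (nat_lit 427349611633) (nat_lit 0) (nat_lit 234931702964) (nat_lit 2) (nat_lit 5) (nat_lit 4) (nat_lit 4) (nat_lit 2) (nat_lit 4) (nat_lit 309) (nat_lit 266) (nat_lit 205)) (XT.nd (nat_lit 78) (nat_lit 0) (nat_lit 0) (XT.lf (nat_lit 0) (nat_lit 348337915605) (nat_lit 152) (nat_lit 391699345379) (nat_lit 0) (nat_lit 320156800893) (nat_lit 2) (nat_lit 5) (nat_lit 4) (nat_lit 4) (nat_lit 2) (nat_lit 4) (nat_lit 310) (nat_lit 266) (nat_lit 204)) (XT.lf (nat_lit 0) (nat_lit 446345199913) (nat_lit 152) (nat_lit 350706362323) (nat_lit 0) (nat_lit 418163451097) (nat_lit 2) (nat_lit 5) (nat_lit 4) (nat_lit 4) (nat_lit 2) (nat_lit 4) (nat_lit 311) (nat_lit 266) (nat_lit 203)))) (XT.nd (nat_lit 78) (nat_lit 0) (nat_lit 0) (XT.lf (nat_lit 0) (nat_lit 559051475203) (nat_lit 152) (nat_lit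 303568625839) (nat_lit 0) (nat_lit 530869174992) (nat_lit 2) (nat_lit 5) (nat_lit 4) (nat_lit 4) (nat_lit 2) (nat_lit 4) (nat_lit 312) (nat_lit 266) (nat_lit 202)) (XT.nd (nat_lit 78) (nat_lit 0) (nat_lit 0) (XT.lf (nat_lit 0) (nat_lit 688661864253) (nat_lit 152) (nat_lit 249363875866) (nat_lit 0) (nat_lit 660479084569) (nat_lit 2) (nat_lit 5) (nat_lit 4) (nat_lit 4) (nat_lit 2) (nat_lit 4) (nat_lit 313) (nat_lit 266) (nat_lit 201)) (XT.lf (nat_lit 0) (nat_lit 837712222501) (nat_lit 152) (nat_lit 187031584687) (nat_lit 0) (nat_lit 809529025883) (nat_lit 2) (nat_lit 5) (nat_lit 4) (nat_lit 4) (nat_lit 2) (nat_lit 4) (nat_lit 314) (nat_lit 266) (nat_lit 200))))) (XT.nd (nat_lit 234) (nat_lit 0) (nat_lit 0) (XT.nd (nat_lit 78) (nat_lit 76) (nat_lit 0) (XT.lf (nat_lit 0) (nat_lit 1009118752609) (nat_lit 152) (nat_lit 115352207474) (nat_lit 0) (nat_lit 980935193439) (nat_lit 2) (nat_lit 5)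 (nat_lit 4) (nat_lit 4) (nat_lit 2) (nat_lit 4) (nat_lit 315) (nat_lit 266) (nat_lit 199)) (XT.nd (nat_lit 78) (nat_lit 76) (nat_lit 0) (XT.lf (nat_lit 0) (nat_lit 1206235060599) (nat_lit 152) (nat_lit 32923321631) (nat_lit 0) (nat_lit 1178051186168) (nat_lit 2) (nat_lit 5) (nat_lit 4) (nat_lit 4) (nat_lit 2) (nat_lit 4) (nat_lit 316) (nat_lit 266) (nat_lit 198)) (XT.lf (nat_lit 0) (nat_lit 65125661251) (nat_lit 76) (nat_lit 1369358382358) (nat_lit 76) (nat_lit 1341174233786) (nat_lit 1) (nat_lit 4) (nat_lit 2) (nat_lit 5) (nat_lit 2) (nat_lit 4) (nat_lit 317) (nat_lit 266) (nat_lit 197)))) (XT.nd (nat_lit 156) (nat_lit 0) (nat_lit 0) (XT.nd (nat_lit 78) (nat_lit 0) (nat_lit 0) (XT.lf (nat_lit 0) (nat_lit 179873819228) (nat_lit 76) (nat_lit 1518054127416) (nat_lit 76) (nat_lit 1489869740461) (nat_lit 1) (nat_lit 4) (nat_lit 2) (nat_lit 5) (nat_lit 2) (nat_lit 4) (nat_lit 318) (nat_lit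 266) (nat_lit 196)) (XT.lf (nat_lit 0) (nat_lit 311832541185) (nat_lit 76) (nat_lit 1689055063941) (nat_lit 76) (nat_lit 1660870469697) (nat_lit 1) (nat_lit 4) (nat_lit 2) (nat_lit 5) (nat_lit 2) (nat_lit 4) (nat_lit 319) (nat_lit 266) (nat_lit 195))) (XT.nd (nat_lit 78) (nat_lit 0) (nat_lit 0) (XT.lf (nat_lit 0) (nat_lit 463583628203) (nat_lit 76) (nat_lit 1885706862430) (nat_lit 76) (nat_lit 1857522087934) (nat_lit 1) (nat_lit 4) (nat_lit 2) (nat_lit 5) (nat_lit 2) (nat_lit 4) (nat_lit 320) (nat_lit 266) (nat_lit 194)) (XT.lf (nat_lit 0) (nat_lit 638096123289) (nat_lit 76) (nat_lit 2111857058071) (nat_lit 76) (nat_lit 2083672126834) (nat_lit 1) (nat_lit 4) (nat_lit 2) (nat_lit 5) (nat_lit 2) (nat_lit 4) (nat_lit 321) (nat_lit 266) (nat_lit 193))))))))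
noncomputable def xc32 : XT := (XT.nd (nat_lit 37752) (nat_lit 0) (nat_lit 76) (XT.nd (nat_lit 36738) (nat_lit 0) (nat_lit 1444) (XT.nd (nat_lit 468) (nat_lit 0) (nat_lit 0) (XT.nd (nat_lit 234) (nat_lit 0) (nat_lit 0) (XT.nd (nat_lit 78) (nat_lit 0) (nat_lit 0) (XT.lf (nat_lit 0) (nat_lit 838784401347) (nat_lit 76) (nat_lit 2371930328604) (nat_lit 76) (nat_lit 2343745261071) (nat_lit 1) (nat_lit 4) (nat_lit 2) (nat_lit 5) (nat_lit 2) (nat_lit 4) (nat_lit 322) (nat_lit 266) (nat_lit 192)) (XT.nd (nat_lit 78) (nat_lit 0) (nat_lit 0) (XT.lf (nat_lit 0) (nat_lit 1069574972164) (nat_lit 76) (nat_lit 2671015064105) (nat_lit 76) (nat_lit 2642829878053) (nat_lit 1) (nat_lit 4) (nat_lit 2) (nat_lit 5) (nat_lit 2) (nat_lit 4) (nat_lit 323) (nat_lit 266) (nat_lit 191)) (XT.lf (nat_lit 0) (nat_lit 1334983303432) (nat_lit 76) (nat_lit 3014962922443) (nat_lit 76) (nat_lit 2986777633331) (nat_lit 1)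 (nat_lit 4) (nat_lit 2) (nat_lit 5) (nat_lit 2) (nat_lit 4) (nat_lit 324) (nat_lit 266) (nat_lit 190)))) (XT.nd (nat_lit 78) (nat_lit 0) (nat_lit 0) (XT.lf (nat_lit 0) (nat_lit 1640202166848) (nat_lit 76) (nat_lit 3410503318237) (nat_lit 76) (nat_lit 3382317939509) (nat_lit 1) (nat_lit 4) (nat_lit 2) (nat_lit 5) (nat_lit 2) (nat_lit 4) (nat_lit 325) (nat_lit 266) (nat_lit 189)) (XT.nd (nat_lit 78) (nat_lit 0) (nat_lit 0) (XT.lf (nat_lit 0) (nat_lit 1991203235827) (nat_lit 76) (nat_lit 3865375085318) (nat_lit 76) (nat_lit 3837189628662) (nat_lit 1) (nat_lit 4) (nat_lit 2) (nat_lit 5) (nat_lit 2) (nat_lit 4) (nat_lit 326) (nat_lit 266) (nat_lit 188)) (XT.lf (nat_lit 0) (nat_lit 2394853922588) (nat_lit 76) (nat_lit 4388477888694) (nat_lit 76) (nat_lit 4360292364275) (nat_lit 1) (nat_lit 4) (nat_lit 2) (nat_lit 5) (nat_lit 2) (nat_lit 4) (nat_lit 327) (nat_lit 266) (nat_lit 187))))) (XT.nd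 (nat_lit 36036) (nat_lit 0) (nat_lit 3800) (XT.nd (nat_lit 35880) (nat_lit 0) (nat_lit 4028) (XT.lf (nat_lit 0) (nat_lit 2859051740569) (nat_lit 76) (nat_lit 4990046348432) (nat_lit 76) (nat_lit 4961860765088) (nat_lit 1) (nat_lit 4) (nat_lit 2) (nat_lit 5) (nat_lit 2) (nat_lit 4) (nat_lit 328) (nat_lit 266) (nat_lit 186)) (XT.nd (nat_lit 78) (nat_lit 0) (nat_lit 76) (XT.lf (nat_lit 0) (nat_lit 1919430069) (nat_lit 532) (nat_lit 1842492709) (nat_lit 532) (nat_lit 1842492709) (nat_lit 54) (nat_lit 3) (nat_lit 61) (nat_lit 3) (nat_lit 61) (nat_lit 5) (nat_lit 267) (nat_lit 267) (nat_lit 246)) (XT.lf (nat_lit 0) (nat_lit 5247318895) (nat_lit 456) (nat_lit 5408597456) (nat_lit 532) (nat_lit 1302236043) (nat_lit 55) (nat_lit 5) (nat_lit 61) (nat_lit 5) (nat_lit 62) (nat_lit 5) (nat_lit 268) (nat_lit 267) (nat_lit 245)))) (XT.nd (nat_lit 78) (nat_lit 304) (nat_lit 0) (XT.lf (nat_lit 76) (nat_lit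 5695479095) (nat_lit 0) (nat_lit 1460759813) (nat_lit 532) (nat_lit 5640799945) (nat_lit 56) (nat_lit 5) (nat_lit 55) (nat_lit 5) (nat_lit 62) (nat_lit 5) (nat_lit 269) (nat_lit 267) (nat_lit 244)) (XT.nd (nat_lit 78) (nat_lit 380) (nat_lit 0) (XT.lf (nat_lit 76) (nat_lit 4954587177) (nat_lit 0) (nat_lit 4751205266) (nat_lit 532) (nat_lit 4027884996) (nat_lit 57) (nat_lit 5) (nat_lit 56) (nat_lit 5) (nat_lit 63) (nat_lit 5) (nat_lit 270) (nat_lit 267) (nat_lit 243)) (XT.lf (nat_lit 0) (nat_lit 4366865115) (nat_lit 456) (nat_lit 8645628748) (nat_lit 532) (nat_lit 1768569287) (nat_lit 51) (nat_lit 5) (nat_lit 57) (nat_lit 5) (nat_lit 58) (nat_lit 5) (nat_lit 271) (nat_lit 267) (nat_lit 242)))))) (XT.nd (nat_lit 468) (nat_lit 912) (nat_lit 0) (XT.nd (nat_lit 234) (nat_lit 608) (nat_lit 0) (XT.nd (nat_lit 78) (nat_lit 456) (nat_lit 0) (XT.lf (nat_lit 0) (nat_lit 1227918606) (nat_lit 380) (nat_lit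 12041556922) (nat_lit 76) (nat_lit 2679486792) (nat_lit 46) (nat_lit 5) (nat_lit 51) (nat_lit 5) (nat_lit 47) (nat_lit 5) (nat_lit 272) (nat_lit 267) (nat_lit 241)) (XT.nd (nat_lit 78) (nat_lit 228) (nat_lit 0) (XT.lf (nat_lit 0) (nat_lit 3508904565) (nat_lit 228) (nat_lit 1593294589) (nat_lit 304) (nat_lit 12143689178) (nat_lit 43) (nat_lit 5) (nat_lit 46) (nat_lit 5) (nat_lit 47) (nat_lit 5) (nat_lit 273) (nat_lit 267) (nat_lit 240)) (XT.lf (nat_lit 0) (nat_lit 3167710135) (nat_lit 228) (nat_lit 7016872875) (nat_lit 304) (nat_lit 8502752465) (nat_lit 40) (nat_lit 5) (nat_lit 43) (nat_lit 5) (nat_lit 44) (nat_lit 5) (nat_lit 274) (nat_lit 267) (nat_lit 239)))) (XT.nd (nat_lit 78) (nat_lit 456) (nat_lit 0) (XT.lf (nat_lit 0) (nat_lit 2959531306) (nat_lit 152) (nat_lit 13666215958) (nat_lit 228) (nat_lit 3671659581) (nat_lit 38) (nat_lit 5) (nat_lit 40) (nat_lit 5) (nat_lit 41) (nat_lit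 5) (nat_lit 275) (nat_lit 267) (nat_lit 238)) (XT.nd (nat_lit 78) (nat_lit 152) (nat_lit 0) (XT.lf (nat_lit 0) (nat_lit 2447286326) (nat_lit 304) (nat_lit 19276422196) (nat_lit 76) (nat_lit 369157660) (nat_lit 34) (nat_lit 5) (nat_lit 38) (nat_lit 5) (nat_lit 35) (nat_lit 5) (nat_lit 276) (nat_lit 267) (nat_lit 237)) (XT.lf (nat_lit 0) (nat_lit 2459151862) (nat_lit 152) (nat_lit 7698501903) (nat_lit 228) (nat_lit 13921167304) (nat_lit 32) (nat_lit 5) (nat_lit 34) (nat_lit 5) (nat_lit 35) (nat_lit 5) (nat_lit 277) (nat_lit 267) (nat_lit 236))))) (XT.nd (nat_lit 234) (nat_lit 380) (nat_lit 0) (XT.nd (nat_lit 78) (nat_lit 380) (nat_lit 0) (XT.lf (nat_lit 0) (nat_lit 2098216297) (nat_lit 152) (nat_lit 17691535324) (nat_lit 228) (nat_lit 6511777198) (nat_lit 30) (nat_lit 5) (nat_lit 32) (nat_lit 5) (nat_lit 33) (nat_lit 5) (nat_lit 278) (nat_lit 267) (nat_lit 235)) (XT.nd (nat_lit 78) (nat_lit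 152) (nat_lit 0) (XT.lf (nat_lit 0) (nat_lit 1588345891) (nat_lit 152) (nat_lit 1157949685) (nat_lit 228) (nat_lit 26040519215) (nat_lit 27) (nat_lit 5) (nat_lit 29) (nat_lit 5) (nat_lit 30) (nat_lit 5) (nat_lit 279) (nat_lit 267) (nat_lit 234)) (XT.lf (nat_lit 0) (nat_lit 434485911) (nat_lit 152) (nat_lit 13692758198) (nat_lit 228) (nat_lit 17414591373) (nat_lit 25) (nat_lit 5) (nat_lit 27) (nat_lit 5) (nat_lit 28) (nat_lit 5) (nat_lit 280) (nat_lit 267) (nat_lit 233)))) (XT.nd (nat_lit 156) (nat_lit 228) (nat_lit 0) (XT.nd (nat_lit 78) (nat_lit 152) (nat_lit 0) (XT.lf (nat_lit 0) (nat_lit 28127997447) (nat_lit 228) (nat_lit 1039079517) (nat_lit 76) (nat_lit 5470064153) (nat_lit 25) (nat_lit 5) (nat_lit 28) (nat_lit 5) (nat_lit 26) (nat_lit 4) (nat_lit 281) (nat_lit 267) (nat_lit 232)) (XT.lf (nat_lit 0) (nat_lit 6934113626) (nat_lit 152) (nat_lit 3446028277) (nat_lit 76) (nat_lit 27708731500)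 (nat_lit 23) (nat_lit 5) (nat_lit 25) (nat_lit 5) (nat_lit 24) (nat_lit 5) (nat_lit 282) (nat_lit 267) (nat_lit 231))) (XT.nd (nat_lit 78) (nat_lit 76) (nat_lit 0) (XT.lf (nat_lit 0) (nat_lit 23153609390) (nat_lit 228) (nat_lit 7076762774) (nat_lit 76) (nat_lit 11722886166) (nat_lit 21) (nat_lit 5) (nat_lit 24) (nat_lit 5) (nat_lit 22) (nat_lit 4) (nat_lit 283) (nat_lit 267) (nat_lit 230)) (XT.lf (nat_lit 0) (nat_lit 34120373716) (nat_lit 76) (nat_lit 8859330424) (nat_lit 152) (nat_lit 3323730184) (nat_lit 20) (nat_lit 5) (nat_lit 21) (nat_lit 5) (nat_lit 22) (nat_lit 4) (nat_lit 284) (nat_lit 267) (nat_lit 229))))))) (XT.nd (nat_lit 1014) (nat_lit 380) (nat_lit 0) (XT.nd (nat_lit 468) (nat_lit 380) (nat_lit 0) (XT.nd (nat_lit 234) (nat_lit 228) (nat_lit 0) (XT.nd (nat_lit 78) (nat_lit 228) (nat_lit 0) (XT.lf (nat_lit 0) (nat_lit 15103434643) (nat_lit 152) (nat_lit 19800768279) (nat_lit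 76) (nat_lit 16265797776) (nat_lit 18) (nat_lit 5) (nat_lit 20) (nat_lit 5) (nat_lit 19) (nat_lit 4) (nat_lit 285) (nat_lit 267) (nat_lit 228)) (XT.nd (nat_lit 78) (nat_lit 152) (nat_lit 0) (XT.lf (nat_lit 0) (nat_lit 26370036046) (nat_lit 76) (nat_lit 10944748699) (nat_lit 152) (nat_lit 19347526946) (nat_lit 17) (nat_lit 5) (nat_lit 18) (nat_lit 5) (nat_lit 19) (nat_lit 4) (nat_lit 286) (nat_lit 267) (nat_lit 227)) (XT.lf (nat_lit 0) (nat_lit 1320208342) (nat_lit 152) (nat_lit 44725969503) (nat_lit 76) (nat_lit 16817754509) (nat_lit 15) (nat_lit 5) (nat_lit 17) (nat_lit 5) (nat_lit 16) (nat_lit 4) (nat_lit 287) (nat_lit 267) (nat_lit 226)))) (XT.nd (nat_lit 78) (nat_lit 152) (nat_lit 0) (XT.lf (nat_lit 0) (nat_lit 5084790465) (nat_lit 76) (nat_lit 20192594089) (nat_lit 152) (nat_lit 44571432681) (nat_lit 14) (nat_lit 5) (nat_lit 15) (nat_lit 5) (nat_lit 16) (nat_lit 4) (nat_lit 288) (nat_lit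 267) (nat_lit 225)) (XT.nd (nat_lit 78) (nat_lit 152) (nat_lit 0) (XT.lf (nat_lit 0) (nat_lit 54367950480) (nat_lit 152) (nat_lit 13012828553) (nat_lit 0) (nat_lit 10377482387) (nat_lit 14) (nat_lit 5) (nat_lit 16) (nat_lit 4) (nat_lit 14) (nat_lit 4) (nat_lit 289) (nat_lit 267) (nat_lit 224)) (XT.lf (nat_lit 0) (nat_lit 2661947347) (nat_lit 152) (nat_lit 38467736878) (nat_lit 76) (nat_lit 45583193743) (nat_lit 12) (nat_lit 5) (nat_lit 14) (nat_lit 5) (nat_lit 13) (nat_lit 4) (nat_lit 290) (nat_lit 267) (nat_lit 223))))) (XT.nd (nat_lit 234) (nat_lit 228) (nat_lit 0) (XT.nd (nat_lit 78) (nat_lit 76) (nat_lit 0) (XT.lf (nat_lit 0) (nat_lit 22951535669) (nat_lit 76) (nat_lit 9244810800) (nat_lit 152) (nat_lit 64689003873) (nat_lit 11) (nat_lit 5) (nat_lit 12) (nat_lit 5) (nat_lit 13) (nat_lit 4) (nat_lit 291) (nat_lit 267) (nat_lit 222)) (XT.nd (nat_lit 78) (nat_lit 76) (nat_lit 0) (XT.lf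 (nat_lit 0) (nat_lit 67950110218) (nat_lit 152) (nat_lit 13306585676) (nat_lit 0) (nat_lit 27183868381) (nat_lit 11) (nat_lit 5) (nat_lit 13) (nat_lit 4) (nat_lit 11) (nat_lit 4) (nat_lit 292) (nat_lit 267) (nat_lit 221)) (XT.lf (nat_lit 0) (nat_lit 59082344288) (nat_lit 76) (nat_lit 51644388230) (nat_lit 76) (nat_lit 10869550422) (nat_lit 10) (nat_lit 4) (nat_lit 11) (nat_lit 5) (nat_lit 11) (nat_lit 4) (nat_lit 293) (nat_lit 267) (nat_lit 220)))) (XT.nd (nat_lit 156) (nat_lit 76) (nat_lit 0) (XT.nd (nat_lit 78) (nat_lit 0) (nat_lit 0) (XT.lf (nat_lit 0) (nat_lit 6150496920) (nat_lit 76) (nat_lit 16413353794) (nat_lit 152) (nat_lit 114074515871) (nat_lit 8) (nat_lit 5) (nat_lit 9) (nat_lit 5) (nat_lit 10) (nat_lit 4) (nat_lit 294) (nat_lit 267) (nat_lit 219)) (XT.lf (nat_lit 0) (nat_lit 62819241890) (nat_lit 152) (nat_lit 65847069795) (nat_lit 0) (nat_lit 25051823042) (nat_lit 8) (nat_lit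 5) (nat_lit 10) (nat_lit 4) (nat_lit 8) (nat_lit 4) (nat_lit 295) (nat_lit 267) (nat_lit 218))) (XT.nd (nat_lit 78) (nat_lit 0) (nat_lit 0) (XT.lf (nat_lit 0) (nat_lit 8432873226) (nat_lit 76) (nat_lit 101324065514) (nat_lit 76) (nat_lit 63551413342) (nat_lit 7) (nat_lit 4) (nat_lit 8) (nat_lit 5) (nat_lit 8) (nat_lit 4) (nat_lit 296) (nat_lit 267) (nat_lit 217)) (XT.lf (nat_lit 0) (nat_lit 97819540860) (nat_lit 76) (nat_lit 67821166957) (nat_lit 76) (nat_lit 30043964068) (nat_lit 7) (nat_lit 4) (nat_lit 8) (nat_lit 5) (nat_lit 8) (nat_lit 4) (nat_lit 297) (nat_lit 267) (nat_lit 216)))))) (XT.nd (nat_lit 468) (nat_lit 152) (nat_lit 0) (XT.nd (nat_lit 234) (nat_lit 76) (nat_lit 0) (XT.nd (nat_lit 78) (nat_lit 76) (nat_lit 0) (XT.lf (nat_lit 0) (nat_lit 8054523023) (nat_lit 152) (nat_lit 21027752145) (nat_lit 76) (nat_lit 192319664727) (nat_lit 6) (nat_lit 5) (nat_lit 8) (nat_lit 5) (nat_lit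 7) (nat_lit 4) (nat_lit 298) (nat_lit 267) (nat_lit 215)) (XT.nd (nat_lit 78) (nat_lit 0) (nat_lit 0) (XT.lf (nat_lit 0) (nat_lit 52250676963) (nat_lit 152) (nat_lit 181225812602) (nat_lit 0) (nat_lit 17264935269) (nat_lit 5) (nat_lit 5) (nat_lit 7) (nat_lit 4) (nat_lit 5) (nat_lit 4) (nat_lit 299) (nat_lit 267) (nat_lit 214)) (XT.lf (nat_lit 0) (nat_lit 104500258643) (nat_lit 152) (nat_lit 110355909065) (nat_lit 0) (nat_lit 69511746421) (nat_lit 5) (nat_lit 5) (nat_lit 7) (nat_lit 4) (nat_lit 5) (nat_lit 4) (nat_lit 300) (nat_lit 267) (nat_lit 213)))) (XT.nd (nat_lit 78) (nat_lit 76) (nat_lit 0) (XT.lf (nat_lit 0) (nat_lit 164579937689) (nat_lit 152) (nat_lit 28870011735) (nat_lit 0) (nat_lit 129589016312) (nat_lit 5) (nat_lit 5) (nat_lit 7) (nat_lit 4) (nat_lit 5) (nat_lit 4) (nat_lit 301) (nat_lit 267) (nat_lit 212)) (XT.nd (nat_lit 78) (nat_lit 0) (nat_lit 0) (XT.lf (nat_lit 0) (nat_lit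 68239799845) (nat_lit 76) (nat_lit 167066555064) (nat_lit 76) (nat_lit 132073538769) (nat_lit 4) (nat_lit 4) (nat_lit 5) (nat_lit 5) (nat_lit 5) (nat_lit 4) (nat_lit 302) (nat_lit 267) (nat_lit 211)) (XT.lf (nat_lit 0) (nat_lit 181652828511) (nat_lit 76) (nat_lit 135823598108) (nat_lit 76) (nat_lit 100828760146) (nat_lit 4) (nat_lit 4) (nat_lit 5) (nat_lit 5) (nat_lit 5) (nat_lit 4) (nat_lit 303) (nat_lit 267) (nat_lit 210))))) (XT.nd (nat_lit 234) (nat_lit 0) (nat_lit 0) (XT.nd (nat_lit 78) (nat_lit 152) (nat_lit 0) (XT.lf (nat_lit 0) (nat_lit 312067781169) (nat_lit 76) (nat_lit 99899160595) (nat_lit 76) (nat_lit 64902738574) (nat_lit 4) (nat_lit 4) (nat_lit 5) (nat_lit 5) (nat_lit 5) (nat_lit 4) (nat_lit 304) (nat_lit 267) (nat_lit 209)) (XT.nd (nat_lit 78) (nat_lit 152) (nat_lit 0) (XT.lf (nat_lit 0) (nat_lit 462036254717) (nat_lit 76) (nat_lit 58590373094) (nat_lit 76) (nat_lit 23592573631)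 (nat_lit 4) (nat_lit 4) (nat_lit 5) (nat_lit 5) (nat_lit 5) (nat_lit 4) (nat_lit 305) (nat_lit 267) (nat_lit 208)) (XT.lf (nat_lit 0) (nat_lit 12890769833) (nat_lit 76) (nat_lit 10133156643) (nat_lit 152) (nat_lit 598576726916) (nat_lit 2) (nat_lit 5) (nat_lit 3) (nat_lit 5) (nat_lit 4) (nat_lit 4) (nat_lit 306) (nat_lit 267) (nat_lit 207)))) (XT.nd (nat_lit 156) (nat_lit 0) (nat_lit 0) (XT.nd (nat_lit 78) (nat_lit 0) (nat_lit 0) (XT.lf (nat_lit 0) (nat_lit 78823319718) (nat_lit 152) (nat_lit 585014115238) (nat_lit 0) (nat_lit 46415876401) (nat_lit 2) (nat_lit 5) (nat_lit 4) (nat_lit 4) (nat_lit 2) (nat_lit 4) (nat_lit 307) (nat_lit 267) (nat_lit 206)) (XT.lf (nat_lit 0) (nat_lit 143269683637) (nat_lit 152) (nat_lit 558050618326) (nat_lit 0) (nat_lit 110861401718) (nat_lit 2) (nat_lit 5) (nat_lit 4) (nat_lit 4) (nat_lit 2) (nat_lit 4) (nat_lit 308) (nat_lit 267) (nat_lit 205))) (XT.nd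 (nat_lit 78) (nat_lit 0) (nat_lit 0) (XT.lf (nat_lit 0) (nat_lit 217380222695) (nat_lit 152) (nat_lit 527048143482) (nat_lit 0) (nat_lit 184971211556) (nat_lit 2) (nat_lit 5) (nat_lit 4) (nat_lit 4) (nat_lit 2) (nat_lit 4) (nat_lit 309) (nat_lit 267) (nat_lit 204)) (XT.lf (nat_lit 0) (nat_lit 302604925698) (nat_lit 152) (nat_lit 491400120548) (nat_lit 0) (nat_lit 270195280455) (nat_lit 2) (nat_lit 5) (nat_lit 4) (nat_lit 4) (nat_lit 2) (nat_lit 4) (nat_lit 310) (nat_lit 267) (nat_lit 203))))))))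
noncomputable def xc33 : XT := (XT.nd (nat_lit 37986) (nat_lit 0) (nat_lit 304) (XT.nd (nat_lit 1014) (nat_lit 0) (nat_lit 0) (XT.nd (nat_lit 468) (nat_lit 76) (nat_lit 0) (XT.nd (nat_lit 234) (nat_lit 0) (nat_lit 0) (XT.nd (nat_lit 78) (nat_lit 0) (nat_lit 0) (XT.lf (nat_lit 0) (nat_lit 400611232487) (nat_lit 152) (nat_lit 450409088204) (nat_lit 0) (nat_lit 368201035850) (nat_lit 2) (nat_lit 5) (nat_lit 4) (nat_lit 4) (nat_lit 2) (nat_lit 4) (nat_lit 311) (nat_lit 267) (nat_lit 202)) (XT.nd (nat_lit 78) (nat_lit 0) (nat_lit 0) (XT.lf (nat_lit 0) (nat_lit 513316657762) (nat_lit 152) (nat_lit 403273047991) (nat_lit 0) (nat_lit 480905981651) (nat_lit 2) (nat_lit 5) (nat_lit 4) (nat_lit 4) (nat_lit 2) (nat_lit 4) (nat_lit 312) (nat_lit 267) (nat_lit 201)) (XT.lf (nat_lit 0) (nat_lit 642926307668) (nat_lit 152) (nat_lit 349069773037) (nat_lit 0) (nat_lit 610515214623) (nat_lit 2) (nat_lit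 5) (nat_lit 4) (nat_lit 4) (nat_lit 2) (nat_lit 4) (nat_lit 313) (nat_lit 267) (nat_lit 200)))) (XT.nd (nat_lit 78) (nat_lit 0) (nat_lit 0) (XT.lf (nat_lit 0) (nat_lit 791976023182) (nat_lit 152) (nat_lit 286738764482) (nat_lit 0) (nat_lit 759564567587) (nat_lit 2) (nat_lit 5) (nat_lit 4) (nat_lit 4) (nat_lit 2) (nat_lit 4) (nat_lit 314) (nat_lit 267) (nat_lit 199)) (XT.nd (nat_lit 78) (nat_lit 0) (nat_lit 0) (XT.lf (nat_lit 0) (nat_lit 963381994390) (nat_lit 152) (nat_lit 215060502596) (nat_lit 0) (nat_lit 930970223533) (nat_lit 2) (nat_lit 5) (nat_lit 4) (nat_lit 4) (nat_lit 2) (nat_lit 4) (nat_lit 315) (nat_lit 267) (nat_lit 198)) (XT.lf (nat_lit 0) (nat_lit 1160497816381) (nat_lit 152) (nat_lit 132632586600) (nat_lit 0) (nat_lit 1128085771384) (nat_lit 2) (nat_lit 5) (nat_lit 4) (nat_lit 4) (nat_lit 2) (nat_lit 4) (nat_lit 316) (nat_lit 267) (nat_lit 197))))) (XT.nd (nat_lit 234) (nat_lit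 0) (nat_lit 0) (XT.nd (nat_lit 78) (nat_lit 76) (nat_lit 0) (XT.lf (nat_lit 0) (nat_lit 1387180103064) (nat_lit 152) (nat_lit 37842296401) (nat_lit 0) (nat_lit 1354767819683) (nat_lit 2) (nat_lit 5) (nat_lit 4) (nat_lit 4) (nat_lit 2) (nat_lit 4) (nat_lit 317) (nat_lit 267) (nat_lit 196)) (XT.nd (nat_lit 78) (nat_lit 0) (nat_lit 0) (XT.lf (nat_lit 0) (nat_lit 74912381348) (nat_lit 76) (nat_lit 1574753205880) (nat_lit 76) (nat_lit 1542340715210) (nat_lit 1) (nat_lit 4) (nat_lit 2) (nat_lit 5) (nat_lit 2) (nat_lit 4) (nat_lit 318) (nat_lit 267) (nat_lit 195)) (XT.lf (nat_lit 0) (nat_lit 206870432034) (nat_lit 76) (nat_lit 1745754477980) (nat_lit 76) (nat_lit 1713341807057) (nat_lit 1) (nat_lit 4) (nat_lit 2) (nat_lit 5) (nat_lit 2) (nat_lit 4) (nat_lit 319) (nat_lit 267) (nat_lit 194)))) (XT.nd (nat_lit 156) (nat_lit 0) (nat_lit 0) (XT.nd (nat_lit 78) (nat_lit 0) (nat_lit 0) (XT.lf (nat_lit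 0) (nat_lit 358620935338) (nat_lit 76) (nat_lit 1942406568273) (nat_lit 76) (nat_lit 1909993740609) (nat_lit 1) (nat_lit 4) (nat_lit 2) (nat_lit 5) (nat_lit 2) (nat_lit 4) (nat_lit 320) (nat_lit 267) (nat_lit 193)) (XT.lf (nat_lit 0) (nat_lit 533132922847) (nat_lit 76) (nat_lit 2168557017656) (nat_lit 76) (nat_lit 2136144053696) (nat_lit 1) (nat_lit 4) (nat_lit 2) (nat_lit 5) (nat_lit 2) (nat_lit 4) (nat_lit 321) (nat_lit 267) (nat_lit 192))) (XT.nd (nat_lit 78) (nat_lit 0) (nat_lit 0) (XT.lf (nat_lit 0) (nat_lit 733820759533) (nat_lit 76) (nat_lit 2428630508835) (nat_lit 76) (nat_lit 2396217426356) (nat_lit 1) (nat_lit 4) (nat_lit 2) (nat_lit 5) (nat_lit 2) (nat_lit 4) (nat_lit 322) (nat_lit 267) (nat_lit 191)) (XT.lf (nat_lit 0) (nat_lit 964610946549) (nat_lit 76) (nat_lit 2727715436202) (nat_lit 76) (nat_lit 2695302250664) (nat_lit 1) (nat_lit 4) (nat_lit 2) (nat_lit 5) (nat_lit 2)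 (nat_lit 4) (nat_lit 323) (nat_lit 267) (nat_lit 190)))))) (XT.nd (nat_lit 36426) (nat_lit 0) (nat_lit 2812) (XT.nd (nat_lit 234) (nat_lit 0) (nat_lit 0) (XT.nd (nat_lit 78) (nat_lit 0) (nat_lit 0) (XT.lf (nat_lit 0) (nat_lit 1230018944076) (nat_lit 76) (nat_lit 3071663461379) (nat_lit 76) (nat_lit 3039250186224) (nat_lit 1) (nat_lit 4) (nat_lit 2) (nat_lit 5) (nat_lit 2) (nat_lit 4) (nat_lit 324) (nat_lit 267) (nat_lit 189)) (XT.nd (nat_lit 78) (nat_lit 0) (nat_lit 0) (XT.lf (nat_lit 0) (nat_lit 1535237517283) (nat_lit 76) (nat_lit 3467204002251) (nat_lit 76) (nat_lit 3434790649169) (nat_lit 1) (nat_lit 4) (nat_lit 2) (nat_lit 5) (nat_lit 2) (nat_lit 4) (nat_lit 325) (nat_lit 267) (nat_lit 188)) (XT.lf (nat_lit 0) (nat_lit 1886238333907) (nat_lit 76) (nat_lit 3922075895487) (nat_lit 76) (nat_lit 3889662474641) (nat_lit 1) (nat_lit 4) (nat_lit 2) (nat_lit 5) (nat_lit 2) (nat_lit 4) (nat_lit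 326) (nat_lit 267) (nat_lit 187)))) (XT.nd (nat_lit 36036) (nat_lit 0) (nat_lit 4028) (XT.lf (nat_lit 0) (nat_lit 2289888801229) (nat_lit 76) (nat_lit 4445178808564) (nat_lit 76) (nat_lit 4412765328793) (nat_lit 1) (nat_lit 4) (nat_lit 2) (nat_lit 5) (nat_lit 2) (nat_lit 4) (nat_lit 327) (nat_lit 267) (nat_lit 186)) (XT.nd (nat_lit 78) (nat_lit 0) (nat_lit 76) (XT.lf (nat_lit 0) (nat_lit 3098071245) (nat_lit 532) (nat_lit 1637060676) (nat_lit 532) (nat_lit 1637060676) (nat_lit 54) (nat_lit 3) (nat_lit 61) (nat_lit 3) (nat_lit 61) (nat_lit 5) (nat_lit 268) (nat_lit 268) (nat_lit 244)) (XT.lf (nat_lit 0) (nat_lit 7588167254) (nat_lit 456) (nat_lit 5192833609) (nat_lit 532) (nat_lit 843744642) (nat_lit 55) (nat_lit 5) (nat_lit 61) (nat_lit 5) (nat_lit 62) (nat_lit 5) (nat_lit 269) (nat_lit 268) (nat_lit 243))))) (XT.nd (nat_lit 234) (nat_lit 988) (nat_lit 0) (XT.nd (nat_lit 78) (nat_lit 304)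 (nat_lit 0) (XT.lf (nat_lit 76) (nat_lit 7489919463) (nat_lit 0) (nat_lit 2113452566) (nat_lit 532) (nat_lit 5000866254) (nat_lit 56) (nat_lit 5) (nat_lit 55) (nat_lit 5) (nat_lit 62) (nat_lit 5) (nat_lit 270) (nat_lit 268) (nat_lit 242)) (XT.nd (nat_lit 78) (nat_lit 380) (nat_lit 0) (XT.lf (nat_lit 76) (nat_lit 6670708334) (nat_lit 0) (nat_lit 5699803958) (nat_lit 532) (nat_lit 3324369021) (nat_lit 57) (nat_lit 5) (nat_lit 56) (nat_lit 5) (nat_lit 63) (nat_lit 5) (nat_lit 271) (nat_lit 268) (nat_lit 241)) (XT.lf (nat_lit 0) (nat_lit 6008148366) (nat_lit 456) (nat_lit 10026179996) (nat_lit 532) (nat_lit 876436849) (nat_lit 51) (nat_lit 5) (nat_lit 57) (nat_lit 5) (nat_lit 58) (nat_lit 5) (nat_lit 272) (nat_lit 268) (nat_lit 240)))) (XT.nd (nat_lit 156) (nat_lit 380) (nat_lit 0) (XT.nd (nat_lit 78) (nat_lit 228) (nat_lit 0) (XT.lf (nat_lit 0) (nat_lit 2390710349) (nat_lit 380) (nat_lit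 12810091494) (nat_lit 76) (nat_lit 3060718459) (nat_lit 46) (nat_lit 5) (nat_lit 51) (nat_lit 5) (nat_lit 47) (nat_lit 5) (nat_lit 273) (nat_lit 268) (nat_lit 239)) (XT.lf (nat_lit 0) (nat_lit 4985103167) (nat_lit 228) (nat_lit 1756230045) (nat_lit 304) (nat_lit 13020231383) (nat_lit 43) (nat_lit 5) (nat_lit 46) (nat_lit 5) (nat_lit 47) (nat_lit 5) (nat_lit 274) (nat_lit 268) (nat_lit 238))) (XT.nd (nat_lit 78) (nat_lit 152) (nat_lit 0) (XT.lf (nat_lit 0) (nat_lit 4575833696) (nat_lit 228) (nat_lit 7920294992) (nat_lit 304) (nat_lit 8930465709) (nat_lit 40) (nat_lit 5) (nat_lit 43) (nat_lit 5) (nat_lit 44) (nat_lit 5) (nat_lit 275) (nat_lit 268) (nat_lit 237)) (XT.lf (nat_lit 0) (nat_lit 4312612046) (nat_lit 152) (nat_lit 15513596584) (nat_lit 228) (nat_lit 3458296308) (nat_lit 38) (nat_lit 5) (nat_lit 40) (nat_lit 5) (nat_lit 41) (nat_lit 5) (nat_lit 276) (nat_lit 268) (nat_lit 236)))))))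 (XT.nd (nat_lit 1014) (nat_lit 684) (nat_lit 0) (XT.nd (nat_lit 468) (nat_lit 836) (nat_lit 0) (XT.nd (nat_lit 234) (nat_lit 380) (nat_lit 0) (XT.nd (nat_lit 78) (nat_lit 304) (nat_lit 0) (XT.lf (nat_lit 0) (nat_lit 3471655581) (nat_lit 304) (nat_lit 21252099801) (nat_lit 76) (nat_lit 629665552) (nat_lit 34) (nat_lit 5) (nat_lit 38) (nat_lit 5) (nat_lit 35) (nat_lit 5) (nat_lit 277) (nat_lit 268) (nat_lit 235)) (XT.nd (nat_lit 78) (nat_lit 152) (nat_lit 0) (XT.lf (nat_lit 0) (nat_lit 3666293664) (nat_lit 152) (nat_lit 8606713169) (nat_lit 228) (nat_lit 15369611369) (nat_lit 32) (nat_lit 5) (nat_lit 34) (nat_lit 5) (nat_lit 35) (nat_lit 5) (nat_lit 278) (nat_lit 268) (nat_lit 234)) (XT.lf (nat_lit 0) (nat_lit 3218795392) (nat_lit 152) (nat_lit 20078482103) (nat_lit 228) (nat_lit 6905755921) (nat_lit 30) (nat_lit 5) (nat_lit 32) (nat_lit 5) (nat_lit 33) (nat_lit 5) (nat_lit 279) (nat_lit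 268) (nat_lit 233)))) (XT.nd (nat_lit 78) (nat_lit 152) (nat_lit 0) (XT.lf (nat_lit 0) (nat_lit 2591427492) (nat_lit 152) (nat_lit 1066627851) (nat_lit 228) (nat_lit 29406313601) (nat_lit 27) (nat_lit 5) (nat_lit 29) (nat_lit 5) (nat_lit 30) (nat_lit 5) (nat_lit 280) (nat_lit 268) (nat_lit 232)) (XT.nd (nat_lit 78) (nat_lit 0) (nat_lit 0) (XT.lf (nat_lit 0) (nat_lit 1230958027) (nat_lit 152) (nat_lit 15473124837) (nat_lit 228) (nat_lit 19531987917) (nat_lit 25) (nat_lit 5) (nat_lit 27) (nat_lit 5) (nat_lit 28) (nat_lit 5) (nat_lit 281) (nat_lit 268) (nat_lit 231)) (XT.lf (nat_lit 0) (nat_lit 32750963111) (nat_lit 228) (nat_lit 532541063) (nat_lit 76) (nat_lit 6516541739) (nat_lit 25) (nat_lit 5) (nat_lit 28) (nat_lit 5) (nat_lit 26) (nat_lit 4) (nat_lit 282) (nat_lit 268) (nat_lit 230))))) (XT.nd (nat_lit 234) (nat_lit 456) (nat_lit 0) (XT.nd (nat_lit 78) (nat_lit 228) (nat_lit 0) (XT.lf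 (nat_lit 0) (nat_lit 8349713719) (nat_lit 152) (nat_lit 3336534807) (nat_lit 76) (nat_lit 32085623293) (nat_lit 23) (nat_lit 5) (nat_lit 25) (nat_lit 5) (nat_lit 24) (nat_lit 5) (nat_lit 283) (nat_lit 268) (nat_lit 229)) (XT.nd (nat_lit 78) (nat_lit 76) (nat_lit 0) (XT.lf (nat_lit 0) (nat_lit 26972553079) (nat_lit 228) (nat_lit 7543027146) (nat_lit 76) (nat_lit 13702739061) (nat_lit 21) (nat_lit 5) (nat_lit 24) (nat_lit 5) (nat_lit 22) (nat_lit 4) (nat_lit 284) (nat_lit 268) (nat_lit 228)) (XT.lf (nat_lit 0) (nat_lit 39783294867) (nat_lit 76) (nat_lit 9957253506) (nat_lit 152) (nat_lit 3483067742) (nat_lit 20) (nat_lit 5) (nat_lit 21) (nat_lit 5) (nat_lit 22) (nat_lit 4) (nat_lit 285) (nat_lit 268) (nat_lit 227)))) (XT.nd (nat_lit 156) (nat_lit 228) (nat_lit 0) (XT.nd (nat_lit 78) (nat_lit 76) (nat_lit 0) (XT.lf (nat_lit 0) (nat_lit 17666878581) (nat_lit 152) (nat_lit 22238166954) (nat_lit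 76) (nat_lit 18916442007) (nat_lit 18) (nat_lit 5) (nat_lit 20) (nat_lit 5) (nat_lit 19) (nat_lit 4) (nat_lit 286) (nat_lit 268) (nat_lit 226)) (XT.lf (nat_lit 0) (nat_lit 30813166215) (nat_lit 76) (nat_lit 12369632100) (nat_lit 152) (nat_lit 21957040843) (nat_lit 17) (nat_lit 5) (nat_lit 18) (nat_lit 5) (nat_lit 19) (nat_lit 4) (nat_lit 287) (nat_lit 268) (nat_lit 225))) (XT.nd (nat_lit 78) (nat_lit 76) (nat_lit 0) (XT.lf (nat_lit 0) (nat_lit 1775999944) (nat_lit 152) (nat_lit 50959617619) (nat_lit 76) (nat_lit 19537158519) (nat_lit 15) (nat_lit 5) (nat_lit 17) (nat_lit 5) (nat_lit 16) (nat_lit 4) (nat_lit 288) (nat_lit 268) (nat_lit 224)) (XT.lf (nat_lit 0) (nat_lit 6282529026) (nat_lit 76) (nat_lit 23021064887) (nat_lit 152) (nat_lit 51003668818) (nat_lit 14) (nat_lit 5) (nat_lit 15) (nat_lit 5) (nat_lit 16) (nat_lit 4) (nat_lit 289) (nat_lit 268) (nat_lit 223)))))) (XT.nd (nat_lit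 468) (nat_lit 228) (nat_lit 0) (XT.nd (nat_lit 234) (nat_lit 228) (nat_lit 0) (XT.nd (nat_lit 78) (nat_lit 228) (nat_lit 0) (XT.lf (nat_lit 0) (nat_lit 62731335872) (nat_lit 152) (nat_lit 14574251085) (nat_lit 0) (nat_lit 12099663510) (nat_lit 14) (nat_lit 5) (nat_lit 16) (nat_lit 4) (nat_lit 14) (nat_lit 4) (nat_lit 290) (nat_lit 268) (nat_lit 222)) (XT.nd (nat_lit 78) (nat_lit 76) (nat_lit 0) (XT.lf (nat_lit 0) (nat_lit 3255877128) (nat_lit 152) (nat_lit 43870124130) (nat_lit 76) (nat_lit 52578161110) (nat_lit 12) (nat_lit 5) (nat_lit 14) (nat_lit 5) (nat_lit 13) (nat_lit 4) (nat_lit 291) (nat_lit 268) (nat_lit 221)) (XT.lf (nat_lit 0) (nat_lit 26730909124) (nat_lit 76) (nat_lit 10472235746) (nat_lit 152) (nat_lit 74200753977) (nat_lit 11) (nat_lit 5) (nat_lit 12) (nat_lit 5) (nat_lit 13) (nat_lit 4) (nat_lit 292) (nat_lit 268) (nat_lit 220)))) (XT.nd (nat_lit 78) (nat_lit 228) (nat_lit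 0) (XT.lf (nat_lit 0) (nat_lit 78300172420) (nat_lit 152) (nat_lit 15000776952) (nat_lit 0) (nat_lit 31393038211) (nat_lit 11) (nat_lit 5) (nat_lit 13) (nat_lit 4) (nat_lit 11) (nat_lit 4) (nat_lit 293) (nat_lit 268) (nat_lit 219)) (XT.nd (nat_lit 78) (nat_lit 152) (nat_lit 0) (XT.lf (nat_lit 0) (nat_lit 68220946930) (nat_lit 76) (nat_lit 59258435543) (nat_lit 76) (nat_lit 12344801545) (nat_lit 10) (nat_lit 4) (nat_lit 11) (nat_lit 5) (nat_lit 11) (nat_lit 4) (nat_lit 294) (nat_lit 268) (nat_lit 218)) (XT.lf (nat_lit 0) (nat_lit 7333087418) (nat_lit 76) (nat_lit 18749784411) (nat_lit 152) (nat_lit 131040453880) (nat_lit 8) (nat_lit 5) (nat_lit 9) (nat_lit 5) (nat_lit 10) (nat_lit 4) (nat_lit 295) (nat_lit 268) (nat_lit 217))))) (XT.nd (nat_lit 234) (nat_lit 152) (nat_lit 0) (XT.nd (nat_lit 78) (nat_lit 76) (nat_lit 0) (XT.lf (nat_lit 0) (nat_lit 72361661676) (nat_lit 152) (nat_lit 75491267827)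 (nat_lit 0) (nat_lit 28913327637) (nat_lit 8) (nat_lit 5) (nat_lit 10) (nat_lit 4) (nat_lit 8) (nat_lit 4) (nat_lit 296) (nat_lit 268) (nat_lit 216)) (XT.nd (nat_lit 78) (nat_lit 0) (nat_lit 0) (XT.lf (nat_lit 0) (nat_lit 9910956002) (nat_lit 76) (nat_lit 116418592031) (nat_lit 76) (nat_lit 72966300846) (nat_lit 7) (nat_lit 4) (nat_lit 8) (nat_lit 5) (nat_lit 8) (nat_lit 4) (nat_lit 297) (nat_lit 268) (nat_lit 215)) (XT.lf (nat_lit 0) (nat_lit 112677821373) (nat_lit 76) (nat_lit 77903834775) (nat_lit 76) (nat_lit 34448102594) (nat_lit 7) (nat_lit 4) (nat_lit 8) (nat_lit 5) (nat_lit 8) (nat_lit 4) (nat_lit 298) (nat_lit 268) (nat_lit 214)))) (XT.nd (nat_lit 156) (nat_lit 0) (nat_lit 0) (XT.nd (nat_lit 78) (nat_lit 76) (nat_lit 0) (XT.lf (nat_lit 0) (nat_lit 9347336969) (nat_lit 152) (nat_lit 24016263455) (nat_lit 76) (nat_lit 221241838237) (nat_lit 6) (nat_lit 5) (nat_lit 8) (nat_lit 5)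 (nat_lit 7) (nat_lit 4) (nat_lit 299) (nat_lit 268) (nat_lit 213)) (XT.lf (nat_lit 0) (nat_lit 60167310304) (nat_lit 152) (nat_lit 208253645556) (nat_lit 0) (nat_lit 19925341565) (nat_lit 5) (nat_lit 5) (nat_lit 7) (nat_lit 4) (nat_lit 5) (nat_lit 4) (nat_lit 300) (nat_lit 268) (nat_lit 212))) (XT.nd (nat_lit 78) (nat_lit 0) (nat_lit 0) (XT.lf (nat_lit 0) (nat_lit 120244020741) (nat_lit 152) (nat_lit 126773609393) (nat_lit 0) (nat_lit 79999957085) (nat_lit 5) (nat_lit 5) (nat_lit 7) (nat_lit 4) (nat_lit 5) (nat_lit 4) (nat_lit 301) (nat_lit 268) (nat_lit 211)) (XT.lf (nat_lit 0) (nat_lit 189326687735) (nat_lit 152) (nat_lit 33082525641) (nat_lit 0) (nat_lit 149080802411) (nat_lit 5) (nat_lit 5) (nat_lit 7) (nat_lit 4) (nat_lit 5) (nat_lit 4) (nat_lit 302) (nat_lit 268) (nat_lit 210))))))))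
noncomputable def xc34 : XT := (XT.nd (nat_lit 37986) (nat_lit 0) (nat_lit 760) (XT.nd (nat_lit 936) (nat_lit 76) (nat_lit 0) (XT.nd (nat_lit 468) (nat_lit 0) (nat_lit 0) (XT.nd (nat_lit 234) (nat_lit 152) (nat_lit 0) (XT.nd (nat_lit 78) (nat_lit 0) (nat_lit 0) (XT.lf (nat_lit 0) (nat_lit 78583770591) (nat_lit 76) (nat_lit 192073099664) (nat_lit 76) (nat_lit 151825630282) (nat_lit 4) (nat_lit 4) (nat_lit 5) (nat_lit 5) (nat_lit 5) (nat_lit 4) (nat_lit 303) (nat_lit 268) (nat_lit 209)) (XT.nd (nat_lit 78) (nat_lit 0) (nat_lit 0) (XT.lf (nat_lit 0) (nat_lit 208994666501) (nat_lit 76) (nat_lit 156150669425) (nat_lit 76) (nat_lit 115901822601) (nat_lit 4) (nat_lit 4) (nat_lit 5) (nat_lit 5) (nat_lit 5) (nat_lit 4) (nat_lit 304) (nat_lit 268) (nat_lit 208)) (XT.lf (nat_lit 0) (nat_lit 358959612442) (nat_lit 76) (nat_lit 114843627380) (nat_lit 76) (nat_lit 74593582780) (nat_lit 4) (nat_lit 4)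 (nat_lit 5) (nat_lit 5) (nat_lit 5) (nat_lit 4) (nat_lit 305) (nat_lit 268) (nat_lit 207)))) (XT.nd (nat_lit 78) (nat_lit 152) (nat_lit 0) (XT.lf (nat_lit 0) (nat_lit 531412705184) (nat_lit 76) (nat_lit 67343792272) (nat_lit 76) (nat_lit 27092706128) (nat_lit 4) (nat_lit 4) (nat_lit 5) (nat_lit 5) (nat_lit 5) (nat_lit 4) (nat_lit 306) (nat_lit 268) (nat_lit 206)) (XT.nd (nat_lit 78) (nat_lit 0) (nat_lit 0) (XT.lf (nat_lit 0) (nat_lit 14891168062) (nat_lit 76) (nat_lit 11619966503) (nat_lit 152) (nat_lit 688326920836) (nat_lit 2) (nat_lit 5) (nat_lit 3) (nat_lit 5) (nat_lit 4) (nat_lit 4) (nat_lit 307) (nat_lit 268) (nat_lit 205)) (XT.lf (nat_lit 0) (nat_lit 90676745243) (nat_lit 152) (nat_lit 672706509770) (nat_lit 0) (nat_lit 53405653214) (nat_lit 2) (nat_lit 5) (nat_lit 4) (nat_lit 4) (nat_lit 2) (nat_lit 4) (nat_lit 308) (nat_lit 268) (nat_lit 204))))) (XT.nd (nat_lit 234) (nat_lit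 0) (nat_lit 0) (XT.nd (nat_lit 78) (nat_lit 0) (nat_lit 0) (XT.lf (nat_lit 0) (nat_lit 164786160155) (nat_lit 152) (nat_lit 641706278245) (nat_lit 0) (nat_lit 127514434022) (nat_lit 2) (nat_lit 5) (nat_lit 4) (nat_lit 4) (nat_lit 2) (nat_lit 4) (nat_lit 309) (nat_lit 268) (nat_lit 203)) (XT.nd (nat_lit 78) (nat_lit 0) (nat_lit 0) (XT.lf (nat_lit 0) (nat_lit 250009885640) (nat_lit 152) (nat_lit 606060206023) (nat_lit 0) (nat_lit 212737608113) (nat_lit 2) (nat_lit 5) (nat_lit 4) (nat_lit 4) (nat_lit 2) (nat_lit 4) (nat_lit 310) (nat_lit 268) (nat_lit 202)) (XT.lf (nat_lit 0) (nat_lit 348015342414) (nat_lit 152) (nat_lit 565070869950) (nat_lit 0) (nat_lit 310742585413) (nat_lit 2) (nat_lit 5) (nat_lit 4) (nat_lit 4) (nat_lit 2) (nat_lit 4) (nat_lit 311) (nat_lit 268) (nat_lit 201)))) (XT.nd (nat_lit 78) (nat_lit 0) (nat_lit 0) (XT.lf (nat_lit 0) (nat_lit 460720028545) (nat_lit 152) (nat_lit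 517936304756) (nat_lit 0) (nat_lit 423446854610) (nat_lit 2) (nat_lit 5) (nat_lit 4) (nat_lit 4) (nat_lit 2) (nat_lit 4) (nat_lit 312) (nat_lit 268) (nat_lit 200)) (XT.nd (nat_lit 78) (nat_lit 0) (nat_lit 0) (XT.lf (nat_lit 0) (nat_lit 590329035717) (nat_lit 152) (nat_lit 463734312426) (nat_lit 0) (nat_lit 553055499231) (nat_lit 2) (nat_lit 5) (nat_lit 4) (nat_lit 4) (nat_lit 2) (nat_lit 4) (nat_lit 313) (nat_lit 268) (nat_lit 199)) (XT.lf (nat_lit 0) (nat_lit 739378192332) (nat_lit 152) (nat_lit 401404419198) (nat_lit 0) (nat_lit 702104340584) (nat_lit 2) (nat_lit 5) (nat_lit 4) (nat_lit 4) (nat_lit 2) (nat_lit 4) (nat_lit 314) (nat_lit 268) (nat_lit 198)))))) (XT.nd (nat_lit 468) (nat_lit 0) (nat_lit 0) (XT.nd (nat_lit 234) (nat_lit 76) (nat_lit 0) (XT.nd (nat_lit 78) (nat_lit 0) (nat_lit 0) (XT.lf (nat_lit 0) (nat_lit 910783677541) (nat_lit 152) (nat_lit 329727127159) (nat_lit 0) (nat_lit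 873509551653) (nat_lit 2) (nat_lit 5) (nat_lit 4) (nat_lit 4) (nat_lit 2) (nat_lit 4) (nat_lit 315) (nat_lit 268) (nat_lit 197)) (XT.nd (nat_lit 78) (nat_lit 0) (nat_lit 0) (XT.lf (nat_lit 0) (nat_lit 1107899076924) (nat_lit 152) (nat_lit 247300054511) (nat_lit 0) (nat_lit 1070624712653) (nat_lit 2) (nat_lit 5) (nat_lit 4) (nat_lit 4) (nat_lit 2) (nat_lit 4) (nat_lit 316) (nat_lit 268) (nat_lit 196)) (XT.lf (nat_lit 0) (nat_lit 1334580996121) (nat_lit 152) (nat_lit 152510497656) (nat_lit 0) (nat_lit 1297306424560) (nat_lit 2) (nat_lit 5) (nat_lit 4) (nat_lit 4) (nat_lit 2) (nat_lit 4) (nat_lit 317) (nat_lit 268) (nat_lit 195)))) (XT.nd (nat_lit 78) (nat_lit 76) (nat_lit 0) (XT.lf (nat_lit 0) (nat_lit 1595264516161) (nat_lit 152) (nat_lit 43503878310) (nat_lit 0) (nat_lit 1557989764348) (nat_lit 2) (nat_lit 5) (nat_lit 4) (nat_lit 4) (nat_lit 2) (nat_lit 4) (nat_lit 318) (nat_lit 268) (nat_lit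 194)) (XT.nd (nat_lit 78) (nat_lit 0) (nat_lit 0) (XT.lf (nat_lit 0) (nat_lit 86162751525) (nat_lit 76) (nat_lit 1810959431503) (nat_lit 76) (nat_lit 1773684522949) (nat_lit 1) (nat_lit 4) (nat_lit 2) (nat_lit 5) (nat_lit 2) (nat_lit 4) (nat_lit 319) (nat_lit 268) (nat_lit 193)) (XT.lf (nat_lit 0) (nat_lit 237912747252) (nat_lit 76) (nat_lit 2007611775538) (nat_lit 76) (nat_lit 1970336730688) (nat_lit 1) (nat_lit 4) (nat_lit 2) (nat_lit 5) (nat_lit 2) (nat_lit 4) (nat_lit 320) (nat_lit 268) (nat_lit 192))))) (XT.nd (nat_lit 234) (nat_lit 0) (nat_lit 0) (XT.nd (nat_lit 78) (nat_lit 0) (nat_lit 0) (XT.lf (nat_lit 0) (nat_lit 412424293389) (nat_lit 76) (nat_lit 2233762445567) (nat_lit 76) (nat_lit 2196487282198) (nat_lit 1) (nat_lit 4) (nat_lit 2) (nat_lit 5) (nat_lit 2) (nat_lit 4) (nat_lit 321) (nat_lit 268) (nat_lit 191)) (XT.nd (nat_lit 78) (nat_lit 0) (nat_lit 0) (XT.lf (nat_lit 0) (nat_lit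 613111746274) (nat_lit 76) (nat_lit 2493836128611) (nat_lit 76) (nat_lit 2456560862183) (nat_lit 1) (nat_lit 4) (nat_lit 2) (nat_lit 5) (nat_lit 2) (nat_lit 4) (nat_lit 322) (nat_lit 268) (nat_lit 190)) (XT.lf (nat_lit 0) (nat_lit 843901599550) (nat_lit 76) (nat_lit 2792921222818) (nat_lit 76) (nat_lit 2755645866773) (nat_lit 1) (nat_lit 4) (nat_lit 2) (nat_lit 5) (nat_lit 2) (nat_lit 4) (nat_lit 323) (nat_lit 268) (nat_lit 189)))) (XT.nd (nat_lit 156) (nat_lit 0) (nat_lit 0) (XT.nd (nat_lit 78) (nat_lit 0) (nat_lit 0) (XT.lf (nat_lit 0) (nat_lit 1109309306868) (nat_lit 76) (nat_lit 3136869393074) (nat_lit 76) (nat_lit 3099593959101) (nat_lit 1) (nat_lit 4) (nat_lit 2) (nat_lit 5) (nat_lit 2) (nat_lit 4) (nat_lit 324) (nat_lit 268) (nat_lit 188)) (XT.lf (nat_lit 0) (nat_lit 1414527627720) (nat_lit 76) (nat_lit 3532410060101) (nat_lit 76) (nat_lit 3495134558365) (nat_lit 1) (nat_lit 4)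 (nat_lit 2) (nat_lit 5) (nat_lit 2) (nat_lit 4) (nat_lit 325) (nat_lit 268) (nat_lit 187))) (XT.nd (nat_lit 78) (nat_lit 0) (nat_lit 0) (XT.lf (nat_lit 0) (nat_lit 1765528224904) (nat_lit 76) (nat_lit 3987282063037) (nat_lit 76) (nat_lit 3950006502376) (nat_lit 1) (nat_lit 4) (nat_lit 2) (nat_lit 5) (nat_lit 2) (nat_lit 4) (nat_lit 326) (nat_lit 268) (nat_lit 186)) (XT.lf (nat_lit 0) (nat_lit 2169178501409) (nat_lit 76) (nat_lit 4510385071504) (nat_lit 76) (nat_lit 4473109459604) (nat_lit 1) (nat_lit 4) (nat_lit 2) (nat_lit 5) (nat_lit 2) (nat_lit 4) (nat_lit 327) (nat_lit 268) (nat_lit 185))))))) (XT.nd (nat_lit 1014) (nat_lit 1216) (nat_lit 0) (XT.nd (nat_lit 468) (nat_lit 1444) (nat_lit 0) (XT.nd (nat_lit 234) (nat_lit 608) (nat_lit 0) (XT.nd (nat_lit 78) (nat_lit 0) (nat_lit 76) (XT.lf (nat_lit 0) (nat_lit 4236299259) (nat_lit 532) (nat_lit 1518305267) (nat_lit 532) (nat_lit 1518305267)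 (nat_lit 54) (nat_lit 3) (nat_lit 61) (nat_lit 3) (nat_lit 61) (nat_lit 5) (nat_lit 269) (nat_lit 269) (nat_lit 242)) (XT.nd (nat_lit 78) (nat_lit 0) (nat_lit 0) (XT.lf (nat_lit 0) (nat_lit 9901250962) (nat_lit 456) (nat_lit 5195158677) (nat_lit 532) (nat_lit 475919338) (nat_lit 55) (nat_lit 5) (nat_lit 61) (nat_lit 5) (nat_lit 62) (nat_lit 5) (nat_lit 270) (nat_lit 269) (nat_lit 241)) (XT.lf (nat_lit 76) (nat_lit 9324272037) (nat_lit 0) (nat_lit 2758318300) (nat_lit 532) (nat_lit 4627326111) (nat_lit 56) (nat_lit 5) (nat_lit 55) (nat_lit 5) (nat_lit 62) (nat_lit 5) (nat_lit 271) (nat_lit 269) (nat_lit 240)))) (XT.nd (nat_lit 78) (nat_lit 760) (nat_lit 0) (XT.lf (nat_lit 76) (nat_lit 8406991772) (nat_lit 0) (nat_lit 6733162379) (nat_lit 532) (nat_lit 2834216264) (nat_lit 57) (nat_lit 5) (nat_lit 56) (nat_lit 5) (nat_lit 63) (nat_lit 5) (nat_lit 272) (nat_lit 269) (nat_lit 239)) (XT.nd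 (nat_lit 78) (nat_lit 380) (nat_lit 0) (XT.lf (nat_lit 0) (nat_lit 7655119948) (nat_lit 456) (nat_lit 11593401465) (nat_lit 532) (nat_lit 132728212) (nat_lit 51) (nat_lit 5) (nat_lit 57) (nat_lit 5) (nat_lit 58) (nat_lit 5) (nat_lit 273) (nat_lit 269) (nat_lit 238)) (XT.lf (nat_lit 0) (nat_lit 3489282082) (nat_lit 380) (nat_lit 13946955717) (nat_lit 76) (nat_lit 3504180593) (nat_lit 46) (nat_lit 5) (nat_lit 51) (nat_lit 5) (nat_lit 47) (nat_lit 5) (nat_lit 274) (nat_lit 269) (nat_lit 237))))) (XT.nd (nat_lit 234) (nat_lit 836) (nat_lit 0) (XT.nd (nat_lit 78) (nat_lit 380) (nat_lit 0) (XT.lf (nat_lit 0) (nat_lit 6451101471) (nat_lit 228) (nat_lit 1962153223) (nat_lit 304) (nat_lit 14258701878) (nat_lit 43) (nat_lit 5) (nat_lit 46) (nat_lit 5) (nat_lit 47) (nat_lit 5) (nat_lit 275) (nat_lit 269) (nat_lit 236)) (XT.nd (nat_lit 78) (nat_lit 152) (nat_lit 0) (XT.lf (nat_lit 0) (nat_lit 5967665871)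 (nat_lit 228) (nat_lit 8995591555) (nat_lit 304) (nat_lit 9629052862) (nat_lit 40) (nat_lit 5) (nat_lit 43) (nat_lit 5) (nat_lit 44) (nat_lit 5) (nat_lit 276) (nat_lit 269) (nat_lit 235)) (XT.lf (nat_lit 0) (nat_lit 5646952656) (nat_lit 152) (nat_lit 17687477836) (nat_lit 228) (nat_lit 3399262146) (nat_lit 38) (nat_lit 5) (nat_lit 40) (nat_lit 5) (nat_lit 41) (nat_lit 5) (nat_lit 277) (nat_lit 269) (nat_lit 234)))) (XT.nd (nat_lit 156) (nat_lit 380) (nat_lit 0) (XT.nd (nat_lit 78) (nat_lit 152) (nat_lit 0) (XT.lf (nat_lit 0) (nat_lit 4489399235) (nat_lit 304) (nat_lit 23747449196) (nat_lit 76) (nat_lit 879226344) (nat_lit 34) (nat_lit 5) (nat_lit 38) (nat_lit 5) (nat_lit 35) (nat_lit 5) (nat_lit 278) (nat_lit 269) (nat_lit 233)) (XT.lf (nat_lit 0) (nat_lit 4850089528) (nat_lit 152) (nat_lit 9711282323) (nat_lit 228) (nat_lit 17191324507) (nat_lit 32) (nat_lit 5) (nat_lit 34) (nat_lit 5)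 (nat_lit 35) (nat_lit 5) (nat_lit 279) (nat_lit 269) (nat_lit 232))) (XT.nd (nat_lit 78) (nat_lit 228) (nat_lit 0) (XT.lf (nat_lit 0) (nat_lit 4310950543) (nat_lit 152) (nat_lit 22888527750) (nat_lit 228) (nat_lit 7500947963) (nat_lit 30) (nat_lit 5) (nat_lit 32) (nat_lit 5) (nat_lit 33) (nat_lit 5) (nat_lit 280) (nat_lit 269) (nat_lit 231)) (XT.lf (nat_lit 0) (nat_lit 3558462764) (nat_lit 152) (nat_lit 1026233154) (nat_lit 228) (nat_lit 33408728697) (nat_lit 27) (nat_lit 5) (nat_lit 29) (nat_lit 5) (nat_lit 30) (nat_lit 5) (nat_lit 281) (nat_lit 269) (nat_lit 230)))))) (XT.nd (nat_lit 468) (nat_lit 532) (nat_lit 0) (XT.nd (nat_lit 234) (nat_lit 380) (nat_lit 0) (XT.nd (nat_lit 78) (nat_lit 152) (nat_lit 0) (XT.lf (nat_lit 0) (nat_lit 1968569013) (nat_lit 152) (nat_lit 17587252663) (nat_lit 228) (nat_lit 22087652144) (nat_lit 25) (nat_lit 5) (nat_lit 27) (nat_lit 5) (nat_lit 28) (nat_lit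 5) (nat_lit 282) (nat_lit 269) (nat_lit 229)) (XT.nd (nat_lit 78) (nat_lit 152) (nat_lit 0) (XT.lf (nat_lit 0) (nat_lit 37968912717) (nat_lit 228) (nat_lit 111552369) (nat_lit 76) (nat_lit 7664887243) (nat_lit 25) (nat_lit 5) (nat_lit 28) (nat_lit 5) (nat_lit 26) (nat_lit 4) (nat_lit 283) (nat_lit 269) (nat_lit 228)) (XT.lf (nat_lit 0) (nat_lit 9886089906) (nat_lit 152) (nat_lit 3363368365) (nat_lit 76) (nat_lit 37065258520) (nat_lit 23) (nat_lit 5) (nat_lit 25) (nat_lit 5) (nat_lit 24) (nat_lit 5) (nat_lit 284) (nat_lit 269) (nat_lit 227)))) (XT.nd (nat_lit 78) (nat_lit 228) (nat_lit 0) (XT.lf (nat_lit 0) (nat_lit 31279987860) (nat_lit 228) (nat_lit 8224386667) (nat_lit 76) (nat_lit 15925575229) (nat_lit 21) (nat_lit 5) (nat_lit 24) (nat_lit 5) (nat_lit 22) (nat_lit 4) (nat_lit 285) (nat_lit 269) (nat_lit 226)) (XT.nd (nat_lit 78) (nat_lit 152) (nat_lit 0) (XT.lf (nat_lit 0) (nat_lit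 46162785386) (nat_lit 76) (nat_lit 11276190128) (nat_lit 152) (nat_lit 3749027360) (nat_lit 20) (nat_lit 5) (nat_lit 21) (nat_lit 5) (nat_lit 22) (nat_lit 4) (nat_lit 286) (nat_lit 269) (nat_lit 225)) (XT.lf (nat_lit 0) (nat_lit 20542187299) (nat_lit 152) (nat_lit 25171081740) (nat_lit 76) (nat_lit 21913284160) (nat_lit 18) (nat_lit 5) (nat_lit 20) (nat_lit 5) (nat_lit 19) (nat_lit 4) (nat_lit 287) (nat_lit 269) (nat_lit 224))))) (XT.nd (nat_lit 234) (nat_lit 228) (nat_lit 0) (XT.nd (nat_lit 78) (nat_lit 228) (nat_lit 0) (XT.lf (nat_lit 0) (nat_lit 35803855523) (nat_lit 76) (nat_lit 14061123112) (nat_lit 152) (nat_lit 25029337881) (nat_lit 17) (nat_lit 5) (nat_lit 18) (nat_lit 5) (nat_lit 19) (nat_lit 4) (nat_lit 288) (nat_lit 269) (nat_lit 223)) (XT.nd (nat_lit 78) (nat_lit 76) (nat_lit 0) (XT.lf (nat_lit 0) (nat_lit 2237303793) (nat_lit 152) (nat_lit 58244205019) (nat_lit 76) (nat_lit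 22616496632) (nat_lit 15) (nat_lit 5) (nat_lit 17) (nat_lit 5) (nat_lit 16) (nat_lit 4) (nat_lit 289) (nat_lit 269) (nat_lit 222)) (XT.lf (nat_lit 0) (nat_lit 7553845992) (nat_lit 76) (nat_lit 26322679581) (nat_lit 152) (nat_lit 58462552778) (nat_lit 14) (nat_lit 5) (nat_lit 15) (nat_lit 5) (nat_lit 16) (nat_lit 4) (nat_lit 290) (nat_lit 269) (nat_lit 221)))) (XT.nd (nat_lit 156) (nat_lit 76) (nat_lit 0) (XT.nd (nat_lit 78) (nat_lit 152) (nat_lit 0) (XT.lf (nat_lit 0) (nat_lit 72298459934) (nat_lit 152) (nat_lit 16465113321) (nat_lit 0) (nat_lit 14039799247) (nat_lit 14) (nat_lit 5) (nat_lit 16) (nat_lit 4) (nat_lit 14) (nat_lit 4) (nat_lit 291) (nat_lit 269) (nat_lit 220)) (XT.lf (nat_lit 0) (nat_lit 3891432746) (nat_lit 152) (nat_lit 50172553312) (nat_lit 76) (nat_lit 60583969062) (nat_lit 12) (nat_lit 5) (nat_lit 14) (nat_lit 5) (nat_lit 13) (nat_lit 4) (nat_lit 292) (nat_lit 269) (nat_lit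 219))) (XT.nd (nat_lit 78) (nat_lit 0) (nat_lit 0) (XT.lf (nat_lit 0) (nat_lit 30995096044) (nat_lit 76) (nat_lit 11922619937) (nat_lit 152) (nat_lit 85185989587) (nat_lit 11) (nat_lit 5) (nat_lit 12) (nat_lit 5) (nat_lit 13) (nat_lit 4) (nat_lit 293) (nat_lit 269) (nat_lit 218)) (XT.lf (nat_lit 0) (nat_lit 90164325442) (nat_lit 152) (nat_lit 17022691926) (nat_lit 0) (nat_lit 36201494565) (nat_lit 11) (nat_lit 5) (nat_lit 13) (nat_lit 4) (nat_lit 11) (nat_lit 4) (nat_lit 294) (nat_lit 269) (nat_lit 217))))))))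
noncomputable def xc35 : XT := (XT.nd (nat_lit 2028) (nat_lit 0) (nat_lit 0) (XT.nd (nat_lit 1014) (nat_lit 228) (nat_lit 0) (XT.nd (nat_lit 468) (nat_lit 152) (nat_lit 0) (XT.nd (nat_lit 234) (nat_lit 152) (nat_lit 0) (XT.nd (nat_lit 78) (nat_lit 152) (nat_lit 0) (XT.lf (nat_lit 0) (nat_lit 78662974412) (nat_lit 76) (nat_lit 68046927966) (nat_lit 76) (nat_lit 14079182314) (nat_lit 10) (nat_lit 4) (nat_lit 11) (nat_lit 5) (nat_lit 11) (nat_lit 4) (nat_lit 295) (nat_lit 269) (nat_lit 216)) (XT.nd (nat_lit 78) (nat_lit 0) (nat_lit 0) (XT.lf (nat_lit 0) (nat_lit 8629659951) (nat_lit 76) (nat_lit 21467301259) (nat_lit 152) (nat_lit 150586700130) (nat_lit 8) (nat_lit 5) (nat_lit 9) (nat_lit 5) (nat_lit 10) (nat_lit 4) (nat_lit 296) (nat_lit 269) (nat_lit 215)) (XT.lf (nat_lit 0) (nat_lit 83306295429) (nat_lit 152) (nat_lit 86638880544) (nat_lit 0) (nat_lit 33328762425) (nat_lit 8) (nat_lit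 5) (nat_lit 10) (nat_lit 4) (nat_lit 8) (nat_lit 4) (nat_lit 297) (nat_lit 269) (nat_lit 214)))) (XT.nd (nat_lit 78) (nat_lit 76) (nat_lit 0) (XT.lf (nat_lit 0) (nat_lit 11558772781) (nat_lit 76) (nat_lit 133802678900) (nat_lit 76) (nat_lit 83822153726) (nat_lit 7) (nat_lit 4) (nat_lit 8) (nat_lit 5) (nat_lit 8) (nat_lit 4) (nat_lit 298) (nat_lit 269) (nat_lit 213)) (XT.nd (nat_lit 78) (nat_lit 76) (nat_lit 0) (XT.lf (nat_lit 0) (nat_lit 129719645343) (nat_lit 76) (nat_lit 89520973526) (nat_lit 76) (nat_lit 39537846464) (nat_lit 7) (nat_lit 4) (nat_lit 8) (nat_lit 5) (nat_lit 8) (nat_lit 4) (nat_lit 299) (nat_lit 269) (nat_lit 212)) (XT.lf (nat_lit 0) (nat_lit 10813434105) (nat_lit 152) (nat_lit 27493446631) (nat_lit 76) (nat_lit 254484237830) (nat_lit 6) (nat_lit 5) (nat_lit 8) (nat_lit 5) (nat_lit 7) (nat_lit 4) (nat_lit 300) (nat_lit 269) (nat_lit 211))))) (XT.nd (nat_lit 234) (nat_lit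 76) (nat_lit 0) (XT.nd (nat_lit 78) (nat_lit 0) (nat_lit 0) (XT.lf (nat_lit 0) (nat_lit 69252166243) (nat_lit 152) (nat_lit 239373704535) (nat_lit 0) (nat_lit 22967576453) (nat_lit 5) (nat_lit 5) (nat_lit 7) (nat_lit 4) (nat_lit 5) (nat_lit 4) (nat_lit 301) (nat_lit 269) (nat_lit 210)) (XT.nd (nat_lit 78) (nat_lit 0) (nat_lit 0) (XT.lf (nat_lit 0) (nat_lit 138332588541) (nat_lit 152) (nat_lit 145687052668) (nat_lit 0) (nat_lit 92046414694) (nat_lit 5) (nat_lit 5) (nat_lit 7) (nat_lit 4) (nat_lit 5) (nat_lit 4) (nat_lit 302) (nat_lit 269) (nat_lit 209)) (XT.lf (nat_lit 0) (nat_lit 217770877581) (nat_lit 152) (nat_lit 37955688719) (nat_lit 0) (nat_lit 171483326292) (nat_lit 5) (nat_lit 5) (nat_lit 7) (nat_lit 4) (nat_lit 5) (nat_lit 4) (nat_lit 303) (nat_lit 269) (nat_lit 208)))) (XT.nd (nat_lit 156) (nat_lit 0) (nat_lit 0) (XT.nd (nat_lit 78) (nat_lit 0) (nat_lit 0) (XT.lf (nat_lit 0) (nat_lit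 90453000279) (nat_lit 76) (nat_lit 220843657310) (nat_lit 76) (nat_lit 174554908244) (nat_lit 4) (nat_lit 4) (nat_lit 5) (nat_lit 5) (nat_lit 5) (nat_lit 4) (nat_lit 304) (nat_lit 269) (nat_lit 207)) (XT.lf (nat_lit 0) (nat_lit 240414878736) (nat_lit 76) (nat_lit 179538133052) (nat_lit 76) (nat_lit 133248342443) (nat_lit 4) (nat_lit 4) (nat_lit 5) (nat_lit 5) (nat_lit 5) (nat_lit 4) (nat_lit 305) (nat_lit 269) (nat_lit 206))) (XT.nd (nat_lit 78) (nat_lit 0) (nat_lit 0) (XT.lf (nat_lit 0) (nat_lit 412865304100) (nat_lit 76) (nat_lit 132039617760) (nat_lit 76) (nat_lit 85748921460) (nat_lit 4) (nat_lit 4) (nat_lit 5) (nat_lit 5) (nat_lit 5) (nat_lit 4) (nat_lit 306) (nat_lit 269) (nat_lit 205)) (XT.lf (nat_lit 0) (nat_lit 611178306432) (nat_lit 76) (nat_lit 77418792654) (nat_lit 76) (nat_lit 31127308797) (nat_lit 4) (nat_lit 4) (nat_lit 5) (nat_lit 5) (nat_lit 5) (nat_lit 4) (nat_lit 307)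 (nat_lit 269) (nat_lit 204)))))) (XT.nd (nat_lit 468) (nat_lit 76) (nat_lit 0) (XT.nd (nat_lit 234) (nat_lit 0) (nat_lit 0) (XT.nd (nat_lit 78) (nat_lit 0) (nat_lit 0) (XT.lf (nat_lit 0) (nat_lit 17175340627) (nat_lit 76) (nat_lit 13337885005) (nat_lit 152) (nat_lit 791548499515) (nat_lit 2) (nat_lit 5) (nat_lit 3) (nat_lit 5) (nat_lit 4) (nat_lit 4) (nat_lit 308) (nat_lit 269) (nat_lit 203)) (XT.nd (nat_lit 78) (nat_lit 0) (nat_lit 0) (XT.lf (nat_lit 0) (nat_lit 104300886571) (nat_lit 152) (nat_lit 773567327253) (nat_lit 0) (nat_lit 61437216020) (nat_lit 2) (nat_lit 5) (nat_lit 4) (nat_lit 4) (nat_lit 2) (nat_lit 4) (nat_lit 309) (nat_lit 269) (nat_lit 202)) (XT.lf (nat_lit 0) (nat_lit 189523762040) (nat_lit 152) (nat_lit 737922951302) (nat_lit 0) (nat_lit 146659612015) (nat_lit 2) (nat_lit 5) (nat_lit 4) (nat_lit 4) (nat_lit 2) (nat_lit 4) (nat_lit 310) (nat_lit 269) (nat_lit 201))))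 (XT.nd (nat_lit 78) (nat_lit 0) (nat_lit 0) (XT.lf (nat_lit 0) (nat_lit 287528479670) (nat_lit 152) (nat_lit 696935090247) (nat_lit 0) (nat_lit 244663912712) (nat_lit 2) (nat_lit 5) (nat_lit 4) (nat_lit 4) (nat_lit 2) (nat_lit 4) (nat_lit 311) (nat_lit 269) (nat_lit 200)) (XT.nd (nat_lit 78) (nat_lit 0) (nat_lit 0) (XT.lf (nat_lit 0) (nat_lit 400232523067) (nat_lit 152) (nat_lit 649801807678) (nat_lit 0) (nat_lit 357367593557) (nat_lit 2) (nat_lit 5) (nat_lit 4) (nat_lit 4) (nat_lit 2) (nat_lit 4) (nat_lit 312) (nat_lit 269) (nat_lit 199)) (XT.lf (nat_lit 0) (nat_lit 529840971340) (nat_lit 152) (nat_lit 595600930674) (nat_lit 0) (nat_lit 486975726569) (nat_lit 2) (nat_lit 5) (nat_lit 4) (nat_lit 4) (nat_lit 2) (nat_lit 4) (nat_lit 313) (nat_lit 269) (nat_lit 198))))) (XT.nd (nat_lit 234) (nat_lit 76) (nat_lit 0) (XT.nd (nat_lit 78) (nat_lit 0) (nat_lit 0) (XT.lf (nat_lit 0) (nat_lit 678889641956)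 (nat_lit 152) (nat_lit 533272007295) (nat_lit 0) (nat_lit 636024123044) (nat_lit 2) (nat_lit 5) (nat_lit 4) (nat_lit 4) (nat_lit 2) (nat_lit 4) (nat_lit 314) (nat_lit 269) (nat_lit 197)) (XT.nd (nat_lit 78) (nat_lit 0) (nat_lit 0) (XT.lf (nat_lit 0) (nat_lit 850294704557) (nat_lit 152) (nat_lit 461595558603) (nat_lit 0) (nat_lit 807428947262) (nat_lit 2) (nat_lit 5) (nat_lit 4) (nat_lit 4) (nat_lit 2) (nat_lit 4) (nat_lit 315) (nat_lit 269) (nat_lit 196)) (XT.lf (nat_lit 0) (nat_lit 1047409736455) (nat_lit 152) (nat_lit 379169219299) (nat_lit 0) (nat_lit 1004543771870) (nat_lit 2) (nat_lit 5) (nat_lit 4) (nat_lit 4) (nat_lit 2) (nat_lit 4) (nat_lit 316) (nat_lit 269) (nat_lit 195)))) (XT.nd (nat_lit 156) (nat_lit 76) (nat_lit 0) (XT.nd (nat_lit 78) (nat_lit 0) (nat_lit 0) (XT.lf (nat_lit 0) (nat_lit 1274091336100) (nat_lit 152) (nat_lit 284380300136) (nat_lit 0) (nat_lit 1231225191263)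 (nat_lit 2) (nat_lit 5) (nat_lit 4) (nat_lit 4) (nat_lit 2) (nat_lit 4) (nat_lit 317) (nat_lit 269) (nat_lit 194)) (XT.lf (nat_lit 0) (nat_lit 1534774578267) (nat_lit 152) (nat_lit 175374235303) (nat_lit 0) (nat_lit 1491908276690) (nat_lit 2) (nat_lit 5) (nat_lit 4) (nat_lit 4) (nat_lit 2) (nat_lit 4) (nat_lit 318) (nat_lit 269) (nat_lit 193))) (XT.nd (nat_lit 78) (nat_lit 76) (nat_lit 0) (XT.lf (nat_lit 0) (nat_lit 1834559787261) (nat_lit 152) (nat_lit 50018297446) (nat_lit 0) (nat_lit 1791693349388) (nat_lit 2) (nat_lit 5) (nat_lit 4) (nat_lit 4) (nat_lit 2) (nat_lit 4) (nat_lit 319) (nat_lit 269) (nat_lit 192)) (XT.lf (nat_lit 0) (nat_lit 99097382004) (nat_lit 76) (nat_lit 2082598238281) (nat_lit 76) (nat_lit 2039731681889) (nat_lit 1) (nat_lit 4) (nat_lit 2) (nat_lit 5) (nat_lit 2) (nat_lit 4) (nat_lit 320) (nat_lit 269) (nat_lit 191))))))) (XT.nd (nat_lit 37128) (nat_lit 0) (nat_lit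 1292) (XT.nd (nat_lit 468) (nat_lit 0) (nat_lit 0) (XT.nd (nat_lit 234) (nat_lit 0) (nat_lit 0) (XT.nd (nat_lit 78) (nat_lit 0) (nat_lit 0) (XT.lf (nat_lit 0) (nat_lit 273608544340) (nat_lit 76) (nat_lit 2308749100176) (nat_lit 76) (nat_lit 2265882440724) (nat_lit 1) (nat_lit 4) (nat_lit 2) (nat_lit 5) (nat_lit 2) (nat_lit 4) (nat_lit 321) (nat_lit 269) (nat_lit 190)) (XT.nd (nat_lit 78) (nat_lit 0) (nat_lit 0) (XT.lf (nat_lit 0) (nat_lit 474295663485) (nat_lit 76) (nat_lit 2568822950060) (nat_lit 76) (nat_lit 2525956200991) (nat_lit 1) (nat_lit 4) (nat_lit 2) (nat_lit 5) (nat_lit 2) (nat_lit 4) (nat_lit 322) (nat_lit 269) (nat_lit 189)) (XT.lf (nat_lit 0) (nat_lit 705085226552) (nat_lit 76) (nat_lit 2867908189345) (nat_lit 76) (nat_lit 2825041362348) (nat_lit 1) (nat_lit 4) (nat_lit 2) (nat_lit 5) (nat_lit 2) (nat_lit 4) (nat_lit 323) (nat_lit 269) (nat_lit 188)))) (XT.nd (nat_lit 78)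 (nat_lit 0) (nat_lit 0) (XT.lf (nat_lit 0) (nat_lit 970492681515) (nat_lit 76) (nat_lit 3211856485756) (nat_lit 76) (nat_lit 3168989590996) (nat_lit 1) (nat_lit 4) (nat_lit 2) (nat_lit 5) (nat_lit 2) (nat_lit 4) (nat_lit 324) (nat_lit 269) (nat_lit 187)) (XT.nd (nat_lit 78) (nat_lit 0) (nat_lit 0) (XT.lf (nat_lit 0) (nat_lit 1275710782927) (nat_lit 76) (nat_lit 3607397262483) (nat_lit 76) (nat_lit 3564530308798) (nat_lit 1) (nat_lit 4) (nat_lit 2) (nat_lit 5) (nat_lit 2) (nat_lit 4) (nat_lit 325) (nat_lit 269) (nat_lit 186)) (XT.lf (nat_lit 0) (nat_lit 1626711189293) (nat_lit 76) (nat_lit 4062269360810) (nat_lit 76) (nat_lit 4019402355886) (nat_lit 1) (nat_lit 4) (nat_lit 2) (nat_lit 5) (nat_lit 2) (nat_lit 4) (nat_lit 326) (nat_lit 269) (nat_lit 185))))) (XT.nd (nat_lit 36348) (nat_lit 0) (nat_lit 3420) (XT.nd (nat_lit 36192) (nat_lit 0) (nat_lit 4028) (XT.lf (nat_lit 0) (nat_lit 2030361299870)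 (nat_lit 76) (nat_lit 4585372452226) (nat_lit 76) (nat_lit 4542505402747) (nat_lit 1) (nat_lit 4) (nat_lit 2) (nat_lit 5) (nat_lit 2) (nat_lit 4) (nat_lit 327) (nat_lit 269) (nat_lit 184)) (XT.nd (nat_lit 78) (nat_lit 0) (nat_lit 76) (XT.lf (nat_lit 0) (nat_lit 5381020009) (nat_lit 532) (nat_lit 1470576947) (nat_lit 532) (nat_lit 1470576947) (nat_lit 54) (nat_lit 3) (nat_lit 61) (nat_lit 3) (nat_lit 61) (nat_lit 5) (nat_lit 270) (nat_lit 270) (nat_lit 240)) (XT.lf (nat_lit 0) (nat_lit 12274800512) (nat_lit 456) (nat_lit 5387211327) (nat_lit 532) (nat_lit 173479639) (nat_lit 55) (nat_lit 5) (nat_lit 61) (nat_lit 5) (nat_lit 62) (nat_lit 5) (nat_lit 271) (nat_lit 270) (nat_lit 239)))) (XT.nd (nat_lit 156) (nat_lit 684) (nat_lit 0) (XT.nd (nat_lit 78) (nat_lit 0) (nat_lit 76) (XT.lf (nat_lit 76) (nat_lit 11260428648) (nat_lit 0) (nat_lit 3419966121) (nat_lit 532) (nat_lit 4471769012) (nat_lit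 56) (nat_lit 5) (nat_lit 55) (nat_lit 5) (nat_lit 62) (nat_lit 5) (nat_lit 272) (nat_lit 270) (nat_lit 238)) (XT.lf (nat_lit 76) (nat_lit 10224318184) (nat_lit 0) (nat_lit 7878023562) (nat_lit 532) (nat_lit 2511667714) (nat_lit 57) (nat_lit 5) (nat_lit 56) (nat_lit 5) (nat_lit 63) (nat_lit 5) (nat_lit 273) (nat_lit 270) (nat_lit 237))) (XT.nd (nat_lit 78) (nat_lit 304) (nat_lit 0) (XT.lf (nat_lit 0) (nat_lit 483651715) (nat_lit 532) (nat_lit 12883395788) (nat_lit 76) (nat_lit 8870405960) (nat_lit 50) (nat_lit 5) (nat_lit 57) (nat_lit 5) (nat_lit 51) (nat_lit 5) (nat_lit 274) (nat_lit 270) (nat_lit 236)) (XT.lf (nat_lit 0) (nat_lit 4572194381) (nat_lit 380) (nat_lit 15445691323) (nat_lit 76) (nat_lit 4017977334) (nat_lit 46) (nat_lit 5) (nat_lit 51) (nat_lit 5) (nat_lit 47) (nat_lit 5) (nat_lit 275) (nat_lit 270) (nat_lit 235)))))) (XT.nd (nat_lit 468) (nat_lit 912) (nat_lit 0) (XT.nd (nat_lit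 234) (nat_lit 608) (nat_lit 0) (XT.nd (nat_lit 78) (nat_lit 380) (nat_lit 0) (XT.lf (nat_lit 0) (nat_lit 7961853897) (nat_lit 228) (nat_lit 2212989379) (nat_lit 304) (nat_lit 15857193956) (nat_lit 43) (nat_lit 5) (nat_lit 46) (nat_lit 5) (nat_lit 47) (nat_lit 5) (nat_lit 276) (nat_lit 270) (nat_lit 234)) (XT.nd (nat_lit 78) (nat_lit 152) (nat_lit 0) (XT.lf (nat_lit 0) (nat_lit 7396242686) (nat_lit 228) (nat_lit 10259676839) (nat_lit 304) (nat_lit 10588735779) (nat_lit 40) (nat_lit 5) (nat_lit 43) (nat_lit 5) (nat_lit 44) (nat_lit 5) (nat_lit 277) (nat_lit 270) (nat_lit 233)) (XT.lf (nat_lit 0) (nat_lit 7013805615) (nat_lit 152) (nat_lit 20224789881) (nat_lit 228) (nat_lit 3472267832) (nat_lit 38) (nat_lit 5) (nat_lit 40) (nat_lit 5) (nat_lit 41) (nat_lit 5) (nat_lit 278) (nat_lit 270) (nat_lit 232)))) (XT.nd (nat_lit 78) (nat_lit 304) (nat_lit 0) (XT.lf (nat_lit 0) (nat_lit 5538608982)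 (nat_lit 304) (nat_lit 26785963116) (nat_lit 76) (nat_lit 1128396465) (nat_lit 34) (nat_lit 5) (nat_lit 38) (nat_lit 5) (nat_lit 35) (nat_lit 5) (nat_lit 279) (nat_lit 270) (nat_lit 231)) (XT.nd (nat_lit 78) (nat_lit 152) (nat_lit 0) (XT.lf (nat_lit 0) (nat_lit 6056885992) (nat_lit 152) (nat_lit 11027000894) (nat_lit 228) (nat_lit 19404254890) (nat_lit 32) (nat_lit 5) (nat_lit 34) (nat_lit 5) (nat_lit 35) (nat_lit 5) (nat_lit 280) (nat_lit 270) (nat_lit 230)) (XT.lf (nat_lit 0) (nat_lit 5418338563) (nat_lit 152) (nat_lit 26169272569) (nat_lit 228) (nat_lit 8292879309) (nat_lit 30) (nat_lit 5) (nat_lit 32) (nat_lit 5) (nat_lit 33) (nat_lit 5) (nat_lit 281) (nat_lit 270) (nat_lit 229))))) (XT.nd (nat_lit 234) (nat_lit 456) (nat_lit 0) (XT.nd (nat_lit 78) (nat_lit 228) (nat_lit 0) (XT.lf (nat_lit 0) (nat_lit 4529526053) (nat_lit 152) (nat_lit 1028645349) (nat_lit 228) (nat_lit 38111129160)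 (nat_lit 27) (nat_lit 5) (nat_lit 29) (nat_lit 5) (nat_lit 30) (nat_lit 5) (nat_lit 282) (nat_lit 270) (nat_lit 228)) (XT.nd (nat_lit 78) (nat_lit 76) (nat_lit 0) (XT.lf (nat_lit 0) (nat_lit 2681977072) (nat_lit 152) (nat_lit 20068939126) (nat_lit 228) (nat_lit 25117900941) (nat_lit 25) (nat_lit 5) (nat_lit 27) (nat_lit 5) (nat_lit 28) (nat_lit 5) (nat_lit 283) (nat_lit 270) (nat_lit 227)) (XT.lf (nat_lit 0) (nat_lit 263632297) (nat_lit 76) (nat_lit 43637812237) (nat_lit 152) (nat_lit 8686526311) (nat_lit 24) (nat_lit 5) (nat_lit 25) (nat_lit 5) (nat_lit 26) (nat_lit 4) (nat_lit 284) (nat_lit 270) (nat_lit 226)))) (XT.nd (nat_lit 156) (nat_lit 228) (nat_lit 0) (XT.nd (nat_lit 78) (nat_lit 152) (nat_lit 0) (XT.lf (nat_lit 0) (nat_lit 11583687044) (nat_lit 152) (nat_lit 3509728695) (nat_lit 76) (nat_lit 42751165811) (nat_lit 23) (nat_lit 5) (nat_lit 25) (nat_lit 5) (nat_lit 24) (nat_lit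 5) (nat_lit 285) (nat_lit 270) (nat_lit 225)) (XT.lf (nat_lit 0) (nat_lit 36169756791) (nat_lit 228) (nat_lit 9117708522) (nat_lit 76) (nat_lit 18441009100) (nat_lit 21) (nat_lit 5) (nat_lit 24) (nat_lit 5) (nat_lit 22) (nat_lit 4) (nat_lit 286) (nat_lit 270) (nat_lit 224))) (XT.nd (nat_lit 78) (nat_lit 152) (nat_lit 0) (XT.lf (nat_lit 0) (nat_lit 53398731580) (nat_lit 76) (nat_lit 12835557094) (nat_lit 152) (nat_lit 4117430202) (nat_lit 20) (nat_lit 5) (nat_lit 21) (nat_lit 5) (nat_lit 22) (nat_lit 4) (nat_lit 287) (nat_lit 270) (nat_lit 223)) (XT.lf (nat_lit 0) (nat_lit 23793857119) (nat_lit 152) (nat_lit 28642161575) (nat_lit 76) (nat_lit 25320787825) (nat_lit 18) (nat_lit 5) (nat_lit 20) (nat_lit 5) (nat_lit 19) (nat_lit 4) (nat_lit 288) (nat_lit 270) (nat_lit 222))))))))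
noncomputable def xc36 : XT := (XT.nd (nat_lit 1950) (nat_lit 76) (nat_lit 0) (XT.nd (nat_lit 936) (nat_lit 380) (nat_lit 0) (XT.nd (nat_lit 468) (nat_lit 304) (nat_lit 0) (XT.nd (nat_lit 234) (nat_lit 228) (nat_lit 0) (XT.nd (nat_lit 78) (nat_lit 228) (nat_lit 0) (XT.lf (nat_lit 0) (nat_lit 41453234891) (nat_lit 76) (nat_lit 16046318949) (nat_lit 152) (nat_lit 28616434904) (nat_lit 17) (nat_lit 5) (nat_lit 18) (nat_lit 5) (nat_lit 19) (nat_lit 4) (nat_lit 289) (nat_lit 270) (nat_lit 221)) (XT.nd (nat_lit 78) (nat_lit 76) (nat_lit 0) (XT.lf (nat_lit 0) (nat_lit 2720274679) (nat_lit 152) (nat_lit 66709111581) (nat_lit 76) (nat_lit 26121458337) (nat_lit 15) (nat_lit 5) (nat_lit 17) (nat_lit 5) (nat_lit 16) (nat_lit 4) (nat_lit 290) (nat_lit 270) (nat_lit 220)) (XT.lf (nat_lit 0) (nat_lit 8935646983) (nat_lit 76) (nat_lit 30156491696) (nat_lit 152) (nat_lit 67087008389) (nat_lit 14) (nat_lit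 5) (nat_lit 15) (nat_lit 5) (nat_lit 16) (nat_lit 4) (nat_lit 291) (nat_lit 270) (nat_lit 219)))) (XT.nd (nat_lit 78) (nat_lit 228) (nat_lit 0) (XT.lf (nat_lit 0) (nat_lit 83262263845) (nat_lit 152) (nat_lit 18711609676) (nat_lit 0) (nat_lit 16240427895) (nat_lit 14) (nat_lit 5) (nat_lit 16) (nat_lit 4) (nat_lit 14) (nat_lit 4) (nat_lit 292) (nat_lit 270) (nat_lit 218)) (XT.nd (nat_lit 78) (nat_lit 76) (nat_lit 0) (XT.lf (nat_lit 0) (nat_lit 4586432382) (nat_lit 152) (nat_lit 57488160742) (nat_lit 76) (nat_lit 69761608871) (nat_lit 12) (nat_lit 5) (nat_lit 14) (nat_lit 5) (nat_lit 13) (nat_lit 4) (nat_lit 293) (nat_lit 270) (nat_lit 217)) (XT.lf (nat_lit 0) (nat_lit 35836837238) (nat_lit 76) (nat_lit 13619934537) (nat_lit 152) (nat_lit 97854339830) (nat_lit 11) (nat_lit 5) (nat_lit 12) (nat_lit 5) (nat_lit 13) (nat_lit 4) (nat_lit 294) (nat_lit 270) (nat_lit 216))))) (XT.nd (nat_lit 234)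 (nat_lit 76) (nat_lit 0) (XT.nd (nat_lit 78) (nat_lit 228) (nat_lit 0) (XT.lf (nat_lit 0) (nat_lit 103779051506) (nat_lit 152) (nat_lit 19403542543) (nat_lit 0) (nat_lit 41706955516) (nat_lit 11) (nat_lit 5) (nat_lit 13) (nat_lit 4) (nat_lit 11) (nat_lit 4) (nat_lit 295) (nat_lit 270) (nat_lit 215)) (XT.nd (nat_lit 78) (nat_lit 152) (nat_lit 0) (XT.lf (nat_lit 0) (nat_lit 90620367979) (nat_lit 76) (nat_lit 78178146436) (nat_lit 76) (nat_lit 16102334170) (nat_lit 10) (nat_lit 4) (nat_lit 11) (nat_lit 5) (nat_lit 11) (nat_lit 4) (nat_lit 296) (nat_lit 270) (nat_lit 214)) (XT.lf (nat_lit 0) (nat_lit 10072773913) (nat_lit 76) (nat_lit 24615599992) (nat_lit 152) (nat_lit 173091664067) (nat_lit 8) (nat_lit 5) (nat_lit 9) (nat_lit 5) (nat_lit 10) (nat_lit 4) (nat_lit 297) (nat_lit 270) (nat_lit 213)))) (XT.nd (nat_lit 78) (nat_lit 76) (nat_lit 0) (XT.lf (nat_lit 0) (nat_lit 95870583412) (nat_lit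 152) (nat_lit 99501572771) (nat_lit 0) (nat_lit 38387385404) (nat_lit 8) (nat_lit 5) (nat_lit 10) (nat_lit 4) (nat_lit 8) (nat_lit 4) (nat_lit 298) (nat_lit 270) (nat_lit 212)) (XT.nd (nat_lit 78) (nat_lit 0) (nat_lit 0) (XT.lf (nat_lit 0) (nat_lit 13414458927) (nat_lit 76) (nat_lit 153813570765) (nat_lit 76) (nat_lit 96328110247) (nat_lit 7) (nat_lit 4) (nat_lit 8) (nat_lit 5) (nat_lit 8) (nat_lit 4) (nat_lit 299) (nat_lit 270) (nat_lit 211)) (XT.lf (nat_lit 0) (nat_lit 149283566256) (nat_lit 76) (nat_lit 102897371754) (nat_lit 76) (nat_lit 45409943836) (nat_lit 7) (nat_lit 4) (nat_lit 8) (nat_lit 5) (nat_lit 8) (nat_lit 4) (nat_lit 300) (nat_lit 270) (nat_lit 210)))))) (XT.nd (nat_lit 468) (nat_lit 152) (nat_lit 0) (XT.nd (nat_lit 234) (nat_lit 76) (nat_lit 0) (XT.nd (nat_lit 78) (nat_lit 76) (nat_lit 0) (XT.lf (nat_lit 0) (nat_lit 12483839838) (nat_lit 152) (nat_lit 31522751837) (nat_lit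 76) (nat_lit 292699311204) (nat_lit 6) (nat_lit 5) (nat_lit 8) (nat_lit 5) (nat_lit 7) (nat_lit 4) (nat_lit 301) (nat_lit 270) (nat_lit 209)) (XT.nd (nat_lit 78) (nat_lit 0) (nat_lit 0) (XT.lf (nat_lit 0) (nat_lit 79685177865) (nat_lit 152) (nat_lit 275190544447) (nat_lit 0) (nat_lit 26453116440) (nat_lit 5) (nat_lit 5) (nat_lit 7) (nat_lit 4) (nat_lit 5) (nat_lit 4) (nat_lit 302) (nat_lit 270) (nat_lit 208)) (XT.lf (nat_lit 0) (nat_lit 159121769593) (nat_lit 152) (nat_lit 167462531639) (nat_lit 0) (nat_lit 105888510392) (nat_lit 5) (nat_lit 5) (nat_lit 7) (nat_lit 4) (nat_lit 5) (nat_lit 4) (nat_lit 303) (nat_lit 270) (nat_lit 207)))) (XT.nd (nat_lit 78) (nat_lit 76) (nat_lit 0) (XT.lf (nat_lit 0) (nat_lit 250470676845) (nat_lit 152) (nat_lit 43581582088) (nat_lit 0) (nat_lit 197236376100) (nat_lit 5) (nat_lit 5) (nat_lit 7) (nat_lit 4) (nat_lit 5) (nat_lit 4) (nat_lit 304) (nat_lit 270)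 (nat_lit 206)) (XT.nd (nat_lit 78) (nat_lit 0) (nat_lit 0) (XT.lf (nat_lit 0) (nat_lit 104082700111) (nat_lit 76) (nat_lit 253939652179) (nat_lit 76) (nat_lit 200704445743) (nat_lit 4) (nat_lit 4) (nat_lit 5) (nat_lit 5) (nat_lit 5) (nat_lit 4) (nat_lit 305) (nat_lit 270) (nat_lit 205)) (XT.lf (nat_lit 0) (nat_lit 276530806016) (nat_lit 76) (nat_lit 206442284552) (nat_lit 76) (nat_lit 153206290559) (nat_lit 4) (nat_lit 4) (nat_lit 5) (nat_lit 5) (nat_lit 5) (nat_lit 4) (nat_lit 306) (nat_lit 270) (nat_lit 204))))) (XT.nd (nat_lit 234) (nat_lit 0) (nat_lit 0) (XT.nd (nat_lit 78) (nat_lit 152) (nat_lit 0) (XT.lf (nat_lit 0) (nat_lit 474841791428) (nat_lit 76) (nat_lit 151822457416) (nat_lit 76) (nat_lit 98585778592) (nat_lit 4) (nat_lit 4) (nat_lit 5) (nat_lit 5) (nat_lit 5) (nat_lit 4) (nat_lit 307) (nat_lit 270) (nat_lit 203)) (XT.nd (nat_lit 78) (nat_lit 152) (nat_lit 0) (XT.lf (nat_lit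 0) (nat_lit 702895653886) (nat_lit 76) (nat_lit 89011521981) (nat_lit 76) (nat_lit 35774247649) (nat_lit 4) (nat_lit 4) (nat_lit 5) (nat_lit 5) (nat_lit 5) (nat_lit 4) (nat_lit 308) (nat_lit 270) (nat_lit 202)) (XT.lf (nat_lit 0) (nat_lit 19789824977) (nat_lit 76) (nat_lit 15319606340) (nat_lit 152) (nat_lit 910260011156) (nat_lit 2) (nat_lit 5) (nat_lit 3) (nat_lit 5) (nat_lit 4) (nat_lit 4) (nat_lit 309) (nat_lit 270) (nat_lit 201)))) (XT.nd (nat_lit 156) (nat_lit 0) (nat_lit 0) (XT.nd (nat_lit 78) (nat_lit 0) (nat_lit 0) (XT.lf (nat_lit 0) (nat_lit 119963130741) (nat_lit 152) (nat_lit 889568279662) (nat_lit 0) (nat_lit 70668461805) (nat_lit 2) (nat_lit 5) (nat_lit 4) (nat_lit 4) (nat_lit 2) (nat_lit 4) (nat_lit 310) (nat_lit 270) (nat_lit 200)) (XT.lf (nat_lit 0) (nat_lit 217967205637) (nat_lit 152) (nat_lit 848581701233) (nat_lit 0) (nat_lit 168672174150) (nat_lit 2) (nat_lit 5) (nat_lit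 4) (nat_lit 4) (nat_lit 2) (nat_lit 4) (nat_lit 311) (nat_lit 270) (nat_lit 199))) (XT.nd (nat_lit 78) (nat_lit 0) (nat_lit 0) (XT.lf (nat_lit 0) (nat_lit 330670690135) (nat_lit 152) (nat_lit 801449533990) (nat_lit 0) (nat_lit 281375343386) (nat_lit 2) (nat_lit 5) (nat_lit 4) (nat_lit 4) (nat_lit 2) (nat_lit 4) (nat_lit 312) (nat_lit 270) (nat_lit 198)) (XT.lf (nat_lit 0) (nat_lit 460278652409) (nat_lit 152) (nat_lit 747249626835) (nat_lit 0) (nat_lit 410983031519) (nat_lit 2) (nat_lit 5) (nat_lit 4) (nat_lit 4) (nat_lit 2) (nat_lit 4) (nat_lit 313) (nat_lit 270) (nat_lit 197))))))) (XT.nd (nat_lit 1014) (nat_lit 0) (nat_lit 0) (XT.nd (nat_lit 468) (nat_lit 76) (nat_lit 0) (XT.nd (nat_lit 234) (nat_lit 0) (nat_lit 0) (XT.nd (nat_lit 78) (nat_lit 0) (nat_lit 0) (XT.lf (nat_lit 0) (nat_lit 609326900416) (nat_lit 152) (nat_lit 684921546801) (nat_lit 0) (nat_lit 560031041144) (nat_lit 2) (nat_lit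 5) (nat_lit 4) (nat_lit 4) (nat_lit 2) (nat_lit 4) (nat_lit 314) (nat_lit 270) (nat_lit 196)) (XT.nd (nat_lit 78) (nat_lit 0) (nat_lit 0) (XT.lf (nat_lit 0) (nat_lit 780731595532) (nat_lit 152) (nat_lit 613245831455) (nat_lit 0) (nat_lit 731435528970) (nat_lit 2) (nat_lit 5) (nat_lit 4) (nat_lit 4) (nat_lit 2) (nat_lit 4) (nat_lit 315) (nat_lit 270) (nat_lit 195)) (XT.lf (nat_lit 0) (nat_lit 977846307878) (nat_lit 152) (nat_lit 530820129842) (nat_lit 0) (nat_lit 928550061064) (nat_lit 2) (nat_lit 5) (nat_lit 4) (nat_lit 4) (nat_lit 2) (nat_lit 4) (nat_lit 316) (nat_lit 270) (nat_lit 194)))) (XT.nd (nat_lit 78) (nat_lit 0) (nat_lit 0) (XT.lf (nat_lit 0) (nat_lit 1204527629651) (nat_lit 152) (nat_lit 436031765193) (nat_lit 0) (nat_lit 1155231226096) (nat_lit 2) (nat_lit 5) (nat_lit 4) (nat_lit 4) (nat_lit 2) (nat_lit 4) (nat_lit 317) (nat_lit 270) (nat_lit 193)) (XT.nd (nat_lit 78) (nat_lit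 0) (nat_lit 0) (XT.lf (nat_lit 0) (nat_lit 1465210630191) (nat_lit 152) (nat_lit 327026182547) (nat_lit 0) (nat_lit 1415914090340) (nat_lit 2) (nat_lit 5) (nat_lit 4) (nat_lit 4) (nat_lit 2) (nat_lit 4) (nat_lit 318) (nat_lit 270) (nat_lit 192)) (XT.lf (nat_lit 0) (nat_lit 1764995629074) (nat_lit 152) (nat_lit 201670663982) (nat_lit 0) (nat_lit 1715698970705) (nat_lit 2) (nat_lit 5) (nat_lit 4) (nat_lit 4) (nat_lit 2) (nat_lit 4) (nat_lit 319) (nat_lit 270) (nat_lit 191))))) (XT.nd (nat_lit 234) (nat_lit 0) (nat_lit 0) (XT.nd (nat_lit 78) (nat_lit 76) (nat_lit 0) (XT.lf (nat_lit 0) (nat_lit 2109747984974) (nat_lit 152) (nat_lit 57512601527) (nat_lit 0) (nat_lit 2060451223544) (nat_lit 2) (nat_lit 5) (nat_lit 4) (nat_lit 4) (nat_lit 2) (nat_lit 4) (nat_lit 320) (nat_lit 270) (nat_lit 190)) (XT.nd (nat_lit 78) (nat_lit 0) (nat_lit 0) (XT.lf (nat_lit 0) (nat_lit 113969715393) (nat_lit 76)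 (nat_lit 2394984111682) (nat_lit 76) (nat_lit 2345687260636) (nat_lit 1) (nat_lit 4) (nat_lit 2) (nat_lit 5) (nat_lit 2) (nat_lit 4) (nat_lit 321) (nat_lit 270) (nat_lit 189)) (XT.lf (nat_lit 0) (nat_lit 314656544328) (nat_lit 76) (nat_lit 2655058106644) (nat_lit 76) (nat_lit 2605761177670) (nat_lit 1) (nat_lit 4) (nat_lit 2) (nat_lit 5) (nat_lit 2) (nat_lit 4) (nat_lit 322) (nat_lit 270) (nat_lit 188)))) (XT.nd (nat_lit 156) (nat_lit 0) (nat_lit 0) (XT.nd (nat_lit 78) (nat_lit 0) (nat_lit 0) (XT.lf (nat_lit 0) (nat_lit 545445855040) (nat_lit 76) (nat_lit 2954143472084) (nat_lit 76) (nat_lit 2904846475347) (nat_lit 1) (nat_lit 4) (nat_lit 2) (nat_lit 5) (nat_lit 2) (nat_lit 4) (nat_lit 323) (nat_lit 270) (nat_lit 187)) (XT.lf (nat_lit 0) (nat_lit 810853090563) (nat_lit 76) (nat_lit 3298091878195) (nat_lit 76) (nat_lit 3248794822533) (nat_lit 1) (nat_lit 4) (nat_lit 2) (nat_lit 5) (nat_lit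 2) (nat_lit 4) (nat_lit 324) (nat_lit 270) (nat_lit 186))) (XT.nd (nat_lit 78) (nat_lit 0) (nat_lit 0) (XT.lf (nat_lit 0) (nat_lit 1116071001157) (nat_lit 76) (nat_lit 3693632750313) (nat_lit 76) (nat_lit 3644335643412) (nat_lit 1) (nat_lit 4) (nat_lit 2) (nat_lit 5) (nat_lit 2) (nat_lit 4) (nat_lit 325) (nat_lit 270) (nat_lit 185)) (XT.lf (nat_lit 0) (nat_lit 1467071241596) (nat_lit 76) (nat_lit 4148504931589) (nat_lit 76) (nat_lit 4099207780132) (nat_lit 1) (nat_lit 4) (nat_lit 2) (nat_lit 5) (nat_lit 2) (nat_lit 4) (nat_lit 326) (nat_lit 270) (nat_lit 184)))))) (XT.nd (nat_lit 36660) (nat_lit 0) (nat_lit 2204) (XT.nd (nat_lit 36426) (nat_lit 0) (nat_lit 3724) (XT.nd (nat_lit 36270) (nat_lit 0) (nat_lit 4028) (XT.lf (nat_lit 0) (nat_lit 1870721207888) (nat_lit 76) (nat_lit 4671608095135) (nat_lit 76) (nat_lit 4622310904934) (nat_lit 1) (nat_lit 4) (nat_lit 2) (nat_lit 5) (nat_lit 2)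 (nat_lit 4) (nat_lit 327) (nat_lit 270) (nat_lit 183)) (XT.nd (nat_lit 78) (nat_lit 0) (nat_lit 0) (XT.lf (nat_lit 0) (nat_lit 6573258728) (nat_lit 532) (nat_lit 1482865486) (nat_lit 532) (nat_lit 1482865486) (nat_lit 54) (nat_lit 3) (nat_lit 61) (nat_lit 3) (nat_lit 61) (nat_lit 5) (nat_lit 271) (nat_lit 271) (nat_lit 238)) (XT.lf (nat_lit 76) (nat_lit 14702310131) (nat_lit 0) (nat_lit 87545149) (nat_lit 532) (nat_lit 5665829784) (nat_lit 55) (nat_lit 5) (nat_lit 54) (nat_lit 3) (nat_lit 61) (nat_lit 5) (nat_lit 272) (nat_lit 271) (nat_lit 237)))) (XT.nd (nat_lit 78) (nat_lit 380) (nat_lit 0) (XT.lf (nat_lit 76) (nat_lit 13355932119) (nat_lit 0) (nat_lit 4120409111) (nat_lit 532) (nat_lit 4500072348) (nat_lit 56) (nat_lit 5) (nat_lit 55) (nat_lit 5) (nat_lit 62) (nat_lit 5) (nat_lit 273) (nat_lit 271) (nat_lit 236)) (XT.nd (nat_lit 78) (nat_lit 456) (nat_lit 0) (XT.lf (nat_lit 76) (nat_lit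 12178591731) (nat_lit 0) (nat_lit 9161720915) (nat_lit 532) (nat_lit 2323063625) (nat_lit 57) (nat_lit 5) (nat_lit 56) (nat_lit 5) (nat_lit 63) (nat_lit 5) (nat_lit 274) (nat_lit 271) (nat_lit 235)) (XT.lf (nat_lit 0) (nat_lit 1031551923) (nat_lit 532) (nat_lit 14363744545) (nat_lit 76) (nat_lit 10139002023) (nat_lit 50) (nat_lit 5) (nat_lit 57) (nat_lit 5) (nat_lit 51) (nat_lit 5) (nat_lit 275) (nat_lit 271) (nat_lit 234))))) (XT.nd (nat_lit 234) (nat_lit 760) (nat_lit 0) (XT.nd (nat_lit 78) (nat_lit 456) (nat_lit 0) (XT.lf (nat_lit 0) (nat_lit 5681101032) (nat_lit 380) (nat_lit 17313919122) (nat_lit 76) (nat_lit 4611728492) (nat_lit 46) (nat_lit 5) (nat_lit 51) (nat_lit 5) (nat_lit 47) (nat_lit 5) (nat_lit 276) (nat_lit 271) (nat_lit 233)) (XT.nd (nat_lit 78) (nat_lit 228) (nat_lit 0) (XT.lf (nat_lit 0) (nat_lit 9566783934) (nat_lit 228) (nat_lit 2512055497) (nat_lit 304) (nat_lit 17827218641)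 (nat_lit 43) (nat_lit 5) (nat_lit 46) (nat_lit 5) (nat_lit 47) (nat_lit 5) (nat_lit 277) (nat_lit 271) (nat_lit 232)) (XT.lf (nat_lit 0) (nat_lit 8909026487) (nat_lit 228) (nat_lit 11734164510) (nat_lit 304) (nat_lit 11810562205) (nat_lit 40) (nat_lit 5) (nat_lit 43) (nat_lit 5) (nat_lit 44) (nat_lit 5) (nat_lit 278) (nat_lit 271) (nat_lit 231)))) (XT.nd (nat_lit 156) (nat_lit 304) (nat_lit 0) (XT.nd (nat_lit 78) (nat_lit 304) (nat_lit 0) (XT.lf (nat_lit 0) (nat_lit 8458927542) (nat_lit 152) (nat_lit 23170939645) (nat_lit 228) (nat_lit 3662761212) (nat_lit 38) (nat_lit 5) (nat_lit 40) (nat_lit 5) (nat_lit 41) (nat_lit 5) (nat_lit 279) (nat_lit 271) (nat_lit 230)) (XT.lf (nat_lit 0) (nat_lit 6653559015) (nat_lit 304) (nat_lit 30407938143) (nat_lit 76) (nat_lit 1386341129) (nat_lit 34) (nat_lit 5) (nat_lit 38) (nat_lit 5) (nat_lit 35) (nat_lit 5) (nat_lit 280) (nat_lit 271) (nat_lit 229)))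 (XT.nd (nat_lit 78) (nat_lit 152) (nat_lit 0) (XT.lf (nat_lit 0) (nat_lit 7327825722) (nat_lit 152) (nat_lit 12574454599) (nat_lit 228) (nat_lit 22038319745) (nat_lit 32) (nat_lit 5) (nat_lit 34) (nat_lit 5) (nat_lit 35) (nat_lit 5) (nat_lit 281) (nat_lit 271) (nat_lit 228)) (XT.lf (nat_lit 0) (nat_lit 6579479093) (nat_lit 152) (nat_lit 29979325577) (nat_lit 228) (nat_lit 9284855932) (nat_lit 30) (nat_lit 5) (nat_lit 32) (nat_lit 5) (nat_lit 33) (nat_lit 5) (nat_lit 282) (nat_lit 271) (nat_lit 227))))))))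
noncomputable def xc37 : XT := (XT.nd (nat_lit 2028) (nat_lit 228) (nat_lit 0) (XT.nd (nat_lit 1014) (nat_lit 532) (nat_lit 0) (XT.nd (nat_lit 468) (nat_lit 684) (nat_lit 0) (XT.nd (nat_lit 234) (nat_lit 304) (nat_lit 0) (XT.nd (nat_lit 78) (nat_lit 228) (nat_lit 0) (XT.lf (nat_lit 0) (nat_lit 5539611954) (nat_lit 152) (nat_lit 1068369162) (nat_lit 228) (nat_lit 43594219069) (nat_lit 27) (nat_lit 5) (nat_lit 29) (nat_lit 5) (nat_lit 30) (nat_lit 5) (nat_lit 283) (nat_lit 271) (nat_lit 226)) (XT.nd (nat_lit 78) (nat_lit 76) (nat_lit 0) (XT.lf (nat_lit 0) (nat_lit 3400434471) (nat_lit 152) (nat_lit 22961018040) (nat_lit 228) (nat_lit 28671673776) (nat_lit 25) (nat_lit 5) (nat_lit 27) (nat_lit 5) (nat_lit 28) (nat_lit 5) (nat_lit 284) (nat_lit 271) (nat_lit 225)) (XT.lf (nat_lit 0) (nat_lit 604631052) (nat_lit 76) (nat_lit 50063839341) (nat_lit 152) (nat_lit 9792993508) (nat_lit 24) (nat_lit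 5) (nat_lit 25) (nat_lit 5) (nat_lit 26) (nat_lit 4) (nat_lit 285) (nat_lit 271) (nat_lit 224)))) (XT.nd (nat_lit 78) (nat_lit 228) (nat_lit 0) (XT.lf (nat_lit 0) (nat_lit 13483571785) (nat_lit 152) (nat_lit 3765378982) (nat_lit 76) (nat_lit 49259204397) (nat_lit 23) (nat_lit 5) (nat_lit 25) (nat_lit 5) (nat_lit 24) (nat_lit 5) (nat_lit 286) (nat_lit 271) (nat_lit 223)) (XT.nd (nat_lit 78) (nat_lit 76) (nat_lit 0) (XT.lf (nat_lit 0) (nat_lit 41744763411) (nat_lit 228) (nat_lit 10228021780) (nat_lit 76) (nat_lit 21302886428) (nat_lit 21) (nat_lit 5) (nat_lit 24) (nat_lit 5) (nat_lit 22) (nat_lit 4) (nat_lit 287) (nat_lit 271) (nat_lit 222)) (XT.lf (nat_lit 0) (nat_lit 61644101532) (nat_lit 76) (nat_lit 14661033150) (nat_lit 152) (nat_lit 4588389713) (nat_lit 20) (nat_lit 5) (nat_lit 21) (nat_lit 5) (nat_lit 22) (nat_lit 4) (nat_lit 288) (nat_lit 271) (nat_lit 221))))) (XT.nd (nat_lit 234)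 (nat_lit 304) (nat_lit 0) (XT.nd (nat_lit 78) (nat_lit 228) (nat_lit 0) (XT.lf (nat_lit 0) (nat_lit 27491738503) (nat_lit 152) (nat_lit 32708177740) (nat_lit 76) (nat_lit 29210029660) (nat_lit 18) (nat_lit 5) (nat_lit 20) (nat_lit 5) (nat_lit 19) (nat_lit 4) (nat_lit 289) (nat_lit 271) (nat_lit 220)) (XT.nd (nat_lit 78) (nat_lit 152) (nat_lit 0) (XT.lf (nat_lit 0) (nat_lit 47882033766) (nat_lit 76) (nat_lit 18359525673) (nat_lit 152) (nat_lit 32782394538) (nat_lit 17) (nat_lit 5) (nat_lit 18) (nat_lit 5) (nat_lit 19) (nat_lit 4) (nat_lit 290) (nat_lit 271) (nat_lit 219)) (XT.lf (nat_lit 0) (nat_lit 3239752794) (nat_lit 152) (nat_lit 76510015791) (nat_lit 76) (nat_lit 30124733579) (nat_lit 15) (nat_lit 5) (nat_lit 17) (nat_lit 5) (nat_lit 16) (nat_lit 4) (nat_lit 291) (nat_lit 271) (nat_lit 218)))) (XT.nd (nat_lit 156) (nat_lit 228) (nat_lit 0) (XT.nd (nat_lit 78) (nat_lit 0) (nat_lit 0)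 (XT.lf (nat_lit 0) (nat_lit 10464065177) (nat_lit 76) (nat_lit 34593319083) (nat_lit 152) (nat_lit 77040473782) (nat_lit 14) (nat_lit 5) (nat_lit 15) (nat_lit 5) (nat_lit 16) (nat_lit 4) (nat_lit 292) (nat_lit 271) (nat_lit 217)) (XT.lf (nat_lit 0) (nat_lit 95841610922) (nat_lit 152) (nat_lit 21349526444) (nat_lit 0) (nat_lit 18748067702) (nat_lit 14) (nat_lit 5) (nat_lit 16) (nat_lit 4) (nat_lit 14) (nat_lit 4) (nat_lit 293) (nat_lit 271) (nat_lit 216))) (XT.nd (nat_lit 78) (nat_lit 76) (nat_lit 0) (XT.lf (nat_lit 0) (nat_lit 5358544479) (nat_lit 152) (nat_lit 65952386316) (nat_lit 76) (nat_lit 80293936742) (nat_lit 12) (nat_lit 5) (nat_lit 14) (nat_lit 5) (nat_lit 13) (nat_lit 4) (nat_lit 294) (nat_lit 271) (nat_lit 215)) (XT.lf (nat_lit 0) (nat_lit 41357902927) (nat_lit 76) (nat_lit 15594056370) (nat_lit 152) (nat_lit 112449656631) (nat_lit 11) (nat_lit 5) (nat_lit 12) (nat_lit 5) (nat_lit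 13) (nat_lit 4) (nat_lit 295) (nat_lit 271) (nat_lit 214)))))) (XT.nd (nat_lit 468) (nat_lit 228) (nat_lit 0) (XT.nd (nat_lit 234) (nat_lit 76) (nat_lit 0) (XT.nd (nat_lit 78) (nat_lit 228) (nat_lit 0) (XT.lf (nat_lit 0) (nat_lit 119414020572) (nat_lit 152) (nat_lit 22183598937) (nat_lit 0) (nat_lit 48019888647) (nat_lit 11) (nat_lit 5) (nat_lit 13) (nat_lit 4) (nat_lit 11) (nat_lit 4) (nat_lit 296) (nat_lit 271) (nat_lit 213)) (XT.nd (nat_lit 78) (nat_lit 152) (nat_lit 0) (XT.lf (nat_lit 0) (nat_lit 104332854106) (nat_lit 76) (nat_lit 89847537040) (nat_lit 76) (nat_lit 18450595077) (nat_lit 10) (nat_lit 4) (nat_lit 11) (nat_lit 5) (nat_lit 11) (nat_lit 4) (nat_lit 297) (nat_lit 271) (nat_lit 212)) (XT.lf (nat_lit 0) (nat_lit 11696102074) (nat_lit 76) (nat_lit 28253651555) (nat_lit 152) (nat_lit 198992622688) (nat_lit 8) (nat_lit 5) (nat_lit 9) (nat_lit 5) (nat_lit 10) (nat_lit 4) (nat_lit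 298) (nat_lit 271) (nat_lit 211)))) (XT.nd (nat_lit 78) (nat_lit 76) (nat_lit 0) (XT.lf (nat_lit 0) (nat_lit 110302848556) (nat_lit 152) (nat_lit 114326135829) (nat_lit 0) (nat_lit 44190339048) (nat_lit 8) (nat_lit 5) (nat_lit 10) (nat_lit 4) (nat_lit 8) (nat_lit 4) (nat_lit 299) (nat_lit 271) (nat_lit 210)) (XT.nd (nat_lit 78) (nat_lit 0) (nat_lit 0) (XT.lf (nat_lit 0) (nat_lit 15518779168) (nat_lit 76) (nat_lit 176840608293) (nat_lit 76) (nat_lit 110726388003) (nat_lit 7) (nat_lit 4) (nat_lit 8) (nat_lit 5) (nat_lit 8) (nat_lit 4) (nat_lit 300) (nat_lit 271) (nat_lit 209)) (XT.lf (nat_lit 0) (nat_lit 171756232848) (nat_lit 76) (nat_lit 118292848746) (nat_lit 76) (nat_lit 52177140818) (nat_lit 7) (nat_lit 4) (nat_lit 8) (nat_lit 5) (nat_lit 8) (nat_lit 4) (nat_lit 301) (nat_lit 271) (nat_lit 208))))) (XT.nd (nat_lit 234) (nat_lit 76) (nat_lit 0) (XT.nd (nat_lit 78) (nat_lit 76) (nat_lit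 0) (XT.lf (nat_lit 0) (nat_lit 14393006073) (nat_lit 152) (nat_lit 36179548892) (nat_lit 76) (nat_lit 336636296882) (nat_lit 6) (nat_lit 5) (nat_lit 8) (nat_lit 5) (nat_lit 7) (nat_lit 4) (nat_lit 302) (nat_lit 271) (nat_lit 207)) (XT.nd (nat_lit 78) (nat_lit 0) (nat_lit 0) (XT.lf (nat_lit 0) (nat_lit 91672122172) (nat_lit 152) (nat_lit 316401666175) (nat_lit 0) (nat_lit 30451634771) (nat_lit 5) (nat_lit 5) (nat_lit 7) (nat_lit 4) (nat_lit 5) (nat_lit 4) (nat_lit 303) (nat_lit 271) (nat_lit 206)) (XT.lf (nat_lit 0) (nat_lit 183019746012) (nat_lit 152) (nat_lit 192523250569) (nat_lit 0) (nat_lit 121798352920) (nat_lit 5) (nat_lit 5) (nat_lit 7) (nat_lit 4) (nat_lit 5) (nat_lit 4) (nat_lit 304) (nat_lit 271) (nat_lit 205)))) (XT.nd (nat_lit 156) (nat_lit 0) (nat_lit 0) (XT.nd (nat_lit 78) (nat_lit 76) (nat_lit 0) (XT.lf (nat_lit 0) (nat_lit 288067114007) (nat_lit 152) (nat_lit 50067809996)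 (nat_lit 0) (nat_lit 226844933358) (nat_lit 5) (nat_lit 5) (nat_lit 7) (nat_lit 4) (nat_lit 5) (nat_lit 4) (nat_lit 305) (nat_lit 271) (nat_lit 204)) (XT.lf (nat_lit 0) (nat_lit 119741796841) (nat_lit 76) (nat_lit 292007496999) (nat_lit 76) (nat_lit 230784631518) (nat_lit 4) (nat_lit 4) (nat_lit 5) (nat_lit 5) (nat_lit 5) (nat_lit 4) (nat_lit 306) (nat_lit 271) (nat_lit 203))) (XT.nd (nat_lit 78) (nat_lit 0) (nat_lit 0) (XT.lf (nat_lit 0) (nat_lit 318051028409) (nat_lit 76) (nat_lit 237388537663) (nat_lit 76) (nat_lit 176165076676) (nat_lit 4) (nat_lit 4) (nat_lit 5) (nat_lit 5) (nat_lit 5) (nat_lit 4) (nat_lit 307) (nat_lit 271) (nat_lit 202)) (XT.lf (nat_lit 0) (nat_lit 546103365785) (nat_lit 76) (nat_lit 174578356836) (nat_lit 76) (nat_lit 113354378018) (nat_lit 4) (nat_lit 4) (nat_lit 5) (nat_lit 5) (nat_lit 5) (nat_lit 4) (nat_lit 308) (nat_lit 271) (nat_lit 201))))))) (XT.nd (nat_lit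 1014) (nat_lit 76) (nat_lit 0) (XT.nd (nat_lit 468) (nat_lit 0) (nat_lit 0) (XT.nd (nat_lit 234) (nat_lit 0) (nat_lit 0) (XT.nd (nat_lit 78) (nat_lit 152) (nat_lit 0) (XT.lf (nat_lit 0) (nat_lit 808360702529) (nat_lit 76) (nat_lit 102348059675) (nat_lit 76) (nat_lit 41123630569) (nat_lit 4) (nat_lit 4) (nat_lit 5) (nat_lit 5) (nat_lit 5) (nat_lit 4) (nat_lit 309) (nat_lit 271) (nat_lit 200)) (XT.nd (nat_lit 78) (nat_lit 0) (nat_lit 0) (XT.lf (nat_lit 0) (nat_lit 22787170750) (nat_lit 76) (nat_lit 17603209736) (nat_lit 152) (nat_lit 1046783312802) (nat_lit 2) (nat_lit 5) (nat_lit 3) (nat_lit 5) (nat_lit 4) (nat_lit 4) (nat_lit 310) (nat_lit 271) (nat_lit 199)) (XT.lf (nat_lit 0) (nat_lit 137970538866) (nat_lit 152) (nat_lit 1022977701817) (nat_lit 0) (nat_lit 81280574843) (nat_lit 2) (nat_lit 5) (nat_lit 4) (nat_lit 4) (nat_lit 2) (nat_lit 4) (nat_lit 311) (nat_lit 271) (nat_lit 198))))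 (XT.nd (nat_lit 78) (nat_lit 0) (nat_lit 0) (XT.lf (nat_lit 0) (nat_lit 250673537364) (nat_lit 152) (nat_lit 975846504423) (nat_lit 0) (nat_lit 193983299201) (nat_lit 2) (nat_lit 5) (nat_lit 4) (nat_lit 4) (nat_lit 2) (nat_lit 4) (nat_lit 312) (nat_lit 271) (nat_lit 197)) (XT.nd (nat_lit 78) (nat_lit 0) (nat_lit 0) (XT.lf (nat_lit 0) (nat_lit 380281077030) (nat_lit 152) (nat_lit 921647440614) (nat_lit 0) (nat_lit 323590600484) (nat_lit 2) (nat_lit 5) (nat_lit 4) (nat_lit 4) (nat_lit 2) (nat_lit 4) (nat_lit 313) (nat_lit 271) (nat_lit 196)) (XT.lf (nat_lit 0) (nat_lit 529328957553) (nat_lit 152) (nat_lit 859320093926) (nat_lit 0) (nat_lit 472638273717) (nat_lit 2) (nat_lit 5) (nat_lit 4) (nat_lit 4) (nat_lit 2) (nat_lit 4) (nat_lit 314) (nat_lit 271) (nat_lit 195))))) (XT.nd (nat_lit 234) (nat_lit 0) (nat_lit 0) (XT.nd (nat_lit 78) (nat_lit 0) (nat_lit 0) (XT.lf (nat_lit 0) (nat_lit 700733333116)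 (nat_lit 152) (nat_lit 787645016270) (nat_lit 0) (nat_lit 644042469028) (nat_lit 2) (nat_lit 5) (nat_lit 4) (nat_lit 4) (nat_lit 2) (nat_lit 4) (nat_lit 315) (nat_lit 271) (nat_lit 194)) (XT.nd (nat_lit 78) (nat_lit 0) (nat_lit 0) (XT.lf (nat_lit 0) (nat_lit 897847767590) (nat_lit 152) (nat_lit 705219869172) (nat_lit 0) (nat_lit 841156746761) (nat_lit 2) (nat_lit 5) (nat_lit 4) (nat_lit 4) (nat_lit 2) (nat_lit 4) (nat_lit 316) (nat_lit 271) (nat_lit 193)) (XT.lf (nat_lit 0) (nat_lit 1124528847736) (nat_lit 152) (nat_lit 610431986709) (nat_lit 0) (nat_lit 1067837690611) (nat_lit 2) (nat_lit 5) (nat_lit 4) (nat_lit 4) (nat_lit 2) (nat_lit 4) (nat_lit 317) (nat_lit 271) (nat_lit 192)))) (XT.nd (nat_lit 156) (nat_lit 0) (nat_lit 0) (XT.nd (nat_lit 78) (nat_lit 0) (nat_lit 0) (XT.lf (nat_lit 0) (nat_lit 1385211638165) (nat_lit 152) (nat_lit 501426823355) (nat_lit 0) (nat_lit 1328520362522)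 (nat_lit 2) (nat_lit 5) (nat_lit 4) (nat_lit 4) (nat_lit 2) (nat_lit 4) (nat_lit 318) (nat_lit 271) (nat_lit 191)) (XT.lf (nat_lit 0) (nat_lit 1684996454343) (nat_lit 152) (nat_lit 376071669392) (nat_lit 0) (nat_lit 1628305075640) (nat_lit 2) (nat_lit 5) (nat_lit 4) (nat_lit 4) (nat_lit 2) (nat_lit 4) (nat_lit 319) (nat_lit 271) (nat_lit 190))) (XT.nd (nat_lit 78) (nat_lit 0) (nat_lit 0) (XT.lf (nat_lit 0) (nat_lit 2029748651368) (nat_lit 152) (nat_lit 231913923982) (nat_lit 0) (nat_lit 1973057183048) (nat_lit 2) (nat_lit 5) (nat_lit 4) (nat_lit 4) (nat_lit 2) (nat_lit 4) (nat_lit 320) (nat_lit 271) (nat_lit 189)) (XT.lf (nat_lit 0) (nat_lit 2426213380922) (nat_lit 152) (nat_lit 66133109497) (nat_lit 0) (nat_lit 2369521834674) (nat_lit 2) (nat_lit 5) (nat_lit 4) (nat_lit 4) (nat_lit 2) (nat_lit 4) (nat_lit 321) (nat_lit 271) (nat_lit 188)))))) (XT.nd (nat_lit 36738) (nat_lit 0) (nat_lit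 3192) (XT.nd (nat_lit 234) (nat_lit 0) (nat_lit 0) (XT.nd (nat_lit 78) (nat_lit 0) (nat_lit 0) (XT.lf (nat_lit 0) (nat_lit 131071014734) (nat_lit 76) (nat_lit 2754228807949) (nat_lit 76) (nat_lit 2697537193938) (nat_lit 1) (nat_lit 4) (nat_lit 2) (nat_lit 5) (nat_lit 2) (nat_lit 4) (nat_lit 322) (nat_lit 271) (nat_lit 187)) (XT.nd (nat_lit 78) (nat_lit 0) (nat_lit 0) (XT.lf (nat_lit 0) (nat_lit 361860106005) (nat_lit 76) (nat_lit 3053314283089) (nat_lit 76) (nat_lit 2996622610153) (nat_lit 1) (nat_lit 4) (nat_lit 2) (nat_lit 5) (nat_lit 2) (nat_lit 4) (nat_lit 323) (nat_lit 271) (nat_lit 186)) (XT.lf (nat_lit 0) (nat_lit 627267150711) (nat_lit 76) (nat_lit 3397262784590) (nat_lit 76) (nat_lit 3340571060416) (nat_lit 1) (nat_lit 4) (nat_lit 2) (nat_lit 5) (nat_lit 2) (nat_lit 4) (nat_lit 324) (nat_lit 271) (nat_lit 185)))) (XT.nd (nat_lit 78) (nat_lit 0) (nat_lit 0) (XT.lf (nat_lit 0) (nat_lit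 932484895378) (nat_lit 76) (nat_lit 3792803739657) (nat_lit 76) (nat_lit 3736111970927) (nat_lit 1) (nat_lit 4) (nat_lit 2) (nat_lit 5) (nat_lit 2) (nat_lit 4) (nat_lit 325) (nat_lit 271) (nat_lit 184)) (XT.nd (nat_lit 78) (nat_lit 0) (nat_lit 0) (XT.lf (nat_lit 0) (nat_lit 1283484991532) (nat_lit 76) (nat_lit 4247675993063) (nat_lit 76) (nat_lit 4190984185589) (nat_lit 1) (nat_lit 4) (nat_lit 2) (nat_lit 5) (nat_lit 2) (nat_lit 4) (nat_lit 326) (nat_lit 271) (nat_lit 183)) (XT.lf (nat_lit 0) (nat_lit 1687134832358) (nat_lit 76) (nat_lit 4770779219330) (nat_lit 76) (nat_lit 4714087378165) (nat_lit 1) (nat_lit 4) (nat_lit 2) (nat_lit 5) (nat_lit 2) (nat_lit 4) (nat_lit 327) (nat_lit 271) (nat_lit 182))))) (XT.nd (nat_lit 234) (nat_lit 836) (nat_lit 0) (XT.nd (nat_lit 78) (nat_lit 0) (nat_lit 0) (XT.lf (nat_lit 0) (nat_lit 7850427665) (nat_lit 532) (nat_lit 1547792093) (nat_lit 532) (nat_lit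 1547792093) (nat_lit 54) (nat_lit 3) (nat_lit 61) (nat_lit 3) (nat_lit 61) (nat_lit 5) (nat_lit 272) (nat_lit 272) (nat_lit 236)) (XT.nd (nat_lit 78) (nat_lit 0) (nat_lit 76) (XT.lf (nat_lit 76) (nat_lit 17195999358) (nat_lit 0) (nat_lit 325669084) (nat_lit 532) (nat_lit 5960377557) (nat_lit 55) (nat_lit 5) (nat_lit 54) (nat_lit 3) (nat_lit 61) (nat_lit 5) (nat_lit 273) (nat_lit 272) (nat_lit 235)) (XT.lf (nat_lit 76) (nat_lit 15666648343) (nat_lit 0) (nat_lit 4880208151) (nat_lit 532) (nat_lit 4689289615) (nat_lit 56) (nat_lit 5) (nat_lit 55) (nat_lit 5) (nat_lit 62) (nat_lit 5) (nat_lit 274) (nat_lit 272) (nat_lit 234)))) (XT.nd (nat_lit 156) (nat_lit 532) (nat_lit 0) (XT.nd (nat_lit 78) (nat_lit 456) (nat_lit 0) (XT.lf (nat_lit 76) (nat_lit 14323434040) (nat_lit 0) (nat_lit 10613101033) (nat_lit 532) (nat_lit 2244034137) (nat_lit 57) (nat_lit 5) (nat_lit 56) (nat_lit 5) (nat_lit 63)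 (nat_lit 5) (nat_lit 275) (nat_lit 272) (nat_lit 233)) (XT.lf (nat_lit 0) (nat_lit 1545719457) (nat_lit 532) (nat_lit 16176407844) (nat_lit 76) (nat_lit 11612998011) (nat_lit 50) (nat_lit 5) (nat_lit 57) (nat_lit 5) (nat_lit 51) (nat_lit 5) (nat_lit 276) (nat_lit 272) (nat_lit 232))) (XT.nd (nat_lit 78) (nat_lit 228) (nat_lit 0) (XT.lf (nat_lit 0) (nat_lit 6853173555) (nat_lit 380) (nat_lit 19571781357) (nat_lit 76) (nat_lit 5296723726) (nat_lit 46) (nat_lit 5) (nat_lit 51) (nat_lit 5) (nat_lit 47) (nat_lit 5) (nat_lit 277) (nat_lit 272) (nat_lit 231)) (XT.lf (nat_lit 0) (nat_lit 11312313396) (nat_lit 228) (nat_lit 2864000088) (nat_lit 304) (nat_lit 20192375610) (nat_lit 43) (nat_lit 5) (nat_lit 46) (nat_lit 5) (nat_lit 47) (nat_lit 5) (nat_lit 278) (nat_lit 272) (nat_lit 230))))))))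
noncomputable def xc38 : XT := (XT.nd (nat_lit 2028) (nat_lit 304) (nat_lit 0) (XT.nd (nat_lit 1014) (nat_lit 912) (nat_lit 0) (XT.nd (nat_lit 468) (nat_lit 760) (nat_lit 0) (XT.nd (nat_lit 234) (nat_lit 532) (nat_lit 0) (XT.nd (nat_lit 78) (nat_lit 456) (nat_lit 0) (XT.lf (nat_lit 0) (nat_lit 10550369041) (nat_lit 228) (nat_lit 13445545250) (nat_lit 304) (nat_lit 13305032025) (nat_lit 40) (nat_lit 5) (nat_lit 43) (nat_lit 5) (nat_lit 44) (nat_lit 5) (nat_lit 279) (nat_lit 272) (nat_lit 229)) (XT.nd (nat_lit 78) (nat_lit 304) (nat_lit 0) (XT.lf (nat_lit 0) (nat_lit 10024969762) (nat_lit 152) (nat_lit 26580366060) (nat_lit 228) (nat_lit 3962385757) (nat_lit 38) (nat_lit 5) (nat_lit 40) (nat_lit 5) (nat_lit 41) (nat_lit 5) (nat_lit 280) (nat_lit 272) (nat_lit 228)) (XT.lf (nat_lit 0) (nat_lit 7866457658) (nat_lit 304) (nat_lit 34669756887) (nat_lit 76) (nat_lit 1661351047) (nat_lit 34) (nat_lit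 5) (nat_lit 38) (nat_lit 5) (nat_lit 35) (nat_lit 5) (nat_lit 281) (nat_lit 272) (nat_lit 227)))) (XT.nd (nat_lit 78) (nat_lit 380) (nat_lit 0) (XT.lf (nat_lit 0) (nat_lit 8701031211) (nat_lit 152) (nat_lit 14380020573) (nat_lit 228) (nat_lit 25134938499) (nat_lit 32) (nat_lit 5) (nat_lit 34) (nat_lit 5) (nat_lit 35) (nat_lit 5) (nat_lit 282) (nat_lit 272) (nat_lit 226)) (XT.nd (nat_lit 78) (nat_lit 228) (nat_lit 0) (XT.lf (nat_lit 0) (nat_lit 7829833656) (nat_lit 152) (nat_lit 34389012408) (nat_lit 228) (nat_lit 10487069938) (nat_lit 30) (nat_lit 5) (nat_lit 32) (nat_lit 5) (nat_lit 33) (nat_lit 5) (nat_lit 283) (nat_lit 272) (nat_lit 225)) (XT.lf (nat_lit 0) (nat_lit 6620577939) (nat_lit 152) (nat_lit 1141990896) (nat_lit 228) (nat_lit 49956732296) (nat_lit 27) (nat_lit 5) (nat_lit 29) (nat_lit 5) (nat_lit 30) (nat_lit 5) (nat_lit 284) (nat_lit 272) (nat_lit 224))))) (XT.nd (nat_lit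 234) (nat_lit 456) (nat_lit 0) (XT.nd (nat_lit 78) (nat_lit 152) (nat_lit 0) (XT.lf (nat_lit 0) (nat_lit 4149562657) (nat_lit 152) (nat_lit 26315747717) (nat_lit 228) (nat_lit 32810676407) (nat_lit 25) (nat_lit 5) (nat_lit 27) (nat_lit 5) (nat_lit 28) (nat_lit 5) (nat_lit 285) (nat_lit 272) (nat_lit 223)) (XT.nd (nat_lit 78) (nat_lit 76) (nat_lit 0) (XT.lf (nat_lit 0) (nat_lit 923268174) (nat_lit 76) (nat_lit 57482946636) (nat_lit 152) (nat_lit 11113351419) (nat_lit 24) (nat_lit 5) (nat_lit 25) (nat_lit 5) (nat_lit 26) (nat_lit 4) (nat_lit 286) (nat_lit 272) (nat_lit 222)) (XT.lf (nat_lit 0) (nat_lit 15628853627) (nat_lit 152) (nat_lit 4125415306) (nat_lit 76) (nat_lit 56720193726) (nat_lit 23) (nat_lit 5) (nat_lit 25) (nat_lit 5) (nat_lit 24) (nat_lit 5) (nat_lit 287) (nat_lit 272) (nat_lit 221)))) (XT.nd (nat_lit 156) (nat_lit 228) (nat_lit 0) (XT.nd (nat_lit 78) (nat_lit 76) (nat_lit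 0) (XT.lf (nat_lit 0) (nat_lit 48119553992) (nat_lit 228) (nat_lit 11567636752) (nat_lit 76) (nat_lit 24570701974) (nat_lit 21) (nat_lit 5) (nat_lit 24) (nat_lit 5) (nat_lit 22) (nat_lit 4) (nat_lit 288) (nat_lit 272) (nat_lit 220)) (XT.lf (nat_lit 0) (nat_lit 71068834128) (nat_lit 76) (nat_lit 16784681501) (nat_lit 152) (nat_lit 5165755907) (nat_lit 20) (nat_lit 5) (nat_lit 21) (nat_lit 5) (nat_lit 22) (nat_lit 4) (nat_lit 289) (nat_lit 272) (nat_lit 219))) (XT.nd (nat_lit 78) (nat_lit 76) (nat_lit 0) (XT.lf (nat_lit 0) (nat_lit 31712892712) (nat_lit 152) (nat_lit 37440258410) (nat_lit 76) (nat_lit 33660436688) (nat_lit 18) (nat_lit 5) (nat_lit 20) (nat_lit 5) (nat_lit 19) (nat_lit 4) (nat_lit 290) (nat_lit 272) (nat_lit 218)) (XT.lf (nat_lit 0) (nat_lit 55223744231) (nat_lit 76) (nat_lit 21042572771) (nat_lit 152) (nat_lit 37604097309) (nat_lit 17) (nat_lit 5) (nat_lit 18) (nat_lit 5)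 (nat_lit 19) (nat_lit 4) (nat_lit 291) (nat_lit 272) (nat_lit 217)))))) (XT.nd (nat_lit 468) (nat_lit 456) (nat_lit 0) (XT.nd (nat_lit 234) (nat_lit 228) (nat_lit 0) (XT.nd (nat_lit 78) (nat_lit 76) (nat_lit 0) (XT.lf (nat_lit 0) (nat_lit 3809978029) (nat_lit 152) (nat_lit 87831158971) (nat_lit 76) (nat_lit 34707758544) (nat_lit 15) (nat_lit 5) (nat_lit 17) (nat_lit 5) (nat_lit 16) (nat_lit 4) (nat_lit 292) (nat_lit 272) (nat_lit 216)) (XT.nd (nat_lit 78) (nat_lit 0) (nat_lit 0) (XT.lf (nat_lit 0) (nat_lit 12175883761) (nat_lit 76) (nat_lit 39716799843) (nat_lit 152) (nat_lit 88513682192) (nat_lit 14) (nat_lit 5) (nat_lit 15) (nat_lit 5) (nat_lit 16) (nat_lit 4) (nat_lit 293) (nat_lit 272) (nat_lit 215)) (XT.lf (nat_lit 0) (nat_lit 110285911163) (nat_lit 152) (nat_lit 24424299695) (nat_lit 0) (nat_lit 21614399311) (nat_lit 14) (nat_lit 5) (nat_lit 16) (nat_lit 4) (nat_lit 14) (nat_lit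 4) (nat_lit 294) (nat_lit 272) (nat_lit 214)))) (XT.nd (nat_lit 78) (nat_lit 76) (nat_lit 0) (XT.lf (nat_lit 0) (nat_lit 6225953554) (nat_lit 152) (nat_lit 75725018525) (nat_lit 76) (nat_lit 92389510459) (nat_lit 12) (nat_lit 5) (nat_lit 14) (nat_lit 5) (nat_lit 13) (nat_lit 4) (nat_lit 295) (nat_lit 272) (nat_lit 213)) (XT.nd (nat_lit 78) (nat_lit 0) (nat_lit 0) (XT.lf (nat_lit 0) (nat_lit 47671637594) (nat_lit 76) (nat_lit 17881090460) (nat_lit 152) (nat_lit 129254470590) (nat_lit 11) (nat_lit 5) (nat_lit 12) (nat_lit 5) (nat_lit 13) (nat_lit 4) (nat_lit 296) (nat_lit 272) (nat_lit 212)) (XT.lf (nat_lit 0) (nat_lit 137377625617) (nat_lit 152) (nat_lit 25412480942) (nat_lit 0) (nat_lit 55265888809) (nat_lit 11) (nat_lit 5) (nat_lit 13) (nat_lit 4) (nat_lit 11) (nat_lit 4) (nat_lit 297) (nat_lit 272) (nat_lit 211))))) (XT.nd (nat_lit 234) (nat_lit 228) (nat_lit 0) (XT.nd (nat_lit 78) (nat_lit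 152) (nat_lit 0) (XT.lf (nat_lit 0) (nat_lit 120073089164) (nat_lit 76) (nat_lit 103281316851) (nat_lit 76) (nat_lit 21167455250) (nat_lit 10) (nat_lit 4) (nat_lit 11) (nat_lit 5) (nat_lit 11) (nat_lit 4) (nat_lit 298) (nat_lit 272) (nat_lit 210)) (XT.nd (nat_lit 78) (nat_lit 0) (nat_lit 0) (XT.lf (nat_lit 0) (nat_lit 13535517064) (nat_lit 76) (nat_lit 32450649431) (nat_lit 152) (nat_lit 228794037083) (nat_lit 8) (nat_lit 5) (nat_lit 9) (nat_lit 5) (nat_lit 10) (nat_lit 4) (nat_lit 299) (nat_lit 272) (nat_lit 209)) (XT.lf (nat_lit 0) (nat_lit 126887351553) (nat_lit 152) (nat_lit 131398933060) (nat_lit 0) (nat_lit 50852799799) (nat_lit 8) (nat_lit 5) (nat_lit 10) (nat_lit 4) (nat_lit 8) (nat_lit 4) (nat_lit 300) (nat_lit 272) (nat_lit 208)))) (XT.nd (nat_lit 156) (nat_lit 152) (nat_lit 0) (XT.nd (nat_lit 78) (nat_lit 0) (nat_lit 0) (XT.lf (nat_lit 0) (nat_lit 17916275742) (nat_lit 76) (nat_lit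 203332674518) (nat_lit 76) (nat_lit 127296829166) (nat_lit 7) (nat_lit 4) (nat_lit 8) (nat_lit 5) (nat_lit 8) (nat_lit 4) (nat_lit 301) (nat_lit 272) (nat_lit 207)) (XT.lf (nat_lit 0) (nat_lit 197580258818) (nat_lit 76) (nat_lit 136007189085) (nat_lit 76) (nat_lit 59970218866) (nat_lit 7) (nat_lit 4) (nat_lit 8) (nat_lit 5) (nat_lit 8) (nat_lit 4) (nat_lit 302) (nat_lit 272) (nat_lit 206))) (XT.nd (nat_lit 78) (nat_lit 76) (nat_lit 0) (XT.lf (nat_lit 0) (nat_lit 16579624476) (nat_lit 152) (nat_lit 41552329453) (nat_lit 76) (nat_lit 387156005307) (nat_lit 6) (nat_lit 5) (nat_lit 8) (nat_lit 5) (nat_lit 7) (nat_lit 4) (nat_lit 303) (nat_lit 272) (nat_lit 205)) (XT.lf (nat_lit 0) (nat_lit 105448776132) (nat_lit 152) (nat_lit 363810906696) (nat_lit 0) (nat_lit 35042480829) (nat_lit 5) (nat_lit 5) (nat_lit 7) (nat_lit 4) (nat_lit 5) (nat_lit 4) (nat_lit 304) (nat_lit 272) (nat_lit 204)))))))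 (XT.nd (nat_lit 1014) (nat_lit 76) (nat_lit 0) (XT.nd (nat_lit 468) (nat_lit 152) (nat_lit 0) (XT.nd (nat_lit 234) (nat_lit 0) (nat_lit 0) (XT.nd (nat_lit 78) (nat_lit 76) (nat_lit 0) (XT.lf (nat_lit 0) (nat_lit 210495173683) (nat_lit 152) (nat_lit 221357382149) (nat_lit 0) (nat_lit 140088193548) (nat_lit 5) (nat_lit 5) (nat_lit 7) (nat_lit 4) (nat_lit 5) (nat_lit 4) (nat_lit 305) (nat_lit 272) (nat_lit 203)) (XT.nd (nat_lit 78) (nat_lit 76) (nat_lit 0) (XT.lf (nat_lit 0) (nat_lit 331296716559) (nat_lit 152) (nat_lit 57539411056) (nat_lit 0) (nat_lit 260889140918) (nat_lit 5) (nat_lit 5) (nat_lit 7) (nat_lit 4) (nat_lit 5) (nat_lit 4) (nat_lit 306) (nat_lit 272) (nat_lit 202)) (XT.lf (nat_lit 0) (nat_lit 137738372011) (nat_lit 76) (nat_lit 335791152356) (nat_lit 76) (nat_lit 265383058883) (nat_lit 4) (nat_lit 4) (nat_lit 5) (nat_lit 5) (nat_lit 5) (nat_lit 4) (nat_lit 307) (nat_lit 272)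 (nat_lit 201)))) (XT.nd (nat_lit 78) (nat_lit 0) (nat_lit 0) (XT.lf (nat_lit 0) (nat_lit 365789383229) (nat_lit 76) (nat_lit 272981627710) (nat_lit 76) (nat_lit 202573083949) (nat_lit 4) (nat_lit 4) (nat_lit 5) (nat_lit 5) (nat_lit 5) (nat_lit 4) (nat_lit 308) (nat_lit 272) (nat_lit 200)) (XT.nd (nat_lit 78) (nat_lit 0) (nat_lit 0) (XT.lf (nat_lit 0) (nat_lit 628045566792) (nat_lit 76) (nat_lit 200751901142) (nat_lit 76) (nat_lit 130342965826) (nat_lit 4) (nat_lit 4) (nat_lit 5) (nat_lit 5) (nat_lit 5) (nat_lit 4) (nat_lit 309) (nat_lit 272) (nat_lit 199)) (XT.lf (nat_lit 0) (nat_lit 929638021942) (nat_lit 76) (nat_lit 117688782349) (nat_lit 76) (nat_lit 47279506550) (nat_lit 4) (nat_lit 4) (nat_lit 5) (nat_lit 5) (nat_lit 5) (nat_lit 4) (nat_lit 310) (nat_lit 272) (nat_lit 198))))) (XT.nd (nat_lit 234) (nat_lit 0) (nat_lit 0) (XT.nd (nat_lit 78) (nat_lit 0) (nat_lit 0) (XT.lf (nat_lit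 0) (nat_lit 26227077763) (nat_lit 76) (nat_lit 20232849945) (nat_lit 152) (nat_lit 1203788938246) (nat_lit 2) (nat_lit 5) (nat_lit 3) (nat_lit 5) (nat_lit 4) (nat_lit 4) (nat_lit 311) (nat_lit 272) (nat_lit 197)) (XT.nd (nat_lit 78) (nat_lit 0) (nat_lit 0) (XT.lf (nat_lit 0) (nat_lit 158675903071) (nat_lit 152) (nat_lit 1176404833615) (nat_lit 0) (nat_lit 93481616659) (nat_lit 2) (nat_lit 5) (nat_lit 4) (nat_lit 4) (nat_lit 2) (nat_lit 4) (nat_lit 312) (nat_lit 272) (nat_lit 196)) (XT.lf (nat_lit 0) (nat_lit 288283075252) (nat_lit 152) (nat_lit 1122206503152) (nat_lit 0) (nat_lit 223088581550) (nat_lit 2) (nat_lit 5) (nat_lit 4) (nat_lit 4) (nat_lit 2) (nat_lit 4) (nat_lit 313) (nat_lit 272) (nat_lit 195)))) (XT.nd (nat_lit 156) (nat_lit 0) (nat_lit 0) (XT.nd (nat_lit 78) (nat_lit 0) (nat_lit 0) (XT.lf (nat_lit 0) (nat_lit 437330636222) (nat_lit 152) (nat_lit 1059879794155) (nat_lit 0)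 (nat_lit 372135962269) (nat_lit 2) (nat_lit 5) (nat_lit 4) (nat_lit 4) (nat_lit 2) (nat_lit 4) (nat_lit 314) (nat_lit 272) (nat_lit 194)) (XT.lf (nat_lit 0) (nat_lit 608734733914) (nat_lit 152) (nat_lit 988205271013) (nat_lit 0) (nat_lit 543539903220) (nat_lit 2) (nat_lit 5) (nat_lit 4) (nat_lit 4) (nat_lit 2) (nat_lit 4) (nat_lit 315) (nat_lit 272) (nat_lit 193))) (XT.nd (nat_lit 78) (nat_lit 0) (nat_lit 0) (XT.lf (nat_lit 0) (nat_lit 805848926760) (nat_lit 152) (nat_lit 905780606101) (nat_lit 0) (nat_lit 740653959770) (nat_lit 2) (nat_lit 5) (nat_lit 4) (nat_lit 4) (nat_lit 2) (nat_lit 4) (nat_lit 316) (nat_lit 272) (nat_lit 192)) (XT.lf (nat_lit 0) (nat_lit 1032529796795) (nat_lit 152) (nat_lit 810993142930) (nat_lit 0) (nat_lit 967334711286) (nat_lit 2) (nat_lit 5) (nat_lit 4) (nat_lit 4) (nat_lit 2) (nat_lit 4) (nat_lit 317) (nat_lit 272) (nat_lit 191)))))) (XT.nd (nat_lit 468) (nat_lit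 0) (nat_lit 0) (XT.nd (nat_lit 234) (nat_lit 76) (nat_lit 0) (XT.nd (nat_lit 78) (nat_lit 0) (nat_lit 0) (XT.lf (nat_lit 0) (nat_lit 1293212404519) (nat_lit 152) (nat_lit 701988344178) (nat_lit 0) (nat_lit 1228017215951) (nat_lit 2) (nat_lit 5) (nat_lit 4) (nat_lit 4) (nat_lit 2) (nat_lit 4) (nat_lit 318) (nat_lit 272) (nat_lit 190)) (XT.nd (nat_lit 78) (nat_lit 0) (nat_lit 0) (XT.lf (nat_lit 0) (nat_lit 1592997061823) (nat_lit 152) (nat_lit 576633507261) (nat_lit 0) (nat_lit 1527801783638) (nat_lit 2) (nat_lit 5) (nat_lit 4) (nat_lit 4) (nat_lit 2) (nat_lit 4) (nat_lit 319) (nat_lit 272) (nat_lit 189)) (XT.lf (nat_lit 0) (nat_lit 1937749120697) (nat_lit 152) (nat_lit 432476037542) (nat_lit 0) (nat_lit 1872553764584) (nat_lit 2) (nat_lit 5) (nat_lit 4) (nat_lit 4) (nat_lit 2) (nat_lit 4) (nat_lit 320) (nat_lit 272) (nat_lit 188)))) (XT.nd (nat_lit 78) (nat_lit 76) (nat_lit 0) (XT.lf (nat_lit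 0) (nat_lit 2334213730120) (nat_lit 152) (nat_lit 266695462789) (nat_lit 0) (nat_lit 2269018306243) (nat_lit 2) (nat_lit 5) (nat_lit 4) (nat_lit 4) (nat_lit 2) (nat_lit 4) (nat_lit 321) (nat_lit 272) (nat_lit 187)) (XT.nd (nat_lit 78) (nat_lit 76) (nat_lit 0) (XT.lf (nat_lit 0) (nat_lit 2790147806361) (nat_lit 152) (nat_lit 76048250018) (nat_lit 0) (nat_lit 2724952323560) (nat_lit 2) (nat_lit 5) (nat_lit 4) (nat_lit 4) (nat_lit 2) (nat_lit 4) (nat_lit 322) (nat_lit 272) (nat_lit 186)) (XT.lf (nat_lit 0) (nat_lit 150736084359) (nat_lit 76) (nat_lit 3167360920835) (nat_lit 76) (nat_lit 3102165386795) (nat_lit 1) (nat_lit 4) (nat_lit 2) (nat_lit 5) (nat_lit 2) (nat_lit 4) (nat_lit 323) (nat_lit 272) (nat_lit 185))))) (XT.nd (nat_lit 234) (nat_lit 0) (nat_lit 0) (XT.nd (nat_lit 78) (nat_lit 0) (nat_lit 0) (XT.lf (nat_lit 0) (nat_lit 416142963137) (nat_lit 76) (nat_lit 3511309505286) (nat_lit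 76) (nat_lit 3446113926690) (nat_lit 1) (nat_lit 4) (nat_lit 2) (nat_lit 5) (nat_lit 2) (nat_lit 4) (nat_lit 324) (nat_lit 272) (nat_lit 184)) (XT.nd (nat_lit 78) (nat_lit 0) (nat_lit 0) (XT.lf (nat_lit 0) (nat_lit 721360563519) (nat_lit 76) (nat_lit 3906850532482) (nat_lit 76) (nat_lit 3841654915143) (nat_lit 1) (nat_lit 4) (nat_lit 2) (nat_lit 5) (nat_lit 2) (nat_lit 4) (nat_lit 325) (nat_lit 272) (nat_lit 183)) (XT.lf (nat_lit 0) (nat_lit 1072360534207) (nat_lit 76) (nat_lit 4361722848609) (nat_lit 76) (nat_lit 4296527197579) (nat_lit 1) (nat_lit 4) (nat_lit 2) (nat_lit 5) (nat_lit 2) (nat_lit 4) (nat_lit 326) (nat_lit 272) (nat_lit 182)))) (XT.nd (nat_lit 36504) (nat_lit 0) (nat_lit 4028) (XT.nd (nat_lit 36426) (nat_lit 0) (nat_lit 4028) (XT.lf (nat_lit 0) (nat_lit 1476010265933) (nat_lit 76) (nat_lit 4884826129416) (nat_lit 76) (nat_lit 4819630449090) (nat_lit 1) (nat_lit 4) (nat_lit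 2) (nat_lit 5) (nat_lit 2) (nat_lit 4) (nat_lit 327) (nat_lit 272) (nat_lit 181)) (XT.lf (nat_lit 0) (nat_lit 9248165823) (nat_lit 532) (nat_lit 1660865847) (nat_lit 532) (nat_lit 1660865847) (nat_lit 54) (nat_lit 3) (nat_lit 61) (nat_lit 3) (nat_lit 61) (nat_lit 5) (nat_lit 273) (nat_lit 273) (nat_lit 234))) (XT.nd (nat_lit 78) (nat_lit 0) (nat_lit 76) (XT.lf (nat_lit 76) (nat_lit 19993427774) (nat_lit 0) (nat_lit 544645846) (nat_lit 532) (nat_lit 6434527426) (nat_lit 55) (nat_lit 5) (nat_lit 54) (nat_lit 3) (nat_lit 61) (nat_lit 5) (nat_lit 274) (nat_lit 273) (nat_lit 233)) (XT.lf (nat_lit 76) (nat_lit 18249028511) (nat_lit 0) (nat_lit 5719413417) (nat_lit 532) (nat_lit 5025353315) (nat_lit 56) (nat_lit 5) (nat_lit 55) (nat_lit 5) (nat_lit 62) (nat_lit 5) (nat_lit 275) (nat_lit 273) (nat_lit 232))))))))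
noncomputable def xc39 : XT := (XT.nd (nat_lit 2028) (nat_lit 532) (nat_lit 0) (XT.nd (nat_lit 1014) (nat_lit 1140) (nat_lit 0) (XT.nd (nat_lit 468) (nat_lit 1140) (nat_lit 0) (XT.nd (nat_lit 234) (nat_lit 608) (nat_lit 0) (XT.nd (nat_lit 78) (nat_lit 760) (nat_lit 0) (XT.lf (nat_lit 76) (nat_lit 16712443324) (nat_lit 0) (nat_lit 12263381485) (nat_lit 532) (nat_lit 2257396132) (nat_lit 57) (nat_lit 5) (nat_lit 56) (nat_lit 5) (nat_lit 63) (nat_lit 5) (nat_lit 276) (nat_lit 273) (nat_lit 231)) (XT.nd (nat_lit 78) (nat_lit 304) (nat_lit 0) (XT.lf (nat_lit 0) (nat_lit 2049361682) (nat_lit 532) (nat_lit 18344344724) (nat_lit 76) (nat_lit 13319519120) (nat_lit 50) (nat_lit 5) (nat_lit 57) (nat_lit 5) (nat_lit 51) (nat_lit 5) (nat_lit 277) (nat_lit 273) (nat_lit 230)) (XT.lf (nat_lit 0) (nat_lit 8123045518) (nat_lit 380) (nat_lit 22251045247) (nat_lit 76) (nat_lit 6086117699) (nat_lit 46) (nat_lit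 5) (nat_lit 51) (nat_lit 5) (nat_lit 47) (nat_lit 5) (nat_lit 278) (nat_lit 273) (nat_lit 229)))) (XT.nd (nat_lit 78) (nat_lit 380) (nat_lit 0) (XT.lf (nat_lit 0) (nat_lit 13243951992) (nat_lit 228) (nat_lit 3274799545) (nat_lit 304) (nat_lit 22987639642) (nat_lit 43) (nat_lit 5) (nat_lit 46) (nat_lit 5) (nat_lit 47) (nat_lit 5) (nat_lit 279) (nat_lit 273) (nat_lit 228)) (XT.nd (nat_lit 78) (nat_lit 152) (nat_lit 0) (XT.lf (nat_lit 0) (nat_lit 12363539581) (nat_lit 228) (nat_lit 15425519619) (nat_lit 304) (nat_lit 15091248446) (nat_lit 40) (nat_lit 5) (nat_lit 43) (nat_lit 5) (nat_lit 44) (nat_lit 5) (nat_lit 280) (nat_lit 273) (nat_lit 227)) (XT.lf (nat_lit 0) (nat_lit 11753443459) (nat_lit 152) (nat_lit 30517353270) (nat_lit 228) (nat_lit 4367866769) (nat_lit 38) (nat_lit 5) (nat_lit 40) (nat_lit 5) (nat_lit 41) (nat_lit 5) (nat_lit 281) (nat_lit 273) (nat_lit 226))))) (XT.nd (nat_lit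 234) (nat_lit 532) (nat_lit 0) (XT.nd (nat_lit 78) (nat_lit 304) (nat_lit 0) (XT.lf (nat_lit 0) (nat_lit 9208894957) (nat_lit 304) (nat_lit 39643852195) (nat_lit 76) (nat_lit 1961259752) (nat_lit 34) (nat_lit 5) (nat_lit 38) (nat_lit 5) (nat_lit 35) (nat_lit 5) (nat_lit 282) (nat_lit 273) (nat_lit 225)) (XT.nd (nat_lit 78) (nat_lit 152) (nat_lit 0) (XT.lf (nat_lit 0) (nat_lit 10213393175) (nat_lit 152) (nat_lit 16476076805) (nat_lit 228) (nat_lit 28747047547) (nat_lit 32) (nat_lit 5) (nat_lit 34) (nat_lit 5) (nat_lit 35) (nat_lit 5) (nat_lit 283) (nat_lit 273) (nat_lit 224)) (XT.lf (nat_lit 0) (nat_lit 9203501672) (nat_lit 152) (nat_lit 39481419463) (nat_lit 228) (nat_lit 11916074184) (nat_lit 30) (nat_lit 5) (nat_lit 32) (nat_lit 5) (nat_lit 33) (nat_lit 5) (nat_lit 284) (nat_lit 273) (nat_lit 223)))) (XT.nd (nat_lit 156) (nat_lit 152) (nat_lit 0) (XT.nd (nat_lit 78) (nat_lit 152) (nat_lit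 0) (XT.lf (nat_lit 0) (nat_lit 7802718839) (nat_lit 152) (nat_lit 1247782052) (nat_lit 228) (nat_lit 57316692324) (nat_lit 27) (nat_lit 5) (nat_lit 29) (nat_lit 5) (nat_lit 30) (nat_lit 5) (nat_lit 285) (nat_lit 273) (nat_lit 222)) (XT.lf (nat_lit 0) (nat_lit 4952763041) (nat_lit 152) (nat_lit 30195493217) (nat_lit 228) (nat_lit 37609972813) (nat_lit 25) (nat_lit 5) (nat_lit 27) (nat_lit 5) (nat_lit 28) (nat_lit 5) (nat_lit 286) (nat_lit 273) (nat_lit 221))) (XT.nd (nat_lit 78) (nat_lit 76) (nat_lit 0) (XT.lf (nat_lit 0) (nat_lit 1234115652) (nat_lit 76) (nat_lit 66036981368) (nat_lit 152) (nat_lit 12667997901) (nat_lit 24) (nat_lit 5) (nat_lit 25) (nat_lit 5) (nat_lit 26) (nat_lit 4) (nat_lit 287) (nat_lit 273) (nat_lit 220)) (XT.lf (nat_lit 0) (nat_lit 18065995339) (nat_lit 152) (nat_lit 4589391668) (nat_lit 76) (nat_lit 65282747298) (nat_lit 23) (nat_lit 5) (nat_lit 25) (nat_lit 5)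 (nat_lit 24) (nat_lit 5) (nat_lit 288) (nat_lit 273) (nat_lit 219)))))) (XT.nd (nat_lit 468) (nat_lit 456) (nat_lit 0) (XT.nd (nat_lit 234) (nat_lit 304) (nat_lit 0) (XT.nd (nat_lit 78) (nat_lit 228) (nat_lit 0) (XT.lf (nat_lit 0) (nat_lit 55422988845) (nat_lit 228) (nat_lit 13155645557) (nat_lit 76) (nat_lit 28311038900) (nat_lit 21) (nat_lit 5) (nat_lit 24) (nat_lit 5) (nat_lit 22) (nat_lit 4) (nat_lit 289) (nat_lit 273) (nat_lit 218)) (XT.nd (nat_lit 78) (nat_lit 152) (nat_lit 0) (XT.lf (nat_lit 0) (nat_lit 81863841565) (nat_lit 76) (nat_lit 19245289873) (nat_lit 152) (nat_lit 5856768810) (nat_lit 20) (nat_lit 5) (nat_lit 21) (nat_lit 5) (nat_lit 22) (nat_lit 4) (nat_lit 290) (nat_lit 273) (nat_lit 217)) (XT.lf (nat_lit 0) (nat_lit 36543470048) (nat_lit 152) (nat_lit 42924617784) (nat_lit 76) (nat_lit 38761602440) (nat_lit 18) (nat_lit 5) (nat_lit 20) (nat_lit 5) (nat_lit 19) (nat_lit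 4) (nat_lit 291) (nat_lit 273) (nat_lit 216)))) (XT.nd (nat_lit 78) (nat_lit 228) (nat_lit 0) (XT.lf (nat_lit 0) (nat_lit 63627839249) (nat_lit 76) (nat_lit 24145361897) (nat_lit 152) (nat_lit 43172381917) (nat_lit 17) (nat_lit 5) (nat_lit 18) (nat_lit 5) (nat_lit 19) (nat_lit 4) (nat_lit 292) (nat_lit 273) (nat_lit 215)) (XT.nd (nat_lit 78) (nat_lit 76) (nat_lit 0) (XT.lf (nat_lit 0) (nat_lit 4445189150) (nat_lit 152) (nat_lit 100888358951) (nat_lit 76) (nat_lit 39962553650) (nat_lit 15) (nat_lit 5) (nat_lit 17) (nat_lit 5) (nat_lit 16) (nat_lit 4) (nat_lit 293) (nat_lit 273) (nat_lit 214)) (XT.lf (nat_lit 0) (nat_lit 14109796614) (nat_lit 76) (nat_lit 45624779477) (nat_lit 152) (nat_lit 101728078447) (nat_lit 14) (nat_lit 5) (nat_lit 15) (nat_lit 5) (nat_lit 16) (nat_lit 4) (nat_lit 294) (nat_lit 273) (nat_lit 213))))) (XT.nd (nat_lit 234) (nat_lit 228) (nat_lit 0) (XT.nd (nat_lit 78)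 (nat_lit 228) (nat_lit 0) (XT.lf (nat_lit 0) (nat_lit 126880259918) (nat_lit 152) (nat_lit 27991418589) (nat_lit 0) (nat_lit 24897482803) (nat_lit 14) (nat_lit 5) (nat_lit 16) (nat_lit 4) (nat_lit 14) (nat_lit 4) (nat_lit 295) (nat_lit 273) (nat_lit 212)) (XT.nd (nat_lit 78) (nat_lit 76) (nat_lit 0) (XT.lf (nat_lit 0) (nat_lit 7207958044) (nat_lit 152) (nat_lit 86992863374) (nat_lit 76) (nat_lit 106286865729) (nat_lit 12) (nat_lit 5) (nat_lit 14) (nat_lit 5) (nat_lit 13) (nat_lit 4) (nat_lit 296) (nat_lit 273) (nat_lit 211)) (XT.lf (nat_lit 0) (nat_lit 54905596260) (nat_lit 76) (nat_lit 20523878327) (nat_lit 152) (nat_lit 148595280472) (nat_lit 11) (nat_lit 5) (nat_lit 12) (nat_lit 5) (nat_lit 13) (nat_lit 4) (nat_lit 297) (nat_lit 273) (nat_lit 210)))) (XT.nd (nat_lit 156) (nat_lit 152) (nat_lit 0) (XT.nd (nat_lit 78) (nat_lit 76) (nat_lit 0) (XT.lf (nat_lit 0) (nat_lit 158023212339)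 (nat_lit 152) (nat_lit 29149753585) (nat_lit 0) (nat_lit 63588299060) (nat_lit 11) (nat_lit 5) (nat_lit 13) (nat_lit 4) (nat_lit 11) (nat_lit 4) (nat_lit 298) (nat_lit 273) (nat_lit 209)) (XT.lf (nat_lit 0) (nat_lit 138152337561) (nat_lit 76) (nat_lit 118740734987) (nat_lit 76) (nat_lit 24304215059) (nat_lit 10) (nat_lit 4) (nat_lit 11) (nat_lit 5) (nat_lit 11) (nat_lit 4) (nat_lit 299) (nat_lit 273) (nat_lit 208))) (XT.nd (nat_lit 78) (nat_lit 0) (nat_lit 0) (XT.lf (nat_lit 0) (nat_lit 15630116592) (nat_lit 76) (nat_lit 37287207256) (nat_lit 152) (nat_lit 263077241694) (nat_lit 8) (nat_lit 5) (nat_lit 9) (nat_lit 5) (nat_lit 10) (nat_lit 4) (nat_lit 300) (nat_lit 273) (nat_lit 207)) (XT.lf (nat_lit 0) (nat_lit 145950001140) (nat_lit 152) (nat_lit 151051212985) (nat_lit 0) (nat_lit 58506360520) (nat_lit 8) (nat_lit 5) (nat_lit 10) (nat_lit 4) (nat_lit 8) (nat_lit 4) (nat_lit 301) (nat_lit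 273) (nat_lit 206))))))) (XT.nd (nat_lit 1014) (nat_lit 76) (nat_lit 0) (XT.nd (nat_lit 468) (nat_lit 228) (nat_lit 0) (XT.nd (nat_lit 234) (nat_lit 76) (nat_lit 0) (XT.nd (nat_lit 78) (nat_lit 76) (nat_lit 0) (XT.lf (nat_lit 0) (nat_lit 20656404966) (nat_lit 76) (nat_lit 233806847894) (nat_lit 76) (nat_lit 146362229128) (nat_lit 7) (nat_lit 4) (nat_lit 8) (nat_lit 5) (nat_lit 8) (nat_lit 4) (nat_lit 302) (nat_lit 273) (nat_lit 205)) (XT.nd (nat_lit 78) (nat_lit 76) (nat_lit 0) (XT.lf (nat_lit 0) (nat_lit 227263113174) (nat_lit 76) (nat_lit 156385895446) (nat_lit 76) (nat_lit 68940426119) (nat_lit 7) (nat_lit 4) (nat_lit 8) (nat_lit 5) (nat_lit 8) (nat_lit 4) (nat_lit 303) (nat_lit 273) (nat_lit 204)) (XT.lf (nat_lit 0) (nat_lit 19087488747) (nat_lit 152) (nat_lit 47744232351) (nat_lit 76) (nat_lit 445247753092) (nat_lit 6) (nat_lit 5) (nat_lit 8) (nat_lit 5) (nat_lit 7) (nat_lit 4) (nat_lit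 304) (nat_lit 273) (nat_lit 203)))) (XT.nd (nat_lit 78) (nat_lit 0) (nat_lit 0) (XT.lf (nat_lit 0) (nat_lit 121285628003) (nat_lit 152) (nat_lit 418343972262) (nat_lit 0) (nat_lit 40316320510) (nat_lit 5) (nat_lit 5) (nat_lit 7) (nat_lit 4) (nat_lit 5) (nat_lit 4) (nat_lit 305) (nat_lit 273) (nat_lit 202)) (XT.nd (nat_lit 78) (nat_lit 0) (nat_lit 0) (XT.lf (nat_lit 0) (nat_lit 242086437085) (nat_lit 152) (nat_lit 254527449960) (nat_lit 0) (nat_lit 161116611759) (nat_lit 5) (nat_lit 5) (nat_lit 7) (nat_lit 4) (nat_lit 5) (nat_lit 4) (nat_lit 306) (nat_lit 273) (nat_lit 201)) (XT.lf (nat_lit 0) (nat_lit 381005995651) (nat_lit 152) (nat_lit 66141157922) (nat_lit 0) (nat_lit 300035720037) (nat_lit 5) (nat_lit 5) (nat_lit 7) (nat_lit 4) (nat_lit 5) (nat_lit 4) (nat_lit 307) (nat_lit 273) (nat_lit 200))))) (XT.nd (nat_lit 234) (nat_lit 152) (nat_lit 0) (XT.nd (nat_lit 78) (nat_lit 0) (nat_lit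 0) (XT.lf (nat_lit 0) (nat_lit 158425823951) (nat_lit 76) (nat_lit 386146615990) (nat_lit 76) (nat_lit 305175948822) (nat_lit 4) (nat_lit 4) (nat_lit 5) (nat_lit 5) (nat_lit 5) (nat_lit 4) (nat_lit 308) (nat_lit 273) (nat_lit 199)) (XT.nd (nat_lit 78) (nat_lit 0) (nat_lit 0) (XT.lf (nat_lit 0) (nat_lit 420681004747) (nat_lit 76) (nat_lit 313917385589) (nat_lit 76) (nat_lit 232946377938) (nat_lit 4) (nat_lit 4) (nat_lit 5) (nat_lit 5) (nat_lit 5) (nat_lit 4) (nat_lit 309) (nat_lit 273) (nat_lit 198)) (XT.lf (nat_lit 0) (nat_lit 722272587927) (nat_lit 76) (nat_lit 230854698246) (nat_lit 76) (nat_lit 149883394523) (nat_lit 4) (nat_lit 4) (nat_lit 5) (nat_lit 5) (nat_lit 5) (nat_lit 4) (nat_lit 310) (nat_lit 273) (nat_lit 197)))) (XT.nd (nat_lit 156) (nat_lit 0) (nat_lit 0) (XT.nd (nat_lit 78) (nat_lit 152) (nat_lit 0) (XT.lf (nat_lit 0) (nat_lit 1069101278378) (nat_lit 76) (nat_lit 135333414425)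 (nat_lit 76) (nat_lit 54361853249) (nat_lit 4) (nat_lit 4) (nat_lit 5) (nat_lit 5) (nat_lit 5) (nat_lit 4) (nat_lit 311) (nat_lit 273) (nat_lit 196)) (XT.lf (nat_lit 0) (nat_lit 30177647103) (nat_lit 76) (nat_lit 23259579893) (nat_lit 152) (nat_lit 1384348302442) (nat_lit 2) (nat_lit 5) (nat_lit 3) (nat_lit 5) (nat_lit 4) (nat_lit 4) (nat_lit 312) (nat_lit 273) (nat_lit 195))) (XT.nd (nat_lit 78) (nat_lit 0) (nat_lit 0) (XT.lf (nat_lit 0) (nat_lit 182484686169) (nat_lit 152) (nat_lit 1352850796106) (nat_lit 0) (nat_lit 107510630871) (nat_lit 2) (nat_lit 5) (nat_lit 4) (nat_lit 4) (nat_lit 2) (nat_lit 4) (nat_lit 313) (nat_lit 273) (nat_lit 194)) (XT.lf (nat_lit 0) (nat_lit 331531969267) (nat_lit 152) (nat_lit 1290524641623) (nat_lit 0) (nat_lit 256557757229) (nat_lit 2) (nat_lit 5) (nat_lit 4) (nat_lit 4) (nat_lit 2) (nat_lit 4) (nat_lit 314) (nat_lit 273) (nat_lit 193)))))) (XT.nd (nat_lit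 468) (nat_lit 76) (nat_lit 0) (XT.nd (nat_lit 234) (nat_lit 0) (nat_lit 0) (XT.nd (nat_lit 78) (nat_lit 0) (nat_lit 0) (XT.lf (nat_lit 0) (nat_lit 502935825332) (nat_lit 152) (nat_lit 1218850600668) (nat_lit 0) (nat_lit 427961476997) (nat_lit 2) (nat_lit 5) (nat_lit 4) (nat_lit 4) (nat_lit 2) (nat_lit 4) (nat_lit 315) (nat_lit 273) (nat_lit 192)) (XT.nd (nat_lit 78) (nat_lit 0) (nat_lit 0) (XT.lf (nat_lit 0) (nat_lit 700049808067) (nat_lit 152) (nat_lit 1136426355048) (nat_lit 0) (nat_lit 625075341214) (nat_lit 2) (nat_lit 5) (nat_lit 4) (nat_lit 4) (nat_lit 2) (nat_lit 4) (nat_lit 316) (nat_lit 273) (nat_lit 191)) (XT.lf (nat_lit 0) (nat_lit 926730495397) (nat_lit 152) (nat_lit 1041639256479) (nat_lit 0) (nat_lit 851755925484) (nat_lit 2) (nat_lit 5) (nat_lit 4) (nat_lit 4) (nat_lit 2) (nat_lit 4) (nat_lit 317) (nat_lit 273) (nat_lit 190)))) (XT.nd (nat_lit 78) (nat_lit 0) (nat_lit 0)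 (XT.lf (nat_lit 0) (nat_lit 1187412944247) (nat_lit 152) (nat_lit 932634774773) (nat_lit 0) (nat_lit 1112438284717) (nat_lit 2) (nat_lit 5) (nat_lit 4) (nat_lit 4) (nat_lit 2) (nat_lit 4) (nat_lit 318) (nat_lit 273) (nat_lit 189)) (XT.nd (nat_lit 78) (nat_lit 0) (nat_lit 0) (XT.lf (nat_lit 0) (nat_lit 1487197463400) (nat_lit 152) (nat_lit 807280213547) (nat_lit 0) (nat_lit 1412222725942) (nat_lit 2) (nat_lit 5) (nat_lit 4) (nat_lit 4) (nat_lit 2) (nat_lit 4) (nat_lit 319) (nat_lit 273) (nat_lit 188)) (XT.lf (nat_lit 0) (nat_lit 1831949402142) (nat_lit 152) (nat_lit 663122983560) (nat_lit 0) (nat_lit 1756974596921) (nat_lit 2) (nat_lit 5) (nat_lit 4) (nat_lit 4) (nat_lit 2) (nat_lit 4) (nat_lit 320) (nat_lit 273) (nat_lit 187))))) (XT.nd (nat_lit 234) (nat_lit 76) (nat_lit 0) (XT.nd (nat_lit 78) (nat_lit 0) (nat_lit 0) (XT.lf (nat_lit 0) (nat_lit 2228413907103) (nat_lit 152) (nat_lit 497342617270)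 (nat_lit 0) (nat_lit 2153439042956) (nat_lit 2) (nat_lit 5) (nat_lit 4) (nat_lit 4) (nat_lit 2) (nat_lit 4) (nat_lit 321) (nat_lit 273) (nat_lit 186)) (XT.nd (nat_lit 78) (nat_lit 0) (nat_lit 0) (XT.lf (nat_lit 0) (nat_lit 2684347892508) (nat_lit 152) (nat_lit 306695585769) (nat_lit 0) (nat_lit 2609372977123) (nat_lit 2) (nat_lit 5) (nat_lit 4) (nat_lit 4) (nat_lit 2) (nat_lit 4) (nat_lit 322) (nat_lit 273) (nat_lit 185)) (XT.lf (nat_lit 0) (nat_lit 3208671805898) (nat_lit 152) (nat_lit 87451838444) (nat_lit 0) (nat_lit 3133696845958) (nat_lit 2) (nat_lit 5) (nat_lit 4) (nat_lit 4) (nat_lit 2) (nat_lit 4) (nat_lit 323) (nat_lit 273) (nat_lit 184)))) (XT.nd (nat_lit 156) (nat_lit 0) (nat_lit 0) (XT.nd (nat_lit 78) (nat_lit 0) (nat_lit 0) (XT.lf (nat_lit 0) (nat_lit 173349837214) (nat_lit 76) (nat_lit 3642463389164) (nat_lit 76) (nat_lit 3567488390479) (nat_lit 1) (nat_lit 4) (nat_lit 2)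 (nat_lit 5) (nat_lit 2) (nat_lit 4) (nat_lit 324) (nat_lit 273) (nat_lit 183)) (XT.lf (nat_lit 0) (nat_lit 478567312130) (nat_lit 76) (nat_lit 4038004479081) (nat_lit 76) (nat_lit 3963029446707) (nat_lit 1) (nat_lit 4) (nat_lit 2) (nat_lit 5) (nat_lit 2) (nat_lit 4) (nat_lit 325) (nat_lit 273) (nat_lit 182))) (XT.nd (nat_lit 78) (nat_lit 0) (nat_lit 0) (XT.lf (nat_lit 0) (nat_lit 829567173718) (nat_lit 76) (nat_lit 4492876849748) (nat_lit 76) (nat_lit 4417901788078) (nat_lit 1) (nat_lit 4) (nat_lit 2) (nat_lit 5) (nat_lit 2) (nat_lit 4) (nat_lit 326) (nat_lit 273) (nat_lit 181)) (XT.lf (nat_lit 0) (nat_lit 1233216810575) (nat_lit 76) (nat_lit 5015980177982) (nat_lit 76) (nat_lit 4941005090836) (nat_lit 1) (nat_lit 4) (nat_lit 2) (nat_lit 5) (nat_lit 2) (nat_lit 4) (nat_lit 327) (nat_lit 273) (nat_lit 180))))))))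
noncomputable def xc40 : XT := (XT.nd (nat_lit 1950) (nat_lit 684) (nat_lit 0) (XT.nd (nat_lit 936) (nat_lit 1444) (nat_lit 0) (XT.nd (nat_lit 468) (nat_lit 1216) (nat_lit 0) (XT.nd (nat_lit 234) (nat_lit 608) (nat_lit 0) (XT.nd (nat_lit 78) (nat_lit 0) (nat_lit 0) (XT.lf (nat_lit 0) (nat_lit 10801873880) (nat_lit 532) (nat_lit 1819942749) (nat_lit 532) (nat_lit 1819942749) (nat_lit 54) (nat_lit 3) (nat_lit 61) (nat_lit 3) (nat_lit 61) (nat_lit 5) (nat_lit 274) (nat_lit 274) (nat_lit 232)) (XT.nd (nat_lit 78) (nat_lit 0) (nat_lit 76) (XT.lf (nat_lit 76) (nat_lit 23157302819) (nat_lit 0) (nat_lit 754982722) (nat_lit 532) (nat_lit 7082196700) (nat_lit 55) (nat_lit 5) (nat_lit 54) (nat_lit 3) (nat_lit 61) (nat_lit 5) (nat_lit 275) (nat_lit 274) (nat_lit 231)) (XT.lf (nat_lit 76) (nat_lit 21162097658) (nat_lit 0) (nat_lit 6658364404) (nat_lit 532) (nat_lit 5501402253) (nat_lit 56) (nat_lit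 5) (nat_lit 55) (nat_lit 5) (nat_lit 62) (nat_lit 5) (nat_lit 276) (nat_lit 274) (nat_lit 230)))) (XT.nd (nat_lit 78) (nat_lit 760) (nat_lit 0) (XT.lf (nat_lit 76) (nat_lit 19401157972) (nat_lit 0) (nat_lit 14146983451) (nat_lit 532) (nat_lit 2351587310) (nat_lit 57) (nat_lit 5) (nat_lit 56) (nat_lit 5) (nat_lit 63) (nat_lit 5) (nat_lit 277) (nat_lit 274) (nat_lit 229)) (XT.nd (nat_lit 78) (nat_lit 304) (nat_lit 0) (XT.lf (nat_lit 0) (nat_lit 2562273917) (nat_lit 532) (nat_lit 20900514923) (nat_lit 76) (nat_lit 15290657881) (nat_lit 50) (nat_lit 5) (nat_lit 57) (nat_lit 5) (nat_lit 51) (nat_lit 5) (nat_lit 278) (nat_lit 274) (nat_lit 228)) (XT.lf (nat_lit 0) (nat_lit 9524410422) (nat_lit 380) (nat_lit 25394748678) (nat_lit 76) (nat_lit 6995167992) (nat_lit 46) (nat_lit 5) (nat_lit 51) (nat_lit 5) (nat_lit 47) (nat_lit 5) (nat_lit 279) (nat_lit 274) (nat_lit 227))))) (XT.nd (nat_lit 234)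 (nat_lit 608) (nat_lit 0) (XT.nd (nat_lit 78) (nat_lit 380) (nat_lit 0) (XT.lf (nat_lit 0) (nat_lit 15408080961) (nat_lit 228) (nat_lit 3751803556) (nat_lit 304) (nat_lit 26259156244) (nat_lit 43) (nat_lit 5) (nat_lit 46) (nat_lit 5) (nat_lit 47) (nat_lit 5) (nat_lit 280) (nat_lit 274) (nat_lit 226)) (XT.nd (nat_lit 78) (nat_lit 152) (nat_lit 0) (XT.lf (nat_lit 0) (nat_lit 14392448729) (nat_lit 228) (nat_lit 17711478059) (nat_lit 304) (nat_lit 17196494591) (nat_lit 40) (nat_lit 5) (nat_lit 43) (nat_lit 5) (nat_lit 44) (nat_lit 5) (nat_lit 281) (nat_lit 274) (nat_lit 225)) (XT.lf (nat_lit 0) (nat_lit 13686386809) (nat_lit 152) (nat_lit 35057097887) (nat_lit 228) (nat_lit 4880228749) (nat_lit 38) (nat_lit 5) (nat_lit 40) (nat_lit 5) (nat_lit 41) (nat_lit 5) (nat_lit 282) (nat_lit 274) (nat_lit 224)))) (XT.nd (nat_lit 78) (nat_lit 304) (nat_lit 0) (XT.lf (nat_lit 0) (nat_lit 10713078843)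 (nat_lit 304) (nat_lit 45419263125) (nat_lit 76) (nat_lit 2293789771) (nat_lit 34) (nat_lit 5) (nat_lit 38) (nat_lit 5) (nat_lit 35) (nat_lit 5) (nat_lit 283) (nat_lit 274) (nat_lit 223)) (XT.nd (nat_lit 78) (nat_lit 152) (nat_lit 0) (XT.lf (nat_lit 0) (nat_lit 11902080626) (nat_lit 152) (nat_lit 18901403748) (nat_lit 228) (nat_lit 32939534375) (nat_lit 32) (nat_lit 5) (nat_lit 34) (nat_lit 5) (nat_lit 35) (nat_lit 5) (nat_lit 284) (nat_lit 274) (nat_lit 222)) (XT.lf (nat_lit 0) (nat_lit 10734645424) (nat_lit 152) (nat_lit 45353768635) (nat_lit 228) (nat_lit 13594558094) (nat_lit 30) (nat_lit 5) (nat_lit 32) (nat_lit 5) (nat_lit 33) (nat_lit 5) (nat_lit 285) (nat_lit 274) (nat_lit 221)))))) (XT.nd (nat_lit 468) (nat_lit 684) (nat_lit 0) (XT.nd (nat_lit 234) (nat_lit 304) (nat_lit 0) (XT.nd (nat_lit 78) (nat_lit 228) (nat_lit 0) (XT.lf (nat_lit 0) (nat_lit 9116078808) (nat_lit 152) (nat_lit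 1385416295) (nat_lit 228) (nat_lit 65813213324) (nat_lit 27) (nat_lit 5) (nat_lit 29) (nat_lit 5) (nat_lit 30) (nat_lit 5) (nat_lit 286) (nat_lit 274) (nat_lit 220)) (XT.nd (nat_lit 78) (nat_lit 76) (nat_lit 0) (XT.lf (nat_lit 0) (nat_lit 5832362552) (nat_lit 152) (nat_lit 34673689293) (nat_lit 228) (nat_lit 43158988542) (nat_lit 25) (nat_lit 5) (nat_lit 27) (nat_lit 5) (nat_lit 28) (nat_lit 5) (nat_lit 287) (nat_lit 274) (nat_lit 219)) (XT.lf (nat_lit 0) (nat_lit 1549559844) (nat_lit 76) (nat_lit 75890802854) (nat_lit 152) (nat_lit 14483240133) (nat_lit 24) (nat_lit 5) (nat_lit 25) (nat_lit 5) (nat_lit 26) (nat_lit 4) (nat_lit 288) (nat_lit 274) (nat_lit 218)))) (XT.nd (nat_lit 78) (nat_lit 228) (nat_lit 0) (XT.lf (nat_lit 0) (nat_lit 20846075106) (nat_lit 152) (nat_lit 5160722207) (nat_lit 76) (nat_lit 75116387758) (nat_lit 23) (nat_lit 5) (nat_lit 25) (nat_lit 5) (nat_lit 24) (nat_lit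 5) (nat_lit 289) (nat_lit 274) (nat_lit 217)) (XT.nd (nat_lit 78) (nat_lit 76) (nat_lit 0) (XT.lf (nat_lit 0) (nat_lit 63801088781) (nat_lit 228) (nat_lit 15017735901) (nat_lit 76) (nat_lit 32599079711) (nat_lit 21) (nat_lit 5) (nat_lit 24) (nat_lit 5) (nat_lit 22) (nat_lit 4) (nat_lit 290) (nat_lit 274) (nat_lit 216)) (XT.lf (nat_lit 0) (nat_lit 94245256981) (nat_lit 76) (nat_lit 22088912198) (nat_lit 152) (nat_lit 6671881120) (nat_lit 20) (nat_lit 5) (nat_lit 21) (nat_lit 5) (nat_lit 22) (nat_lit 4) (nat_lit 291) (nat_lit 274) (nat_lit 215))))) (XT.nd (nat_lit 234) (nat_lit 304) (nat_lit 0) (XT.nd (nat_lit 78) (nat_lit 228) (nat_lit 0) (XT.lf (nat_lit 0) (nat_lit 42080675567) (nat_lit 152) (nat_lit 49263741917) (nat_lit 76) (nat_lit 44615238079) (nat_lit 18) (nat_lit 5) (nat_lit 20) (nat_lit 5) (nat_lit 19) (nat_lit 4) (nat_lit 292) (nat_lit 274) (nat_lit 214)) (XT.nd (nat_lit 78) (nat_lit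 152) (nat_lit 0) (XT.lf (nat_lit 0) (nat_lit 73263155691) (nat_lit 76) (nat_lit 27726639309) (nat_lit 152) (nat_lit 49593547342) (nat_lit 17) (nat_lit 5) (nat_lit 18) (nat_lit 5) (nat_lit 19) (nat_lit 4) (nat_lit 293) (nat_lit 274) (nat_lit 213)) (XT.lf (nat_lit 0) (nat_lit 5160144775) (nat_lit 152) (nat_lit 115932785673) (nat_lit 76) (nat_lit 45993708967) (nat_lit 15) (nat_lit 5) (nat_lit 17) (nat_lit 5) (nat_lit 16) (nat_lit 4) (nat_lit 294) (nat_lit 274) (nat_lit 212)))) (XT.nd (nat_lit 156) (nat_lit 228) (nat_lit 0) (XT.nd (nat_lit 78) (nat_lit 0) (nat_lit 0) (XT.lf (nat_lit 0) (nat_lit 16307574453) (nat_lit 76) (nat_lit 52431036782) (nat_lit 152) (nat_lit 116939913220) (nat_lit 14) (nat_lit 5) (nat_lit 15) (nat_lit 5) (nat_lit 16) (nat_lit 4) (nat_lit 295) (nat_lit 274) (nat_lit 211)) (XT.lf (nat_lit 0) (nat_lit 145951211632) (nat_lit 152) (nat_lit 32117143807) (nat_lit 0) (nat_lit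 28663049340) (nat_lit 14) (nat_lit 5) (nat_lit 16) (nat_lit 4) (nat_lit 14) (nat_lit 4) (nat_lit 296) (nat_lit 274) (nat_lit 210))) (XT.nd (nat_lit 78) (nat_lit 76) (nat_lit 0) (XT.lf (nat_lit 0) (nat_lit 8325530925) (nat_lit 152) (nat_lit 99973053424) (nat_lit 76) (nat_lit 122259331279) (nat_lit 12) (nat_lit 5) (nat_lit 14) (nat_lit 5) (nat_lit 13) (nat_lit 4) (nat_lit 297) (nat_lit 274) (nat_lit 209)) (XT.lf (nat_lit 0) (nat_lit 63204356703) (nat_lit 76) (nat_lit 23572686389) (nat_lit 152) (nat_lit 170848761043) (nat_lit 11) (nat_lit 5) (nat_lit 12) (nat_lit 5) (nat_lit 13) (nat_lit 4) (nat_lit 298) (nat_lit 274) (nat_lit 208))))))) (XT.nd (nat_lit 1014) (nat_lit 152) (nat_lit 0) (XT.nd (nat_lit 468) (nat_lit 228) (nat_lit 0) (XT.nd (nat_lit 234) (nat_lit 76) (nat_lit 0) (XT.nd (nat_lit 78) (nat_lit 228) (nat_lit 0) (XT.lf (nat_lit 0) (nat_lit 181756140602) (nat_lit 152) (nat_lit 33465808685)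 (nat_lit 0) (nat_lit 73151138952) (nat_lit 11) (nat_lit 5) (nat_lit 13) (nat_lit 4) (nat_lit 11) (nat_lit 4) (nat_lit 299) (nat_lit 274) (nat_lit 207)) (XT.nd (nat_lit 78) (nat_lit 152) (nat_lit 0) (XT.lf (nat_lit 0) (nat_lit 158926821482) (nat_lit 76) (nat_lit 136527059305) (nat_lit 76) (nat_lit 27920842798) (nat_lit 10) (nat_lit 4) (nat_lit 11) (nat_lit 5) (nat_lit 11) (nat_lit 4) (nat_lit 300) (nat_lit 274) (nat_lit 206)) (XT.lf (nat_lit 0) (nat_lit 18023232922) (nat_lit 76) (nat_lit 42856817955) (nat_lit 152) (nat_lit 302511681671) (nat_lit 8) (nat_lit 5) (nat_lit 9) (nat_lit 5) (nat_lit 10) (nat_lit 4) (nat_lit 301) (nat_lit 274) (nat_lit 205)))) (XT.nd (nat_lit 78) (nat_lit 76) (nat_lit 0) (XT.lf (nat_lit 0) (nat_lit 167864842977) (nat_lit 152) (nat_lit 173665371279) (nat_lit 0) (nat_lit 67301702689) (nat_lit 8) (nat_lit 5) (nat_lit 10) (nat_lit 4) (nat_lit 8) (nat_lit 4) (nat_lit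 302) (nat_lit 274) (nat_lit 204)) (XT.nd (nat_lit 78) (nat_lit 0) (nat_lit 0) (XT.lf (nat_lit 0) (nat_lit 23794705305) (nat_lit 76) (nat_lit 268858421163) (nat_lit 76) (nat_lit 168294541256) (nat_lit 7) (nat_lit 4) (nat_lit 8) (nat_lit 5) (nat_lit 8) (nat_lit 4) (nat_lit 303) (nat_lit 274) (nat_lit 203)) (XT.lf (nat_lit 0) (nat_lit 261387223276) (nat_lit 76) (nat_lit 179826863316) (nat_lit 76) (nat_lit 79262340262) (nat_lit 7) (nat_lit 4) (nat_lit 8) (nat_lit 5) (nat_lit 8) (nat_lit 4) (nat_lit 304) (nat_lit 274) (nat_lit 202))))) (XT.nd (nat_lit 234) (nat_lit 76) (nat_lit 0) (XT.nd (nat_lit 78) (nat_lit 76) (nat_lit 0) (XT.lf (nat_lit 0) (nat_lit 21966431038) (nat_lit 152) (nat_lit 54874905751) (nat_lit 76) (nat_lit 512048789015) (nat_lit 6) (nat_lit 5) (nat_lit 8) (nat_lit 5) (nat_lit 7) (nat_lit 4) (nat_lit 305) (nat_lit 274) (nat_lit 201)) (XT.nd (nat_lit 78) (nat_lit 0) (nat_lit 0)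 (XT.lf (nat_lit 0) (nat_lit 139493243812) (nat_lit 152) (nat_lit 481066403308) (nat_lit 0) (nat_lit 46376976568) (nat_lit 5) (nat_lit 5) (nat_lit 7) (nat_lit 4) (nat_lit 5) (nat_lit 4) (nat_lit 306) (nat_lit 274) (nat_lit 200)) (XT.lf (nat_lit 0) (nat_lit 278412247524) (nat_lit 152) (nat_lit 292681206764) (nat_lit 0) (nat_lit 185295588725) (nat_lit 5) (nat_lit 5) (nat_lit 7) (nat_lit 4) (nat_lit 5) (nat_lit 4) (nat_lit 307) (nat_lit 274) (nat_lit 199)))) (XT.nd (nat_lit 156) (nat_lit 0) (nat_lit 0) (XT.nd (nat_lit 78) (nat_lit 76) (nat_lit 0) (XT.lf (nat_lit 0) (nat_lit 438168064456) (nat_lit 152) (nat_lit 76040278837) (nat_lit 0) (nat_lit 345051065175) (nat_lit 5) (nat_lit 5) (nat_lit 7) (nat_lit 4) (nat_lit 5) (nat_lit 4) (nat_lit 308) (nat_lit 274) (nat_lit 198)) (XT.lf (nat_lit 0) (nat_lit 182209883660) (nat_lit 76) (nat_lit 444058620321) (nat_lit 76) (nat_lit 350941324968) (nat_lit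 4) (nat_lit 4) (nat_lit 5) (nat_lit 5) (nat_lit 5) (nat_lit 4) (nat_lit 309) (nat_lit 274) (nat_lit 197))) (XT.nd (nat_lit 78) (nat_lit 0) (nat_lit 0) (XT.lf (nat_lit 0) (nat_lit 483800708604) (nat_lit 76) (nat_lit 360996308152) (nat_lit 76) (nat_lit 267878755345) (nat_lit 4) (nat_lit 4) (nat_lit 5) (nat_lit 5) (nat_lit 5) (nat_lit 4) (nat_lit 310) (nat_lit 274) (nat_lit 196)) (XT.lf (nat_lit 0) (nat_lit 830628739720) (nat_lit 76) (nat_lit 265475350569) (nat_lit 76) (nat_lit 172357573889) (nat_lit 4) (nat_lit 4) (nat_lit 5) (nat_lit 5) (nat_lit 5) (nat_lit 4) (nat_lit 311) (nat_lit 274) (nat_lit 195)))))) (XT.nd (nat_lit 468) (nat_lit 0) (nat_lit 0) (XT.nd (nat_lit 234) (nat_lit 0) (nat_lit 0) (XT.nd (nat_lit 78) (nat_lit 152) (nat_lit 0) (XT.lf (nat_lit 0) (nat_lit 1229479742833) (nat_lit 76) (nat_lit 155626859273) (nat_lit 76) (nat_lit 62508887921) (nat_lit 4) (nat_lit 4) (nat_lit 5)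 (nat_lit 5) (nat_lit 5) (nat_lit 4) (nat_lit 312) (nat_lit 274) (nat_lit 194)) (XT.nd (nat_lit 78) (nat_lit 0) (nat_lit 0) (XT.lf (nat_lit 0) (nat_lit 34716776343) (nat_lit 76) (nat_lit 26742318356) (nat_lit 152) (nat_lit 1591993760253) (nat_lit 2) (nat_lit 5) (nat_lit 3) (nat_lit 5) (nat_lit 4) (nat_lit 4) (nat_lit 313) (nat_lit 274) (nat_lit 193)) (XT.lf (nat_lit 0) (nat_lit 209862982771) (nat_lit 152) (nat_lit 1555767252913) (nat_lit 0) (nat_lit 123642345889) (nat_lit 2) (nat_lit 5) (nat_lit 4) (nat_lit 4) (nat_lit 2) (nat_lit 4) (nat_lit 314) (nat_lit 274) (nat_lit 192)))) (XT.nd (nat_lit 78) (nat_lit 0) (nat_lit 0) (XT.lf (nat_lit 0) (nat_lit 381266628724) (nat_lit 152) (nat_lit 1484093631250) (nat_lit 0) (nat_lit 295045873324) (nat_lit 2) (nat_lit 5) (nat_lit 4) (nat_lit 4) (nat_lit 2) (nat_lit 4) (nat_lit 315) (nat_lit 274) (nat_lit 191)) (XT.nd (nat_lit 78) (nat_lit 0) (nat_lit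 0) (XT.lf (nat_lit 0) (nat_lit 578380428754) (nat_lit 152) (nat_lit 1401669750232) (nat_lit 0) (nat_lit 492159570295) (nat_lit 2) (nat_lit 5) (nat_lit 4) (nat_lit 4) (nat_lit 2) (nat_lit 4) (nat_lit 316) (nat_lit 274) (nat_lit 190)) (XT.lf (nat_lit 0) (nat_lit 805060957210) (nat_lit 152) (nat_lit 1306882968708) (nat_lit 0) (nat_lit 718840009134) (nat_lit 2) (nat_lit 5) (nat_lit 4) (nat_lit 4) (nat_lit 2) (nat_lit 4) (nat_lit 317) (nat_lit 274) (nat_lit 189))))) (XT.nd (nat_lit 234) (nat_lit 0) (nat_lit 0) (XT.nd (nat_lit 78) (nat_lit 0) (nat_lit 0) (XT.lf (nat_lit 0) (nat_lit 1065743267909) (nat_lit 152) (nat_lit 1197878762693) (nat_lit 0) (nat_lit 979522241905) (nat_lit 2) (nat_lit 5) (nat_lit 4) (nat_lit 4) (nat_lit 2) (nat_lit 4) (nat_lit 318) (nat_lit 274) (nat_lit 188)) (XT.nd (nat_lit 78) (nat_lit 0) (nat_lit 0) (XT.lf (nat_lit 0) (nat_lit 1365527666930) (nat_lit 152) (nat_lit 1072524441199)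 (nat_lit 0) (nat_lit 1279306573162) (nat_lit 2) (nat_lit 5) (nat_lit 4) (nat_lit 4) (nat_lit 2) (nat_lit 4) (nat_lit 319) (nat_lit 274) (nat_lit 187)) (XT.lf (nat_lit 0) (nat_lit 1710279501211) (nat_lit 152) (nat_lit 928367419675) (nat_lit 0) (nat_lit 1624058348518) (nat_lit 2) (nat_lit 5) (nat_lit 4) (nat_lit 4) (nat_lit 2) (nat_lit 4) (nat_lit 320) (nat_lit 274) (nat_lit 186)))) (XT.nd (nat_lit 156) (nat_lit 0) (nat_lit 0) (XT.nd (nat_lit 78) (nat_lit 0) (nat_lit 0) (XT.lf (nat_lit 0) (nat_lit 2106743915334) (nat_lit 152) (nat_lit 762587234656) (nat_lit 0) (nat_lit 2020522711403) (nat_lit 2) (nat_lit 5) (nat_lit 4) (nat_lit 4) (nat_lit 2) (nat_lit 4) (nat_lit 321) (nat_lit 274) (nat_lit 185)) (XT.lf (nat_lit 0) (nat_lit 2562677821751) (nat_lit 152) (nat_lit 571940360783) (nat_lit 0) (nat_lit 2476456573264) (nat_lit 2) (nat_lit 5) (nat_lit 4) (nat_lit 4) (nat_lit 2) (nat_lit 4) (nat_lit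 322) (nat_lit 274) (nat_lit 184))) (XT.nd (nat_lit 78) (nat_lit 0) (nat_lit 0) (XT.lf (nat_lit 0) (nat_lit 3087001666456) (nat_lit 152) (nat_lit 352696750525) (nat_lit 0) (nat_lit 3000780379225) (nat_lit 2) (nat_lit 5) (nat_lit 4) (nat_lit 4) (nat_lit 2) (nat_lit 4) (nat_lit 323) (nat_lit 274) (nat_lit 183)) (XT.lf (nat_lit 0) (nat_lit 3689973959455) (nat_lit 152) (nat_lit 100566854984) (nat_lit 0) (nat_lit 3603752638533) (nat_lit 2) (nat_lit 5) (nat_lit 4) (nat_lit 4) (nat_lit 2) (nat_lit 4) (nat_lit 324) (nat_lit 274) (nat_lit 182))))))))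
noncomputable def xc41 : XT := (XT.nd (nat_lit 38532) (nat_lit 0) (nat_lit 76) (XT.nd (nat_lit 37518) (nat_lit 0) (nat_lit 988) (XT.nd (nat_lit 36972) (nat_lit 0) (nat_lit 2508) (XT.nd (nat_lit 36738) (nat_lit 0) (nat_lit 4028) (XT.nd (nat_lit 78) (nat_lit 0) (nat_lit 0) (XT.lf (nat_lit 0) (nat_lit 199354838468) (nat_lit 76) (nat_lit 4188831634932) (nat_lit 76) (nat_lit 4102610284715) (nat_lit 1) (nat_lit 4) (nat_lit 2) (nat_lit 5) (nat_lit 2) (nat_lit 4) (nat_lit 325) (nat_lit 274) (nat_lit 181)) (XT.nd (nat_lit 78) (nat_lit 0) (nat_lit 0) (XT.lf (nat_lit 0) (nat_lit 550354605186) (nat_lit 76) (nat_lit 4643704053025) (nat_lit 76) (nat_lit 4557482677333) (nat_lit 1) (nat_lit 4) (nat_lit 2) (nat_lit 5) (nat_lit 2) (nat_lit 4) (nat_lit 326) (nat_lit 274) (nat_lit 180)) (XT.lf (nat_lit 0) (nat_lit 954004159547) (nat_lit 76) (nat_lit 5166807422499) (nat_lit 76) (nat_lit 5080586024655) (nat_lit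 1) (nat_lit 4) (nat_lit 2) (nat_lit 5) (nat_lit 2) (nat_lit 4) (nat_lit 327) (nat_lit 274) (nat_lit 179)))) (XT.nd (nat_lit 78) (nat_lit 0) (nat_lit 0) (XT.lf (nat_lit 0) (nat_lit 12548040166) (nat_lit 532) (nat_lit 2024841175) (nat_lit 532) (nat_lit 2024841175) (nat_lit 54) (nat_lit 3) (nat_lit 61) (nat_lit 3) (nat_lit 61) (nat_lit 5) (nat_lit 275) (nat_lit 275) (nat_lit 230)) (XT.nd (nat_lit 78) (nat_lit 0) (nat_lit 76) (XT.lf (nat_lit 76) (nat_lit 26755556751) (nat_lit 0) (nat_lit 965500452) (nat_lit 532) (nat_lit 7904443150) (nat_lit 55) (nat_lit 5) (nat_lit 54) (nat_lit 3) (nat_lit 61) (nat_lit 5) (nat_lit 276) (nat_lit 275) (nat_lit 229)) (XT.lf (nat_lit 76) (nat_lit 24469277994) (nat_lit 0) (nat_lit 7718396172) (nat_lit 532) (nat_lit 6116590619) (nat_lit 56) (nat_lit 5) (nat_lit 55) (nat_lit 5) (nat_lit 62) (nat_lit 5) (nat_lit 277) (nat_lit 275) (nat_lit 228))))) (XT.nd (nat_lit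 234) (nat_lit 912) (nat_lit 0) (XT.nd (nat_lit 78) (nat_lit 760) (nat_lit 0) (XT.lf (nat_lit 76) (nat_lit 22448834995) (nat_lit 0) (nat_lit 16302372929) (nat_lit 532) (nat_lit 2519510101) (nat_lit 57) (nat_lit 5) (nat_lit 56) (nat_lit 5) (nat_lit 63) (nat_lit 5) (nat_lit 278) (nat_lit 275) (nat_lit 227)) (XT.nd (nat_lit 78) (nat_lit 304) (nat_lit 0) (XT.lf (nat_lit 0) (nat_lit 3102008564) (nat_lit 532) (nat_lit 23887780056) (nat_lit 76) (nat_lit 17564000150) (nat_lit 50) (nat_lit 5) (nat_lit 57) (nat_lit 5) (nat_lit 51) (nat_lit 5) (nat_lit 279) (nat_lit 275) (nat_lit 226)) (XT.lf (nat_lit 0) (nat_lit 11091376769) (nat_lit 380) (nat_lit 29057304377) (nat_lit 76) (nat_lit 8041518910) (nat_lit 46) (nat_lit 5) (nat_lit 51) (nat_lit 5) (nat_lit 47) (nat_lit 5) (nat_lit 280) (nat_lit 275) (nat_lit 225)))) (XT.nd (nat_lit 156) (nat_lit 456) (nat_lit 0) (XT.nd (nat_lit 78) (nat_lit 228) (nat_lit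 0) (XT.lf (nat_lit 0) (nat_lit 17853535957) (nat_lit 228) (nat_lit 4303824811) (nat_lit 304) (nat_lit 30064472520) (nat_lit 43) (nat_lit 5) (nat_lit 46) (nat_lit 5) (nat_lit 47) (nat_lit 5) (nat_lit 281) (nat_lit 275) (nat_lit 224)) (XT.lf (nat_lit 0) (nat_lit 16683171019) (nat_lit 228) (nat_lit 20347126419) (nat_lit 304) (nat_lit 19656164530) (nat_lit 40) (nat_lit 5) (nat_lit 43) (nat_lit 5) (nat_lit 44) (nat_lit 5) (nat_lit 282) (nat_lit 275) (nat_lit 223))) (XT.nd (nat_lit 78) (nat_lit 304) (nat_lit 0) (XT.lf (nat_lit 0) (nat_lit 15867833927) (nat_lit 152) (nat_lit 40287036200) (nat_lit 228) (nat_lit 5504272108) (nat_lit 38) (nat_lit 5) (nat_lit 40) (nat_lit 5) (nat_lit 41) (nat_lit 5) (nat_lit 283) (nat_lit 275) (nat_lit 222)) (XT.lf (nat_lit 0) (nat_lit 12412932647) (nat_lit 304) (nat_lit 52102725827) (nat_lit 76) (nat_lit 2666849584) (nat_lit 34) (nat_lit 5) (nat_lit 38) (nat_lit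 5) (nat_lit 35) (nat_lit 5) (nat_lit 284) (nat_lit 275) (nat_lit 221)))))) (XT.nd (nat_lit 468) (nat_lit 684) (nat_lit 0) (XT.nd (nat_lit 234) (nat_lit 304) (nat_lit 0) (XT.nd (nat_lit 78) (nat_lit 380) (nat_lit 0) (XT.lf (nat_lit 0) (nat_lit 13805864156) (nat_lit 152) (nat_lit 21701767748) (nat_lit 228) (nat_lit 37790052203) (nat_lit 32) (nat_lit 5) (nat_lit 34) (nat_lit 5) (nat_lit 35) (nat_lit 5) (nat_lit 285) (nat_lit 275) (nat_lit 220)) (XT.nd (nat_lit 78) (nat_lit 228) (nat_lit 0) (XT.lf (nat_lit 0) (nat_lit 12458731464) (nat_lit 152) (nat_lit 52119129774) (nat_lit 228) (nat_lit 15551377183) (nat_lit 30) (nat_lit 5) (nat_lit 32) (nat_lit 5) (nat_lit 33) (nat_lit 5) (nat_lit 286) (nat_lit 275) (nat_lit 219)) (XT.lf (nat_lit 0) (nat_lit 10591582987) (nat_lit 152) (nat_lit 1555774625) (nat_lit 228) (nat_lit 75608837781) (nat_lit 27) (nat_lit 5) (nat_lit 29) (nat_lit 5) (nat_lit 30)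 (nat_lit 5) (nat_lit 287) (nat_lit 275) (nat_lit 218)))) (XT.nd (nat_lit 78) (nat_lit 152) (nat_lit 0) (XT.lf (nat_lit 0) (nat_lit 6810570474) (nat_lit 152) (nat_lit 39836082644) (nat_lit 228) (nat_lit 49562908511) (nat_lit 25) (nat_lit 5) (nat_lit 27) (nat_lit 5) (nat_lit 28) (nat_lit 5) (nat_lit 288) (nat_lit 275) (nat_lit 217)) (XT.nd (nat_lit 78) (nat_lit 76) (nat_lit 0) (XT.lf (nat_lit 0) (nat_lit 1880539638) (nat_lit 76) (nat_lit 87235311207) (nat_lit 152) (nat_lit 16591486114) (nat_lit 24) (nat_lit 5) (nat_lit 25) (nat_lit 5) (nat_lit 26) (nat_lit 4) (nat_lit 289) (nat_lit 275) (nat_lit 216)) (XT.lf (nat_lit 0) (nat_lit 24026052888) (nat_lit 152) (nat_lit 5846302590) (nat_lit 76) (nat_lit 86415020490) (nat_lit 23) (nat_lit 5) (nat_lit 25) (nat_lit 5) (nat_lit 24) (nat_lit 5) (nat_lit 290) (nat_lit 275) (nat_lit 215))))) (XT.nd (nat_lit 234) (nat_lit 304) (nat_lit 0) (XT.nd (nat_lit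 78) (nat_lit 228) (nat_lit 0) (XT.lf (nat_lit 0) (nat_lit 73420138004) (nat_lit 228) (nat_lit 17186270397) (nat_lit 76) (nat_lit 37520234655) (nat_lit 21) (nat_lit 5) (nat_lit 24) (nat_lit 5) (nat_lit 22) (nat_lit 4) (nat_lit 291) (nat_lit 275) (nat_lit 214)) (XT.nd (nat_lit 78) (nat_lit 152) (nat_lit 0) (XT.lf (nat_lit 0) (nat_lit 108459050581) (nat_lit 76) (nat_lit 25369605431) (nat_lit 152) (nat_lit 7624721502) (nat_lit 20) (nat_lit 5) (nat_lit 21) (nat_lit 5) (nat_lit 22) (nat_lit 4) (nat_lit 292) (nat_lit 275) (nat_lit 213)) (XT.lf (nat_lit 0) (nat_lit 48434882771) (nat_lit 152) (nat_lit 56578015087) (nat_lit 76) (nat_lit 51337312277) (nat_lit 18) (nat_lit 5) (nat_lit 20) (nat_lit 5) (nat_lit 19) (nat_lit 4) (nat_lit 293) (nat_lit 275) (nat_lit 212)))) (XT.nd (nat_lit 156) (nat_lit 76) (nat_lit 0) (XT.nd (nat_lit 78) (nat_lit 152) (nat_lit 0) (XT.lf (nat_lit 0) (nat_lit 84321544398)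 (nat_lit 76) (nat_lit 31854991068) (nat_lit 152) (nat_lit 56991224537) (nat_lit 17) (nat_lit 5) (nat_lit 18) (nat_lit 5) (nat_lit 19) (nat_lit 4) (nat_lit 294) (nat_lit 275) (nat_lit 211)) (XT.lf (nat_lit 0) (nat_lit 5970595415) (nat_lit 152) (nat_lit 133255537460) (nat_lit 76) (nat_lit 52920570430) (nat_lit 15) (nat_lit 5) (nat_lit 17) (nat_lit 5) (nat_lit 16) (nat_lit 4) (nat_lit 295) (nat_lit 275) (nat_lit 210))) (XT.nd (nat_lit 78) (nat_lit 0) (nat_lit 0) (XT.lf (nat_lit 0) (nat_lit 18815191412) (nat_lit 76) (nat_lit 60267367448) (nat_lit 152) (nat_lit 134445076390) (nat_lit 14) (nat_lit 5) (nat_lit 15) (nat_lit 5) (nat_lit 16) (nat_lit 4) (nat_lit 296) (nat_lit 275) (nat_lit 209)) (XT.lf (nat_lit 0) (nat_lit 167873316989) (nat_lit 152) (nat_lit 36879526290) (nat_lit 0) (nat_lit 32985904939) (nat_lit 14) (nat_lit 5) (nat_lit 16) (nat_lit 4) (nat_lit 14) (nat_lit 4) (nat_lit 297) (nat_lit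 275) (nat_lit 208))))))) (XT.nd (nat_lit 1014) (nat_lit 152) (nat_lit 0) (XT.nd (nat_lit 468) (nat_lit 304) (nat_lit 0) (XT.nd (nat_lit 234) (nat_lit 228) (nat_lit 0) (XT.nd (nat_lit 78) (nat_lit 76) (nat_lit 0) (XT.lf (nat_lit 0) (nat_lit 9601868446) (nat_lit 152) (nat_lit 114917034534) (nat_lit 76) (nat_lit 140620488581) (nat_lit 12) (nat_lit 5) (nat_lit 14) (nat_lit 5) (nat_lit 13) (nat_lit 4) (nat_lit 298) (nat_lit 275) (nat_lit 207)) (XT.nd (nat_lit 78) (nat_lit 0) (nat_lit 0) (XT.lf (nat_lit 0) (nat_lit 72732587526) (nat_lit 76) (nat_lit 27086076162) (nat_lit 152) (nat_lit 196448996562) (nat_lit 11) (nat_lit 5) (nat_lit 12) (nat_lit 5) (nat_lit 13) (nat_lit 4) (nat_lit 299) (nat_lit 275) (nat_lit 206)) (XT.lf (nat_lit 0) (nat_lit 209041827410) (nat_lit 152) (nat_lit 38443027483) (nat_lit 0) (nat_lit 84142407172) (nat_lit 11) (nat_lit 5) (nat_lit 13) (nat_lit 4) (nat_lit 11) (nat_lit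 4) (nat_lit 300) (nat_lit 275) (nat_lit 205)))) (XT.nd (nat_lit 78) (nat_lit 152) (nat_lit 0) (XT.lf (nat_lit 0) (nat_lit 182804886887) (nat_lit 76) (nat_lit 156987376477) (nat_lit 76) (nat_lit 32087037633) (nat_lit 10) (nat_lit 4) (nat_lit 11) (nat_lit 5) (nat_lit 11) (nat_lit 4) (nat_lit 301) (nat_lit 275) (nat_lit 204)) (XT.nd (nat_lit 78) (nat_lit 0) (nat_lit 0) (XT.lf (nat_lit 0) (nat_lit 20763465567) (nat_lit 76) (nat_lit 49267593663) (nat_lit 152) (nat_lit 347867907436) (nat_lit 8) (nat_lit 5) (nat_lit 9) (nat_lit 5) (nat_lit 10) (nat_lit 4) (nat_lit 302) (nat_lit 275) (nat_lit 203)) (XT.lf (nat_lit 0) (nat_lit 193061462934) (nat_lit 152) (nat_lit 199682266835) (nat_lit 0) (nat_lit 77411618275) (nat_lit 8) (nat_lit 5) (nat_lit 10) (nat_lit 4) (nat_lit 8) (nat_lit 4) (nat_lit 303) (nat_lit 275) (nat_lit 202))))) (XT.nd (nat_lit 234) (nat_lit 152) (nat_lit 0) (XT.nd (nat_lit 78) (nat_lit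 76) (nat_lit 0) (XT.lf (nat_lit 0) (nat_lit 27394035558) (nat_lit 76) (nat_lit 309172474383) (nat_lit 76) (nat_lit 193522070466) (nat_lit 7) (nat_lit 4) (nat_lit 8) (nat_lit 5) (nat_lit 8) (nat_lit 4) (nat_lit 304) (nat_lit 275) (nat_lit 201)) (XT.nd (nat_lit 78) (nat_lit 76) (nat_lit 0) (XT.lf (nat_lit 0) (nat_lit 300621501947) (nat_lit 76) (nat_lit 206788101548) (nat_lit 76) (nat_lit 91137211320) (nat_lit 7) (nat_lit 4) (nat_lit 8) (nat_lit 5) (nat_lit 8) (nat_lit 4) (nat_lit 305) (nat_lit 275) (nat_lit 200)) (XT.lf (nat_lit 0) (nat_lit 25273357114) (nat_lit 152) (nat_lit 63082730308) (nat_lit 76) (nat_lit 588866597317) (nat_lit 6) (nat_lit 5) (nat_lit 8) (nat_lit 5) (nat_lit 7) (nat_lit 4) (nat_lit 306) (nat_lit 275) (nat_lit 199)))) (XT.nd (nat_lit 156) (nat_lit 76) (nat_lit 0) (XT.nd (nat_lit 78) (nat_lit 0) (nat_lit 0) (XT.lf (nat_lit 0) (nat_lit 160428399841) (nat_lit 152) (nat_lit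 553204311031) (nat_lit 0) (nat_lit 53343510185) (nat_lit 5) (nat_lit 5) (nat_lit 7) (nat_lit 4) (nat_lit 5) (nat_lit 4) (nat_lit 307) (nat_lit 275) (nat_lit 198)) (XT.lf (nat_lit 0) (nat_lit 320183797224) (nat_lit 152) (nat_lit 336564211454) (nat_lit 0) (nat_lit 213098611496) (nat_lit 5) (nat_lit 5) (nat_lit 7) (nat_lit 4) (nat_lit 5) (nat_lit 4) (nat_lit 308) (nat_lit 275) (nat_lit 197))) (XT.nd (nat_lit 78) (nat_lit 76) (nat_lit 0) (XT.lf (nat_lit 0) (nat_lit 503901719839) (nat_lit 152) (nat_lit 87429645597) (nat_lit 0) (nat_lit 396816276658) (nat_lit 5) (nat_lit 5) (nat_lit 7) (nat_lit 4) (nat_lit 5) (nat_lit 4) (nat_lit 309) (nat_lit 275) (nat_lit 196)) (XT.lf (nat_lit 0) (nat_lit 209556629813) (nat_lit 76) (nat_lit 510659860955) (nat_lit 76) (nat_lit 403574193900) (nat_lit 4) (nat_lit 4) (nat_lit 5) (nat_lit 5) (nat_lit 5) (nat_lit 4) (nat_lit 310) (nat_lit 275) (nat_lit 195))))))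 (XT.nd (nat_lit 468) (nat_lit 0) (nat_lit 0) (XT.nd (nat_lit 234) (nat_lit 152) (nat_lit 0) (XT.nd (nat_lit 78) (nat_lit 0) (nat_lit 0) (XT.lf (nat_lit 0) (nat_lit 556384087594) (nat_lit 76) (nat_lit 415139187058) (nat_lit 76) (nat_lit 308053325331) (nat_lit 4) (nat_lit 4) (nat_lit 5) (nat_lit 5) (nat_lit 5) (nat_lit 4) (nat_lit 311) (nat_lit 275) (nat_lit 194)) (XT.nd (nat_lit 78) (nat_lit 0) (nat_lit 0) (XT.lf (nat_lit 0) (nat_lit 955234592155) (nat_lit 76) (nat_lit 305290942444) (nat_lit 76) (nat_lit 198204911438) (nat_lit 4) (nat_lit 4) (nat_lit 5) (nat_lit 5) (nat_lit 5) (nat_lit 4) (nat_lit 312) (nat_lit 275) (nat_lit 193)) (XT.lf (nat_lit 0) (nat_lit 1413911740326) (nat_lit 76) (nat_lit 178965922329) (nat_lit 76) (nat_lit 71879744122) (nat_lit 4) (nat_lit 4) (nat_lit 5) (nat_lit 5) (nat_lit 5) (nat_lit 4) (nat_lit 313) (nat_lit 275) (nat_lit 192)))) (XT.nd (nat_lit 78) (nat_lit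 0) (nat_lit 0) (XT.lf (nat_lit 0) (nat_lit 39933731111) (nat_lit 76) (nat_lit 30748979137) (nat_lit 152) (nat_lit 1830787691924) (nat_lit 2) (nat_lit 5) (nat_lit 3) (nat_lit 5) (nat_lit 4) (nat_lit 4) (nat_lit 314) (nat_lit 275) (nat_lit 191)) (XT.nd (nat_lit 78) (nat_lit 0) (nat_lit 0) (XT.lf (nat_lit 0) (nat_lit 241346659809) (nat_lit 152) (nat_lit 1789123900313) (nat_lit 0) (nat_lit 142192569521) (nat_lit 2) (nat_lit 5) (nat_lit 4) (nat_lit 4) (nat_lit 2) (nat_lit 4) (nat_lit 315) (nat_lit 275) (nat_lit 190)) (XT.lf (nat_lit 0) (nat_lit 438460300966) (nat_lit 152) (nat_lit 1706700336340) (nat_lit 0) (nat_lit 339306121060) (nat_lit 2) (nat_lit 5) (nat_lit 4) (nat_lit 4) (nat_lit 2) (nat_lit 4) (nat_lit 316) (nat_lit 275) (nat_lit 189))))) (XT.nd (nat_lit 234) (nat_lit 0) (nat_lit 0) (XT.nd (nat_lit 78) (nat_lit 0) (nat_lit 0) (XT.lf (nat_lit 0) (nat_lit 665140691270) (nat_lit 152) (nat_lit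 1611913830508) (nat_lit 0) (nat_lit 565986433437) (nat_lit 2) (nat_lit 5) (nat_lit 4) (nat_lit 4) (nat_lit 2) (nat_lit 4) (nat_lit 317) (nat_lit 275) (nat_lit 188)) (XT.nd (nat_lit 78) (nat_lit 0) (nat_lit 0) (XT.lf (nat_lit 0) (nat_lit 925822881838) (nat_lit 152) (nat_lit 1502909864225) (nat_lit 0) (nat_lit 826668556241) (nat_lit 2) (nat_lit 5) (nat_lit 4) (nat_lit 4) (nat_lit 2) (nat_lit 4) (nat_lit 318) (nat_lit 275) (nat_lit 187)) (XT.lf (nat_lit 0) (nat_lit 1225607176396) (nat_lit 152) (nat_lit 1377555751193) (nat_lit 0) (nat_lit 1126452791875) (nat_lit 2) (nat_lit 5) (nat_lit 4) (nat_lit 4) (nat_lit 2) (nat_lit 4) (nat_lit 319) (nat_lit 275) (nat_lit 186)))) (XT.nd (nat_lit 156) (nat_lit 0) (nat_lit 0) (XT.nd (nat_lit 78) (nat_lit 0) (nat_lit 0) (XT.lf (nat_lit 0) (nat_lit 1570358919840) (nat_lit 152) (nat_lit 1233398910940) (nat_lit 0) (nat_lit 1471204484080) (nat_lit 2) (nat_lit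 5) (nat_lit 4) (nat_lit 4) (nat_lit 2) (nat_lit 4) (nat_lit 320) (nat_lit 275) (nat_lit 185)) (XT.lf (nat_lit 0) (nat_lit 1966823254975) (nat_lit 152) (nat_lit 1067618883549) (nat_lit 0) (nat_lit 1867668774660) (nat_lit 2) (nat_lit 5) (nat_lit 4) (nat_lit 4) (nat_lit 2) (nat_lit 4) (nat_lit 321) (nat_lit 275) (nat_lit 184))) (XT.nd (nat_lit 78) (nat_lit 0) (nat_lit 0) (XT.lf (nat_lit 0) (nat_lit 2422757092706) (nat_lit 152) (nat_lit 876972146744) (nat_lit 0) (nat_lit 2323602573647) (nat_lit 2) (nat_lit 5) (nat_lit 4) (nat_lit 4) (nat_lit 2) (nat_lit 4) (nat_lit 322) (nat_lit 275) (nat_lit 183)) (XT.lf (nat_lit 0) (nat_lit 2947080877685) (nat_lit 152) (nat_lit 657728655674) (nat_lit 0) (nat_lit 2847926324935) (nat_lit 2) (nat_lit 5) (nat_lit 4) (nat_lit 4) (nat_lit 2) (nat_lit 4) (nat_lit 323) (nat_lit 275) (nat_lit 182))))))))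
noncomputable def xc42 : XT := (XT.nd (nat_lit 38532) (nat_lit 0) (nat_lit 76) (XT.nd (nat_lit 37518) (nat_lit 0) (nat_lit 1064) (XT.nd (nat_lit 37050) (nat_lit 0) (nat_lit 2964) (XT.nd (nat_lit 234) (nat_lit 0) (nat_lit 0) (XT.nd (nat_lit 78) (nat_lit 76) (nat_lit 0) (XT.lf (nat_lit 0) (nat_lit 3550053118747) (nat_lit 152) (nat_lit 405598863776) (nat_lit 0) (nat_lit 3450898536701) (nat_lit 2) (nat_lit 5) (nat_lit 4) (nat_lit 4) (nat_lit 2) (nat_lit 4) (nat_lit 324) (nat_lit 275) (nat_lit 181)) (XT.nd (nat_lit 78) (nat_lit 76) (nat_lit 0) (XT.lf (nat_lit 0) (nat_lit 4243471098871) (nat_lit 152) (nat_lit 115649796860) (nat_lit 0) (nat_lit 4144316491350) (nat_lit 2) (nat_lit 5) (nat_lit 4) (nat_lit 4) (nat_lit 2) (nat_lit 4) (nat_lit 325) (nat_lit 275) (nat_lit 180)) (XT.lf (nat_lit 0) (nat_lit 229259974008) (nat_lit 76) (nat_lit 4817155425460) (nat_lit 76) (nat_lit 4718000795787) (nat_lit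 1) (nat_lit 4) (nat_lit 2) (nat_lit 5) (nat_lit 2) (nat_lit 4) (nat_lit 326) (nat_lit 275) (nat_lit 179)))) (XT.nd (nat_lit 36660) (nat_lit 0) (nat_lit 4028) (XT.lf (nat_lit 0) (nat_lit 632909456634) (nat_lit 76) (nat_lit 5340258830795) (nat_lit 76) (nat_lit 5241104181860) (nat_lit 1) (nat_lit 4) (nat_lit 2) (nat_lit 5) (nat_lit 2) (nat_lit 4) (nat_lit 327) (nat_lit 275) (nat_lit 178)) (XT.nd (nat_lit 78) (nat_lit 0) (nat_lit 0) (XT.lf (nat_lit 0) (nat_lit 14525433491) (nat_lit 532) (nat_lit 2277079270) (nat_lit 532) (nat_lit 2277079270) (nat_lit 54) (nat_lit 3) (nat_lit 61) (nat_lit 3) (nat_lit 61) (nat_lit 5) (nat_lit 276) (nat_lit 276) (nat_lit 228)) (XT.lf (nat_lit 76) (nat_lit 30863150006) (nat_lit 0) (nat_lit 1183875856) (nat_lit 532) (nat_lit 8908572341) (nat_lit 55) (nat_lit 5) (nat_lit 54) (nat_lit 3) (nat_lit 61) (nat_lit 5) (nat_lit 277) (nat_lit 276) (nat_lit 227))))) (XT.nd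 (nat_lit 234) (nat_lit 760) (nat_lit 0) (XT.nd (nat_lit 78) (nat_lit 380) (nat_lit 0) (XT.lf (nat_lit 76) (nat_lit 28240135240) (nat_lit 0) (nat_lit 8922489894) (nat_lit 532) (nat_lit 6875272427) (nat_lit 56) (nat_lit 5) (nat_lit 55) (nat_lit 5) (nat_lit 62) (nat_lit 5) (nat_lit 278) (nat_lit 276) (nat_lit 226)) (XT.nd (nat_lit 78) (nat_lit 456) (nat_lit 0) (XT.lf (nat_lit 76) (nat_lit 25920132514) (nat_lit 0) (nat_lit 18772940180) (nat_lit 532) (nat_lit 2757689693) (nat_lit 57) (nat_lit 5) (nat_lit 56) (nat_lit 5) (nat_lit 63) (nat_lit 5) (nat_lit 279) (nat_lit 276) (nat_lit 225)) (XT.lf (nat_lit 0) (nat_lit 3684809705) (nat_lit 532) (nat_lit 27359179876) (nat_lit 76) (nat_lit 20183283414) (nat_lit 50) (nat_lit 5) (nat_lit 57) (nat_lit 5) (nat_lit 51) (nat_lit 5) (nat_lit 280) (nat_lit 276) (nat_lit 224)))) (XT.nd (nat_lit 78) (nat_lit 456) (nat_lit 0) (XT.lf (nat_lit 0) (nat_lit 12859661570)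 (nat_lit 380) (nat_lit 33305006573) (nat_lit 76) (nat_lit 9245535570) (nat_lit 46) (nat_lit 5) (nat_lit 51) (nat_lit 5) (nat_lit 47) (nat_lit 5) (nat_lit 281) (nat_lit 276) (nat_lit 223)) (XT.nd (nat_lit 78) (nat_lit 228) (nat_lit 0) (XT.lf (nat_lit 0) (nat_lit 20633073232) (nat_lit 228) (nat_lit 4941270534) (nat_lit 304) (nat_lit 34473154997) (nat_lit 43) (nat_lit 5) (nat_lit 46) (nat_lit 5) (nat_lit 47) (nat_lit 5) (nat_lit 282) (nat_lit 276) (nat_lit 222)) (XT.lf (nat_lit 0) (nat_lit 19285347980) (nat_lit 228) (nat_lit 23383260903) (nat_lit 304) (nat_lit 22513999984) (nat_lit 40) (nat_lit 5) (nat_lit 43) (nat_lit 5) (nat_lit 44) (nat_lit 5) (nat_lit 283) (nat_lit 276) (nat_lit 221)))))) (XT.nd (nat_lit 468) (nat_lit 760) (nat_lit 0) (XT.nd (nat_lit 234) (nat_lit 532) (nat_lit 0) (XT.nd (nat_lit 78) (nat_lit 456) (nat_lit 0) (XT.lf (nat_lit 0) (nat_lit 18345165233) (nat_lit 152) (nat_lit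 46308445982) (nat_lit 228) (nat_lit 6248256249) (nat_lit 38) (nat_lit 5) (nat_lit 40) (nat_lit 5) (nat_lit 41) (nat_lit 5) (nat_lit 284) (nat_lit 276) (nat_lit 220)) (XT.nd (nat_lit 78) (nat_lit 152) (nat_lit 0) (XT.lf (nat_lit 0) (nat_lit 14345112226) (nat_lit 304) (nat_lit 59820269470) (nat_lit 76) (nat_lit 3088798646) (nat_lit 34) (nat_lit 5) (nat_lit 38) (nat_lit 5) (nat_lit 35) (nat_lit 5) (nat_lit 285) (nat_lit 276) (nat_lit 219)) (XT.lf (nat_lit 0) (nat_lit 15966325206) (nat_lit 152) (nat_lit 24930683903) (nat_lit 228) (nat_lit 43390195325) (nat_lit 32) (nat_lit 5) (nat_lit 34) (nat_lit 5) (nat_lit 35) (nat_lit 5) (nat_lit 286) (nat_lit 276) (nat_lit 218)))) (XT.nd (nat_lit 78) (nat_lit 380) (nat_lit 0) (XT.lf (nat_lit 0) (nat_lit 14413657800) (nat_lit 152) (nat_lit 59908489481) (nat_lit 228) (nat_lit 17821804271) (nat_lit 30) (nat_lit 5) (nat_lit 32) (nat_lit 5) (nat_lit 33) (nat_lit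 5) (nat_lit 287) (nat_lit 276) (nat_lit 217)) (XT.nd (nat_lit 78) (nat_lit 152) (nat_lit 0) (XT.lf (nat_lit 0) (nat_lit 12262053787) (nat_lit 152) (nat_lit 1760820129) (nat_lit 228) (nat_lit 86892426177) (nat_lit 27) (nat_lit 5) (nat_lit 29) (nat_lit 5) (nat_lit 30) (nat_lit 5) (nat_lit 288) (nat_lit 276) (nat_lit 216)) (XT.lf (nat_lit 0) (nat_lit 7910306169) (nat_lit 152) (nat_lit 45782262493) (nat_lit 228) (nat_lit 56944468937) (nat_lit 25) (nat_lit 5) (nat_lit 27) (nat_lit 5) (nat_lit 28) (nat_lit 5) (nat_lit 289) (nat_lit 276) (nat_lit 215))))) (XT.nd (nat_lit 234) (nat_lit 456) (nat_lit 0) (XT.nd (nat_lit 78) (nat_lit 228) (nat_lit 0) (XT.lf (nat_lit 0) (nat_lit 2237135380) (nat_lit 76) (nat_lit 100291033540) (nat_lit 152) (nat_lit 19031634332) (nat_lit 24) (nat_lit 5) (nat_lit 25) (nat_lit 5) (nat_lit 26) (nat_lit 4) (nat_lit 290) (nat_lit 276) (nat_lit 214)) (XT.nd (nat_lit 78)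 (nat_lit 152) (nat_lit 0) (XT.lf (nat_lit 0) (nat_lit 27670086731) (nat_lit 152) (nat_lit 6656308131) (nat_lit 76) (nat_lit 99400846015) (nat_lit 23) (nat_lit 5) (nat_lit 25) (nat_lit 5) (nat_lit 24) (nat_lit 5) (nat_lit 291) (nat_lit 276) (nat_lit 213)) (XT.lf (nat_lit 0) (nat_lit 84470123472) (nat_lit 228) (nat_lit 19700599697) (nat_lit 76) (nat_lit 43171931848) (nat_lit 21) (nat_lit 5) (nat_lit 24) (nat_lit 5) (nat_lit 22) (nat_lit 4) (nat_lit 292) (nat_lit 276) (nat_lit 212)))) (XT.nd (nat_lit 156) (nat_lit 228) (nat_lit 0) (XT.nd (nat_lit 78) (nat_lit 152) (nat_lit 0) (XT.lf (nat_lit 0) (nat_lit 124786135051) (nat_lit 76) (nat_lit 29150362997) (nat_lit 152) (nat_lit 8732178850) (nat_lit 20) (nat_lit 5) (nat_lit 21) (nat_lit 5) (nat_lit 22) (nat_lit 4) (nat_lit 293) (nat_lit 276) (nat_lit 211)) (XT.lf (nat_lit 0) (nat_lit 55731953273) (nat_lit 152) (nat_lit 65007788717) (nat_lit 76)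 (nat_lit 59060433494) (nat_lit 18) (nat_lit 5) (nat_lit 20) (nat_lit 5) (nat_lit 19) (nat_lit 4) (nat_lit 294) (nat_lit 276) (nat_lit 210))) (XT.nd (nat_lit 78) (nat_lit 152) (nat_lit 0) (XT.lf (nat_lit 0) (nat_lit 97021885966) (nat_lit 76) (nat_lit 36610068357) (nat_lit 152) (nat_lit 65508637968) (nat_lit 17) (nat_lit 5) (nat_lit 18) (nat_lit 5) (nat_lit 19) (nat_lit 4) (nat_lit 295) (nat_lit 276) (nat_lit 209)) (XT.lf (nat_lit 0) (nat_lit 6893730228) (nat_lit 152) (nat_lit 153193080884) (nat_lit 76) (nat_lit 60879680658) (nat_lit 15) (nat_lit 5) (nat_lit 17) (nat_lit 5) (nat_lit 16) (nat_lit 4) (nat_lit 296) (nat_lit 276) (nat_lit 208))))))) (XT.nd (nat_lit 1014) (nat_lit 228) (nat_lit 0) (XT.nd (nat_lit 468) (nat_lit 380) (nat_lit 0) (XT.nd (nat_lit 234) (nat_lit 152) (nat_lit 0) (XT.nd (nat_lit 78) (nat_lit 152) (nat_lit 0) (XT.lf (nat_lit 0) (nat_lit 21683958435) (nat_lit 76) (nat_lit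 69286054908) (nat_lit 152) (nat_lit 154584749899) (nat_lit 14) (nat_lit 5) (nat_lit 15) (nat_lit 5) (nat_lit 16) (nat_lit 4) (nat_lit 297) (nat_lit 276) (nat_lit 207)) (XT.nd (nat_lit 78) (nat_lit 152) (nat_lit 0) (XT.lf (nat_lit 0) (nat_lit 193076563015) (nat_lit 152) (nat_lit 42369724354) (nat_lit 0) (nat_lit 37951483079) (nat_lit 14) (nat_lit 5) (nat_lit 16) (nat_lit 4) (nat_lit 14) (nat_lit 4) (nat_lit 298) (nat_lit 276) (nat_lit 206)) (XT.lf (nat_lit 0) (nat_lit 11062948623) (nat_lit 152) (nat_lit 132115287707) (nat_lit 76) (nat_lit 161730391820) (nat_lit 12) (nat_lit 5) (nat_lit 14) (nat_lit 5) (nat_lit 13) (nat_lit 4) (nat_lit 299) (nat_lit 276) (nat_lit 205)))) (XT.nd (nat_lit 78) (nat_lit 76) (nat_lit 0) (XT.lf (nat_lit 0) (nat_lit 83678450943) (nat_lit 76) (nat_lit 31131964385) (nat_lit 152) (nat_lit 225895870705) (nat_lit 11) (nat_lit 5) (nat_lit 12) (nat_lit 5) (nat_lit 13)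 (nat_lit 4) (nat_lit 300) (nat_lit 276) (nat_lit 204)) (XT.nd (nat_lit 78) (nat_lit 76) (nat_lit 0) (XT.lf (nat_lit 0) (nat_lit 240414937604) (nat_lit 152) (nat_lit 44177230184) (nat_lit 0) (nat_lit 96777830538) (nat_lit 11) (nat_lit 5) (nat_lit 13) (nat_lit 4) (nat_lit 11) (nat_lit 4) (nat_lit 301) (nat_lit 276) (nat_lit 203)) (XT.lf (nat_lit 0) (nat_lit 210255141419) (nat_lit 76) (nat_lit 180521311513) (nat_lit 76) (nat_lit 36883509849) (nat_lit 10) (nat_lit 4) (nat_lit 11) (nat_lit 5) (nat_lit 11) (nat_lit 4) (nat_lit 302) (nat_lit 276) (nat_lit 202))))) (XT.nd (nat_lit 234) (nat_lit 152) (nat_lit 0) (XT.nd (nat_lit 78) (nat_lit 76) (nat_lit 0) (XT.lf (nat_lit 0) (nat_lit 23905771948) (nat_lit 76) (nat_lit 56644313441) (nat_lit 152) (nat_lit 400032572580) (nat_lit 8) (nat_lit 5) (nat_lit 9) (nat_lit 5) (nat_lit 10) (nat_lit 4) (nat_lit 303) (nat_lit 276) (nat_lit 201)) (XT.nd (nat_lit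 78) (nat_lit 76) (nat_lit 0) (XT.lf (nat_lit 0) (nat_lit 222033456294) (nat_lit 152) (nat_lit 229609722069) (nat_lit 0) (nat_lit 89034446220) (nat_lit 8) (nat_lit 5) (nat_lit 10) (nat_lit 4) (nat_lit 8) (nat_lit 4) (nat_lit 304) (nat_lit 276) (nat_lit 200)) (XT.lf (nat_lit 0) (nat_lit 31525919309) (nat_lit 76) (nat_lit 355537222702) (nat_lit 76) (nat_lit 222537789749) (nat_lit 7) (nat_lit 4) (nat_lit 8) (nat_lit 5) (nat_lit 8) (nat_lit 4) (nat_lit 305) (nat_lit 276) (nat_lit 199)))) (XT.nd (nat_lit 156) (nat_lit 76) (nat_lit 0) (XT.nd (nat_lit 78) (nat_lit 76) (nat_lit 0) (XT.lf (nat_lit 0) (nat_lit 345734534558) (nat_lit 76) (nat_lit 237796644747) (nat_lit 76) (nat_lit 104796844072) (nat_lit 7) (nat_lit 4) (nat_lit 8) (nat_lit 5) (nat_lit 8) (nat_lit 4) (nat_lit 306) (nat_lit 276) (nat_lit 198)) (XT.lf (nat_lit 0) (nat_lit 29073405234) (nat_lit 152) (nat_lit 72527437544) (nat_lit 76)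 (nat_lit 677204518825) (nat_lit 6) (nat_lit 5) (nat_lit 8) (nat_lit 5) (nat_lit 7) (nat_lit 4) (nat_lit 307) (nat_lit 276) (nat_lit 197))) (XT.nd (nat_lit 78) (nat_lit 0) (nat_lit 0) (XT.lf (nat_lit 0) (nat_lit 184501105532) (nat_lit 152) (nat_lit 636168282621) (nat_lit 0) (nat_lit 61352588419) (nat_lit 5) (nat_lit 5) (nat_lit 7) (nat_lit 4) (nat_lit 5) (nat_lit 4) (nat_lit 308) (nat_lit 276) (nat_lit 196)) (XT.lf (nat_lit 0) (nat_lit 368218710908) (nat_lit 152) (nat_lit 387034343116) (nat_lit 0) (nat_lit 245069969922) (nat_lit 5) (nat_lit 5) (nat_lit 7) (nat_lit 4) (nat_lit 5) (nat_lit 4) (nat_lit 309) (nat_lit 276) (nat_lit 195)))))) (XT.nd (nat_lit 468) (nat_lit 0) (nat_lit 0) (XT.nd (nat_lit 234) (nat_lit 152) (nat_lit 0) (XT.nd (nat_lit 78) (nat_lit 76) (nat_lit 0) (XT.lf (nat_lit 0) (nat_lit 579493363989) (nat_lit 152) (nat_lit 100531483692) (nat_lit 0) (nat_lit 456344428331) (nat_lit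 5) (nat_lit 5) (nat_lit 7) (nat_lit 4) (nat_lit 5) (nat_lit 4) (nat_lit 310) (nat_lit 276) (nat_lit 194)) (XT.nd (nat_lit 78) (nat_lit 0) (nat_lit 0) (XT.lf (nat_lit 0) (nat_lit 241001665762) (nat_lit 76) (nat_lit 587253129388) (nat_lit 76) (nat_lit 464104024451) (nat_lit 4) (nat_lit 4) (nat_lit 5) (nat_lit 5) (nat_lit 5) (nat_lit 4) (nat_lit 311) (nat_lit 276) (nat_lit 193)) (XT.lf (nat_lit 0) (nat_lit 639851736800) (nat_lit 76) (nat_lit 477405099282) (nat_lit 76) (nat_lit 354255847144) (nat_lit 4) (nat_lit 4) (nat_lit 5) (nat_lit 5) (nat_lit 5) (nat_lit 4) (nat_lit 312) (nat_lit 276) (nat_lit 192)))) (XT.nd (nat_lit 78) (nat_lit 152) (nat_lit 0) (XT.lf (nat_lit 0) (nat_lit 1098528507994) (nat_lit 76) (nat_lit 351080265694) (nat_lit 76) (nat_lit 227930885556) (nat_lit 4) (nat_lit 4) (nat_lit 5) (nat_lit 5) (nat_lit 5) (nat_lit 4) (nat_lit 313) (nat_lit 276) (nat_lit 191)) (XT.nd (nat_lit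 78) (nat_lit 152) (nat_lit 0) (XT.lf (nat_lit 0) (nat_lit 1626006090083) (nat_lit 76) (nat_lit 205807055794) (nat_lit 76) (nat_lit 82657564351) (nat_lit 4) (nat_lit 4) (nat_lit 5) (nat_lit 5) (nat_lit 5) (nat_lit 4) (nat_lit 314) (nat_lit 276) (nat_lit 190)) (XT.lf (nat_lit 0) (nat_lit 45930927501) (nat_lit 76) (nat_lit 35357781984) (nat_lit 152) (nat_lit 2105401964906) (nat_lit 2) (nat_lit 5) (nat_lit 3) (nat_lit 5) (nat_lit 4) (nat_lit 4) (nat_lit 315) (nat_lit 276) (nat_lit 189))))) (XT.nd (nat_lit 234) (nat_lit 0) (nat_lit 0) (XT.nd (nat_lit 78) (nat_lit 0) (nat_lit 0) (XT.lf (nat_lit 0) (nat_lit 277551856983) (nat_lit 152) (nat_lit 2057486103102) (nat_lit 0) (nat_lit 163524382547) (nat_lit 2) (nat_lit 5) (nat_lit 4) (nat_lit 4) (nat_lit 2) (nat_lit 4) (nat_lit 316) (nat_lit 276) (nat_lit 188)) (XT.nd (nat_lit 78) (nat_lit 0) (nat_lit 0) (XT.lf (nat_lit 0) (nat_lit 504232127156) (nat_lit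 152) (nat_lit 1962699837001) (nat_lit 0) (nat_lit 390204584957) (nat_lit 2) (nat_lit 5) (nat_lit 4) (nat_lit 4) (nat_lit 2) (nat_lit 4) (nat_lit 317) (nat_lit 276) (nat_lit 187)) (XT.lf (nat_lit 0) (nat_lit 764914213262) (nat_lit 152) (nat_lit 1853696079180) (nat_lit 0) (nat_lit 650886612138) (nat_lit 2) (nat_lit 5) (nat_lit 4) (nat_lit 4) (nat_lit 2) (nat_lit 4) (nat_lit 318) (nat_lit 276) (nat_lit 186)))) (XT.nd (nat_lit 156) (nat_lit 0) (nat_lit 0) (XT.nd (nat_lit 78) (nat_lit 0) (nat_lit 0) (XT.lf (nat_lit 0) (nat_lit 1064698416984) (nat_lit 152) (nat_lit 1728342147420) (nat_lit 0) (nat_lit 950670764621) (nat_lit 2) (nat_lit 5) (nat_lit 4) (nat_lit 4) (nat_lit 2) (nat_lit 4) (nat_lit 319) (nat_lit 276) (nat_lit 185)) (XT.lf (nat_lit 0) (nat_lit 1409450081439) (nat_lit 152) (nat_lit 1584185464795) (nat_lit 0) (nat_lit 1295422384520) (nat_lit 2) (nat_lit 5) (nat_lit 4) (nat_lit 4) (nat_lit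 2) (nat_lit 4) (nat_lit 320) (nat_lit 276) (nat_lit 184))) (XT.nd (nat_lit 78) (nat_lit 0) (nat_lit 0) (XT.lf (nat_lit 0) (nat_lit 1805914347888) (nat_lit 152) (nat_lit 1418405574471) (nat_lit 0) (nat_lit 1691886612226) (nat_lit 2) (nat_lit 5) (nat_lit 4) (nat_lit 4) (nat_lit 2) (nat_lit 4) (nat_lit 321) (nat_lit 276) (nat_lit 183)) (XT.lf (nat_lit 0) (nat_lit 2261848125893) (nat_lit 152) (nat_lit 1227758956855) (nat_lit 0) (nat_lit 2147820356540) (nat_lit 2) (nat_lit 5) (nat_lit 4) (nat_lit 4) (nat_lit 2) (nat_lit 4) (nat_lit 322) (nat_lit 276) (nat_lit 182))))))))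
noncomputable def xc43 : XT := (XT.nd (nat_lit 38688) (nat_lit 0) (nat_lit 76) (XT.nd (nat_lit 37674) (nat_lit 0) (nat_lit 1064) (XT.nd (nat_lit 37128) (nat_lit 0) (nat_lit 2964) (XT.nd (nat_lit 234) (nat_lit 76) (nat_lit 0) (XT.nd (nat_lit 78) (nat_lit 0) (nat_lit 0) (XT.lf (nat_lit 0) (nat_lit 2786171858935) (nat_lit 152) (nat_lit 1008515569428) (nat_lit 0) (nat_lit 2672144060286) (nat_lit 2) (nat_lit 5) (nat_lit 4) (nat_lit 4) (nat_lit 2) (nat_lit 4) (nat_lit 323) (nat_lit 276) (nat_lit 181)) (XT.nd (nat_lit 78) (nat_lit 0) (nat_lit 0) (XT.lf (nat_lit 0) (nat_lit 3389144054836) (nat_lit 152) (nat_lit 756385867654) (nat_lit 0) (nat_lit 3275116230712) (nat_lit 2) (nat_lit 5) (nat_lit 4) (nat_lit 4) (nat_lit 2) (nat_lit 4) (nat_lit 324) (nat_lit 276) (nat_lit 180)) (XT.lf (nat_lit 0) (nat_lit 4082561995688) (nat_lit 152) (nat_lit 466436879106) (nat_lit 0) (nat_lit 3968534149413) (nat_lit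 2) (nat_lit 5) (nat_lit 4) (nat_lit 4) (nat_lit 2) (nat_lit 4) (nat_lit 325) (nat_lit 276) (nat_lit 179)))) (XT.nd (nat_lit 78) (nat_lit 76) (nat_lit 0) (XT.lf (nat_lit 0) (nat_lit 4879992554249) (nat_lit 152) (nat_lit 132995688792) (nat_lit 0) (nat_lit 4765964688711) (nat_lit 2) (nat_lit 5) (nat_lit 4) (nat_lit 4) (nat_lit 2) (nat_lit 4) (nat_lit 326) (nat_lit 276) (nat_lit 178)) (XT.nd (nat_lit 36738) (nat_lit 0) (nat_lit 4028) (XT.lf (nat_lit 0) (nat_lit 263650414171) (nat_lit 76) (nat_lit 5539728017380) (nat_lit 76) (nat_lit 5425700135092) (nat_lit 1) (nat_lit 4) (nat_lit 2) (nat_lit 5) (nat_lit 2) (nat_lit 4) (nat_lit 327) (nat_lit 276) (nat_lit 177)) (XT.lf (nat_lit 0) (nat_lit 16776223788) (nat_lit 532) (nat_lit 2579708774) (nat_lit 532) (nat_lit 2579708774) (nat_lit 54) (nat_lit 3) (nat_lit 61) (nat_lit 3) (nat_lit 61) (nat_lit 5) (nat_lit 277) (nat_lit 277) (nat_lit 226))))) (XT.nd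 (nat_lit 234) (nat_lit 1064) (nat_lit 0) (XT.nd (nat_lit 78) (nat_lit 0) (nat_lit 76) (XT.lf (nat_lit 76) (nat_lit 35563896414) (nat_lit 0) (nat_lit 1417071856) (nat_lit 532) (nat_lit 10107589927) (nat_lit 55) (nat_lit 5) (nat_lit 54) (nat_lit 3) (nat_lit 61) (nat_lit 5) (nat_lit 278) (nat_lit 277) (nat_lit 225)) (XT.nd (nat_lit 78) (nat_lit 0) (nat_lit 76) (XT.lf (nat_lit 76) (nat_lit 32552121914) (nat_lit 0) (nat_lit 10295898763) (nat_lit 532) (nat_lit 7786482547) (nat_lit 56) (nat_lit 5) (nat_lit 55) (nat_lit 5) (nat_lit 62) (nat_lit 5) (nat_lit 279) (nat_lit 277) (nat_lit 224)) (XT.lf (nat_lit 76) (nat_lit 29886770364) (nat_lit 0) (nat_lit 21607944581) (nat_lit 532) (nat_lit 3065674396) (nat_lit 57) (nat_lit 5) (nat_lit 56) (nat_lit 5) (nat_lit 63) (nat_lit 5) (nat_lit 280) (nat_lit 277) (nat_lit 223)))) (XT.nd (nat_lit 156) (nat_lit 456) (nat_lit 0) (XT.nd (nat_lit 78) (nat_lit 304)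 (nat_lit 0) (XT.lf (nat_lit 0) (nat_lit 4326377933) (nat_lit 532) (nat_lit 31378544807) (nat_lit 76) (nat_lit 23199194256) (nat_lit 50) (nat_lit 5) (nat_lit 57) (nat_lit 5) (nat_lit 51) (nat_lit 5) (nat_lit 281) (nat_lit 277) (nat_lit 222)) (XT.lf (nat_lit 0) (nat_lit 14867687015) (nat_lit 380) (nat_lit 38216906171) (nat_lit 76) (nat_lit 10630693938) (nat_lit 46) (nat_lit 5) (nat_lit 51) (nat_lit 5) (nat_lit 47) (nat_lit 5) (nat_lit 282) (nat_lit 277) (nat_lit 221))) (XT.nd (nat_lit 78) (nat_lit 228) (nat_lit 0) (XT.lf (nat_lit 0) (nat_lit 23804788003) (nat_lit 228) (nat_lit 5676315179) (nat_lit 304) (nat_lit 39567766507) (nat_lit 43) (nat_lit 5) (nat_lit 46) (nat_lit 5) (nat_lit 47) (nat_lit 5) (nat_lit 283) (nat_lit 277) (nat_lit 220)) (XT.lf (nat_lit 0) (nat_lit 22253538689) (nat_lit 228) (nat_lit 26878701283) (nat_lit 304) (nat_lit 25822601513) (nat_lit 40) (nat_lit 5) (nat_lit 43)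 (nat_lit 5) (nat_lit 44) (nat_lit 5) (nat_lit 284) (nat_lit 277) (nat_lit 219)))))) (XT.nd (nat_lit 468) (nat_lit 760) (nat_lit 0) (XT.nd (nat_lit 234) (nat_lit 532) (nat_lit 0) (XT.nd (nat_lit 78) (nat_lit 456) (nat_lit 0) (XT.lf (nat_lit 0) (nat_lit 21170404076) (nat_lit 152) (nat_lit 53238345660) (nat_lit 228) (nat_lit 7123750508) (nat_lit 38) (nat_lit 5) (nat_lit 40) (nat_lit 5) (nat_lit 41) (nat_lit 5) (nat_lit 285) (nat_lit 277) (nat_lit 218)) (XT.nd (nat_lit 78) (nat_lit 152) (nat_lit 0) (XT.lf (nat_lit 0) (nat_lit 16549990350) (nat_lit 304) (nat_lit 68719309716) (nat_lit 76) (nat_lit 3568694339) (nat_lit 34) (nat_lit 5) (nat_lit 38) (nat_lit 5) (nat_lit 35) (nat_lit 5) (nat_lit 286) (nat_lit 277) (nat_lit 217)) (XT.lf (nat_lit 0) (nat_lit 18429010415) (nat_lit 152) (nat_lit 28650362854) (nat_lit 228) (nat_lit 49847031081) (nat_lit 32) (nat_lit 5) (nat_lit 34) (nat_lit 5) (nat_lit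 35) (nat_lit 5) (nat_lit 287) (nat_lit 277) (nat_lit 216)))) (XT.nd (nat_lit 78) (nat_lit 380) (nat_lit 0) (XT.lf (nat_lit 0) (nat_lit 16640823005) (nat_lit 152) (nat_lit 68873205429) (nat_lit 228) (nat_lit 20447982669) (nat_lit 30) (nat_lit 5) (nat_lit 32) (nat_lit 5) (nat_lit 33) (nat_lit 5) (nat_lit 288) (nat_lit 277) (nat_lit 215)) (XT.nd (nat_lit 78) (nat_lit 152) (nat_lit 0) (XT.lf (nat_lit 0) (nat_lit 14163164011) (nat_lit 152) (nat_lit 2003528637) (nat_lit 228) (nat_lit 99882632432) (nat_lit 27) (nat_lit 5) (nat_lit 29) (nat_lit 5) (nat_lit 30) (nat_lit 5) (nat_lit 289) (nat_lit 277) (nat_lit 214)) (XT.lf (nat_lit 0) (nat_lit 9155944815) (nat_lit 152) (nat_lit 52627497862) (nat_lit 228) (nat_lit 65446157538) (nat_lit 25) (nat_lit 5) (nat_lit 27) (nat_lit 5) (nat_lit 28) (nat_lit 5) (nat_lit 290) (nat_lit 277) (nat_lit 213))))) (XT.nd (nat_lit 234) (nat_lit 456) (nat_lit 0) (XT.nd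 (nat_lit 78) (nat_lit 228) (nat_lit 0) (XT.lf (nat_lit 0) (nat_lit 2629049578) (nat_lit 76) (nat_lit 115312326116) (nat_lit 152) (nat_lit 21849650030) (nat_lit 24) (nat_lit 5) (nat_lit 25) (nat_lit 5) (nat_lit 26) (nat_lit 4) (nat_lit 291) (nat_lit 277) (nat_lit 212)) (XT.nd (nat_lit 78) (nat_lit 152) (nat_lit 0) (XT.lf (nat_lit 0) (nat_lit 31850940693) (nat_lit 152) (nat_lit 7604138209) (nat_lit 76) (nat_lit 114328797078) (nat_lit 23) (nat_lit 5) (nat_lit 25) (nat_lit 5) (nat_lit 24) (nat_lit 5) (nat_lit 292) (nat_lit 277) (nat_lit 211)) (XT.lf (nat_lit 0) (nat_lit 97168592668) (nat_lit 228) (nat_lit 22607590401) (nat_lit 76) (nat_lit 49665613492) (nat_lit 21) (nat_lit 5) (nat_lit 24) (nat_lit 5) (nat_lit 22) (nat_lit 4) (nat_lit 293) (nat_lit 277) (nat_lit 210)))) (XT.nd (nat_lit 156) (nat_lit 228) (nat_lit 0) (XT.nd (nat_lit 78) (nat_lit 152) (nat_lit 0) (XT.lf (nat_lit 0) (nat_lit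 143548083197) (nat_lit 76) (nat_lit 33504253365) (nat_lit 152) (nat_lit 10014594806) (nat_lit 20) (nat_lit 5) (nat_lit 21) (nat_lit 5) (nat_lit 22) (nat_lit 4) (nat_lit 294) (nat_lit 277) (nat_lit 209)) (XT.lf (nat_lit 0) (nat_lit 64115820431) (nat_lit 152) (nat_lit 74715910799) (nat_lit 76) (nat_lit 67936530182) (nat_lit 18) (nat_lit 5) (nat_lit 20) (nat_lit 5) (nat_lit 19) (nat_lit 4) (nat_lit 295) (nat_lit 277) (nat_lit 208))) (XT.nd (nat_lit 78) (nat_lit 152) (nat_lit 0) (XT.lf (nat_lit 0) (nat_lit 111614571438) (nat_lit 76) (nat_lit 42084057725) (nat_lit 152) (nat_lit 75311288861) (nat_lit 17) (nat_lit 5) (nat_lit 18) (nat_lit 5) (nat_lit 19) (nat_lit 4) (nat_lit 296) (nat_lit 277) (nat_lit 207)) (XT.lf (nat_lit 0) (nat_lit 7948618118) (nat_lit 152) (nat_lit 176133640602) (nat_lit 76) (nat_lit 70027530423) (nat_lit 15) (nat_lit 5) (nat_lit 17) (nat_lit 5) (nat_lit 16) (nat_lit 4)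 (nat_lit 297) (nat_lit 277) (nat_lit 206))))))) (XT.nd (nat_lit 1014) (nat_lit 228) (nat_lit 0) (XT.nd (nat_lit 468) (nat_lit 380) (nat_lit 0) (XT.nd (nat_lit 234) (nat_lit 152) (nat_lit 0) (XT.nd (nat_lit 78) (nat_lit 152) (nat_lit 0) (XT.lf (nat_lit 0) (nat_lit 24971704043) (nat_lit 76) (nat_lit 79662768319) (nat_lit 152) (nat_lit 177751980002) (nat_lit 14) (nat_lit 5) (nat_lit 15) (nat_lit 5) (nat_lit 16) (nat_lit 4) (nat_lit 298) (nat_lit 277) (nat_lit 205)) (XT.nd (nat_lit 78) (nat_lit 152) (nat_lit 0) (XT.lf (nat_lit 0) (nat_lit 222054870513) (nat_lit 152) (nat_lit 48693628467) (nat_lit 0) (nat_lit 43657583537) (nat_lit 14) (nat_lit 5) (nat_lit 16) (nat_lit 4) (nat_lit 14) (nat_lit 4) (nat_lit 299) (nat_lit 277) (nat_lit 204)) (XT.lf (nat_lit 0) (nat_lit 12738118638) (nat_lit 152) (nat_lit 151902862900) (nat_lit 76) (nat_lit 186002676454) (nat_lit 12) (nat_lit 5) (nat_lit 14) (nat_lit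 5) (nat_lit 13) (nat_lit 4) (nat_lit 300) (nat_lit 277) (nat_lit 203)))) (XT.nd (nat_lit 78) (nat_lit 76) (nat_lit 0) (XT.lf (nat_lit 0) (nat_lit 96257421071) (nat_lit 76) (nat_lit 35788887056) (nat_lit 152) (nat_lit 259764769012) (nat_lit 11) (nat_lit 5) (nat_lit 12) (nat_lit 5) (nat_lit 13) (nat_lit 4) (nat_lit 301) (nat_lit 277) (nat_lit 202)) (XT.nd (nat_lit 78) (nat_lit 76) (nat_lit 0) (XT.lf (nat_lit 0) (nat_lit 276489908741) (nat_lit 152) (nat_lit 50779428003) (nat_lit 0) (nat_lit 111305138229) (nat_lit 11) (nat_lit 5) (nat_lit 13) (nat_lit 4) (nat_lit 11) (nat_lit 4) (nat_lit 302) (nat_lit 277) (nat_lit 201)) (XT.lf (nat_lit 0) (nat_lit 241815735127) (nat_lit 76) (nat_lit 207588792599) (nat_lit 76) (nat_lit 42403496872) (nat_lit 10) (nat_lit 4) (nat_lit 11) (nat_lit 5) (nat_lit 11) (nat_lit 4) (nat_lit 303) (nat_lit 277) (nat_lit 200))))) (XT.nd (nat_lit 234) (nat_lit 152) (nat_lit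 0) (XT.nd (nat_lit 78) (nat_lit 76) (nat_lit 0) (XT.lf (nat_lit 0) (nat_lit 27512648361) (nat_lit 76) (nat_lit 65130813561) (nat_lit 152) (nat_lit 460025722382) (nat_lit 8) (nat_lit 5) (nat_lit 9) (nat_lit 5) (nat_lit 10) (nat_lit 4) (nat_lit 304) (nat_lit 277) (nat_lit 199)) (XT.nd (nat_lit 78) (nat_lit 76) (nat_lit 0) (XT.lf (nat_lit 0) (nat_lit 255348133657) (nat_lit 152) (nat_lit 264032363903) (nat_lit 0) (nat_lit 102397995161) (nat_lit 8) (nat_lit 5) (nat_lit 10) (nat_lit 4) (nat_lit 8) (nat_lit 4) (nat_lit 305) (nat_lit 277) (nat_lit 198)) (XT.lf (nat_lit 0) (nat_lit 36272030961) (nat_lit 76) (nat_lit 408859395643) (nat_lit 76) (nat_lit 255908937389) (nat_lit 7) (nat_lit 4) (nat_lit 8) (nat_lit 5) (nat_lit 8) (nat_lit 4) (nat_lit 306) (nat_lit 277) (nat_lit 197)))) (XT.nd (nat_lit 156) (nat_lit 76) (nat_lit 0) (XT.nd (nat_lit 78) (nat_lit 76) (nat_lit 0) (XT.lf (nat_lit 0) (nat_lit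 397609691921) (nat_lit 76) (nat_lit 273458828012) (nat_lit 76) (nat_lit 120508091707) (nat_lit 7) (nat_lit 4) (nat_lit 8) (nat_lit 5) (nat_lit 8) (nat_lit 4) (nat_lit 307) (nat_lit 277) (nat_lit 196)) (XT.lf (nat_lit 0) (nat_lit 33441255000) (nat_lit 152) (nat_lit 83393167685) (nat_lit 76) (nat_lit 778791194311) (nat_lit 6) (nat_lit 5) (nat_lit 8) (nat_lit 5) (nat_lit 7) (nat_lit 4) (nat_lit 308) (nat_lit 277) (nat_lit 195))) (XT.nd (nat_lit 78) (nat_lit 0) (nat_lit 0) (XT.lf (nat_lit 0) (nat_lit 212182657536) (nat_lit 152) (nat_lit 731580916269) (nat_lit 0) (nat_lit 70561186857) (nat_lit 5) (nat_lit 5) (nat_lit 7) (nat_lit 4) (nat_lit 5) (nat_lit 4) (nat_lit 309) (nat_lit 277) (nat_lit 194)) (XT.lf (nat_lit 0) (nat_lit 423457070739) (nat_lit 152) (nat_lit 445078530457) (nat_lit 0) (nat_lit 281835430780) (nat_lit 5) (nat_lit 5) (nat_lit 7) (nat_lit 4) (nat_lit 5) (nat_lit 4) (nat_lit 310)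 (nat_lit 277) (nat_lit 193)))))) (XT.nd (nat_lit 468) (nat_lit 0) (nat_lit 0) (XT.nd (nat_lit 234) (nat_lit 152) (nat_lit 0) (XT.nd (nat_lit 78) (nat_lit 76) (nat_lit 0) (XT.lf (nat_lit 0) (nat_lit 666422197452) (nat_lit 152) (nat_lit 115601672223) (nat_lit 0) (nat_lit 524800410294) (nat_lit 5) (nat_lit 5) (nat_lit 7) (nat_lit 4) (nat_lit 5) (nat_lit 4) (nat_lit 311) (nat_lit 277) (nat_lit 192)) (XT.nd (nat_lit 78) (nat_lit 0) (nat_lit 0) (XT.lf (nat_lit 0) (nat_lit 277160642642) (nat_lit 76) (nat_lit 675336780680) (nat_lit 76) (nat_lit 533714865521) (nat_lit 4) (nat_lit 4) (nat_lit 5) (nat_lit 5) (nat_lit 5) (nat_lit 4) (nat_lit 312) (nat_lit 277) (nat_lit 191)) (XT.lf (nat_lit 0) (nat_lit 735837086029) (nat_lit 76) (nat_lit 549012109290) (nat_lit 76) (nat_lit 407390082827) (nat_lit 4) (nat_lit 4) (nat_lit 5) (nat_lit 5) (nat_lit 5) (nat_lit 4) (nat_lit 313) (nat_lit 277) (nat_lit 190))))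 (XT.nd (nat_lit 78) (nat_lit 152) (nat_lit 0) (XT.lf (nat_lit 0) (nat_lit 1263314383070) (nat_lit 76) (nat_lit 403739040431) (nat_lit 76) (nat_lit 262116917182) (nat_lit 4) (nat_lit 4) (nat_lit 5) (nat_lit 5) (nat_lit 5) (nat_lit 4) (nat_lit 314) (nat_lit 277) (nat_lit 189)) (XT.nd (nat_lit 78) (nat_lit 152) (nat_lit 0) (XT.lf (nat_lit 0) (nat_lit 1869912741750) (nat_lit 76) (nat_lit 236675274930) (nat_lit 76) (nat_lit 95053067519) (nat_lit 4) (nat_lit 4) (nat_lit 5) (nat_lit 5) (nat_lit 5) (nat_lit 4) (nat_lit 315) (nat_lit 277) (nat_lit 188)) (XT.lf (nat_lit 0) (nat_lit 52825963015) (nat_lit 76) (nat_lit 40658769490) (nat_lit 152) (nat_lit 2421209325194) (nat_lit 2) (nat_lit 5) (nat_lit 3) (nat_lit 5) (nat_lit 4) (nat_lit 4) (nat_lit 316) (nat_lit 277) (nat_lit 187))))) (XT.nd (nat_lit 234) (nat_lit 0) (nat_lit 0) (XT.nd (nat_lit 78) (nat_lit 0) (nat_lit 0) (XT.lf (nat_lit 0) (nat_lit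 319187053832) (nat_lit 152) (nat_lit 2366104192663) (nat_lit 0) (nat_lit 188055253614) (nat_lit 2) (nat_lit 5) (nat_lit 4) (nat_lit 4) (nat_lit 2) (nat_lit 4) (nat_lit 317) (nat_lit 277) (nat_lit 186)) (XT.nd (nat_lit 78) (nat_lit 0) (nat_lit 0) (XT.lf (nat_lit 0) (nat_lit 579869049100) (nat_lit 152) (nat_lit 2257100616113) (nat_lit 0) (nat_lit 448737197644) (nat_lit 2) (nat_lit 5) (nat_lit 4) (nat_lit 4) (nat_lit 2) (nat_lit 4) (nat_lit 318) (nat_lit 277) (nat_lit 185)) (XT.lf (nat_lit 0) (nat_lit 879653173834) (nat_lit 152) (nat_lit 2131746841980) (nat_lit 0) (nat_lit 748521277822) (nat_lit 2) (nat_lit 5) (nat_lit 4) (nat_lit 4) (nat_lit 2) (nat_lit 4) (nat_lit 319) (nat_lit 277) (nat_lit 184)))) (XT.nd (nat_lit 156) (nat_lit 0) (nat_lit 0) (XT.nd (nat_lit 78) (nat_lit 0) (nat_lit 0) (XT.lf (nat_lit 0) (nat_lit 1224404769603) (nat_lit 152) (nat_lit 1987590296423) (nat_lit 0) (nat_lit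 1093272834848) (nat_lit 2) (nat_lit 5) (nat_lit 4) (nat_lit 4) (nat_lit 2) (nat_lit 4) (nat_lit 320) (nat_lit 277) (nat_lit 183)) (XT.lf (nat_lit 0) (nat_lit 1620868976326) (nat_lit 152) (nat_lit 1821810525288) (nat_lit 0) (nat_lit 1489737007880) (nat_lit 2) (nat_lit 5) (nat_lit 4) (nat_lit 4) (nat_lit 2) (nat_lit 4) (nat_lit 321) (nat_lit 277) (nat_lit 182))) (XT.nd (nat_lit 78) (nat_lit 0) (nat_lit 0) (XT.lf (nat_lit 0) (nat_lit 2076802702394) (nat_lit 152) (nat_lit 1631164011314) (nat_lit 0) (nat_lit 1945670704652) (nat_lit 2) (nat_lit 5) (nat_lit 4) (nat_lit 4) (nat_lit 2) (nat_lit 4) (nat_lit 322) (nat_lit 277) (nat_lit 181)) (XT.lf (nat_lit 0) (nat_lit 2601126390275) (nat_lit 152) (nat_lit 1411920714012) (nat_lit 0) (nat_lit 2469994367058) (nat_lit 2) (nat_lit 5) (nat_lit 4) (nat_lit 4) (nat_lit 2) (nat_lit 4) (nat_lit 323) (nat_lit 277) (nat_lit 180))))))))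
noncomputable def xc44 : XT := (XT.nd (nat_lit 38766) (nat_lit 0) (nat_lit 0) (XT.nd (nat_lit 37752) (nat_lit 0) (nat_lit 912) (XT.nd (nat_lit 37284) (nat_lit 0) (nat_lit 2736) (XT.nd (nat_lit 37050) (nat_lit 0) (nat_lit 3952) (XT.nd (nat_lit 78) (nat_lit 0) (nat_lit 0) (XT.lf (nat_lit 0) (nat_lit 3204098546904) (nat_lit 152) (nat_lit 1159791090606) (nat_lit 0) (nat_lit 3072966501536) (nat_lit 2) (nat_lit 5) (nat_lit 4) (nat_lit 4) (nat_lit 2) (nat_lit 4) (nat_lit 324) (nat_lit 277) (nat_lit 179)) (XT.nd (nat_lit 78) (nat_lit 0) (nat_lit 0) (XT.lf (nat_lit 0) (nat_lit 3897516453608) (nat_lit 152) (nat_lit 869842170205) (nat_lit 0) (nat_lit 3766384388977) (nat_lit 2) (nat_lit 5) (nat_lit 4) (nat_lit 4) (nat_lit 2) (nat_lit 4) (nat_lit 325) (nat_lit 277) (nat_lit 178)) (XT.lf (nat_lit 0) (nat_lit 4694946982473) (nat_lit 152) (nat_lit 536401039149) (nat_lit 0) (nat_lit 4563814901092) (nat_lit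 2) (nat_lit 5) (nat_lit 4) (nat_lit 4) (nat_lit 2) (nat_lit 4) (nat_lit 326) (nat_lit 277) (nat_lit 177)))) (XT.nd (nat_lit 78) (nat_lit 0) (nat_lit 0) (XT.lf (nat_lit 0) (nat_lit 19347081005) (nat_lit 532) (nat_lit 2937226613) (nat_lit 532) (nat_lit 2937226613) (nat_lit 54) (nat_lit 3) (nat_lit 61) (nat_lit 3) (nat_lit 61) (nat_lit 5) (nat_lit 278) (nat_lit 278) (nat_lit 224)) (XT.nd (nat_lit 78) (nat_lit 0) (nat_lit 76) (XT.lf (nat_lit 76) (nat_lit 40952374190) (nat_lit 0) (nat_lit 1671685279) (nat_lit 532) (nat_lit 11519933886) (nat_lit 55) (nat_lit 5) (nat_lit 54) (nat_lit 3) (nat_lit 61) (nat_lit 5) (nat_lit 279) (nat_lit 278) (nat_lit 223)) (XT.lf (nat_lit 76) (nat_lit 37492381704) (nat_lit 0) (nat_lit 11866775362) (nat_lit 532) (nat_lit 8863656634) (nat_lit 56) (nat_lit 5) (nat_lit 55) (nat_lit 5) (nat_lit 62) (nat_lit 5) (nat_lit 280) (nat_lit 278) (nat_lit 222))))) (XT.nd (nat_lit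 234) (nat_lit 608) (nat_lit 0) (XT.nd (nat_lit 78) (nat_lit 760) (nat_lit 0) (XT.lf (nat_lit 76) (nat_lit 34429232401) (nat_lit 0) (nat_lit 24863550918) (nat_lit 532) (nat_lit 3445624799) (nat_lit 57) (nat_lit 5) (nat_lit 56) (nat_lit 5) (nat_lit 63) (nat_lit 5) (nat_lit 281) (nat_lit 278) (nat_lit 221)) (XT.nd (nat_lit 78) (nat_lit 304) (nat_lit 0) (XT.lf (nat_lit 0) (nat_lit 5042515547) (nat_lit 532) (nat_lit 36021423275) (nat_lit 76) (nat_lit 26670315988) (nat_lit 50) (nat_lit 5) (nat_lit 57) (nat_lit 5) (nat_lit 51) (nat_lit 5) (nat_lit 282) (nat_lit 278) (nat_lit 220)) (XT.lf (nat_lit 0) (nat_lit 17157633041) (nat_lit 380) (nat_lit 43886038400) (nat_lit 76) (nat_lit 12224033782) (nat_lit 46) (nat_lit 5) (nat_lit 51) (nat_lit 5) (nat_lit 47) (nat_lit 5) (nat_lit 283) (nat_lit 278) (nat_lit 219)))) (XT.nd (nat_lit 78) (nat_lit 380) (nat_lit 0) (XT.lf (nat_lit 0) (nat_lit 27433543093)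 (nat_lit 228) (nat_lit 6523115247) (nat_lit 304) (nat_lit 45445191036) (nat_lit 43) (nat_lit 5) (nat_lit 46) (nat_lit 5) (nat_lit 47) (nat_lit 5) (nat_lit 284) (nat_lit 278) (nat_lit 218)) (XT.nd (nat_lit 78) (nat_lit 152) (nat_lit 0) (XT.lf (nat_lit 0) (nat_lit 25648574039) (nat_lit 228) (nat_lit 30901395885) (nat_lit 304) (nat_lit 29644197056) (nat_lit 40) (nat_lit 5) (nat_lit 43) (nat_lit 5) (nat_lit 44) (nat_lit 5) (nat_lit 285) (nat_lit 278) (nat_lit 217)) (XT.lf (nat_lit 0) (nat_lit 24401514070) (nat_lit 152) (nat_lit 61211721540) (nat_lit 228) (nat_lit 8145625616) (nat_lit 38) (nat_lit 5) (nat_lit 40) (nat_lit 5) (nat_lit 41) (nat_lit 5) (nat_lit 286) (nat_lit 278) (nat_lit 216)))))) (XT.nd (nat_lit 468) (nat_lit 760) (nat_lit 0) (XT.nd (nat_lit 234) (nat_lit 456) (nat_lit 0) (XT.nd (nat_lit 78) (nat_lit 304) (nat_lit 0) (XT.lf (nat_lit 0) (nat_lit 19072648668) (nat_lit 304) (nat_lit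 78971251411) (nat_lit 76) (nat_lit 4116532250) (nat_lit 34) (nat_lit 5) (nat_lit 38) (nat_lit 5) (nat_lit 35) (nat_lit 5) (nat_lit 287) (nat_lit 278) (nat_lit 215)) (XT.nd (nat_lit 78) (nat_lit 152) (nat_lit 0) (XT.lf (nat_lit 0) (nat_lit 21244580448) (nat_lit 152) (nat_lit 32932852152) (nat_lit 228) (nat_lit 57284997999) (nat_lit 32) (nat_lit 5) (nat_lit 34) (nat_lit 5) (nat_lit 35) (nat_lit 5) (nat_lit 288) (nat_lit 278) (nat_lit 214)) (XT.lf (nat_lit 0) (nat_lit 19186183911) (nat_lit 152) (nat_lit 79187885696) (nat_lit 228) (nat_lit 23479571569) (nat_lit 30) (nat_lit 5) (nat_lit 32) (nat_lit 5) (nat_lit 33) (nat_lit 5) (nat_lit 289) (nat_lit 278) (nat_lit 213)))) (XT.nd (nat_lit 78) (nat_lit 228) (nat_lit 0) (XT.lf (nat_lit 0) (nat_lit 16334369922) (nat_lit 152) (nat_lit 2287865486) (nat_lit 228) (nat_lit 114832015824) (nat_lit 27) (nat_lit 5) (nat_lit 29) (nat_lit 5) (nat_lit 30) (nat_lit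 5) (nat_lit 290) (nat_lit 278) (nat_lit 212)) (XT.nd (nat_lit 78) (nat_lit 76) (nat_lit 0) (XT.lf (nat_lit 0) (nat_lit 10574019125) (nat_lit 152) (nat_lit 60504908738) (nat_lit 228) (nat_lit 75232849230) (nat_lit 25) (nat_lit 5) (nat_lit 27) (nat_lit 5) (nat_lit 28) (nat_lit 5) (nat_lit 291) (nat_lit 278) (nat_lit 211)) (XT.lf (nat_lit 0) (nat_lit 3066011092) (nat_lit 76) (nat_lit 132592265804) (nat_lit 152) (nat_lit 25099324793) (nat_lit 24) (nat_lit 5) (nat_lit 25) (nat_lit 5) (nat_lit 26) (nat_lit 4) (nat_lit 292) (nat_lit 278) (nat_lit 210))))) (XT.nd (nat_lit 234) (nat_lit 456) (nat_lit 0) (XT.nd (nat_lit 78) (nat_lit 228) (nat_lit 0) (XT.lf (nat_lit 0) (nat_lit 36651523916) (nat_lit 152) (nat_lit 8706485866) (nat_lit 76) (nat_lit 131491594265) (nat_lit 23) (nat_lit 5) (nat_lit 25) (nat_lit 5) (nat_lit 24) (nat_lit 5) (nat_lit 293) (nat_lit 278) (nat_lit 209)) (XT.nd (nat_lit 78)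 (nat_lit 76) (nat_lit 0) (XT.lf (nat_lit 0) (nat_lit 111765016294) (nat_lit 228) (nat_lit 25962359018) (nat_lit 76) (nat_lit 57128984338) (nat_lit 21) (nat_lit 5) (nat_lit 24) (nat_lit 5) (nat_lit 22) (nat_lit 4) (nat_lit 294) (nat_lit 278) (nat_lit 208)) (XT.lf (nat_lit 0) (nat_lit 165113587086) (nat_lit 76) (nat_lit 38515778642) (nat_lit 152) (nat_lit 11496057470) (nat_lit 20) (nat_lit 5) (nat_lit 21) (nat_lit 5) (nat_lit 22) (nat_lit 4) (nat_lit 295) (nat_lit 278) (nat_lit 207)))) (XT.nd (nat_lit 156) (nat_lit 228) (nat_lit 0) (XT.nd (nat_lit 78) (nat_lit 76) (nat_lit 0) (XT.lf (nat_lit 0) (nat_lit 73751397025) (nat_lit 152) (nat_lit 85890748288) (nat_lit 76) (nat_lit 78139888094) (nat_lit 18) (nat_lit 5) (nat_lit 20) (nat_lit 5) (nat_lit 19) (nat_lit 4) (nat_lit 296) (nat_lit 278) (nat_lit 206)) (XT.lf (nat_lit 0) (nat_lit 128386551162) (nat_lit 76) (nat_lit 48383418078) (nat_lit 152)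 (nat_lit 86590103324) (nat_lit 17) (nat_lit 5) (nat_lit 18) (nat_lit 5) (nat_lit 19) (nat_lit 4) (nat_lit 297) (nat_lit 278) (nat_lit 205))) (XT.nd (nat_lit 78) (nat_lit 76) (nat_lit 0) (XT.lf (nat_lit 0) (nat_lit 9156660066) (nat_lit 152) (nat_lit 202524648949) (nat_lit 76) (nat_lit 80543680907) (nat_lit 15) (nat_lit 5) (nat_lit 17) (nat_lit 5) (nat_lit 16) (nat_lit 4) (nat_lit 298) (nat_lit 278) (nat_lit 204)) (XT.lf (nat_lit 0) (nat_lit 28744039492) (nat_lit 76) (nat_lit 91599937952) (nat_lit 152) (nat_lit 204399289379) (nat_lit 14) (nat_lit 5) (nat_lit 15) (nat_lit 5) (nat_lit 16) (nat_lit 4) (nat_lit 299) (nat_lit 278) (nat_lit 203))))))) (XT.nd (nat_lit 1014) (nat_lit 228) (nat_lit 0) (XT.nd (nat_lit 468) (nat_lit 228) (nat_lit 0) (XT.nd (nat_lit 234) (nat_lit 228) (nat_lit 0) (XT.nd (nat_lit 78) (nat_lit 228) (nat_lit 0) (XT.lf (nat_lit 0) (nat_lit 255375821729) (nat_lit 152) (nat_lit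 55973812971) (nat_lit 0) (nat_lit 50216336754) (nat_lit 14) (nat_lit 5) (nat_lit 16) (nat_lit 4) (nat_lit 14) (nat_lit 4) (nat_lit 300) (nat_lit 278) (nat_lit 202)) (XT.nd (nat_lit 78) (nat_lit 76) (nat_lit 0) (XT.lf (nat_lit 0) (nat_lit 14660728850) (nat_lit 152) (nat_lit 174665821285) (nat_lit 76) (nat_lit 213912700502) (nat_lit 12) (nat_lit 5) (nat_lit 14) (nat_lit 5) (nat_lit 13) (nat_lit 4) (nat_lit 301) (nat_lit 278) (nat_lit 201)) (XT.lf (nat_lit 0) (nat_lit 110716603219) (nat_lit 76) (nat_lit 41147487043) (nat_lit 152) (nat_lit 298717777521) (nat_lit 11) (nat_lit 5) (nat_lit 12) (nat_lit 5) (nat_lit 13) (nat_lit 4) (nat_lit 302) (nat_lit 278) (nat_lit 200)))) (XT.nd (nat_lit 78) (nat_lit 228) (nat_lit 0) (XT.lf (nat_lit 0) (nat_lit 317973021136) (nat_lit 152) (nat_lit 58377902349) (nat_lit 0) (nat_lit 128008949123) (nat_lit 11) (nat_lit 5) (nat_lit 13) (nat_lit 4) (nat_lit 11)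 (nat_lit 4) (nat_lit 303) (nat_lit 278) (nat_lit 199)) (XT.nd (nat_lit 78) (nat_lit 152) (nat_lit 0) (XT.lf (nat_lit 0) (nat_lit 278104974409) (nat_lit 76) (nat_lit 238719008925) (nat_lit 76) (nat_lit 48754539773) (nat_lit 10) (nat_lit 4) (nat_lit 11) (nat_lit 5) (nat_lit 11) (nat_lit 4) (nat_lit 304) (nat_lit 278) (nat_lit 198)) (XT.lf (nat_lit 0) (nat_lit 31655432663) (nat_lit 76) (nat_lit 74892763083) (nat_lit 152) (nat_lit 529020706573) (nat_lit 8) (nat_lit 5) (nat_lit 9) (nat_lit 5) (nat_lit 10) (nat_lit 4) (nat_lit 305) (nat_lit 278) (nat_lit 197))))) (XT.nd (nat_lit 234) (nat_lit 152) (nat_lit 0) (XT.nd (nat_lit 78) (nat_lit 76) (nat_lit 0) (XT.lf (nat_lit 0) (nat_lit 293657657236) (nat_lit 152) (nat_lit 303622990528) (nat_lit 0) (nat_lit 117764032436) (nat_lit 8) (nat_lit 5) (nat_lit 10) (nat_lit 4) (nat_lit 8) (nat_lit 4) (nat_lit 306) (nat_lit 278) (nat_lit 196)) (XT.nd (nat_lit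 78) (nat_lit 0) (nat_lit 0) (XT.lf (nat_lit 0) (nat_lit 41725859240) (nat_lit 76) (nat_lit 470181945470) (nat_lit 76) (nat_lit 294288078887) (nat_lit 7) (nat_lit 4) (nat_lit 8) (nat_lit 5) (nat_lit 8) (nat_lit 4) (nat_lit 307) (nat_lit 278) (nat_lit 195)) (XT.lf (nat_lit 0) (nat_lit 457262470609) (nat_lit 76) (nat_lit 314472122197) (nat_lit 76) (nat_lit 138578045368) (nat_lit 7) (nat_lit 4) (nat_lit 8) (nat_lit 5) (nat_lit 8) (nat_lit 4) (nat_lit 308) (nat_lit 278) (nat_lit 194)))) (XT.nd (nat_lit 156) (nat_lit 0) (nat_lit 0) (XT.nd (nat_lit 78) (nat_lit 76) (nat_lit 0) (XT.lf (nat_lit 0) (nat_lit 38462614502) (nat_lit 152) (nat_lit 95892021485) (nat_lit 76) (nat_lit 895614408553) (nat_lit 6) (nat_lit 5) (nat_lit 8) (nat_lit 5) (nat_lit 7) (nat_lit 4) (nat_lit 309) (nat_lit 278) (nat_lit 193)) (XT.lf (nat_lit 0) (nat_lit 244014885031) (nat_lit 152) (nat_lit 841308519687) (nat_lit 0) (nat_lit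 81149682599) (nat_lit 5) (nat_lit 5) (nat_lit 7) (nat_lit 4) (nat_lit 5) (nat_lit 4) (nat_lit 310) (nat_lit 278) (nat_lit 192))) (XT.nd (nat_lit 78) (nat_lit 0) (nat_lit 0) (XT.lf (nat_lit 0) (nat_lit 486979830362) (nat_lit 152) (nat_lit 511832019571) (nat_lit 0) (nat_lit 324114499930) (nat_lit 5) (nat_lit 5) (nat_lit 7) (nat_lit 4) (nat_lit 5) (nat_lit 4) (nat_lit 311) (nat_lit 278) (nat_lit 191)) (XT.lf (nat_lit 0) (nat_lit 766389178386) (nat_lit 152) (nat_lit 132934713966) (nat_lit 0) (nat_lit 603523736649) (nat_lit 5) (nat_lit 5) (nat_lit 7) (nat_lit 4) (nat_lit 5) (nat_lit 4) (nat_lit 312) (nat_lit 278) (nat_lit 190)))))) (XT.nd (nat_lit 468) (nat_lit 0) (nat_lit 0) (XT.nd (nat_lit 234) (nat_lit 152) (nat_lit 0) (XT.nd (nat_lit 78) (nat_lit 0) (nat_lit 0) (XT.lf (nat_lit 0) (nat_lit 318741337915) (nat_lit 76) (nat_lit 776634032665) (nat_lit 76) (nat_lit 613768494141) (nat_lit 4) (nat_lit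 4) (nat_lit 5) (nat_lit 5) (nat_lit 5) (nat_lit 4) (nat_lit 313) (nat_lit 278) (nat_lit 189)) (XT.nd (nat_lit 78) (nat_lit 0) (nat_lit 0) (XT.lf (nat_lit 0) (nat_lit 846218387088) (nat_lit 76) (nat_lit 631361086451) (nat_lit 76) (nat_lit 468495463766) (nat_lit 4) (nat_lit 4) (nat_lit 5) (nat_lit 5) (nat_lit 5) (nat_lit 4) (nat_lit 314) (nat_lit 278) (nat_lit 188)) (XT.lf (nat_lit 0) (nat_lit 1452816530230) (nat_lit 76) (nat_lit 464297427598) (nat_lit 76) (nat_lit 301431731728) (nat_lit 4) (nat_lit 4) (nat_lit 5) (nat_lit 5) (nat_lit 5) (nat_lit 4) (nat_lit 315) (nat_lit 278) (nat_lit 187)))) (XT.nd (nat_lit 78) (nat_lit 152) (nat_lit 0) (XT.lf (nat_lit 0) (nat_lit 2150403991882) (nat_lit 76) (nat_lit 272174419303) (nat_lit 76) (nat_lit 109308659794) (nat_lit 4) (nat_lit 4) (nat_lit 5) (nat_lit 5) (nat_lit 5) (nat_lit 4) (nat_lit 316) (nat_lit 278) (nat_lit 186)) (XT.nd (nat_lit 78) (nat_lit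 0) (nat_lit 0) (XT.lf (nat_lit 0) (nat_lit 60753937912) (nat_lit 76) (nat_lit 46755558606) (nat_lit 152) (nat_lit 2784388505110) (nat_lit 2) (nat_lit 5) (nat_lit 3) (nat_lit 5) (nat_lit 4) (nat_lit 4) (nat_lit 317) (nat_lit 278) (nat_lit 185)) (XT.lf (nat_lit 0) (nat_lit 367066940489) (nat_lit 152) (nat_lit 2721016172485) (nat_lit 0) (nat_lit 216265215520) (nat_lit 2) (nat_lit 5) (nat_lit 4) (nat_lit 4) (nat_lit 2) (nat_lit 4) (nat_lit 318) (nat_lit 278) (nat_lit 184))))) (XT.nd (nat_lit 234) (nat_lit 0) (nat_lit 0) (XT.nd (nat_lit 78) (nat_lit 0) (nat_lit 0) (XT.lf (nat_lit 0) (nat_lit 666850996537) (nat_lit 152) (nat_lit 2595662535420) (nat_lit 0) (nat_lit 516049232824) (nat_lit 2) (nat_lit 5) (nat_lit 4) (nat_lit 4) (nat_lit 2) (nat_lit 4) (nat_lit 319) (nat_lit 278) (nat_lit 183)) (XT.nd (nat_lit 78) (nat_lit 0) (nat_lit 0) (XT.lf (nat_lit 0) (nat_lit 1011602532580) (nat_lit 152) (nat_lit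 2451506109051) (nat_lit 0) (nat_lit 860800735177) (nat_lit 2) (nat_lit 5) (nat_lit 4) (nat_lit 4) (nat_lit 2) (nat_lit 4) (nat_lit 320) (nat_lit 278) (nat_lit 182)) (XT.lf (nat_lit 0) (nat_lit 1408066687367) (nat_lit 152) (nat_lit 2285726441559) (nat_lit 0) (nat_lit 1257264860668) (nat_lit 2) (nat_lit 5) (nat_lit 4) (nat_lit 4) (nat_lit 2) (nat_lit 4) (nat_lit 321) (nat_lit 278) (nat_lit 181)))) (XT.nd (nat_lit 156) (nat_lit 0) (nat_lit 0) (XT.nd (nat_lit 78) (nat_lit 0) (nat_lit 0) (XT.lf (nat_lit 0) (nat_lit 1864000368273) (nat_lit 152) (nat_lit 2095080017709) (nat_lit 0) (nat_lit 1713198516099) (nat_lit 2) (nat_lit 5) (nat_lit 4) (nat_lit 4) (nat_lit 2) (nat_lit 4) (nat_lit 322) (nat_lit 278) (nat_lit 180)) (XT.lf (nat_lit 0) (nat_lit 2388324016882) (nat_lit 152) (nat_lit 1875836798775) (nat_lit 0) (nat_lit 2237522142556) (nat_lit 2) (nat_lit 5) (nat_lit 4) (nat_lit 4) (nat_lit 2) (nat_lit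 4) (nat_lit 323) (nat_lit 278) (nat_lit 179))) (XT.nd (nat_lit 78) (nat_lit 0) (nat_lit 0) (XT.lf (nat_lit 0) (nat_lit 2991296139363) (nat_lit 152) (nat_lit 1623707243517) (nat_lit 0) (nat_lit 2840494245774) (nat_lit 2) (nat_lit 5) (nat_lit 4) (nat_lit 4) (nat_lit 2) (nat_lit 4) (nat_lit 324) (nat_lit 278) (nat_lit 178)) (XT.lf (nat_lit 0) (nat_lit 3684714016372) (nat_lit 152) (nat_lit 1333758382374) (nat_lit 0) (nat_lit 3533912106033) (nat_lit 2) (nat_lit 5) (nat_lit 4) (nat_lit 4) (nat_lit 2) (nat_lit 4) (nat_lit 325) (nat_lit 278) (nat_lit 177))))))))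
noncomputable def xc45 : XT := (XT.nd (nat_lit 38922) (nat_lit 0) (nat_lit 0) (XT.nd (nat_lit 37908) (nat_lit 0) (nat_lit 684) (XT.nd (nat_lit 37362) (nat_lit 0) (nat_lit 2128) (XT.nd (nat_lit 37128) (nat_lit 0) (nat_lit 3648) (XT.nd (nat_lit 36972) (nat_lit 0) (nat_lit 3952) (XT.lf (nat_lit 0) (nat_lit 4482144519416) (nat_lit 152) (nat_lit 1000317302846) (nat_lit 0) (nat_lit 4331342594512) (nat_lit 2) (nat_lit 5) (nat_lit 4) (nat_lit 4) (nat_lit 2) (nat_lit 4) (nat_lit 326) (nat_lit 278) (nat_lit 176)) (XT.nd (nat_lit 78) (nat_lit 0) (nat_lit 0) (XT.lf (nat_lit 0) (nat_lit 22290295252) (nat_lit 532) (nat_lit 3355550887) (nat_lit 532) (nat_lit 3355550887) (nat_lit 54) (nat_lit 3) (nat_lit 61) (nat_lit 3) (nat_lit 61) (nat_lit 5) (nat_lit 279) (nat_lit 279) (nat_lit 222)) (XT.lf (nat_lit 76) (nat_lit 47135981406) (nat_lit 0) (nat_lit 1954235911) (nat_lit 532) (nat_lit 13169440392) (nat_lit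 55) (nat_lit 5) (nat_lit 54) (nat_lit 3) (nat_lit 61) (nat_lit 5) (nat_lit 280) (nat_lit 279) (nat_lit 221)))) (XT.nd (nat_lit 78) (nat_lit 380) (nat_lit 0) (XT.lf (nat_lit 76) (nat_lit 43159672988) (nat_lit 0) (nat_lit 13666823262) (nat_lit 532) (nat_lit 10124548574) (nat_lit 56) (nat_lit 5) (nat_lit 55) (nat_lit 5) (nat_lit 62) (nat_lit 5) (nat_lit 281) (nat_lit 279) (nat_lit 220)) (XT.nd (nat_lit 78) (nat_lit 456) (nat_lit 0) (XT.lf (nat_lit 76) (nat_lit 39638567343) (nat_lit 0) (nat_lit 28603983102) (nat_lit 532) (nat_lit 3902052067) (nat_lit 57) (nat_lit 5) (nat_lit 56) (nat_lit 5) (nat_lit 63) (nat_lit 5) (nat_lit 282) (nat_lit 279) (nat_lit 219)) (XT.lf (nat_lit 0) (nat_lit 5849691309) (nat_lit 532) (nat_lit 41376316727) (nat_lit 76) (nat_lit 30664241528) (nat_lit 50) (nat_lit 5) (nat_lit 57) (nat_lit 5) (nat_lit 51) (nat_lit 5) (nat_lit 283) (nat_lit 279) (nat_lit 218))))) (XT.nd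 (nat_lit 234) (nat_lit 760) (nat_lit 0) (XT.nd (nat_lit 78) (nat_lit 456) (nat_lit 0) (XT.lf (nat_lit 0) (nat_lit 19776490077) (nat_lit 380) (nat_lit 50421001857) (nat_lit 76) (nat_lit 14056682896) (nat_lit 46) (nat_lit 5) (nat_lit 51) (nat_lit 5) (nat_lit 47) (nat_lit 5) (nat_lit 284) (nat_lit 279) (nat_lit 217)) (XT.nd (nat_lit 78) (nat_lit 228) (nat_lit 0) (XT.lf (nat_lit 0) (nat_lit 31592458783) (nat_lit 228) (nat_lit 7498068575) (nat_lit 304) (nat_lit 52218309619) (nat_lit 43) (nat_lit 5) (nat_lit 46) (nat_lit 5) (nat_lit 47) (nat_lit 5) (nat_lit 285) (nat_lit 279) (nat_lit 216)) (XT.lf (nat_lit 0) (nat_lit 29538963772) (nat_lit 228) (nat_lit 35529716353) (nat_lit 304) (nat_lit 34051662393) (nat_lit 40) (nat_lit 5) (nat_lit 43) (nat_lit 5) (nat_lit 44) (nat_lit 5) (nat_lit 286) (nat_lit 279) (nat_lit 215)))) (XT.nd (nat_lit 156) (nat_lit 304) (nat_lit 0) (XT.nd (nat_lit 78) (nat_lit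 304) (nat_lit 0) (XT.lf (nat_lit 0) (nat_lit 28103744495) (nat_lit 152) (nat_lit 70384121760) (nat_lit 228) (nat_lit 9332167024) (nat_lit 38) (nat_lit 5) (nat_lit 40) (nat_lit 5) (nat_lit 41) (nat_lit 5) (nat_lit 287) (nat_lit 279) (nat_lit 214)) (XT.lf (nat_lit 0) (nat_lit 21963912521) (nat_lit 304) (nat_lit 90774629283) (nat_lit 76) (nat_lit 4743489410) (nat_lit 34) (nat_lit 5) (nat_lit 38) (nat_lit 5) (nat_lit 35) (nat_lit 5) (nat_lit 288) (nat_lit 279) (nat_lit 213))) (XT.nd (nat_lit 78) (nat_lit 152) (nat_lit 0) (XT.lf (nat_lit 0) (nat_lit 24469996038) (nat_lit 152) (nat_lit 37861388572) (nat_lit 228) (nat_lit 65848191749) (nat_lit 32) (nat_lit 5) (nat_lit 34) (nat_lit 5) (nat_lit 35) (nat_lit 5) (nat_lit 289) (nat_lit 279) (nat_lit 212)) (XT.lf (nat_lit 0) (nat_lit 22101342088) (nat_lit 152) (nat_lit 91053742994) (nat_lit 228) (nat_lit 26974582162) (nat_lit 30) (nat_lit 5) (nat_lit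 32) (nat_lit 5) (nat_lit 33) (nat_lit 5) (nat_lit 290) (nat_lit 279) (nat_lit 211)))))) (XT.nd (nat_lit 468) (nat_lit 684) (nat_lit 0) (XT.nd (nat_lit 234) (nat_lit 304) (nat_lit 0) (XT.nd (nat_lit 78) (nat_lit 228) (nat_lit 0) (XT.lf (nat_lit 0) (nat_lit 18819860994) (nat_lit 152) (nat_lit 2618801493) (nat_lit 228) (nat_lit 132031856782) (nat_lit 27) (nat_lit 5) (nat_lit 29) (nat_lit 5) (nat_lit 30) (nat_lit 5) (nat_lit 291) (nat_lit 279) (nat_lit 210)) (XT.nd (nat_lit 78) (nat_lit 76) (nat_lit 0) (XT.lf (nat_lit 0) (nat_lit 12193908448) (nat_lit 152) (nat_lit 69568007013) (nat_lit 228) (nat_lit 86494916925) (nat_lit 25) (nat_lit 5) (nat_lit 27) (nat_lit 5) (nat_lit 28) (nat_lit 5) (nat_lit 292) (nat_lit 279) (nat_lit 209)) (XT.lf (nat_lit 0) (nat_lit 3558127558) (nat_lit 76) (nat_lit 152468319868) (nat_lit 152) (nat_lit 28843223329) (nat_lit 24) (nat_lit 5) (nat_lit 25) (nat_lit 5) (nat_lit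 26) (nat_lit 4) (nat_lit 293) (nat_lit 279) (nat_lit 208)))) (XT.nd (nat_lit 78) (nat_lit 228) (nat_lit 0) (XT.lf (nat_lit 0) (nat_lit 42166600041) (nat_lit 152) (nat_lit 9983518802) (nat_lit 76) (nat_lit 151225524426) (nat_lit 23) (nat_lit 5) (nat_lit 25) (nat_lit 5) (nat_lit 24) (nat_lit 5) (nat_lit 294) (nat_lit 279) (nat_lit 207)) (XT.nd (nat_lit 78) (nat_lit 76) (nat_lit 0) (XT.lf (nat_lit 0) (nat_lit 128545749627) (nat_lit 228) (nat_lit 29829211968) (nat_lit 76) (nat_lit 65708561722) (nat_lit 21) (nat_lit 5) (nat_lit 24) (nat_lit 5) (nat_lit 22) (nat_lit 4) (nat_lit 295) (nat_lit 279) (nat_lit 206)) (XT.lf (nat_lit 0) (nat_lit 189905798237) (nat_lit 76) (nat_lit 44282474189) (nat_lit 152) (nat_lit 13204793836) (nat_lit 20) (nat_lit 5) (nat_lit 21) (nat_lit 5) (nat_lit 22) (nat_lit 4) (nat_lit 296) (nat_lit 279) (nat_lit 205))))) (XT.nd (nat_lit 234) (nat_lit 304) (nat_lit 0) (XT.nd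 (nat_lit 78) (nat_lit 228) (nat_lit 0) (XT.lf (nat_lit 0) (nat_lit 84827871062) (nat_lit 152) (nat_lit 98749748712) (nat_lit 76) (nat_lit 89870609217) (nat_lit 18) (nat_lit 5) (nat_lit 20) (nat_lit 5) (nat_lit 19) (nat_lit 4) (nat_lit 297) (nat_lit 279) (nat_lit 204)) (XT.nd (nat_lit 78) (nat_lit 152) (nat_lit 0) (XT.lf (nat_lit 0) (nat_lit 147667062388) (nat_lit 76) (nat_lit 55630913166) (nat_lit 152) (nat_lit 99565099830) (nat_lit 17) (nat_lit 5) (nat_lit 18) (nat_lit 5) (nat_lit 19) (nat_lit 4) (nat_lit 298) (nat_lit 279) (nat_lit 203)) (XT.lf (nat_lit 0) (nat_lit 10542067756) (nat_lit 152) (nat_lit 232881389586) (nat_lit 76) (nat_lit 92634322585) (nat_lit 15) (nat_lit 5) (nat_lit 17) (nat_lit 5) (nat_lit 16) (nat_lit 4) (nat_lit 299) (nat_lit 279) (nat_lit 202)))) (XT.nd (nat_lit 156) (nat_lit 228) (nat_lit 0) (XT.nd (nat_lit 78) (nat_lit 0) (nat_lit 0) (XT.lf (nat_lit 0) (nat_lit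 33075743596) (nat_lit 76) (nat_lit 105330669201) (nat_lit 152) (nat_lit 235047471917) (nat_lit 14) (nat_lit 5) (nat_lit 15) (nat_lit 5) (nat_lit 16) (nat_lit 4) (nat_lit 300) (nat_lit 279) (nat_lit 201)) (XT.lf (nat_lit 0) (nat_lit 293691813620) (nat_lit 152) (nat_lit 64351843506) (nat_lit 0) (nat_lit 57756436180) (nat_lit 14) (nat_lit 5) (nat_lit 16) (nat_lit 4) (nat_lit 14) (nat_lit 4) (nat_lit 301) (nat_lit 279) (nat_lit 200))) (XT.nd (nat_lit 78) (nat_lit 76) (nat_lit 0) (XT.lf (nat_lit 0) (nat_lit 16868830553) (nat_lit 152) (nat_lit 200848703135) (nat_lit 76) (nat_lit 246006881630) (nat_lit 12) (nat_lit 5) (nat_lit 14) (nat_lit 5) (nat_lit 13) (nat_lit 4) (nat_lit 302) (nat_lit 279) (nat_lit 199)) (XT.lf (nat_lit 0) (nat_lit 127339646812) (nat_lit 76) (nat_lit 47312250499) (nat_lit 152) (nat_lit 343516592094) (nat_lit 11) (nat_lit 5) (nat_lit 12) (nat_lit 5) (nat_lit 13) (nat_lit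 4) (nat_lit 303) (nat_lit 279) (nat_lit 198))))))) (XT.nd (nat_lit 1014) (nat_lit 152) (nat_lit 0) (XT.nd (nat_lit 468) (nat_lit 228) (nat_lit 0) (XT.nd (nat_lit 234) (nat_lit 76) (nat_lit 0) (XT.nd (nat_lit 78) (nat_lit 228) (nat_lit 0) (XT.lf (nat_lit 0) (nat_lit 365676253010) (nat_lit 152) (nat_lit 67120644522) (nat_lit 0) (nat_lit 147216371008) (nat_lit 11) (nat_lit 5) (nat_lit 13) (nat_lit 4) (nat_lit 11) (nat_lit 4) (nat_lit 304) (nat_lit 279) (nat_lit 197)) (XT.nd (nat_lit 78) (nat_lit 152) (nat_lit 0) (XT.lf (nat_lit 0) (nat_lit 319833483529) (nat_lit 76) (nat_lit 274520733561) (nat_lit 76) (nat_lit 56060551265) (nat_lit 10) (nat_lit 4) (nat_lit 11) (nat_lit 5) (nat_lit 11) (nat_lit 4) (nat_lit 305) (nat_lit 279) (nat_lit 196)) (XT.lf (nat_lit 0) (nat_lit 36415760453) (nat_lit 76) (nat_lit 86120876024) (nat_lit 152) (nat_lit 608367102415) (nat_lit 8) (nat_lit 5) (nat_lit 9) (nat_lit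 5) (nat_lit 10) (nat_lit 4) (nat_lit 306) (nat_lit 279) (nat_lit 195)))) (XT.nd (nat_lit 78) (nat_lit 76) (nat_lit 0) (XT.lf (nat_lit 0) (nat_lit 337711828340) (nat_lit 152) (nat_lit 349155680726) (nat_lit 0) (nat_lit 135433429741) (nat_lit 8) (nat_lit 5) (nat_lit 10) (nat_lit 4) (nat_lit 8) (nat_lit 4) (nat_lit 307) (nat_lit 279) (nat_lit 194)) (XT.nd (nat_lit 78) (nat_lit 0) (nat_lit 0) (XT.lf (nat_lit 0) (nat_lit 47994585864) (nat_lit 76) (nat_lit 540704428580) (nat_lit 76) (nat_lit 338425847159) (nat_lit 7) (nat_lit 4) (nat_lit 8) (nat_lit 5) (nat_lit 8) (nat_lit 4) (nat_lit 308) (nat_lit 279) (nat_lit 193)) (XT.lf (nat_lit 0) (nat_lit 525860404451) (nat_lit 76) (nat_lit 361638759039) (nat_lit 76) (nat_lit 159360018642) (nat_lit 7) (nat_lit 4) (nat_lit 8) (nat_lit 5) (nat_lit 8) (nat_lit 4) (nat_lit 309) (nat_lit 279) (nat_lit 192))))) (XT.nd (nat_lit 234) (nat_lit 76) (nat_lit 0)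 (XT.nd (nat_lit 78) (nat_lit 76) (nat_lit 0) (XT.lf (nat_lit 0) (nat_lit 44235916887) (nat_lit 152) (nat_lit 110268171510) (nat_lit 76) (nat_lit 1029959999020) (nat_lit 6) (nat_lit 5) (nat_lit 8) (nat_lit 5) (nat_lit 7) (nat_lit 4) (nat_lit 310) (nat_lit 279) (nat_lit 191)) (XT.nd (nat_lit 78) (nat_lit 0) (nat_lit 0) (XT.lf (nat_lit 0) (nat_lit 280620769102) (nat_lit 152) (nat_lit 967497588549) (nat_lit 0) (nat_lit 93325399800) (nat_lit 5) (nat_lit 5) (nat_lit 7) (nat_lit 4) (nat_lit 5) (nat_lit 4) (nat_lit 311) (nat_lit 279) (nat_lit 190)) (XT.lf (nat_lit 0) (nat_lit 560029979974) (nat_lit 152) (nat_lit 588600553733) (nat_lit 0) (nat_lit 372734513886) (nat_lit 5) (nat_lit 5) (nat_lit 7) (nat_lit 4) (nat_lit 5) (nat_lit 4) (nat_lit 312) (nat_lit 279) (nat_lit 189)))) (XT.nd (nat_lit 156) (nat_lit 0) (nat_lit 0) (XT.nd (nat_lit 78) (nat_lit 76) (nat_lit 0) (XT.lf (nat_lit 0) (nat_lit 881350316063)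 (nat_lit 152) (nat_lit 152869469952) (nat_lit 0) (nat_lit 694054765813) (nat_lit 5) (nat_lit 5) (nat_lit 7) (nat_lit 4) (nat_lit 5) (nat_lit 4) (nat_lit 313) (nat_lit 279) (nat_lit 188)) (XT.lf (nat_lit 0) (nat_lit 366557528302) (nat_lit 76) (nat_lit 893126668667) (nat_lit 76) (nat_lit 705831045232) (nat_lit 4) (nat_lit 4) (nat_lit 5) (nat_lit 5) (nat_lit 5) (nat_lit 4) (nat_lit 314) (nat_lit 279) (nat_lit 187))) (XT.nd (nat_lit 78) (nat_lit 0) (nat_lit 0) (XT.lf (nat_lit 0) (nat_lit 973155484020) (nat_lit 76) (nat_lit 726063102551) (nat_lit 76) (nat_lit 538767415478) (nat_lit 4) (nat_lit 4) (nat_lit 5) (nat_lit 5) (nat_lit 5) (nat_lit 4) (nat_lit 315) (nat_lit 279) (nat_lit 186)) (XT.lf (nat_lit 0) (nat_lit 1670742782694) (nat_lit 76) (nat_lit 533940174897) (nat_lit 76) (nat_lit 346644432485) (nat_lit 4) (nat_lit 4) (nat_lit 5) (nat_lit 5) (nat_lit 5) (nat_lit 4) (nat_lit 316) (nat_lit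 279) (nat_lit 185)))))) (XT.nd (nat_lit 468) (nat_lit 0) (nat_lit 0) (XT.nd (nat_lit 234) (nat_lit 0) (nat_lit 0) (XT.nd (nat_lit 78) (nat_lit 152) (nat_lit 0) (XT.lf (nat_lit 0) (nat_lit 2472967871472) (nat_lit 76) (nat_lit 312998958858) (nat_lit 76) (nat_lit 125703168327) (nat_lit 4) (nat_lit 4) (nat_lit 5) (nat_lit 5) (nat_lit 5) (nat_lit 4) (nat_lit 317) (nat_lit 279) (nat_lit 184)) (XT.nd (nat_lit 78) (nat_lit 0) (nat_lit 0) (XT.lf (nat_lit 0) (nat_lit 69870114001) (nat_lit 76) (nat_lit 53767360217) (nat_lit 152) (nat_lit 3202045103097) (nat_lit 2) (nat_lit 5) (nat_lit 3) (nat_lit 5) (nat_lit 4) (nat_lit 4) (nat_lit 318) (nat_lit 279) (nat_lit 183)) (XT.lf (nat_lit 0) (nat_lit 422128364234) (nat_lit 152) (nat_lit 3129165839132) (nat_lit 0) (nat_lit 248706263530) (nat_lit 2) (nat_lit 5) (nat_lit 4) (nat_lit 4) (nat_lit 2) (nat_lit 4) (nat_lit 319) (nat_lit 279) (nat_lit 182)))) (XT.nd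 (nat_lit 78) (nat_lit 0) (nat_lit 0) (XT.lf (nat_lit 0) (nat_lit 766879848341) (nat_lit 152) (nat_lit 2985009516405) (nat_lit 0) (nat_lit 593457718341) (nat_lit 2) (nat_lit 5) (nat_lit 4) (nat_lit 4) (nat_lit 2) (nat_lit 4) (nat_lit 320) (nat_lit 279) (nat_lit 181)) (XT.nd (nat_lit 78) (nat_lit 0) (nat_lit 0) (XT.lf (nat_lit 0) (nat_lit 1163343957965) (nat_lit 152) (nat_lit 2819229939037) (nat_lit 0) (nat_lit 989921802491) (nat_lit 2) (nat_lit 5) (nat_lit 4) (nat_lit 4) (nat_lit 2) (nat_lit 4) (nat_lit 321) (nat_lit 279) (nat_lit 180)) (XT.lf (nat_lit 0) (nat_lit 1619277599601) (nat_lit 152) (nat_lit 2628583593557) (nat_lit 0) (nat_lit 1445855421974) (nat_lit 2) (nat_lit 5) (nat_lit 4) (nat_lit 4) (nat_lit 2) (nat_lit 4) (nat_lit 322) (nat_lit 279) (nat_lit 179))))) (XT.nd (nat_lit 234) (nat_lit 0) (nat_lit 0) (XT.nd (nat_lit 78) (nat_lit 0) (nat_lit 0) (XT.lf (nat_lit 0) (nat_lit 2143601214061)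 (nat_lit 152) (nat_lit 2409340442769) (nat_lit 0) (nat_lit 1970179017172) (nat_lit 2) (nat_lit 5) (nat_lit 4) (nat_lit 4) (nat_lit 2) (nat_lit 4) (nat_lit 323) (nat_lit 279) (nat_lit 178)) (XT.nd (nat_lit 78) (nat_lit 0) (nat_lit 0) (XT.lf (nat_lit 0) (nat_lit 2746573306847) (nat_lit 152) (nat_lit 2157210946769) (nat_lit 0) (nat_lit 2573151093207) (nat_lit 2) (nat_lit 5) (nat_lit 4) (nat_lit 4) (nat_lit 2) (nat_lit 4) (nat_lit 324) (nat_lit 279) (nat_lit 177)) (XT.lf (nat_lit 0) (nat_lit 3439991158034) (nat_lit 152) (nat_lit 1867262137155) (nat_lit 0) (nat_lit 3266568929830) (nat_lit 2) (nat_lit 5) (nat_lit 4) (nat_lit 4) (nat_lit 2) (nat_lit 4) (nat_lit 325) (nat_lit 279) (nat_lit 176)))) (XT.nd (nat_lit 37128) (nat_lit 0) (nat_lit 3952) (XT.nd (nat_lit 37050) (nat_lit 0) (nat_lit 3952) (XT.lf (nat_lit 0) (nat_lit 4237421638625) (nat_lit 152) (nat_lit 1533821102435) (nat_lit 0) (nat_lit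 4063999397755) (nat_lit 2) (nat_lit 5) (nat_lit 4) (nat_lit 4) (nat_lit 2) (nat_lit 4) (nat_lit 326) (nat_lit 279) (nat_lit 175)) (XT.lf (nat_lit 0) (nat_lit 25664956437) (nat_lit 532) (nat_lit 3842051975) (nat_lit 532) (nat_lit 3842051975) (nat_lit 54) (nat_lit 3) (nat_lit 61) (nat_lit 3) (nat_lit 61) (nat_lit 5) (nat_lit 280) (nat_lit 280) (nat_lit 220))) (XT.nd (nat_lit 78) (nat_lit 0) (nat_lit 76) (XT.lf (nat_lit 76) (nat_lit 54237192294) (nat_lit 0) (nat_lit 2271415034) (nat_lit 532) (nat_lit 15085511591) (nat_lit 55) (nat_lit 5) (nat_lit 54) (nat_lit 3) (nat_lit 61) (nat_lit 5) (nat_lit 281) (nat_lit 280) (nat_lit 219)) (XT.lf (nat_lit 76) (nat_lit 49666466302) (nat_lit 0) (nat_lit 15731993515) (nat_lit 532) (nat_lit 11591316640) (nat_lit 56) (nat_lit 5) (nat_lit 55) (nat_lit 5) (nat_lit 62) (nat_lit 5) (nat_lit 282) (nat_lit 280) (nat_lit 218))))))))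
noncomputable def xc46 : XT := (XT.nd (nat_lit 2028) (nat_lit 456) (nat_lit 0) (XT.nd (nat_lit 1014) (nat_lit 1140) (nat_lit 0) (XT.nd (nat_lit 468) (nat_lit 1140) (nat_lit 0) (XT.nd (nat_lit 234) (nat_lit 608) (nat_lit 0) (XT.nd (nat_lit 78) (nat_lit 760) (nat_lit 0) (XT.lf (nat_lit 76) (nat_lit 45618341164) (nat_lit 0) (nat_lit 32902822190) (nat_lit 532) (nat_lit 4441676361) (nat_lit 57) (nat_lit 5) (nat_lit 56) (nat_lit 5) (nat_lit 63) (nat_lit 5) (nat_lit 283) (nat_lit 280) (nat_lit 217)) (XT.nd (nat_lit 78) (nat_lit 304) (nat_lit 0) (XT.lf (nat_lit 0) (nat_lit 6765555917) (nat_lit 532) (nat_lit 47546227344) (nat_lit 76) (nat_lit 35258870682) (nat_lit 50) (nat_lit 5) (nat_lit 57) (nat_lit 5) (nat_lit 51) (nat_lit 5) (nat_lit 284) (nat_lit 280) (nat_lit 216)) (XT.lf (nat_lit 0) (nat_lit 22777150415) (nat_lit 380) (nat_lit 57947900866) (nat_lit 76) (nat_lit 16164462493) (nat_lit 46)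 (nat_lit 5) (nat_lit 51) (nat_lit 5) (nat_lit 47) (nat_lit 5) (nat_lit 285) (nat_lit 280) (nat_lit 215)))) (XT.nd (nat_lit 78) (nat_lit 380) (nat_lit 0) (XT.lf (nat_lit 0) (nat_lit 36364510381) (nat_lit 228) (nat_lit 8620121804) (nat_lit 304) (nat_lit 60018042775) (nat_lit 43) (nat_lit 5) (nat_lit 46) (nat_lit 5) (nat_lit 47) (nat_lit 5) (nat_lit 286) (nat_lit 280) (nat_lit 214)) (XT.nd (nat_lit 78) (nat_lit 152) (nat_lit 0) (XT.lf (nat_lit 0) (nat_lit 34002400873) (nat_lit 228) (nat_lit 40853964796) (nat_lit 304) (nat_lit 39129797973) (nat_lit 40) (nat_lit 5) (nat_lit 43) (nat_lit 5) (nat_lit 44) (nat_lit 5) (nat_lit 287) (nat_lit 280) (nat_lit 213)) (XT.lf (nat_lit 0) (nat_lit 32351066708) (nat_lit 152) (nat_lit 80934664023) (nat_lit 228) (nat_lit 10705298365) (nat_lit 38) (nat_lit 5) (nat_lit 40) (nat_lit 5) (nat_lit 41) (nat_lit 5) (nat_lit 288) (nat_lit 280) (nat_lit 212))))) (XT.nd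 (nat_lit 234) (nat_lit 532) (nat_lit 0) (XT.nd (nat_lit 78) (nat_lit 304) (nat_lit 0) (XT.lf (nat_lit 0) (nat_lit 25281460875) (nat_lit 304) (nat_lit 104358831358) (nat_lit 76) (nat_lit 5462179039) (nat_lit 34) (nat_lit 5) (nat_lit 38) (nat_lit 5) (nat_lit 35) (nat_lit 5) (nat_lit 289) (nat_lit 280) (nat_lit 211)) (XT.nd (nat_lit 78) (nat_lit 152) (nat_lit 0) (XT.lf (nat_lit 0) (nat_lit 28169779771) (nat_lit 152) (nat_lit 43531983321) (nat_lit 228) (nat_lit 75703071967) (nat_lit 32) (nat_lit 5) (nat_lit 34) (nat_lit 5) (nat_lit 35) (nat_lit 5) (nat_lit 290) (nat_lit 280) (nat_lit 210)) (XT.lf (nat_lit 0) (nat_lit 25444695076) (nat_lit 152) (nat_lit 104702484553) (nat_lit 228) (nat_lit 31000410211) (nat_lit 30) (nat_lit 5) (nat_lit 32) (nat_lit 5) (nat_lit 33) (nat_lit 5) (nat_lit 291) (nat_lit 280) (nat_lit 209)))) (XT.nd (nat_lit 156) (nat_lit 152) (nat_lit 0) (XT.nd (nat_lit 78) (nat_lit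 152) (nat_lit 0) (XT.lf (nat_lit 0) (nat_lit 21669558921) (nat_lit 152) (nat_lit 3002363633) (nat_lit 228) (nat_lit 151817760883) (nat_lit 27) (nat_lit 5) (nat_lit 29) (nat_lit 5) (nat_lit 30) (nat_lit 5) (nat_lit 292) (nat_lit 280) (nat_lit 208)) (XT.lf (nat_lit 0) (nat_lit 14048542130) (nat_lit 152) (nat_lit 79993651893) (nat_lit 228) (nat_lit 99451869255) (nat_lit 25) (nat_lit 5) (nat_lit 27) (nat_lit 5) (nat_lit 28) (nat_lit 5) (nat_lit 293) (nat_lit 280) (nat_lit 207))) (XT.nd (nat_lit 78) (nat_lit 76) (nat_lit 0) (XT.lf (nat_lit 0) (nat_lit 4116205711) (nat_lit 76) (nat_lit 175328899941) (nat_lit 152) (nat_lit 33153827673) (nat_lit 24) (nat_lit 5) (nat_lit 25) (nat_lit 5) (nat_lit 26) (nat_lit 4) (nat_lit 294) (nat_lit 280) (nat_lit 206)) (XT.lf (nat_lit 0) (nat_lit 48504707278) (nat_lit 152) (nat_lit 11459163868) (nat_lit 76) (nat_lit 173917058967) (nat_lit 23) (nat_lit 5) (nat_lit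 25) (nat_lit 5) (nat_lit 24) (nat_lit 5) (nat_lit 295) (nat_lit 280) (nat_lit 205)))))) (XT.nd (nat_lit 468) (nat_lit 456) (nat_lit 0) (XT.nd (nat_lit 234) (nat_lit 304) (nat_lit 0) (XT.nd (nat_lit 78) (nat_lit 228) (nat_lit 0) (XT.lf (nat_lit 0) (nat_lit 147839695919) (nat_lit 228) (nat_lit 34282799130) (nat_lit 76) (nat_lit 75572581128) (nat_lit 21) (nat_lit 5) (nat_lit 24) (nat_lit 5) (nat_lit 22) (nat_lit 4) (nat_lit 296) (nat_lit 280) (nat_lit 204)) (XT.nd (nat_lit 78) (nat_lit 152) (nat_lit 0) (XT.lf (nat_lit 0) (nat_lit 218410702444) (nat_lit 76) (nat_lit 50916776320) (nat_lit 152) (nat_lit 15173662435) (nat_lit 20) (nat_lit 5) (nat_lit 21) (nat_lit 5) (nat_lit 22) (nat_lit 4) (nat_lit 297) (nat_lit 280) (nat_lit 203)) (XT.lf (nat_lit 0) (nat_lit 97562459649) (nat_lit 152) (nat_lit 113543600948) (nat_lit 76) (nat_lit 103358563858) (nat_lit 18) (nat_lit 5) (nat_lit 20) (nat_lit 5)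 (nat_lit 19) (nat_lit 4) (nat_lit 298) (nat_lit 280) (nat_lit 202)))) (XT.nd (nat_lit 78) (nat_lit 228) (nat_lit 0) (XT.lf (nat_lit 0) (nat_lit 169834156568) (nat_lit 76) (nat_lit 63967975379) (nat_lit 152) (nat_lit 114489642505) (nat_lit 17) (nat_lit 5) (nat_lit 18) (nat_lit 5) (nat_lit 19) (nat_lit 4) (nat_lit 299) (nat_lit 280) (nat_lit 201)) (XT.nd (nat_lit 78) (nat_lit 76) (nat_lit 0) (XT.lf (nat_lit 0) (nat_lit 12132382592) (nat_lit 152) (nat_lit 267796995600) (nat_lit 76) (nat_lit 106536343973) (nat_lit 15) (nat_lit 5) (nat_lit 17) (nat_lit 5) (nat_lit 16) (nat_lit 4) (nat_lit 300) (nat_lit 280) (nat_lit 200)) (XT.lf (nat_lit 0) (nat_lit 38052302247) (nat_lit 76) (nat_lit 121123268111) (nat_lit 152) (nat_lit 270295737606) (nat_lit 14) (nat_lit 5) (nat_lit 15) (nat_lit 5) (nat_lit 16) (nat_lit 4) (nat_lit 301) (nat_lit 280) (nat_lit 199))))) (XT.nd (nat_lit 234) (nat_lit 228) (nat_lit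 0) (XT.nd (nat_lit 78) (nat_lit 228) (nat_lit 0) (XT.lf (nat_lit 0) (nat_lit 337752858730) (nat_lit 152) (nat_lit 73990978133) (nat_lit 0) (nat_lit 66425685283) (nat_lit 14) (nat_lit 5) (nat_lit 16) (nat_lit 4) (nat_lit 14) (nat_lit 4) (nat_lit 302) (nat_lit 280) (nat_lit 198)) (XT.nd (nat_lit 78) (nat_lit 76) (nat_lit 0) (XT.lf (nat_lit 0) (nat_lit 19405954663) (nat_lit 152) (nat_lit 230963160710) (nat_lit 76) (nat_lit 282913415615) (nat_lit 12) (nat_lit 5) (nat_lit 14) (nat_lit 5) (nat_lit 13) (nat_lit 4) (nat_lit 303) (nat_lit 280) (nat_lit 197)) (XT.lf (nat_lit 0) (nat_lit 146452354219) (nat_lit 76) (nat_lit 54403523159) (nat_lit 152) (nat_lit 395037387483) (nat_lit 11) (nat_lit 5) (nat_lit 12) (nat_lit 5) (nat_lit 13) (nat_lit 4) (nat_lit 304) (nat_lit 280) (nat_lit 196)))) (XT.nd (nat_lit 156) (nat_lit 152) (nat_lit 0) (XT.nd (nat_lit 78) (nat_lit 76) (nat_lit 0) (XT.lf (nat_lit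 0) (nat_lit 420533194706) (nat_lit 152) (nat_lit 77178198153) (nat_lit 0) (nat_lit 169303423646) (nat_lit 11) (nat_lit 5) (nat_lit 13) (nat_lit 4) (nat_lit 11) (nat_lit 4) (nat_lit 305) (nat_lit 280) (nat_lit 195)) (XT.lf (nat_lit 0) (nat_lit 367818156689) (nat_lit 76) (nat_lit 315694210928) (nat_lit 76) (nat_lit 64464212803) (nat_lit 10) (nat_lit 4) (nat_lit 11) (nat_lit 5) (nat_lit 11) (nat_lit 4) (nat_lit 306) (nat_lit 280) (nat_lit 194))) (XT.nd (nat_lit 78) (nat_lit 0) (nat_lit 0) (XT.lf (nat_lit 0) (nat_lit 41887207992) (nat_lit 76) (nat_lit 99034620644) (nat_lit 152) (nat_lit 699617093944) (nat_lit 8) (nat_lit 5) (nat_lit 9) (nat_lit 5) (nat_lit 10) (nat_lit 4) (nat_lit 307) (nat_lit 280) (nat_lit 193)) (XT.lf (nat_lit 0) (nat_lit 388372778408) (nat_lit 152) (nat_lit 401520897952) (nat_lit 0) (nat_lit 155752067976) (nat_lit 8) (nat_lit 5) (nat_lit 10) (nat_lit 4) (nat_lit 8) (nat_lit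 4) (nat_lit 308) (nat_lit 280) (nat_lit 192))))))) (XT.nd (nat_lit 1014) (nat_lit 0) (nat_lit 0) (XT.nd (nat_lit 468) (nat_lit 228) (nat_lit 0) (XT.nd (nat_lit 234) (nat_lit 76) (nat_lit 0) (XT.nd (nat_lit 78) (nat_lit 76) (nat_lit 0) (XT.lf (nat_lit 0) (nat_lit 55201220048) (nat_lit 76) (nat_lit 621806456792) (nat_lit 76) (nat_lit 389185608119) (nat_lit 7) (nat_lit 4) (nat_lit 8) (nat_lit 5) (nat_lit 8) (nat_lit 4) (nat_lit 309) (nat_lit 280) (nat_lit 191)) (XT.nd (nat_lit 78) (nat_lit 76) (nat_lit 0) (XT.lf (nat_lit 0) (nat_lit 604745940166) (nat_lit 76) (nat_lit 415881411090) (nat_lit 76) (nat_lit 183260442208) (nat_lit 7) (nat_lit 4) (nat_lit 8) (nat_lit 5) (nat_lit 8) (nat_lit 4) (nat_lit 310) (nat_lit 280) (nat_lit 190)) (XT.lf (nat_lit 0) (nat_lit 50874261101) (nat_lit 152) (nat_lit 126802610320) (nat_lit 76) (nat_lit 1184456591828) (nat_lit 6) (nat_lit 5) (nat_lit 8) (nat_lit 5)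 (nat_lit 7) (nat_lit 4) (nat_lit 311) (nat_lit 280) (nat_lit 189)))) (XT.nd (nat_lit 78) (nat_lit 0) (nat_lit 0) (XT.lf (nat_lit 0) (nat_lit 322716645386) (nat_lit 152) (nat_lit 1112616775723) (nat_lit 0) (nat_lit 107326678436) (nat_lit 5) (nat_lit 5) (nat_lit 7) (nat_lit 4) (nat_lit 5) (nat_lit 4) (nat_lit 312) (nat_lit 280) (nat_lit 188)) (XT.nd (nat_lit 78) (nat_lit 0) (nat_lit 0) (XT.lf (nat_lit 0) (nat_lit 644036877769) (nat_lit 152) (nat_lit 676885896698) (nat_lit 0) (nat_lit 428646837635) (nat_lit 5) (nat_lit 5) (nat_lit 7) (nat_lit 4) (nat_lit 5) (nat_lit 4) (nat_lit 313) (nat_lit 280) (nat_lit 187)) (XT.lf (nat_lit 0) (nat_lit 1013554951124) (nat_lit 152) (nat_lit 175795768624) (nat_lit 0) (nat_lit 798164847351) (nat_lit 5) (nat_lit 5) (nat_lit 7) (nat_lit 4) (nat_lit 5) (nat_lit 4) (nat_lit 314) (nat_lit 280) (nat_lit 186))))) (XT.nd (nat_lit 234) (nat_lit 152) (nat_lit 0) (XT.nd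 (nat_lit 78) (nat_lit 0) (nat_lit 0) (XT.lf (nat_lit 0) (nat_lit 421544930476) (nat_lit 76) (nat_lit 1027093802126) (nat_lit 76) (nat_lit 811703643015) (nat_lit 4) (nat_lit 4) (nat_lit 5) (nat_lit 5) (nat_lit 5) (nat_lit 4) (nat_lit 315) (nat_lit 280) (nat_lit 185)) (XT.nd (nat_lit 78) (nat_lit 0) (nat_lit 0) (XT.lf (nat_lit 0) (nat_lit 1119132087431) (nat_lit 76) (nat_lit 834970944594) (nat_lit 76) (nat_lit 619580737363) (nat_lit 4) (nat_lit 4) (nat_lit 5) (nat_lit 5) (nat_lit 5) (nat_lit 4) (nat_lit 316) (nat_lit 280) (nat_lit 184)) (XT.lf (nat_lit 0) (nat_lit 1921357052975) (nat_lit 76) (nat_lit 614029789531) (nat_lit 76) (nat_lit 398639540457) (nat_lit 4) (nat_lit 4) (nat_lit 5) (nat_lit 5) (nat_lit 5) (nat_lit 4) (nat_lit 317) (nat_lit 280) (nat_lit 183)))) (XT.nd (nat_lit 156) (nat_lit 0) (nat_lit 0) (XT.nd (nat_lit 78) (nat_lit 152) (nat_lit 0) (XT.lf (nat_lit 0) (nat_lit 2843915532955)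 (nat_lit 76) (nat_lit 359947575208) (nat_lit 76) (nat_lit 144557289748) (nat_lit 4) (nat_lit 4) (nat_lit 5) (nat_lit 5) (nat_lit 5) (nat_lit 4) (nat_lit 318) (nat_lit 280) (nat_lit 182)) (XT.lf (nat_lit 0) (nat_lit 80352964109) (nat_lit 76) (nat_lit 61831305702) (nat_lit 152) (nat_lit 3682350599919) (nat_lit 2) (nat_lit 5) (nat_lit 3) (nat_lit 5) (nat_lit 4) (nat_lit 4) (nat_lit 319) (nat_lit 280) (nat_lit 181))) (XT.nd (nat_lit 78) (nat_lit 0) (nat_lit 0) (XT.lf (nat_lit 0) (nat_lit 485448664367) (nat_lit 152) (nat_lit 3598538628630) (nat_lit 0) (nat_lit 286013160097) (nat_lit 2) (nat_lit 5) (nat_lit 4) (nat_lit 4) (nat_lit 2) (nat_lit 4) (nat_lit 320) (nat_lit 280) (nat_lit 180)) (XT.lf (nat_lit 0) (nat_lit 881912734721) (nat_lit 152) (nat_lit 3432759129630) (nat_lit 0) (nat_lit 682477208298) (nat_lit 2) (nat_lit 5) (nat_lit 4) (nat_lit 4) (nat_lit 2) (nat_lit 4) (nat_lit 321) (nat_lit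 280) (nat_lit 179)))))) (XT.nd (nat_lit 37518) (nat_lit 0) (nat_lit 2888) (XT.nd (nat_lit 234) (nat_lit 0) (nat_lit 0) (XT.nd (nat_lit 78) (nat_lit 0) (nat_lit 0) (XT.lf (nat_lit 0) (nat_lit 1337846342207) (nat_lit 152) (nat_lit 3242112852296) (nat_lit 0) (nat_lit 1138410796522) (nat_lit 2) (nat_lit 5) (nat_lit 4) (nat_lit 4) (nat_lit 2) (nat_lit 4) (nat_lit 322) (nat_lit 280) (nat_lit 178)) (XT.nd (nat_lit 78) (nat_lit 0) (nat_lit 0) (XT.lf (nat_lit 0) (nat_lit 1862169926973) (nat_lit 152) (nat_lit 3022869760767) (nat_lit 0) (nat_lit 1662734364537) (nat_lit 2) (nat_lit 5) (nat_lit 4) (nat_lit 4) (nat_lit 2) (nat_lit 4) (nat_lit 323) (nat_lit 280) (nat_lit 177)) (XT.lf (nat_lit 0) (nat_lit 2465141993937) (nat_lit 152) (nat_lit 2770740316295) (nat_lit 0) (nat_lit 2265706416936) (nat_lit 2) (nat_lit 5) (nat_lit 4) (nat_lit 4) (nat_lit 2) (nat_lit 4) (nat_lit 324) (nat_lit 280) (nat_lit 176))))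 (XT.nd (nat_lit 78) (nat_lit 0) (nat_lit 0) (XT.lf (nat_lit 0) (nat_lit 3158559822671) (nat_lit 152) (nat_lit 2480791551489) (nat_lit 0) (nat_lit 2959124233005) (nat_lit 2) (nat_lit 5) (nat_lit 4) (nat_lit 4) (nat_lit 2) (nat_lit 4) (nat_lit 325) (nat_lit 280) (nat_lit 175)) (XT.nd (nat_lit 37128) (nat_lit 0) (nat_lit 3952) (XT.lf (nat_lit 0) (nat_lit 3955990283737) (nat_lit 152) (nat_lit 2147350555732) (nat_lit 0) (nat_lit 3756554683058) (nat_lit 2) (nat_lit 5) (nat_lit 4) (nat_lit 4) (nat_lit 2) (nat_lit 4) (nat_lit 326) (nat_lit 280) (nat_lit 174)) (XT.lf (nat_lit 0) (nat_lit 29538228747) (nat_lit 532) (nat_lit 4405632706) (nat_lit 532) (nat_lit 4405632706) (nat_lit 54) (nat_lit 3) (nat_lit 61) (nat_lit 3) (nat_lit 61) (nat_lit 5) (nat_lit 281) (nat_lit 281) (nat_lit 218))))) (XT.nd (nat_lit 234) (nat_lit 1064) (nat_lit 0) (XT.nd (nat_lit 78) (nat_lit 0) (nat_lit 76) (XT.lf (nat_lit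 76) (nat_lit 62396070705) (nat_lit 0) (nat_lit 2630307807) (nat_lit 532) (nat_lit 17303465091) (nat_lit 55) (nat_lit 5) (nat_lit 54) (nat_lit 3) (nat_lit 61) (nat_lit 5) (nat_lit 282) (nat_lit 281) (nat_lit 217)) (XT.nd (nat_lit 78) (nat_lit 0) (nat_lit 76) (XT.lf (nat_lit 76) (nat_lit 57141269794) (nat_lit 0) (nat_lit 18103245672) (nat_lit 532) (nat_lit 13290759528) (nat_lit 56) (nat_lit 5) (nat_lit 55) (nat_lit 5) (nat_lit 62) (nat_lit 5) (nat_lit 283) (nat_lit 281) (nat_lit 216)) (XT.lf (nat_lit 76) (nat_lit 52486792693) (nat_lit 0) (nat_lit 37844477370) (nat_lit 532) (nat_lit 5073384513) (nat_lit 57) (nat_lit 5) (nat_lit 56) (nat_lit 5) (nat_lit 63) (nat_lit 5) (nat_lit 284) (nat_lit 281) (nat_lit 215)))) (XT.nd (nat_lit 156) (nat_lit 456) (nat_lit 0) (XT.nd (nat_lit 78) (nat_lit 304) (nat_lit 0) (XT.lf (nat_lit 0) (nat_lit 7809433472) (nat_lit 532) (nat_lit 54650534307) (nat_lit 76)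 (nat_lit 40543915216) (nat_lit 50) (nat_lit 5) (nat_lit 57) (nat_lit 5) (nat_lit 51) (nat_lit 5) (nat_lit 285) (nat_lit 281) (nat_lit 214)) (XT.lf (nat_lit 0) (nat_lit 26219573131) (nat_lit 380) (nat_lit 66612674829) (nat_lit 76) (nat_lit 18588585298) (nat_lit 46) (nat_lit 5) (nat_lit 51) (nat_lit 5) (nat_lit 47) (nat_lit 5) (nat_lit 286) (nat_lit 281) (nat_lit 213))) (XT.nd (nat_lit 78) (nat_lit 228) (nat_lit 0) (XT.lf (nat_lit 0) (nat_lit 41844277887) (nat_lit 228) (nat_lit 9911130958) (nat_lit 304) (nat_lit 68995786403) (nat_lit 43) (nat_lit 5) (nat_lit 46) (nat_lit 5) (nat_lit 47) (nat_lit 5) (nat_lit 287) (nat_lit 281) (nat_lit 212)) (XT.lf (nat_lit 0) (nat_lit 39127405642) (nat_lit 228) (nat_lit 46978120756) (nat_lit 304) (nat_lit 44976875398) (nat_lit 40) (nat_lit 5) (nat_lit 43) (nat_lit 5) (nat_lit 44) (nat_lit 5) (nat_lit 288) (nat_lit 281) (nat_lit 211))))))))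
noncomputable def xc47 : XT := (XT.nd (nat_lit 2028) (nat_lit 228) (nat_lit 0) (XT.nd (nat_lit 1014) (nat_lit 760) (nat_lit 0) (XT.nd (nat_lit 468) (nat_lit 760) (nat_lit 0) (XT.nd (nat_lit 234) (nat_lit 532) (nat_lit 0) (XT.nd (nat_lit 78) (nat_lit 456) (nat_lit 0) (XT.lf (nat_lit 0) (nat_lit 37227742246) (nat_lit 152) (nat_lit 93069513153) (nat_lit 228) (nat_lit 12290908839) (nat_lit 38) (nat_lit 5) (nat_lit 40) (nat_lit 5) (nat_lit 41) (nat_lit 5) (nat_lit 289) (nat_lit 281) (nat_lit 210)) (XT.nd (nat_lit 78) (nat_lit 152) (nat_lit 0) (XT.lf (nat_lit 0) (nat_lit 29091042182) (nat_lit 304) (nat_lit 119988465273) (nat_lit 76) (nat_lit 6286924586) (nat_lit 34) (nat_lit 5) (nat_lit 38) (nat_lit 5) (nat_lit 35) (nat_lit 5) (nat_lit 290) (nat_lit 281) (nat_lit 209)) (XT.lf (nat_lit 0) (nat_lit 32417389895) (nat_lit 152) (nat_lit 50055267747) (nat_lit 228) (nat_lit 87041634051) (nat_lit 32)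 (nat_lit 5) (nat_lit 34) (nat_lit 5) (nat_lit 35) (nat_lit 5) (nat_lit 291) (nat_lit 281) (nat_lit 208)))) (XT.nd (nat_lit 78) (nat_lit 380) (nat_lit 0) (XT.lf (nat_lit 0) (nat_lit 29282686048) (nat_lit 152) (nat_lit 120400810059) (nat_lit 228) (nat_lit 35635077205) (nat_lit 30) (nat_lit 5) (nat_lit 32) (nat_lit 5) (nat_lit 33) (nat_lit 5) (nat_lit 292) (nat_lit 281) (nat_lit 207)) (XT.nd (nat_lit 78) (nat_lit 152) (nat_lit 0) (XT.lf (nat_lit 0) (nat_lit 24940195993) (nat_lit 152) (nat_lit 3445717736) (nat_lit 228) (nat_lit 174576153245) (nat_lit 27) (nat_lit 5) (nat_lit 29) (nat_lit 5) (nat_lit 30) (nat_lit 5) (nat_lit 293) (nat_lit 281) (nat_lit 206)) (XT.lf (nat_lit 0) (nat_lit 16175140965) (nat_lit 152) (nat_lit 91985473839) (nat_lit 228) (nat_lit 114356579542) (nat_lit 25) (nat_lit 5) (nat_lit 27) (nat_lit 5) (nat_lit 28) (nat_lit 5) (nat_lit 294) (nat_lit 281) (nat_lit 205))))) (XT.nd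 (nat_lit 234) (nat_lit 456) (nat_lit 0) (XT.nd (nat_lit 78) (nat_lit 228) (nat_lit 0) (XT.lf (nat_lit 0) (nat_lit 4752055485) (nat_lit 76) (nat_lit 201620924606) (nat_lit 152) (nat_lit 38114894901) (nat_lit 24) (nat_lit 5) (nat_lit 25) (nat_lit 5) (nat_lit 26) (nat_lit 4) (nat_lit 295) (nat_lit 281) (nat_lit 204)) (XT.nd (nat_lit 78) (nat_lit 152) (nat_lit 0) (XT.lf (nat_lit 0) (nat_lit 55790331881) (nat_lit 152) (nat_lit 13161491942) (nat_lit 76) (nat_lit 200010444561) (nat_lit 23) (nat_lit 5) (nat_lit 25) (nat_lit 5) (nat_lit 24) (nat_lit 5) (nat_lit 296) (nat_lit 281) (nat_lit 203)) (XT.lf (nat_lit 0) (nat_lit 170024787433) (nat_lit 228) (nat_lit 39409495269) (nat_lit 76) (nat_lit 86914317180) (nat_lit 21) (nat_lit 5) (nat_lit 24) (nat_lit 5) (nat_lit 22) (nat_lit 4) (nat_lit 297) (nat_lit 281) (nat_lit 202)))) (XT.nd (nat_lit 156) (nat_lit 228) (nat_lit 0) (XT.nd (nat_lit 78) (nat_lit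 152) (nat_lit 0) (XT.lf (nat_lit 0) (nat_lit 251186700606) (nat_lit 76) (nat_lit 58548191446) (nat_lit 152) (nat_lit 17440751138) (nat_lit 20) (nat_lit 5) (nat_lit 21) (nat_lit 5) (nat_lit 22) (nat_lit 4) (nat_lit 298) (nat_lit 281) (nat_lit 201)) (XT.lf (nat_lit 0) (nat_lit 112204698484) (nat_lit 152) (nat_lit 130561069203) (nat_lit 76) (nat_lit 118867916118) (nat_lit 18) (nat_lit 5) (nat_lit 20) (nat_lit 5) (nat_lit 19) (nat_lit 4) (nat_lit 299) (nat_lit 281) (nat_lit 200))) (XT.nd (nat_lit 78) (nat_lit 152) (nat_lit 0) (XT.lf (nat_lit 0) (nat_lit 195322160825) (nat_lit 76) (nat_lit 73557444077) (nat_lit 152) (nat_lit 131655359353) (nat_lit 17) (nat_lit 5) (nat_lit 18) (nat_lit 5) (nat_lit 19) (nat_lit 4) (nat_lit 300) (nat_lit 281) (nat_lit 199)) (XT.lf (nat_lit 0) (nat_lit 13959048807) (nat_lit 152) (nat_lit 307953991122) (nat_lit 76) (nat_lit 122521992544) (nat_lit 15) (nat_lit 5)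 (nat_lit 17) (nat_lit 5) (nat_lit 16) (nat_lit 4) (nat_lit 301) (nat_lit 281) (nat_lit 198)))))) (XT.nd (nat_lit 468) (nat_lit 380) (nat_lit 0) (XT.nd (nat_lit 234) (nat_lit 152) (nat_lit 0) (XT.nd (nat_lit 78) (nat_lit 152) (nat_lit 0) (XT.lf (nat_lit 0) (nat_lit 43771638784) (nat_lit 76) (nat_lit 139286464210) (nat_lit 152) (nat_lit 310833402520) (nat_lit 14) (nat_lit 5) (nat_lit 15) (nat_lit 5) (nat_lit 16) (nat_lit 4) (nat_lit 302) (nat_lit 281) (nat_lit 197)) (XT.nd (nat_lit 78) (nat_lit 152) (nat_lit 0) (XT.lf (nat_lit 0) (nat_lit 388421287022) (nat_lit 152) (nat_lit 85079309618) (nat_lit 0) (nat_lit 76393911367) (nat_lit 14) (nat_lit 5) (nat_lit 16) (nat_lit 4) (nat_lit 14) (nat_lit 4) (nat_lit 303) (nat_lit 281) (nat_lit 196)) (XT.lf (nat_lit 0) (nat_lit 22321989283) (nat_lit 152) (nat_lit 265597919961) (nat_lit 76) (nat_lit 325354588064) (nat_lit 12) (nat_lit 5) (nat_lit 14) (nat_lit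 5) (nat_lit 13) (nat_lit 4) (nat_lit 304) (nat_lit 281) (nat_lit 195)))) (XT.nd (nat_lit 78) (nat_lit 76) (nat_lit 0) (XT.lf (nat_lit 0) (nat_lit 168429099893) (nat_lit 76) (nat_lit 62559843758) (nat_lit 152) (nat_lit 454287934415) (nat_lit 11) (nat_lit 5) (nat_lit 12) (nat_lit 5) (nat_lit 13) (nat_lit 4) (nat_lit 305) (nat_lit 281) (nat_lit 194)) (XT.nd (nat_lit 78) (nat_lit 76) (nat_lit 0) (XT.lf (nat_lit 0) (nat_lit 483617335534) (nat_lit 152) (nat_lit 88746955818) (nat_lit 0) (nat_lit 194702413176) (nat_lit 11) (nat_lit 5) (nat_lit 13) (nat_lit 4) (nat_lit 11) (nat_lit 4) (nat_lit 306) (nat_lit 281) (nat_lit 193)) (XT.lf (nat_lit 0) (nat_lit 422998177456) (nat_lit 76) (nat_lit 363044839605) (nat_lit 76) (nat_lit 74129745553) (nat_lit 10) (nat_lit 4) (nat_lit 11) (nat_lit 5) (nat_lit 11) (nat_lit 4) (nat_lit 307) (nat_lit 281) (nat_lit 192))))) (XT.nd (nat_lit 234) (nat_lit 152) (nat_lit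 0) (XT.nd (nat_lit 78) (nat_lit 76) (nat_lit 0) (XT.lf (nat_lit 0) (nat_lit 48177157600) (nat_lit 76) (nat_lit 113886496702) (nat_lit 152) (nat_lit 804555821488) (nat_lit 8) (nat_lit 5) (nat_lit 9) (nat_lit 5) (nat_lit 10) (nat_lit 4) (nat_lit 308) (nat_lit 281) (nat_lit 191)) (XT.nd (nat_lit 78) (nat_lit 76) (nat_lit 0) (XT.lf (nat_lit 0) (nat_lit 446631852687) (nat_lit 152) (nat_lit 461742881506) (nat_lit 0) (nat_lit 179117618265) (nat_lit 8) (nat_lit 5) (nat_lit 10) (nat_lit 4) (nat_lit 8) (nat_lit 4) (nat_lit 309) (nat_lit 281) (nat_lit 190)) (XT.lf (nat_lit 0) (nat_lit 63487033532) (nat_lit 76) (nat_lit 715074675915) (nat_lit 76) (nat_lit 447560336963) (nat_lit 7) (nat_lit 4) (nat_lit 8) (nat_lit 5) (nat_lit 8) (nat_lit 4) (nat_lit 310) (nat_lit 281) (nat_lit 189)))) (XT.nd (nat_lit 156) (nat_lit 76) (nat_lit 0) (XT.nd (nat_lit 78) (nat_lit 76) (nat_lit 0) (XT.lf (nat_lit 0) (nat_lit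 695462727257) (nat_lit 76) (nat_lit 478261231975) (nat_lit 76) (nat_lit 210746802128) (nat_lit 7) (nat_lit 4) (nat_lit 8) (nat_lit 5) (nat_lit 8) (nat_lit 4) (nat_lit 311) (nat_lit 281) (nat_lit 188)) (XT.lf (nat_lit 0) (nat_lit 58507635941) (nat_lit 152) (nat_lit 145818626127) (nat_lit 76) (nat_lit 1362127041249) (nat_lit 6) (nat_lit 5) (nat_lit 8) (nat_lit 5) (nat_lit 7) (nat_lit 4) (nat_lit 312) (nat_lit 281) (nat_lit 187))) (XT.nd (nat_lit 78) (nat_lit 0) (nat_lit 0) (XT.lf (nat_lit 0) (nat_lit 371126229845) (nat_lit 152) (nat_lit 1279505170260) (nat_lit 0) (nat_lit 123427546868) (nat_lit 5) (nat_lit 5) (nat_lit 7) (nat_lit 4) (nat_lit 5) (nat_lit 4) (nat_lit 313) (nat_lit 281) (nat_lit 186)) (XT.lf (nat_lit 0) (nat_lit 740644224784) (nat_lit 152) (nat_lit 778415197011) (nat_lit 0) (nat_lit 492945486468) (nat_lit 5) (nat_lit 5) (nat_lit 7) (nat_lit 4) (nat_lit 5) (nat_lit 4) (nat_lit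 314) (nat_lit 281) (nat_lit 185))))))) (XT.nd (nat_lit 38142) (nat_lit 0) (nat_lit 1748) (XT.nd (nat_lit 468) (nat_lit 0) (nat_lit 0) (XT.nd (nat_lit 234) (nat_lit 152) (nat_lit 0) (XT.nd (nat_lit 78) (nat_lit 76) (nat_lit 0) (XT.lf (nat_lit 0) (nat_lit 1165589772357) (nat_lit 152) (nat_lit 202162017229) (nat_lit 0) (nat_lit 917890985922) (nat_lit 5) (nat_lit 5) (nat_lit 7) (nat_lit 4) (nat_lit 5) (nat_lit 4) (nat_lit 315) (nat_lit 281) (nat_lit 184)) (XT.nd (nat_lit 78) (nat_lit 0) (nat_lit 0) (XT.lf (nat_lit 0) (nat_lit 484779522925) (nat_lit 76) (nat_lit 1181156460844) (nat_lit 76) (nat_lit 933457632565) (nat_lit 4) (nat_lit 4) (nat_lit 5) (nat_lit 5) (nat_lit 5) (nat_lit 4) (nat_lit 316) (nat_lit 281) (nat_lit 183)) (XT.lf (nat_lit 0) (nat_lit 1287004381308) (nat_lit 76) (nat_lit 960215358804) (nat_lit 76) (nat_lit 712516494140) (nat_lit 4) (nat_lit 4) (nat_lit 5) (nat_lit 5) (nat_lit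 5) (nat_lit 4) (nat_lit 317) (nat_lit 281) (nat_lit 182)))) (XT.nd (nat_lit 78) (nat_lit 152) (nat_lit 0) (XT.lf (nat_lit 0) (nat_lit 2209562768106) (nat_lit 76) (nat_lit 706133190588) (nat_lit 76) (nat_lit 458434294284) (nat_lit 4) (nat_lit 4) (nat_lit 5) (nat_lit 5) (nat_lit 5) (nat_lit 4) (nat_lit 318) (nat_lit 281) (nat_lit 181)) (XT.nd (nat_lit 78) (nat_lit 152) (nat_lit 0) (XT.lf (nat_lit 0) (nat_lit 3270504738711) (nat_lit 76) (nat_lit 413938783340) (nat_lit 76) (nat_lit 166239859523) (nat_lit 4) (nat_lit 4) (nat_lit 5) (nat_lit 5) (nat_lit 5) (nat_lit 4) (nat_lit 319) (nat_lit 281) (nat_lit 180)) (XT.lf (nat_lit 0) (nat_lit 92407672815) (nat_lit 76) (nat_lit 71105125529) (nat_lit 152) (nat_lit 4234702230630) (nat_lit 2) (nat_lit 5) (nat_lit 3) (nat_lit 5) (nat_lit 4) (nat_lit 4) (nat_lit 320) (nat_lit 281) (nat_lit 179))))) (XT.nd (nat_lit 234) (nat_lit 0) (nat_lit 0) (XT.nd (nat_lit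 78) (nat_lit 0) (nat_lit 0) (XT.lf (nat_lit 0) (nat_lit 558266754569) (nat_lit 152) (nat_lit 4138317845328) (nat_lit 0) (nat_lit 328915857769) (nat_lit 2) (nat_lit 5) (nat_lit 4) (nat_lit 4) (nat_lit 2) (nat_lit 4) (nat_lit 321) (nat_lit 281) (nat_lit 178)) (XT.nd (nat_lit 78) (nat_lit 0) (nat_lit 0) (XT.lf (nat_lit 0) (nat_lit 1014200332361) (nat_lit 152) (nat_lit 3947671627252) (nat_lit 0) (nat_lit 784849418810) (nat_lit 2) (nat_lit 5) (nat_lit 4) (nat_lit 4) (nat_lit 2) (nat_lit 4) (nat_lit 322) (nat_lit 281) (nat_lit 177)) (XT.lf (nat_lit 0) (nat_lit 1538523891305) (nat_lit 152) (nat_lit 3728428587251) (nat_lit 0) (nat_lit 1309172963189) (nat_lit 2) (nat_lit 5) (nat_lit 4) (nat_lit 4) (nat_lit 2) (nat_lit 4) (nat_lit 323) (nat_lit 281) (nat_lit 176)))) (XT.nd (nat_lit 156) (nat_lit 0) (nat_lit 0) (XT.nd (nat_lit 78) (nat_lit 0) (nat_lit 0) (XT.lf (nat_lit 0) (nat_lit 2141495935816)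 (nat_lit 152) (nat_lit 3476299187587) (nat_lit 0) (nat_lit 1912144995035) (nat_lit 2) (nat_lit 5) (nat_lit 4) (nat_lit 4) (nat_lit 2) (nat_lit 4) (nat_lit 324) (nat_lit 281) (nat_lit 175)) (XT.lf (nat_lit 0) (nat_lit 2834913745025) (nat_lit 152) (nat_lit 3186350461743) (nat_lit 0) (nat_lit 2605562793231) (nat_lit 2) (nat_lit 5) (nat_lit 4) (nat_lit 4) (nat_lit 2) (nat_lit 4) (nat_lit 325) (nat_lit 281) (nat_lit 174))) (XT.nd (nat_lit 37206) (nat_lit 0) (nat_lit 3952) (XT.lf (nat_lit 0) (nat_lit 3632344189113) (nat_lit 152) (nat_lit 2852909499868) (nat_lit 0) (nat_lit 3402993227742) (nat_lit 2) (nat_lit 5) (nat_lit 4) (nat_lit 4) (nat_lit 2) (nat_lit 4) (nat_lit 326) (nat_lit 281) (nat_lit 173)) (XT.lf (nat_lit 0) (nat_lit 33986754246) (nat_lit 532) (nat_lit 5056854121) (nat_lit 532) (nat_lit 5056854121) (nat_lit 54) (nat_lit 3) (nat_lit 61) (nat_lit 3) (nat_lit 61) (nat_lit 5) (nat_lit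 282) (nat_lit 282) (nat_lit 216)))))) (XT.nd (nat_lit 468) (nat_lit 1368) (nat_lit 0) (XT.nd (nat_lit 234) (nat_lit 836) (nat_lit 0) (XT.nd (nat_lit 78) (nat_lit 0) (nat_lit 76) (XT.lf (nat_lit 76) (nat_lit 71773099131) (nat_lit 0) (nat_lit 3038601062) (nat_lit 532) (nat_lit 19865054238) (nat_lit 55) (nat_lit 5) (nat_lit 54) (nat_lit 3) (nat_lit 61) (nat_lit 5) (nat_lit 283) (nat_lit 282) (nat_lit 215)) (XT.nd (nat_lit 78) (nat_lit 0) (nat_lit 76) (XT.lf (nat_lit 76) (nat_lit 65731237993) (nat_lit 0) (nat_lit 20827392734) (nat_lit 532) (nat_lit 15254691334) (nat_lit 56) (nat_lit 5) (nat_lit 55) (nat_lit 5) (nat_lit 62) (nat_lit 5) (nat_lit 284) (nat_lit 282) (nat_lit 214)) (XT.lf (nat_lit 76) (nat_lit 60379244758) (nat_lit 0) (nat_lit 43525861150) (nat_lit 532) (nat_lit 5808272491) (nat_lit 57) (nat_lit 5) (nat_lit 56) (nat_lit 5) (nat_lit 63) (nat_lit 5) (nat_lit 285) (nat_lit 282) (nat_lit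 213)))) (XT.nd (nat_lit 78) (nat_lit 532) (nat_lit 0) (XT.lf (nat_lit 0) (nat_lit 9002810056) (nat_lit 532) (nat_lit 62827224366) (nat_lit 76) (nat_lit 46622639687) (nat_lit 50) (nat_lit 5) (nat_lit 57) (nat_lit 5) (nat_lit 51) (nat_lit 5) (nat_lit 286) (nat_lit 282) (nat_lit 212)) (XT.nd (nat_lit 78) (nat_lit 228) (nat_lit 0) (XT.lf (nat_lit 0) (nat_lit 30172055530) (nat_lit 380) (nat_lit 76583849272) (nat_lit 76) (nat_lit 21376459808) (nat_lit 46) (nat_lit 5) (nat_lit 51) (nat_lit 5) (nat_lit 47) (nat_lit 5) (nat_lit 287) (nat_lit 282) (nat_lit 211)) (XT.lf (nat_lit 0) (nat_lit 48139891932) (nat_lit 228) (nat_lit 11396281421) (nat_lit 304) (nat_lit 79326278909) (nat_lit 43) (nat_lit 5) (nat_lit 46) (nat_lit 5) (nat_lit 47) (nat_lit 5) (nat_lit 288) (nat_lit 282) (nat_lit 210))))) (XT.nd (nat_lit 234) (nat_lit 684) (nat_lit 0) (XT.nd (nat_lit 78) (nat_lit 456) (nat_lit 0) (XT.lf (nat_lit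 0) (nat_lit 45015151376) (nat_lit 228) (nat_lit 54021860601) (nat_lit 304) (nat_lit 51706474934) (nat_lit 40) (nat_lit 5) (nat_lit 43) (nat_lit 5) (nat_lit 44) (nat_lit 5) (nat_lit 289) (nat_lit 282) (nat_lit 209)) (XT.nd (nat_lit 78) (nat_lit 304) (nat_lit 0) (XT.lf (nat_lit 0) (nat_lit 42830062774) (nat_lit 152) (nat_lit 107025894400) (nat_lit 228) (nat_lit 14119282948) (nat_lit 38) (nat_lit 5) (nat_lit 40) (nat_lit 5) (nat_lit 41) (nat_lit 5) (nat_lit 290) (nat_lit 282) (nat_lit 208)) (XT.lf (nat_lit 0) (nat_lit 33467826807) (nat_lit 304) (nat_lit 137968443353) (nat_lit 76) (nat_lit 7234060582) (nat_lit 34) (nat_lit 5) (nat_lit 38) (nat_lit 5) (nat_lit 35) (nat_lit 5) (nat_lit 291) (nat_lit 282) (nat_lit 207)))) (XT.nd (nat_lit 156) (nat_lit 380) (nat_lit 0) (XT.nd (nat_lit 78) (nat_lit 152) (nat_lit 0) (XT.lf (nat_lit 0) (nat_lit 37296741789) (nat_lit 152) (nat_lit 57558633092) (nat_lit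 228) (nat_lit 100085101306) (nat_lit 32) (nat_lit 5) (nat_lit 34) (nat_lit 5) (nat_lit 35) (nat_lit 5) (nat_lit 292) (nat_lit 282) (nat_lit 206)) (XT.lf (nat_lit 0) (nat_lit 33691184766) (nat_lit 152) (nat_lit 138455602890) (nat_lit 228) (nat_lit 40968698304) (nat_lit 30) (nat_lit 5) (nat_lit 32) (nat_lit 5) (nat_lit 33) (nat_lit 5) (nat_lit 293) (nat_lit 282) (nat_lit 205))) (XT.nd (nat_lit 78) (nat_lit 152) (nat_lit 0) (XT.lf (nat_lit 0) (nat_lit 28696501940) (nat_lit 152) (nat_lit 3957282057) (nat_lit 228) (nat_lit 200751784723) (nat_lit 27) (nat_lit 5) (nat_lit 29) (nat_lit 5) (nat_lit 30) (nat_lit 5) (nat_lit 294) (nat_lit 282) (nat_lit 204)) (XT.lf (nat_lit 0) (nat_lit 18616018926) (nat_lit 152) (nat_lit 105777831143) (nat_lit 228) (nat_lit 131500183599) (nat_lit 25) (nat_lit 5) (nat_lit 27) (nat_lit 5) (nat_lit 28) (nat_lit 5) (nat_lit 295) (nat_lit 282) (nat_lit 203))))))))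
noncomputable def xc48 : XT := (XT.nd (nat_lit 1950) (nat_lit 152) (nat_lit 0) (XT.nd (nat_lit 936) (nat_lit 532) (nat_lit 0) (XT.nd (nat_lit 468) (nat_lit 456) (nat_lit 0) (XT.nd (nat_lit 234) (nat_lit 304) (nat_lit 0) (XT.nd (nat_lit 78) (nat_lit 228) (nat_lit 0) (XT.lf (nat_lit 0) (nat_lit 5478791157) (nat_lit 76) (nat_lit 231858535640) (nat_lit 152) (nat_lit 43823050178) (nat_lit 24) (nat_lit 5) (nat_lit 25) (nat_lit 5) (nat_lit 26) (nat_lit 4) (nat_lit 296) (nat_lit 282) (nat_lit 202)) (XT.nd (nat_lit 78) (nat_lit 152) (nat_lit 0) (XT.lf (nat_lit 0) (nat_lit 64166381483) (nat_lit 152) (nat_lit 15123204197) (nat_lit 76) (nat_lit 230016417105) (nat_lit 23) (nat_lit 5) (nat_lit 25) (nat_lit 5) (nat_lit 24) (nat_lit 5) (nat_lit 297) (nat_lit 282) (nat_lit 201)) (XT.lf (nat_lit 0) (nat_lit 195535414527) (nat_lit 228) (nat_lit 45309030160) (nat_lit 76) (nat_lit 99955887353) (nat_lit 21)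 (nat_lit 5) (nat_lit 24) (nat_lit 5) (nat_lit 22) (nat_lit 4) (nat_lit 298) (nat_lit 282) (nat_lit 200)))) (XT.nd (nat_lit 78) (nat_lit 228) (nat_lit 0) (XT.lf (nat_lit 0) (nat_lit 288875588717) (nat_lit 76) (nat_lit 67325806688) (nat_lit 152) (nat_lit 20050088261) (nat_lit 20) (nat_lit 5) (nat_lit 21) (nat_lit 5) (nat_lit 22) (nat_lit 4) (nat_lit 299) (nat_lit 282) (nat_lit 199)) (XT.nd (nat_lit 78) (nat_lit 76) (nat_lit 0) (XT.lf (nat_lit 0) (nat_lit 129041354023) (nat_lit 152) (nat_lit 150134589215) (nat_lit 76) (nat_lit 136702313502) (nat_lit 18) (nat_lit 5) (nat_lit 20) (nat_lit 5) (nat_lit 19) (nat_lit 4) (nat_lit 300) (nat_lit 282) (nat_lit 198)) (XT.lf (nat_lit 0) (nat_lit 224630224663) (nat_lit 76) (nat_lit 84586729794) (nat_lit 152) (nat_lit 151397818622) (nat_lit 17) (nat_lit 5) (nat_lit 18) (nat_lit 5) (nat_lit 19) (nat_lit 4) (nat_lit 301) (nat_lit 282) (nat_lit 197))))) (XT.nd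 (nat_lit 234) (nat_lit 228) (nat_lit 0) (XT.nd (nat_lit 78) (nat_lit 76) (nat_lit 0) (XT.lf (nat_lit 0) (nat_lit 16058054579) (nat_lit 152) (nat_lit 354137597301) (nat_lit 76) (nat_lit 140904221086) (nat_lit 15) (nat_lit 5) (nat_lit 17) (nat_lit 5) (nat_lit 16) (nat_lit 4) (nat_lit 302) (nat_lit 282) (nat_lit 196)) (XT.nd (nat_lit 78) (nat_lit 0) (nat_lit 0) (XT.lf (nat_lit 0) (nat_lit 50346073599) (nat_lit 76) (nat_lit 160175430729) (nat_lit 152) (nat_lit 357453349967) (nat_lit 14) (nat_lit 5) (nat_lit 15) (nat_lit 5) (nat_lit 16) (nat_lit 4) (nat_lit 303) (nat_lit 282) (nat_lit 195)) (XT.lf (nat_lit 0) (nat_lit 446688638475) (nat_lit 152) (nat_lit 97833406261) (nat_lit 0) (nat_lit 87856304907) (nat_lit 14) (nat_lit 5) (nat_lit 16) (nat_lit 4) (nat_lit 14) (nat_lit 4) (nat_lit 304) (nat_lit 282) (nat_lit 194)))) (XT.nd (nat_lit 78) (nat_lit 76) (nat_lit 0) (XT.lf (nat_lit 0) (nat_lit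 25674175327) (nat_lit 152) (nat_lit 305430262130) (nat_lit 76) (nat_lit 374160921912) (nat_lit 12) (nat_lit 5) (nat_lit 14) (nat_lit 5) (nat_lit 13) (nat_lit 4) (nat_lit 305) (nat_lit 282) (nat_lit 193)) (XT.nd (nat_lit 78) (nat_lit 0) (nat_lit 0) (XT.lf (nat_lit 0) (nat_lit 193700188916) (nat_lit 76) (nat_lit 71940638563) (nat_lit 152) (nat_lit 522427297589) (nat_lit 11) (nat_lit 5) (nat_lit 12) (nat_lit 5) (nat_lit 13) (nat_lit 4) (nat_lit 306) (nat_lit 282) (nat_lit 192)) (XT.lf (nat_lit 0) (nat_lit 556163082648) (nat_lit 152) (nat_lit 102052971169) (nat_lit 0) (nat_lit 223910403495) (nat_lit 11) (nat_lit 5) (nat_lit 13) (nat_lit 4) (nat_lit 11) (nat_lit 4) (nat_lit 307) (nat_lit 282) (nat_lit 191)))))) (XT.nd (nat_lit 468) (nat_lit 152) (nat_lit 0) (XT.nd (nat_lit 234) (nat_lit 152) (nat_lit 0) (XT.nd (nat_lit 78) (nat_lit 152) (nat_lit 0) (XT.lf (nat_lit 0) (nat_lit 486453421854)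 (nat_lit 76) (nat_lit 417498916803) (nat_lit 76) (nat_lit 85246107825) (nat_lit 10) (nat_lit 4) (nat_lit 11) (nat_lit 5) (nat_lit 11) (nat_lit 4) (nat_lit 308) (nat_lit 282) (nat_lit 190)) (XT.nd (nat_lit 78) (nat_lit 0) (nat_lit 0) (XT.lf (nat_lit 0) (nat_lit 55408924744) (nat_lit 76) (nat_lit 130966963050) (nat_lit 152) (nat_lit 925236293731) (nat_lit 8) (nat_lit 5) (nat_lit 9) (nat_lit 5) (nat_lit 10) (nat_lit 4) (nat_lit 309) (nat_lit 282) (nat_lit 189)) (XT.lf (nat_lit 0) (nat_lit 513629018128) (nat_lit 152) (nat_lit 530999662586) (nat_lit 0) (nat_lit 205987332909) (nat_lit 8) (nat_lit 5) (nat_lit 10) (nat_lit 4) (nat_lit 8) (nat_lit 4) (nat_lit 310) (nat_lit 282) (nat_lit 188)))) (XT.nd (nat_lit 78) (nat_lit 76) (nat_lit 0) (XT.lf (nat_lit 0) (nat_lit 73014346011) (nat_lit 76) (nat_lit 822333798364) (nat_lit 76) (nat_lit 514692034106) (nat_lit 7) (nat_lit 4) (nat_lit 8) (nat_lit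 5) (nat_lit 8) (nat_lit 4) (nat_lit 311) (nat_lit 282) (nat_lit 187)) (XT.nd (nat_lit 78) (nat_lit 76) (nat_lit 0) (XT.lf (nat_lit 0) (nat_lit 799785838476) (nat_lit 76) (nat_lit 549998608999) (nat_lit 76) (nat_lit 242356776011) (nat_lit 7) (nat_lit 4) (nat_lit 8) (nat_lit 5) (nat_lit 8) (nat_lit 4) (nat_lit 312) (nat_lit 282) (nat_lit 186)) (XT.lf (nat_lit 0) (nat_lit 67285471824) (nat_lit 152) (nat_lit 167688111358) (nat_lit 76) (nat_lit 1566447579967) (nat_lit 6) (nat_lit 5) (nat_lit 8) (nat_lit 5) (nat_lit 7) (nat_lit 4) (nat_lit 313) (nat_lit 282) (nat_lit 185))))) (XT.nd (nat_lit 234) (nat_lit 76) (nat_lit 0) (XT.nd (nat_lit 78) (nat_lit 0) (nat_lit 0) (XT.lf (nat_lit 0) (nat_lit 426796742887) (nat_lit 152) (nat_lit 1471427829111) (nat_lit 0) (nat_lit 141943090366) (nat_lit 5) (nat_lit 5) (nat_lit 7) (nat_lit 4) (nat_lit 5) (nat_lit 4) (nat_lit 314) (nat_lit 282) (nat_lit 184)) (XT.nd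 (nat_lit 78) (nat_lit 0) (nat_lit 0) (XT.lf (nat_lit 0) (nat_lit 851742231166) (nat_lit 152) (nat_lit 895174766398) (nat_lit 0) (nat_lit 566888536802) (nat_lit 5) (nat_lit 5) (nat_lit 7) (nat_lit 4) (nat_lit 5) (nat_lit 4) (nat_lit 315) (nat_lit 282) (nat_lit 183)) (XT.lf (nat_lit 0) (nat_lit 1340429431832) (nat_lit 152) (nat_lit 232483963149) (nat_lit 0) (nat_lit 1055575701083) (nat_lit 5) (nat_lit 5) (nat_lit 7) (nat_lit 4) (nat_lit 5) (nat_lit 4) (nat_lit 316) (nat_lit 282) (nat_lit 182)))) (XT.nd (nat_lit 156) (nat_lit 0) (nat_lit 0) (XT.nd (nat_lit 78) (nat_lit 0) (nat_lit 0) (XT.lf (nat_lit 0) (nat_lit 557498608548) (nat_lit 76) (nat_lit 1358328862598) (nat_lit 76) (nat_lit 1073475100209) (nat_lit 4) (nat_lit 4) (nat_lit 5) (nat_lit 5) (nat_lit 5) (nat_lit 4) (nat_lit 317) (nat_lit 282) (nat_lit 181)) (XT.lf (nat_lit 0) (nat_lit 1480056914317) (nat_lit 76) (nat_lit 1104246734475)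 (nat_lit 76) (nat_lit 819392944573) (nat_lit 4) (nat_lit 4) (nat_lit 5) (nat_lit 5) (nat_lit 5) (nat_lit 4) (nat_lit 318) (nat_lit 282) (nat_lit 180))) (XT.nd (nat_lit 78) (nat_lit 0) (nat_lit 0) (XT.lf (nat_lit 0) (nat_lit 2540998814463) (nat_lit 76) (nat_lit 812052362090) (nat_lit 76) (nat_lit 527198548263) (nat_lit 4) (nat_lit 4) (nat_lit 5) (nat_lit 5) (nat_lit 5) (nat_lit 4) (nat_lit 319) (nat_lit 282) (nat_lit 179)) (XT.lf (nat_lit 0) (nat_lit 3761081867902) (nat_lit 76) (nat_lit 476028899026) (nat_lit 76) (nat_lit 191175064396) (nat_lit 4) (nat_lit 4) (nat_lit 5) (nat_lit 5) (nat_lit 5) (nat_lit 4) (nat_lit 320) (nat_lit 282) (nat_lit 178))))))) (XT.nd (nat_lit 38220) (nat_lit 0) (nat_lit 1140) (XT.nd (nat_lit 37674) (nat_lit 0) (nat_lit 3116) (XT.nd (nat_lit 234) (nat_lit 0) (nat_lit 0) (XT.nd (nat_lit 78) (nat_lit 0) (nat_lit 0) (XT.lf (nat_lit 0) (nat_lit 106270157642) (nat_lit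 76) (nat_lit 81770231955) (nat_lit 152) (nat_lit 4869906839874) (nat_lit 2) (nat_lit 5) (nat_lit 3) (nat_lit 5) (nat_lit 4) (nat_lit 4) (nat_lit 321) (nat_lit 282) (nat_lit 177)) (XT.nd (nat_lit 78) (nat_lit 0) (nat_lit 0) (XT.lf (nat_lit 0) (nat_lit 642007365522) (nat_lit 152) (nat_lit 4759064329237) (nat_lit 0) (nat_lit 378253783623) (nat_lit 2) (nat_lit 5) (nat_lit 4) (nat_lit 4) (nat_lit 2) (nat_lit 4) (nat_lit 322) (nat_lit 282) (nat_lit 176)) (XT.lf (nat_lit 0) (nat_lit 1166330902012) (nat_lit 152) (nat_lit 4539821334044) (nat_lit 0) (nat_lit 902577307448) (nat_lit 2) (nat_lit 5) (nat_lit 4) (nat_lit 4) (nat_lit 2) (nat_lit 4) (nat_lit 323) (nat_lit 282) (nat_lit 175)))) (XT.nd (nat_lit 78) (nat_lit 0) (nat_lit 0) (XT.lf (nat_lit 0) (nat_lit 1769302926999) (nat_lit 152) (nat_lit 4287691973343) (nat_lit 0) (nat_lit 1505549321421) (nat_lit 2) (nat_lit 5) (nat_lit 4) (nat_lit 4) (nat_lit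 2) (nat_lit 4) (nat_lit 324) (nat_lit 282) (nat_lit 174)) (XT.nd (nat_lit 78) (nat_lit 0) (nat_lit 0) (XT.lf (nat_lit 0) (nat_lit 2462720719230) (nat_lit 152) (nat_lit 3997743281380) (nat_lit 0) (nat_lit 2198967104076) (nat_lit 2) (nat_lit 5) (nat_lit 4) (nat_lit 4) (nat_lit 2) (nat_lit 4) (nat_lit 325) (nat_lit 282) (nat_lit 173)) (XT.lf (nat_lit 0) (nat_lit 3260151148554) (nat_lit 152) (nat_lit 3664302348966) (nat_lit 0) (nat_lit 2996397525072) (nat_lit 2) (nat_lit 5) (nat_lit 4) (nat_lit 4) (nat_lit 2) (nat_lit 4) (nat_lit 326) (nat_lit 282) (nat_lit 172))))) (XT.nd (nat_lit 234) (nat_lit 836) (nat_lit 0) (XT.nd (nat_lit 78) (nat_lit 0) (nat_lit 0) (XT.lf (nat_lit 0) (nat_lit 39098220077) (nat_lit 532) (nat_lit 5808105498) (nat_lit 532) (nat_lit 5808105498) (nat_lit 54) (nat_lit 3) (nat_lit 61) (nat_lit 3) (nat_lit 61) (nat_lit 5) (nat_lit 283) (nat_lit 283) (nat_lit 214)) (XT.nd (nat_lit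 78) (nat_lit 0) (nat_lit 76) (XT.lf (nat_lit 76) (nat_lit 82552385604) (nat_lit 0) (nat_lit 3504785992) (nat_lit 532) (nat_lit 22819155954) (nat_lit 55) (nat_lit 5) (nat_lit 54) (nat_lit 3) (nat_lit 61) (nat_lit 5) (nat_lit 284) (nat_lit 283) (nat_lit 213)) (XT.lf (nat_lit 76) (nat_lit 75605122353) (nat_lit 0) (nat_lit 23958050008) (nat_lit 532) (nat_lit 17520451084) (nat_lit 56) (nat_lit 5) (nat_lit 55) (nat_lit 5) (nat_lit 62) (nat_lit 5) (nat_lit 285) (nat_lit 283) (nat_lit 212)))) (XT.nd (nat_lit 156) (nat_lit 532) (nat_lit 0) (XT.nd (nat_lit 78) (nat_lit 456) (nat_lit 0) (XT.lf (nat_lit 76) (nat_lit 69450825733) (nat_lit 0) (nat_lit 50058303403) (nat_lit 532) (nat_lit 6659763119) (nat_lit 57) (nat_lit 5) (nat_lit 56) (nat_lit 5) (nat_lit 63) (nat_lit 5) (nat_lit 286) (nat_lit 283) (nat_lit 211)) (XT.lf (nat_lit 0) (nat_lit 10369837661) (nat_lit 532) (nat_lit 72235512115) (nat_lit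 76) (nat_lit 53613870943) (nat_lit 50) (nat_lit 5) (nat_lit 57) (nat_lit 5) (nat_lit 51) (nat_lit 5) (nat_lit 287) (nat_lit 283) (nat_lit 210))) (XT.nd (nat_lit 78) (nat_lit 228) (nat_lit 0) (XT.lf (nat_lit 0) (nat_lit 34712643768) (nat_lit 380) (nat_lit 88055754239) (nat_lit 76) (nat_lit 24582616277) (nat_lit 46) (nat_lit 5) (nat_lit 51) (nat_lit 5) (nat_lit 47) (nat_lit 5) (nat_lit 288) (nat_lit 283) (nat_lit 209)) (XT.lf (nat_lit 0) (nat_lit 55375221553) (nat_lit 228) (nat_lit 13104574915) (nat_lit 304) (nat_lit 91210948190) (nat_lit 43) (nat_lit 5) (nat_lit 46) (nat_lit 5) (nat_lit 47) (nat_lit 5) (nat_lit 289) (nat_lit 283) (nat_lit 208)))))) (XT.nd (nat_lit 468) (nat_lit 760) (nat_lit 0) (XT.nd (nat_lit 234) (nat_lit 532) (nat_lit 0) (XT.nd (nat_lit 78) (nat_lit 456) (nat_lit 0) (XT.lf (nat_lit 0) (nat_lit 51781514734) (nat_lit 228) (nat_lit 62122887693) (nat_lit 304) (nat_lit 59449643320)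 (nat_lit 40) (nat_lit 5) (nat_lit 43) (nat_lit 5) (nat_lit 44) (nat_lit 5) (nat_lit 290) (nat_lit 283) (nat_lit 207)) (XT.nd (nat_lit 78) (nat_lit 304) (nat_lit 0) (XT.lf (nat_lit 0) (nat_lit 49268303148) (nat_lit 152) (nat_lit 123076719410) (nat_lit 228) (nat_lit 16225634962) (nat_lit 38) (nat_lit 5) (nat_lit 40) (nat_lit 5) (nat_lit 41) (nat_lit 5) (nat_lit 291) (nat_lit 283) (nat_lit 206)) (XT.lf (nat_lit 0) (nat_lit 38497927709) (nat_lit 304) (nat_lit 158649878694) (nat_lit 76) (nat_lit 8322267823) (nat_lit 34) (nat_lit 5) (nat_lit 38) (nat_lit 5) (nat_lit 35) (nat_lit 5) (nat_lit 292) (nat_lit 283) (nat_lit 205)))) (XT.nd (nat_lit 78) (nat_lit 380) (nat_lit 0) (XT.lf (nat_lit 0) (nat_lit 42903913480) (nat_lit 152) (nat_lit 66188704186) (nat_lit 228) (nat_lit 115088204609) (nat_lit 32) (nat_lit 5) (nat_lit 34) (nat_lit 5) (nat_lit 35) (nat_lit 5) (nat_lit 293) (nat_lit 283) (nat_lit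 204)) (XT.nd (nat_lit 78) (nat_lit 228) (nat_lit 0) (XT.lf (nat_lit 0) (nat_lit 38757033227) (nat_lit 152) (nat_lit 159219914078) (nat_lit 228) (nat_lit 47105201173) (nat_lit 30) (nat_lit 5) (nat_lit 32) (nat_lit 5) (nat_lit 33) (nat_lit 5) (nat_lit 294) (nat_lit 283) (nat_lit 203)) (XT.lf (nat_lit 0) (nat_lit 33012528496) (nat_lit 152) (nat_lit 4546871840) (nat_lit 228) (nat_lit 230856392501) (nat_lit 27) (nat_lit 5) (nat_lit 29) (nat_lit 5) (nat_lit 30) (nat_lit 5) (nat_lit 295) (nat_lit 283) (nat_lit 202))))) (XT.nd (nat_lit 234) (nat_lit 456) (nat_lit 0) (XT.nd (nat_lit 78) (nat_lit 152) (nat_lit 0) (XT.lf (nat_lit 0) (nat_lit 21419466618) (nat_lit 152) (nat_lit 121640374417) (nat_lit 228) (nat_lit 151217738265) (nat_lit 25) (nat_lit 5) (nat_lit 27) (nat_lit 5) (nat_lit 28) (nat_lit 5) (nat_lit 296) (nat_lit 283) (nat_lit 201)) (XT.nd (nat_lit 78) (nat_lit 76) (nat_lit 0) (XT.lf (nat_lit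 0) (nat_lit 6311140906) (nat_lit 76) (nat_lit 266633136283) (nat_lit 152) (nat_lit 50389642708) (nat_lit 24) (nat_lit 5) (nat_lit 25) (nat_lit 5) (nat_lit 26) (nat_lit 4) (nat_lit 297) (nat_lit 283) (nat_lit 200)) (XT.lf (nat_lit 0) (nat_lit 73797009647) (nat_lit 152) (nat_lit 17382224308) (nat_lit 76) (nat_lit 264522211134) (nat_lit 23) (nat_lit 5) (nat_lit 25) (nat_lit 5) (nat_lit 24) (nat_lit 5) (nat_lit 298) (nat_lit 283) (nat_lit 199)))) (XT.nd (nat_lit 156) (nat_lit 228) (nat_lit 0) (XT.nd (nat_lit 78) (nat_lit 76) (nat_lit 0) (XT.lf (nat_lit 0) (nat_lit 224870950887) (nat_lit 228) (nat_lit 52096394591) (nat_lit 76) (nat_lit 114952614574) (nat_lit 21) (nat_lit 5) (nat_lit 24) (nat_lit 5) (nat_lit 22) (nat_lit 4) (nat_lit 299) (nat_lit 283) (nat_lit 198)) (XT.lf (nat_lit 0) (nat_lit 332215156152) (nat_lit 76) (nat_lit 77421189241) (nat_lit 152) (nat_lit 23052478212) (nat_lit 20) (nat_lit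 5) (nat_lit 21) (nat_lit 5) (nat_lit 22) (nat_lit 4) (nat_lit 300) (nat_lit 283) (nat_lit 197))) (XT.nd (nat_lit 78) (nat_lit 76) (nat_lit 0) (XT.lf (nat_lit 0) (nat_lit 148402056760) (nat_lit 152) (nat_lit 172646731949) (nat_lit 76) (nat_lit 157210843867) (nat_lit 18) (nat_lit 5) (nat_lit 20) (nat_lit 5) (nat_lit 19) (nat_lit 4) (nat_lit 301) (nat_lit 283) (nat_lit 196)) (XT.lf (nat_lit 0) (nat_lit 258332122986) (nat_lit 76) (nat_lit 97271464485) (nat_lit 152) (nat_lit 174103072033) (nat_lit 17) (nat_lit 5) (nat_lit 18) (nat_lit 5) (nat_lit 19) (nat_lit 4) (nat_lit 302) (nat_lit 283) (nat_lit 195))))))))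
noncomputable def xc49 : XT := (XT.nd (nat_lit 39390) (nat_lit 0) (nat_lit 456) (XT.nd (nat_lit 1014) (nat_lit 228) (nat_lit 0) (XT.nd (nat_lit 468) (nat_lit 456) (nat_lit 0) (XT.nd (nat_lit 234) (nat_lit 228) (nat_lit 0) (XT.nd (nat_lit 78) (nat_lit 76) (nat_lit 0) (XT.lf (nat_lit 0) (nat_lit 18470655735) (nat_lit 152) (nat_lit 407251059210) (nat_lit 76) (nat_lit 162042825636) (nat_lit 15) (nat_lit 5) (nat_lit 17) (nat_lit 5) (nat_lit 16) (nat_lit 4) (nat_lit 303) (nat_lit 283) (nat_lit 194)) (XT.nd (nat_lit 78) (nat_lit 0) (nat_lit 0) (XT.lf (nat_lit 0) (nat_lit 57904554770) (nat_lit 76) (nat_lit 184198718409) (nat_lit 152) (nat_lit 411067524159) (nat_lit 14) (nat_lit 5) (nat_lit 15) (nat_lit 5) (nat_lit 16) (nat_lit 4) (nat_lit 304) (nat_lit 283) (nat_lit 193)) (XT.lf (nat_lit 0) (nat_lit 513695078594) (nat_lit 152) (nat_lit 112502519431) (nat_lit 0) (nat_lit 101037251087) (nat_lit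 14) (nat_lit 5) (nat_lit 16) (nat_lit 4) (nat_lit 14) (nat_lit 4) (nat_lit 305) (nat_lit 283) (nat_lit 192)))) (XT.nd (nat_lit 78) (nat_lit 76) (nat_lit 0) (XT.lf (nat_lit 0) (nat_lit 29528241250) (nat_lit 152) (nat_lit 351239246949) (nat_lit 76) (nat_lit 430287438754) (nat_lit 12) (nat_lit 5) (nat_lit 14) (nat_lit 5) (nat_lit 13) (nat_lit 4) (nat_lit 306) (nat_lit 283) (nat_lit 191)) (XT.nd (nat_lit 78) (nat_lit 0) (nat_lit 0) (XT.lf (nat_lit 0) (nat_lit 222760301592) (nat_lit 76) (nat_lit 82729328481) (nat_lit 152) (nat_lit 600788498475) (nat_lit 11) (nat_lit 5) (nat_lit 12) (nat_lit 5) (nat_lit 13) (nat_lit 4) (nat_lit 307) (nat_lit 283) (nat_lit 190)) (XT.lf (nat_lit 0) (nat_lit 639589924466) (nat_lit 152) (nat_lit 117356358795) (nat_lit 0) (nat_lit 257498951424) (nat_lit 11) (nat_lit 5) (nat_lit 13) (nat_lit 4) (nat_lit 11) (nat_lit 4) (nat_lit 308) (nat_lit 283) (nat_lit 189)))))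 (XT.nd (nat_lit 234) (nat_lit 228) (nat_lit 0) (XT.nd (nat_lit 78) (nat_lit 152) (nat_lit 0) (XT.lf (nat_lit 0) (nat_lit 559425607366) (nat_lit 76) (nat_lit 480121751494) (nat_lit 76) (nat_lit 98030680285) (nat_lit 10) (nat_lit 4) (nat_lit 11) (nat_lit 5) (nat_lit 11) (nat_lit 4) (nat_lit 309) (nat_lit 283) (nat_lit 188)) (XT.nd (nat_lit 78) (nat_lit 0) (nat_lit 0) (XT.lf (nat_lit 0) (nat_lit 63724190491) (nat_lit 76) (nat_lit 150610110980) (nat_lit 152) (nat_lit 1064019544232) (nat_lit 8) (nat_lit 5) (nat_lit 9) (nat_lit 5) (nat_lit 10) (nat_lit 4) (nat_lit 310) (nat_lit 283) (nat_lit 187)) (XT.lf (nat_lit 0) (nat_lit 590675176168) (nat_lit 152) (nat_lit 610646095040) (nat_lit 0) (nat_lit 236886999502) (nat_lit 8) (nat_lit 5) (nat_lit 10) (nat_lit 4) (nat_lit 8) (nat_lit 4) (nat_lit 311) (nat_lit 283) (nat_lit 186)))) (XT.nd (nat_lit 156) (nat_lit 152) (nat_lit 0) (XT.nd (nat_lit 78)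 (nat_lit 0) (nat_lit 0) (XT.lf (nat_lit 0) (nat_lit 83969717156) (nat_lit 76) (nat_lit 945682296143) (nat_lit 76) (nat_lit 591894059712) (nat_lit 7) (nat_lit 4) (nat_lit 8) (nat_lit 5) (nat_lit 8) (nat_lit 4) (nat_lit 312) (nat_lit 283) (nat_lit 185)) (XT.lf (nat_lit 0) (nat_lit 919756513589) (nat_lit 76) (nat_lit 632497033413) (nat_lit 76) (nat_lit 278708745013) (nat_lit 7) (nat_lit 4) (nat_lit 8) (nat_lit 5) (nat_lit 8) (nat_lit 4) (nat_lit 313) (nat_lit 283) (nat_lit 184))) (XT.nd (nat_lit 78) (nat_lit 76) (nat_lit 0) (XT.lf (nat_lit 0) (nat_lit 77379570852) (nat_lit 152) (nat_lit 192838826218) (nat_lit 76) (nat_lit 1801415837968) (nat_lit 6) (nat_lit 5) (nat_lit 8) (nat_lit 5) (nat_lit 7) (nat_lit 4) (nat_lit 314) (nat_lit 283) (nat_lit 183)) (XT.lf (nat_lit 0) (nat_lit 490817447941) (nat_lit 152) (nat_lit 1692139646813) (nat_lit 0) (nat_lit 163235621194) (nat_lit 5) (nat_lit 5) (nat_lit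 7) (nat_lit 4) (nat_lit 5) (nat_lit 4) (nat_lit 315) (nat_lit 283) (nat_lit 182)))))) (XT.nd (nat_lit 468) (nat_lit 152) (nat_lit 0) (XT.nd (nat_lit 234) (nat_lit 0) (nat_lit 0) (XT.nd (nat_lit 78) (nat_lit 76) (nat_lit 0) (XT.lf (nat_lit 0) (nat_lit 979504603773) (nat_lit 152) (nat_lit 1029448932085) (nat_lit 0) (nat_lit 651922745385) (nat_lit 5) (nat_lit 5) (nat_lit 7) (nat_lit 4) (nat_lit 5) (nat_lit 4) (nat_lit 316) (nat_lit 283) (nat_lit 181)) (XT.nd (nat_lit 78) (nat_lit 76) (nat_lit 0) (XT.lf (nat_lit 0) (nat_lit 1541494749157) (nat_lit 152) (nat_lit 267354775644) (nat_lit 0) (nat_lit 1213912863257) (nat_lit 5) (nat_lit 5) (nat_lit 7) (nat_lit 4) (nat_lit 5) (nat_lit 4) (nat_lit 317) (nat_lit 283) (nat_lit 180)) (XT.lf (nat_lit 0) (nat_lit 641125030972) (nat_lit 76) (nat_lit 1562077384901) (nat_lit 76) (nat_lit 1234495475077) (nat_lit 4) (nat_lit 4) (nat_lit 5) (nat_lit 5) (nat_lit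 5) (nat_lit 4) (nat_lit 318) (nat_lit 283) (nat_lit 179)))) (XT.nd (nat_lit 78) (nat_lit 0) (nat_lit 0) (XT.lf (nat_lit 0) (nat_lit 1702066869849) (nat_lit 76) (nat_lit 1269883042832) (nat_lit 76) (nat_lit 942301112204) (nat_lit 4) (nat_lit 4) (nat_lit 5) (nat_lit 5) (nat_lit 5) (nat_lit 4) (nat_lit 319) (nat_lit 283) (nat_lit 178)) (XT.nd (nat_lit 78) (nat_lit 0) (nat_lit 0) (XT.lf (nat_lit 0) (nat_lit 2922149870010) (nat_lit 76) (nat_lit 933859606130) (nat_lit 76) (nat_lit 606277657412) (nat_lit 4) (nat_lit 4) (nat_lit 5) (nat_lit 5) (nat_lit 5) (nat_lit 4) (nat_lit 320) (nat_lit 283) (nat_lit 177)) (XT.lf (nat_lit 0) (nat_lit 4325245220590) (nat_lit 76) (nat_lit 547432703207) (nat_lit 76) (nat_lit 219850738758) (nat_lit 4) (nat_lit 4) (nat_lit 5) (nat_lit 5) (nat_lit 5) (nat_lit 4) (nat_lit 321) (nat_lit 283) (nat_lit 176))))) (XT.nd (nat_lit 234) (nat_lit 0) (nat_lit 0) (XT.nd (nat_lit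 78) (nat_lit 0) (nat_lit 0) (XT.lf (nat_lit 0) (nat_lit 122211689912) (nat_lit 76) (nat_lit 94035265876) (nat_lit 152) (nat_lit 5600392317386) (nat_lit 2) (nat_lit 5) (nat_lit 3) (nat_lit 5) (nat_lit 4) (nat_lit 4) (nat_lit 322) (nat_lit 283) (nat_lit 175)) (XT.nd (nat_lit 78) (nat_lit 0) (nat_lit 0) (XT.lf (nat_lit 0) (nat_lit 738308922348) (nat_lit 152) (nat_lit 5472923076627) (nat_lit 0) (nat_lit 434992264920) (nat_lit 2) (nat_lit 5) (nat_lit 4) (nat_lit 4) (nat_lit 2) (nat_lit 4) (nat_lit 323) (nat_lit 283) (nat_lit 174)) (XT.lf (nat_lit 0) (nat_lit 1341280930356) (nat_lit 152) (nat_lit 5220793749806) (nat_lit 0) (nat_lit 1037964263351) (nat_lit 2) (nat_lit 5) (nat_lit 4) (nat_lit 4) (nat_lit 2) (nat_lit 4) (nat_lit 324) (nat_lit 283) (nat_lit 173)))) (XT.nd (nat_lit 37518) (nat_lit 0) (nat_lit 3952) (XT.nd (nat_lit 37440) (nat_lit 0) (nat_lit 3952) (XT.lf (nat_lit 0) (nat_lit 2034698707824)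 (nat_lit 152) (nat_lit 4930845087306) (nat_lit 0) (nat_lit 1731382032492) (nat_lit 2) (nat_lit 5) (nat_lit 4) (nat_lit 4) (nat_lit 2) (nat_lit 4) (nat_lit 325) (nat_lit 283) (nat_lit 172)) (XT.lf (nat_lit 0) (nat_lit 44973125257) (nat_lit 532) (nat_lit 6673819061) (nat_lit 532) (nat_lit 6673819061) (nat_lit 54) (nat_lit 3) (nat_lit 61) (nat_lit 3) (nat_lit 61) (nat_lit 5) (nat_lit 284) (nat_lit 284) (nat_lit 212))) (XT.nd (nat_lit 78) (nat_lit 0) (nat_lit 76) (XT.lf (nat_lit 76) (nat_lit 94945316490) (nat_lit 0) (nat_lit 4038363831) (nat_lit 532) (nat_lit 26222629407) (nat_lit 55) (nat_lit 5) (nat_lit 54) (nat_lit 3) (nat_lit 61) (nat_lit 5) (nat_lit 285) (nat_lit 284) (nat_lit 211)) (XT.lf (nat_lit 76) (nat_lit 86956626933) (nat_lit 0) (nat_lit 27556709013) (nat_lit 532) (nat_lit 20131547897) (nat_lit 56) (nat_lit 5) (nat_lit 55) (nat_lit 5) (nat_lit 62) (nat_lit 5) (nat_lit 286) (nat_lit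 284) (nat_lit 210))))))) (XT.nd (nat_lit 1014) (nat_lit 1140) (nat_lit 0) (XT.nd (nat_lit 468) (nat_lit 1140) (nat_lit 0) (XT.nd (nat_lit 234) (nat_lit 608) (nat_lit 0) (XT.nd (nat_lit 78) (nat_lit 760) (nat_lit 0) (XT.lf (nat_lit 76) (nat_lit 79879560566) (nat_lit 0) (nat_lit 57569743115) (nat_lit 532) (nat_lit 7643793564) (nat_lit 57) (nat_lit 5) (nat_lit 56) (nat_lit 5) (nat_lit 63) (nat_lit 5) (nat_lit 287) (nat_lit 284) (nat_lit 209)) (XT.nd (nat_lit 78) (nat_lit 304) (nat_lit 0) (XT.lf (nat_lit 0) (nat_lit 11937869906) (nat_lit 532) (nat_lit 83058894957) (nat_lit 76) (nat_lit 61654314763) (nat_lit 50) (nat_lit 5) (nat_lit 57) (nat_lit 5) (nat_lit 51) (nat_lit 5) (nat_lit 288) (nat_lit 284) (nat_lit 208)) (XT.lf (nat_lit 0) (nat_lit 39930716068) (nat_lit 380) (nat_lit 101252266771) (nat_lit 76) (nat_lit 28269772422) (nat_lit 46) (nat_lit 5) (nat_lit 51) (nat_lit 5) (nat_lit 47) (nat_lit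 5) (nat_lit 289) (nat_lit 284) (nat_lit 207)))) (XT.nd (nat_lit 78) (nat_lit 380) (nat_lit 0) (XT.lf (nat_lit 0) (nat_lit 63692352295) (nat_lit 228) (nat_lit 15069392556) (nat_lit 304) (nat_lit 104881798316) (nat_lit 43) (nat_lit 5) (nat_lit 46) (nat_lit 5) (nat_lit 47) (nat_lit 5) (nat_lit 290) (nat_lit 284) (nat_lit 206)) (XT.nd (nat_lit 78) (nat_lit 152) (nat_lit 0) (XT.lf (nat_lit 0) (nat_lit 59559396502) (nat_lit 228) (nat_lit 71439618013) (nat_lit 304) (nat_lit 68357409022) (nat_lit 40) (nat_lit 5) (nat_lit 43) (nat_lit 5) (nat_lit 44) (nat_lit 5) (nat_lit 291) (nat_lit 284) (nat_lit 205)) (XT.lf (nat_lit 0) (nat_lit 56668931197) (nat_lit 152) (nat_lit 141535914164) (nat_lit 228) (nat_lit 18650753985) (nat_lit 38) (nat_lit 5) (nat_lit 40) (nat_lit 5) (nat_lit 41) (nat_lit 5) (nat_lit 292) (nat_lit 284) (nat_lit 204))))) (XT.nd (nat_lit 234) (nat_lit 532) (nat_lit 0) (XT.nd (nat_lit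 78) (nat_lit 304) (nat_lit 0) (XT.lf (nat_lit 0) (nat_lit 44280123012) (nat_lit 304) (nat_lit 182436902153) (nat_lit 76) (nat_lit 9572950645) (nat_lit 34) (nat_lit 5) (nat_lit 38) (nat_lit 5) (nat_lit 35) (nat_lit 5) (nat_lit 293) (nat_lit 284) (nat_lit 203)) (XT.nd (nat_lit 78) (nat_lit 152) (nat_lit 0) (XT.lf (nat_lit 0) (nat_lit 49349073600) (nat_lit 152) (nat_lit 76114194033) (nat_lit 228) (nat_lit 132344129522) (nat_lit 32) (nat_lit 5) (nat_lit 34) (nat_lit 5) (nat_lit 35) (nat_lit 5) (nat_lit 294) (nat_lit 284) (nat_lit 202)) (XT.lf (nat_lit 0) (nat_lit 44579791044) (nat_lit 152) (nat_lit 183099854500) (nat_lit 228) (nat_lit 54164325866) (nat_lit 30) (nat_lit 5) (nat_lit 32) (nat_lit 5) (nat_lit 33) (nat_lit 5) (nat_lit 295) (nat_lit 284) (nat_lit 201)))) (XT.nd (nat_lit 156) (nat_lit 152) (nat_lit 0) (XT.nd (nat_lit 78) (nat_lit 152) (nat_lit 0) (XT.lf (nat_lit 0) (nat_lit 37973142187)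 (nat_lit 152) (nat_lit 5225876132) (nat_lit 228) (nat_lit 265478681295) (nat_lit 27) (nat_lit 5) (nat_lit 29) (nat_lit 5) (nat_lit 30) (nat_lit 5) (nat_lit 296) (nat_lit 284) (nat_lit 200)) (XT.lf (nat_lit 0) (nat_lit 24640738105) (nat_lit 152) (nat_lit 139883306651) (nat_lit 228) (nat_lit 173894748440) (nat_lit 25) (nat_lit 5) (nat_lit 27) (nat_lit 5) (nat_lit 28) (nat_lit 5) (nat_lit 297) (nat_lit 284) (nat_lit 199))) (XT.nd (nat_lit 78) (nat_lit 76) (nat_lit 0) (XT.lf (nat_lit 0) (nat_lit 7265775049) (nat_lit 76) (nat_lit 306624946269) (nat_lit 152) (nat_lit 57942898190) (nat_lit 24) (nat_lit 5) (nat_lit 25) (nat_lit 5) (nat_lit 26) (nat_lit 4) (nat_lit 298) (nat_lit 284) (nat_lit 198)) (XT.lf (nat_lit 0) (nat_lit 84870849140) (nat_lit 152) (nat_lit 19982404443) (nat_lit 76) (nat_lit 304203061869) (nat_lit 23) (nat_lit 5) (nat_lit 25) (nat_lit 5) (nat_lit 24) (nat_lit 5) (nat_lit 299)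 (nat_lit 284) (nat_lit 197)))))) (XT.nd (nat_lit 468) (nat_lit 456) (nat_lit 0) (XT.nd (nat_lit 234) (nat_lit 304) (nat_lit 0) (XT.nd (nat_lit 78) (nat_lit 228) (nat_lit 0) (XT.lf (nat_lit 0) (nat_lit 258605543752) (nat_lit 228) (nat_lit 59904055977) (nat_lit 76) (nat_lit 132198035394) (nat_lit 21) (nat_lit 5) (nat_lit 24) (nat_lit 5) (nat_lit 22) (nat_lit 4) (nat_lit 300) (nat_lit 284) (nat_lit 196)) (XT.nd (nat_lit 78) (nat_lit 152) (nat_lit 0) (XT.lf (nat_lit 0) (nat_lit 382053651977) (nat_lit 76) (nat_lit 89031729857) (nat_lit 152) (nat_lit 26506476002) (nat_lit 20) (nat_lit 5) (nat_lit 21) (nat_lit 5) (nat_lit 22) (nat_lit 4) (nat_lit 301) (nat_lit 284) (nat_lit 195)) (XT.lf (nat_lit 0) (nat_lit 170665767644) (nat_lit 152) (nat_lit 198537658077) (nat_lit 76) (nat_lit 180794877510) (nat_lit 18) (nat_lit 5) (nat_lit 20) (nat_lit 5) (nat_lit 19) (nat_lit 4) (nat_lit 302) (nat_lit 284)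 (nat_lit 194)))) (XT.nd (nat_lit 78) (nat_lit 228) (nat_lit 0) (XT.lf (nat_lit 0) (nat_lit 297087510147) (nat_lit 76) (nat_lit 111859707954) (nat_lit 152) (nat_lit 200215191150) (nat_lit 17) (nat_lit 5) (nat_lit 18) (nat_lit 5) (nat_lit 19) (nat_lit 4) (nat_lit 303) (nat_lit 284) (nat_lit 193)) (XT.nd (nat_lit 78) (nat_lit 76) (nat_lit 0) (XT.lf (nat_lit 0) (nat_lit 21244197739) (nat_lit 152) (nat_lit 468333290730) (nat_lit 76) (nat_lit 186351496278) (nat_lit 15) (nat_lit 5) (nat_lit 17) (nat_lit 5) (nat_lit 16) (nat_lit 4) (nat_lit 304) (nat_lit 284) (nat_lit 192)) (XT.lf (nat_lit 0) (nat_lit 66595205948) (nat_lit 76) (nat_lit 211826237378) (nat_lit 152) (nat_lit 472724758035) (nat_lit 14) (nat_lit 5) (nat_lit 15) (nat_lit 5) (nat_lit 16) (nat_lit 4) (nat_lit 305) (nat_lit 284) (nat_lit 191))))) (XT.nd (nat_lit 234) (nat_lit 228) (nat_lit 0) (XT.nd (nat_lit 78) (nat_lit 228) (nat_lit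 0) (XT.lf (nat_lit 0) (nat_lit 590751717962) (nat_lit 152) (nat_lit 129373437785) (nat_lit 0) (nat_lit 116194729444) (nat_lit 14) (nat_lit 5) (nat_lit 16) (nat_lit 4) (nat_lit 14) (nat_lit 4) (nat_lit 306) (nat_lit 284) (nat_lit 190)) (XT.nd (nat_lit 78) (nat_lit 76) (nat_lit 0) (XT.lf (nat_lit 0) (nat_lit 33959700215) (nat_lit 152) (nat_lit 403920933992) (nat_lit 76) (nat_lit 494832353096) (nat_lit 12) (nat_lit 5) (nat_lit 14) (nat_lit 5) (nat_lit 13) (nat_lit 4) (nat_lit 307) (nat_lit 284) (nat_lit 189)) (XT.lf (nat_lit 0) (nat_lit 256178191322) (nat_lit 76) (nat_lit 95136908573) (nat_lit 152) (nat_lit 690904585154) (nat_lit 11) (nat_lit 5) (nat_lit 12) (nat_lit 5) (nat_lit 13) (nat_lit 4) (nat_lit 308) (nat_lit 284) (nat_lit 188)))) (XT.nd (nat_lit 156) (nat_lit 152) (nat_lit 0) (XT.nd (nat_lit 78) (nat_lit 76) (nat_lit 0) (XT.lf (nat_lit 0) (nat_lit 735530212320) (nat_lit 152) (nat_lit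 134956366073) (nat_lit 0) (nat_lit 296125296901) (nat_lit 11) (nat_lit 5) (nat_lit 13) (nat_lit 4) (nat_lit 11) (nat_lit 4) (nat_lit 309) (nat_lit 284) (nat_lit 187)) (XT.lf (nat_lit 0) (nat_lit 643342603279) (nat_lit 76) (nat_lit 552138499791) (nat_lit 76) (nat_lit 112733510144) (nat_lit 10) (nat_lit 4) (nat_lit 11) (nat_lit 5) (nat_lit 11) (nat_lit 4) (nat_lit 310) (nat_lit 284) (nat_lit 186))) (XT.nd (nat_lit 78) (nat_lit 0) (nat_lit 0) (XT.lf (nat_lit 0) (nat_lit 73285788468) (nat_lit 76) (nat_lit 173200193580) (nat_lit 152) (nat_lit 1223620817222) (nat_lit 8) (nat_lit 5) (nat_lit 9) (nat_lit 5) (nat_lit 10) (nat_lit 4) (nat_lit 311) (nat_lit 284) (nat_lit 185)) (XT.lf (nat_lit 0) (nat_lit 679277817675) (nat_lit 152) (nat_lit 702240349989) (nat_lit 0) (nat_lit 272421234045) (nat_lit 8) (nat_lit 5) (nat_lit 10) (nat_lit 4) (nat_lit 8) (nat_lit 4) (nat_lit 312) (nat_lit 284) (nat_lit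 184))))))))
noncomputable def xc50 : XT := (XT.nd (nat_lit 39390) (nat_lit 0) (nat_lit 152) (XT.nd (nat_lit 936) (nat_lit 0) (nat_lit 0) (XT.nd (nat_lit 468) (nat_lit 228) (nat_lit 0) (XT.nd (nat_lit 234) (nat_lit 76) (nat_lit 0) (XT.nd (nat_lit 78) (nat_lit 76) (nat_lit 0) (XT.lf (nat_lit 0) (nat_lit 96567608940) (nat_lit 76) (nat_lit 1087533451925) (nat_lit 76) (nat_lit 680676823104) (nat_lit 7) (nat_lit 4) (nat_lit 8) (nat_lit 5) (nat_lit 8) (nat_lit 4) (nat_lit 313) (nat_lit 284) (nat_lit 183)) (XT.nd (nat_lit 78) (nat_lit 76) (nat_lit 0) (XT.lf (nat_lit 0) (nat_lit 1057722107332) (nat_lit 76) (nat_lit 727370554825) (nat_lit 76) (nat_lit 320513886708) (nat_lit 7) (nat_lit 4) (nat_lit 8) (nat_lit 5) (nat_lit 8) (nat_lit 4) (nat_lit 314) (nat_lit 284) (nat_lit 182)) (XT.lf (nat_lit 0) (nat_lit 88987473024) (nat_lit 152) (nat_lit 221762758397) (nat_lit 76) (nat_lit 2071629061305) (nat_lit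 6) (nat_lit 5) (nat_lit 8) (nat_lit 5) (nat_lit 7) (nat_lit 4) (nat_lit 315) (nat_lit 284) (nat_lit 181)))) (XT.nd (nat_lit 78) (nat_lit 0) (nat_lit 0) (XT.lf (nat_lit 0) (nat_lit 564440967682) (nat_lit 152) (nat_lit 1945958811858) (nat_lit 0) (nat_lit 187721771384) (nat_lit 5) (nat_lit 5) (nat_lit 7) (nat_lit 4) (nat_lit 5) (nat_lit 4) (nat_lit 316) (nat_lit 284) (nat_lit 180)) (XT.nd (nat_lit 78) (nat_lit 0) (nat_lit 0) (XT.lf (nat_lit 0) (nat_lit 1126431079164) (nat_lit 152) (nat_lit 1183864722352) (nat_lit 0) (nat_lit 749711858942) (nat_lit 5) (nat_lit 5) (nat_lit 7) (nat_lit 4) (nat_lit 5) (nat_lit 4) (nat_lit 317) (nat_lit 284) (nat_lit 179)) (XT.lf (nat_lit 0) (nat_lit 1772719643987) (nat_lit 152) (nat_lit 307456644561) (nat_lit 0) (nat_lit 1396000402962) (nat_lit 5) (nat_lit 5) (nat_lit 7) (nat_lit 4) (nat_lit 5) (nat_lit 4) (nat_lit 318) (nat_lit 284) (nat_lit 178))))) (XT.nd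 (nat_lit 234) (nat_lit 152) (nat_lit 0) (XT.nd (nat_lit 78) (nat_lit 0) (nat_lit 0) (XT.lf (nat_lit 0) (nat_lit 737295018995) (nat_lit 76) (nat_lit 1796388382363) (nat_lit 76) (nat_lit 1419669123247) (nat_lit 4) (nat_lit 4) (nat_lit 5) (nat_lit 5) (nat_lit 5) (nat_lit 4) (nat_lit 319) (nat_lit 284) (nat_lit 177)) (XT.nd (nat_lit 78) (nat_lit 0) (nat_lit 0) (XT.lf (nat_lit 0) (nat_lit 1957377972828) (nat_lit 76) (nat_lit 1460364968584) (nat_lit 76) (nat_lit 1083645693738) (nat_lit 4) (nat_lit 4) (nat_lit 5) (nat_lit 5) (nat_lit 5) (nat_lit 4) (nat_lit 320) (nat_lit 284) (nat_lit 176)) (XT.lf (nat_lit 0) (nat_lit 3360473283122) (nat_lit 76) (nat_lit 1073938085594) (nat_lit 76) (nat_lit 697218797070) (nat_lit 4) (nat_lit 4) (nat_lit 5) (nat_lit 5) (nat_lit 5) (nat_lit 4) (nat_lit 321) (nat_lit 284) (nat_lit 175)))) (XT.nd (nat_lit 78) (nat_lit 152) (nat_lit 0) (XT.lf (nat_lit 0) (nat_lit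 4974032814644) (nat_lit 76) (nat_lit 629547207423) (nat_lit 76) (nat_lit 252827907004) (nat_lit 4) (nat_lit 4) (nat_lit 5) (nat_lit 5) (nat_lit 5) (nat_lit 4) (nat_lit 322) (nat_lit 284) (nat_lit 174)) (XT.nd (nat_lit 78) (nat_lit 0) (nat_lit 0) (XT.lf (nat_lit 0) (nat_lit 140544206063) (nat_lit 76) (nat_lit 108140177026) (nat_lit 152) (nat_lit 6440450750273) (nat_lit 2) (nat_lit 5) (nat_lit 3) (nat_lit 5) (nat_lit 4) (nat_lit 4) (nat_lit 323) (nat_lit 284) (nat_lit 173)) (XT.lf (nat_lit 0) (nat_lit 849055602475) (nat_lit 152) (nat_lit 6293860856082) (nat_lit 0) (nat_lit 500241417515) (nat_lit 2) (nat_lit 5) (nat_lit 4) (nat_lit 4) (nat_lit 2) (nat_lit 4) (nat_lit 324) (nat_lit 284) (nat_lit 172)))))) (XT.nd (nat_lit 37908) (nat_lit 0) (nat_lit 2128) (XT.nd (nat_lit 37674) (nat_lit 0) (nat_lit 3648) (XT.nd (nat_lit 37518) (nat_lit 0) (nat_lit 3952) (XT.lf (nat_lit 0) (nat_lit 1542473367105)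 (nat_lit 152) (nat_lit 6003912219200) (nat_lit 0) (nat_lit 1193659174904) (nat_lit 2) (nat_lit 5) (nat_lit 4) (nat_lit 4) (nat_lit 2) (nat_lit 4) (nat_lit 325) (nat_lit 284) (nat_lit 171)) (XT.nd (nat_lit 78) (nat_lit 0) (nat_lit 0) (XT.lf (nat_lit 0) (nat_lit 51726785667) (nat_lit 532) (nat_lit 7670731419) (nat_lit 532) (nat_lit 7670731419) (nat_lit 54) (nat_lit 3) (nat_lit 61) (nat_lit 3) (nat_lit 61) (nat_lit 5) (nat_lit 285) (nat_lit 285) (nat_lit 210)) (XT.lf (nat_lit 76) (nat_lit 109194730633) (nat_lit 0) (nat_lit 4650061649) (nat_lit 532) (nat_lit 30141354676) (nat_lit 55) (nat_lit 5) (nat_lit 54) (nat_lit 3) (nat_lit 61) (nat_lit 5) (nat_lit 286) (nat_lit 285) (nat_lit 209)))) (XT.nd (nat_lit 78) (nat_lit 380) (nat_lit 0) (XT.lf (nat_lit 76) (nat_lit 100008239104) (nat_lit 0) (nat_lit 31693959414) (nat_lit 532) (nat_lit 23138447680) (nat_lit 56) (nat_lit 5) (nat_lit 55) (nat_lit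 5) (nat_lit 62) (nat_lit 5) (nat_lit 287) (nat_lit 285) (nat_lit 208)) (XT.nd (nat_lit 78) (nat_lit 456) (nat_lit 0) (XT.lf (nat_lit 76) (nat_lit 91869896142) (nat_lit 0) (nat_lit 66207241785) (nat_lit 532) (nat_lit 8779070332) (nat_lit 57) (nat_lit 5) (nat_lit 56) (nat_lit 5) (nat_lit 63) (nat_lit 5) (nat_lit 288) (nat_lit 285) (nat_lit 207)) (XT.lf (nat_lit 0) (nat_lit 13738044981) (nat_lit 532) (nat_lit 95508697840) (nat_lit 76) (nat_lit 70901224305) (nat_lit 50) (nat_lit 5) (nat_lit 57) (nat_lit 5) (nat_lit 51) (nat_lit 5) (nat_lit 289) (nat_lit 285) (nat_lit 206))))) (XT.nd (nat_lit 234) (nat_lit 760) (nat_lit 0) (XT.nd (nat_lit 78) (nat_lit 456) (nat_lit 0) (XT.lf (nat_lit 0) (nat_lit 45928773939) (nat_lit 380) (nat_lit 116431146027) (nat_lit 76) (nat_lit 32510059611) (nat_lit 46) (nat_lit 5) (nat_lit 51) (nat_lit 5) (nat_lit 47) (nat_lit 5) (nat_lit 290) (nat_lit 285) (nat_lit 205))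 (XT.nd (nat_lit 78) (nat_lit 228) (nat_lit 0) (XT.lf (nat_lit 0) (nat_lit 73254407415) (nat_lit 228) (nat_lit 17329144655) (nat_lit 304) (nat_lit 120605907684) (nat_lit 43) (nat_lit 5) (nat_lit 46) (nat_lit 5) (nat_lit 47) (nat_lit 5) (nat_lit 291) (nat_lit 285) (nat_lit 204)) (XT.lf (nat_lit 0) (nat_lit 68501362353) (nat_lit 228) (nat_lit 82154273127) (nat_lit 304) (nat_lit 78603700302) (nat_lit 40) (nat_lit 5) (nat_lit 43) (nat_lit 5) (nat_lit 44) (nat_lit 5) (nat_lit 292) (nat_lit 285) (nat_lit 203)))) (XT.nd (nat_lit 156) (nat_lit 304) (nat_lit 0) (XT.nd (nat_lit 78) (nat_lit 304) (nat_lit 0) (XT.lf (nat_lit 0) (nat_lit 65177121597) (nat_lit 152) (nat_lit 162764552210) (nat_lit 228) (nat_lit 21441768806) (nat_lit 38) (nat_lit 5) (nat_lit 40) (nat_lit 5) (nat_lit 41) (nat_lit 5) (nat_lit 293) (nat_lit 285) (nat_lit 202)) (XT.lf (nat_lit 0) (nat_lit 50927817190) (nat_lit 304) (nat_lit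 209794529464) (nat_lit 76) (nat_lit 11010664622) (nat_lit 34) (nat_lit 5) (nat_lit 38) (nat_lit 5) (nat_lit 35) (nat_lit 5) (nat_lit 294) (nat_lit 285) (nat_lit 201))) (XT.nd (nat_lit 78) (nat_lit 152) (nat_lit 0) (XT.lf (nat_lit 0) (nat_lit 56758673278) (nat_lit 152) (nat_lit 87529194004) (nat_lit 228) (nat_lit 152190224732) (nat_lit 32) (nat_lit 5) (nat_lit 34) (nat_lit 5) (nat_lit 35) (nat_lit 5) (nat_lit 295) (nat_lit 285) (nat_lit 200)) (XT.lf (nat_lit 0) (nat_lit 51273718364) (nat_lit 152) (nat_lit 210562528941) (nat_lit 228) (nat_lit 62283942244) (nat_lit 30) (nat_lit 5) (nat_lit 32) (nat_lit 5) (nat_lit 33) (nat_lit 5) (nat_lit 296) (nat_lit 285) (nat_lit 199))))))) (XT.nd (nat_lit 1014) (nat_lit 532) (nat_lit 0) (XT.nd (nat_lit 468) (nat_lit 684) (nat_lit 0) (XT.nd (nat_lit 234) (nat_lit 304) (nat_lit 0) (XT.nd (nat_lit 78) (nat_lit 228) (nat_lit 0) (XT.lf (nat_lit 0) (nat_lit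 43675717988) (nat_lit 152) (nat_lit 6007469096) (nat_lit 228) (nat_lit 305295818023) (nat_lit 27) (nat_lit 5) (nat_lit 29) (nat_lit 5) (nat_lit 30) (nat_lit 5) (nat_lit 297) (nat_lit 285) (nat_lit 198)) (XT.nd (nat_lit 78) (nat_lit 76) (nat_lit 0) (XT.lf (nat_lit 0) (nat_lit 28343163751) (nat_lit 152) (nat_lit 160863440509) (nat_lit 228) (nat_lit 199974688066) (nat_lit 25) (nat_lit 5) (nat_lit 27) (nat_lit 5) (nat_lit 28) (nat_lit 5) (nat_lit 298) (nat_lit 285) (nat_lit 197)) (XT.lf (nat_lit 0) (nat_lit 8361662483) (nat_lit 76) (nat_lit 352616298451) (nat_lit 152) (nat_lit 66630407834) (nat_lit 24) (nat_lit 5) (nat_lit 25) (nat_lit 5) (nat_lit 26) (nat_lit 4) (nat_lit 299) (nat_lit 285) (nat_lit 196)))) (XT.nd (nat_lit 78) (nat_lit 228) (nat_lit 0) (XT.lf (nat_lit 0) (nat_lit 97604718890) (nat_lit 152) (nat_lit 22974356027) (nat_lit 76) (nat_lit 349835425924) (nat_lit 23) (nat_lit 5) (nat_lit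 25) (nat_lit 5) (nat_lit 24) (nat_lit 5) (nat_lit 300) (nat_lit 285) (nat_lit 195)) (XT.nd (nat_lit 78) (nat_lit 76) (nat_lit 0) (XT.lf (nat_lit 0) (nat_lit 297399362257) (nat_lit 228) (nat_lit 68884524258) (nat_lit 76) (nat_lit 152029652713) (nat_lit 21) (nat_lit 5) (nat_lit 24) (nat_lit 5) (nat_lit 22) (nat_lit 4) (nat_lit 301) (nat_lit 285) (nat_lit 194)) (XT.lf (nat_lit 0) (nat_lit 439366404804) (nat_lit 76) (nat_lit 102384494803) (nat_lit 152) (nat_lit 30479518146) (nat_lit 20) (nat_lit 5) (nat_lit 21) (nat_lit 5) (nat_lit 22) (nat_lit 4) (nat_lit 302) (nat_lit 285) (nat_lit 193))))) (XT.nd (nat_lit 234) (nat_lit 304) (nat_lit 0) (XT.nd (nat_lit 78) (nat_lit 228) (nat_lit 0) (XT.lf (nat_lit 0) (nat_lit 196268205471) (nat_lit 152) (nat_lit 228313706663) (nat_lit 76) (nat_lit 207915929221) (nat_lit 18) (nat_lit 5) (nat_lit 20) (nat_lit 5) (nat_lit 19) (nat_lit 4) (nat_lit 303) (nat_lit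 285) (nat_lit 192)) (XT.nd (nat_lit 78) (nat_lit 152) (nat_lit 0) (XT.lf (nat_lit 0) (nat_lit 341654847417) (nat_lit 76) (nat_lit 128636791782) (nat_lit 152) (nat_lit 230244943027) (nat_lit 17) (nat_lit 5) (nat_lit 18) (nat_lit 5) (nat_lit 19) (nat_lit 4) (nat_lit 304) (nat_lit 285) (nat_lit 191)) (XT.lf (nat_lit 0) (nat_lit 24433053217) (nat_lit 152) (nat_lit 538579180474) (nat_lit 76) (nat_lit 214305919620) (nat_lit 15) (nat_lit 5) (nat_lit 17) (nat_lit 5) (nat_lit 16) (nat_lit 4) (nat_lit 305) (nat_lit 285) (nat_lit 190)))) (XT.nd (nat_lit 156) (nat_lit 228) (nat_lit 0) (XT.nd (nat_lit 78) (nat_lit 0) (nat_lit 0) (XT.lf (nat_lit 0) (nat_lit 76588243334) (nat_lit 76) (nat_lit 243598442328) (nat_lit 152) (nat_lit 543631282895) (nat_lit 14) (nat_lit 5) (nat_lit 15) (nat_lit 5) (nat_lit 16) (nat_lit 4) (nat_lit 306) (nat_lit 285) (nat_lit 189)) (XT.lf (nat_lit 0) (nat_lit 679366273447)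 (nat_lit 152) (nat_lit 148776081384) (nat_lit 0) (nat_lit 133625368497) (nat_lit 14) (nat_lit 5) (nat_lit 16) (nat_lit 4) (nat_lit 14) (nat_lit 4) (nat_lit 307) (nat_lit 285) (nat_lit 188))) (XT.nd (nat_lit 78) (nat_lit 76) (nat_lit 0) (XT.lf (nat_lit 0) (nat_lit 39055335987) (nat_lit 152) (nat_lit 464505898287) (nat_lit 76) (nat_lit 569058566007) (nat_lit 12) (nat_lit 5) (nat_lit 14) (nat_lit 5) (nat_lit 13) (nat_lit 4) (nat_lit 308) (nat_lit 285) (nat_lit 187)) (XT.lf (nat_lit 0) (nat_lit 294607827008) (nat_lit 76) (nat_lit 109406069297) (nat_lit 152) (nat_lit 794538618415) (nat_lit 11) (nat_lit 5) (nat_lit 12) (nat_lit 5) (nat_lit 13) (nat_lit 4) (nat_lit 309) (nat_lit 285) (nat_lit 186)))))) (XT.nd (nat_lit 468) (nat_lit 228) (nat_lit 0) (XT.nd (nat_lit 234) (nat_lit 76) (nat_lit 0) (XT.nd (nat_lit 78) (nat_lit 228) (nat_lit 0) (XT.lf (nat_lit 0) (nat_lit 845861104610) (nat_lit 152)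 (nat_lit 155197214904) (nat_lit 0) (nat_lit 340545227741) (nat_lit 11) (nat_lit 5) (nat_lit 13) (nat_lit 4) (nat_lit 11) (nat_lit 4) (nat_lit 310) (nat_lit 285) (nat_lit 185)) (XT.nd (nat_lit 78) (nat_lit 152) (nat_lit 0) (XT.lf (nat_lit 0) (nat_lit 739846379259) (nat_lit 76) (nat_lit 634958129635) (nat_lit 76) (nat_lit 129642196639) (nat_lit 10) (nat_lit 4) (nat_lit 11) (nat_lit 5) (nat_lit 11) (nat_lit 4) (nat_lit 311) (nat_lit 285) (nat_lit 184)) (XT.lf (nat_lit 0) (nat_lit 84280902033) (nat_lit 76) (nat_lit 199179138271) (nat_lit 152) (nat_lit 1407162685632) (nat_lit 8) (nat_lit 5) (nat_lit 9) (nat_lit 5) (nat_lit 10) (nat_lit 4) (nat_lit 312) (nat_lit 285) (nat_lit 183)))) (XT.nd (nat_lit 78) (nat_lit 76) (nat_lit 0) (XT.lf (nat_lit 0) (nat_lit 781170522524) (nat_lit 152) (nat_lit 807574391669) (nat_lit 0) (nat_lit 313285314893) (nat_lit 8) (nat_lit 5) (nat_lit 10) (nat_lit 4) (nat_lit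 8) (nat_lit 4) (nat_lit 313) (nat_lit 285) (nat_lit 182)) (XT.nd (nat_lit 78) (nat_lit 0) (nat_lit 0) (XT.lf (nat_lit 0) (nat_lit 111054590894) (nat_lit 76) (nat_lit 1250662570931) (nat_lit 76) (nat_lit 782777329129) (nat_lit 7) (nat_lit 4) (nat_lit 8) (nat_lit 5) (nat_lit 8) (nat_lit 4) (nat_lit 314) (nat_lit 285) (nat_lit 181)) (XT.lf (nat_lit 0) (nat_lit 1216382023965) (nat_lit 76) (nat_lit 836475356499) (nat_lit 76) (nat_lit 368590084984) (nat_lit 7) (nat_lit 4) (nat_lit 8) (nat_lit 5) (nat_lit 8) (nat_lit 4) (nat_lit 315) (nat_lit 285) (nat_lit 180))))) (XT.nd (nat_lit 234) (nat_lit 76) (nat_lit 0) (XT.nd (nat_lit 78) (nat_lit 76) (nat_lit 0) (XT.lf (nat_lit 0) (nat_lit 102336324823) (nat_lit 152) (nat_lit 255025741720) (nat_lit 76) (nat_lit 2382374061440) (nat_lit 6) (nat_lit 5) (nat_lit 8) (nat_lit 5) (nat_lit 7) (nat_lit 4) (nat_lit 316) (nat_lit 285) (nat_lit 179)) (XT.nd (nat_lit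 78) (nat_lit 0) (nat_lit 0) (XT.lf (nat_lit 0) (nat_lit 649107795291) (nat_lit 152) (nat_lit 2237851286206) (nat_lit 0) (nat_lit 215880647308) (nat_lit 5) (nat_lit 5) (nat_lit 7) (nat_lit 4) (nat_lit 5) (nat_lit 4) (nat_lit 317) (nat_lit 285) (nat_lit 178)) (XT.lf (nat_lit 0) (nat_lit 1295396334480) (nat_lit 152) (nat_lit 1361443259027) (nat_lit 0) (nat_lit 862169168407) (nat_lit 5) (nat_lit 5) (nat_lit 7) (nat_lit 4) (nat_lit 5) (nat_lit 4) (nat_lit 318) (nat_lit 285) (nat_lit 177)))) (XT.nd (nat_lit 156) (nat_lit 0) (nat_lit 0) (XT.nd (nat_lit 78) (nat_lit 76) (nat_lit 0) (XT.lf (nat_lit 0) (nat_lit 2038628106621) (nat_lit 152) (nat_lit 353574122394) (nat_lit 0) (nat_lit 1605400924817) (nat_lit 5) (nat_lit 5) (nat_lit 7) (nat_lit 4) (nat_lit 5) (nat_lit 4) (nat_lit 319) (nat_lit 285) (nat_lit 176)) (XT.lf (nat_lit 0) (nat_lit 847890204455) (nat_lit 76) (nat_lit 2065846178263) (nat_lit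 76) (nat_lit 1632618982780) (nat_lit 4) (nat_lit 4) (nat_lit 5) (nat_lit 5) (nat_lit 5) (nat_lit 4) (nat_lit 320) (nat_lit 285) (nat_lit 175))) (XT.nd (nat_lit 78) (nat_lit 0) (nat_lit 0) (XT.lf (nat_lit 0) (nat_lit 2250985479718) (nat_lit 76) (nat_lit 1679419312607) (nat_lit 76) (nat_lit 1246192105230) (nat_lit 4) (nat_lit 4) (nat_lit 5) (nat_lit 5) (nat_lit 5) (nat_lit 4) (nat_lit 321) (nat_lit 285) (nat_lit 174)) (XT.lf (nat_lit 0) (nat_lit 3864544980778) (nat_lit 76) (nat_lit 1235028449508) (nat_lit 76) (nat_lit 801801231788) (nat_lit 4) (nat_lit 4) (nat_lit 5) (nat_lit 5) (nat_lit 5) (nat_lit 4) (nat_lit 322) (nat_lit 285) (nat_lit 173))))))))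
noncomputable def xc51 : XT := (XT.nd (nat_lit 39546) (nat_lit 0) (nat_lit 0) (XT.nd (nat_lit 38532) (nat_lit 0) (nat_lit 912) (XT.nd (nat_lit 37986) (nat_lit 0) (nat_lit 2432) (XT.nd (nat_lit 37752) (nat_lit 0) (nat_lit 3952) (XT.nd (nat_lit 78) (nat_lit 152) (nat_lit 0) (XT.lf (nat_lit 0) (nat_lit 5720138350047) (nat_lit 76) (nat_lit 723978985123) (nat_lit 76) (nat_lit 290751758409) (nat_lit 4) (nat_lit 4) (nat_lit 5) (nat_lit 5) (nat_lit 5) (nat_lit 4) (nat_lit 323) (nat_lit 285) (nat_lit 172)) (XT.nd (nat_lit 78) (nat_lit 0) (nat_lit 0) (XT.lf (nat_lit 0) (nat_lit 161626413656) (nat_lit 76) (nat_lit 124360917204) (nat_lit 152) (nat_lit 7406518049225) (nat_lit 2) (nat_lit 5) (nat_lit 3) (nat_lit 5) (nat_lit 4) (nat_lit 4) (nat_lit 324) (nat_lit 285) (nat_lit 171)) (XT.lf (nat_lit 0) (nat_lit 976414201278) (nat_lit 152) (nat_lit 7237939468775) (nat_lit 0) (nat_lit 575277866708) (nat_lit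 2) (nat_lit 5) (nat_lit 4) (nat_lit 4) (nat_lit 2) (nat_lit 4) (nat_lit 325) (nat_lit 285) (nat_lit 170)))) (XT.nd (nat_lit 78) (nat_lit 0) (nat_lit 0) (XT.lf (nat_lit 0) (nat_lit 59491619488) (nat_lit 532) (nat_lit 8818195196) (nat_lit 532) (nat_lit 8818195196) (nat_lit 54) (nat_lit 3) (nat_lit 61) (nat_lit 3) (nat_lit 61) (nat_lit 5) (nat_lit 286) (nat_lit 286) (nat_lit 208)) (XT.nd (nat_lit 78) (nat_lit 0) (nat_lit 76) (XT.lf (nat_lit 76) (nat_lit 125579699525) (nat_lit 0) (nat_lit 5352064843) (nat_lit 532) (nat_lit 34651465899) (nat_lit 55) (nat_lit 5) (nat_lit 54) (nat_lit 3) (nat_lit 61) (nat_lit 5) (nat_lit 287) (nat_lit 286) (nat_lit 207)) (XT.lf (nat_lit 76) (nat_lit 115015613443) (nat_lit 0) (nat_lit 36450884364) (nat_lit 532) (nat_lit 26599511693) (nat_lit 56) (nat_lit 5) (nat_lit 55) (nat_lit 5) (nat_lit 62) (nat_lit 5) (nat_lit 288) (nat_lit 286) (nat_lit 206))))) (XT.nd (nat_lit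 234) (nat_lit 912) (nat_lit 0) (XT.nd (nat_lit 78) (nat_lit 760) (nat_lit 0) (XT.lf (nat_lit 76) (nat_lit 105656733298) (nat_lit 0) (nat_lit 76139868471) (nat_lit 532) (nat_lit 10087392306) (nat_lit 57) (nat_lit 5) (nat_lit 56) (nat_lit 5) (nat_lit 63) (nat_lit 5) (nat_lit 289) (nat_lit 286) (nat_lit 205)) (XT.nd (nat_lit 78) (nat_lit 304) (nat_lit 0) (XT.lf (nat_lit 0) (nat_lit 15805931003) (nat_lit 532) (nat_lit 109828173510) (nat_lit 76) (nat_lit 81535472092) (nat_lit 50) (nat_lit 5) (nat_lit 57) (nat_lit 5) (nat_lit 51) (nat_lit 5) (nat_lit 290) (nat_lit 286) (nat_lit 204)) (XT.lf (nat_lit 0) (nat_lit 52824479792) (nat_lit 380) (nat_lit 133889042310) (nat_lit 76) (nat_lit 37386433449) (nat_lit 46) (nat_lit 5) (nat_lit 51) (nat_lit 5) (nat_lit 47) (nat_lit 5) (nat_lit 291) (nat_lit 286) (nat_lit 203)))) (XT.nd (nat_lit 156) (nat_lit 456) (nat_lit 0) (XT.nd (nat_lit 78) (nat_lit 228)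 (nat_lit 0) (XT.lf (nat_lit 0) (nat_lit 84248770627) (nat_lit 228) (nat_lit 19928019730) (nat_lit 304) (nat_lit 138690623417) (nat_lit 43) (nat_lit 5) (nat_lit 46) (nat_lit 5) (nat_lit 47) (nat_lit 5) (nat_lit 292) (nat_lit 286) (nat_lit 202)) (XT.lf (nat_lit 0) (nat_lit 78782658484) (nat_lit 228) (nat_lit 94476440495) (nat_lit 304) (nat_lit 90388720320) (nat_lit 40) (nat_lit 5) (nat_lit 43) (nat_lit 5) (nat_lit 44) (nat_lit 5) (nat_lit 293) (nat_lit 286) (nat_lit 201))) (XT.nd (nat_lit 78) (nat_lit 304) (nat_lit 0) (XT.lf (nat_lit 0) (nat_lit 74959626108) (nat_lit 152) (nat_lit 187177912486) (nat_lit 228) (nat_lit 24653044881) (nat_lit 38) (nat_lit 5) (nat_lit 40) (nat_lit 5) (nat_lit 41) (nat_lit 5) (nat_lit 294) (nat_lit 286) (nat_lit 200)) (XT.lf (nat_lit 0) (nat_lit 58571281433) (nat_lit 304) (nat_lit 241257729291) (nat_lit 76) (nat_lit 12663603732) (nat_lit 34) (nat_lit 5) (nat_lit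 38) (nat_lit 5) (nat_lit 35) (nat_lit 5) (nat_lit 295) (nat_lit 286) (nat_lit 199)))))) (XT.nd (nat_lit 468) (nat_lit 684) (nat_lit 0) (XT.nd (nat_lit 234) (nat_lit 304) (nat_lit 0) (XT.nd (nat_lit 78) (nat_lit 380) (nat_lit 0) (XT.lf (nat_lit 0) (nat_lit 65277947720) (nat_lit 152) (nat_lit 100656963172) (nat_lit 228) (nat_lit 175014581339) (nat_lit 32) (nat_lit 5) (nat_lit 34) (nat_lit 5) (nat_lit 35) (nat_lit 5) (nat_lit 296) (nat_lit 286) (nat_lit 198)) (XT.nd (nat_lit 78) (nat_lit 228) (nat_lit 0) (XT.lf (nat_lit 0) (nat_lit 58970037868) (nat_lit 152) (nat_lit 242145166328) (nat_lit 228) (nat_lit 71622728286) (nat_lit 30) (nat_lit 5) (nat_lit 32) (nat_lit 5) (nat_lit 33) (nat_lit 5) (nat_lit 297) (nat_lit 286) (nat_lit 197)) (XT.lf (nat_lit 0) (nat_lit 50232069617) (nat_lit 152) (nat_lit 6906859058) (nat_lit 228) (nat_lit 351086662963) (nat_lit 27) (nat_lit 5) (nat_lit 29) (nat_lit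 5) (nat_lit 30) (nat_lit 5) (nat_lit 298) (nat_lit 286) (nat_lit 196)))) (XT.nd (nat_lit 78) (nat_lit 152) (nat_lit 0) (XT.lf (nat_lit 0) (nat_lit 32599413308) (nat_lit 152) (nat_lit 184991170469) (nat_lit 228) (nat_lit 229967660547) (nat_lit 25) (nat_lit 5) (nat_lit 27) (nat_lit 5) (nat_lit 28) (nat_lit 5) (nat_lit 299) (nat_lit 286) (nat_lit 195)) (XT.nd (nat_lit 78) (nat_lit 76) (nat_lit 0) (XT.lf (nat_lit 0) (nat_lit 9620464731) (nat_lit 76) (nat_lit 405506936218) (nat_lit 152) (nat_lit 76622001082) (nat_lit 24) (nat_lit 5) (nat_lit 25) (nat_lit 5) (nat_lit 26) (nat_lit 4) (nat_lit 300) (nat_lit 286) (nat_lit 194)) (XT.lf (nat_lit 0) (nat_lit 112247878427) (nat_lit 152) (nat_lit 26416419388) (nat_lit 76) (nat_lit 402312180096) (nat_lit 23) (nat_lit 5) (nat_lit 25) (nat_lit 5) (nat_lit 24) (nat_lit 5) (nat_lit 301) (nat_lit 286) (nat_lit 193))))) (XT.nd (nat_lit 234) (nat_lit 304) (nat_lit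 0) (XT.nd (nat_lit 78) (nat_lit 228) (nat_lit 0) (XT.lf (nat_lit 0) (nat_lit 342011525153) (nat_lit 228) (nat_lit 79213316231) (nat_lit 76) (nat_lit 174835546374) (nat_lit 21) (nat_lit 5) (nat_lit 24) (nat_lit 5) (nat_lit 22) (nat_lit 4) (nat_lit 302) (nat_lit 286) (nat_lit 192)) (XT.nd (nat_lit 78) (nat_lit 152) (nat_lit 0) (XT.lf (nat_lit 0) (nat_lit 505274923204) (nat_lit 76) (nat_lit 117740660870) (nat_lit 152) (nat_lit 35049230929) (nat_lit 20) (nat_lit 5) (nat_lit 21) (nat_lit 5) (nat_lit 22) (nat_lit 4) (nat_lit 303) (nat_lit 286) (nat_lit 191)) (XT.lf (nat_lit 0) (nat_lit 225710381608) (nat_lit 152) (nat_lit 262557284307) (nat_lit 76) (nat_lit 239104694850) (nat_lit 18) (nat_lit 5) (nat_lit 20) (nat_lit 5) (nat_lit 19) (nat_lit 4) (nat_lit 304) (nat_lit 286) (nat_lit 190)))) (XT.nd (nat_lit 156) (nat_lit 76) (nat_lit 0) (XT.nd (nat_lit 78) (nat_lit 152) (nat_lit 0) (XT.lf (nat_lit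 0) (nat_lit 392906258459) (nat_lit 76) (nat_lit 147930894772) (nat_lit 152) (nat_lit 264779773860) (nat_lit 17) (nat_lit 5) (nat_lit 18) (nat_lit 5) (nat_lit 19) (nat_lit 4) (nat_lit 305) (nat_lit 286) (nat_lit 189)) (XT.lf (nat_lit 0) (nat_lit 28099694238) (nat_lit 152) (nat_lit 619362954434) (nat_lit 76) (nat_lit 246453092176) (nat_lit 15) (nat_lit 5) (nat_lit 17) (nat_lit 5) (nat_lit 16) (nat_lit 4) (nat_lit 306) (nat_lit 286) (nat_lit 188))) (XT.nd (nat_lit 78) (nat_lit 0) (nat_lit 0) (XT.lf (nat_lit 0) (nat_lit 88079320283) (nat_lit 76) (nat_lit 280136900053) (nat_lit 152) (nat_lit 625174320248) (nat_lit 14) (nat_lit 5) (nat_lit 15) (nat_lit 5) (nat_lit 16) (nat_lit 4) (nat_lit 307) (nat_lit 286) (nat_lit 187)) (XT.lf (nat_lit 0) (nat_lit 781272573853) (nat_lit 152) (nat_lit 171089943823) (nat_lit 0) (nat_lit 153670254782) (nat_lit 14) (nat_lit 5) (nat_lit 16) (nat_lit 4) (nat_lit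 14) (nat_lit 4) (nat_lit 308) (nat_lit 286) (nat_lit 186))))))) (XT.nd (nat_lit 1014) (nat_lit 152) (nat_lit 0) (XT.nd (nat_lit 468) (nat_lit 304) (nat_lit 0) (XT.nd (nat_lit 234) (nat_lit 228) (nat_lit 0) (XT.nd (nat_lit 78) (nat_lit 76) (nat_lit 0) (XT.lf (nat_lit 0) (nat_lit 44914907265) (nat_lit 152) (nat_lit 534179381667) (nat_lit 76) (nat_lit 654418379222) (nat_lit 12) (nat_lit 5) (nat_lit 14) (nat_lit 5) (nat_lit 13) (nat_lit 4) (nat_lit 309) (nat_lit 286) (nat_lit 185)) (XT.nd (nat_lit 78) (nat_lit 0) (nat_lit 0) (XT.lf (nat_lit 0) (nat_lit 338801199159) (nat_lit 76) (nat_lit 125815939569) (nat_lit 152) (nat_lit 913718160128) (nat_lit 11) (nat_lit 5) (nat_lit 12) (nat_lit 5) (nat_lit 13) (nat_lit 4) (nat_lit 310) (nat_lit 286) (nat_lit 184)) (XT.lf (nat_lit 0) (nat_lit 972741298991) (nat_lit 152) (nat_lit 178474826569) (nat_lit 0) (nat_lit 391627871113) (nat_lit 11) (nat_lit 5)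 (nat_lit 13) (nat_lit 4) (nat_lit 11) (nat_lit 4) (nat_lit 311) (nat_lit 286) (nat_lit 183)))) (XT.nd (nat_lit 78) (nat_lit 152) (nat_lit 0) (XT.lf (nat_lit 0) (nat_lit 850825139920) (nat_lit 76) (nat_lit 730200983201) (nat_lit 76) (nat_lit 149087512883) (nat_lit 10) (nat_lit 4) (nat_lit 11) (nat_lit 5) (nat_lit 11) (nat_lit 4) (nat_lit 312) (nat_lit 286) (nat_lit 182)) (XT.nd (nat_lit 78) (nat_lit 0) (nat_lit 0) (XT.lf (nat_lit 0) (nat_lit 96924735104) (nat_lit 76) (nat_lit 229055189091) (nat_lit 152) (nat_lit 1618236140141) (nat_lit 8) (nat_lit 5) (nat_lit 9) (nat_lit 5) (nat_lit 10) (nat_lit 4) (nat_lit 313) (nat_lit 286) (nat_lit 181)) (XT.lf (nat_lit 0) (nat_lit 898346881393) (nat_lit 152) (nat_lit 928709029952) (nat_lit 0) (nat_lit 360278789436) (nat_lit 8) (nat_lit 5) (nat_lit 10) (nat_lit 4) (nat_lit 8) (nat_lit 4) (nat_lit 314) (nat_lit 286) (nat_lit 180))))) (XT.nd (nat_lit 234)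 (nat_lit 152) (nat_lit 0) (XT.nd (nat_lit 78) (nat_lit 76) (nat_lit 0) (XT.lf (nat_lit 0) (nat_lit 127714171295) (nat_lit 76) (nat_lit 1438261276963) (nat_lit 76) (nat_lit 900193159168) (nat_lit 7) (nat_lit 4) (nat_lit 8) (nat_lit 5) (nat_lit 8) (nat_lit 4) (nat_lit 315) (nat_lit 286) (nat_lit 179)) (XT.nd (nat_lit 78) (nat_lit 76) (nat_lit 0) (XT.lf (nat_lit 0) (nat_lit 1398840537792) (nat_lit 76) (nat_lit 961946069010) (nat_lit 76) (nat_lit 423877928748) (nat_lit 7) (nat_lit 4) (nat_lit 8) (nat_lit 5) (nat_lit 8) (nat_lit 4) (nat_lit 316) (nat_lit 286) (nat_lit 178)) (XT.lf (nat_lit 0) (nat_lit 117687326172) (nat_lit 152) (nat_lit 293278521362) (nat_lit 76) (nat_lit 2739730655297) (nat_lit 6) (nat_lit 5) (nat_lit 8) (nat_lit 5) (nat_lit 7) (nat_lit 4) (nat_lit 317) (nat_lit 286) (nat_lit 177)))) (XT.nd (nat_lit 156) (nat_lit 76) (nat_lit 0) (XT.nd (nat_lit 78) (nat_lit 0) (nat_lit 0)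 (XT.lf (nat_lit 0) (nat_lit 746474480621) (nat_lit 152) (nat_lit 2573527960286) (nat_lit 0) (nat_lit 248263205816) (nat_lit 5) (nat_lit 5) (nat_lit 7) (nat_lit 4) (nat_lit 5) (nat_lit 4) (nat_lit 318) (nat_lit 286) (nat_lit 176)) (XT.lf (nat_lit 0) (nat_lit 1489706233378) (nat_lit 152) (nat_lit 1565658861923) (nat_lit 0) (nat_lit 991494944895) (nat_lit 5) (nat_lit 5) (nat_lit 7) (nat_lit 4) (nat_lit 5) (nat_lit 4) (nat_lit 319) (nat_lit 286) (nat_lit 175))) (XT.nd (nat_lit 78) (nat_lit 76) (nat_lit 0) (XT.lf (nat_lit 0) (nat_lit 2344422712811) (nat_lit 152) (nat_lit 406609470355) (nat_lit 0) (nat_lit 1846211412433) (nat_lit 5) (nat_lit 5) (nat_lit 7) (nat_lit 4) (nat_lit 5) (nat_lit 4) (nat_lit 320) (nat_lit 286) (nat_lit 174)) (XT.lf (nat_lit 0) (nat_lit 975074440310) (nat_lit 76) (nat_lit 2375722756076) (nat_lit 76) (nat_lit 1877511445355) (nat_lit 4) (nat_lit 4) (nat_lit 5) (nat_lit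 5) (nat_lit 5) (nat_lit 4) (nat_lit 321) (nat_lit 286) (nat_lit 173)))))) (XT.nd (nat_lit 38064) (nat_lit 0) (nat_lit 2736) (XT.nd (nat_lit 234) (nat_lit 152) (nat_lit 0) (XT.nd (nat_lit 78) (nat_lit 0) (nat_lit 0) (XT.lf (nat_lit 0) (nat_lit 2588633914882) (nat_lit 76) (nat_lit 1931331906084) (nat_lit 76) (nat_lit 1433120586369) (nat_lit 4) (nat_lit 4) (nat_lit 5) (nat_lit 5) (nat_lit 5) (nat_lit 4) (nat_lit 322) (nat_lit 286) (nat_lit 172)) (XT.nd (nat_lit 78) (nat_lit 0) (nat_lit 0) (XT.lf (nat_lit 0) (nat_lit 4444227261118) (nat_lit 76) (nat_lit 1420282453096) (nat_lit 76) (nat_lit 922071125560) (nat_lit 4) (nat_lit 4) (nat_lit 5) (nat_lit 5) (nat_lit 5) (nat_lit 4) (nat_lit 323) (nat_lit 286) (nat_lit 171)) (XT.lf (nat_lit 0) (nat_lit 6578159566226) (nat_lit 76) (nat_lit 832575603467) (nat_lit 76) (nat_lit 334364269130) (nat_lit 4) (nat_lit 4) (nat_lit 5) (nat_lit 5) (nat_lit 5) (nat_lit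 4) (nat_lit 324) (nat_lit 286) (nat_lit 170)))) (XT.nd (nat_lit 37674) (nat_lit 0) (nat_lit 3952) (XT.lf (nat_lit 0) (nat_lit 185870811760) (nat_lit 76) (nat_lit 143014838244) (nat_lit 152) (nat_lit 8517495519490) (nat_lit 2) (nat_lit 5) (nat_lit 3) (nat_lit 5) (nat_lit 4) (nat_lit 4) (nat_lit 325) (nat_lit 286) (nat_lit 169)) (XT.nd (nat_lit 78) (nat_lit 0) (nat_lit 0) (XT.lf (nat_lit 0) (nat_lit 68419760120) (nat_lit 532) (nat_lit 10138545696) (nat_lit 532) (nat_lit 10138545696) (nat_lit 54) (nat_lit 3) (nat_lit 61) (nat_lit 3) (nat_lit 61) (nat_lit 5) (nat_lit 287) (nat_lit 287) (nat_lit 206)) (XT.lf (nat_lit 76) (nat_lit 144421009309) (nat_lit 0) (nat_lit 6158272638) (nat_lit 532) (nat_lit 39840798655) (nat_lit 55) (nat_lit 5) (nat_lit 54) (nat_lit 3) (nat_lit 61) (nat_lit 5) (nat_lit 288) (nat_lit 287) (nat_lit 205))))) (XT.nd (nat_lit 234) (nat_lit 912) (nat_lit 0) (XT.nd (nat_lit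 78) (nat_lit 380) (nat_lit 0) (XT.lf (nat_lit 76) (nat_lit 132272597026) (nat_lit 0) (nat_lit 41920657691) (nat_lit 532) (nat_lit 30582101480) (nat_lit 56) (nat_lit 5) (nat_lit 55) (nat_lit 5) (nat_lit 62) (nat_lit 5) (nat_lit 289) (nat_lit 287) (nat_lit 204)) (XT.nd (nat_lit 78) (nat_lit 456) (nat_lit 0) (XT.lf (nat_lit 76) (nat_lit 121510046873) (nat_lit 0) (nat_lit 87562013519) (nat_lit 532) (nat_lit 11594044762) (nat_lit 57) (nat_lit 5) (nat_lit 56) (nat_lit 5) (nat_lit 63) (nat_lit 5) (nat_lit 290) (nat_lit 287) (nat_lit 203)) (XT.lf (nat_lit 0) (nat_lit 18182249216) (nat_lit 532) (nat_lit 126297235826) (nat_lit 76) (nat_lit 93765085263) (nat_lit 50) (nat_lit 5) (nat_lit 57) (nat_lit 5) (nat_lit 51) (nat_lit 5) (nat_lit 291) (nat_lit 287) (nat_lit 202)))) (XT.nd (nat_lit 156) (nat_lit 380) (nat_lit 0) (XT.nd (nat_lit 78) (nat_lit 228) (nat_lit 0) (XT.lf (nat_lit 0) (nat_lit 60752983340)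 (nat_lit 380) (nat_lit 153967275314) (nat_lit 76) (nat_lit 42994296309) (nat_lit 46) (nat_lit 5) (nat_lit 51) (nat_lit 5) (nat_lit 47) (nat_lit 5) (nat_lit 292) (nat_lit 287) (nat_lit 201)) (XT.lf (nat_lit 0) (nat_lit 96890775898) (nat_lit 228) (nat_lit 22916847172) (nat_lit 304) (nat_lit 159489551207) (nat_lit 43) (nat_lit 5) (nat_lit 46) (nat_lit 5) (nat_lit 47) (nat_lit 5) (nat_lit 293) (nat_lit 287) (nat_lit 200))) (XT.nd (nat_lit 78) (nat_lit 152) (nat_lit 0) (XT.lf (nat_lit 0) (nat_lit 90604663516) (nat_lit 228) (nat_lit 108647170387) (nat_lit 304) (nat_lit 103942843093) (nat_lit 40) (nat_lit 5) (nat_lit 43) (nat_lit 5) (nat_lit 44) (nat_lit 5) (nat_lit 294) (nat_lit 287) (nat_lit 199)) (XT.lf (nat_lit 0) (nat_lit 86208058699) (nat_lit 152) (nat_lit 215253599318) (nat_lit 228) (nat_lit 28347229026) (nat_lit 38) (nat_lit 5) (nat_lit 40) (nat_lit 5) (nat_lit 41) (nat_lit 5) (nat_lit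 295) (nat_lit 287) (nat_lit 198))))))))
noncomputable def xc52 : XT := (XT.nd (nat_lit 1950) (nat_lit 76) (nat_lit 0) (XT.nd (nat_lit 936) (nat_lit 760) (nat_lit 0) (XT.nd (nat_lit 468) (nat_lit 684) (nat_lit 0) (XT.nd (nat_lit 234) (nat_lit 456) (nat_lit 0) (XT.nd (nat_lit 78) (nat_lit 304) (nat_lit 0) (XT.lf (nat_lit 0) (nat_lit 67360218762) (nat_lit 304) (nat_lit 277441867254) (nat_lit 76) (nat_lit 14564157084) (nat_lit 34) (nat_lit 5) (nat_lit 38) (nat_lit 5) (nat_lit 35) (nat_lit 5) (nat_lit 296) (nat_lit 287) (nat_lit 197)) (XT.nd (nat_lit 78) (nat_lit 152) (nat_lit 0) (XT.lf (nat_lit 0) (nat_lit 75073778593) (nat_lit 152) (nat_lit 115754290309) (nat_lit 228) (nat_lit 201263610050) (nat_lit 32) (nat_lit 5) (nat_lit 34) (nat_lit 5) (nat_lit 35) (nat_lit 5) (nat_lit 297) (nat_lit 287) (nat_lit 196)) (XT.lf (nat_lit 0) (nat_lit 67819522186) (nat_lit 152) (nat_lit 278465624110) (nat_lit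 228) (nat_lit 82363260180) (nat_lit 30) (nat_lit 5) (nat_lit 32) (nat_lit 5) (nat_lit 33) (nat_lit 5) (nat_lit 298) (nat_lit 287) (nat_lit 195)))) (XT.nd (nat_lit 78) (nat_lit 228) (nat_lit 0) (XT.lf (nat_lit 0) (nat_lit 57770656189) (nat_lit 152) (nat_lit 7941579484) (nat_lit 228) (nat_lit 403746994911) (nat_lit 27) (nat_lit 5) (nat_lit 29) (nat_lit 5) (nat_lit 30) (nat_lit 5) (nat_lit 299) (nat_lit 287) (nat_lit 194)) (XT.nd (nat_lit 78) (nat_lit 76) (nat_lit 0) (XT.lf (nat_lit 0) (nat_lit 37492935886) (nat_lit 152) (nat_lit 212738495478) (nat_lit 228) (nat_lit 264460366734) (nat_lit 25) (nat_lit 5) (nat_lit 27) (nat_lit 5) (nat_lit 28) (nat_lit 5) (nat_lit 300) (nat_lit 287) (nat_lit 193)) (XT.lf (nat_lit 0) (nat_lit 11066977068) (nat_lit 76) (nat_lit 466331610299) (nat_lit 152) (nat_lit 88113057064) (nat_lit 24) (nat_lit 5) (nat_lit 25) (nat_lit 5) (nat_lit 26) (nat_lit 4) (nat_lit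 301) (nat_lit 287) (nat_lit 192))))) (XT.nd (nat_lit 234) (nat_lit 380) (nat_lit 0) (XT.nd (nat_lit 78) (nat_lit 228) (nat_lit 0) (XT.lf (nat_lit 0) (nat_lit 129086914032) (nat_lit 152) (nat_lit 30375789636) (nat_lit 76) (nat_lit 462660096172) (nat_lit 23) (nat_lit 5) (nat_lit 25) (nat_lit 5) (nat_lit 24) (nat_lit 5) (nat_lit 302) (nat_lit 287) (nat_lit 191)) (XT.nd (nat_lit 78) (nat_lit 76) (nat_lit 0) (XT.lf (nat_lit 0) (nat_lit 393314961720) (nat_lit 228) (nat_lit 91092374788) (nat_lit 76) (nat_lit 201061971529) (nat_lit 21) (nat_lit 5) (nat_lit 24) (nat_lit 5) (nat_lit 22) (nat_lit 4) (nat_lit 303) (nat_lit 287) (nat_lit 190)) (XT.lf (nat_lit 0) (nat_lit 581068851800) (nat_lit 76) (nat_lit 135400619620) (nat_lit 152) (nat_lit 40304940757) (nat_lit 20) (nat_lit 5) (nat_lit 21) (nat_lit 5) (nat_lit 22) (nat_lit 4) (nat_lit 304) (nat_lit 287) (nat_lit 189)))) (XT.nd (nat_lit 78) (nat_lit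 228) (nat_lit 0) (XT.lf (nat_lit 0) (nat_lit 259568409787) (nat_lit 152) (nat_lit 301938246817) (nat_lit 76) (nat_lit 274971439717) (nat_lit 18) (nat_lit 5) (nat_lit 20) (nat_lit 5) (nat_lit 19) (nat_lit 4) (nat_lit 305) (nat_lit 287) (nat_lit 188)) (XT.nd (nat_lit 78) (nat_lit 152) (nat_lit 0) (XT.lf (nat_lit 0) (nat_lit 451844604737) (nat_lit 76) (nat_lit 170119458457) (nat_lit 152) (nat_lit 304495295235) (nat_lit 17) (nat_lit 5) (nat_lit 18) (nat_lit 5) (nat_lit 19) (nat_lit 4) (nat_lit 306) (nat_lit 287) (nat_lit 187)) (XT.lf (nat_lit 0) (nat_lit 32315920992) (nat_lit 152) (nat_lit 712265051201) (nat_lit 76) (nat_lit 283422027354) (nat_lit 15) (nat_lit 5) (nat_lit 17) (nat_lit 5) (nat_lit 16) (nat_lit 4) (nat_lit 307) (nat_lit 287) (nat_lit 186)))))) (XT.nd (nat_lit 468) (nat_lit 380) (nat_lit 0) (XT.nd (nat_lit 234) (nat_lit 152) (nat_lit 0) (XT.nd (nat_lit 78) (nat_lit 152) (nat_lit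 0) (XT.lf (nat_lit 0) (nat_lit 101293366113) (nat_lit 76) (nat_lit 322156445552) (nat_lit 152) (nat_lit 718949216806) (nat_lit 14) (nat_lit 5) (nat_lit 15) (nat_lit 5) (nat_lit 16) (nat_lit 4) (nat_lit 308) (nat_lit 287) (nat_lit 185)) (XT.nd (nat_lit 78) (nat_lit 152) (nat_lit 0) (XT.lf (nat_lit 0) (nat_lit 898464487823) (nat_lit 152) (nat_lit 196751507405) (nat_lit 0) (nat_lit 176721610399) (nat_lit 14) (nat_lit 5) (nat_lit 16) (nat_lit 4) (nat_lit 14) (nat_lit 4) (nat_lit 309) (nat_lit 287) (nat_lit 184)) (XT.lf (nat_lit 0) (nat_lit 51653104323) (nat_lit 152) (nat_lit 614304473141) (nat_lit 76) (nat_lit 752581913659) (nat_lit 12) (nat_lit 5) (nat_lit 14) (nat_lit 5) (nat_lit 13) (nat_lit 4) (nat_lit 310) (nat_lit 287) (nat_lit 183)))) (XT.nd (nat_lit 78) (nat_lit 76) (nat_lit 0) (XT.lf (nat_lit 0) (nat_lit 389623041112) (nat_lit 76) (nat_lit 144687544023) (nat_lit 152) (nat_lit 1050774938175)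 (nat_lit 11) (nat_lit 5) (nat_lit 12) (nat_lit 5) (nat_lit 13) (nat_lit 4) (nat_lit 311) (nat_lit 287) (nat_lit 182)) (XT.nd (nat_lit 78) (nat_lit 76) (nat_lit 0) (XT.lf (nat_lit 0) (nat_lit 1118653271676) (nat_lit 152) (nat_lit 205244560520) (nat_lit 0) (nat_lit 450372701466) (nat_lit 11) (nat_lit 5) (nat_lit 13) (nat_lit 4) (nat_lit 11) (nat_lit 4) (nat_lit 312) (nat_lit 287) (nat_lit 181)) (XT.lf (nat_lit 0) (nat_lit 978450274819) (nat_lit 76) (nat_lit 839730475953) (nat_lit 76) (nat_lit 171449873651) (nat_lit 10) (nat_lit 4) (nat_lit 11) (nat_lit 5) (nat_lit 11) (nat_lit 4) (nat_lit 313) (nat_lit 287) (nat_lit 180))))) (XT.nd (nat_lit 234) (nat_lit 152) (nat_lit 0) (XT.nd (nat_lit 78) (nat_lit 76) (nat_lit 0) (XT.lf (nat_lit 0) (nat_lit 111464729124) (nat_lit 76) (nat_lit 263412847476) (nat_lit 152) (nat_lit 1860970844084) (nat_lit 8) (nat_lit 5) (nat_lit 9) (nat_lit 5) (nat_lit 10)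 (nat_lit 4) (nat_lit 314) (nat_lit 287) (nat_lit 179)) (XT.nd (nat_lit 78) (nat_lit 76) (nat_lit 0) (XT.lf (nat_lit 0) (nat_lit 1033099503765) (nat_lit 152) (nat_lit 1068014234752) (nat_lit 0) (nat_lit 414321119995) (nat_lit 8) (nat_lit 5) (nat_lit 10) (nat_lit 4) (nat_lit 8) (nat_lit 4) (nat_lit 315) (nat_lit 287) (nat_lit 178)) (XT.lf (nat_lit 0) (nat_lit 146872349366) (nat_lit 76) (nat_lit 1653999954625) (nat_lit 76) (nat_lit 1035221551318) (nat_lit 7) (nat_lit 4) (nat_lit 8) (nat_lit 5) (nat_lit 8) (nat_lit 4) (nat_lit 316) (nat_lit 287) (nat_lit 177)))) (XT.nd (nat_lit 156) (nat_lit 76) (nat_lit 0) (XT.nd (nat_lit 78) (nat_lit 76) (nat_lit 0) (XT.lf (nat_lit 0) (nat_lit 1608667533571) (nat_lit 76) (nat_lit 1106237532508) (nat_lit 76) (nat_lit 487459112212) (nat_lit 7) (nat_lit 4) (nat_lit 8) (nat_lit 5) (nat_lit 8) (nat_lit 4) (nat_lit 317) (nat_lit 287) (nat_lit 176)) (XT.lf (nat_lit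 0) (nat_lit 135340842961) (nat_lit 152) (nat_lit 337269481709) (nat_lit 76) (nat_lit 3150690620051) (nat_lit 6) (nat_lit 5) (nat_lit 8) (nat_lit 5) (nat_lit 7) (nat_lit 4) (nat_lit 318) (nat_lit 287) (nat_lit 175))) (XT.nd (nat_lit 78) (nat_lit 0) (nat_lit 0) (XT.lf (nat_lit 0) (nat_lit 858446042911) (nat_lit 152) (nat_lit 2959556383931) (nat_lit 0) (nat_lit 285503035582) (nat_lit 5) (nat_lit 5) (nat_lit 7) (nat_lit 4) (nat_lit 5) (nat_lit 4) (nat_lit 319) (nat_lit 287) (nat_lit 174)) (XT.lf (nat_lit 0) (nat_lit 1713162507687) (nat_lit 152) (nat_lit 1800507021300) (nat_lit 0) (nat_lit 1140219490015) (nat_lit 5) (nat_lit 5) (nat_lit 7) (nat_lit 4) (nat_lit 5) (nat_lit 4) (nat_lit 320) (nat_lit 287) (nat_lit 173))))))) (XT.nd (nat_lit 38688) (nat_lit 0) (nat_lit 836) (XT.nd (nat_lit 38142) (nat_lit 0) (nat_lit 2736) (XT.nd (nat_lit 234) (nat_lit 0) (nat_lit 0) (XT.nd (nat_lit 78) (nat_lit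 76) (nat_lit 0) (XT.lf (nat_lit 0) (nat_lit 2696086414778) (nat_lit 152) (nat_lit 467600308377) (nat_lit 0) (nat_lit 2123143388112) (nat_lit 5) (nat_lit 5) (nat_lit 7) (nat_lit 4) (nat_lit 5) (nat_lit 4) (nat_lit 321) (nat_lit 287) (nat_lit 172)) (XT.nd (nat_lit 78) (nat_lit 0) (nat_lit 0) (XT.lf (nat_lit 0) (nat_lit 1121336139580) (nat_lit 76) (nat_lit 2732080905650) (nat_lit 76) (nat_lit 2159137871162) (nat_lit 4) (nat_lit 4) (nat_lit 5) (nat_lit 5) (nat_lit 5) (nat_lit 4) (nat_lit 322) (nat_lit 287) (nat_lit 171)) (XT.lf (nat_lit 0) (nat_lit 2976929465787) (nat_lit 76) (nat_lit 2221031462572) (nat_lit 76) (nat_lit 1648088421284) (nat_lit 4) (nat_lit 4) (nat_lit 5) (nat_lit 5) (nat_lit 5) (nat_lit 4) (nat_lit 323) (nat_lit 287) (nat_lit 170)))) (XT.nd (nat_lit 78) (nat_lit 0) (nat_lit 0) (XT.lf (nat_lit 0) (nat_lit 5110861753479) (nat_lit 76) (nat_lit 1633324621561) (nat_lit 76) (nat_lit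 1060381574359) (nat_lit 4) (nat_lit 4) (nat_lit 5) (nat_lit 5) (nat_lit 5) (nat_lit 4) (nat_lit 324) (nat_lit 287) (nat_lit 169)) (XT.nd (nat_lit 37752) (nat_lit 0) (nat_lit 3800) (XT.lf (nat_lit 0) (nat_lit 7564883851763) (nat_lit 76) (nat_lit 957461770509) (nat_lit 76) (nat_lit 384518718165) (nat_lit 4) (nat_lit 4) (nat_lit 5) (nat_lit 5) (nat_lit 5) (nat_lit 4) (nat_lit 325) (nat_lit 287) (nat_lit 168)) (XT.lf (nat_lit 0) (nat_lit 78686049438) (nat_lit 532) (nat_lit 11657528852) (nat_lit 532) (nat_lit 11657528852) (nat_lit 54) (nat_lit 3) (nat_lit 61) (nat_lit 3) (nat_lit 61) (nat_lit 5) (nat_lit 288) (nat_lit 288) (nat_lit 204))))) (XT.nd (nat_lit 234) (nat_lit 1064) (nat_lit 0) (XT.nd (nat_lit 78) (nat_lit 0) (nat_lit 76) (XT.lf (nat_lit 76) (nat_lit 166087453602) (nat_lit 0) (nat_lit 7084582962) (nat_lit 532) (nat_lit 45810576579) (nat_lit 55) (nat_lit 5) (nat_lit 54) (nat_lit 3)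 (nat_lit 61) (nat_lit 5) (nat_lit 289) (nat_lit 288) (nat_lit 203)) (XT.nd (nat_lit 78) (nat_lit 0) (nat_lit 76) (XT.lf (nat_lit 76) (nat_lit 152116996272) (nat_lit 0) (nat_lit 48210375000) (nat_lit 532) (nat_lit 35163868901) (nat_lit 56) (nat_lit 5) (nat_lit 55) (nat_lit 5) (nat_lit 62) (nat_lit 5) (nat_lit 290) (nat_lit 288) (nat_lit 202)) (XT.lf (nat_lit 76) (nat_lit 139740186101) (nat_lit 0) (nat_lit 100697196287) (nat_lit 532) (nat_lit 13328269518) (nat_lit 57) (nat_lit 5) (nat_lit 56) (nat_lit 5) (nat_lit 63) (nat_lit 5) (nat_lit 291) (nat_lit 288) (nat_lit 201)))) (XT.nd (nat_lit 156) (nat_lit 456) (nat_lit 0) (XT.nd (nat_lit 78) (nat_lit 304) (nat_lit 0) (XT.lf (nat_lit 0) (nat_lit 20913691371) (nat_lit 532) (nat_lit 145237916694) (nat_lit 76) (nat_lit 107829312972) (nat_lit 50) (nat_lit 5) (nat_lit 57) (nat_lit 5) (nat_lit 51) (nat_lit 5) (nat_lit 292) (nat_lit 288) (nat_lit 200))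 (XT.lf (nat_lit 0) (nat_lit 69869584208) (nat_lit 380) (nat_lit 177058492627) (nat_lit 76) (nat_lit 49443363509) (nat_lit 46) (nat_lit 5) (nat_lit 51) (nat_lit 5) (nat_lit 47) (nat_lit 5) (nat_lit 293) (nat_lit 288) (nat_lit 199))) (XT.nd (nat_lit 78) (nat_lit 228) (nat_lit 0) (XT.lf (nat_lit 0) (nat_lit 111427938353) (nat_lit 228) (nat_lit 26354090302) (nat_lit 304) (nat_lit 183409455930) (nat_lit 43) (nat_lit 5) (nat_lit 46) (nat_lit 5) (nat_lit 47) (nat_lit 5) (nat_lit 294) (nat_lit 288) (nat_lit 198)) (XT.lf (nat_lit 0) (nat_lit 104198846037) (nat_lit 228) (nat_lit 124943689286) (nat_lit 304) (nat_lit 119531104887) (nat_lit 40) (nat_lit 5) (nat_lit 43) (nat_lit 5) (nat_lit 44) (nat_lit 5) (nat_lit 295) (nat_lit 288) (nat_lit 197)))))) (XT.nd (nat_lit 468) (nat_lit 760) (nat_lit 0) (XT.nd (nat_lit 234) (nat_lit 532) (nat_lit 0) (XT.nd (nat_lit 78) (nat_lit 456) (nat_lit 0) (XT.lf (nat_lit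 0) (nat_lit 99142661587) (nat_lit 152) (nat_lit 247540883040) (nat_lit 228) (nat_lit 32596460763) (nat_lit 38) (nat_lit 5) (nat_lit 40) (nat_lit 5) (nat_lit 41) (nat_lit 5) (nat_lit 296) (nat_lit 288) (nat_lit 196)) (XT.nd (nat_lit 78) (nat_lit 152) (nat_lit 0) (XT.lf (nat_lit 0) (nat_lit 77466705349) (nat_lit 304) (nat_lit 319054728490) (nat_lit 76) (nat_lit 16749546463) (nat_lit 34) (nat_lit 5) (nat_lit 38) (nat_lit 5) (nat_lit 35) (nat_lit 5) (nat_lit 297) (nat_lit 288) (nat_lit 195)) (XT.lf (nat_lit 0) (nat_lit 86337974845) (nat_lit 152) (nat_lit 133116513371) (nat_lit 228) (nat_lit 231450763285) (nat_lit 32) (nat_lit 5) (nat_lit 34) (nat_lit 5) (nat_lit 35) (nat_lit 5) (nat_lit 298) (nat_lit 288) (nat_lit 194)))) (XT.nd (nat_lit 78) (nat_lit 380) (nat_lit 0) (XT.lf (nat_lit 0) (nat_lit 77995458937) (nat_lit 152) (nat_lit 320234471758) (nat_lit 228) (nat_lit 94715573518) (nat_lit 30)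 (nat_lit 5) (nat_lit 32) (nat_lit 5) (nat_lit 33) (nat_lit 5) (nat_lit 299) (nat_lit 288) (nat_lit 193)) (XT.nd (nat_lit 78) (nat_lit 152) (nat_lit 0) (XT.lf (nat_lit 0) (nat_lit 66439109913) (nat_lit 152) (nat_lit 9131827044) (nat_lit 228) (nat_lit 464307027138) (nat_lit 27) (nat_lit 5) (nat_lit 29) (nat_lit 5) (nat_lit 30) (nat_lit 5) (nat_lit 300) (nat_lit 288) (nat_lit 192)) (XT.lf (nat_lit 0) (nat_lit 43119606388) (nat_lit 152) (nat_lit 244648248582) (nat_lit 228) (nat_lit 304127574564) (nat_lit 25) (nat_lit 5) (nat_lit 27) (nat_lit 5) (nat_lit 28) (nat_lit 5) (nat_lit 301) (nat_lit 288) (nat_lit 191))))) (XT.nd (nat_lit 234) (nat_lit 456) (nat_lit 0) (XT.nd (nat_lit 78) (nat_lit 228) (nat_lit 0) (XT.lf (nat_lit 0) (nat_lit 12729626749) (nat_lit 76) (nat_lit 536280318685) (nat_lit 152) (nat_lit 101328318702) (nat_lit 24) (nat_lit 5) (nat_lit 25) (nat_lit 5) (nat_lit 26) (nat_lit 4)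 (nat_lit 302) (nat_lit 288) (nat_lit 190)) (XT.nd (nat_lit 78) (nat_lit 152) (nat_lit 0) (XT.lf (nat_lit 0) (nat_lit 148451352907) (nat_lit 152) (nat_lit 34929819585) (nat_lit 76) (nat_lit 532059934085) (nat_lit 23) (nat_lit 5) (nat_lit 25) (nat_lit 5) (nat_lit 24) (nat_lit 5) (nat_lit 303) (nat_lit 288) (nat_lit 189)) (XT.lf (nat_lit 0) (nat_lit 452313497316) (nat_lit 228) (nat_lit 104754008793) (nat_lit 76) (nat_lit 231222093873) (nat_lit 21) (nat_lit 5) (nat_lit 24) (nat_lit 5) (nat_lit 22) (nat_lit 4) (nat_lit 304) (nat_lit 288) (nat_lit 188)))) (XT.nd (nat_lit 156) (nat_lit 228) (nat_lit 0) (XT.nd (nat_lit 78) (nat_lit 152) (nat_lit 0) (XT.lf (nat_lit 0) (nat_lit 668231213685) (nat_lit 76) (nat_lit 155709850272) (nat_lit 152) (nat_lit 46349415472) (nat_lit 20) (nat_lit 5) (nat_lit 21) (nat_lit 5) (nat_lit 22) (nat_lit 4) (nat_lit 305) (nat_lit 288) (nat_lit 187)) (XT.lf (nat_lit 0)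 (nat_lit 298504783496) (nat_lit 152) (nat_lit 347226995079) (nat_lit 76) (nat_lit 316217942548) (nat_lit 18) (nat_lit 5) (nat_lit 20) (nat_lit 5) (nat_lit 19) (nat_lit 4) (nat_lit 306) (nat_lit 288) (nat_lit 186))) (XT.nd (nat_lit 78) (nat_lit 152) (nat_lit 0) (XT.lf (nat_lit 0) (nat_lit 519623115870) (nat_lit 76) (nat_lit 195636567751) (nat_lit 152) (nat_lit 350168497117) (nat_lit 17) (nat_lit 5) (nat_lit 18) (nat_lit 5) (nat_lit 19) (nat_lit 4) (nat_lit 307) (nat_lit 288) (nat_lit 185)) (XT.lf (nat_lit 0) (nat_lit 37164271423) (nat_lit 152) (nat_lit 819103034667) (nat_lit 76) (nat_lit 325936065939) (nat_lit 15) (nat_lit 5) (nat_lit 17) (nat_lit 5) (nat_lit 16) (nat_lit 4) (nat_lit 308) (nat_lit 288) (nat_lit 184))))))))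
noncomputable def xc53 : XT := (XT.nd (nat_lit 39780) (nat_lit 0) (nat_lit 76) (XT.nd (nat_lit 1014) (nat_lit 76) (nat_lit 0) (XT.nd (nat_lit 468) (nat_lit 380) (nat_lit 0) (XT.nd (nat_lit 234) (nat_lit 152) (nat_lit 0) (XT.nd (nat_lit 78) (nat_lit 152) (nat_lit 0) (XT.lf (nat_lit 0) (nat_lit 116488995065) (nat_lit 76) (nat_lit 370479164175) (nat_lit 152) (nat_lit 826790653029) (nat_lit 14) (nat_lit 5) (nat_lit 15) (nat_lit 5) (nat_lit 16) (nat_lit 4) (nat_lit 309) (nat_lit 288) (nat_lit 183)) (XT.nd (nat_lit 78) (nat_lit 152) (nat_lit 0) (XT.lf (nat_lit 0) (nat_lit 1033234938232) (nat_lit 152) (nat_lit 226262775678) (nat_lit 0) (nat_lit 203230470030) (nat_lit 14) (nat_lit 5) (nat_lit 16) (nat_lit 4) (nat_lit 14) (nat_lit 4) (nat_lit 310) (nat_lit 288) (nat_lit 182)) (XT.lf (nat_lit 0) (nat_lit 59401796602) (nat_lit 152) (nat_lit 706448771125) (nat_lit 76) (nat_lit 865469788651) (nat_lit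 12) (nat_lit 5) (nat_lit 14) (nat_lit 5) (nat_lit 13) (nat_lit 4) (nat_lit 311) (nat_lit 288) (nat_lit 181)))) (XT.nd (nat_lit 78) (nat_lit 76) (nat_lit 0) (XT.lf (nat_lit 0) (nat_lit 448067754050) (nat_lit 76) (nat_lit 166390080933) (nat_lit 152) (nat_lit 1208390463609) (nat_lit 11) (nat_lit 5) (nat_lit 12) (nat_lit 5) (nat_lit 13) (nat_lit 4) (nat_lit 312) (nat_lit 288) (nat_lit 180)) (XT.nd (nat_lit 78) (nat_lit 76) (nat_lit 0) (XT.lf (nat_lit 0) (nat_lit 1286451850584) (nat_lit 152) (nat_lit 236030117918) (nat_lit 0) (nat_lit 517929097942) (nat_lit 11) (nat_lit 5) (nat_lit 13) (nat_lit 4) (nat_lit 11) (nat_lit 4) (nat_lit 313) (nat_lit 288) (nat_lit 179)) (XT.lf (nat_lit 0) (nat_lit 1125218847354) (nat_lit 76) (nat_lit 965689552277) (nat_lit 76) (nat_lit 197166775369) (nat_lit 10) (nat_lit 4) (nat_lit 11) (nat_lit 5) (nat_lit 11) (nat_lit 4) (nat_lit 314) (nat_lit 288) (nat_lit 178)))))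 (XT.nd (nat_lit 234) (nat_lit 152) (nat_lit 0) (XT.nd (nat_lit 78) (nat_lit 76) (nat_lit 0) (XT.lf (nat_lit 0) (nat_lit 128185409196) (nat_lit 76) (nat_lit 302924305805) (nat_lit 152) (nat_lit 2140115928483) (nat_lit 8) (nat_lit 5) (nat_lit 9) (nat_lit 5) (nat_lit 10) (nat_lit 4) (nat_lit 315) (nat_lit 288) (nat_lit 177)) (XT.nd (nat_lit 78) (nat_lit 76) (nat_lit 0) (XT.lf (nat_lit 0) (nat_lit 1188064875578) (nat_lit 152) (nat_lit 1228215500633) (nat_lit 0) (nat_lit 476469675248) (nat_lit 8) (nat_lit 5) (nat_lit 10) (nat_lit 4) (nat_lit 8) (nat_lit 4) (nat_lit 316) (nat_lit 288) (nat_lit 176)) (XT.lf (nat_lit 0) (nat_lit 168903997519) (nat_lit 76) (nat_lit 1902099559251) (nat_lit 76) (nat_lit 1190504344148) (nat_lit 7) (nat_lit 4) (nat_lit 8) (nat_lit 5) (nat_lit 8) (nat_lit 4) (nat_lit 317) (nat_lit 288) (nat_lit 175)))) (XT.nd (nat_lit 156) (nat_lit 76) (nat_lit 0) (XT.nd (nat_lit 78)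 (nat_lit 76) (nat_lit 0) (XT.lf (nat_lit 0) (nat_lit 1849968355561) (nat_lit 76) (nat_lit 1272172824499) (nat_lit 76) (nat_lit 560577596550) (nat_lit 7) (nat_lit 4) (nat_lit 8) (nat_lit 5) (nat_lit 8) (nat_lit 4) (nat_lit 318) (nat_lit 288) (nat_lit 174)) (XT.lf (nat_lit 0) (nat_lit 155642285370) (nat_lit 152) (nat_lit 387859285547) (nat_lit 76) (nat_lit 3623294490154) (nat_lit 6) (nat_lit 5) (nat_lit 8) (nat_lit 5) (nat_lit 7) (nat_lit 4) (nat_lit 319) (nat_lit 288) (nat_lit 173))) (XT.nd (nat_lit 78) (nat_lit 0) (nat_lit 0) (XT.lf (nat_lit 0) (nat_lit 987213244393) (nat_lit 152) (nat_lit 3403489258989) (nat_lit 0) (nat_lit 328328754733) (nat_lit 5) (nat_lit 5) (nat_lit 7) (nat_lit 4) (nat_lit 5) (nat_lit 4) (nat_lit 320) (nat_lit 288) (nat_lit 172)) (XT.lf (nat_lit 0) (nat_lit 1970137140401) (nat_lit 152) (nat_lit 2070582567947) (nat_lit 0) (nat_lit 1311252642920) (nat_lit 5) (nat_lit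 5) (nat_lit 7) (nat_lit 4) (nat_lit 5) (nat_lit 4) (nat_lit 321) (nat_lit 288) (nat_lit 171)))))) (XT.nd (nat_lit 38220) (nat_lit 0) (nat_lit 2584) (XT.nd (nat_lit 234) (nat_lit 0) (nat_lit 0) (XT.nd (nat_lit 78) (nat_lit 76) (nat_lit 0) (XT.lf (nat_lit 0) (nat_lit 3100499600091) (nat_lit 152) (nat_lit 537739914156) (nat_lit 0) (nat_lit 2441615095809) (nat_lit 5) (nat_lit 5) (nat_lit 7) (nat_lit 4) (nat_lit 5) (nat_lit 4) (nat_lit 322) (nat_lit 288) (nat_lit 170)) (XT.nd (nat_lit 78) (nat_lit 0) (nat_lit 0) (XT.lf (nat_lit 0) (nat_lit 1289536963710) (nat_lit 76) (nat_lit 3141892841997) (nat_lit 76) (nat_lit 2483008331802) (nat_lit 4) (nat_lit 4) (nat_lit 5) (nat_lit 5) (nat_lit 5) (nat_lit 4) (nat_lit 323) (nat_lit 288) (nat_lit 169)) (XT.lf (nat_lit 0) (nat_lit 3423469236258) (nat_lit 76) (nat_lit 2554186008480) (nat_lit 76) (nat_lit 1895301493142) (nat_lit 4) (nat_lit 4) (nat_lit 5)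 (nat_lit 5) (nat_lit 5) (nat_lit 4) (nat_lit 324) (nat_lit 288) (nat_lit 168)))) (XT.nd (nat_lit 37830) (nat_lit 0) (nat_lit 3800) (XT.lf (nat_lit 0) (nat_lit 5877491321373) (nat_lit 76) (nat_lit 1878323163945) (nat_lit 76) (nat_lit 1219438644135) (nat_lit 4) (nat_lit 4) (nat_lit 5) (nat_lit 5) (nat_lit 5) (nat_lit 4) (nat_lit 325) (nat_lit 288) (nat_lit 167)) (XT.nd (nat_lit 78) (nat_lit 0) (nat_lit 0) (XT.lf (nat_lit 0) (nat_lit 90491471259) (nat_lit 532) (nat_lit 13404798104) (nat_lit 532) (nat_lit 13404798104) (nat_lit 54) (nat_lit 3) (nat_lit 61) (nat_lit 3) (nat_lit 61) (nat_lit 5) (nat_lit 289) (nat_lit 289) (nat_lit 202)) (XT.lf (nat_lit 76) (nat_lit 191003061545) (nat_lit 0) (nat_lit 8149213264) (nat_lit 532) (nat_lit 52677367697) (nat_lit 55) (nat_lit 5) (nat_lit 54) (nat_lit 3) (nat_lit 61) (nat_lit 5) (nat_lit 290) (nat_lit 289) (nat_lit 201))))) (XT.nd (nat_lit 234) (nat_lit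 912) (nat_lit 0) (XT.nd (nat_lit 78) (nat_lit 380) (nat_lit 0) (XT.lf (nat_lit 76) (nat_lit 174937199545) (nat_lit 0) (nat_lit 55443155186) (nat_lit 532) (nat_lit 40434254302) (nat_lit 56) (nat_lit 5) (nat_lit 55) (nat_lit 5) (nat_lit 62) (nat_lit 5) (nat_lit 291) (nat_lit 289) (nat_lit 200)) (XT.nd (nat_lit 78) (nat_lit 456) (nat_lit 0) (XT.lf (nat_lit 76) (nat_lit 160703960478) (nat_lit 0) (nat_lit 115802441695) (nat_lit 532) (nat_lit 15323818484) (nat_lit 57) (nat_lit 5) (nat_lit 56) (nat_lit 5) (nat_lit 63) (nat_lit 5) (nat_lit 292) (nat_lit 289) (nat_lit 199)) (XT.lf (nat_lit 0) (nat_lit 24053848875) (nat_lit 532) (nat_lit 167020651830) (nat_lit 76) (nat_lit 124003305321) (nat_lit 50) (nat_lit 5) (nat_lit 57) (nat_lit 5) (nat_lit 51) (nat_lit 5) (nat_lit 293) (nat_lit 289) (nat_lit 198)))) (XT.nd (nat_lit 156) (nat_lit 380) (nat_lit 0) (XT.nd (nat_lit 78) (nat_lit 228) (nat_lit 0)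 (XT.lf (nat_lit 0) (nat_lit 80352784310) (nat_lit 380) (nat_lit 203614337233) (nat_lit 76) (nat_lit 56859809627) (nat_lit 46) (nat_lit 5) (nat_lit 51) (nat_lit 5) (nat_lit 47) (nat_lit 5) (nat_lit 294) (nat_lit 289) (nat_lit 197)) (XT.lf (nat_lit 0) (nat_lit 128144810445) (nat_lit 228) (nat_lit 30306989143) (nat_lit 304) (nat_lit 210918206677) (nat_lit 43) (nat_lit 5) (nat_lit 46) (nat_lit 5) (nat_lit 47) (nat_lit 5) (nat_lit 295) (nat_lit 289) (nat_lit 196))) (XT.nd (nat_lit 78) (nat_lit 152) (nat_lit 0) (XT.lf (nat_lit 0) (nat_lit 119831306587) (nat_lit 228) (nat_lit 143684821764) (nat_lit 304) (nat_lit 137458377676) (nat_lit 40) (nat_lit 5) (nat_lit 43) (nat_lit 5) (nat_lit 44) (nat_lit 5) (nat_lit 296) (nat_lit 289) (nat_lit 195)) (XT.lf (nat_lit 0) (nat_lit 114016627239) (nat_lit 152) (nat_lit 284671443719) (nat_lit 228) (nat_lit 37483772889) (nat_lit 38) (nat_lit 5) (nat_lit 40)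 (nat_lit 5) (nat_lit 41) (nat_lit 5) (nat_lit 297) (nat_lit 289) (nat_lit 194))))))) (XT.nd (nat_lit 1014) (nat_lit 684) (nat_lit 0) (XT.nd (nat_lit 468) (nat_lit 760) (nat_lit 0) (XT.nd (nat_lit 234) (nat_lit 456) (nat_lit 0) (XT.nd (nat_lit 78) (nat_lit 304) (nat_lit 0) (XT.lf (nat_lit 0) (nat_lit 89088566557) (nat_lit 304) (nat_lit 366910352621) (nat_lit 76) (nat_lit 19262557500) (nat_lit 34) (nat_lit 5) (nat_lit 38) (nat_lit 5) (nat_lit 35) (nat_lit 5) (nat_lit 298) (nat_lit 289) (nat_lit 193)) (XT.nd (nat_lit 78) (nat_lit 152) (nat_lit 0) (XT.lf (nat_lit 0) (nat_lit 99291037395) (nat_lit 152) (nat_lit 153083294359) (nat_lit 228) (nat_lit 266166571901) (nat_lit 32) (nat_lit 5) (nat_lit 34) (nat_lit 5) (nat_lit 35) (nat_lit 5) (nat_lit 299) (nat_lit 289) (nat_lit 192)) (XT.lf (nat_lit 0) (nat_lit 89697052577) (nat_lit 152) (nat_lit 368268889427) (nat_lit 228) (nat_lit 108921264412)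 (nat_lit 30) (nat_lit 5) (nat_lit 32) (nat_lit 5) (nat_lit 33) (nat_lit 5) (nat_lit 300) (nat_lit 289) (nat_lit 191)))) (XT.nd (nat_lit 78) (nat_lit 228) (nat_lit 0) (XT.lf (nat_lit 0) (nat_lit 76407135414) (nat_lit 152) (nat_lit 10500853000) (nat_lit 228) (nat_lit 533951556059) (nat_lit 27) (nat_lit 5) (nat_lit 29) (nat_lit 5) (nat_lit 30) (nat_lit 5) (nat_lit 301) (nat_lit 289) (nat_lit 190)) (XT.nd (nat_lit 78) (nat_lit 76) (nat_lit 0) (XT.lf (nat_lit 0) (nat_lit 49589611708) (nat_lit 152) (nat_lit 281344713682) (nat_lit 228) (nat_lit 349745314015) (nat_lit 25) (nat_lit 5) (nat_lit 27) (nat_lit 5) (nat_lit 28) (nat_lit 5) (nat_lit 302) (nat_lit 289) (nat_lit 189)) (XT.lf (nat_lit 0) (nat_lit 14641039095) (nat_lit 76) (nat_lit 616721585271) (nat_lit 152) (nat_lit 116526283390) (nat_lit 24) (nat_lit 5) (nat_lit 25) (nat_lit 5) (nat_lit 26) (nat_lit 4) (nat_lit 303) (nat_lit 289) (nat_lit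 188))))) (XT.nd (nat_lit 234) (nat_lit 456) (nat_lit 0) (XT.nd (nat_lit 78) (nat_lit 228) (nat_lit 0) (XT.lf (nat_lit 0) (nat_lit 170720115782) (nat_lit 152) (nat_lit 40167524285) (nat_lit 76) (nat_lit 611869546872) (nat_lit 23) (nat_lit 5) (nat_lit 25) (nat_lit 5) (nat_lit 24) (nat_lit 5) (nat_lit 304) (nat_lit 289) (nat_lit 187)) (XT.nd (nat_lit 78) (nat_lit 76) (nat_lit 0) (XT.lf (nat_lit 0) (nat_lit 520161498350) (nat_lit 228) (nat_lit 120465429799) (nat_lit 76) (nat_lit 265906032993) (nat_lit 21) (nat_lit 5) (nat_lit 24) (nat_lit 5) (nat_lit 22) (nat_lit 4) (nat_lit 305) (nat_lit 289) (nat_lit 186)) (XT.lf (nat_lit 0) (nat_lit 768467433821) (nat_lit 76) (nat_lit 179065675796) (nat_lit 152) (nat_lit 53300870214) (nat_lit 20) (nat_lit 5) (nat_lit 21) (nat_lit 5) (nat_lit 22) (nat_lit 4) (nat_lit 306) (nat_lit 289) (nat_lit 185)))) (XT.nd (nat_lit 156) (nat_lit 228) (nat_lit 0) (XT.nd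 (nat_lit 78) (nat_lit 76) (nat_lit 0) (XT.lf (nat_lit 0) (nat_lit 343281342034) (nat_lit 152) (nat_lit 399309540552) (nat_lit 76) (nat_lit 363651228919) (nat_lit 18) (nat_lit 5) (nat_lit 20) (nat_lit 5) (nat_lit 19) (nat_lit 4) (nat_lit 307) (nat_lit 289) (nat_lit 184)) (XT.lf (nat_lit 0) (nat_lit 597567959751) (nat_lit 76) (nat_lit 224981440834) (nat_lit 152) (nat_lit 402692945670) (nat_lit 17) (nat_lit 5) (nat_lit 18) (nat_lit 5) (nat_lit 19) (nat_lit 4) (nat_lit 308) (nat_lit 289) (nat_lit 183))) (XT.nd (nat_lit 78) (nat_lit 76) (nat_lit 0) (XT.lf (nat_lit 0) (nat_lit 42739639760) (nat_lit 152) (nat_lit 941967148306) (nat_lit 76) (nat_lit 374827031203) (nat_lit 15) (nat_lit 5) (nat_lit 17) (nat_lit 5) (nat_lit 16) (nat_lit 4) (nat_lit 309) (nat_lit 289) (nat_lit 182)) (XT.lf (nat_lit 0) (nat_lit 133963572330) (nat_lit 76) (nat_lit 426050473046) (nat_lit 152) (nat_lit 950808535446) (nat_lit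 14) (nat_lit 5) (nat_lit 15) (nat_lit 5) (nat_lit 16) (nat_lit 4) (nat_lit 310) (nat_lit 289) (nat_lit 181)))))) (XT.nd (nat_lit 468) (nat_lit 228) (nat_lit 0) (XT.nd (nat_lit 234) (nat_lit 228) (nat_lit 0) (XT.nd (nat_lit 78) (nat_lit 228) (nat_lit 0) (XT.lf (nat_lit 0) (nat_lit 1188220766668) (nat_lit 152) (nat_lit 260201089694) (nat_lit 0) (nat_lit 233715507885) (nat_lit 14) (nat_lit 5) (nat_lit 16) (nat_lit 4) (nat_lit 14) (nat_lit 4) (nat_lit 311) (nat_lit 289) (nat_lit 180)) (XT.nd (nat_lit 78) (nat_lit 76) (nat_lit 0) (XT.lf (nat_lit 0) (nat_lit 68312615529) (nat_lit 152) (nat_lit 812415048618) (nat_lit 76) (nat_lit 995290701517) (nat_lit 12) (nat_lit 5) (nat_lit 14) (nat_lit 5) (nat_lit 13) (nat_lit 4) (nat_lit 312) (nat_lit 289) (nat_lit 179)) (XT.lf (nat_lit 0) (nat_lit 515278867457) (nat_lit 76) (nat_lit 191348143400) (nat_lit 152) (nat_lit 1389648492288) (nat_lit 11) (nat_lit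 5) (nat_lit 12) (nat_lit 5) (nat_lit 13) (nat_lit 4) (nat_lit 313) (nat_lit 289) (nat_lit 178)))) (XT.nd (nat_lit 78) (nat_lit 228) (nat_lit 0) (XT.lf (nat_lit 0) (nat_lit 1479420072903) (nat_lit 152) (nat_lit 271433783673) (nat_lit 0) (nat_lit 595618834093) (nat_lit 11) (nat_lit 5) (nat_lit 13) (nat_lit 4) (nat_lit 11) (nat_lit 4) (nat_lit 314) (nat_lit 289) (nat_lit 177)) (XT.nd (nat_lit 78) (nat_lit 152) (nat_lit 0) (XT.lf (nat_lit 0) (nat_lit 1294002454278) (nat_lit 76) (nat_lit 1110542610775) (nat_lit 76) (nat_lit 226741353618) (nat_lit 10) (nat_lit 4) (nat_lit 11) (nat_lit 5) (nat_lit 11) (nat_lit 4) (nat_lit 315) (nat_lit 289) (nat_lit 176)) (XT.lf (nat_lit 0) (nat_lit 147413954566) (nat_lit 76) (nat_lit 348362597202) (nat_lit 152) (nat_lit 2461132907763) (nat_lit 8) (nat_lit 5) (nat_lit 9) (nat_lit 5) (nat_lit 10) (nat_lit 4) (nat_lit 316) (nat_lit 289) (nat_lit 175))))) (XT.nd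 (nat_lit 234) (nat_lit 152) (nat_lit 0) (XT.nd (nat_lit 78) (nat_lit 76) (nat_lit 0) (XT.lf (nat_lit 0) (nat_lit 1366274944342) (nat_lit 152) (nat_lit 1412447168388) (nat_lit 0) (nat_lit 547940419354) (nat_lit 8) (nat_lit 5) (nat_lit 10) (nat_lit 4) (nat_lit 8) (nat_lit 4) (nat_lit 317) (nat_lit 289) (nat_lit 174)) (XT.nd (nat_lit 78) (nat_lit 0) (nat_lit 0) (XT.lf (nat_lit 0) (nat_lit 194240198846) (nat_lit 76) (nat_lit 2187414199325) (nat_lit 76) (nat_lit 1369079663167) (nat_lit 7) (nat_lit 4) (nat_lit 8) (nat_lit 5) (nat_lit 8) (nat_lit 4) (nat_lit 318) (nat_lit 289) (nat_lit 173)) (XT.lf (nat_lit 0) (nat_lit 2127464132113) (nat_lit 76) (nat_lit 1462998492684) (nat_lit 76) (nat_lit 644663946813) (nat_lit 7) (nat_lit 4) (nat_lit 8) (nat_lit 5) (nat_lit 8) (nat_lit 4) (nat_lit 319) (nat_lit 289) (nat_lit 172)))) (XT.nd (nat_lit 156) (nat_lit 0) (nat_lit 0) (XT.nd (nat_lit 78) (nat_lit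 76) (nat_lit 0) (XT.lf (nat_lit 0) (nat_lit 178988867091) (nat_lit 152) (nat_lit 446037710767) (nat_lit 76) (nat_lit 4166788873202) (nat_lit 6) (nat_lit 5) (nat_lit 8) (nat_lit 5) (nat_lit 7) (nat_lit 4) (nat_lit 320) (nat_lit 289) (nat_lit 171)) (XT.lf (nat_lit 0) (nat_lit 1135295454148) (nat_lit 152) (nat_lit 3914012207360) (nat_lit 0) (nat_lit 377578267423) (nat_lit 5) (nat_lit 5) (nat_lit 7) (nat_lit 4) (nat_lit 5) (nat_lit 4) (nat_lit 321) (nat_lit 289) (nat_lit 170))) (XT.nd (nat_lit 78) (nat_lit 0) (nat_lit 0) (XT.lf (nat_lit 0) (nat_lit 2265657905458) (nat_lit 152) (nat_lit 2381169570115) (nat_lit 0) (nat_lit 1507940712820) (nat_lit 5) (nat_lit 5) (nat_lit 7) (nat_lit 4) (nat_lit 5) (nat_lit 4) (nat_lit 322) (nat_lit 289) (nat_lit 169)) (XT.lf (nat_lit 0) (nat_lit 3565574708798) (nat_lit 152) (nat_lit 618400568215) (nat_lit 0) (nat_lit 2807857511017) (nat_lit 5) (nat_lit 5) (nat_lit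 7) (nat_lit 4) (nat_lit 5) (nat_lit 4) (nat_lit 323) (nat_lit 289) (nat_lit 168))))))))
noncomputable def xc54 : XT := (XT.nd (nat_lit 39936) (nat_lit 0) (nat_lit 76) (XT.nd (nat_lit 38922) (nat_lit 0) (nat_lit 532) (XT.nd (nat_lit 38376) (nat_lit 0) (nat_lit 1976) (XT.nd (nat_lit 38142) (nat_lit 0) (nat_lit 3496) (XT.nd (nat_lit 37986) (nat_lit 0) (nat_lit 3800) (XT.lf (nat_lit 0) (nat_lit 1482967813139) (nat_lit 76) (nat_lit 3613176617447) (nat_lit 76) (nat_lit 2855459415195) (nat_lit 4) (nat_lit 4) (nat_lit 5) (nat_lit 5) (nat_lit 5) (nat_lit 4) (nat_lit 324) (nat_lit 289) (nat_lit 167)) (XT.nd (nat_lit 78) (nat_lit 0) (nat_lit 0) (XT.lf (nat_lit 0) (nat_lit 104067093199) (nat_lit 532) (nat_lit 15414489408) (nat_lit 532) (nat_lit 15414489408) (nat_lit 54) (nat_lit 3) (nat_lit 61) (nat_lit 3) (nat_lit 61) (nat_lit 5) (nat_lit 290) (nat_lit 290) (nat_lit 200)) (XT.lf (nat_lit 76) (nat_lit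 219655403501) (nat_lit 0) (nat_lit 9373064332) (nat_lit 532) (nat_lit 60575346864) (nat_lit 55) (nat_lit 5) (nat_lit 54) (nat_lit 3) (nat_lit 61) (nat_lit 5) (nat_lit 291) (nat_lit 290) (nat_lit 199)))) (XT.nd (nat_lit 78) (nat_lit 380) (nat_lit 0) (XT.lf (nat_lit 76) (nat_lit 201179786154) (nat_lit 0) (nat_lit 63760553936) (nat_lit 532) (nat_lit 46496220474) (nat_lit 56) (nat_lit 5) (nat_lit 55) (nat_lit 5) (nat_lit 62) (nat_lit 5) (nat_lit 292) (nat_lit 290) (nat_lit 198)) (XT.nd (nat_lit 78) (nat_lit 456) (nat_lit 0) (XT.lf (nat_lit 76) (nat_lit 184811631270) (nat_lit 0) (nat_lit 133173311515) (nat_lit 532) (nat_lit 17619599981) (nat_lit 57) (nat_lit 5) (nat_lit 56) (nat_lit 5) (nat_lit 63) (nat_lit 5) (nat_lit 293) (nat_lit 290) (nat_lit 197)) (XT.lf (nat_lit 0) (nat_lit 27664273124) (nat_lit 532) (nat_lit 192071517190) (nat_lit 76) (nat_lit 142603495185) (nat_lit 50) (nat_lit 5) (nat_lit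 57) (nat_lit 5) (nat_lit 51) (nat_lit 5) (nat_lit 294) (nat_lit 290) (nat_lit 196))))) (XT.nd (nat_lit 234) (nat_lit 760) (nat_lit 0) (XT.nd (nat_lit 78) (nat_lit 456) (nat_lit 0) (XT.lf (nat_lit 0) (nat_lit 92407790781) (nat_lit 380) (nat_lit 234154272856) (nat_lit 76) (nat_lit 65388736905) (nat_lit 46) (nat_lit 5) (nat_lit 51) (nat_lit 5) (nat_lit 47) (nat_lit 5) (nat_lit 295) (nat_lit 290) (nat_lit 195)) (XT.nd (nat_lit 78) (nat_lit 228) (nat_lit 0) (XT.lf (nat_lit 0) (nat_lit 147368559489) (nat_lit 228) (nat_lit 34852875168) (nat_lit 304) (nat_lit 242553920558) (nat_lit 43) (nat_lit 5) (nat_lit 46) (nat_lit 5) (nat_lit 47) (nat_lit 5) (nat_lit 296) (nat_lit 290) (nat_lit 194)) (XT.lf (nat_lit 0) (nat_lit 137807993988) (nat_lit 228) (nat_lit 165237226757) (nat_lit 304) (nat_lit 158075324917) (nat_lit 40) (nat_lit 5) (nat_lit 43) (nat_lit 5) (nat_lit 44) (nat_lit 5) (nat_lit 297) (nat_lit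 290) (nat_lit 193)))) (XT.nd (nat_lit 156) (nat_lit 304) (nat_lit 0) (XT.nd (nat_lit 78) (nat_lit 304) (nat_lit 0) (XT.lf (nat_lit 0) (nat_lit 131121061903) (nat_lit 152) (nat_lit 327371727931) (nat_lit 228) (nat_lit 43104707829) (nat_lit 38) (nat_lit 5) (nat_lit 40) (nat_lit 5) (nat_lit 41) (nat_lit 5) (nat_lit 298) (nat_lit 290) (nat_lit 192)) (XT.lf (nat_lit 0) (nat_lit 102453254493) (nat_lit 304) (nat_lit 421944950775) (nat_lit 76) (nat_lit 22152378983) (nat_lit 34) (nat_lit 5) (nat_lit 38) (nat_lit 5) (nat_lit 35) (nat_lit 5) (nat_lit 299) (nat_lit 290) (nat_lit 191))) (XT.nd (nat_lit 78) (nat_lit 152) (nat_lit 0) (XT.lf (nat_lit 0) (nat_lit 114186482285) (nat_lit 152) (nat_lit 176045262224) (nat_lit 228) (nat_lit 306090192184) (nat_lit 32) (nat_lit 5) (nat_lit 34) (nat_lit 5) (nat_lit 35) (nat_lit 5) (nat_lit 300) (nat_lit 290) (nat_lit 190)) (XT.lf (nat_lit 0) (nat_lit 103153330538)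 (nat_lit 152) (nat_lit 423508653393) (nat_lit 228) (nat_lit 125258210117) (nat_lit 30) (nat_lit 5) (nat_lit 32) (nat_lit 5) (nat_lit 33) (nat_lit 5) (nat_lit 301) (nat_lit 290) (nat_lit 189)))))) (XT.nd (nat_lit 468) (nat_lit 684) (nat_lit 0) (XT.nd (nat_lit 234) (nat_lit 304) (nat_lit 0) (XT.nd (nat_lit 78) (nat_lit 228) (nat_lit 0) (XT.lf (nat_lit 0) (nat_lit 87869838251) (nat_lit 152) (nat_lit 12075415278) (nat_lit 228) (nat_lit 614043136236) (nat_lit 27) (nat_lit 5) (nat_lit 29) (nat_lit 5) (nat_lit 30) (nat_lit 5) (nat_lit 302) (nat_lit 290) (nat_lit 188)) (XT.nd (nat_lit 78) (nat_lit 76) (nat_lit 0) (XT.lf (nat_lit 0) (nat_lit 57029614419) (nat_lit 152) (nat_lit 323545836849) (nat_lit 228) (nat_lit 402206054987) (nat_lit 25) (nat_lit 5) (nat_lit 27) (nat_lit 5) (nat_lit 28) (nat_lit 5) (nat_lit 303) (nat_lit 290) (nat_lit 187)) (XT.lf (nat_lit 0) (nat_lit 16838683302) (nat_lit 76)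 (nat_lit 709229232350) (nat_lit 152) (nat_lit 134004255678) (nat_lit 24) (nat_lit 5) (nat_lit 25) (nat_lit 5) (nat_lit 26) (nat_lit 4) (nat_lit 304) (nat_lit 290) (nat_lit 186)))) (XT.nd (nat_lit 78) (nat_lit 228) (nat_lit 0) (XT.lf (nat_lit 0) (nat_lit 196328934616) (nat_lit 152) (nat_lit 46191315885) (nat_lit 76) (nat_lit 703650449734) (nat_lit 23) (nat_lit 5) (nat_lit 25) (nat_lit 5) (nat_lit 24) (nat_lit 5) (nat_lit 305) (nat_lit 290) (nat_lit 185)) (XT.nd (nat_lit 78) (nat_lit 76) (nat_lit 0) (XT.lf (nat_lit 0) (nat_lit 598186461429) (nat_lit 228) (nat_lit 138533973711) (nat_lit 76) (nat_lit 305792410562) (nat_lit 21) (nat_lit 5) (nat_lit 24) (nat_lit 5) (nat_lit 22) (nat_lit 4) (nat_lit 306) (nat_lit 290) (nat_lit 184)) (XT.lf (nat_lit 0) (nat_lit 883738711905) (nat_lit 76) (nat_lit 205925034148) (nat_lit 152) (nat_lit 61295276678) (nat_lit 20) (nat_lit 5) (nat_lit 21) (nat_lit 5)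 (nat_lit 22) (nat_lit 4) (nat_lit 307) (nat_lit 290) (nat_lit 183))))) (XT.nd (nat_lit 234) (nat_lit 304) (nat_lit 0) (XT.nd (nat_lit 78) (nat_lit 228) (nat_lit 0) (XT.lf (nat_lit 0) (nat_lit 394774179267) (nat_lit 152) (nat_lit 459204834554) (nat_lit 76) (nat_lit 418199363154) (nat_lit 18) (nat_lit 5) (nat_lit 20) (nat_lit 5) (nat_lit 19) (nat_lit 4) (nat_lit 308) (nat_lit 290) (nat_lit 182)) (XT.nd (nat_lit 78) (nat_lit 152) (nat_lit 0) (XT.lf (nat_lit 0) (nat_lit 687204194546) (nat_lit 76) (nat_lit 258728194139) (nat_lit 152) (nat_lit 463096262935) (nat_lit 17) (nat_lit 5) (nat_lit 18) (nat_lit 5) (nat_lit 19) (nat_lit 4) (nat_lit 309) (nat_lit 290) (nat_lit 181)) (XT.lf (nat_lit 0) (nat_lit 49151135912) (nat_lit 152) (nat_lit 1083261206139) (nat_lit 76) (nat_lit 431051505826) (nat_lit 15) (nat_lit 5) (nat_lit 17) (nat_lit 5) (nat_lit 16) (nat_lit 4) (nat_lit 310) (nat_lit 290) (nat_lit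 180)))) (XT.nd (nat_lit 156) (nat_lit 228) (nat_lit 0) (XT.nd (nat_lit 78) (nat_lit 0) (nat_lit 0) (XT.lf (nat_lit 0) (nat_lit 154059036727) (nat_lit 76) (nat_lit 489957616212) (nat_lit 152) (nat_lit 1093429274714) (nat_lit 14) (nat_lit 5) (nat_lit 15) (nat_lit 5) (nat_lit 16) (nat_lit 4) (nat_lit 311) (nat_lit 290) (nat_lit 179)) (XT.lf (nat_lit 0) (nat_lit 1366454326054) (nat_lit 152) (nat_lit 299230419624) (nat_lit 0) (nat_lit 268773187453) (nat_lit 14) (nat_lit 5) (nat_lit 16) (nat_lit 4) (nat_lit 14) (nat_lit 4) (nat_lit 312) (nat_lit 290) (nat_lit 178))) (XT.nd (nat_lit 78) (nat_lit 76) (nat_lit 0) (XT.lf (nat_lit 0) (nat_lit 78559923311) (nat_lit 152) (nat_lit 934276520901) (nat_lit 76) (nat_lit 1144584642903) (nat_lit 12) (nat_lit 5) (nat_lit 14) (nat_lit 5) (nat_lit 13) (nat_lit 4) (nat_lit 313) (nat_lit 290) (nat_lit 177)) (XT.lf (nat_lit 0) (nat_lit 592571416138) (nat_lit 76)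 (nat_lit 220050024892) (nat_lit 152) (nat_lit 1598095357161) (nat_lit 11) (nat_lit 5) (nat_lit 12) (nat_lit 5) (nat_lit 13) (nat_lit 4) (nat_lit 314) (nat_lit 290) (nat_lit 176))))))) (XT.nd (nat_lit 39000) (nat_lit 0) (nat_lit 1368) (XT.nd (nat_lit 468) (nat_lit 152) (nat_lit 0) (XT.nd (nat_lit 234) (nat_lit 76) (nat_lit 0) (XT.nd (nat_lit 78) (nat_lit 228) (nat_lit 0) (XT.lf (nat_lit 0) (nat_lit 1701333420118) (nat_lit 152) (nat_lit 312148207041) (nat_lit 0) (nat_lit 684961940084) (nat_lit 11) (nat_lit 5) (nat_lit 13) (nat_lit 4) (nat_lit 11) (nat_lit 4) (nat_lit 315) (nat_lit 290) (nat_lit 175)) (XT.nd (nat_lit 78) (nat_lit 152) (nat_lit 0) (XT.lf (nat_lit 0) (nat_lit 1488103412076) (nat_lit 76) (nat_lit 1277123719334) (nat_lit 76) (nat_lit 260752225426) (nat_lit 10) (nat_lit 4) (nat_lit 11) (nat_lit 5) (nat_lit 11) (nat_lit 4) (nat_lit 316) (nat_lit 290) (nat_lit 174)) (XT.lf (nat_lit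 0) (nat_lit 169526602754) (nat_lit 76) (nat_lit 400616718748) (nat_lit 152) (nat_lit 2830302533915) (nat_lit 8) (nat_lit 5) (nat_lit 9) (nat_lit 5) (nat_lit 10) (nat_lit 4) (nat_lit 317) (nat_lit 290) (nat_lit 173)))) (XT.nd (nat_lit 78) (nat_lit 76) (nat_lit 0) (XT.lf (nat_lit 0) (nat_lit 1571216441137) (nat_lit 152) (nat_lit 1624313746603) (nat_lit 0) (nat_lit 630131703671) (nat_lit 8) (nat_lit 5) (nat_lit 10) (nat_lit 4) (nat_lit 8) (nat_lit 4) (nat_lit 318) (nat_lit 290) (nat_lit 172)) (XT.nd (nat_lit 78) (nat_lit 0) (nat_lit 0) (XT.lf (nat_lit 0) (nat_lit 223376683644) (nat_lit 76) (nat_lit 2515526107059) (nat_lit 76) (nat_lit 1574441361147) (nat_lit 7) (nat_lit 4) (nat_lit 8) (nat_lit 5) (nat_lit 8) (nat_lit 4) (nat_lit 319) (nat_lit 290) (nat_lit 171)) (XT.lf (nat_lit 0) (nat_lit 2446584147557) (nat_lit 76) (nat_lit 1682448073400) (nat_lit 76) (nat_lit 741363320143) (nat_lit 7)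 (nat_lit 4) (nat_lit 8) (nat_lit 5) (nat_lit 8) (nat_lit 4) (nat_lit 320) (nat_lit 290) (nat_lit 170))))) (XT.nd (nat_lit 234) (nat_lit 0) (nat_lit 0) (XT.nd (nat_lit 78) (nat_lit 76) (nat_lit 0) (XT.lf (nat_lit 0) (nat_lit 205837377809) (nat_lit 152) (nat_lit 512943013800) (nat_lit 76) (nat_lit 4791807362612) (nat_lit 6) (nat_lit 5) (nat_lit 8) (nat_lit 5) (nat_lit 7) (nat_lit 4) (nat_lit 321) (nat_lit 290) (nat_lit 169)) (XT.nd (nat_lit 78) (nat_lit 0) (nat_lit 0) (XT.lf (nat_lit 0) (nat_lit 1305589940963) (nat_lit 152) (nat_lit 4501113705400) (nat_lit 0) (nat_lit 434215158373) (nat_lit 5) (nat_lit 5) (nat_lit 7) (nat_lit 4) (nat_lit 5) (nat_lit 4) (nat_lit 322) (nat_lit 290) (nat_lit 168)) (XT.lf (nat_lit 0) (nat_lit 2605506737966) (nat_lit 152) (nat_lit 2738344716011) (nat_lit 0) (nat_lit 1734131950905) (nat_lit 5) (nat_lit 5) (nat_lit 7) (nat_lit 4) (nat_lit 5) (nat_lit 4) (nat_lit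 323) (nat_lit 290) (nat_lit 167)))) (XT.nd (nat_lit 38142) (nat_lit 0) (nat_lit 3724) (XT.nd (nat_lit 38064) (nat_lit 0) (nat_lit 3724) (XT.lf (nat_lit 0) (nat_lit 4100411042674) (nat_lit 152) (nat_lit 711160401603) (nat_lit 0) (nat_lit 3229036251724) (nat_lit 5) (nat_lit 5) (nat_lit 7) (nat_lit 4) (nat_lit 5) (nat_lit 4) (nat_lit 324) (nat_lit 290) (nat_lit 166)) (XT.lf (nat_lit 0) (nat_lit 119678594798) (nat_lit 532) (nat_lit 17725885192) (nat_lit 532) (nat_lit 17725885192) (nat_lit 54) (nat_lit 3) (nat_lit 61) (nat_lit 3) (nat_lit 61) (nat_lit 5) (nat_lit 291) (nat_lit 291) (nat_lit 198))) (XT.nd (nat_lit 78) (nat_lit 0) (nat_lit 76) (XT.lf (nat_lit 76) (nat_lit 252605137637) (nat_lit 0) (nat_lit 10780134817) (nat_lit 532) (nat_lit 69658907127) (nat_lit 55) (nat_lit 5) (nat_lit 54) (nat_lit 3) (nat_lit 61) (nat_lit 5) (nat_lit 292) (nat_lit 291) (nat_lit 197)) (XT.lf (nat_lit 76) (nat_lit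 231358271414) (nat_lit 0) (nat_lit 73325336816) (nat_lit 532) (nat_lit 53468255078) (nat_lit 56) (nat_lit 5) (nat_lit 55) (nat_lit 5) (nat_lit 62) (nat_lit 5) (nat_lit 293) (nat_lit 291) (nat_lit 196)))))) (XT.nd (nat_lit 468) (nat_lit 1140) (nat_lit 0) (XT.nd (nat_lit 234) (nat_lit 608) (nat_lit 0) (XT.nd (nat_lit 78) (nat_lit 760) (nat_lit 0) (XT.lf (nat_lit 76) (nat_lit 212534946260) (nat_lit 0) (nat_lit 153149689010) (nat_lit 532) (nat_lit 20260429372) (nat_lit 57) (nat_lit 5) (nat_lit 56) (nat_lit 5) (nat_lit 63) (nat_lit 5) (nat_lit 294) (nat_lit 291) (nat_lit 195)) (XT.nd (nat_lit 78) (nat_lit 304) (nat_lit 0) (XT.lf (nat_lit 0) (nat_lit 31815688700) (nat_lit 532) (nat_lit 220880556743) (nat_lit 76) (nat_lit 163993788133) (nat_lit 50) (nat_lit 5) (nat_lit 57) (nat_lit 5) (nat_lit 51) (nat_lit 5) (nat_lit 295) (nat_lit 291) (nat_lit 194)) (XT.lf (nat_lit 0) (nat_lit 106270538850)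 (nat_lit 380) (nat_lit 269275738954) (nat_lit 76) (nat_lit 75197014046) (nat_lit 46) (nat_lit 5) (nat_lit 51) (nat_lit 5) (nat_lit 47) (nat_lit 5) (nat_lit 296) (nat_lit 291) (nat_lit 193)))) (XT.nd (nat_lit 78) (nat_lit 380) (nat_lit 0) (XT.lf (nat_lit 0) (nat_lit 169475376476) (nat_lit 228) (nat_lit 40080683685) (nat_lit 304) (nat_lit 278935483408) (nat_lit 43) (nat_lit 5) (nat_lit 46) (nat_lit 5) (nat_lit 47) (nat_lit 5) (nat_lit 297) (nat_lit 291) (nat_lit 192)) (XT.nd (nat_lit 78) (nat_lit 152) (nat_lit 0) (XT.lf (nat_lit 0) (nat_lit 158480698880) (nat_lit 228) (nat_lit 190022570111) (nat_lit 304) (nat_lit 181785255481) (nat_lit 40) (nat_lit 5) (nat_lit 43) (nat_lit 5) (nat_lit 44) (nat_lit 5) (nat_lit 298) (nat_lit 291) (nat_lit 191)) (XT.lf (nat_lit 0) (nat_lit 150790688544) (nat_lit 152) (nat_lit 376477160206) (nat_lit 228) (nat_lit 49569180739) (nat_lit 38) (nat_lit 5) (nat_lit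 40) (nat_lit 5) (nat_lit 41) (nat_lit 5) (nat_lit 299) (nat_lit 291) (nat_lit 190))))) (XT.nd (nat_lit 234) (nat_lit 532) (nat_lit 0) (XT.nd (nat_lit 78) (nat_lit 304) (nat_lit 0) (XT.lf (nat_lit 0) (nat_lit 117822303501) (nat_lit 304) (nat_lit 485235215327) (nat_lit 76) (nat_lit 25475566914) (nat_lit 34) (nat_lit 5) (nat_lit 38) (nat_lit 5) (nat_lit 35) (nat_lit 5) (nat_lit 300) (nat_lit 291) (nat_lit 189)) (XT.nd (nat_lit 78) (nat_lit 152) (nat_lit 0) (XT.lf (nat_lit 0) (nat_lit 131315807581) (nat_lit 152) (nat_lit 202451653607) (nat_lit 228) (nat_lit 352002688496) (nat_lit 32) (nat_lit 5) (nat_lit 34) (nat_lit 5) (nat_lit 35) (nat_lit 5) (nat_lit 301) (nat_lit 291) (nat_lit 188)) (XT.lf (nat_lit 0) (nat_lit 118627630743) (nat_lit 152) (nat_lit 487034520818) (nat_lit 228) (nat_lit 144046001024) (nat_lit 30) (nat_lit 5) (nat_lit 32) (nat_lit 5) (nat_lit 33) (nat_lit 5) (nat_lit 302) (nat_lit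 291) (nat_lit 187)))) (XT.nd (nat_lit 156) (nat_lit 152) (nat_lit 0) (XT.nd (nat_lit 78) (nat_lit 152) (nat_lit 0) (XT.lf (nat_lit 0) (nat_lit 101051548412) (nat_lit 152) (nat_lit 13886299841) (nat_lit 228) (nat_lit 706148734663) (nat_lit 27) (nat_lit 5) (nat_lit 29) (nat_lit 5) (nat_lit 30) (nat_lit 5) (nat_lit 303) (nat_lit 291) (nat_lit 186)) (XT.lf (nat_lit 0) (nat_lit 65585236887) (nat_lit 152) (nat_lit 372077270876) (nat_lit 228) (nat_lit 462536164648) (nat_lit 25) (nat_lit 5) (nat_lit 27) (nat_lit 5) (nat_lit 28) (nat_lit 5) (nat_lit 304) (nat_lit 291) (nat_lit 185))) (XT.nd (nat_lit 78) (nat_lit 76) (nat_lit 0) (XT.lf (nat_lit 0) (nat_lit 19365611198) (nat_lit 76) (nat_lit 815613170540) (nat_lit 152) (nat_lit 154104160403) (nat_lit 24) (nat_lit 5) (nat_lit 25) (nat_lit 5) (nat_lit 26) (nat_lit 4) (nat_lit 305) (nat_lit 291) (nat_lit 184)) (XT.lf (nat_lit 0) (nat_lit 225778880833)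 (nat_lit 152) (nat_lit 53119002272) (nat_lit 76) (nat_lit 809198373210) (nat_lit 23) (nat_lit 5) (nat_lit 25) (nat_lit 5) (nat_lit 24) (nat_lit 5) (nat_lit 306) (nat_lit 291) (nat_lit 183))))))))
noncomputable def xc55 : XT := (XT.nd (nat_lit 40092) (nat_lit 0) (nat_lit 0) (XT.nd (nat_lit 1014) (nat_lit 228) (nat_lit 0) (XT.nd (nat_lit 468) (nat_lit 456) (nat_lit 0) (XT.nd (nat_lit 234) (nat_lit 304) (nat_lit 0) (XT.nd (nat_lit 78) (nat_lit 228) (nat_lit 0) (XT.lf (nat_lit 0) (nat_lit 687914988925) (nat_lit 228) (nat_lit 159313109044) (nat_lit 76) (nat_lit 351661629515) (nat_lit 21) (nat_lit 5) (nat_lit 24) (nat_lit 5) (nat_lit 22) (nat_lit 4) (nat_lit 307) (nat_lit 291) (nat_lit 182)) (XT.nd (nat_lit 78) (nat_lit 152) (nat_lit 0) (XT.lf (nat_lit 0) (nat_lit 1016300398095) (nat_lit 76) (nat_lit 236813416477) (nat_lit 152) (nat_lit 70489020681) (nat_lit 20) (nat_lit 5) (nat_lit 21) (nat_lit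 5) (nat_lit 22) (nat_lit 4) (nat_lit 308) (nat_lit 291) (nat_lit 181)) (XT.lf (nat_lit 0) (nat_lit 453990787009) (nat_lit 152) (nat_lit 528084699941) (nat_lit 76) (nat_lit 480929607814) (nat_lit 18) (nat_lit 5) (nat_lit 20) (nat_lit 5) (nat_lit 19) (nat_lit 4) (nat_lit 309) (nat_lit 291) (nat_lit 180)))) (XT.nd (nat_lit 78) (nat_lit 228) (nat_lit 0) (XT.lf (nat_lit 0) (nat_lit 790285610747) (nat_lit 76) (nat_lit 297537073301) (nat_lit 152) (nat_lit 532560230099) (nat_lit 17) (nat_lit 5) (nat_lit 18) (nat_lit 5) (nat_lit 19) (nat_lit 4) (nat_lit 310) (nat_lit 291) (nat_lit 179)) (XT.nd (nat_lit 78) (nat_lit 76) (nat_lit 0) (XT.lf (nat_lit 0) (nat_lit 56524222320) (nat_lit 152) (nat_lit 1245749620018) (nat_lit 76) (nat_lit 495709549236) (nat_lit 15) (nat_lit 5) (nat_lit 17) (nat_lit 5) (nat_lit 16) (nat_lit 4) (nat_lit 311) (nat_lit 291) (nat_lit 178)) (XT.lf (nat_lit 0) (nat_lit 177168594351)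 (nat_lit 76) (nat_lit 563450935171) (nat_lit 152) (nat_lit 1257443256811) (nat_lit 14) (nat_lit 5) (nat_lit 15) (nat_lit 5) (nat_lit 16) (nat_lit 4) (nat_lit 312) (nat_lit 291) (nat_lit 177))))) (XT.nd (nat_lit 234) (nat_lit 228) (nat_lit 0) (XT.nd (nat_lit 78) (nat_lit 228) (nat_lit 0) (XT.lf (nat_lit 0) (nat_lit 1571422810982) (nat_lit 152) (nat_lit 344114352304) (nat_lit 0) (nat_lit 309089432780) (nat_lit 14) (nat_lit 5) (nat_lit 16) (nat_lit 4) (nat_lit 14) (nat_lit 4) (nat_lit 313) (nat_lit 291) (nat_lit 176)) (XT.nd (nat_lit 78) (nat_lit 76) (nat_lit 0) (XT.lf (nat_lit 0) (nat_lit 90344225950) (nat_lit 152) (nat_lit 1074417405455) (nat_lit 76) (nat_lit 1316272593522) (nat_lit 12) (nat_lit 5) (nat_lit 14) (nat_lit 5) (nat_lit 13) (nat_lit 4) (nat_lit 314) (nat_lit 291) (nat_lit 175)) (XT.lf (nat_lit 0) (nat_lit 681457671896) (nat_lit 76) (nat_lit 253057271523) (nat_lit 152) (nat_lit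 1837809351495) (nat_lit 11) (nat_lit 5) (nat_lit 12) (nat_lit 5) (nat_lit 13) (nat_lit 4) (nat_lit 315) (nat_lit 291) (nat_lit 174)))) (XT.nd (nat_lit 156) (nat_lit 152) (nat_lit 0) (XT.nd (nat_lit 78) (nat_lit 76) (nat_lit 0) (XT.lf (nat_lit 0) (nat_lit 1956533687413) (nat_lit 152) (nat_lit 358969951002) (nat_lit 0) (nat_lit 787706443480) (nat_lit 11) (nat_lit 5) (nat_lit 13) (nat_lit 4) (nat_lit 11) (nat_lit 4) (nat_lit 316) (nat_lit 291) (nat_lit 173)) (XT.lf (nat_lit 0) (nat_lit 1711319369752) (nat_lit 76) (nat_lit 1468692063203) (nat_lit 76) (nat_lit 299864808780) (nat_lit 10) (nat_lit 4) (nat_lit 11) (nat_lit 5) (nat_lit 11) (nat_lit 4) (nat_lit 317) (nat_lit 291) (nat_lit 172))) (XT.nd (nat_lit 78) (nat_lit 0) (nat_lit 0) (XT.lf (nat_lit 0) (nat_lit 194956012829) (nat_lit 76) (nat_lit 460709023889) (nat_lit 152) (nat_lit 3254847679589) (nat_lit 8) (nat_lit 5) (nat_lit 9) (nat_lit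 5) (nat_lit 10) (nat_lit 4) (nat_lit 318) (nat_lit 291) (nat_lit 171)) (XT.lf (nat_lit 0) (nat_lit 1806899100232) (nat_lit 152) (nat_lit 1867960432757) (nat_lit 0) (nat_lit 724651626642) (nat_lit 8) (nat_lit 5) (nat_lit 10) (nat_lit 4) (nat_lit 8) (nat_lit 4) (nat_lit 319) (nat_lit 291) (nat_lit 170)))))) (XT.nd (nat_lit 38532) (nat_lit 0) (nat_lit 2660) (XT.nd (nat_lit 234) (nat_lit 76) (nat_lit 0) (XT.nd (nat_lit 78) (nat_lit 76) (nat_lit 0) (XT.lf (nat_lit 0) (nat_lit 256883530215) (nat_lit 76) (nat_lit 2892854855129) (nat_lit 76) (nat_lit 1810607375152) (nat_lit 7) (nat_lit 4) (nat_lit 8) (nat_lit 5) (nat_lit 8) (nat_lit 4) (nat_lit 320) (nat_lit 291) (nat_lit 169)) (XT.nd (nat_lit 78) (nat_lit 76) (nat_lit 0) (XT.lf (nat_lit 0) (nat_lit 2813572068841) (nat_lit 76) (nat_lit 1934815138332) (nat_lit 76) (nat_lit 852567652802) (nat_lit 7) (nat_lit 4) (nat_lit 8) (nat_lit 5) (nat_lit 8)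 (nat_lit 4) (nat_lit 321) (nat_lit 291) (nat_lit 168)) (XT.lf (nat_lit 0) (nat_lit 236713121080) (nat_lit 152) (nat_lit 589884198511) (nat_lit 76) (nat_lit 5510578586800) (nat_lit 6) (nat_lit 5) (nat_lit 8) (nat_lit 5) (nat_lit 7) (nat_lit 4) (nat_lit 322) (nat_lit 291) (nat_lit 167)))) (XT.nd (nat_lit 78) (nat_lit 0) (nat_lit 0) (XT.lf (nat_lit 0) (nat_lit 1501428559664) (nat_lit 152) (nat_lit 5176280509366) (nat_lit 0) (nat_lit 499347546183) (nat_lit 5) (nat_lit 5) (nat_lit 7) (nat_lit 4) (nat_lit 5) (nat_lit 4) (nat_lit 323) (nat_lit 291) (nat_lit 166)) (XT.nd (nat_lit 38142) (nat_lit 0) (nat_lit 3724) (XT.lf (nat_lit 0) (nat_lit 2996332859580) (nat_lit 152) (nat_lit 3149096204417) (nat_lit 0) (nat_lit 1994251842718) (nat_lit 5) (nat_lit 5) (nat_lit 7) (nat_lit 4) (nat_lit 5) (nat_lit 4) (nat_lit 324) (nat_lit 291) (nat_lit 165)) (XT.lf (nat_lit 0) (nat_lit 137631471064) (nat_lit 532)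 (nat_lit 20384179973) (nat_lit 532) (nat_lit 20384179973) (nat_lit 54) (nat_lit 3) (nat_lit 61) (nat_lit 3) (nat_lit 61) (nat_lit 5) (nat_lit 292) (nat_lit 292) (nat_lit 196))))) (XT.nd (nat_lit 234) (nat_lit 1064) (nat_lit 0) (XT.nd (nat_lit 78) (nat_lit 0) (nat_lit 76) (XT.lf (nat_lit 76) (nat_lit 290496984736) (nat_lit 0) (nat_lit 12397994990) (nat_lit 532) (nat_lit 80105670025) (nat_lit 55) (nat_lit 5) (nat_lit 54) (nat_lit 3) (nat_lit 61) (nat_lit 5) (nat_lit 293) (nat_lit 292) (nat_lit 195)) (XT.nd (nat_lit 78) (nat_lit 0) (nat_lit 76) (XT.lf (nat_lit 76) (nat_lit 266063159450) (nat_lit 0) (nat_lit 84324666479) (nat_lit 532) (nat_lit 61486679753) (nat_lit 56) (nat_lit 5) (nat_lit 55) (nat_lit 5) (nat_lit 62) (nat_lit 5) (nat_lit 294) (nat_lit 292) (nat_lit 194)) (XT.lf (nat_lit 76) (nat_lit 244416375571) (nat_lit 0) (nat_lit 176122430276) (nat_lit 532) (nat_lit 23297897857) (nat_lit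 57) (nat_lit 5) (nat_lit 56) (nat_lit 5) (nat_lit 63) (nat_lit 5) (nat_lit 295) (nat_lit 292) (nat_lit 193)))) (XT.nd (nat_lit 156) (nat_lit 456) (nat_lit 0) (XT.nd (nat_lit 78) (nat_lit 304) (nat_lit 0) (XT.lf (nat_lit 0) (nat_lit 36589383862) (nat_lit 532) (nat_lit 254011363864) (nat_lit 76) (nat_lit 188592681435) (nat_lit 50) (nat_lit 5) (nat_lit 57) (nat_lit 5) (nat_lit 51) (nat_lit 5) (nat_lit 296) (nat_lit 292) (nat_lit 192)) (XT.lf (nat_lit 0) (nat_lit 122212313970) (nat_lit 380) (nat_lit 309665833385) (nat_lit 76) (nat_lit 86476540901) (nat_lit 46) (nat_lit 5) (nat_lit 51) (nat_lit 5) (nat_lit 47) (nat_lit 5) (nat_lit 297) (nat_lit 292) (nat_lit 191))) (XT.nd (nat_lit 78) (nat_lit 228) (nat_lit 0) (XT.lf (nat_lit 0) (nat_lit 194897842164) (nat_lit 228) (nat_lit 46092693416) (nat_lit 304) (nat_lit 320774652624) (nat_lit 43) (nat_lit 5) (nat_lit 46) (nat_lit 5) (nat_lit 47) (nat_lit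 5) (nat_lit 298) (nat_lit 292) (nat_lit 190)) (XT.lf (nat_lit 0) (nat_lit 182253942309) (nat_lit 228) (nat_lit 218525773655) (nat_lit 304) (nat_lit 209052009267) (nat_lit 40) (nat_lit 5) (nat_lit 43) (nat_lit 5) (nat_lit 44) (nat_lit 5) (nat_lit 299) (nat_lit 292) (nat_lit 189))))))) (XT.nd (nat_lit 1014) (nat_lit 760) (nat_lit 0) (XT.nd (nat_lit 468) (nat_lit 760) (nat_lit 0) (XT.nd (nat_lit 234) (nat_lit 532) (nat_lit 0) (XT.nd (nat_lit 78) (nat_lit 456) (nat_lit 0) (XT.lf (nat_lit 0) (nat_lit 173410401357) (nat_lit 152) (nat_lit 432948487042) (nat_lit 228) (nat_lit 57003625324) (nat_lit 38) (nat_lit 5) (nat_lit 40) (nat_lit 5) (nat_lit 41) (nat_lit 5) (nat_lit 300) (nat_lit 292) (nat_lit 188)) (XT.nd (nat_lit 78) (nat_lit 152) (nat_lit 0) (XT.lf (nat_lit 0) (nat_lit 135496451169) (nat_lit 304) (nat_lit 558019379997) (nat_lit 76) (nat_lit 29297152297) (nat_lit 34) (nat_lit 5) (nat_lit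 38) (nat_lit 5) (nat_lit 35) (nat_lit 5) (nat_lit 301) (nat_lit 292) (nat_lit 187)) (XT.lf (nat_lit 0) (nat_lit 151014201745) (nat_lit 152) (nat_lit 232819100740) (nat_lit 228) (nat_lit 404802311040) (nat_lit 32) (nat_lit 5) (nat_lit 34) (nat_lit 5) (nat_lit 35) (nat_lit 5) (nat_lit 302) (nat_lit 292) (nat_lit 186)))) (XT.nd (nat_lit 78) (nat_lit 380) (nat_lit 0) (XT.lf (nat_lit 0) (nat_lit 136422758813) (nat_lit 152) (nat_lit 560089373357) (nat_lit 228) (nat_lit 165652189941) (nat_lit 30) (nat_lit 5) (nat_lit 32) (nat_lit 5) (nat_lit 33) (nat_lit 5) (nat_lit 303) (nat_lit 292) (nat_lit 185)) (XT.nd (nat_lit 78) (nat_lit 152) (nat_lit 0) (XT.lf (nat_lit 0) (nat_lit 116210214075) (nat_lit 152) (nat_lit 15968921393) (nat_lit 228) (nat_lit 812070385498) (nat_lit 27) (nat_lit 5) (nat_lit 29) (nat_lit 5) (nat_lit 30) (nat_lit 5) (nat_lit 304) (nat_lit 292) (nat_lit 184)) (XT.lf (nat_lit 0)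 (nat_lit 75423914901) (nat_lit 152) (nat_lit 427888527669) (nat_lit 228) (nat_lit 531915985499) (nat_lit 25) (nat_lit 5) (nat_lit 27) (nat_lit 5) (nat_lit 28) (nat_lit 5) (nat_lit 305) (nat_lit 292) (nat_lit 183))))) (XT.nd (nat_lit 234) (nat_lit 456) (nat_lit 0) (XT.nd (nat_lit 78) (nat_lit 228) (nat_lit 0) (XT.lf (nat_lit 0) (nat_lit 22271303843) (nat_lit 76) (nat_lit 937954808380) (nat_lit 152) (nat_lit 177219229737) (nat_lit 24) (nat_lit 5) (nat_lit 25) (nat_lit 5) (nat_lit 26) (nat_lit 4) (nat_lit 306) (nat_lit 292) (nat_lit 182)) (XT.nd (nat_lit 78) (nat_lit 152) (nat_lit 0) (XT.lf (nat_lit 0) (nat_lit 259646171199) (nat_lit 152) (nat_lit 61086088154) (nat_lit 76) (nat_lit 930578398391) (nat_lit 23) (nat_lit 5) (nat_lit 25) (nat_lit 5) (nat_lit 24) (nat_lit 5) (nat_lit 307) (nat_lit 292) (nat_lit 181)) (XT.lf (nat_lit 0) (nat_lit 791102659404) (nat_lit 228) (nat_lit 183209348955)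 (nat_lit 76) (nat_lit 404411144164) (nat_lit 21) (nat_lit 5) (nat_lit 24) (nat_lit 5) (nat_lit 22) (nat_lit 4) (nat_lit 308) (nat_lit 292) (nat_lit 180)))) (XT.nd (nat_lit 156) (nat_lit 228) (nat_lit 0) (XT.nd (nat_lit 78) (nat_lit 152) (nat_lit 0) (XT.lf (nat_lit 0) (nat_lit 1168746122765) (nat_lit 76) (nat_lit 272335147064) (nat_lit 152) (nat_lit 81061959796) (nat_lit 20) (nat_lit 5) (nat_lit 21) (nat_lit 5) (nat_lit 22) (nat_lit 4) (nat_lit 309) (nat_lit 292) (nat_lit 179)) (XT.lf (nat_lit 0) (nat_lit 522089768654) (nat_lit 152) (nat_lit 607296754803) (nat_lit 76) (nat_lit 553069306216) (nat_lit 18) (nat_lit 5) (nat_lit 20) (nat_lit 5) (nat_lit 19) (nat_lit 4) (nat_lit 310) (nat_lit 292) (nat_lit 178))) (XT.nd (nat_lit 78) (nat_lit 152) (nat_lit 0) (XT.lf (nat_lit 0) (nat_lit 908829047458) (nat_lit 76) (nat_lit 342167369678) (nat_lit 152) (nat_lit 612443907505) (nat_lit 17) (nat_lit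 5) (nat_lit 18) (nat_lit 5) (nat_lit 19) (nat_lit 4) (nat_lit 311) (nat_lit 292) (nat_lit 177)) (XT.lf (nat_lit 0) (nat_lit 65003170240) (nat_lit 152) (nat_lit 1432611483027) (nat_lit 76) (nat_lit 570066221725) (nat_lit 15) (nat_lit 5) (nat_lit 17) (nat_lit 5) (nat_lit 16) (nat_lit 4) (nat_lit 312) (nat_lit 292) (nat_lit 176)))))) (XT.nd (nat_lit 468) (nat_lit 380) (nat_lit 0) (XT.nd (nat_lit 234) (nat_lit 152) (nat_lit 0) (XT.nd (nat_lit 78) (nat_lit 152) (nat_lit 0) (XT.lf (nat_lit 0) (nat_lit 203744414404) (nat_lit 76) (nat_lit 647968330856) (nat_lit 152) (nat_lit 1446059435986) (nat_lit 14) (nat_lit 5) (nat_lit 15) (nat_lit 5) (nat_lit 16) (nat_lit 4) (nat_lit 313) (nat_lit 292) (nat_lit 175)) (XT.nd (nat_lit 78) (nat_lit 152) (nat_lit 0) (XT.lf (nat_lit 0) (nat_lit 1807136486709) (nat_lit 152) (nat_lit 395731028580) (nat_lit 0) (nat_lit 355453049745) (nat_lit 14) (nat_lit 5) (nat_lit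 16) (nat_lit 4) (nat_lit 14) (nat_lit 4) (nat_lit 314) (nat_lit 292) (nat_lit 174)) (XT.lf (nat_lit 0) (nat_lit 103896097380) (nat_lit 152) (nat_lit 1235579567442) (nat_lit 76) (nat_lit 1513713674750) (nat_lit 12) (nat_lit 5) (nat_lit 14) (nat_lit 5) (nat_lit 13) (nat_lit 4) (nat_lit 315) (nat_lit 292) (nat_lit 173)))) (XT.nd (nat_lit 78) (nat_lit 76) (nat_lit 0) (XT.lf (nat_lit 0) (nat_lit 783676733521) (nat_lit 76) (nat_lit 291015667845) (nat_lit 152) (nat_lit 2113480520389) (nat_lit 11) (nat_lit 5) (nat_lit 12) (nat_lit 5) (nat_lit 13) (nat_lit 4) (nat_lit 316) (nat_lit 292) (nat_lit 172)) (XT.nd (nat_lit 78) (nat_lit 76) (nat_lit 0) (XT.lf (nat_lit 0) (nat_lit 2250013932794) (nat_lit 152) (nat_lit 412815075339) (nat_lit 0) (nat_lit 905862570595) (nat_lit 11) (nat_lit 5) (nat_lit 13) (nat_lit 4) (nat_lit 11) (nat_lit 4) (nat_lit 317) (nat_lit 292) (nat_lit 171)) (XT.lf (nat_lit 0) (nat_lit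 1968017612353) (nat_lit 76) (nat_lit 1688995710844) (nat_lit 76) (nat_lit 344844340713) (nat_lit 10) (nat_lit 4) (nat_lit 11) (nat_lit 5) (nat_lit 11) (nat_lit 4) (nat_lit 318) (nat_lit 292) (nat_lit 170))))) (XT.nd (nat_lit 234) (nat_lit 152) (nat_lit 0) (XT.nd (nat_lit 78) (nat_lit 76) (nat_lit 0) (XT.lf (nat_lit 0) (nat_lit 224199732078) (nat_lit 76) (nat_lit 529815224223) (nat_lit 152) (nat_lit 3743074654276) (nat_lit 8) (nat_lit 5) (nat_lit 9) (nat_lit 5) (nat_lit 10) (nat_lit 4) (nat_lit 319) (nat_lit 292) (nat_lit 169)) (XT.nd (nat_lit 78) (nat_lit 76) (nat_lit 0) (XT.lf (nat_lit 0) (nat_lit 2077934111147) (nat_lit 152) (nat_lit 2148154213484) (nat_lit 0) (nat_lit 833349497233) (nat_lit 8) (nat_lit 5) (nat_lit 10) (nat_lit 4) (nat_lit 8) (nat_lit 4) (nat_lit 320) (nat_lit 292) (nat_lit 168)) (XT.lf (nat_lit 0) (nat_lit 295416319878) (nat_lit 76) (nat_lit 3326782956374) (nat_lit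 76) (nat_lit 2082198337631) (nat_lit 7) (nat_lit 4) (nat_lit 8) (nat_lit 5) (nat_lit 8) (nat_lit 4) (nat_lit 321) (nat_lit 292) (nat_lit 167)))) (XT.nd (nat_lit 156) (nat_lit 76) (nat_lit 0) (XT.nd (nat_lit 78) (nat_lit 76) (nat_lit 0) (XT.lf (nat_lit 0) (nat_lit 3235608105369) (nat_lit 76) (nat_lit 2225037298627) (nat_lit 76) (nat_lit 980452675684) (nat_lit 7) (nat_lit 4) (nat_lit 8) (nat_lit 5) (nat_lit 8) (nat_lit 4) (nat_lit 322) (nat_lit 292) (nat_lit 166)) (XT.lf (nat_lit 0) (nat_lit 272220192532) (nat_lit 152) (nat_lit 678366626126) (nat_lit 76) (nat_lit 6337165465403) (nat_lit 6) (nat_lit 5) (nat_lit 8) (nat_lit 5) (nat_lit 7) (nat_lit 4) (nat_lit 323) (nat_lit 292) (nat_lit 165))) (XT.nd (nat_lit 38220) (nat_lit 0) (nat_lit 3724) (XT.lf (nat_lit 0) (nat_lit 1726642940064) (nat_lit 152) (nat_lit 5952722395340) (nat_lit 0) (nat_lit 574249764352) (nat_lit 5) (nat_lit 5) (nat_lit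 7) (nat_lit 4) (nat_lit 5) (nat_lit 4) (nat_lit 324) (nat_lit 292) (nat_lit 164)) (XT.lf (nat_lit 0) (nat_lit 158277013687) (nat_lit 532) (nat_lit 23441362358) (nat_lit 532) (nat_lit 23441362358) (nat_lit 54) (nat_lit 3) (nat_lit 61) (nat_lit 3) (nat_lit 61) (nat_lit 5) (nat_lit 293) (nat_lit 293) (nat_lit 194))))))))
noncomputable def xc56 : XT := (XT.nd (nat_lit 1950) (nat_lit 380) (nat_lit 0) (XT.nd (nat_lit 936) (nat_lit 1216) (nat_lit 0) (XT.nd (nat_lit 468) (nat_lit 1216) (nat_lit 0) (XT.nd (nat_lit 234) (nat_lit 836) (nat_lit 0) (XT.nd (nat_lit 78) (nat_lit 0) (nat_lit 76) (XT.lf (nat_lit 76) (nat_lit 334072346400) (nat_lit 0) (nat_lit 14258329362) (nat_lit 532) (nat_lit 92119952915) (nat_lit 55) (nat_lit 5) (nat_lit 54) (nat_lit 3) (nat_lit 61) (nat_lit 5) (nat_lit 294) (nat_lit 293) (nat_lit 193)) (XT.nd (nat_lit 78) (nat_lit 0) (nat_lit 76) (XT.lf (nat_lit 76) (nat_lit 305973500910)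 (nat_lit 0) (nat_lit 96973766558) (nat_lit 532) (nat_lit 70708310385) (nat_lit 56) (nat_lit 5) (nat_lit 55) (nat_lit 5) (nat_lit 62) (nat_lit 5) (nat_lit 295) (nat_lit 293) (nat_lit 192)) (XT.lf (nat_lit 76) (nat_lit 281079729730) (nat_lit 0) (nat_lit 202541012523) (nat_lit 532) (nat_lit 26791375791) (nat_lit 57) (nat_lit 5) (nat_lit 56) (nat_lit 5) (nat_lit 63) (nat_lit 5) (nat_lit 296) (nat_lit 293) (nat_lit 191)))) (XT.nd (nat_lit 78) (nat_lit 532) (nat_lit 0) (XT.lf (nat_lit 0) (nat_lit 42078806079) (nat_lit 532) (nat_lit 292112103309) (nat_lit 76) (nat_lit 216881451386) (nat_lit 50) (nat_lit 5) (nat_lit 57) (nat_lit 5) (nat_lit 51) (nat_lit 5) (nat_lit 297) (nat_lit 293) (nat_lit 190)) (XT.nd (nat_lit 78) (nat_lit 228) (nat_lit 0) (XT.lf (nat_lit 0) (nat_lit 140545064122) (nat_lit 380) (nat_lit 356114750804) (nat_lit 76) (nat_lit 99448002942) (nat_lit 46) (nat_lit 5) (nat_lit 51)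 (nat_lit 5) (nat_lit 47) (nat_lit 5) (nat_lit 298) (nat_lit 293) (nat_lit 189)) (XT.lf (nat_lit 0) (nat_lit 224133395023) (nat_lit 228) (nat_lit 53006527241) (nat_lit 304) (nat_lit 368889978461) (nat_lit 43) (nat_lit 5) (nat_lit 46) (nat_lit 5) (nat_lit 47) (nat_lit 5) (nat_lit 299) (nat_lit 293) (nat_lit 188))))) (XT.nd (nat_lit 234) (nat_lit 532) (nat_lit 0) (XT.nd (nat_lit 78) (nat_lit 456) (nat_lit 0) (XT.lf (nat_lit 0) (nat_lit 209592894598) (nat_lit 228) (nat_lit 251304502105) (nat_lit 304) (nat_lit 240409028399) (nat_lit 40) (nat_lit 5) (nat_lit 43) (nat_lit 5) (nat_lit 44) (nat_lit 5) (nat_lit 300) (nat_lit 293) (nat_lit 187)) (XT.nd (nat_lit 78) (nat_lit 304) (nat_lit 0) (XT.lf (nat_lit 0) (nat_lit 199422800526) (nat_lit 152) (nat_lit 497890573183) (nat_lit 228) (nat_lit 65553463999) (nat_lit 38) (nat_lit 5) (nat_lit 40) (nat_lit 5) (nat_lit 41) (nat_lit 5) (nat_lit 301) (nat_lit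 293) (nat_lit 186)) (XT.lf (nat_lit 0) (nat_lit 155821525379) (nat_lit 304) (nat_lit 641721441909) (nat_lit 76) (nat_lit 33691914440) (nat_lit 34) (nat_lit 5) (nat_lit 38) (nat_lit 5) (nat_lit 35) (nat_lit 5) (nat_lit 302) (nat_lit 293) (nat_lit 185)))) (XT.nd (nat_lit 78) (nat_lit 380) (nat_lit 0) (XT.lf (nat_lit 0) (nat_lit 173667105562) (nat_lit 152) (nat_lit 267741738322) (nat_lit 228) (nat_lit 465522067352) (nat_lit 32) (nat_lit 5) (nat_lit 34) (nat_lit 5) (nat_lit 35) (nat_lit 5) (nat_lit 303) (nat_lit 293) (nat_lit 184)) (XT.nd (nat_lit 78) (nat_lit 228) (nat_lit 0) (XT.lf (nat_lit 0) (nat_lit 156886916271) (nat_lit 152) (nat_lit 644102533172) (nat_lit 228) (nat_lit 190499480635) (nat_lit 30) (nat_lit 5) (nat_lit 32) (nat_lit 5) (nat_lit 33) (nat_lit 5) (nat_lit 304) (nat_lit 293) (nat_lit 183)) (XT.lf (nat_lit 0) (nat_lit 133642451972) (nat_lit 152) (nat_lit 18364015047) (nat_lit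 228) (nat_lit 933880444749) (nat_lit 27) (nat_lit 5) (nat_lit 29) (nat_lit 5) (nat_lit 30) (nat_lit 5) (nat_lit 305) (nat_lit 293) (nat_lit 182)))))) (XT.nd (nat_lit 468) (nat_lit 532) (nat_lit 0) (XT.nd (nat_lit 234) (nat_lit 380) (nat_lit 0) (XT.nd (nat_lit 78) (nat_lit 152) (nat_lit 0) (XT.lf (nat_lit 0) (nat_lit 86738176979) (nat_lit 152) (nat_lit 492071554390) (nat_lit 228) (nat_lit 611702926729) (nat_lit 25) (nat_lit 5) (nat_lit 27) (nat_lit 5) (nat_lit 28) (nat_lit 5) (nat_lit 306) (nat_lit 293) (nat_lit 181)) (XT.nd (nat_lit 78) (nat_lit 76) (nat_lit 0) (XT.lf (nat_lit 0) (nat_lit 25612642871) (nat_lit 76) (nat_lit 1078647774256) (nat_lit 152) (nat_lit 203801694744) (nat_lit 24) (nat_lit 5) (nat_lit 25) (nat_lit 5) (nat_lit 26) (nat_lit 4) (nat_lit 307) (nat_lit 293) (nat_lit 180)) (XT.lf (nat_lit 0) (nat_lit 298593443375) (nat_lit 152) (nat_lit 70248423337) (nat_lit 76) (nat_lit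 1070165361703) (nat_lit 23) (nat_lit 5) (nat_lit 25) (nat_lit 5) (nat_lit 24) (nat_lit 5) (nat_lit 308) (nat_lit 293) (nat_lit 179)))) (XT.nd (nat_lit 78) (nat_lit 228) (nat_lit 0) (XT.lf (nat_lit 0) (nat_lit 909768377514) (nat_lit 228) (nat_lit 210690202001) (nat_lit 76) (nat_lit 465073020115) (nat_lit 21) (nat_lit 5) (nat_lit 24) (nat_lit 5) (nat_lit 22) (nat_lit 4) (nat_lit 309) (nat_lit 293) (nat_lit 178)) (XT.nd (nat_lit 78) (nat_lit 152) (nat_lit 0) (XT.lf (nat_lit 0) (nat_lit 1344058543981) (nat_lit 76) (nat_lit 313185205979) (nat_lit 152) (nat_lit 93220940731) (nat_lit 20) (nat_lit 5) (nat_lit 21) (nat_lit 5) (nat_lit 22) (nat_lit 4) (nat_lit 310) (nat_lit 293) (nat_lit 177)) (XT.lf (nat_lit 0) (nat_lit 600403508881) (nat_lit 152) (nat_lit 698390776432) (nat_lit 76) (nat_lit 636029896651) (nat_lit 18) (nat_lit 5) (nat_lit 20) (nat_lit 5) (nat_lit 19) (nat_lit 4) (nat_lit 311) (nat_lit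 293) (nat_lit 176))))) (XT.nd (nat_lit 234) (nat_lit 228) (nat_lit 0) (XT.nd (nat_lit 78) (nat_lit 228) (nat_lit 0) (XT.lf (nat_lit 0) (nat_lit 1045153854558) (nat_lit 76) (nat_lit 393492275039) (nat_lit 152) (nat_lit 704310223606) (nat_lit 17) (nat_lit 5) (nat_lit 18) (nat_lit 5) (nat_lit 19) (nat_lit 4) (nat_lit 312) (nat_lit 293) (nat_lit 175)) (XT.nd (nat_lit 78) (nat_lit 76) (nat_lit 0) (XT.lf (nat_lit 0) (nat_lit 74753883638) (nat_lit 152) (nat_lit 1647502766923) (nat_lit 76) (nat_lit 655576336537) (nat_lit 15) (nat_lit 5) (nat_lit 17) (nat_lit 5) (nat_lit 16) (nat_lit 4) (nat_lit 313) (nat_lit 293) (nat_lit 174)) (XT.lf (nat_lit 0) (nat_lit 234306478002) (nat_lit 76) (nat_lit 745163395538) (nat_lit 152) (nat_lit 1662968117474) (nat_lit 14) (nat_lit 5) (nat_lit 15) (nat_lit 5) (nat_lit 16) (nat_lit 4) (nat_lit 314) (nat_lit 293) (nat_lit 173)))) (XT.nd (nat_lit 156) (nat_lit 76)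 (nat_lit 0) (XT.nd (nat_lit 78) (nat_lit 152) (nat_lit 0) (XT.lf (nat_lit 0) (nat_lit 2078207151836) (nat_lit 152) (nat_lit 455090322512) (nat_lit 0) (nat_lit 408771159985) (nat_lit 14) (nat_lit 5) (nat_lit 16) (nat_lit 4) (nat_lit 14) (nat_lit 4) (nat_lit 315) (nat_lit 293) (nat_lit 172)) (XT.lf (nat_lit 0) (nat_lit 119480691598) (nat_lit 152) (nat_lit 1420916163177) (nat_lit 76) (nat_lit 1740770871293) (nat_lit 12) (nat_lit 5) (nat_lit 14) (nat_lit 5) (nat_lit 13) (nat_lit 4) (nat_lit 316) (nat_lit 293) (nat_lit 171))) (XT.nd (nat_lit 78) (nat_lit 0) (nat_lit 0) (XT.lf (nat_lit 0) (nat_lit 901228554204) (nat_lit 76) (nat_lit 334667871023) (nat_lit 152) (nat_lit 2430502421639) (nat_lit 11) (nat_lit 5) (nat_lit 12) (nat_lit 5) (nat_lit 13) (nat_lit 4) (nat_lit 317) (nat_lit 293) (nat_lit 170)) (XT.lf (nat_lit 0) (nat_lit 2587516168096) (nat_lit 152) (nat_lit 474737058142) (nat_lit 0) (nat_lit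 1041742077615) (nat_lit 11) (nat_lit 5) (nat_lit 13) (nat_lit 4) (nat_lit 11) (nat_lit 4) (nat_lit 318) (nat_lit 293) (nat_lit 169))))))) (XT.nd (nat_lit 39234) (nat_lit 0) (nat_lit 836) (XT.nd (nat_lit 38688) (nat_lit 0) (nat_lit 2812) (XT.nd (nat_lit 234) (nat_lit 152) (nat_lit 0) (XT.nd (nat_lit 78) (nat_lit 152) (nat_lit 0) (XT.lf (nat_lit 0) (nat_lit 2263220509130) (nat_lit 76) (nat_lit 1942344945097) (nat_lit 76) (nat_lit 396570848618) (nat_lit 10) (nat_lit 4) (nat_lit 11) (nat_lit 5) (nat_lit 11) (nat_lit 4) (nat_lit 319) (nat_lit 293) (nat_lit 168)) (XT.nd (nat_lit 78) (nat_lit 0) (nat_lit 0) (XT.lf (nat_lit 0) (nat_lit 257829931832) (nat_lit 76) (nat_lit 609287391978) (nat_lit 152) (nat_lit 4304535718391) (nat_lit 8) (nat_lit 5) (nat_lit 9) (nat_lit 5) (nat_lit 10) (nat_lit 4) (nat_lit 320) (nat_lit 293) (nat_lit 167)) (XT.lf (nat_lit 0) (nat_lit 2389624338124) (nat_lit 152) (nat_lit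 2470377130621) (nat_lit 0) (nat_lit 958352017541) (nat_lit 8) (nat_lit 5) (nat_lit 10) (nat_lit 4) (nat_lit 8) (nat_lit 4) (nat_lit 321) (nat_lit 293) (nat_lit 166)))) (XT.nd (nat_lit 78) (nat_lit 76) (nat_lit 0) (XT.lf (nat_lit 0) (nat_lit 339728964557) (nat_lit 76) (nat_lit 3825800303782) (nat_lit 76) (nat_lit 2394527979547) (nat_lit 7) (nat_lit 4) (nat_lit 8) (nat_lit 5) (nat_lit 8) (nat_lit 4) (nat_lit 322) (nat_lit 293) (nat_lit 165)) (XT.nd (nat_lit 78) (nat_lit 76) (nat_lit 0) (XT.lf (nat_lit 0) (nat_lit 3720949492215) (nat_lit 76) (nat_lit 2558792809901) (nat_lit 76) (nat_lit 1127520482491) (nat_lit 7) (nat_lit 4) (nat_lit 8) (nat_lit 5) (nat_lit 8) (nat_lit 4) (nat_lit 323) (nat_lit 293) (nat_lit 164)) (XT.lf (nat_lit 0) (nat_lit 313053299514) (nat_lit 152) (nat_lit 780121467182) (nat_lit 76) (nat_lit 7287740353708) (nat_lit 6) (nat_lit 5) (nat_lit 8) (nat_lit 5) (nat_lit 7) (nat_lit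 4) (nat_lit 324) (nat_lit 293) (nat_lit 163))))) (XT.nd (nat_lit 234) (nat_lit 836) (nat_lit 0) (XT.nd (nat_lit 78) (nat_lit 0) (nat_lit 0) (XT.lf (nat_lit 0) (nat_lit 182019187262) (nat_lit 532) (nat_lit 26957230522) (nat_lit 532) (nat_lit 26957230522) (nat_lit 54) (nat_lit 3) (nat_lit 61) (nat_lit 3) (nat_lit 61) (nat_lit 5) (nat_lit 294) (nat_lit 294) (nat_lit 192)) (XT.nd (nat_lit 78) (nat_lit 0) (nat_lit 76) (XT.lf (nat_lit 76) (nat_lit 384183813826) (nat_lit 0) (nat_lit 16397559011) (nat_lit 532) (nat_lit 105936760511) (nat_lit 55) (nat_lit 5) (nat_lit 54) (nat_lit 3) (nat_lit 61) (nat_lit 5) (nat_lit 295) (nat_lit 294) (nat_lit 191)) (XT.lf (nat_lit 76) (nat_lit 351870182033) (nat_lit 0) (nat_lit 111520134080) (nat_lit 532) (nat_lit 81313520019) (nat_lit 56) (nat_lit 5) (nat_lit 55) (nat_lit 5) (nat_lit 62) (nat_lit 5) (nat_lit 296) (nat_lit 294) (nat_lit 190)))) (XT.nd (nat_lit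 156) (nat_lit 532) (nat_lit 0) (XT.nd (nat_lit 78) (nat_lit 456) (nat_lit 0) (XT.lf (nat_lit 76) (nat_lit 323242368073) (nat_lit 0) (nat_lit 232922329018) (nat_lit 532) (nat_lit 30809169686) (nat_lit 57) (nat_lit 5) (nat_lit 56) (nat_lit 5) (nat_lit 63) (nat_lit 5) (nat_lit 297) (nat_lit 294) (nat_lit 189)) (XT.lf (nat_lit 0) (nat_lit 48391394202) (nat_lit 532) (nat_lit 335928189026) (nat_lit 76) (nat_lit 249413569084) (nat_lit 50) (nat_lit 5) (nat_lit 57) (nat_lit 5) (nat_lit 51) (nat_lit 5) (nat_lit 298) (nat_lit 294) (nat_lit 188))) (XT.nd (nat_lit 78) (nat_lit 228) (nat_lit 0) (XT.lf (nat_lit 0) (nat_lit 161627506581) (nat_lit 380) (nat_lit 409531239349) (nat_lit 76) (nat_lit 114365188945) (nat_lit 46) (nat_lit 5) (nat_lit 51) (nat_lit 5) (nat_lit 47) (nat_lit 5) (nat_lit 299) (nat_lit 294) (nat_lit 187)) (XT.lf (nat_lit 0) (nat_lit 257754067063) (nat_lit 228) (nat_lit 60957453256)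 (nat_lit 304) (nat_lit 424222815829) (nat_lit 43) (nat_lit 5) (nat_lit 46) (nat_lit 5) (nat_lit 47) (nat_lit 5) (nat_lit 300) (nat_lit 294) (nat_lit 186)))))) (XT.nd (nat_lit 468) (nat_lit 760) (nat_lit 0) (XT.nd (nat_lit 234) (nat_lit 532) (nat_lit 0) (XT.nd (nat_lit 78) (nat_lit 456) (nat_lit 0) (XT.lf (nat_lit 0) (nat_lit 241032479784) (nat_lit 228) (nat_lit 289000073377) (nat_lit 304) (nat_lit 276469791159) (nat_lit 40) (nat_lit 5) (nat_lit 43) (nat_lit 5) (nat_lit 44) (nat_lit 5) (nat_lit 301) (nat_lit 294) (nat_lit 185)) (XT.nd (nat_lit 78) (nat_lit 304) (nat_lit 0) (XT.lf (nat_lit 0) (nat_lit 229336854983) (nat_lit 152) (nat_lit 572574017826) (nat_lit 228) (nat_lit 75385950424) (nat_lit 38) (nat_lit 5) (nat_lit 40) (nat_lit 5) (nat_lit 41) (nat_lit 5) (nat_lit 302) (nat_lit 294) (nat_lit 184)) (XT.lf (nat_lit 0) (nat_lit 179195212814) (nat_lit 304) (nat_lit 737979019188) (nat_lit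 76) (nat_lit 38745844743) (nat_lit 34) (nat_lit 5) (nat_lit 38) (nat_lit 5) (nat_lit 35) (nat_lit 5) (nat_lit 303) (nat_lit 294) (nat_lit 183)))) (XT.nd (nat_lit 78) (nat_lit 380) (nat_lit 0) (XT.lf (nat_lit 0) (nat_lit 199717756315) (nat_lit 152) (nat_lit 307902827025) (nat_lit 228) (nat_lit 535349931070) (nat_lit 32) (nat_lit 5) (nat_lit 34) (nat_lit 5) (nat_lit 35) (nat_lit 5) (nat_lit 304) (nat_lit 294) (nat_lit 182)) (XT.nd (nat_lit 78) (nat_lit 228) (nat_lit 0) (XT.lf (nat_lit 0) (nat_lit 180420516008) (nat_lit 152) (nat_lit 740717726995) (nat_lit 228) (nat_lit 219073996078) (nat_lit 30) (nat_lit 5) (nat_lit 32) (nat_lit 5) (nat_lit 33) (nat_lit 5) (nat_lit 305) (nat_lit 294) (nat_lit 181)) (XT.lf (nat_lit 0) (nat_lit 153689353443) (nat_lit 152) (nat_lit 21118432385) (nat_lit 228) (nat_lit 1073962134467) (nat_lit 27) (nat_lit 5) (nat_lit 29) (nat_lit 5) (nat_lit 30) (nat_lit 5) (nat_lit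 306) (nat_lit 294) (nat_lit 180))))) (XT.nd (nat_lit 234) (nat_lit 456) (nat_lit 0) (XT.nd (nat_lit 78) (nat_lit 152) (nat_lit 0) (XT.lf (nat_lit 0) (nat_lit 99749413805) (nat_lit 152) (nat_lit 565882096676) (nat_lit 228) (nat_lit 703458020487) (nat_lit 25) (nat_lit 5) (nat_lit 27) (nat_lit 5) (nat_lit 28) (nat_lit 5) (nat_lit 307) (nat_lit 294) (nat_lit 179)) (XT.nd (nat_lit 78) (nat_lit 76) (nat_lit 0) (XT.lf (nat_lit 0) (nat_lit 29455025844) (nat_lit 76) (nat_lit 1240444747289) (nat_lit 152) (nat_lit 234371631789) (nat_lit 24) (nat_lit 5) (nat_lit 25) (nat_lit 5) (nat_lit 26) (nat_lit 4) (nat_lit 308) (nat_lit 294) (nat_lit 178)) (XT.lf (nat_lit 0) (nat_lit 343382721882) (nat_lit 152) (nat_lit 80785249756) (nat_lit 76) (nat_lit 1230690319874) (nat_lit 23) (nat_lit 5) (nat_lit 25) (nat_lit 5) (nat_lit 24) (nat_lit 5) (nat_lit 309) (nat_lit 294) (nat_lit 177)))) (XT.nd (nat_lit 156) (nat_lit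 228) (nat_lit 0) (XT.nd (nat_lit 78) (nat_lit 76) (nat_lit 0) (XT.lf (nat_lit 0) (nat_lit 1046233875501) (nat_lit 228) (nat_lit 242293316953) (nat_lit 76) (nat_lit 534834127633) (nat_lit 21) (nat_lit 5) (nat_lit 24) (nat_lit 5) (nat_lit 22) (nat_lit 4) (nat_lit 310) (nat_lit 294) (nat_lit 176)) (XT.lf (nat_lit 0) (nat_lit 1545667705769) (nat_lit 76) (nat_lit 360162825707) (nat_lit 152) (nat_lit 107203845141) (nat_lit 20) (nat_lit 5) (nat_lit 21) (nat_lit 5) (nat_lit 22) (nat_lit 4) (nat_lit 311) (nat_lit 294) (nat_lit 175))) (XT.nd (nat_lit 78) (nat_lit 76) (nat_lit 0) (XT.lf (nat_lit 0) (nat_lit 690464243100) (nat_lit 152) (nat_lit 803149021183) (nat_lit 76) (nat_lit 731434528221) (nat_lit 18) (nat_lit 5) (nat_lit 20) (nat_lit 5) (nat_lit 19) (nat_lit 4) (nat_lit 312) (nat_lit 294) (nat_lit 174)) (XT.lf (nat_lit 0) (nat_lit 1201927272991) (nat_lit 76) (nat_lit 452515964999) (nat_lit 152)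 (nat_lit 809956552969) (nat_lit 17) (nat_lit 5) (nat_lit 18) (nat_lit 5) (nat_lit 19) (nat_lit 4) (nat_lit 313) (nat_lit 294) (nat_lit 173))))))))
noncomputable def xc57 : XT := (XT.nd (nat_lit 40326) (nat_lit 0) (nat_lit 76) (XT.nd (nat_lit 39312) (nat_lit 0) (nat_lit 1292) (XT.nd (nat_lit 468) (nat_lit 304) (nat_lit 0) (XT.nd (nat_lit 234) (nat_lit 228) (nat_lit 0) (XT.nd (nat_lit 78) (nat_lit 76) (nat_lit 0) (XT.lf (nat_lit 0) (nat_lit 85967146041) (nat_lit 152) (nat_lit 1894627850348) (nat_lit 76) (nat_lit 753912924297) (nat_lit 15) (nat_lit 5) (nat_lit 17) (nat_lit 5) (nat_lit 16) (nat_lit 4) (nat_lit 314) (nat_lit 294) (nat_lit 172)) (XT.nd (nat_lit 78) (nat_lit 0) (nat_lit 0) (XT.lf (nat_lit 0) (nat_lit 269452753246) (nat_lit 76) (nat_lit 856937765023) (nat_lit 152) (nat_lit 1912413158225) (nat_lit 14) (nat_lit 5) (nat_lit 15) (nat_lit 5) (nat_lit 16) (nat_lit 4) (nat_lit 315) (nat_lit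 294) (nat_lit 171)) (XT.lf (nat_lit 0) (nat_lit 2389938369882) (nat_lit 152) (nat_lit 523353598408) (nat_lit 0) (nat_lit 470086949505) (nat_lit 14) (nat_lit 5) (nat_lit 16) (nat_lit 4) (nat_lit 14) (nat_lit 4) (nat_lit 316) (nat_lit 294) (nat_lit 170)))) (XT.nd (nat_lit 78) (nat_lit 76) (nat_lit 0) (XT.lf (nat_lit 0) (nat_lit 137402931151) (nat_lit 152) (nat_lit 1634053331032) (nat_lit 76) (nat_lit 2001886611877) (nat_lit 12) (nat_lit 5) (nat_lit 14) (nat_lit 5) (nat_lit 13) (nat_lit 4) (nat_lit 317) (nat_lit 294) (nat_lit 169)) (XT.nd (nat_lit 78) (nat_lit 0) (nat_lit 0) (XT.lf (nat_lit 0) (nat_lit 1036413072234) (nat_lit 76) (nat_lit 384867940524) (nat_lit 152) (nat_lit 2795077651192) (nat_lit 11) (nat_lit 5) (nat_lit 12) (nat_lit 5) (nat_lit 13) (nat_lit 4) (nat_lit 318) (nat_lit 294) (nat_lit 168)) (XT.lf (nat_lit 0) (nat_lit 2975643703241) (nat_lit 152) (nat_lit 545947406278) (nat_lit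 0) (nat_lit 1198003481077) (nat_lit 11) (nat_lit 5) (nat_lit 13) (nat_lit 4) (nat_lit 11) (nat_lit 4) (nat_lit 319) (nat_lit 294) (nat_lit 167))))) (XT.nd (nat_lit 234) (nat_lit 76) (nat_lit 0) (XT.nd (nat_lit 78) (nat_lit 152) (nat_lit 0) (XT.lf (nat_lit 0) (nat_lit 2602703778260) (nat_lit 76) (nat_lit 2233696594330) (nat_lit 76) (nat_lit 456056367630) (nat_lit 10) (nat_lit 4) (nat_lit 11) (nat_lit 5) (nat_lit 11) (nat_lit 4) (nat_lit 320) (nat_lit 294) (nat_lit 166)) (XT.nd (nat_lit 78) (nat_lit 0) (nat_lit 0) (XT.lf (nat_lit 0) (nat_lit 296504603039) (nat_lit 76) (nat_lit 700680413154) (nat_lit 152) (nat_lit 4950215974806) (nat_lit 8) (nat_lit 5) (nat_lit 9) (nat_lit 5) (nat_lit 10) (nat_lit 4) (nat_lit 321) (nat_lit 294) (nat_lit 165)) (XT.lf (nat_lit 0) (nat_lit 2748068072250) (nat_lit 152) (nat_lit 2840933537730) (nat_lit 0) (nat_lit 1102104892553) (nat_lit 8) (nat_lit 5) (nat_lit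 10) (nat_lit 4) (nat_lit 8) (nat_lit 4) (nat_lit 322) (nat_lit 294) (nat_lit 164)))) (XT.nd (nat_lit 38454) (nat_lit 0) (nat_lit 3572) (XT.nd (nat_lit 78) (nat_lit 0) (nat_lit 0) (XT.lf (nat_lit 0) (nat_lit 390688457971) (nat_lit 76) (nat_lit 4399670276724) (nat_lit 76) (nat_lit 2753707094265) (nat_lit 7) (nat_lit 4) (nat_lit 8) (nat_lit 5) (nat_lit 8) (nat_lit 4) (nat_lit 323) (nat_lit 294) (nat_lit 163)) (XT.lf (nat_lit 0) (nat_lit 4279092045378) (nat_lit 76) (nat_lit 2942611668233) (nat_lit 76) (nat_lit 1296648483374) (nat_lit 7) (nat_lit 4) (nat_lit 8) (nat_lit 5) (nat_lit 8) (nat_lit 4) (nat_lit 324) (nat_lit 294) (nat_lit 162))) (XT.nd (nat_lit 78) (nat_lit 0) (nat_lit 0) (XT.lf (nat_lit 0) (nat_lit 209322535312) (nat_lit 532) (nat_lit 31000560893) (nat_lit 532) (nat_lit 31000560893) (nat_lit 54) (nat_lit 3) (nat_lit 61) (nat_lit 3) (nat_lit 61) (nat_lit 5) (nat_lit 295) (nat_lit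 295) (nat_lit 190)) (XT.lf (nat_lit 76) (nat_lit 441811851281) (nat_lit 0) (nat_lit 18857555997) (nat_lit 532) (nat_lit 121826378299) (nat_lit 55) (nat_lit 5) (nat_lit 54) (nat_lit 3) (nat_lit 61) (nat_lit 5) (nat_lit 296) (nat_lit 295) (nat_lit 189)))))) (XT.nd (nat_lit 468) (nat_lit 1216) (nat_lit 0) (XT.nd (nat_lit 234) (nat_lit 760) (nat_lit 0) (XT.nd (nat_lit 78) (nat_lit 380) (nat_lit 0) (XT.lf (nat_lit 76) (nat_lit 404651205359) (nat_lit 0) (nat_lit 128248382955) (nat_lit 532) (nat_lit 93509763959) (nat_lit 56) (nat_lit 5) (nat_lit 55) (nat_lit 5) (nat_lit 62) (nat_lit 5) (nat_lit 297) (nat_lit 295) (nat_lit 188)) (XT.nd (nat_lit 78) (nat_lit 456) (nat_lit 0) (XT.lf (nat_lit 76) (nat_lit 371729236617) (nat_lit 0) (nat_lit 267860802845) (nat_lit 532) (nat_lit 35429855179) (nat_lit 57) (nat_lit 5) (nat_lit 56) (nat_lit 5) (nat_lit 63) (nat_lit 5) (nat_lit 298) (nat_lit 295) (nat_lit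 187)) (XT.lf (nat_lit 0) (nat_lit 55650683455) (nat_lit 532) (nat_lit 386316865561) (nat_lit 76) (nat_lit 286825528825) (nat_lit 50) (nat_lit 5) (nat_lit 57) (nat_lit 5) (nat_lit 51) (nat_lit 5) (nat_lit 299) (nat_lit 295) (nat_lit 186)))) (XT.nd (nat_lit 78) (nat_lit 456) (nat_lit 0) (XT.lf (nat_lit 0) (nat_lit 185872148894) (nat_lit 380) (nat_lit 470960377746) (nat_lit 76) (nat_lit 131519956370) (nat_lit 46) (nat_lit 5) (nat_lit 51) (nat_lit 5) (nat_lit 47) (nat_lit 5) (nat_lit 300) (nat_lit 295) (nat_lit 185)) (XT.nd (nat_lit 78) (nat_lit 228) (nat_lit 0) (XT.lf (nat_lit 0) (nat_lit 296417678284) (nat_lit 228) (nat_lit 70101031115) (nat_lit 304) (nat_lit 487855739602) (nat_lit 43) (nat_lit 5) (nat_lit 46) (nat_lit 5) (nat_lit 47) (nat_lit 5) (nat_lit 301) (nat_lit 295) (nat_lit 184)) (XT.lf (nat_lit 0) (nat_lit 277187843999) (nat_lit 228) (nat_lit 332350005712) (nat_lit 304) (nat_lit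 317939812575) (nat_lit 40) (nat_lit 5) (nat_lit 43) (nat_lit 5) (nat_lit 44) (nat_lit 5) (nat_lit 302) (nat_lit 295) (nat_lit 183))))) (XT.nd (nat_lit 234) (nat_lit 608) (nat_lit 0) (XT.nd (nat_lit 78) (nat_lit 456) (nat_lit 0) (XT.lf (nat_lit 0) (nat_lit 263737862912) (nat_lit 152) (nat_lit 658460013631) (nat_lit 228) (nat_lit 86693439831) (nat_lit 38) (nat_lit 5) (nat_lit 40) (nat_lit 5) (nat_lit 41) (nat_lit 5) (nat_lit 303) (nat_lit 295) (nat_lit 182)) (XT.nd (nat_lit 78) (nat_lit 152) (nat_lit 0) (XT.lf (nat_lit 0) (nat_lit 206074841524) (nat_lit 304) (nat_lit 848675388884) (nat_lit 76) (nat_lit 44557829686) (nat_lit 34) (nat_lit 5) (nat_lit 38) (nat_lit 5) (nat_lit 35) (nat_lit 5) (nat_lit 304) (nat_lit 295) (nat_lit 181)) (XT.lf (nat_lit 0) (nat_lit 229675862045) (nat_lit 152) (nat_lit 354088120989) (nat_lit 228) (nat_lit 615652083199) (nat_lit 32) (nat_lit 5) (nat_lit 34) (nat_lit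 5) (nat_lit 35) (nat_lit 5) (nat_lit 305) (nat_lit 295) (nat_lit 180)))) (XT.nd (nat_lit 156) (nat_lit 228) (nat_lit 0) (XT.nd (nat_lit 78) (nat_lit 228) (nat_lit 0) (XT.lf (nat_lit 0) (nat_lit 207484018585) (nat_lit 152) (nat_lit 851825245285) (nat_lit 228) (nat_lit 251934788003) (nat_lit 30) (nat_lit 5) (nat_lit 32) (nat_lit 5) (nat_lit 33) (nat_lit 5) (nat_lit 306) (nat_lit 295) (nat_lit 179)) (XT.lf (nat_lit 0) (nat_lit 176743159995) (nat_lit 152) (nat_lit 24286057417) (nat_lit 228) (nat_lit 1235056169576) (nat_lit 27) (nat_lit 5) (nat_lit 29) (nat_lit 5) (nat_lit 30) (nat_lit 5) (nat_lit 307) (nat_lit 295) (nat_lit 178))) (XT.nd (nat_lit 78) (nat_lit 76) (nat_lit 0) (XT.lf (nat_lit 0) (nat_lit 114712211720) (nat_lit 152) (nat_lit 650764266850) (nat_lit 228) (nat_lit 808976462501) (nat_lit 25) (nat_lit 5) (nat_lit 27) (nat_lit 5) (nat_lit 28) (nat_lit 5) (nat_lit 308) (nat_lit 295)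 (nat_lit 177)) (XT.lf (nat_lit 0) (nat_lit 33873647616) (nat_lit 76) (nat_lit 1426511313368) (nat_lit 152) (nat_lit 269527136734) (nat_lit 24) (nat_lit 5) (nat_lit 25) (nat_lit 5) (nat_lit 26) (nat_lit 4) (nat_lit 309) (nat_lit 295) (nat_lit 176))))))) (XT.nd (nat_lit 1014) (nat_lit 0) (nat_lit 0) (XT.nd (nat_lit 468) (nat_lit 532) (nat_lit 0) (XT.nd (nat_lit 234) (nat_lit 380) (nat_lit 0) (XT.nd (nat_lit 78) (nat_lit 228) (nat_lit 0) (XT.lf (nat_lit 0) (nat_lit 394890328274) (nat_lit 152) (nat_lit 92902706723) (nat_lit 76) (nat_lit 1415293984237) (nat_lit 23) (nat_lit 5) (nat_lit 25) (nat_lit 5) (nat_lit 24) (nat_lit 5) (nat_lit 310) (nat_lit 295) (nat_lit 175)) (XT.nd (nat_lit 78) (nat_lit 76) (nat_lit 0) (XT.lf (nat_lit 0) (nat_lit 1203169139329) (nat_lit 228) (nat_lit 278637000434) (nat_lit 76) (nat_lit 615059363602) (nat_lit 21) (nat_lit 5) (nat_lit 24) (nat_lit 5) (nat_lit 22) (nat_lit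 4) (nat_lit 311) (nat_lit 295) (nat_lit 174)) (XT.lf (nat_lit 0) (nat_lit 1777518149113) (nat_lit 76) (nat_lit 414187127697) (nat_lit 152) (nat_lit 123284242934) (nat_lit 20) (nat_lit 5) (nat_lit 21) (nat_lit 5) (nat_lit 22) (nat_lit 4) (nat_lit 312) (nat_lit 295) (nat_lit 173)))) (XT.nd (nat_lit 78) (nat_lit 228) (nat_lit 0) (XT.lf (nat_lit 0) (nat_lit 794034036756) (nat_lit 152) (nat_lit 923621093292) (nat_lit 76) (nat_lit 841149818662) (nat_lit 18) (nat_lit 5) (nat_lit 20) (nat_lit 5) (nat_lit 19) (nat_lit 4) (nat_lit 313) (nat_lit 295) (nat_lit 172)) (XT.nd (nat_lit 78) (nat_lit 152) (nat_lit 0) (XT.lf (nat_lit 0) (nat_lit 1382216621218) (nat_lit 76) (nat_lit 520393245346) (nat_lit 152) (nat_lit 931449881526) (nat_lit 17) (nat_lit 5) (nat_lit 18) (nat_lit 5) (nat_lit 19) (nat_lit 4) (nat_lit 314) (nat_lit 295) (nat_lit 171)) (XT.lf (nat_lit 0) (nat_lit 98862353945) (nat_lit 152) (nat_lit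 2178821777153) (nat_lit 76) (nat_lit 866999966745) (nat_lit 15) (nat_lit 5) (nat_lit 17) (nat_lit 5) (nat_lit 16) (nat_lit 4) (nat_lit 315) (nat_lit 295) (nat_lit 170))))) (XT.nd (nat_lit 234) (nat_lit 304) (nat_lit 0) (XT.nd (nat_lit 78) (nat_lit 152) (nat_lit 0) (XT.lf (nat_lit 0) (nat_lit 309870895756) (nat_lit 76) (nat_lit 985478324033) (nat_lit 152) (nat_lit 2199274998220) (nat_lit 14) (nat_lit 5) (nat_lit 15) (nat_lit 5) (nat_lit 16) (nat_lit 4) (nat_lit 316) (nat_lit 295) (nat_lit 169)) (XT.nd (nat_lit 78) (nat_lit 152) (nat_lit 0) (XT.lf (nat_lit 0) (nat_lit 2748429235210) (nat_lit 152) (nat_lit 601856432135) (nat_lit 0) (nat_lit 540600079282) (nat_lit 14) (nat_lit 5) (nat_lit 16) (nat_lit 4) (nat_lit 14) (nat_lit 4) (nat_lit 317) (nat_lit 295) (nat_lit 168)) (XT.lf (nat_lit 0) (nat_lit 158013473517) (nat_lit 152) (nat_lit 1879161136644) (nat_lit 76) (nat_lit 2302169686752) (nat_lit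 12) (nat_lit 5) (nat_lit 14) (nat_lit 5) (nat_lit 13) (nat_lit 4) (nat_lit 318) (nat_lit 295) (nat_lit 167)))) (XT.nd (nat_lit 156) (nat_lit 228) (nat_lit 0) (XT.nd (nat_lit 78) (nat_lit 0) (nat_lit 0) (XT.lf (nat_lit 0) (nat_lit 1191875210687) (nat_lit 76) (nat_lit 442598047556) (nat_lit 152) (nat_lit 3214339197779) (nat_lit 11) (nat_lit 5) (nat_lit 12) (nat_lit 5) (nat_lit 13) (nat_lit 4) (nat_lit 319) (nat_lit 295) (nat_lit 166)) (XT.lf (nat_lit 0) (nat_lit 3421990341851) (nat_lit 152) (nat_lit 627839357988) (nat_lit 0) (nat_lit 1377704072667) (nat_lit 11) (nat_lit 5) (nat_lit 13) (nat_lit 4) (nat_lit 11) (nat_lit 4) (nat_lit 320) (nat_lit 295) (nat_lit 165))) (XT.nd (nat_lit 78) (nat_lit 152) (nat_lit 0) (XT.lf (nat_lit 0) (nat_lit 2993109490753) (nat_lit 76) (nat_lit 2568751013512) (nat_lit 76) (nat_lit 524464740899) (nat_lit 10) (nat_lit 4) (nat_lit 11) (nat_lit 5) (nat_lit 11) (nat_lit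 4) (nat_lit 321) (nat_lit 295) (nat_lit 164)) (XT.lf (nat_lit 0) (nat_lit 340980430683) (nat_lit 76) (nat_lit 805782408873) (nat_lit 152) (nat_lit 5692748294396) (nat_lit 8) (nat_lit 5) (nat_lit 9) (nat_lit 5) (nat_lit 10) (nat_lit 4) (nat_lit 322) (nat_lit 295) (nat_lit 163)))))) (XT.nd (nat_lit 38922) (nat_lit 0) (nat_lit 1672) (XT.nd (nat_lit 38688) (nat_lit 0) (nat_lit 3192) (XT.nd (nat_lit 38532) (nat_lit 0) (nat_lit 3496) (XT.lf (nat_lit 0) (nat_lit 3160278346155) (nat_lit 152) (nat_lit 3267073445528) (nat_lit 0) (nat_lit 1267420681166) (nat_lit 8) (nat_lit 5) (nat_lit 10) (nat_lit 4) (nat_lit 8) (nat_lit 4) (nat_lit 323) (nat_lit 295) (nat_lit 162)) (XT.nd (nat_lit 78) (nat_lit 0) (nat_lit 0) (XT.lf (nat_lit 0) (nat_lit 240721270966) (nat_lit 532) (nat_lit 35650452809) (nat_lit 532) (nat_lit 35650452809) (nat_lit 54) (nat_lit 3) (nat_lit 61) (nat_lit 3) (nat_lit 61) (nat_lit 5)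 (nat_lit 296) (nat_lit 296) (nat_lit 188)) (XT.lf (nat_lit 76) (nat_lit 508083980868) (nat_lit 0) (nat_lit 21686463978) (nat_lit 532) (nat_lit 140099657320) (nat_lit 55) (nat_lit 5) (nat_lit 54) (nat_lit 3) (nat_lit 61) (nat_lit 5) (nat_lit 297) (nat_lit 296) (nat_lit 187)))) (XT.nd (nat_lit 78) (nat_lit 380) (nat_lit 0) (XT.lf (nat_lit 76) (nat_lit 465349261225) (nat_lit 0) (nat_lit 147485813376) (nat_lit 532) (nat_lit 107535635688) (nat_lit 56) (nat_lit 5) (nat_lit 55) (nat_lit 5) (nat_lit 62) (nat_lit 5) (nat_lit 298) (nat_lit 296) (nat_lit 186)) (XT.nd (nat_lit 78) (nat_lit 456) (nat_lit 0) (XT.lf (nat_lit 76) (nat_lit 427489010264) (nat_lit 0) (nat_lit 308040017392) (nat_lit 532) (nat_lit 40743811746) (nat_lit 57) (nat_lit 5) (nat_lit 56) (nat_lit 5) (nat_lit 63) (nat_lit 5) (nat_lit 299) (nat_lit 296) (nat_lit 185)) (XT.lf (nat_lit 0) (nat_lit 63998724629) (nat_lit 532) (nat_lit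 444263978141) (nat_lit 76) (nat_lit 329849300967) (nat_lit 50) (nat_lit 5) (nat_lit 57) (nat_lit 5) (nat_lit 51) (nat_lit 5) (nat_lit 300) (nat_lit 296) (nat_lit 184))))) (XT.nd (nat_lit 234) (nat_lit 760) (nat_lit 0) (XT.nd (nat_lit 78) (nat_lit 456) (nat_lit 0) (XT.lf (nat_lit 0) (nat_lit 213753361644) (nat_lit 380) (nat_lit 541604020416) (nat_lit 76) (nat_lit 151247941571) (nat_lit 46) (nat_lit 5) (nat_lit 51) (nat_lit 5) (nat_lit 47) (nat_lit 5) (nat_lit 301) (nat_lit 296) (nat_lit 183)) (XT.nd (nat_lit 78) (nat_lit 228) (nat_lit 0) (XT.lf (nat_lit 0) (nat_lit 340880708976) (nat_lit 228) (nat_lit 80616155438) (nat_lit 304) (nat_lit 561033723528) (nat_lit 43) (nat_lit 5) (nat_lit 46) (nat_lit 5) (nat_lit 47) (nat_lit 5) (nat_lit 302) (nat_lit 296) (nat_lit 182)) (XT.lf (nat_lit 0) (nat_lit 318766392808) (nat_lit 228) (nat_lit 382202447082) (nat_lit 304) (nat_lit 365630446270) (nat_lit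 40) (nat_lit 5) (nat_lit 43) (nat_lit 5) (nat_lit 44) (nat_lit 5) (nat_lit 303) (nat_lit 296) (nat_lit 181)))) (XT.nd (nat_lit 156) (nat_lit 304) (nat_lit 0) (XT.nd (nat_lit 78) (nat_lit 304) (nat_lit 0) (XT.lf (nat_lit 0) (nat_lit 303298905057) (nat_lit 152) (nat_lit 757228934867) (nat_lit 228) (nat_lit 99697150962) (nat_lit 38) (nat_lit 5) (nat_lit 40) (nat_lit 5) (nat_lit 41) (nat_lit 5) (nat_lit 304) (nat_lit 296) (nat_lit 180)) (XT.lf (nat_lit 0) (nat_lit 236986329975) (nat_lit 304) (nat_lit 975976331862) (nat_lit 76) (nat_lit 51241585978) (nat_lit 34) (nat_lit 5) (nat_lit 38) (nat_lit 5) (nat_lit 35) (nat_lit 5) (nat_lit 305) (nat_lit 296) (nat_lit 179))) (XT.nd (nat_lit 78) (nat_lit 152) (nat_lit 0) (XT.lf (nat_lit 0) (nat_lit 264127575782) (nat_lit 152) (nat_lit 407201240770) (nat_lit 228) (nat_lit 707999640457) (nat_lit 32) (nat_lit 5) (nat_lit 34) (nat_lit 5) (nat_lit 35) (nat_lit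 5) (nat_lit 306) (nat_lit 296) (nat_lit 178)) (XT.lf (nat_lit 0) (nat_lit 238606942868) (nat_lit 152) (nat_lit 979598925644) (nat_lit 228) (nat_lit 289724773699) (nat_lit 30) (nat_lit 5) (nat_lit 32) (nat_lit 5) (nat_lit 33) (nat_lit 5) (nat_lit 307) (nat_lit 296) (nat_lit 177))))))))
noncomputable def xc58 : XT := (XT.nd (nat_lit 40560) (nat_lit 0) (nat_lit 152) (XT.nd (nat_lit 1014) (nat_lit 228) (nat_lit 0) (XT.nd (nat_lit 468) (nat_lit 684) (nat_lit 0) (XT.nd (nat_lit 234) (nat_lit 304) (nat_lit 0) (XT.nd (nat_lit 78) (nat_lit 228) (nat_lit 0) (XT.lf (nat_lit 0) (nat_lit 203254939125) (nat_lit 152) (nat_lit 27928860302) (nat_lit 228) (nat_lit 1420314379466) (nat_lit 27) (nat_lit 5) (nat_lit 29) (nat_lit 5) (nat_lit 30) (nat_lit 5) (nat_lit 308) (nat_lit 296) (nat_lit 176)) (XT.nd (nat_lit 78) (nat_lit 76) (nat_lit 0) (XT.lf (nat_lit 0) (nat_lit 131919335231) (nat_lit 152) (nat_lit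 748378797745) (nat_lit 228) (nat_lit 930322734478) (nat_lit 25) (nat_lit 5) (nat_lit 27) (nat_lit 5) (nat_lit 28) (nat_lit 5) (nat_lit 309) (nat_lit 296) (nat_lit 175)) (XT.lf (nat_lit 0) (nat_lit 38954972940) (nat_lit 76) (nat_lit 1640487899965) (nat_lit 152) (nat_lit 309956025903) (nat_lit 24) (nat_lit 5) (nat_lit 25) (nat_lit 5) (nat_lit 26) (nat_lit 4) (nat_lit 310) (nat_lit 296) (nat_lit 174)))) (XT.nd (nat_lit 78) (nat_lit 228) (nat_lit 0) (XT.lf (nat_lit 0) (nat_lit 454124027316) (nat_lit 152) (nat_lit 106837862829) (nat_lit 76) (nat_lit 1627588169875) (nat_lit 23) (nat_lit 5) (nat_lit 25) (nat_lit 5) (nat_lit 24) (nat_lit 5) (nat_lit 311) (nat_lit 296) (nat_lit 173)) (XT.nd (nat_lit 78) (nat_lit 76) (nat_lit 0) (XT.lf (nat_lit 0) (nat_lit 1383644648227) (nat_lit 228) (nat_lit 320432313023) (nat_lit 76) (nat_lit 707318356479) (nat_lit 21) (nat_lit 5) (nat_lit 24) (nat_lit 5) (nat_lit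 22) (nat_lit 4) (nat_lit 312) (nat_lit 296) (nat_lit 172)) (XT.lf (nat_lit 0) (nat_lit 2044146088856) (nat_lit 76) (nat_lit 476315104703) (nat_lit 152) (nat_lit 141776744041) (nat_lit 20) (nat_lit 5) (nat_lit 21) (nat_lit 5) (nat_lit 22) (nat_lit 4) (nat_lit 313) (nat_lit 296) (nat_lit 171))))) (XT.nd (nat_lit 234) (nat_lit 304) (nat_lit 0) (XT.nd (nat_lit 78) (nat_lit 228) (nat_lit 0) (XT.lf (nat_lit 0) (nat_lit 913139261129) (nat_lit 152) (nat_lit 1062164044757) (nat_lit 76) (nat_lit 967322375551) (nat_lit 18) (nat_lit 5) (nat_lit 20) (nat_lit 5) (nat_lit 19) (nat_lit 4) (nat_lit 314) (nat_lit 296) (nat_lit 170)) (XT.nd (nat_lit 78) (nat_lit 152) (nat_lit 0) (XT.lf (nat_lit 0) (nat_lit 1589549308940) (nat_lit 76) (nat_lit 598452145644) (nat_lit 152) (nat_lit 1071167247016) (nat_lit 17) (nat_lit 5) (nat_lit 18) (nat_lit 5) (nat_lit 19) (nat_lit 4) (nat_lit 315) (nat_lit 296) (nat_lit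 169)) (XT.lf (nat_lit 0) (nat_lit 113691809871) (nat_lit 152) (nat_lit 2505644854125) (nat_lit 76) (nat_lit 997050040247) (nat_lit 15) (nat_lit 5) (nat_lit 17) (nat_lit 5) (nat_lit 16) (nat_lit 4) (nat_lit 316) (nat_lit 296) (nat_lit 168)))) (XT.nd (nat_lit 156) (nat_lit 228) (nat_lit 0) (XT.nd (nat_lit 78) (nat_lit 0) (nat_lit 0) (XT.lf (nat_lit 0) (nat_lit 356351703672) (nat_lit 76) (nat_lit 1133299992681) (nat_lit 152) (nat_lit 2529166146827) (nat_lit 14) (nat_lit 5) (nat_lit 15) (nat_lit 5) (nat_lit 16) (nat_lit 4) (nat_lit 317) (nat_lit 296) (nat_lit 167)) (XT.lf (nat_lit 0) (nat_lit 3160693703551) (nat_lit 152) (nat_lit 692134741164) (nat_lit 0) (nat_lit 621690157224) (nat_lit 14) (nat_lit 5) (nat_lit 16) (nat_lit 4) (nat_lit 14) (nat_lit 4) (nat_lit 318) (nat_lit 296) (nat_lit 166))) (XT.nd (nat_lit 78) (nat_lit 76) (nat_lit 0) (XT.lf (nat_lit 0) (nat_lit 181715572196) (nat_lit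 152) (nat_lit 2161035160417) (nat_lit 76) (nat_lit 2647495202595) (nat_lit 12) (nat_lit 5) (nat_lit 14) (nat_lit 5) (nat_lit 13) (nat_lit 4) (nat_lit 319) (nat_lit 296) (nat_lit 165)) (XT.lf (nat_lit 0) (nat_lit 1370656626595) (nat_lit 76) (nat_lit 508987691137) (nat_lit 152) (nat_lit 3696490001007) (nat_lit 11) (nat_lit 5) (nat_lit 12) (nat_lit 5) (nat_lit 13) (nat_lit 4) (nat_lit 320) (nat_lit 296) (nat_lit 164)))))) (XT.nd (nat_lit 39000) (nat_lit 0) (nat_lit 1976) (XT.nd (nat_lit 38766) (nat_lit 0) (nat_lit 3496) (XT.nd (nat_lit 78) (nat_lit 228) (nat_lit 0) (XT.lf (nat_lit 0) (nat_lit 3935288955982) (nat_lit 152) (nat_lit 722015141284) (nat_lit 0) (nat_lit 1584359736065) (nat_lit 11) (nat_lit 5) (nat_lit 13) (nat_lit 4) (nat_lit 11) (nat_lit 4) (nat_lit 321) (nat_lit 296) (nat_lit 163)) (XT.nd (nat_lit 78) (nat_lit 152) (nat_lit 0) (XT.lf (nat_lit 0) (nat_lit 3442076024577) (nat_lit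 76) (nat_lit 2954063612634) (nat_lit 76) (nat_lit 603134390124) (nat_lit 10) (nat_lit 4) (nat_lit 11) (nat_lit 5) (nat_lit 11) (nat_lit 4) (nat_lit 322) (nat_lit 296) (nat_lit 162)) (XT.lf (nat_lit 0) (nat_lit 392127599019) (nat_lit 76) (nat_lit 926649720107) (nat_lit 152) (nat_lit 6546660480612) (nat_lit 8) (nat_lit 5) (nat_lit 9) (nat_lit 5) (nat_lit 10) (nat_lit 4) (nat_lit 323) (nat_lit 296) (nat_lit 161)))) (XT.nd (nat_lit 78) (nat_lit 0) (nat_lit 0) (XT.lf (nat_lit 0) (nat_lit 276829730313) (nat_lit 532) (nat_lit 40997875387) (nat_lit 532) (nat_lit 40997875387) (nat_lit 54) (nat_lit 3) (nat_lit 61) (nat_lit 3) (nat_lit 61) (nat_lit 5) (nat_lit 297) (nat_lit 297) (nat_lit 186)) (XT.nd (nat_lit 78) (nat_lit 0) (nat_lit 76) (XT.lf (nat_lit 76) (nat_lit 584296844081) (nat_lit 0) (nat_lit 24939641197) (nat_lit 532) (nat_lit 161114093463) (nat_lit 55) (nat_lit 5) (nat_lit 54) (nat_lit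 3) (nat_lit 61) (nat_lit 5) (nat_lit 298) (nat_lit 297) (nat_lit 185)) (XT.lf (nat_lit 76) (nat_lit 535151934010) (nat_lit 0) (nat_lit 169608816178) (nat_lit 532) (nat_lit 123665532750) (nat_lit 56) (nat_lit 5) (nat_lit 55) (nat_lit 5) (nat_lit 62) (nat_lit 5) (nat_lit 299) (nat_lit 297) (nat_lit 184))))) (XT.nd (nat_lit 234) (nat_lit 912) (nat_lit 0) (XT.nd (nat_lit 78) (nat_lit 760) (nat_lit 0) (XT.lf (nat_lit 76) (nat_lit 491612655303) (nat_lit 0) (nat_lit 354246091169) (nat_lit 532) (nat_lit 46854989021) (nat_lit 57) (nat_lit 5) (nat_lit 56) (nat_lit 5) (nat_lit 63) (nat_lit 5) (nat_lit 300) (nat_lit 297) (nat_lit 183)) (XT.nd (nat_lit 78) (nat_lit 304) (nat_lit 0) (XT.lf (nat_lit 0) (nat_lit 73598865010) (nat_lit 532) (nat_lit 510903259358) (nat_lit 76) (nat_lit 379326652875) (nat_lit 50) (nat_lit 5) (nat_lit 57) (nat_lit 5) (nat_lit 51) (nat_lit 5) (nat_lit 301) (nat_lit 297) (nat_lit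 182)) (XT.lf (nat_lit 0) (nat_lit 245816661102) (nat_lit 380) (nat_lit 622844310441) (nat_lit 76) (nat_lit 173935126565) (nat_lit 46) (nat_lit 5) (nat_lit 51) (nat_lit 5) (nat_lit 47) (nat_lit 5) (nat_lit 302) (nat_lit 297) (nat_lit 181)))) (XT.nd (nat_lit 156) (nat_lit 456) (nat_lit 0) (XT.nd (nat_lit 78) (nat_lit 228) (nat_lit 0) (XT.lf (nat_lit 0) (nat_lit 392013101863) (nat_lit 228) (nat_lit 92708555810) (nat_lit 304) (nat_lit 645188496981) (nat_lit 43) (nat_lit 5) (nat_lit 46) (nat_lit 5) (nat_lit 47) (nat_lit 5) (nat_lit 303) (nat_lit 297) (nat_lit 180)) (XT.lf (nat_lit 0) (nat_lit 366581633173) (nat_lit 228) (nat_lit 439532769163) (nat_lit 304) (nat_lit 420474757489) (nat_lit 40) (nat_lit 5) (nat_lit 43) (nat_lit 5) (nat_lit 44) (nat_lit 5) (nat_lit 304) (nat_lit 297) (nat_lit 179))) (XT.nd (nat_lit 78) (nat_lit 304) (nat_lit 0) (XT.lf (nat_lit 0) (nat_lit 348794015075) (nat_lit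 152) (nat_lit 870813213994) (nat_lit 228) (nat_lit 114651493100) (nat_lit 38) (nat_lit 5) (nat_lit 40) (nat_lit 5) (nat_lit 41) (nat_lit 5) (nat_lit 305) (nat_lit 297) (nat_lit 178)) (XT.lf (nat_lit 0) (nat_lit 272534477749) (nat_lit 304) (nat_lit 1122372505381) (nat_lit 76) (nat_lit 58927885756) (nat_lit 34) (nat_lit 5) (nat_lit 38) (nat_lit 5) (nat_lit 35) (nat_lit 5) (nat_lit 306) (nat_lit 297) (nat_lit 177))))))) (XT.nd (nat_lit 1014) (nat_lit 304) (nat_lit 0) (XT.nd (nat_lit 468) (nat_lit 684) (nat_lit 0) (XT.nd (nat_lit 234) (nat_lit 304) (nat_lit 0) (XT.nd (nat_lit 78) (nat_lit 380) (nat_lit 0) (XT.lf (nat_lit 0) (nat_lit 303746965026) (nat_lit 152) (nat_lit 468281352505) (nat_lit 228) (nat_lit 814199393541) (nat_lit 32) (nat_lit 5) (nat_lit 34) (nat_lit 5) (nat_lit 35) (nat_lit 5) (nat_lit 307) (nat_lit 297) (nat_lit 176)) (XT.nd (nat_lit 78) (nat_lit 228) (nat_lit 0) (XT.lf (nat_lit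 0) (nat_lit 274398227394) (nat_lit 152) (nat_lit 1126538684012) (nat_lit 228) (nat_lit 333183313947) (nat_lit 30) (nat_lit 5) (nat_lit 32) (nat_lit 5) (nat_lit 33) (nat_lit 5) (nat_lit 308) (nat_lit 297) (nat_lit 175)) (XT.lf (nat_lit 0) (nat_lit 233743410716) (nat_lit 152) (nat_lit 32118109402) (nat_lit 228) (nat_lit 1633361373401) (nat_lit 27) (nat_lit 5) (nat_lit 29) (nat_lit 5) (nat_lit 30) (nat_lit 5) (nat_lit 309) (nat_lit 297) (nat_lit 174)))) (XT.nd (nat_lit 78) (nat_lit 152) (nat_lit 0) (XT.lf (nat_lit 0) (nat_lit 151707456124) (nat_lit 152) (nat_lit 860635534888) (nat_lit 228) (nat_lit 1069870995388) (nat_lit 25) (nat_lit 5) (nat_lit 27) (nat_lit 5) (nat_lit 28) (nat_lit 5) (nat_lit 310) (nat_lit 297) (nat_lit 173)) (XT.nd (nat_lit 78) (nat_lit 76) (nat_lit 0) (XT.lf (nat_lit 0) (nat_lit 44798429227) (nat_lit 76) (nat_lit 1886561001475) (nat_lit 152) (nat_lit 356449292668) (nat_lit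 24) (nat_lit 5) (nat_lit 25) (nat_lit 5) (nat_lit 26) (nat_lit 4) (nat_lit 311) (nat_lit 297) (nat_lit 172)) (XT.lf (nat_lit 0) (nat_lit 522242744683) (nat_lit 152) (nat_lit 122863353291) (nat_lit 76) (nat_lit 1871726461898) (nat_lit 23) (nat_lit 5) (nat_lit 25) (nat_lit 5) (nat_lit 24) (nat_lit 5) (nat_lit 312) (nat_lit 297) (nat_lit 171))))) (XT.nd (nat_lit 234) (nat_lit 304) (nat_lit 0) (XT.nd (nat_lit 78) (nat_lit 228) (nat_lit 0) (XT.lf (nat_lit 0) (nat_lit 1591191449808) (nat_lit 228) (nat_lit 368496980410) (nat_lit 76) (nat_lit 813416176745) (nat_lit 21) (nat_lit 5) (nat_lit 24) (nat_lit 5) (nat_lit 22) (nat_lit 4) (nat_lit 313) (nat_lit 297) (nat_lit 170)) (XT.nd (nat_lit 78) (nat_lit 152) (nat_lit 0) (XT.lf (nat_lit 0) (nat_lit 2350768166551) (nat_lit 76) (nat_lit 547762300731) (nat_lit 152) (nat_lit 163043153316) (nat_lit 20) (nat_lit 5) (nat_lit 21) (nat_lit 5) (nat_lit 22)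 (nat_lit 4) (nat_lit 314) (nat_lit 297) (nat_lit 169)) (XT.lf (nat_lit 0) (nat_lit 1050110240173) (nat_lit 152) (nat_lit 1221488490769) (nat_lit 76) (nat_lit 1112420795467) (nat_lit 18) (nat_lit 5) (nat_lit 20) (nat_lit 5) (nat_lit 19) (nat_lit 4) (nat_lit 315) (nat_lit 297) (nat_lit 168)))) (XT.nd (nat_lit 156) (nat_lit 76) (nat_lit 0) (XT.nd (nat_lit 78) (nat_lit 152) (nat_lit 0) (XT.lf (nat_lit 0) (nat_lit 1827981852380) (nat_lit 76) (nat_lit 688219902081) (nat_lit 152) (nat_lit 1231842245796) (nat_lit 17) (nat_lit 5) (nat_lit 18) (nat_lit 5) (nat_lit 19) (nat_lit 4) (nat_lit 316) (nat_lit 297) (nat_lit 167)) (XT.lf (nat_lit 0) (nat_lit 130745659110) (nat_lit 152) (nat_lit 2881491438878) (nat_lit 76) (nat_lit 1146607605634) (nat_lit 15) (nat_lit 5) (nat_lit 17) (nat_lit 5) (nat_lit 16) (nat_lit 4) (nat_lit 317) (nat_lit 297) (nat_lit 166))) (XT.nd (nat_lit 78) (nat_lit 0) (nat_lit 0)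 (XT.lf (nat_lit 0) (nat_lit 409804590453) (nat_lit 76) (nat_lit 1303294931124) (nat_lit 152) (nat_lit 2908540992385) (nat_lit 14) (nat_lit 5) (nat_lit 15) (nat_lit 5) (nat_lit 16) (nat_lit 4) (nat_lit 318) (nat_lit 297) (nat_lit 165)) (XT.lf (nat_lit 0) (nat_lit 3634797821888) (nat_lit 152) (nat_lit 795954834538) (nat_lit 0) (nat_lit 714943730751) (nat_lit 14) (nat_lit 5) (nat_lit 16) (nat_lit 4) (nat_lit 14) (nat_lit 4) (nat_lit 319) (nat_lit 297) (nat_lit 164)))))) (XT.nd (nat_lit 39078) (nat_lit 0) (nat_lit 2128) (XT.nd (nat_lit 234) (nat_lit 76) (nat_lit 0) (XT.nd (nat_lit 78) (nat_lit 76) (nat_lit 0) (XT.lf (nat_lit 0) (nat_lit 208972966741) (nat_lit 152) (nat_lit 2485190323535) (nat_lit 76) (nat_lit 3044619530493) (nat_lit 12) (nat_lit 5) (nat_lit 14) (nat_lit 5) (nat_lit 13) (nat_lit 4) (nat_lit 320) (nat_lit 297) (nat_lit 163)) (XT.nd (nat_lit 78) (nat_lit 0) (nat_lit 0) (XT.lf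 (nat_lit 0) (nat_lit 1576255222137) (nat_lit 76) (nat_lit 585335796754) (nat_lit 152) (nat_lit 4250963443359) (nat_lit 11) (nat_lit 5) (nat_lit 12) (nat_lit 5) (nat_lit 13) (nat_lit 4) (nat_lit 321) (nat_lit 297) (nat_lit 162)) (XT.lf (nat_lit 0) (nat_lit 4525582346905) (nat_lit 152) (nat_lit 830317321435) (nat_lit 0) (nat_lit 1822013736171) (nat_lit 11) (nat_lit 5) (nat_lit 13) (nat_lit 4) (nat_lit 11) (nat_lit 4) (nat_lit 322) (nat_lit 297) (nat_lit 161)))) (XT.nd (nat_lit 38688) (nat_lit 0) (nat_lit 3344) (XT.lf (nat_lit 0) (nat_lit 3958387511598) (nat_lit 76) (nat_lit 3397173114525) (nat_lit 76) (nat_lit 693604501830) (nat_lit 10) (nat_lit 4) (nat_lit 11) (nat_lit 5) (nat_lit 11) (nat_lit 4) (nat_lit 323) (nat_lit 297) (nat_lit 160)) (XT.nd (nat_lit 78) (nat_lit 0) (nat_lit 0) (XT.lf (nat_lit 0) (nat_lit 318354393036) (nat_lit 532) (nat_lit 47147446794) (nat_lit 532) (nat_lit 47147446794)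 (nat_lit 54) (nat_lit 3) (nat_lit 61) (nat_lit 3) (nat_lit 61) (nat_lit 5) (nat_lit 298) (nat_lit 298) (nat_lit 184)) (XT.lf (nat_lit 76) (nat_lit 671941571890) (nat_lit 0) (nat_lit 28680744370) (nat_lit 532) (nat_lit 185280819992) (nat_lit 55) (nat_lit 5) (nat_lit 54) (nat_lit 3) (nat_lit 61) (nat_lit 5) (nat_lit 299) (nat_lit 298) (nat_lit 183))))) (XT.nd (nat_lit 234) (nat_lit 912) (nat_lit 0) (XT.nd (nat_lit 78) (nat_lit 380) (nat_lit 0) (XT.lf (nat_lit 76) (nat_lit 615424938554) (nat_lit 0) (nat_lit 195050237505) (nat_lit 532) (nat_lit 142215023691) (nat_lit 56) (nat_lit 5) (nat_lit 55) (nat_lit 5) (nat_lit 62) (nat_lit 5) (nat_lit 300) (nat_lit 298) (nat_lit 182)) (XT.nd (nat_lit 78) (nat_lit 456) (nat_lit 0) (XT.lf (nat_lit 76) (nat_lit 565354775527) (nat_lit 0) (nat_lit 407383058657) (nat_lit 532) (nat_lit 53882939085) (nat_lit 57) (nat_lit 5) (nat_lit 56) (nat_lit 5) (nat_lit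 63) (nat_lit 5) (nat_lit 301) (nat_lit 298) (nat_lit 181)) (XT.lf (nat_lit 0) (nat_lit 84638945564) (nat_lit 532) (nat_lit 587538509695) (nat_lit 76) (nat_lit 436225618113) (nat_lit 50) (nat_lit 5) (nat_lit 57) (nat_lit 5) (nat_lit 51) (nat_lit 5) (nat_lit 302) (nat_lit 298) (nat_lit 180)))) (XT.nd (nat_lit 156) (nat_lit 380) (nat_lit 0) (XT.nd (nat_lit 78) (nat_lit 228) (nat_lit 0) (XT.lf (nat_lit 0) (nat_lit 282689383489) (nat_lit 380) (nat_lit 716270720306) (nat_lit 76) (nat_lit 200025390830) (nat_lit 46) (nat_lit 5) (nat_lit 51) (nat_lit 5) (nat_lit 47) (nat_lit 5) (nat_lit 303) (nat_lit 298) (nat_lit 179)) (XT.lf (nat_lit 0) (nat_lit 450815283809) (nat_lit 228) (nat_lit 106614821832) (nat_lit 304) (nat_lit 741966555969) (nat_lit 43) (nat_lit 5) (nat_lit 46) (nat_lit 5) (nat_lit 47) (nat_lit 5) (nat_lit 304) (nat_lit 298) (nat_lit 178))) (XT.nd (nat_lit 78) (nat_lit 152) (nat_lit 0)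 (XT.lf (nat_lit 0) (nat_lit 421569090961) (nat_lit 228) (nat_lit 505462650526) (nat_lit 304) (nat_lit 483545777750) (nat_lit 40) (nat_lit 5) (nat_lit 43) (nat_lit 5) (nat_lit 44) (nat_lit 5) (nat_lit 305) (nat_lit 298) (nat_lit 177)) (XT.lf (nat_lit 0) (nat_lit 401113324715) (nat_lit 152) (nat_lit 1001435149891) (nat_lit 228) (nat_lit 131849042770) (nat_lit 38) (nat_lit 5) (nat_lit 40) (nat_lit 5) (nat_lit 41) (nat_lit 5) (nat_lit 306) (nat_lit 298) (nat_lit 176))))))))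
noncomputable def xc59 : XT := (XT.nd (nat_lit 40716) (nat_lit 0) (nat_lit 0) (XT.nd (nat_lit 1014) (nat_lit 228) (nat_lit 0) (XT.nd (nat_lit 468) (nat_lit 760) (nat_lit 0) (XT.nd (nat_lit 234) (nat_lit 456) (nat_lit 0) (XT.nd (nat_lit 78) (nat_lit 304) (nat_lit 0) (XT.lf (nat_lit 0) (nat_lit 313414799337) (nat_lit 304) (nat_lit 1290728172296) (nat_lit 76) (nat_lit 67767115411) (nat_lit 34) (nat_lit 5) (nat_lit 38) (nat_lit 5) (nat_lit 35) (nat_lit 5) (nat_lit 307) (nat_lit 298) (nat_lit 175)) (XT.nd (nat_lit 78) (nat_lit 152) (nat_lit 0) (XT.lf (nat_lit 0) (nat_lit 349309200991) (nat_lit 152) (nat_lit 538523499139) (nat_lit 228) (nat_lit 936329156648) (nat_lit 32) (nat_lit 5) (nat_lit 34) (nat_lit 5) (nat_lit 35) (nat_lit 5) (nat_lit 308) (nat_lit 298) (nat_lit 174)) (XT.lf (nat_lit 0) (nat_lit 315558145318) (nat_lit 152) (nat_lit 1295519425760) (nat_lit 228) (nat_lit 383160678103) (nat_lit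 30) (nat_lit 5) (nat_lit 32) (nat_lit 5) (nat_lit 33) (nat_lit 5) (nat_lit 309) (nat_lit 298) (nat_lit 173)))) (XT.nd (nat_lit 78) (nat_lit 228) (nat_lit 0) (XT.lf (nat_lit 0) (nat_lit 268805096783) (nat_lit 152) (nat_lit 36935765362) (nat_lit 228) (nat_lit 1878365456171) (nat_lit 27) (nat_lit 5) (nat_lit 29) (nat_lit 5) (nat_lit 30) (nat_lit 5) (nat_lit 310) (nat_lit 298) (nat_lit 172)) (XT.nd (nat_lit 78) (nat_lit 76) (nat_lit 0) (XT.lf (nat_lit 0) (nat_lit 174463741353) (nat_lit 152) (nat_lit 989730802724) (nat_lit 228) (nat_lit 1230351531833) (nat_lit 25) (nat_lit 5) (nat_lit 27) (nat_lit 5) (nat_lit 28) (nat_lit 5) (nat_lit 311) (nat_lit 298) (nat_lit 171)) (XT.lf (nat_lit 0) (nat_lit 51518352663) (nat_lit 76) (nat_lit 2169545088570) (nat_lit 152) (nat_lit 409916582886) (nat_lit 24) (nat_lit 5) (nat_lit 25) (nat_lit 5) (nat_lit 26) (nat_lit 4) (nat_lit 312) (nat_lit 298) (nat_lit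 170))))) (XT.nd (nat_lit 234) (nat_lit 456) (nat_lit 0) (XT.nd (nat_lit 78) (nat_lit 228) (nat_lit 0) (XT.lf (nat_lit 0) (nat_lit 600579242034) (nat_lit 152) (nat_lit 141292713402) (nat_lit 76) (nat_lit 2152485481498) (nat_lit 23) (nat_lit 5) (nat_lit 25) (nat_lit 5) (nat_lit 24) (nat_lit 5) (nat_lit 313) (nat_lit 298) (nat_lit 169)) (XT.nd (nat_lit 78) (nat_lit 76) (nat_lit 0) (XT.lf (nat_lit 0) (nat_lit 1829870246180) (nat_lit 228) (nat_lit 423771391694) (nat_lit 76) (nat_lit 935428653763) (nat_lit 21) (nat_lit 5) (nat_lit 24) (nat_lit 5) (nat_lit 22) (nat_lit 4) (nat_lit 314) (nat_lit 298) (nat_lit 168)) (XT.lf (nat_lit 0) (nat_lit 2703383515819) (nat_lit 76) (nat_lit 629926593154) (nat_lit 152) (nat_lit 187499548936) (nat_lit 20) (nat_lit 5) (nat_lit 21) (nat_lit 5) (nat_lit 22) (nat_lit 4) (nat_lit 315) (nat_lit 298) (nat_lit 167)))) (XT.nd (nat_lit 156) (nat_lit 228) (nat_lit 0)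 (XT.nd (nat_lit 78) (nat_lit 76) (nat_lit 0) (XT.lf (nat_lit 0) (nat_lit 1207626844157) (nat_lit 152) (nat_lit 1404711642871) (nat_lit 76) (nat_lit 1279283962865) (nat_lit 18) (nat_lit 5) (nat_lit 20) (nat_lit 5) (nat_lit 19) (nat_lit 4) (nat_lit 316) (nat_lit 298) (nat_lit 166)) (XT.lf (nat_lit 0) (nat_lit 2102179241466) (nat_lit 76) (nat_lit 791452837934) (nat_lit 152) (nat_lit 1416618515920) (nat_lit 17) (nat_lit 5) (nat_lit 18) (nat_lit 5) (nat_lit 19) (nat_lit 4) (nat_lit 317) (nat_lit 298) (nat_lit 165))) (XT.nd (nat_lit 78) (nat_lit 76) (nat_lit 0) (XT.lf (nat_lit 0) (nat_lit 150357566772) (nat_lit 152) (nat_lit 3313715046305) (nat_lit 76) (nat_lit 1318598791356) (nat_lit 15) (nat_lit 5) (nat_lit 17) (nat_lit 5) (nat_lit 16) (nat_lit 4) (nat_lit 318) (nat_lit 298) (nat_lit 164)) (XT.lf (nat_lit 0) (nat_lit 471275378250) (nat_lit 76) (nat_lit 1498789125076) (nat_lit 152) (nat_lit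 3344822083424) (nat_lit 14) (nat_lit 5) (nat_lit 15) (nat_lit 5) (nat_lit 16) (nat_lit 4) (nat_lit 319) (nat_lit 298) (nat_lit 163)))))) (XT.nd (nat_lit 39156) (nat_lit 0) (nat_lit 2052) (XT.nd (nat_lit 234) (nat_lit 0) (nat_lit 0) (XT.nd (nat_lit 78) (nat_lit 228) (nat_lit 0) (XT.lf (nat_lit 0) (nat_lit 4180017542660) (nat_lit 152) (nat_lit 915347970645) (nat_lit 0) (nat_lit 822185328128) (nat_lit 14) (nat_lit 5) (nat_lit 16) (nat_lit 4) (nat_lit 14) (nat_lit 4) (nat_lit 320) (nat_lit 298) (nat_lit 162)) (XT.nd (nat_lit 78) (nat_lit 76) (nat_lit 0) (XT.lf (nat_lit 0) (nat_lit 240318956149) (nat_lit 152) (nat_lit 2857968788176) (nat_lit 76) (nat_lit 3501312495991) (nat_lit 12) (nat_lit 5) (nat_lit 14) (nat_lit 5) (nat_lit 13) (nat_lit 4) (nat_lit 321) (nat_lit 298) (nat_lit 161)) (XT.lf (nat_lit 0) (nat_lit 1812693582247) (nat_lit 76) (nat_lit 673136129931) (nat_lit 152) (nat_lit 4888607916158)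 (nat_lit 11) (nat_lit 5) (nat_lit 12) (nat_lit 5) (nat_lit 13) (nat_lit 4) (nat_lit 322) (nat_lit 298) (nat_lit 160)))) (XT.nd (nat_lit 38766) (nat_lit 0) (nat_lit 3268) (XT.lf (nat_lit 0) (nat_lit 5204419734878) (nat_lit 152) (nat_lit 954864850810) (nat_lit 0) (nat_lit 2095315826613) (nat_lit 11) (nat_lit 5) (nat_lit 13) (nat_lit 4) (nat_lit 11) (nat_lit 4) (nat_lit 323) (nat_lit 298) (nat_lit 159)) (XT.nd (nat_lit 78) (nat_lit 0) (nat_lit 0) (XT.lf (nat_lit 0) (nat_lit 366107705623) (nat_lit 532) (nat_lit 54219480712) (nat_lit 532) (nat_lit 54219480712) (nat_lit 54) (nat_lit 3) (nat_lit 61) (nat_lit 3) (nat_lit 61) (nat_lit 5) (nat_lit 299) (nat_lit 299) (nat_lit 182)) (XT.lf (nat_lit 76) (nat_lit 772732959807) (nat_lit 0) (nat_lit 32982974734) (nat_lit 532) (nat_lit 213072649992) (nat_lit 55) (nat_lit 5) (nat_lit 54) (nat_lit 3) (nat_lit 61) (nat_lit 5) (nat_lit 300) (nat_lit 299) (nat_lit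 181))))) (XT.nd (nat_lit 234) (nat_lit 912) (nat_lit 0) (XT.nd (nat_lit 78) (nat_lit 380) (nat_lit 0) (XT.lf (nat_lit 76) (nat_lit 707738841487) (nat_lit 0) (nat_lit 224307847913) (nat_lit 532) (nat_lit 163547020933) (nat_lit 56) (nat_lit 5) (nat_lit 55) (nat_lit 5) (nat_lit 62) (nat_lit 5) (nat_lit 301) (nat_lit 299) (nat_lit 180)) (XT.nd (nat_lit 78) (nat_lit 456) (nat_lit 0) (XT.lf (nat_lit 76) (nat_lit 650158159666) (nat_lit 0) (nat_lit 468490558147) (nat_lit 532) (nat_lit 61965154399) (nat_lit 57) (nat_lit 5) (nat_lit 56) (nat_lit 5) (nat_lit 63) (nat_lit 5) (nat_lit 302) (nat_lit 299) (nat_lit 179)) (XT.lf (nat_lit 0) (nat_lit 97334977042) (nat_lit 532) (nat_lit 675669105759) (nat_lit 76) (nat_lit 501659436109) (nat_lit 50) (nat_lit 5) (nat_lit 57) (nat_lit 5) (nat_lit 51) (nat_lit 5) (nat_lit 303) (nat_lit 299) (nat_lit 178)))) (XT.nd (nat_lit 156) (nat_lit 380) (nat_lit 0) (XT.nd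 (nat_lit 78) (nat_lit 228) (nat_lit 0) (XT.lf (nat_lit 0) (nat_lit 325092959800) (nat_lit 380) (nat_lit 823711149371) (nat_lit 76) (nat_lit 230029195886) (nat_lit 46) (nat_lit 5) (nat_lit 51) (nat_lit 5) (nat_lit 47) (nat_lit 5) (nat_lit 304) (nat_lit 299) (nat_lit 177)) (XT.lf (nat_lit 0) (nat_lit 518437740211) (nat_lit 228) (nat_lit 122607031989) (nat_lit 304) (nat_lit 853261376370) (nat_lit 43) (nat_lit 5) (nat_lit 46) (nat_lit 5) (nat_lit 47) (nat_lit 5) (nat_lit 305) (nat_lit 299) (nat_lit 176))) (XT.nd (nat_lit 78) (nat_lit 152) (nat_lit 0) (XT.lf (nat_lit 0) (nat_lit 484804615522) (nat_lit 228) (nat_lit 581282022387) (nat_lit 304) (nat_lit 556077498203) (nat_lit 40) (nat_lit 5) (nat_lit 43) (nat_lit 5) (nat_lit 44) (nat_lit 5) (nat_lit 306) (nat_lit 299) (nat_lit 175)) (XT.lf (nat_lit 0) (nat_lit 461280480231) (nat_lit 152) (nat_lit 1151650387439) (nat_lit 228) (nat_lit 151626267393)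 (nat_lit 38) (nat_lit 5) (nat_lit 40) (nat_lit 5) (nat_lit 41) (nat_lit 5) (nat_lit 307) (nat_lit 299) (nat_lit 174))))))) (XT.nd (nat_lit 1014) (nat_lit 228) (nat_lit 0) (XT.nd (nat_lit 468) (nat_lit 760) (nat_lit 0) (XT.nd (nat_lit 234) (nat_lit 456) (nat_lit 0) (XT.nd (nat_lit 78) (nat_lit 304) (nat_lit 0) (XT.lf (nat_lit 0) (nat_lit 360427132604) (nat_lit 304) (nat_lit 1484337240187) (nat_lit 76) (nat_lit 77932218104) (nat_lit 34) (nat_lit 5) (nat_lit 38) (nat_lit 5) (nat_lit 35) (nat_lit 5) (nat_lit 308) (nat_lit 299) (nat_lit 173)) (XT.nd (nat_lit 78) (nat_lit 152) (nat_lit 0) (XT.lf (nat_lit 0) (nat_lit 401705725722) (nat_lit 152) (nat_lit 619301981484) (nat_lit 228) (nat_lit 1076778419805) (nat_lit 32) (nat_lit 5) (nat_lit 34) (nat_lit 5) (nat_lit 35) (nat_lit 5) (nat_lit 309) (nat_lit 299) (nat_lit 172)) (XT.lf (nat_lit 0) (nat_lit 362892006107) (nat_lit 152) (nat_lit 1489847293609)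 (nat_lit 228) (nat_lit 440634679301) (nat_lit 30) (nat_lit 5) (nat_lit 32) (nat_lit 5) (nat_lit 33) (nat_lit 5) (nat_lit 310) (nat_lit 299) (nat_lit 171)))) (XT.nd (nat_lit 78) (nat_lit 228) (nat_lit 0) (XT.lf (nat_lit 0) (nat_lit 309125993216) (nat_lit 152) (nat_lit 42476084457) (nat_lit 228) (nat_lit 2160120181410) (nat_lit 27) (nat_lit 5) (nat_lit 29) (nat_lit 5) (nat_lit 30) (nat_lit 5) (nat_lit 311) (nat_lit 299) (nat_lit 170)) (XT.nd (nat_lit 78) (nat_lit 76) (nat_lit 0) (XT.lf (nat_lit 0) (nat_lit 200633428690) (nat_lit 152) (nat_lit 1138190375952) (nat_lit 228) (nat_lit 1414904176267) (nat_lit 25) (nat_lit 5) (nat_lit 27) (nat_lit 5) (nat_lit 28) (nat_lit 5) (nat_lit 312) (nat_lit 299) (nat_lit 169)) (XT.lf (nat_lit 0) (nat_lit 59246225828) (nat_lit 76) (nat_lit 2494976804123) (nat_lit 152) (nat_lit 471403991920) (nat_lit 24) (nat_lit 5) (nat_lit 25) (nat_lit 5) (nat_lit 26) (nat_lit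 4) (nat_lit 313) (nat_lit 299) (nat_lit 168))))) (XT.nd (nat_lit 234) (nat_lit 456) (nat_lit 0) (XT.nd (nat_lit 78) (nat_lit 228) (nat_lit 0) (XT.lf (nat_lit 0) (nat_lit 690666193102) (nat_lit 152) (nat_lit 162486512373) (nat_lit 76) (nat_lit 2475358341768) (nat_lit 23) (nat_lit 5) (nat_lit 25) (nat_lit 5) (nat_lit 24) (nat_lit 5) (nat_lit 314) (nat_lit 299) (nat_lit 167)) (XT.nd (nat_lit 78) (nat_lit 76) (nat_lit 0) (XT.lf (nat_lit 0) (nat_lit 2104350842768) (nat_lit 228) (nat_lit 487336997780) (nat_lit 76) (nat_lit 1075742990018) (nat_lit 21) (nat_lit 5) (nat_lit 24) (nat_lit 5) (nat_lit 22) (nat_lit 4) (nat_lit 315) (nat_lit 299) (nat_lit 166)) (XT.lf (nat_lit 0) (nat_lit 3108891137169) (nat_lit 76) (nat_lit 724415542289) (nat_lit 152) (nat_lit 215624422768) (nat_lit 20) (nat_lit 5) (nat_lit 21) (nat_lit 5) (nat_lit 22) (nat_lit 4) (nat_lit 316) (nat_lit 299) (nat_lit 165)))) (XT.nd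 (nat_lit 156) (nat_lit 228) (nat_lit 0) (XT.nd (nat_lit 78) (nat_lit 76) (nat_lit 0) (XT.lf (nat_lit 0) (nat_lit 1388770922167) (nat_lit 152) (nat_lit 1615418297419) (nat_lit 76) (nat_lit 1471176593649) (nat_lit 18) (nat_lit 5) (nat_lit 20) (nat_lit 5) (nat_lit 19) (nat_lit 4) (nat_lit 317) (nat_lit 299) (nat_lit 164)) (XT.lf (nat_lit 0) (nat_lit 2417506211790) (nat_lit 76) (nat_lit 910170726226) (nat_lit 152) (nat_lit 1629111242838) (nat_lit 17) (nat_lit 5) (nat_lit 18) (nat_lit 5) (nat_lit 19) (nat_lit 4) (nat_lit 318) (nat_lit 299) (nat_lit 163))) (XT.nd (nat_lit 78) (nat_lit 76) (nat_lit 0) (XT.lf (nat_lit 0) (nat_lit 172911246246) (nat_lit 152) (nat_lit 3810772221281) (nat_lit 76) (nat_lit 1516388643993) (nat_lit 15) (nat_lit 5) (nat_lit 17) (nat_lit 5) (nat_lit 16) (nat_lit 4) (nat_lit 319) (nat_lit 299) (nat_lit 162)) (XT.lf (nat_lit 0) (nat_lit 541966760019) (nat_lit 76) (nat_lit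 1723607459270) (nat_lit 152) (nat_lit 3846545352218) (nat_lit 14) (nat_lit 5) (nat_lit 15) (nat_lit 5) (nat_lit 16) (nat_lit 4) (nat_lit 320) (nat_lit 299) (nat_lit 161)))))) (XT.nd (nat_lit 39234) (nat_lit 0) (nat_lit 1748) (XT.nd (nat_lit 39000) (nat_lit 0) (nat_lit 3268) (XT.nd (nat_lit 78) (nat_lit 228) (nat_lit 0) (XT.lf (nat_lit 0) (nat_lit 4807020209968) (nat_lit 152) (nat_lit 1052650098888) (nat_lit 0) (nat_lit 945513155903) (nat_lit 14) (nat_lit 5) (nat_lit 16) (nat_lit 4) (nat_lit 14) (nat_lit 4) (nat_lit 321) (nat_lit 299) (nat_lit 160)) (XT.nd (nat_lit 78) (nat_lit 76) (nat_lit 0) (XT.lf (nat_lit 0) (nat_lit 276366833142) (nat_lit 152) (nat_lit 3286664042970) (nat_lit 76) (nat_lit 4026509397552) (nat_lit 12) (nat_lit 5) (nat_lit 14) (nat_lit 5) (nat_lit 13) (nat_lit 4) (nat_lit 322) (nat_lit 299) (nat_lit 159)) (XT.lf (nat_lit 0) (nat_lit 2084597677648) (nat_lit 76) (nat_lit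 774106521946) (nat_lit 152) (nat_lit 5621899070535) (nat_lit 11) (nat_lit 5) (nat_lit 12) (nat_lit 5) (nat_lit 13) (nat_lit 4) (nat_lit 323) (nat_lit 299) (nat_lit 158)))) (XT.nd (nat_lit 78) (nat_lit 0) (nat_lit 0) (XT.lf (nat_lit 0) (nat_lit 421023977633) (nat_lit 532) (nat_lit 62352339982) (nat_lit 532) (nat_lit 62352339982) (nat_lit 54) (nat_lit 3) (nat_lit 61) (nat_lit 3) (nat_lit 61) (nat_lit 5) (nat_lit 300) (nat_lit 300) (nat_lit 180)) (XT.nd (nat_lit 78) (nat_lit 0) (nat_lit 76) (XT.lf (nat_lit 76) (nat_lit 888643018813) (nat_lit 0) (nat_lit 37930510706) (nat_lit 532) (nat_lit 245033325942) (nat_lit 55) (nat_lit 5) (nat_lit 54) (nat_lit 3) (nat_lit 61) (nat_lit 5) (nat_lit 301) (nat_lit 300) (nat_lit 179)) (XT.lf (nat_lit 76) (nat_lit 813899790319) (nat_lit 0) (nat_lit 257954081647) (nat_lit 532) (nat_lit 188078880264) (nat_lit 56) (nat_lit 5) (nat_lit 55) (nat_lit 5) (nat_lit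 62) (nat_lit 5) (nat_lit 302) (nat_lit 300) (nat_lit 178))))) (XT.nd (nat_lit 234) (nat_lit 912) (nat_lit 0) (XT.nd (nat_lit 78) (nat_lit 760) (nat_lit 0) (XT.lf (nat_lit 76) (nat_lit 747682010504) (nat_lit 0) (nat_lit 538764172637) (nat_lit 532) (nat_lit 71259757011) (nat_lit 57) (nat_lit 5) (nat_lit 56) (nat_lit 5) (nat_lit 63) (nat_lit 5) (nat_lit 303) (nat_lit 300) (nat_lit 177)) (XT.nd (nat_lit 78) (nat_lit 304) (nat_lit 0) (XT.lf (nat_lit 0) (nat_lit 111935366996) (nat_lit 532) (nat_lit 777019335222) (nat_lit 76) (nat_lit 576908332833) (nat_lit 50) (nat_lit 5) (nat_lit 57) (nat_lit 5) (nat_lit 51) (nat_lit 5) (nat_lit 304) (nat_lit 300) (nat_lit 176)) (XT.lf (nat_lit 0) (nat_lit 373857031398) (nat_lit 380) (nat_lit 947267686442) (nat_lit 76) (nat_lit 264533572570) (nat_lit 46) (nat_lit 5) (nat_lit 51) (nat_lit 5) (nat_lit 47) (nat_lit 5) (nat_lit 305) (nat_lit 300) (nat_lit 175))))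 (XT.nd (nat_lit 156) (nat_lit 456) (nat_lit 0) (XT.nd (nat_lit 78) (nat_lit 228) (nat_lit 0) (XT.lf (nat_lit 0) (nat_lit 596203525122) (nat_lit 228) (nat_lit 140998076867) (nat_lit 304) (nat_lit 981250459579) (nat_lit 43) (nat_lit 5) (nat_lit 46) (nat_lit 5) (nat_lit 47) (nat_lit 5) (nat_lit 306) (nat_lit 300) (nat_lit 174)) (XT.lf (nat_lit 0) (nat_lit 557525429526) (nat_lit 228) (nat_lit 668474306298) (nat_lit 304) (nat_lit 639489012378) (nat_lit 40) (nat_lit 5) (nat_lit 43) (nat_lit 5) (nat_lit 44) (nat_lit 5) (nat_lit 307) (nat_lit 300) (nat_lit 173))) (XT.nd (nat_lit 78) (nat_lit 304) (nat_lit 0) (XT.lf (nat_lit 0) (nat_lit 530472670836) (nat_lit 152) (nat_lit 1324397919139) (nat_lit 228) (nat_lit 174370107847) (nat_lit 38) (nat_lit 5) (nat_lit 40) (nat_lit 5) (nat_lit 41) (nat_lit 5) (nat_lit 308) (nat_lit 300) (nat_lit 172)) (XT.lf (nat_lit 0) (nat_lit 414491288215) (nat_lit 304)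 (nat_lit 1706987706780) (nat_lit 76) (nat_lit 89622077573) (nat_lit 34) (nat_lit 5) (nat_lit 38) (nat_lit 5) (nat_lit 35) (nat_lit 5) (nat_lit 309) (nat_lit 300) (nat_lit 171))))))))
noncomputable def xc60 : XT := (XT.nd (nat_lit 40872) (nat_lit 0) (nat_lit 0) (XT.nd (nat_lit 936) (nat_lit 0) (nat_lit 0) (XT.nd (nat_lit 468) (nat_lit 684) (nat_lit 0) (XT.nd (nat_lit 234) (nat_lit 304) (nat_lit 0) (XT.nd (nat_lit 78) (nat_lit 380) (nat_lit 0) (XT.lf (nat_lit 0) (nat_lit 461961693906) (nat_lit 152) (nat_lit 712197246550) (nat_lit 228) (nat_lit 1238295099344) (nat_lit 32) (nat_lit 5) (nat_lit 34) (nat_lit 5) (nat_lit 35) (nat_lit 5) (nat_lit 310) (nat_lit 300) (nat_lit 170)) (XT.nd (nat_lit 78) (nat_lit 228) (nat_lit 0) (XT.lf (nat_lit 0) (nat_lit 417325912120) (nat_lit 152) (nat_lit 1713324352857) (nat_lit 228) (nat_lit 506729805190) (nat_lit 30) (nat_lit 5) (nat_lit 32) (nat_lit 5) (nat_lit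 33) (nat_lit 5) (nat_lit 311) (nat_lit 300) (nat_lit 169)) (XT.lf (nat_lit 0) (nat_lit 355494991947) (nat_lit 152) (nat_lit 48847462563) (nat_lit 228) (nat_lit 2484138138158) (nat_lit 27) (nat_lit 5) (nat_lit 29) (nat_lit 5) (nat_lit 30) (nat_lit 5) (nat_lit 312) (nat_lit 300) (nat_lit 168)))) (XT.nd (nat_lit 78) (nat_lit 152) (nat_lit 0) (XT.lf (nat_lit 0) (nat_lit 230728538368) (nat_lit 152) (nat_lit 1308918896669) (nat_lit 228) (nat_lit 1627139738177) (nat_lit 25) (nat_lit 5) (nat_lit 27) (nat_lit 5) (nat_lit 28) (nat_lit 5) (nat_lit 313) (nat_lit 300) (nat_lit 167)) (XT.nd (nat_lit 78) (nat_lit 76) (nat_lit 0) (XT.lf (nat_lit 0) (nat_lit 68133250640) (nat_lit 76) (nat_lit 2869223288649) (nat_lit 152) (nat_lit 542114531427) (nat_lit 24) (nat_lit 5) (nat_lit 25) (nat_lit 5) (nat_lit 26) (nat_lit 4) (nat_lit 314) (nat_lit 300) (nat_lit 166)) (XT.lf (nat_lit 0) (nat_lit 794266171037) (nat_lit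 152) (nat_lit 186859407535) (nat_lit 76) (nat_lit 2846662121802) (nat_lit 23) (nat_lit 5) (nat_lit 25) (nat_lit 5) (nat_lit 24) (nat_lit 5) (nat_lit 315) (nat_lit 300) (nat_lit 165))))) (XT.nd (nat_lit 234) (nat_lit 304) (nat_lit 0) (XT.nd (nat_lit 78) (nat_lit 228) (nat_lit 0) (XT.lf (nat_lit 0) (nat_lit 2420003514295) (nat_lit 228) (nat_lit 560437469816) (nat_lit 76) (nat_lit 1237104467398) (nat_lit 21) (nat_lit 5) (nat_lit 24) (nat_lit 5) (nat_lit 22) (nat_lit 4) (nat_lit 316) (nat_lit 300) (nat_lit 164)) (XT.nd (nat_lit 78) (nat_lit 152) (nat_lit 0) (XT.lf (nat_lit 0) (nat_lit 3575224878805) (nat_lit 76) (nat_lit 833077843509) (nat_lit 152) (nat_lit 247968041943) (nat_lit 20) (nat_lit 5) (nat_lit 21) (nat_lit 5) (nat_lit 22) (nat_lit 4) (nat_lit 317) (nat_lit 300) (nat_lit 163)) (XT.lf (nat_lit 0) (nat_lit 1597086599348) (nat_lit 152) (nat_lit 1857730972556) (nat_lit 76) (nat_lit 1691853110185)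 (nat_lit 18) (nat_lit 5) (nat_lit 20) (nat_lit 5) (nat_lit 19) (nat_lit 4) (nat_lit 318) (nat_lit 300) (nat_lit 162)))) (XT.nd (nat_lit 78) (nat_lit 228) (nat_lit 0) (XT.lf (nat_lit 0) (nat_lit 2780132207154) (nat_lit 76) (nat_lit 1046696306881) (nat_lit 152) (nat_lit 1873477891101) (nat_lit 17) (nat_lit 5) (nat_lit 18) (nat_lit 5) (nat_lit 19) (nat_lit 4) (nat_lit 319) (nat_lit 300) (nat_lit 161)) (XT.nd (nat_lit 78) (nat_lit 76) (nat_lit 0) (XT.lf (nat_lit 0) (nat_lit 198847966799) (nat_lit 152) (nat_lit 4382387992492) (nat_lit 76) (nat_lit 1743846966251) (nat_lit 15) (nat_lit 5) (nat_lit 17) (nat_lit 5) (nat_lit 16) (nat_lit 4) (nat_lit 320) (nat_lit 300) (nat_lit 160)) (XT.lf (nat_lit 0) (nat_lit 623261830756) (nat_lit 76) (nat_lit 1982148552022) (nat_lit 152) (nat_lit 4423527121993) (nat_lit 14) (nat_lit 5) (nat_lit 15) (nat_lit 5) (nat_lit 16) (nat_lit 4) (nat_lit 321) (nat_lit 300)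 (nat_lit 159)))))) (XT.nd (nat_lit 39390) (nat_lit 0) (nat_lit 1216) (XT.nd (nat_lit 39156) (nat_lit 0) (nat_lit 2736) (XT.nd (nat_lit 39000) (nat_lit 0) (nat_lit 3040) (XT.lf (nat_lit 0) (nat_lit 5528073268616) (nat_lit 152) (nat_lit 1210547562793) (nat_lit 0) (nat_lit 1087340150880) (nat_lit 14) (nat_lit 5) (nat_lit 16) (nat_lit 4) (nat_lit 14) (nat_lit 4) (nat_lit 322) (nat_lit 300) (nat_lit 158)) (XT.nd (nat_lit 78) (nat_lit 0) (nat_lit 0) (XT.lf (nat_lit 0) (nat_lit 484177662117) (nat_lit 532) (nat_lit 71705143467) (nat_lit 532) (nat_lit 71705143467) (nat_lit 54) (nat_lit 3) (nat_lit 61) (nat_lit 3) (nat_lit 61) (nat_lit 5) (nat_lit 301) (nat_lit 301) (nat_lit 178)) (XT.lf (nat_lit 76) (nat_lit 1021939558618) (nat_lit 0) (nat_lit 43620155184) (nat_lit 532) (nat_lit 281788157311) (nat_lit 55) (nat_lit 5) (nat_lit 54) (nat_lit 3) (nat_lit 61) (nat_lit 5) (nat_lit 302) (nat_lit 301)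 (nat_lit 177)))) (XT.nd (nat_lit 78) (nat_lit 380) (nat_lit 0) (XT.lf (nat_lit 76) (nat_lit 935984851577) (nat_lit 0) (nat_lit 296647236651) (nat_lit 532) (nat_lit 216290565757) (nat_lit 56) (nat_lit 5) (nat_lit 55) (nat_lit 5) (nat_lit 62) (nat_lit 5) (nat_lit 303) (nat_lit 301) (nat_lit 176)) (XT.nd (nat_lit 78) (nat_lit 456) (nat_lit 0) (XT.lf (nat_lit 76) (nat_lit 859834408026) (nat_lit 0) (nat_lit 619578821797) (nat_lit 532) (nat_lit 81948591604) (nat_lit 57) (nat_lit 5) (nat_lit 56) (nat_lit 5) (nat_lit 63) (nat_lit 5) (nat_lit 304) (nat_lit 301) (nat_lit 175)) (XT.lf (nat_lit 0) (nat_lit 128725780474) (nat_lit 532) (nat_lit 893572132367) (nat_lit 76) (nat_lit 663444568623) (nat_lit 50) (nat_lit 5) (nat_lit 57) (nat_lit 5) (nat_lit 51) (nat_lit 5) (nat_lit 305) (nat_lit 301) (nat_lit 174))))) (XT.nd (nat_lit 234) (nat_lit 760) (nat_lit 0) (XT.nd (nat_lit 78) (nat_lit 456) (nat_lit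 0) (XT.lf (nat_lit 0) (nat_lit 429935682613) (nat_lit 380) (nat_lit 1089357737076) (nat_lit 76) (nat_lit 304213606415) (nat_lit 46) (nat_lit 5) (nat_lit 51) (nat_lit 5) (nat_lit 47) (nat_lit 5) (nat_lit 306) (nat_lit 301) (nat_lit 173)) (XT.nd (nat_lit 78) (nat_lit 228) (nat_lit 0) (XT.lf (nat_lit 0) (nat_lit 685634147561) (nat_lit 228) (nat_lit 162147780897) (nat_lit 304) (nat_lit 1128437935324) (nat_lit 43) (nat_lit 5) (nat_lit 46) (nat_lit 5) (nat_lit 47) (nat_lit 5) (nat_lit 307) (nat_lit 301) (nat_lit 172)) (XT.lf (nat_lit 0) (nat_lit 641154335959) (nat_lit 228) (nat_lit 768745437539) (nat_lit 304) (nat_lit 735412280639) (nat_lit 40) (nat_lit 5) (nat_lit 43) (nat_lit 5) (nat_lit 44) (nat_lit 5) (nat_lit 308) (nat_lit 301) (nat_lit 171)))) (XT.nd (nat_lit 156) (nat_lit 304) (nat_lit 0) (XT.nd (nat_lit 78) (nat_lit 304) (nat_lit 0) (XT.lf (nat_lit 0) (nat_lit 610043661117) (nat_lit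 152) (nat_lit 1523057587035) (nat_lit 228) (nat_lit 200525548672) (nat_lit 38) (nat_lit 5) (nat_lit 40) (nat_lit 5) (nat_lit 41) (nat_lit 5) (nat_lit 309) (nat_lit 301) (nat_lit 170)) (XT.lf (nat_lit 0) (nat_lit 476665046265) (nat_lit 304) (nat_lit 1963035772487) (nat_lit 76) (nat_lit 103065409439) (nat_lit 34) (nat_lit 5) (nat_lit 38) (nat_lit 5) (nat_lit 35) (nat_lit 5) (nat_lit 310) (nat_lit 301) (nat_lit 169))) (XT.nd (nat_lit 78) (nat_lit 152) (nat_lit 0) (XT.lf (nat_lit 0) (nat_lit 531256030658) (nat_lit 152) (nat_lit 819026809217) (nat_lit 228) (nat_lit 1424039301158) (nat_lit 32) (nat_lit 5) (nat_lit 34) (nat_lit 5) (nat_lit 35) (nat_lit 5) (nat_lit 311) (nat_lit 301) (nat_lit 168)) (XT.lf (nat_lit 0) (nat_lit 479924878407) (nat_lit 152) (nat_lit 1970322979477) (nat_lit 228) (nat_lit 582739218497) (nat_lit 30) (nat_lit 5) (nat_lit 32) (nat_lit 5) (nat_lit 33) (nat_lit 5) (nat_lit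 312) (nat_lit 301) (nat_lit 167))))))) (XT.nd (nat_lit 40014) (nat_lit 0) (nat_lit 684) (XT.nd (nat_lit 468) (nat_lit 456) (nat_lit 0) (XT.nd (nat_lit 234) (nat_lit 304) (nat_lit 0) (XT.nd (nat_lit 78) (nat_lit 228) (nat_lit 0) (XT.lf (nat_lit 0) (nat_lit 408819316162) (nat_lit 152) (nat_lit 56174555813) (nat_lit 228) (nat_lit 2856758805602) (nat_lit 27) (nat_lit 5) (nat_lit 29) (nat_lit 5) (nat_lit 30) (nat_lit 5) (nat_lit 313) (nat_lit 301) (nat_lit 166)) (XT.nd (nat_lit 78) (nat_lit 76) (nat_lit 0) (XT.lf (nat_lit 0) (nat_lit 265337891240) (nat_lit 152) (nat_lit 1505256704194) (nat_lit 228) (nat_lit 1871210650110) (nat_lit 25) (nat_lit 5) (nat_lit 27) (nat_lit 5) (nat_lit 28) (nat_lit 5) (nat_lit 314) (nat_lit 301) (nat_lit 165)) (XT.lf (nat_lit 0) (nat_lit 78353306998) (nat_lit 76) (nat_lit 3299606754655) (nat_lit 152) (nat_lit 623431666317) (nat_lit 24) (nat_lit 5) (nat_lit 25) (nat_lit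 5) (nat_lit 26) (nat_lit 4) (nat_lit 315) (nat_lit 301) (nat_lit 164)))) (XT.nd (nat_lit 78) (nat_lit 228) (nat_lit 0) (XT.lf (nat_lit 0) (nat_lit 913406133721) (nat_lit 152) (nat_lit 214888256893) (nat_lit 76) (nat_lit 3273661461825) (nat_lit 23) (nat_lit 5) (nat_lit 25) (nat_lit 5) (nat_lit 24) (nat_lit 5) (nat_lit 316) (nat_lit 301) (nat_lit 163)) (XT.nd (nat_lit 78) (nat_lit 76) (nat_lit 0) (XT.lf (nat_lit 0) (nat_lit 2783004075551) (nat_lit 228) (nat_lit 644503031588) (nat_lit 76) (nat_lit 1422670159343) (nat_lit 21) (nat_lit 5) (nat_lit 24) (nat_lit 5) (nat_lit 22) (nat_lit 4) (nat_lit 317) (nat_lit 301) (nat_lit 162)) (XT.lf (nat_lit 0) (nat_lit 4111508664357) (nat_lit 76) (nat_lit 958039497258) (nat_lit 152) (nat_lit 285163214782) (nat_lit 20) (nat_lit 5) (nat_lit 21) (nat_lit 5) (nat_lit 22) (nat_lit 4) (nat_lit 318) (nat_lit 301) (nat_lit 161))))) (XT.nd (nat_lit 234) (nat_lit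 76) (nat_lit 0) (XT.nd (nat_lit 78) (nat_lit 228) (nat_lit 0) (XT.lf (nat_lit 0) (nat_lit 1836649618630) (nat_lit 152) (nat_lit 2136390565906) (nat_lit 76) (nat_lit 1945631097499) (nat_lit 18) (nat_lit 5) (nat_lit 20) (nat_lit 5) (nat_lit 19) (nat_lit 4) (nat_lit 319) (nat_lit 301) (nat_lit 160)) (XT.nd (nat_lit 78) (nat_lit 152) (nat_lit 0) (XT.lf (nat_lit 0) (nat_lit 3197152086314) (nat_lit 76) (nat_lit 1203700731531) (nat_lit 152) (nat_lit 2154499545910) (nat_lit 17) (nat_lit 5) (nat_lit 18) (nat_lit 5) (nat_lit 19) (nat_lit 4) (nat_lit 320) (nat_lit 301) (nat_lit 159)) (XT.lf (nat_lit 0) (nat_lit 228675187238) (nat_lit 152) (nat_lit 5039746144500) (nat_lit 76) (nat_lit 2005424030590) (nat_lit 15) (nat_lit 5) (nat_lit 17) (nat_lit 5) (nat_lit 16) (nat_lit 4) (nat_lit 321) (nat_lit 301) (nat_lit 158)))) (XT.nd (nat_lit 39156) (nat_lit 0) (nat_lit 3040) (XT.nd (nat_lit 39078) (nat_lit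 0) (nat_lit 3040) (XT.lf (nat_lit 0) (nat_lit 716751148269) (nat_lit 76) (nat_lit 2279470815062) (nat_lit 152) (nat_lit 5087056165295) (nat_lit 14) (nat_lit 5) (nat_lit 15) (nat_lit 5) (nat_lit 16) (nat_lit 4) (nat_lit 322) (nat_lit 301) (nat_lit 157)) (XT.lf (nat_lit 0) (nat_lit 556804377854) (nat_lit 532) (nat_lit 82460879060) (nat_lit 532) (nat_lit 82460879060) (nat_lit 54) (nat_lit 3) (nat_lit 61) (nat_lit 3) (nat_lit 61) (nat_lit 5) (nat_lit 302) (nat_lit 302) (nat_lit 176))) (XT.nd (nat_lit 78) (nat_lit 0) (nat_lit 76) (XT.lf (nat_lit 76) (nat_lit 1175230558183) (nat_lit 0) (nat_lit 50163229783) (nat_lit 532) (nat_lit 324056254236) (nat_lit 55) (nat_lit 5) (nat_lit 54) (nat_lit 3) (nat_lit 61) (nat_lit 5) (nat_lit 303) (nat_lit 302) (nat_lit 175)) (XT.lf (nat_lit 76) (nat_lit 1076382649415) (nat_lit 0) (nat_lit 341144354480) (nat_lit 532) (nat_lit 248734039810) (nat_lit 56) (nat_lit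 5) (nat_lit 55) (nat_lit 5) (nat_lit 62) (nat_lit 5) (nat_lit 304) (nat_lit 302) (nat_lit 174)))))) (XT.nd (nat_lit 468) (nat_lit 1140) (nat_lit 0) (XT.nd (nat_lit 234) (nat_lit 608) (nat_lit 0) (XT.nd (nat_lit 78) (nat_lit 760) (nat_lit 0) (XT.lf (nat_lit 76) (nat_lit 988809641778) (nat_lit 0) (nat_lit 712515662659) (nat_lit 532) (nat_lit 94240782833) (nat_lit 57) (nat_lit 5) (nat_lit 56) (nat_lit 5) (nat_lit 63) (nat_lit 5) (nat_lit 305) (nat_lit 302) (nat_lit 173)) (XT.nd (nat_lit 78) (nat_lit 304) (nat_lit 0) (XT.lf (nat_lit 0) (nat_lit 148034729533) (nat_lit 532) (nat_lit 1027607874234) (nat_lit 76) (nat_lit 762961243229) (nat_lit 50) (nat_lit 5) (nat_lit 57) (nat_lit 5) (nat_lit 51) (nat_lit 5) (nat_lit 306) (nat_lit 302) (nat_lit 172)) (XT.lf (nat_lit 0) (nat_lit 494426107977) (nat_lit 380) (nat_lit 1252761320260) (nat_lit 76) (nat_lit 349845645835) (nat_lit 46) (nat_lit 5) (nat_lit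 51) (nat_lit 5) (nat_lit 47) (nat_lit 5) (nat_lit 307) (nat_lit 302) (nat_lit 171)))) (XT.nd (nat_lit 78) (nat_lit 380) (nat_lit 0) (XT.lf (nat_lit 0) (nat_lit 788479340523) (nat_lit 228) (nat_lit 186469942360) (nat_lit 304) (nat_lit 1297703555156) (nat_lit 43) (nat_lit 5) (nat_lit 46) (nat_lit 5) (nat_lit 47) (nat_lit 5) (nat_lit 308) (nat_lit 302) (nat_lit 170)) (XT.nd (nat_lit 78) (nat_lit 152) (nat_lit 0) (XT.lf (nat_lit 0) (nat_lit 737327555922) (nat_lit 228) (nat_lit 884057242051) (nat_lit 304) (nat_lit 845724059524) (nat_lit 40) (nat_lit 5) (nat_lit 43) (nat_lit 5) (nat_lit 44) (nat_lit 5) (nat_lit 309) (nat_lit 302) (nat_lit 169)) (XT.lf (nat_lit 0) (nat_lit 701550278078) (nat_lit 152) (nat_lit 1751516209987) (nat_lit 228) (nat_lit 230604323995) (nat_lit 38) (nat_lit 5) (nat_lit 40) (nat_lit 5) (nat_lit 41) (nat_lit 5) (nat_lit 310) (nat_lit 302) (nat_lit 168))))) (XT.nd (nat_lit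 234) (nat_lit 532) (nat_lit 0) (XT.nd (nat_lit 78) (nat_lit 304) (nat_lit 0) (XT.lf (nat_lit 0) (nat_lit 548164852216) (nat_lit 304) (nat_lit 2257491070073) (nat_lit 76) (nat_lit 118525236151) (nat_lit 34) (nat_lit 5) (nat_lit 38) (nat_lit 5) (nat_lit 35) (nat_lit 5) (nat_lit 311) (nat_lit 302) (nat_lit 167)) (XT.nd (nat_lit 78) (nat_lit 152) (nat_lit 0) (XT.lf (nat_lit 0) (nat_lit 610944497764) (nat_lit 152) (nat_lit 941880812215) (nat_lit 228) (nat_lit 1637645148629) (nat_lit 32) (nat_lit 5) (nat_lit 34) (nat_lit 5) (nat_lit 35) (nat_lit 5) (nat_lit 312) (nat_lit 302) (nat_lit 166)) (XT.lf (nat_lit 0) (nat_lit 551913670257) (nat_lit 152) (nat_lit 2265871406506) (nat_lit 228) (nat_lit 670150057815) (nat_lit 30) (nat_lit 5) (nat_lit 32) (nat_lit 5) (nat_lit 33) (nat_lit 5) (nat_lit 313) (nat_lit 302) (nat_lit 165)))) (XT.nd (nat_lit 156) (nat_lit 152) (nat_lit 0) (XT.nd (nat_lit 78) (nat_lit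 152) (nat_lit 0) (XT.lf (nat_lit 0) (nat_lit 470142270618) (nat_lit 152) (nat_lit 64600719423) (nat_lit 228) (nat_lit 3285272586155) (nat_lit 27) (nat_lit 5) (nat_lit 29) (nat_lit 5) (nat_lit 30) (nat_lit 5) (nat_lit 314) (nat_lit 302) (nat_lit 164)) (XT.lf (nat_lit 0) (nat_lit 305138629457) (nat_lit 152) (nat_lit 1731045189426) (nat_lit 228) (nat_lit 2151892210731) (nat_lit 25) (nat_lit 5) (nat_lit 27) (nat_lit 5) (nat_lit 28) (nat_lit 5) (nat_lit 315) (nat_lit 302) (nat_lit 163))) (XT.nd (nat_lit 78) (nat_lit 76) (nat_lit 0) (XT.lf (nat_lit 0) (nat_lit 90106355043) (nat_lit 76) (nat_lit 3794547747217) (nat_lit 152) (nat_lit 716946382371) (nat_lit 24) (nat_lit 5) (nat_lit 25) (nat_lit 5) (nat_lit 26) (nat_lit 4) (nat_lit 316) (nat_lit 302) (nat_lit 162)) (XT.lf (nat_lit 0) (nat_lit 1050417081778) (nat_lit 152) (nat_lit 247121448719) (nat_lit 76) (nat_lit 3764710697547) (nat_lit 23) (nat_lit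 5) (nat_lit 25) (nat_lit 5) (nat_lit 24) (nat_lit 5) (nat_lit 317) (nat_lit 302) (nat_lit 161))))))))
noncomputable def xc61 : XT := (XT.nd (nat_lit 80340) (nat_lit 0) (nat_lit 380) (XT.nd (nat_lit 40092) (nat_lit 0) (nat_lit 228) (XT.nd (nat_lit 39546) (nat_lit 0) (nat_lit 1900) (XT.nd (nat_lit 234) (nat_lit 228) (nat_lit 0) (XT.nd (nat_lit 78) (nat_lit 228) (nat_lit 0) (XT.lf (nat_lit 0) (nat_lit 3200454712676) (nat_lit 228) (nat_lit 741178441940) (nat_lit 76) (nat_lit 1636070699755) (nat_lit 21) (nat_lit 5) (nat_lit 24) (nat_lit 5) (nat_lit 22) (nat_lit 4) (nat_lit 318) (nat_lit 302) (nat_lit 160)) (XT.nd (nat_lit 78) (nat_lit 152) (nat_lit 0) (XT.lf (nat_lit 0) (nat_lit 4728235004640) (nat_lit 76) (nat_lit 1101745404623) (nat_lit 152) (nat_lit 327937671704) (nat_lit 20) (nat_lit 5) (nat_lit 21) (nat_lit 5) (nat_lit 22) (nat_lit 4) (nat_lit 319) (nat_lit 302) (nat_lit 159)) (XT.lf (nat_lit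 0) (nat_lit 2112147083640) (nat_lit 152) (nat_lit 2456849111069) (nat_lit 76) (nat_lit 2237475777840) (nat_lit 18) (nat_lit 5) (nat_lit 20) (nat_lit 5) (nat_lit 19) (nat_lit 4) (nat_lit 320) (nat_lit 302) (nat_lit 158)))) (XT.nd (nat_lit 78) (nat_lit 152) (nat_lit 0) (XT.lf (nat_lit 0) (nat_lit 3676724935622) (nat_lit 76) (nat_lit 1384255825093) (nat_lit 152) (nat_lit 2477674455978) (nat_lit 17) (nat_lit 5) (nat_lit 18) (nat_lit 5) (nat_lit 19) (nat_lit 4) (nat_lit 321) (nat_lit 302) (nat_lit 157)) (XT.nd (nat_lit 39156) (nat_lit 0) (nat_lit 2964) (XT.lf (nat_lit 0) (nat_lit 262976484544) (nat_lit 152) (nat_lit 5795708030737) (nat_lit 76) (nat_lit 2306237649849) (nat_lit 15) (nat_lit 5) (nat_lit 17) (nat_lit 5) (nat_lit 16) (nat_lit 4) (nat_lit 322) (nat_lit 302) (nat_lit 156)) (XT.lf (nat_lit 0) (nat_lit 640325084754) (nat_lit 532) (nat_lit 94829983753) (nat_lit 532) (nat_lit 94829983753)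 (nat_lit 54) (nat_lit 3) (nat_lit 61) (nat_lit 3) (nat_lit 61) (nat_lit 5) (nat_lit 303) (nat_lit 303) (nat_lit 174))))) (XT.nd (nat_lit 234) (nat_lit 1064) (nat_lit 0) (XT.nd (nat_lit 78) (nat_lit 0) (nat_lit 76) (XT.lf (nat_lit 76) (nat_lit 1351515191643) (nat_lit 0) (nat_lit 57687753057) (nat_lit 532) (nat_lit 372664596590) (nat_lit 55) (nat_lit 5) (nat_lit 54) (nat_lit 3) (nat_lit 61) (nat_lit 5) (nat_lit 304) (nat_lit 303) (nat_lit 173)) (XT.nd (nat_lit 78) (nat_lit 0) (nat_lit 76) (XT.lf (nat_lit 76) (nat_lit 1237840099835) (nat_lit 0) (nat_lit 392316032098) (nat_lit 532) (nat_lit 286044061993) (nat_lit 56) (nat_lit 5) (nat_lit 55) (nat_lit 5) (nat_lit 62) (nat_lit 5) (nat_lit 305) (nat_lit 303) (nat_lit 172)) (XT.lf (nat_lit 76) (nat_lit 1137131142902) (nat_lit 0) (nat_lit 819393025359) (nat_lit 532) (nat_lit 108376826526) (nat_lit 57) (nat_lit 5) (nat_lit 56) (nat_lit 5) (nat_lit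 63) (nat_lit 5) (nat_lit 306) (nat_lit 303) (nat_lit 171)))) (XT.nd (nat_lit 156) (nat_lit 456) (nat_lit 0) (XT.nd (nat_lit 78) (nat_lit 304) (nat_lit 0) (XT.lf (nat_lit 0) (nat_lit 170240000958) (nat_lit 532) (nat_lit 1181748996399) (nat_lit 76) (nat_lit 877405421632) (nat_lit 50) (nat_lit 5) (nat_lit 57) (nat_lit 5) (nat_lit 51) (nat_lit 5) (nat_lit 307) (nat_lit 303) (nat_lit 170)) (XT.lf (nat_lit 0) (nat_lit 568590079350) (nat_lit 380) (nat_lit 1440675459790) (nat_lit 76) (nat_lit 402322491543) (nat_lit 46) (nat_lit 5) (nat_lit 51) (nat_lit 5) (nat_lit 47) (nat_lit 5) (nat_lit 308) (nat_lit 303) (nat_lit 169))) (XT.nd (nat_lit 78) (nat_lit 228) (nat_lit 0) (XT.lf (nat_lit 0) (nat_lit 906751295159) (nat_lit 228) (nat_lit 214440429426) (nat_lit 304) (nat_lit 1492359035147) (nat_lit 43) (nat_lit 5) (nat_lit 46) (nat_lit 5) (nat_lit 47) (nat_lit 5) (nat_lit 309) (nat_lit 303) (nat_lit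 168)) (XT.lf (nat_lit 0) (nat_lit 847926741914) (nat_lit 228) (nat_lit 1016665819951) (nat_lit 304) (nat_lit 972582620657) (nat_lit 40) (nat_lit 5) (nat_lit 43) (nat_lit 5) (nat_lit 44) (nat_lit 5) (nat_lit 310) (nat_lit 303) (nat_lit 167)))))) (XT.nd (nat_lit 468) (nat_lit 532) (nat_lit 0) (XT.nd (nat_lit 234) (nat_lit 532) (nat_lit 0) (XT.nd (nat_lit 78) (nat_lit 456) (nat_lit 0) (XT.lf (nat_lit 0) (nat_lit 806782871050) (nat_lit 152) (nat_lit 2014243630064) (nat_lit 228) (nat_lit 265194929511) (nat_lit 38) (nat_lit 5) (nat_lit 40) (nat_lit 5) (nat_lit 41) (nat_lit 5) (nat_lit 311) (nat_lit 303) (nat_lit 166)) (XT.nd (nat_lit 78) (nat_lit 152) (nat_lit 0) (XT.lf (nat_lit 0) (nat_lit 630389617108) (nat_lit 304) (nat_lit 2596114678949) (nat_lit 76) (nat_lit 136304033140) (nat_lit 34) (nat_lit 5) (nat_lit 38) (nat_lit 5) (nat_lit 35) (nat_lit 5) (nat_lit 312) (nat_lit 303) (nat_lit 165))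 (XT.lf (nat_lit 0) (nat_lit 702586219693) (nat_lit 152) (nat_lit 1083162920145) (nat_lit 228) (nat_lit 1883291884854) (nat_lit 32) (nat_lit 5) (nat_lit 34) (nat_lit 5) (nat_lit 35) (nat_lit 5) (nat_lit 313) (nat_lit 303) (nat_lit 164)))) (XT.nd (nat_lit 78) (nat_lit 380) (nat_lit 0) (XT.lf (nat_lit 0) (nat_lit 634700766232) (nat_lit 152) (nat_lit 2605752102440) (nat_lit 228) (nat_lit 770672533628) (nat_lit 30) (nat_lit 5) (nat_lit 32) (nat_lit 5) (nat_lit 33) (nat_lit 5) (nat_lit 314) (nat_lit 303) (nat_lit 163)) (XT.nd (nat_lit 78) (nat_lit 152) (nat_lit 0) (XT.lf (nat_lit 0) (nat_lit 540663654334) (nat_lit 152) (nat_lit 74290812394) (nat_lit 228) (nat_lit 3778063443616) (nat_lit 27) (nat_lit 5) (nat_lit 29) (nat_lit 5) (nat_lit 30) (nat_lit 5) (nat_lit 315) (nat_lit 303) (nat_lit 162)) (XT.lf (nat_lit 0) (nat_lit 350909465109) (nat_lit 152) (nat_lit 1990701952416) (nat_lit 228) (nat_lit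 2474676014443) (nat_lit 25) (nat_lit 5) (nat_lit 27) (nat_lit 5) (nat_lit 28) (nat_lit 5) (nat_lit 316) (nat_lit 303) (nat_lit 161))))) (XT.nd (nat_lit 234) (nat_lit 228) (nat_lit 0) (XT.nd (nat_lit 78) (nat_lit 228) (nat_lit 0) (XT.lf (nat_lit 0) (nat_lit 103622347614) (nat_lit 76) (nat_lit 4363729893696) (nat_lit 152) (nat_lit 824488314097) (nat_lit 24) (nat_lit 5) (nat_lit 25) (nat_lit 5) (nat_lit 26) (nat_lit 4) (nat_lit 317) (nat_lit 303) (nat_lit 160)) (XT.nd (nat_lit 78) (nat_lit 152) (nat_lit 0) (XT.lf (nat_lit 0) (nat_lit 1207979665216) (nat_lit 152) (nat_lit 284189630708) (nat_lit 76) (nat_lit 4329417314616) (nat_lit 23) (nat_lit 5) (nat_lit 25) (nat_lit 5) (nat_lit 24) (nat_lit 5) (nat_lit 318) (nat_lit 303) (nat_lit 159)) (XT.lf (nat_lit 0) (nat_lit 3680522939081) (nat_lit 228) (nat_lit 852355174669) (nat_lit 76) (nat_lit 1881481317203) (nat_lit 21) (nat_lit 5) (nat_lit 24)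 (nat_lit 5) (nat_lit 22) (nat_lit 4) (nat_lit 319) (nat_lit 303) (nat_lit 158)))) (XT.nd (nat_lit 39390) (nat_lit 0) (nat_lit 2736) (XT.nd (nat_lit 78) (nat_lit 152) (nat_lit 0) (XT.lf (nat_lit 0) (nat_lit 5437470286057) (nat_lit 76) (nat_lit 1267007202293) (nat_lit 152) (nat_lit 377128303334) (nat_lit 20) (nat_lit 5) (nat_lit 21) (nat_lit 5) (nat_lit 22) (nat_lit 4) (nat_lit 320) (nat_lit 303) (nat_lit 157)) (XT.lf (nat_lit 0) (nat_lit 2428969162985) (nat_lit 152) (nat_lit 2825376447693) (nat_lit 76) (nat_lit 2573097156400) (nat_lit 18) (nat_lit 5) (nat_lit 20) (nat_lit 5) (nat_lit 19) (nat_lit 4) (nat_lit 321) (nat_lit 303) (nat_lit 156))) (XT.nd (nat_lit 78) (nat_lit 0) (nat_lit 0) (XT.lf (nat_lit 0) (nat_lit 736373885443) (nat_lit 532) (nat_lit 109054460775) (nat_lit 532) (nat_lit 109054460775) (nat_lit 54) (nat_lit 3) (nat_lit 61) (nat_lit 3) (nat_lit 61) (nat_lit 5) (nat_lit 304)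 (nat_lit 304) (nat_lit 172)) (XT.lf (nat_lit 76) (nat_lit 1554242507995) (nat_lit 0) (nat_lit 66340945358) (nat_lit 532) (nat_lit 428564213654) (nat_lit 55) (nat_lit 5) (nat_lit 54) (nat_lit 3) (nat_lit 61) (nat_lit 5) (nat_lit 305) (nat_lit 304) (nat_lit 171))))))) (XT.nd (nat_lit 1014) (nat_lit 304) (nat_lit 0) (XT.nd (nat_lit 468) (nat_lit 1216) (nat_lit 0) (XT.nd (nat_lit 234) (nat_lit 760) (nat_lit 0) (XT.nd (nat_lit 78) (nat_lit 380) (nat_lit 0) (XT.lf (nat_lit 76) (nat_lit 1423516154891) (nat_lit 0) (nat_lit 451163455398) (nat_lit 532) (nat_lit 328950607936) (nat_lit 56) (nat_lit 5) (nat_lit 55) (nat_lit 5) (nat_lit 62) (nat_lit 5) (nat_lit 306) (nat_lit 304) (nat_lit 170)) (XT.nd (nat_lit 78) (nat_lit 456) (nat_lit 0) (XT.lf (nat_lit 76) (nat_lit 1307700855818) (nat_lit 0) (nat_lit 942301989222) (nat_lit 532) (nat_lit 124633294752) (nat_lit 57) (nat_lit 5) (nat_lit 56) (nat_lit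 5) (nat_lit 63) (nat_lit 5) (nat_lit 307) (nat_lit 304) (nat_lit 169)) (XT.lf (nat_lit 0) (nat_lit 195776047978) (nat_lit 532) (nat_lit 1359011301269) (nat_lit 76) (nat_lit 1009016228767) (nat_lit 50) (nat_lit 5) (nat_lit 57) (nat_lit 5) (nat_lit 51) (nat_lit 5) (nat_lit 308) (nat_lit 304) (nat_lit 168)))) (XT.nd (nat_lit 78) (nat_lit 456) (nat_lit 0) (XT.lf (nat_lit 0) (nat_lit 653878632974) (nat_lit 380) (nat_lit 1656776734517) (nat_lit 76) (nat_lit 462670864393) (nat_lit 46) (nat_lit 5) (nat_lit 51) (nat_lit 5) (nat_lit 47) (nat_lit 5) (nat_lit 309) (nat_lit 304) (nat_lit 167)) (XT.nd (nat_lit 78) (nat_lit 228) (nat_lit 0) (XT.lf (nat_lit 0) (nat_lit 1042764029929) (nat_lit 228) (nat_lit 246606490597) (nat_lit 304) (nat_lit 1716212850129) (nat_lit 43) (nat_lit 5) (nat_lit 46) (nat_lit 5) (nat_lit 47) (nat_lit 5) (nat_lit 310) (nat_lit 304) (nat_lit 166)) (XT.lf (nat_lit 0) (nat_lit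 975115792977) (nat_lit 228) (nat_lit 1169165686587) (nat_lit 304) (nat_lit 1118469977614) (nat_lit 40) (nat_lit 5) (nat_lit 43) (nat_lit 5) (nat_lit 44) (nat_lit 5) (nat_lit 311) (nat_lit 304) (nat_lit 165))))) (XT.nd (nat_lit 234) (nat_lit 608) (nat_lit 0) (XT.nd (nat_lit 78) (nat_lit 456) (nat_lit 0) (XT.lf (nat_lit 0) (nat_lit 927800340469) (nat_lit 152) (nat_lit 2316380165938) (nat_lit 228) (nat_lit 304974136361) (nat_lit 38) (nat_lit 5) (nat_lit 40) (nat_lit 5) (nat_lit 41) (nat_lit 5) (nat_lit 312) (nat_lit 304) (nat_lit 164)) (XT.nd (nat_lit 78) (nat_lit 152) (nat_lit 0) (XT.lf (nat_lit 0) (nat_lit 724948087696) (nat_lit 304) (nat_lit 2985531841747) (nat_lit 76) (nat_lit 156749646856) (nat_lit 34) (nat_lit 5) (nat_lit 38) (nat_lit 5) (nat_lit 35) (nat_lit 5) (nat_lit 313) (nat_lit 304) (nat_lit 163)) (XT.lf (nat_lit 0) (nat_lit 807974188386) (nat_lit 152) (nat_lit 1245637347655)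 (nat_lit 228) (nat_lit 2165785640308) (nat_lit 32) (nat_lit 5) (nat_lit 34) (nat_lit 5) (nat_lit 35) (nat_lit 5) (nat_lit 314) (nat_lit 304) (nat_lit 162)))) (XT.nd (nat_lit 156) (nat_lit 228) (nat_lit 0) (XT.nd (nat_lit 78) (nat_lit 228) (nat_lit 0) (XT.lf (nat_lit 0) (nat_lit 729905915524) (nat_lit 152) (nat_lit 2996614906432) (nat_lit 228) (nat_lit 886273388825) (nat_lit 30) (nat_lit 5) (nat_lit 32) (nat_lit 5) (nat_lit 33) (nat_lit 5) (nat_lit 315) (nat_lit 304) (nat_lit 161)) (XT.lf (nat_lit 0) (nat_lit 621763235092) (nat_lit 152) (nat_lit 85434422955) (nat_lit 228) (nat_lit 4344772937124) (nat_lit 27) (nat_lit 5) (nat_lit 29) (nat_lit 5) (nat_lit 30) (nat_lit 5) (nat_lit 316) (nat_lit 304) (nat_lit 160))) (XT.nd (nat_lit 78) (nat_lit 76) (nat_lit 0) (XT.lf (nat_lit 0) (nat_lit 403545916053) (nat_lit 152) (nat_lit 2289307233616) (nat_lit 228) (nat_lit 2845877395515) (nat_lit 25) (nat_lit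 5) (nat_lit 27) (nat_lit 5) (nat_lit 28) (nat_lit 5) (nat_lit 317) (nat_lit 304) (nat_lit 159)) (XT.lf (nat_lit 0) (nat_lit 119165729484) (nat_lit 76) (nat_lit 5018289365952) (nat_lit 152) (nat_lit 948161541833) (nat_lit 24) (nat_lit 5) (nat_lit 25) (nat_lit 5) (nat_lit 26) (nat_lit 4) (nat_lit 318) (nat_lit 304) (nat_lit 158)))))) (XT.nd (nat_lit 39780) (nat_lit 0) (nat_lit 1064) (XT.nd (nat_lit 39546) (nat_lit 0) (nat_lit 2584) (XT.nd (nat_lit 78) (nat_lit 228) (nat_lit 0) (XT.lf (nat_lit 0) (nat_lit 1389176631007) (nat_lit 152) (nat_lit 326818048609) (nat_lit 76) (nat_lit 4978829921213) (nat_lit 23) (nat_lit 5) (nat_lit 25) (nat_lit 5) (nat_lit 24) (nat_lit 5) (nat_lit 319) (nat_lit 304) (nat_lit 157)) (XT.nd (nat_lit 78) (nat_lit 76) (nat_lit 0) (XT.lf (nat_lit 0) (nat_lit 4232601394691) (nat_lit 228) (nat_lit 980208425492) (nat_lit 76) (nat_lit 2163703524224) (nat_lit 21) (nat_lit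 5) (nat_lit 24) (nat_lit 5) (nat_lit 22) (nat_lit 4) (nat_lit 320) (nat_lit 304) (nat_lit 156)) (XT.lf (nat_lit 0) (nat_lit 6253090852196) (nat_lit 76) (nat_lit 1457058272790) (nat_lit 152) (nat_lit 433697534371) (nat_lit 20) (nat_lit 5) (nat_lit 21) (nat_lit 5) (nat_lit 22) (nat_lit 4) (nat_lit 321) (nat_lit 304) (nat_lit 155)))) (XT.nd (nat_lit 78) (nat_lit 0) (nat_lit 0) (XT.lf (nat_lit 0) (nat_lit 846829996974) (nat_lit 532) (nat_lit 125412614359) (nat_lit 532) (nat_lit 125412614359) (nat_lit 54) (nat_lit 3) (nat_lit 61) (nat_lit 3) (nat_lit 61) (nat_lit 5) (nat_lit 305) (nat_lit 305) (nat_lit 170)) (XT.nd (nat_lit 78) (nat_lit 0) (nat_lit 76) (XT.lf (nat_lit 76) (nat_lit 1787378912629) (nat_lit 0) (nat_lit 76292109350) (nat_lit 532) (nat_lit 492848790939) (nat_lit 55) (nat_lit 5) (nat_lit 54) (nat_lit 3) (nat_lit 61) (nat_lit 5) (nat_lit 306) (nat_lit 305) (nat_lit 169)) (XT.lf (nat_lit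 76) (nat_lit 1637043608432) (nat_lit 0) (nat_lit 518837987686) (nat_lit 532) (nat_lit 378293151220) (nat_lit 56) (nat_lit 5) (nat_lit 55) (nat_lit 5) (nat_lit 62) (nat_lit 5) (nat_lit 307) (nat_lit 305) (nat_lit 168))))) (XT.nd (nat_lit 234) (nat_lit 912) (nat_lit 0) (XT.nd (nat_lit 78) (nat_lit 760) (nat_lit 0) (XT.lf (nat_lit 76) (nat_lit 1503856015555) (nat_lit 0) (nat_lit 1083647295210) (nat_lit 532) (nat_lit 143328246809) (nat_lit 57) (nat_lit 5) (nat_lit 56) (nat_lit 5) (nat_lit 63) (nat_lit 5) (nat_lit 308) (nat_lit 305) (nat_lit 167)) (XT.nd (nat_lit 78) (nat_lit 304) (nat_lit 0) (XT.lf (nat_lit 0) (nat_lit 225142490621) (nat_lit 532) (nat_lit 1562862962744) (nat_lit 76) (nat_lit 1160368658461) (nat_lit 50) (nat_lit 5) (nat_lit 57) (nat_lit 5) (nat_lit 51) (nat_lit 5) (nat_lit 309) (nat_lit 305) (nat_lit 166)) (XT.lf (nat_lit 0) (nat_lit 751960459468) (nat_lit 380) (nat_lit 1905293211242)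 (nat_lit 76) (nat_lit 532071493385) (nat_lit 46) (nat_lit 5) (nat_lit 51) (nat_lit 5) (nat_lit 47) (nat_lit 5) (nat_lit 310) (nat_lit 305) (nat_lit 165)))) (XT.nd (nat_lit 156) (nat_lit 456) (nat_lit 0) (XT.nd (nat_lit 78) (nat_lit 228) (nat_lit 0) (XT.lf (nat_lit 0) (nat_lit 1199178665039) (nat_lit 228) (nat_lit 283597461735) (nat_lit 304) (nat_lit 1973644747184) (nat_lit 43) (nat_lit 5) (nat_lit 46) (nat_lit 5) (nat_lit 47) (nat_lit 5) (nat_lit 311) (nat_lit 305) (nat_lit 164)) (XT.lf (nat_lit 0) (nat_lit 1121383192000) (nat_lit 228) (nat_lit 1344540534768) (nat_lit 304) (nat_lit 1286240446929) (nat_lit 40) (nat_lit 5) (nat_lit 43) (nat_lit 5) (nat_lit 44) (nat_lit 5) (nat_lit 312) (nat_lit 305) (nat_lit 163))) (XT.nd (nat_lit 78) (nat_lit 304) (nat_lit 0) (XT.lf (nat_lit 0) (nat_lit 1066970420848) (nat_lit 152) (nat_lit 2663837184299) (nat_lit 228) (nat_lit 350720232182) (nat_lit 38)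 (nat_lit 5) (nat_lit 40) (nat_lit 5) (nat_lit 41) (nat_lit 5) (nat_lit 313) (nat_lit 305) (nat_lit 162)) (XT.lf (nat_lit 0) (nat_lit 833690322040) (nat_lit 304) (nat_lit 3433361588487) (nat_lit 76) (nat_lit 180262100498) (nat_lit 34) (nat_lit 5) (nat_lit 38) (nat_lit 5) (nat_lit 35) (nat_lit 5) (nat_lit 314) (nat_lit 305) (nat_lit 161))))))))
noncomputable def xc62 : XT := (XT.nd (nat_lit 80964) (nat_lit 0) (nat_lit 304) (XT.nd (nat_lit 40404) (nat_lit 0) (nat_lit 228) (XT.nd (nat_lit 468) (nat_lit 152) (nat_lit 0) (XT.nd (nat_lit 234) (nat_lit 304) (nat_lit 0) (XT.nd (nat_lit 78) (nat_lit 380) (nat_lit 0) (XT.lf (nat_lit 0) (nat_lit 929170343668) (nat_lit 152) (nat_lit 1432482941854) (nat_lit 228) (nat_lit 2490653465731) (nat_lit 32) (nat_lit 5) (nat_lit 34) (nat_lit 5) (nat_lit 35) (nat_lit 5) (nat_lit 315) (nat_lit 305) (nat_lit 160)) (XT.nd (nat_lit 78) (nat_lit 228) (nat_lit 0) (XT.lf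 (nat_lit 0) (nat_lit 839391828831) (nat_lit 152) (nat_lit 3446107133796) (nat_lit 228) (nat_lit 1019214378362) (nat_lit 30) (nat_lit 5) (nat_lit 32) (nat_lit 5) (nat_lit 33) (nat_lit 5) (nat_lit 316) (nat_lit 305) (nat_lit 159)) (XT.lf (nat_lit 0) (nat_lit 715027745012) (nat_lit 152) (nat_lit 98249577855) (nat_lit 228) (nat_lit 4996488860275) (nat_lit 27) (nat_lit 5) (nat_lit 29) (nat_lit 5) (nat_lit 30) (nat_lit 5) (nat_lit 317) (nat_lit 305) (nat_lit 158)))) (XT.nd (nat_lit 78) (nat_lit 152) (nat_lit 0) (XT.lf (nat_lit 0) (nat_lit 464077827037) (nat_lit 152) (nat_lit 2632703309840) (nat_lit 228) (nat_lit 3272758988891) (nat_lit 25) (nat_lit 5) (nat_lit 27) (nat_lit 5) (nat_lit 28) (nat_lit 5) (nat_lit 318) (nat_lit 305) (nat_lit 157)) (XT.nd (nat_lit 78) (nat_lit 76) (nat_lit 0) (XT.lf (nat_lit 0) (nat_lit 137040611385) (nat_lit 76) (nat_lit 5771032761923) (nat_lit 152) (nat_lit 1090385758455)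 (nat_lit 24) (nat_lit 5) (nat_lit 25) (nat_lit 5) (nat_lit 26) (nat_lit 4) (nat_lit 319) (nat_lit 305) (nat_lit 156)) (XT.lf (nat_lit 0) (nat_lit 1597553137762) (nat_lit 152) (nat_lit 375840735707) (nat_lit 76) (nat_lit 5725654416506) (nat_lit 23) (nat_lit 5) (nat_lit 25) (nat_lit 5) (nat_lit 24) (nat_lit 5) (nat_lit 320) (nat_lit 305) (nat_lit 155))))) (XT.nd (nat_lit 39624) (nat_lit 0) (nat_lit 1900) (XT.nd (nat_lit 39468) (nat_lit 0) (nat_lit 2508) (XT.lf (nat_lit 0) (nat_lit 4867491615045) (nat_lit 228) (nat_lit 1127239670126) (nat_lit 76) (nat_lit 2488259059995) (nat_lit 21) (nat_lit 5) (nat_lit 24) (nat_lit 5) (nat_lit 22) (nat_lit 4) (nat_lit 321) (nat_lit 305) (nat_lit 154)) (XT.nd (nat_lit 78) (nat_lit 0) (nat_lit 0) (XT.lf (nat_lit 0) (nat_lit 973854518232) (nat_lit 532) (nat_lit 144224494768) (nat_lit 532) (nat_lit 144224494768) (nat_lit 54) (nat_lit 3) (nat_lit 61) (nat_lit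 3) (nat_lit 61) (nat_lit 5) (nat_lit 306) (nat_lit 306) (nat_lit 168)) (XT.lf (nat_lit 76) (nat_lit 2055485771024) (nat_lit 0) (nat_lit 87735942529) (nat_lit 532) (nat_lit 566776068171) (nat_lit 55) (nat_lit 5) (nat_lit 54) (nat_lit 3) (nat_lit 61) (nat_lit 5) (nat_lit 307) (nat_lit 306) (nat_lit 167)))) (XT.nd (nat_lit 156) (nat_lit 684) (nat_lit 0) (XT.nd (nat_lit 78) (nat_lit 0) (nat_lit 76) (XT.lf (nat_lit 76) (nat_lit 1882600172613) (nat_lit 0) (nat_lit 596663696407) (nat_lit 532) (nat_lit 435037087679) (nat_lit 56) (nat_lit 5) (nat_lit 55) (nat_lit 5) (nat_lit 62) (nat_lit 5) (nat_lit 308) (nat_lit 306) (nat_lit 166)) (XT.lf (nat_lit 76) (nat_lit 1729434441605) (nat_lit 0) (nat_lit 1246194395243) (nat_lit 532) (nat_lit 164827451953) (nat_lit 57) (nat_lit 5) (nat_lit 56) (nat_lit 5) (nat_lit 63) (nat_lit 5) (nat_lit 309) (nat_lit 306) (nat_lit 165))) (XT.nd (nat_lit 78) (nat_lit 304)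 (nat_lit 0) (XT.lf (nat_lit 0) (nat_lit 258913891016) (nat_lit 532) (nat_lit 1797292381661) (nat_lit 76) (nat_lit 1334423953737) (nat_lit 50) (nat_lit 5) (nat_lit 57) (nat_lit 5) (nat_lit 51) (nat_lit 5) (nat_lit 310) (nat_lit 306) (nat_lit 164)) (XT.lf (nat_lit 0) (nat_lit 864754552243) (nat_lit 380) (nat_lit 2191087167633) (nat_lit 76) (nat_lit 611882216888) (nat_lit 46) (nat_lit 5) (nat_lit 51) (nat_lit 5) (nat_lit 47) (nat_lit 5) (nat_lit 311) (nat_lit 306) (nat_lit 163)))))) (XT.nd (nat_lit 468) (nat_lit 456) (nat_lit 0) (XT.nd (nat_lit 234) (nat_lit 608) (nat_lit 0) (XT.nd (nat_lit 78) (nat_lit 380) (nat_lit 0) (XT.lf (nat_lit 0) (nat_lit 1379055487949) (nat_lit 228) (nat_lit 326137079141) (nat_lit 304) (nat_lit 2269691436226) (nat_lit 43) (nat_lit 5) (nat_lit 46) (nat_lit 5) (nat_lit 47) (nat_lit 5) (nat_lit 312) (nat_lit 306) (nat_lit 162)) (XT.nd (nat_lit 78) (nat_lit 152) (nat_lit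 0) (XT.lf (nat_lit 0) (nat_lit 1289590693542) (nat_lit 228) (nat_lit 1546221611349) (nat_lit 304) (nat_lit 1479176493305) (nat_lit 40) (nat_lit 5) (nat_lit 43) (nat_lit 5) (nat_lit 44) (nat_lit 5) (nat_lit 313) (nat_lit 306) (nat_lit 161)) (XT.lf (nat_lit 0) (nat_lit 1227016006137) (nat_lit 152) (nat_lit 3063412757007) (nat_lit 228) (nat_lit 403328248383) (nat_lit 38) (nat_lit 5) (nat_lit 40) (nat_lit 5) (nat_lit 41) (nat_lit 5) (nat_lit 314) (nat_lit 306) (nat_lit 160)))) (XT.nd (nat_lit 78) (nat_lit 304) (nat_lit 0) (XT.lf (nat_lit 0) (nat_lit 958743886368) (nat_lit 304) (nat_lit 3948365804437) (nat_lit 76) (nat_lit 207301420573) (nat_lit 34) (nat_lit 5) (nat_lit 38) (nat_lit 5) (nat_lit 35) (nat_lit 5) (nat_lit 315) (nat_lit 306) (nat_lit 159)) (XT.nd (nat_lit 78) (nat_lit 152) (nat_lit 0) (XT.lf (nat_lit 0) (nat_lit 1068545915652) (nat_lit 152) (nat_lit 1647355377122) (nat_lit 228)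 (nat_lit 2864251469996) (nat_lit 32) (nat_lit 5) (nat_lit 34) (nat_lit 5) (nat_lit 35) (nat_lit 5) (nat_lit 316) (nat_lit 306) (nat_lit 158)) (XT.lf (nat_lit 0) (nat_lit 965300622799) (nat_lit 152) (nat_lit 3963023197362) (nat_lit 228) (nat_lit 1172096520910) (nat_lit 30) (nat_lit 5) (nat_lit 32) (nat_lit 5) (nat_lit 33) (nat_lit 5) (nat_lit 317) (nat_lit 306) (nat_lit 157))))) (XT.nd (nat_lit 39780) (nat_lit 0) (nat_lit 2280) (XT.nd (nat_lit 78) (nat_lit 228) (nat_lit 0) (XT.lf (nat_lit 0) (nat_lit 822281925408) (nat_lit 152) (nat_lit 112987008073) (nat_lit 228) (nat_lit 5745962176146) (nat_lit 27) (nat_lit 5) (nat_lit 29) (nat_lit 5) (nat_lit 30) (nat_lit 5) (nat_lit 318) (nat_lit 306) (nat_lit 156)) (XT.nd (nat_lit 78) (nat_lit 76) (nat_lit 0) (XT.lf (nat_lit 0) (nat_lit 533689518919) (nat_lit 152) (nat_lit 3027608799648) (nat_lit 228) (nat_lit 3763672825164) (nat_lit 25) (nat_lit 5)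 (nat_lit 27) (nat_lit 5) (nat_lit 28) (nat_lit 5) (nat_lit 319) (nat_lit 306) (nat_lit 155)) (XT.lf (nat_lit 0) (nat_lit 157596720090) (nat_lit 76) (nat_lit 6636687669466) (nat_lit 152) (nat_lit 1253943611143) (nat_lit 24) (nat_lit 5) (nat_lit 25) (nat_lit 5) (nat_lit 26) (nat_lit 4) (nat_lit 320) (nat_lit 306) (nat_lit 154)))) (XT.nd (nat_lit 156) (nat_lit 0) (nat_lit 76) (XT.nd (nat_lit 78) (nat_lit 0) (nat_lit 0) (XT.lf (nat_lit 0) (nat_lit 1119932712385) (nat_lit 532) (nat_lit 165858160103) (nat_lit 532) (nat_lit 165858160103) (nat_lit 54) (nat_lit 3) (nat_lit 61) (nat_lit 3) (nat_lit 61) (nat_lit 5) (nat_lit 307) (nat_lit 307) (nat_lit 166)) (XT.lf (nat_lit 76) (nat_lit 2363808652936) (nat_lit 0) (nat_lit 100896346595) (nat_lit 532) (nat_lit 651792447085) (nat_lit 55) (nat_lit 5) (nat_lit 54) (nat_lit 3) (nat_lit 61) (nat_lit 5) (nat_lit 308) (nat_lit 307) (nat_lit 165))) (XT.nd (nat_lit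 78) (nat_lit 0) (nat_lit 76) (XT.lf (nat_lit 76) (nat_lit 2164990215833) (nat_lit 0) (nat_lit 686163258860) (nat_lit 532) (nat_lit 500292623440) (nat_lit 56) (nat_lit 5) (nat_lit 55) (nat_lit 5) (nat_lit 62) (nat_lit 5) (nat_lit 309) (nat_lit 307) (nat_lit 164)) (XT.lf (nat_lit 76) (nat_lit 1988849625779) (nat_lit 0) (nat_lit 1433123558877) (nat_lit 532) (nat_lit 189551545643) (nat_lit 57) (nat_lit 5) (nat_lit 56) (nat_lit 5) (nat_lit 63) (nat_lit 5) (nat_lit 310) (nat_lit 307) (nat_lit 163))))))) (XT.nd (nat_lit 40716) (nat_lit 0) (nat_lit 152) (XT.nd (nat_lit 468) (nat_lit 684) (nat_lit 0) (XT.nd (nat_lit 234) (nat_lit 684) (nat_lit 0) (XT.nd (nat_lit 78) (nat_lit 532) (nat_lit 0) (XT.lf (nat_lit 0) (nat_lit 297750994934) (nat_lit 532) (nat_lit 2066886219633) (nat_lit 76) (nat_lit 1534587544155) (nat_lit 50) (nat_lit 5) (nat_lit 57) (nat_lit 5) (nat_lit 51) (nat_lit 5) (nat_lit 311)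 (nat_lit 307) (nat_lit 162)) (XT.nd (nat_lit 78) (nat_lit 228) (nat_lit 0) (XT.lf (nat_lit 0) (nat_lit 994467753117) (nat_lit 380) (nat_lit 2519750223651) (nat_lit 76) (nat_lit 703664549040) (nat_lit 46) (nat_lit 5) (nat_lit 51) (nat_lit 5) (nat_lit 47) (nat_lit 5) (nat_lit 312) (nat_lit 307) (nat_lit 161)) (XT.lf (nat_lit 0) (nat_lit 1585913828649) (nat_lit 228) (nat_lit 375057639611) (nat_lit 304) (nat_lit 2610145134242) (nat_lit 43) (nat_lit 5) (nat_lit 46) (nat_lit 5) (nat_lit 47) (nat_lit 5) (nat_lit 313) (nat_lit 307) (nat_lit 160)))) (XT.nd (nat_lit 78) (nat_lit 456) (nat_lit 0) (XT.lf (nat_lit 0) (nat_lit 1483029314770) (nat_lit 228) (nat_lit 1778154850303) (nat_lit 304) (nat_lit 1701052951676) (nat_lit 40) (nat_lit 5) (nat_lit 43) (nat_lit 5) (nat_lit 44) (nat_lit 5) (nat_lit 314) (nat_lit 307) (nat_lit 159)) (XT.nd (nat_lit 78) (nat_lit 304) (nat_lit 0) (XT.lf (nat_lit 0) (nat_lit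 1411068423815) (nat_lit 152) (nat_lit 3522924666825) (nat_lit 228) (nat_lit 463827471557) (nat_lit 38) (nat_lit 5) (nat_lit 40) (nat_lit 5) (nat_lit 41) (nat_lit 5) (nat_lit 315) (nat_lit 307) (nat_lit 158)) (XT.lf (nat_lit 0) (nat_lit 1102555481438) (nat_lit 304) (nat_lit 4540620658223) (nat_lit 76) (nat_lit 238396637440) (nat_lit 34) (nat_lit 5) (nat_lit 38) (nat_lit 5) (nat_lit 35) (nat_lit 5) (nat_lit 316) (nat_lit 307) (nat_lit 157))))) (XT.nd (nat_lit 39936) (nat_lit 0) (nat_lit 2204) (XT.nd (nat_lit 78) (nat_lit 532) (nat_lit 0) (XT.lf (nat_lit 0) (nat_lit 1228827818450) (nat_lit 152) (nat_lit 1894458679146) (nat_lit 228) (nat_lit 3293889178704) (nat_lit 32) (nat_lit 5) (nat_lit 34) (nat_lit 5) (nat_lit 35) (nat_lit 5) (nat_lit 317) (nat_lit 307) (nat_lit 156)) (XT.nd (nat_lit 156) (nat_lit 380) (nat_lit 0) (XT.lf (nat_lit 0) (nat_lit 1110095731072) (nat_lit 152) (nat_lit 4557476672049)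 (nat_lit 228) (nat_lit 1347910988304) (nat_lit 30) (nat_lit 5) (nat_lit 32) (nat_lit 5) (nat_lit 33) (nat_lit 5) (nat_lit 318) (nat_lit 307) (nat_lit 155)) (XT.lf (nat_lit 0) (nat_lit 613742960236) (nat_lit 152) (nat_lit 3481750114554) (nat_lit 228) (nat_lit 4328223739818) (nat_lit 25) (nat_lit 5) (nat_lit 27) (nat_lit 5) (nat_lit 28) (nat_lit 5) (nat_lit 320) (nat_lit 307) (nat_lit 153)))) (XT.nd (nat_lit 156) (nat_lit 0) (nat_lit 76) (XT.nd (nat_lit 78) (nat_lit 0) (nat_lit 0) (XT.lf (nat_lit 0) (nat_lit 1287922631657) (nat_lit 532) (nat_lit 190736877403) (nat_lit 532) (nat_lit 190736877403) (nat_lit 54) (nat_lit 3) (nat_lit 61) (nat_lit 3) (nat_lit 61) (nat_lit 5) (nat_lit 308) (nat_lit 308) (nat_lit 164)) (XT.lf (nat_lit 76) (nat_lit 2718379963170) (nat_lit 0) (nat_lit 116030808176) (nat_lit 532) (nat_lit 749561290472) (nat_lit 55) (nat_lit 5) (nat_lit 54) (nat_lit 3) (nat_lit 61)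 (nat_lit 5) (nat_lit 309) (nat_lit 308) (nat_lit 163))) (XT.nd (nat_lit 78) (nat_lit 0) (nat_lit 76) (XT.lf (nat_lit 76) (nat_lit 2489738761310) (nat_lit 0) (nat_lit 789087753732) (nat_lit 532) (nat_lit 575336496245) (nat_lit 56) (nat_lit 5) (nat_lit 55) (nat_lit 5) (nat_lit 62) (nat_lit 5) (nat_lit 310) (nat_lit 308) (nat_lit 162)) (XT.lf (nat_lit 76) (nat_lit 2287177083205) (nat_lit 0) (nat_lit 1648092095997) (nat_lit 532) (nat_lit 217984259264) (nat_lit 57) (nat_lit 5) (nat_lit 56) (nat_lit 5) (nat_lit 63) (nat_lit 5) (nat_lit 311) (nat_lit 308) (nat_lit 161)))))) (XT.nd (nat_lit 468) (nat_lit 532) (nat_lit 0) (XT.nd (nat_lit 234) (nat_lit 684) (nat_lit 0) (XT.nd (nat_lit 78) (nat_lit 532) (nat_lit 0) (XT.lf (nat_lit 0) (nat_lit 342413659499) (nat_lit 532) (nat_lit 2376919138001) (nat_lit 76) (nat_lit 1764775673781) (nat_lit 50) (nat_lit 5) (nat_lit 57) (nat_lit 5) (nat_lit 51) (nat_lit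 5) (nat_lit 312) (nat_lit 308) (nat_lit 160)) (XT.nd (nat_lit 78) (nat_lit 228) (nat_lit 0) (XT.lf (nat_lit 0) (nat_lit 1143637929724) (nat_lit 380) (nat_lit 2897712742737) (nat_lit 76) (nat_lit 809214231108) (nat_lit 46) (nat_lit 5) (nat_lit 51) (nat_lit 5) (nat_lit 47) (nat_lit 5) (nat_lit 313) (nat_lit 308) (nat_lit 159)) (XT.lf (nat_lit 0) (nat_lit 1823800916185) (nat_lit 228) (nat_lit 431316284492) (nat_lit 304) (nat_lit 3001666891207) (nat_lit 43) (nat_lit 5) (nat_lit 46) (nat_lit 5) (nat_lit 47) (nat_lit 5) (nat_lit 314) (nat_lit 308) (nat_lit 158)))) (XT.nd (nat_lit 78) (nat_lit 456) (nat_lit 0) (XT.lf (nat_lit 0) (nat_lit 1705483724988) (nat_lit 228) (nat_lit 2044878075770) (nat_lit 304) (nat_lit 1956210882613) (nat_lit 40) (nat_lit 5) (nat_lit 43) (nat_lit 5) (nat_lit 44) (nat_lit 5) (nat_lit 315) (nat_lit 308) (nat_lit 157)) (XT.nd (nat_lit 78) (nat_lit 304) (nat_lit 0) (XT.lf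 (nat_lit 0) (nat_lit 1622728700058) (nat_lit 152) (nat_lit 4051363364025) (nat_lit 228) (nat_lit 533401581641) (nat_lit 38) (nat_lit 5) (nat_lit 40) (nat_lit 5) (nat_lit 41) (nat_lit 5) (nat_lit 316) (nat_lit 308) (nat_lit 156)) (XT.lf (nat_lit 0) (nat_lit 1267938812814) (nat_lit 304) (nat_lit 5221713744193) (nat_lit 76) (nat_lit 274156135915) (nat_lit 34) (nat_lit 5) (nat_lit 38) (nat_lit 5) (nat_lit 35) (nat_lit 5) (nat_lit 317) (nat_lit 308) (nat_lit 155))))) (XT.nd (nat_lit 39936) (nat_lit 0) (nat_lit 2052) (XT.nd (nat_lit 78) (nat_lit 380) (nat_lit 0) (XT.lf (nat_lit 0) (nat_lit 1413152002901) (nat_lit 152) (nat_lit 2178627477581) (nat_lit 228) (nat_lit 3787972546594) (nat_lit 32) (nat_lit 5) (nat_lit 34) (nat_lit 5) (nat_lit 35) (nat_lit 5) (nat_lit 318) (nat_lit 308) (nat_lit 154)) (XT.nd (nat_lit 78) (nat_lit 228) (nat_lit 0) (XT.lf (nat_lit 0) (nat_lit 1276610101964) (nat_lit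 152) (nat_lit 5241098169139) (nat_lit 228) (nat_lit 1550097628428) (nat_lit 30) (nat_lit 5) (nat_lit 32) (nat_lit 5) (nat_lit 33) (nat_lit 5) (nat_lit 319) (nat_lit 308) (nat_lit 153)) (XT.lf (nat_lit 0) (nat_lit 1087467873223) (nat_lit 152) (nat_lit 149425308866) (nat_lit 228) (nat_lit 7599034958971) (nat_lit 27) (nat_lit 5) (nat_lit 29) (nat_lit 5) (nat_lit 30) (nat_lit 5) (nat_lit 320) (nat_lit 308) (nat_lit 152)))) (XT.nd (nat_lit 156) (nat_lit 0) (nat_lit 76) (XT.nd (nat_lit 78) (nat_lit 0) (nat_lit 0) (XT.lf (nat_lit 0) (nat_lit 1481111035792) (nat_lit 532) (nat_lit 219347403937) (nat_lit 532) (nat_lit 219347403937) (nat_lit 54) (nat_lit 3) (nat_lit 61) (nat_lit 3) (nat_lit 61) (nat_lit 5) (nat_lit 309) (nat_lit 309) (nat_lit 162)) (XT.lf (nat_lit 76) (nat_lit 3126136966940) (nat_lit 0) (nat_lit 133435436656) (nat_lit 532) (nat_lit 861995466141) (nat_lit 55) (nat_lit 5) (nat_lit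 54) (nat_lit 3) (nat_lit 61) (nat_lit 5) (nat_lit 310) (nat_lit 309) (nat_lit 161))) (XT.nd (nat_lit 78) (nat_lit 0) (nat_lit 76) (XT.lf (nat_lit 76) (nat_lit 2863199585414) (nat_lit 0) (nat_lit 907450921361) (nat_lit 532) (nat_lit 661636955021) (nat_lit 56) (nat_lit 5) (nat_lit 55) (nat_lit 5) (nat_lit 62) (nat_lit 5) (nat_lit 311) (nat_lit 309) (nat_lit 160)) (XT.lf (nat_lit 76) (nat_lit 2630253655939) (nat_lit 0) (nat_lit 1895305912883) (nat_lit 532) (nat_lit 250681884373) (nat_lit 57) (nat_lit 5) (nat_lit 56) (nat_lit 5) (nat_lit 63) (nat_lit 5) (nat_lit 312) (nat_lit 309) (nat_lit 159))))))))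
noncomputable def xc63 : XT := (XT.nd (nat_lit 121914) (nat_lit 0) (nat_lit 608) (XT.nd (nat_lit 40872) (nat_lit 0) (nat_lit 152) (XT.nd (nat_lit 468) (nat_lit 152) (nat_lit 0) (XT.nd (nat_lit 234) (nat_lit 684) (nat_lit 0) (XT.nd (nat_lit 78) (nat_lit 532) (nat_lit 0) (XT.lf (nat_lit 0) (nat_lit 393775720011) (nat_lit 532) (nat_lit 2733456997680) (nat_lit 76) (nat_lit 2029492023338) (nat_lit 50) (nat_lit 5) (nat_lit 57) (nat_lit 5) (nat_lit 51) (nat_lit 5) (nat_lit 313) (nat_lit 309) (nat_lit 158)) (XT.nd (nat_lit 78) (nat_lit 228) (nat_lit 0) (XT.lf (nat_lit 0) (nat_lit 1315183629495) (nat_lit 380) (nat_lit 3332369643211) (nat_lit 76) (nat_lit 930596365556) (nat_lit 46) (nat_lit 5) (nat_lit 51) (nat_lit 5) (nat_lit 47) (nat_lit 5) (nat_lit 314) (nat_lit 309) (nat_lit 157)) (XT.lf (nat_lit 0) (nat_lit 2097371063623) (nat_lit 228) (nat_lit 496013726365) (nat_lit 304) (nat_lit 3451916914930)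 (nat_lit 43) (nat_lit 5) (nat_lit 46) (nat_lit 5) (nat_lit 47) (nat_lit 5) (nat_lit 315) (nat_lit 309) (nat_lit 156)))) (XT.nd (nat_lit 78) (nat_lit 456) (nat_lit 0) (XT.lf (nat_lit 0) (nat_lit 1961306293569) (nat_lit 228) (nat_lit 2351609785564) (nat_lit 304) (nat_lit 2249642506071) (nat_lit 40) (nat_lit 5) (nat_lit 43) (nat_lit 5) (nat_lit 44) (nat_lit 5) (nat_lit 316) (nat_lit 309) (nat_lit 155)) (XT.nd (nat_lit 78) (nat_lit 304) (nat_lit 0) (XT.lf (nat_lit 0) (nat_lit 1866138014648) (nat_lit 152) (nat_lit 4659067866495) (nat_lit 228) (nat_lit 613411810835) (nat_lit 38) (nat_lit 5) (nat_lit 40) (nat_lit 5) (nat_lit 41) (nat_lit 5) (nat_lit 317) (nat_lit 309) (nat_lit 154)) (XT.lf (nat_lit 0) (nat_lit 1458129641663) (nat_lit 304) (nat_lit 6004970796171) (nat_lit 76) (nat_lit 315279558464) (nat_lit 34) (nat_lit 5) (nat_lit 38) (nat_lit 5) (nat_lit 35) (nat_lit 5) (nat_lit 318) (nat_lit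 309) (nat_lit 153))))) (XT.nd (nat_lit 40092) (nat_lit 0) (nat_lit 1064) (XT.nd (nat_lit 39936) (nat_lit 0) (nat_lit 1672) (XT.lf (nat_lit 0) (nat_lit 1625124812170) (nat_lit 152) (nat_lit 2505421596620) (nat_lit 228) (nat_lit 4356168421841) (nat_lit 32) (nat_lit 5) (nat_lit 34) (nat_lit 5) (nat_lit 35) (nat_lit 5) (nat_lit 319) (nat_lit 309) (nat_lit 152)) (XT.nd (nat_lit 78) (nat_lit 0) (nat_lit 0) (XT.lf (nat_lit 0) (nat_lit 1703277698259) (nat_lit 532) (nat_lit 252249510688) (nat_lit 532) (nat_lit 252249510688) (nat_lit 54) (nat_lit 3) (nat_lit 61) (nat_lit 3) (nat_lit 61) (nat_lit 5) (nat_lit 310) (nat_lit 310) (nat_lit 160)) (XT.lf (nat_lit 76) (nat_lit 3595057519010) (nat_lit 0) (nat_lit 153450757639) (nat_lit 532) (nat_lit 991294772525) (nat_lit 55) (nat_lit 5) (nat_lit 54) (nat_lit 3) (nat_lit 61) (nat_lit 5) (nat_lit 311) (nat_lit 310) (nat_lit 159)))) (XT.nd (nat_lit 156) (nat_lit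 684) (nat_lit 0) (XT.nd (nat_lit 78) (nat_lit 0) (nat_lit 76) (XT.lf (nat_lit 76) (nat_lit 3292679530718) (nat_lit 0) (nat_lit 1043568563021) (nat_lit 532) (nat_lit 760882486432) (nat_lit 56) (nat_lit 5) (nat_lit 55) (nat_lit 5) (nat_lit 62) (nat_lit 5) (nat_lit 312) (nat_lit 310) (nat_lit 158)) (XT.lf (nat_lit 76) (nat_lit 3024791712083) (nat_lit 0) (nat_lit 2179601801695) (nat_lit 532) (nat_lit 288284156608) (nat_lit 57) (nat_lit 5) (nat_lit 56) (nat_lit 5) (nat_lit 63) (nat_lit 5) (nat_lit 313) (nat_lit 310) (nat_lit 157))) (XT.nd (nat_lit 78) (nat_lit 304) (nat_lit 0) (XT.lf (nat_lit 0) (nat_lit 452842086774) (nat_lit 532) (nat_lit 3143475538998) (nat_lit 76) (nat_lit 2333915825697) (nat_lit 50) (nat_lit 5) (nat_lit 57) (nat_lit 5) (nat_lit 51) (nat_lit 5) (nat_lit 314) (nat_lit 310) (nat_lit 156)) (XT.lf (nat_lit 0) (nat_lit 1512461181718) (nat_lit 380) (nat_lit 3832225081424) (nat_lit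 76) (nat_lit 1070185820225) (nat_lit 46) (nat_lit 5) (nat_lit 51) (nat_lit 5) (nat_lit 47) (nat_lit 5) (nat_lit 315) (nat_lit 310) (nat_lit 155)))))) (XT.nd (nat_lit 40404) (nat_lit 0) (nat_lit 304) (XT.nd (nat_lit 234) (nat_lit 304) (nat_lit 0) (XT.nd (nat_lit 78) (nat_lit 380) (nat_lit 0) (XT.lf (nat_lit 0) (nat_lit 2411976730736) (nat_lit 228) (nat_lit 570415784713) (nat_lit 304) (nat_lit 3969704444639) (nat_lit 43) (nat_lit 5) (nat_lit 46) (nat_lit 5) (nat_lit 47) (nat_lit 5) (nat_lit 316) (nat_lit 310) (nat_lit 154)) (XT.nd (nat_lit 78) (nat_lit 152) (nat_lit 0) (XT.lf (nat_lit 0) (nat_lit 2255502245039) (nat_lit 228) (nat_lit 2704351252211) (nat_lit 304) (nat_lit 2587088875227) (nat_lit 40) (nat_lit 5) (nat_lit 43) (nat_lit 5) (nat_lit 44) (nat_lit 5) (nat_lit 317) (nat_lit 310) (nat_lit 153)) (XT.lf (nat_lit 0) (nat_lit 2146058724089) (nat_lit 152) (nat_lit 5357928044855) (nat_lit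 228) (nat_lit 705423576371) (nat_lit 38) (nat_lit 5) (nat_lit 40) (nat_lit 5) (nat_lit 41) (nat_lit 5) (nat_lit 318) (nat_lit 310) (nat_lit 152)))) (XT.nd (nat_lit 40014) (nat_lit 0) (nat_lit 1520) (XT.lf (nat_lit 0) (nat_lit 1676849093150) (nat_lit 304) (nat_lit 6905716408299) (nat_lit 76) (nat_lit 362571493869) (nat_lit 34) (nat_lit 5) (nat_lit 38) (nat_lit 5) (nat_lit 35) (nat_lit 5) (nat_lit 319) (nat_lit 310) (nat_lit 151)) (XT.nd (nat_lit 78) (nat_lit 0) (nat_lit 0) (XT.lf (nat_lit 0) (nat_lit 1958769358365) (nat_lit 532) (nat_lit 290086934388) (nat_lit 532) (nat_lit 290086934388) (nat_lit 54) (nat_lit 3) (nat_lit 61) (nat_lit 3) (nat_lit 61) (nat_lit 5) (nat_lit 311) (nat_lit 311) (nat_lit 158)) (XT.lf (nat_lit 76) (nat_lit 4134316152177) (nat_lit 0) (nat_lit 176468375432) (nat_lit 532) (nat_lit 1139988978169) (nat_lit 55) (nat_lit 5) (nat_lit 54) (nat_lit 3) (nat_lit 61) (nat_lit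 5) (nat_lit 312) (nat_lit 311) (nat_lit 157))))) (XT.nd (nat_lit 234) (nat_lit 912) (nat_lit 0) (XT.nd (nat_lit 78) (nat_lit 380) (nat_lit 0) (XT.lf (nat_lit 76) (nat_lit 3786581465991) (nat_lit 0) (nat_lit 1200103850086) (nat_lit 532) (nat_lit 875014850443) (nat_lit 56) (nat_lit 5) (nat_lit 55) (nat_lit 5) (nat_lit 62) (nat_lit 5) (nat_lit 313) (nat_lit 311) (nat_lit 156)) (XT.nd (nat_lit 78) (nat_lit 456) (nat_lit 0) (XT.lf (nat_lit 76) (nat_lit 3478510474758) (nat_lit 0) (nat_lit 2506542073371) (nat_lit 532) (nat_lit 331526772220) (nat_lit 57) (nat_lit 5) (nat_lit 56) (nat_lit 5) (nat_lit 63) (nat_lit 5) (nat_lit 314) (nat_lit 311) (nat_lit 155)) (XT.lf (nat_lit 0) (nat_lit 520768406415) (nat_lit 532) (nat_lit 3614996863545) (nat_lit 76) (nat_lit 2684003198688) (nat_lit 50) (nat_lit 5) (nat_lit 57) (nat_lit 5) (nat_lit 51) (nat_lit 5) (nat_lit 315) (nat_lit 311) (nat_lit 154)))) (XT.nd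 (nat_lit 234) (nat_lit 380) (nat_lit 0) (XT.nd (nat_lit 78) (nat_lit 228) (nat_lit 0) (XT.lf (nat_lit 0) (nat_lit 1739330364872) (nat_lit 380) (nat_lit 4407058837385) (nat_lit 76) (nat_lit 1230713693134) (nat_lit 46) (nat_lit 5) (nat_lit 51) (nat_lit 5) (nat_lit 47) (nat_lit 5) (nat_lit 316) (nat_lit 311) (nat_lit 153)) (XT.lf (nat_lit 0) (nat_lit 2773773246070) (nat_lit 228) (nat_lit 655978151962) (nat_lit 304) (nat_lit 4565160105640) (nat_lit 43) (nat_lit 5) (nat_lit 46) (nat_lit 5) (nat_lit 47) (nat_lit 5) (nat_lit 317) (nat_lit 311) (nat_lit 152))) (XT.nd (nat_lit 40092) (nat_lit 0) (nat_lit 1216) (XT.lf (nat_lit 0) (nat_lit 2467967538181) (nat_lit 152) (nat_lit 6161617250363) (nat_lit 228) (nat_lit 811237108222) (nat_lit 38) (nat_lit 5) (nat_lit 40) (nat_lit 5) (nat_lit 41) (nat_lit 5) (nat_lit 319) (nat_lit 311) (nat_lit 150)) (XT.lf (nat_lit 0) (nat_lit 2252584766178) (nat_lit 532)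 (nat_lit 333599972351) (nat_lit 532) (nat_lit 333599972351) (nat_lit 54) (nat_lit 3) (nat_lit 61) (nat_lit 3) (nat_lit 61) (nat_lit 5) (nat_lit 312) (nat_lit 312) (nat_lit 156))))))) (XT.nd (nat_lit 41106) (nat_lit 0) (nat_lit 228) (XT.nd (nat_lit 468) (nat_lit 228) (nat_lit 0) (XT.nd (nat_lit 234) (nat_lit 836) (nat_lit 0) (XT.nd (nat_lit 78) (nat_lit 0) (nat_lit 76) (XT.lf (nat_lit 76) (nat_lit 4754463579022) (nat_lit 0) (nat_lit 202938634883) (nat_lit 532) (nat_lit 1310987317154) (nat_lit 55) (nat_lit 5) (nat_lit 54) (nat_lit 3) (nat_lit 61) (nat_lit 5) (nat_lit 313) (nat_lit 312) (nat_lit 155)) (XT.nd (nat_lit 78) (nat_lit 0) (nat_lit 76) (XT.lf (nat_lit 76) (nat_lit 4354568690172) (nat_lit 0) (nat_lit 1380119429575) (nat_lit 532) (nat_lit 1006267071239) (nat_lit 56) (nat_lit 5) (nat_lit 55) (nat_lit 5) (nat_lit 62) (nat_lit 5) (nat_lit 314) (nat_lit 312) (nat_lit 154)) (XT.lf (nat_lit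 76) (nat_lit 4000287050405) (nat_lit 0) (nat_lit 2882523385452) (nat_lit 532) (nat_lit 381255782095) (nat_lit 57) (nat_lit 5) (nat_lit 56) (nat_lit 5) (nat_lit 63) (nat_lit 5) (nat_lit 315) (nat_lit 312) (nat_lit 153)))) (XT.nd (nat_lit 78) (nat_lit 532) (nat_lit 0) (XT.lf (nat_lit 0) (nat_lit 598883672387) (nat_lit 532) (nat_lit 4157246388312) (nat_lit 76) (nat_lit 3086603677838) (nat_lit 50) (nat_lit 5) (nat_lit 57) (nat_lit 5) (nat_lit 51) (nat_lit 5) (nat_lit 316) (nat_lit 312) (nat_lit 152)) (XT.nd (nat_lit 78) (nat_lit 228) (nat_lit 0) (XT.lf (nat_lit 0) (nat_lit 2000229924062) (nat_lit 380) (nat_lit 5068117658265) (nat_lit 76) (nat_lit 1415320747010) (nat_lit 46) (nat_lit 5) (nat_lit 51) (nat_lit 5) (nat_lit 47) (nat_lit 5) (nat_lit 317) (nat_lit 312) (nat_lit 151)) (XT.lf (nat_lit 0) (nat_lit 3189839237308) (nat_lit 228) (nat_lit 754374874410) (nat_lit 304) (nat_lit 5249934117181)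 (nat_lit 43) (nat_lit 5) (nat_lit 46) (nat_lit 5) (nat_lit 47) (nat_lit 5) (nat_lit 318) (nat_lit 312) (nat_lit 150))))) (XT.nd (nat_lit 40326) (nat_lit 0) (nat_lit 456) (XT.nd (nat_lit 40170) (nat_lit 0) (nat_lit 1064) (XT.lf (nat_lit 0) (nat_lit 2982901729779) (nat_lit 228) (nat_lit 3576504529337) (nat_lit 304) (nat_lit 3421425027752) (nat_lit 40) (nat_lit 5) (nat_lit 43) (nat_lit 5) (nat_lit 44) (nat_lit 5) (nat_lit 319) (nat_lit 312) (nat_lit 149)) (XT.nd (nat_lit 78) (nat_lit 0) (nat_lit 0) (XT.lf (nat_lit 0) (nat_lit 2590472484173) (nat_lit 532) (nat_lit 383639966544) (nat_lit 532) (nat_lit 383639966544) (nat_lit 54) (nat_lit 3) (nat_lit 61) (nat_lit 3) (nat_lit 61) (nat_lit 5) (nat_lit 313) (nat_lit 313) (nat_lit 154)) (XT.lf (nat_lit 76) (nat_lit 5467633118914) (nat_lit 0) (nat_lit 233379432486) (nat_lit 532) (nat_lit 1507635408875) (nat_lit 55) (nat_lit 5) (nat_lit 54) (nat_lit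 3) (nat_lit 61) (nat_lit 5) (nat_lit 314) (nat_lit 313) (nat_lit 153)))) (XT.nd (nat_lit 156) (nat_lit 684) (nat_lit 0) (XT.nd (nat_lit 78) (nat_lit 0) (nat_lit 76) (XT.lf (nat_lit 76) (nat_lit 5007753996937) (nat_lit 0) (nat_lit 1587137345505) (nat_lit 532) (nat_lit 1157207126805) (nat_lit 56) (nat_lit 5) (nat_lit 55) (nat_lit 5) (nat_lit 62) (nat_lit 5) (nat_lit 315) (nat_lit 313) (nat_lit 152)) (XT.lf (nat_lit 76) (nat_lit 4600330111317) (nat_lit 0) (nat_lit 3314901894083) (nat_lit 532) (nat_lit 438444144904) (nat_lit 57) (nat_lit 5) (nat_lit 56) (nat_lit 5) (nat_lit 63) (nat_lit 5) (nat_lit 316) (nat_lit 313) (nat_lit 151))) (XT.nd (nat_lit 78) (nat_lit 304) (nat_lit 0) (XT.lf (nat_lit 0) (nat_lit 688716227033) (nat_lit 532) (nat_lit 4780833342956) (nat_lit 76) (nat_lit 3549594229020) (nat_lit 50) (nat_lit 5) (nat_lit 57) (nat_lit 5) (nat_lit 51) (nat_lit 5) (nat_lit 317) (nat_lit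 313) (nat_lit 150)) (XT.lf (nat_lit 0) (nat_lit 2300264416042) (nat_lit 380) (nat_lit 5828335303430) (nat_lit 76) (nat_lit 1627618858990) (nat_lit 46) (nat_lit 5) (nat_lit 51) (nat_lit 5) (nat_lit 47) (nat_lit 5) (nat_lit 318) (nat_lit 313) (nat_lit 149)))))) (XT.nd (nat_lit 80964) (nat_lit 0) (nat_lit 836) (XT.nd (nat_lit 40404) (nat_lit 0) (nat_lit 532) (XT.nd (nat_lit 40248) (nat_lit 0) (nat_lit 836) (XT.lf (nat_lit 0) (nat_lit 3668315126176) (nat_lit 228) (nat_lit 867531105309) (nat_lit 304) (nat_lit 6037424231503) (nat_lit 43) (nat_lit 5) (nat_lit 46) (nat_lit 5) (nat_lit 47) (nat_lit 5) (nat_lit 319) (nat_lit 313) (nat_lit 148)) (XT.nd (nat_lit 78) (nat_lit 0) (nat_lit 0) (XT.lf (nat_lit 0) (nat_lit 2979043359120) (nat_lit 532) (nat_lit 441185960271) (nat_lit 532) (nat_lit 441185960271) (nat_lit 54) (nat_lit 3) (nat_lit 61) (nat_lit 3) (nat_lit 61) (nat_lit 5) (nat_lit 314) (nat_lit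 314) (nat_lit 152)) (XT.lf (nat_lit 76) (nat_lit 6287778089049) (nat_lit 0) (nat_lit 268386349152) (nat_lit 532) (nat_lit 1733780715781) (nat_lit 55) (nat_lit 5) (nat_lit 54) (nat_lit 3) (nat_lit 61) (nat_lit 5) (nat_lit 315) (nat_lit 314) (nat_lit 151)))) (XT.nd (nat_lit 78) (nat_lit 380) (nat_lit 0) (XT.lf (nat_lit 76) (nat_lit 5758917098927) (nat_lit 0) (nat_lit 1825207948460) (nat_lit 532) (nat_lit 1330788191955) (nat_lit 56) (nat_lit 5) (nat_lit 55) (nat_lit 5) (nat_lit 62) (nat_lit 5) (nat_lit 316) (nat_lit 314) (nat_lit 150)) (XT.nd (nat_lit 78) (nat_lit 456) (nat_lit 0) (XT.lf (nat_lit 76) (nat_lit 5290379630549) (nat_lit 0) (nat_lit 3812137178810) (nat_lit 532) (nat_lit 504210763234) (nat_lit 57) (nat_lit 5) (nat_lit 56) (nat_lit 5) (nat_lit 63) (nat_lit 5) (nat_lit 317) (nat_lit 314) (nat_lit 149)) (XT.lf (nat_lit 0) (nat_lit 792023663952) (nat_lit 532) (nat_lit 5497958341675)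 (nat_lit 76) (nat_lit 4082033362999) (nat_lit 50) (nat_lit 5) (nat_lit 57) (nat_lit 5) (nat_lit 51) (nat_lit 5) (nat_lit 318) (nat_lit 314) (nat_lit 148))))) (XT.nd (nat_lit 234) (nat_lit 0) (nat_lit 0) (XT.nd (nat_lit 78) (nat_lit 0) (nat_lit 0) (XT.lf (nat_lit 0) (nat_lit 3425899864742) (nat_lit 532) (nat_lit 507363853362) (nat_lit 532) (nat_lit 507363853362) (nat_lit 54) (nat_lit 3) (nat_lit 61) (nat_lit 3) (nat_lit 61) (nat_lit 5) (nat_lit 315) (nat_lit 315) (nat_lit 150)) (XT.nd (nat_lit 78) (nat_lit 0) (nat_lit 76) (XT.lf (nat_lit 76) (nat_lit 7230944804144) (nat_lit 0) (nat_lit 308644302880) (nat_lit 532) (nat_lit 1993847819803) (nat_lit 55) (nat_lit 5) (nat_lit 54) (nat_lit 3) (nat_lit 61) (nat_lit 5) (nat_lit 316) (nat_lit 315) (nat_lit 149)) (XT.lf (nat_lit 76) (nat_lit 6622754665618) (nat_lit 0) (nat_lit 2098989141583) (nat_lit 532) (nat_lit 1530406417821) (nat_lit 56) (nat_lit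 5) (nat_lit 55) (nat_lit 5) (nat_lit 62) (nat_lit 5) (nat_lit 317) (nat_lit 315) (nat_lit 148)))) (XT.nd (nat_lit 40560) (nat_lit 0) (nat_lit 0) (XT.nd (nat_lit 40482) (nat_lit 152) (nat_lit 0) (XT.lf (nat_lit 76) (nat_lit 6083936577048) (nat_lit 0) (nat_lit 4383957756096) (nat_lit 532) (nat_lit 579842375143) (nat_lit 57) (nat_lit 5) (nat_lit 56) (nat_lit 5) (nat_lit 63) (nat_lit 5) (nat_lit 318) (nat_lit 315) (nat_lit 147)) (XT.lf (nat_lit 0) (nat_lit 3939784845780) (nat_lit 532) (nat_lit 583468430649) (nat_lit 532) (nat_lit 583468430649) (nat_lit 54) (nat_lit 3) (nat_lit 61) (nat_lit 3) (nat_lit 61) (nat_lit 5) (nat_lit 316) (nat_lit 316) (nat_lit 148))) (XT.nd (nat_lit 78) (nat_lit 0) (nat_lit 76) (XT.lf (nat_lit 76) (nat_lit 8315586526079) (nat_lit 0) (nat_lit 354940949338) (nat_lit 532) (nat_lit 2292924990243) (nat_lit 55) (nat_lit 5) (nat_lit 54) (nat_lit 3) (nat_lit 61) (nat_lit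 5) (nat_lit 317) (nat_lit 316) (nat_lit 147)) (XT.lf (nat_lit 76) (nat_lit 7616167866860) (nat_lit 0) (nat_lit 2413837513466) (nat_lit 532) (nat_lit 1759967378281) (nat_lit 56) (nat_lit 5) (nat_lit 55) (nat_lit 5) (nat_lit 62) (nat_lit 5) (nat_lit 318) (nat_lit 316) (nat_lit 146))))))))

set_option maxRecDepth 10000000 in
noncomputable def Tp : PT := (PT.nd (nat_lit 5374122) (PT.nd (nat_lit 5171166) pc0 pc1) (PT.nd (nat_lit 121446) pc2 pc3))

set_option maxRecDepth 10000000 in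
noncomputable def Tx : XT := (XT.nd (nat_lit 9169290) (nat_lit 0) (nat_lit 76) XT.nil (XT.nd (nat_lit 3697200) (nat_lit 0) (nat_lit 0) (XT.nd (nat_lit 1665534) (nat_lit 0) (nat_lit 0) (XT.nd (nat_lit 1174212) (nat_lit 0) (nat_lit 0) (XT.nd (nat_lit 811356) (nat_lit 0) (nat_lit 0) (XT.nd (nat_lit 567762) (nat_lit 0) (nat_lit 0) (XT.nd (nat_lit 405054) (nat_lit 0) (nat_lit 0) (XT.nd (nat_lit 283530) (nat_lit 0) (nat_lit 0) xc0 xc1) (XT.nd (nat_lit 81588) (nat_lit 0) (nat_lit 0) xc2 xc3)) (XT.nd (nat_lit 122460) (nat_lit 0) (nat_lit 0) (XT.nd (nat_lit 80418) (nat_lit 0) (nat_lit 0) xc4 xc5) (XT.nd (nat_lit 79560) (nat_lit 0) (nat_lit 0) xc6 xc7))) (XT.nd (nat_lit 201318) (nat_lit 0) (nat_lit 0) (XT.nd (nat_lit 82602) (nat_lit 0) (nat_lit 0) (XT.nd (nat_lit 41340) (nat_lit 0) (nat_lit 0) xc8 xc9) (XT.nd (nat_lit 77922) (nat_lit 0) (nat_lit 0) xc10 xc11)) (XT.nd (nat_lit 81042) (nat_lit 0)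 (nat_lit 0) (XT.nd (nat_lit 40560) (nat_lit 0) (nat_lit 0) xc12 xc13) (XT.nd (nat_lit 40326) (nat_lit 0) (nat_lit 0) xc14 xc15)))) (XT.nd (nat_lit 245856) (nat_lit 0) (nat_lit 0) (XT.nd (nat_lit 123474) (nat_lit 0) (nat_lit 0) (XT.nd (nat_lit 43992) (nat_lit 0) (nat_lit 0) (XT.nd (nat_lit 3978) (nat_lit 0) (nat_lit 0) xc16 xc17) (XT.nd (nat_lit 39780) (nat_lit 0) (nat_lit 0) xc18 xc19)) (XT.nd (nat_lit 79014) (nat_lit 0) (nat_lit 0) (XT.nd (nat_lit 39546) (nat_lit 0) (nat_lit 0) xc20 xc21) (XT.nd (nat_lit 4056) (nat_lit 0) (nat_lit 0) xc22 xc23))) (XT.nd (nat_lit 122382) (nat_lit 0) (nat_lit 0) (XT.nd (nat_lit 78780) (nat_lit 0) (nat_lit 0) (XT.nd (nat_lit 39312) (nat_lit 0) (nat_lit 0) xc24 xc25) (XT.nd (nat_lit 4056) (nat_lit 0) (nat_lit 0) xc26 xc27)) (XT.nd (nat_lit 79248) (nat_lit 0) (nat_lit 0) (XT.nd (nat_lit 39546) (nat_lit 0) (nat_lit 0) xc28 xc29) (XT.nd (nat_lit 39780) (nat_lit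 0) (nat_lit 0) xc30 xc31))))) (XT.nd (nat_lit 648180) (nat_lit 0) (nat_lit 76) (XT.nd (nat_lit 321360) (nat_lit 0) (nat_lit 0) (XT.nd (nat_lit 159978) (nat_lit 0) (nat_lit 0) (XT.nd (nat_lit 79794) (nat_lit 0) (nat_lit 0) (XT.nd (nat_lit 39780) (nat_lit 0) (nat_lit 0) xc32 xc33) (XT.nd (nat_lit 40014) (nat_lit 0) (nat_lit 0) xc34 xc35)) (XT.nd (nat_lit 80496) (nat_lit 0) (nat_lit 0) (XT.nd (nat_lit 40170) (nat_lit 0) (nat_lit 0) xc36 xc37) (XT.nd (nat_lit 40404) (nat_lit 0) (nat_lit 0) xc38 xc39))) (XT.nd (nat_lit 125814) (nat_lit 0) (nat_lit 76) (XT.nd (nat_lit 44538) (nat_lit 0) (nat_lit 0) (XT.nd (nat_lit 3978) (nat_lit 76) (nat_lit 0) xc40 xc41) (XT.nd (nat_lit 40560) (nat_lit 0) (nat_lit 0) xc42 xc43)) (XT.nd (nat_lit 118716) (nat_lit 0) (nat_lit 0) (XT.nd (nat_lit 40794) (nat_lit 0) (nat_lit 0) xc44 xc45) (XT.nd (nat_lit 41106) (nat_lit 0) (nat_lit 0) xc46 xc47)))) (XT.nd (nat_lit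 446862) (nat_lit 0) (nat_lit 304) (XT.nd (nat_lit 203190) (nat_lit 0) (nat_lit 152) (XT.nd (nat_lit 82602) (nat_lit 0) (nat_lit 0) (XT.nd (nat_lit 41184) (nat_lit 0) (nat_lit 0) xc48 xc49) (XT.nd (nat_lit 41418) (nat_lit 0) (nat_lit 0) xc50 xc51)) (XT.nd (nat_lit 83460) (nat_lit 0) (nat_lit 0) (XT.nd (nat_lit 41652) (nat_lit 0) (nat_lit 0) xc52 xc53) (XT.nd (nat_lit 79950) (nat_lit 0) (nat_lit 76) xc54 xc55))) (XT.nd (nat_lit 285714) (nat_lit 0) (nat_lit 608) (XT.nd (nat_lit 123006) (nat_lit 0) (nat_lit 152) (XT.nd (nat_lit 42198) (nat_lit 0) (nat_lit 76) xc56 xc57) (XT.nd (nat_lit 81198) (nat_lit 0) (nat_lit 228) xc58 xc59)) (XT.nd (nat_lit 203580) (nat_lit 0) (nat_lit 532) (XT.nd (nat_lit 81900) (nat_lit 0) (nat_lit 76) xc60 xc61) (XT.nd (nat_lit 162396) (nat_lit 0) (nat_lit 836) xc62 xc63)))))) XT.nil))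

set_option maxRecDepth 10000000 in
noncomputable def Te : XT := XT.nil

set_option maxRecDepth 10000000 in
noncomputable def Tz : ZL := (ZL.cons (nat_lit 76) (nat_lit 3) (nat_lit 131277318628207640089) (ZL.cons (nat_lit 152) (nat_lit 6) (nat_lit 246073111102601937482) (ZL.cons (nat_lit 228) (nat_lit 6) (nat_lit 231866753327925787634) (ZL.cons (nat_lit 304) (nat_lit 3) (nat_lit 114829330779728197479) (ZL.cons (nat_lit 380) (nat_lit 6) (nat_lit 215529441887048215310) (ZL.cons (nat_lit 456) (nat_lit 6) (nat_lit 203409010830917238504) (ZL.cons (nat_lit 532) (nat_lit 3) (nat_lit 100744465516124100696) (ZL.cons (nat_lit 608) (nat_lit 6) (nat_lit 189470515116366615174) (ZL.cons (nat_lit 684) (nat_lit 6) (nat_lit 179239051219310121276) (ZL.cons (nat_lit 760) (nat_lit 3) (nat_lit 88784708305885914068) (ZL.cons (nat_lit 836) (nat_lit 6) (nat_lit 167472867737695153290) (ZL.cons (nat_lit 912) (nat_lit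 6) (nat_lit 158983327320513351348) (ZL.cons (nat_lit 988) (nat_lit 3) (nat_lit 78765735570022635179) (ZL.cons (nat_lit 1064) (nat_lit 6) (nat_lit 149220355840754279116) (ZL.cons (nat_lit 1140) (nat_lit 6) (nat_lit 142376913062227355818) (ZL.cons (nat_lit 1216) (nat_lit 3) (nat_lit 70557214713518860088) (ZL.cons (nat_lit 1292) (nat_lit 6) (nat_lit 136867249358797669366) (ZL.cons (nat_lit 1368) (nat_lit 6) (nat_lit 134506953866921394030) (ZL.cons (nat_lit 1444) (nat_lit 6) (nat_lit 129268652464663894298) (ZL.cons (nat_lit 1520) (nat_lit 3) (nat_lit 64085420303988627302) (ZL.cons (nat_lit 1596) (nat_lit 6) (nat_lit 125297036714568878594) (ZL.cons (nat_lit 1672) (nat_lit 6) (nat_lit 123244605852067769606) (ZL.cons (nat_lit 1748) (nat_lit 3) (nat_lit 60160248104228468906) (ZL.cons (nat_lit 1824) (nat_lit 6) (nat_lit 120866302723336155254) (ZL.cons (nat_lit 1900) (nat_lit 6) (nat_lit 122514401091091009652)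 (ZL.cons (nat_lit 1976) (nat_lit 6) (nat_lit 119631866745272970840) (ZL.cons (nat_lit 2052) (nat_lit 3) (nat_lit 59338623869729250773) (ZL.cons (nat_lit 2128) (nat_lit 6) (nat_lit 116088455254600033884) (ZL.cons (nat_lit 2204) (nat_lit 6) (nat_lit 117261939261590351380) (ZL.cons (nat_lit 2280) (nat_lit 6) (nat_lit 115477216772458952262) (ZL.cons (nat_lit 2356) (nat_lit 3) (nat_lit 56477113078714884825) (ZL.cons (nat_lit 2432) (nat_lit 6) (nat_lit 113581903649540869704) (ZL.cons (nat_lit 2508) (nat_lit 3) (nat_lit 56375900083111969940) (ZL.cons (nat_lit 2584) (nat_lit 6) (nat_lit 111402293558185074764) (ZL.cons (nat_lit 2660) (nat_lit 1) (nat_lit 18446744073709551617) ZL.nil)))))))))))))))))))))))))))))))))))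

noncomputable def vl : XL := ⟨(nat_lit 0), (nat_lit 76), (nat_lit 132686020), (nat_lit 152), (nat_lit 171952711), (nat_lit 152), (nat_lit 171952711), (nat_lit 1), (nat_lit 4), (nat_lit 2), (nat_lit 5), (nat_lit 2), (nat_lit 4), (nat_lit 0), (nat_lit 0), (nat_lit 0)⟩

noncomputable def cp0 : Nat := (nat_lit 2523394075235487923008435054643015310610264209314487282167424186353011581213437842299482414334838542548187352723525473542967882335528794414415215983553323100305882528007496856033188810858819563410299982674173576880011486659589043101562891008728729309864576586348939112940659543094298541223148403021849198181369988463230137348815505857283055535719673159012333958418340470151524311099870335988851173184754008561924788939239590123627424918696124993307128449173850734807832240615630441520498346155668592177365644654538404721790242974645460969070090806304661953645211340432196966520915212221663318108028770090433003950240496438555987144291304668458220096589446966001528253573854248445997372385184377222628313394780200481047334837467900398198952026542038782439552625194566959395533903058865532618204373418936972928098987147264)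

noncomputable def cp1 : Nat := (nat_lit 1364639121650637153459007368270733546593947223903624461366330027383142905916547841460838357381101600147674948770122839247093937860792063837234867629134251688562304617370058002637955224739787275565606873929455368997989600148692066586202214191063067841200173139444246152984609021307325715891429700294729238099899247321370166033940454151775071263591984946686733019625996371252596530543410052262495889484654858549439944235567349025347915849696973369564001459074180999201336512731432514217230400807066753312141667112172996586242913010766246835091130319118765664892259040408719318080553104098078188925151424538613816617617436513782669320125437004559167523470405644646746496413740670859478077060272765273781020115839750437913448121113358428084159141314257704836156195456419253786947730681520828427224794471626047838500559043075655375520436374750723161596946043972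616966219526507225220343301747951099327717933977663314662977098103068124978474222156330228864293266529921038980443975246748126648975729239386152537666363444970014647780021959735387891800421289461079294838668456056758321247470228163368669559104139324564289966483984361526870275176237628183425853328151742793987520597807057305530419533995938929452271818513596748949779968381200034420047951008161747976328736272013308122200441671042313871731015815543722999661647192151768823243800494946115314943405273802354876389598368600089892444359531570151236986953790321920762772156503545324775287232333401203736406874027009112579833980253321517376787279693086072029176864558013486956442648184353840004967588426578214942719869130059337104770945081517037219220264259647800032824734919647977376706954861660273141839398860779914094194474783261143054740571955096255854152374447782032350152641349838054874753544067643547435754665146235719609495999388742829474077212672)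

noncomputable def rc0 : Nat := (nat_lit 1364639121650637153459007368270733546593947223903624461366330027383142905916547841460838357381101600147674948770122839247093937860792063837234867629134251688562304617370058002637955224739787275565606873929455368997989600148692066586202214191063067841200173139444246152984609021307325715891429700294729238099899247321370166033940454151775071263591984946686733019625996371252596530543410052262495889484654858549439944235567349025347915849696973369564001459074180999201336512731432514217230400807066753312141667112172996586242913010766246835091130319118765664892259040408719318080553104098078188925151424538613816617617436513782669320125437004559167523470405644646746496413740670859478077060272765273781020115839750437913448121113358428084159141314257704836156195456419253786947730681520828427224794471626047838500559043075655375520436374750723161596946043972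616966219526507225220343301747951099327717933977663314662977098103068124978474222156330228864293266529921038980443975246748126648975729239386152537666363444970014647780021959735387891800421289461079294838668456056758321247470228163368669559104139324564289966483984361526870275176237628183425853328151742793987520597807057305530419533995938929452271818513596748949779968381200034420047951008161747976328736272013308122200441671042313871731015815543722999661647192151768823243800494946115314943405273802354876389598368600089892444359531570151236986953790321920762772156503545324775287232333401203736406874027009112579833980253321517376787279693086072029176864558013486956442648184353840004967588426578214942719869130059337104770945081517037219220264259647800032824734919647977376706954861660273141839398860779914094194474783261143054740571955096255854152374447782032350152641349838054874753544067643547435754665146235719609495999388742829474077212672)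

end Vale.Agent.Lib.P154.PChain.BI.S1
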