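import Vale.Agent.Lib.P154.PChain.BI.R1_0

set_option linter.all false

namespace Vale.Agent.Lib.P154.PChain.BI.S2

open Vale.Agent.Lib.P154.Chain

noncomputable def pc0 : PT := (PT.nd (nat_lit 6013020) (PT.nd (nat_lit 5778786) (PT.nd (nat_lit 5685030) (PT.nd (nat_lit 5638152) (PT.nd (nat_lit 5591352) (PT.nd (nat_lit 5544552) PT.nil (PT.lf (nat_lit 76) (nat_lit 3) (nat_lit 1) (nat_lit 1) (nat_lit 166) (nat_lit 118) (nat_lit 166))) (PT.nd (nat_lit 78) (PT.lf (nat_lit 152) (nat_lit 6) (nat_lit 2) (nat_lit 3) (nat_lit 165) (nat_lit 119) (nat_lit 166)) (PT.lf (nat_lit 152) (nat_lit 6) (nat_lit 2) (nat_lit 1) (nat_lit 166) (nat_lit 119) (nat_lit 165)))) (PT.nd (nat_lit 78) (PT.lf (nat_lit 228) (nat_lit 6) (nat_lit 3) (nat_lit 3) (nat_lit 164) (nat_lit 120) (nat_lit 166)) (PT.nd (nat_lit 78) (PT.lf (nat_lit 304) (nat_lit 3) (nat_lit 4) (nat_lit 1) (nat_lit 165) (nat_lit 120) (nat_lit 165)) (PT.lf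 (nat_lit 228) (nat_lit 6) (nat_lit 3) (nat_lit 1) (nat_lit 166) (nat_lit 120) (nat_lit 164))))) (PT.nd (nat_lit 46878) (PT.nd (nat_lit 78) (PT.lf (nat_lit 380) (nat_lit 6) (nat_lit 5) (nat_lit 3) (nat_lit 164) (nat_lit 121) (nat_lit 165)) (PT.nd (nat_lit 46722) (PT.lf (nat_lit 380) (nat_lit 6) (nat_lit 5) (nat_lit 1) (nat_lit 165) (nat_lit 121) (nat_lit 164)) (PT.lf (nat_lit 456) (nat_lit 6) (nat_lit 6) (nat_lit 3) (nat_lit 163) (nat_lit 122) (nat_lit 165)))) (PT.nd (nat_lit 78) (PT.lf (nat_lit 532) (nat_lit 3) (nat_lit 7) (nat_lit 1) (nat_lit 164) (nat_lit 122) (nat_lit 164)) (PT.nd (nat_lit 46722) (PT.lf (nat_lit 456) (nat_lit 6) (nat_lit 6) (nat_lit 1) (nat_lit 165) (nat_lit 122) (nat_lit 163)) (PT.lf (nat_lit 608) (nat_lit 6) (nat_lit 8) (nat_lit 3) (nat_lit 163) (nat_lit 123) (nat_lit 164)))))) (PT.nd (nat_lit 140400) (PT.nd (nat_lit 46878) (PT.nd (nat_lit 46722) (PT.lf (nat_lit 608)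 (nat_lit 6) (nat_lit 8) (nat_lit 1) (nat_lit 164) (nat_lit 123) (nat_lit 163)) (PT.nd (nat_lit 78) (PT.lf (nat_lit 684) (nat_lit 6) (nat_lit 9) (nat_lit 3) (nat_lit 162) (nat_lit 124) (nat_lit 164)) (PT.lf (nat_lit 760) (nat_lit 3) (nat_lit 10) (nat_lit 1) (nat_lit 163) (nat_lit 124) (nat_lit 163)))) (PT.nd (nat_lit 46722) (PT.lf (nat_lit 684) (nat_lit 6) (nat_lit 9) (nat_lit 1) (nat_lit 164) (nat_lit 124) (nat_lit 162)) (PT.nd (nat_lit 78) (PT.lf (nat_lit 836) (nat_lit 6) (nat_lit 11) (nat_lit 3) (nat_lit 162) (nat_lit 125) (nat_lit 163)) (PT.lf (nat_lit 836) (nat_lit 6) (nat_lit 11) (nat_lit 1) (nat_lit 163) (nat_lit 125) (nat_lit 162))))) (PT.nd (nat_lit 46878) (PT.nd (nat_lit 78) (PT.lf (nat_lit 912) (nat_lit 6) (nat_lit 12) (nat_lit 3) (nat_lit 161) (nat_lit 126) (nat_lit 163)) (PT.nd (nat_lit 78) (PT.lf (nat_lit 988) (nat_lit 3) (nat_lit 13) (nat_lit 1) (nat_lit 162) (nat_lit 126)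 (nat_lit 162)) (PT.lf (nat_lit 912) (nat_lit 6) (nat_lit 12) (nat_lit 1) (nat_lit 163) (nat_lit 126) (nat_lit 161)))) (PT.nd (nat_lit 46800) (PT.nd (nat_lit 78) (PT.lf (nat_lit 1064) (nat_lit 6) (nat_lit 14) (nat_lit 3) (nat_lit 161) (nat_lit 127) (nat_lit 162)) (PT.lf (nat_lit 1064) (nat_lit 6) (nat_lit 14) (nat_lit 1) (nat_lit 162) (nat_lit 127) (nat_lit 161))) (PT.nd (nat_lit 78) (PT.lf (nat_lit 1140) (nat_lit 6) (nat_lit 15) (nat_lit 3) (nat_lit 160) (nat_lit 128) (nat_lit 162)) (PT.lf (nat_lit 1216) (nat_lit 3) (nat_lit 16) (nat_lit 1) (nat_lit 161) (nat_lit 128) (nat_lit 161))))))) (PT.nd (nat_lit 234078) (PT.nd (nat_lit 140400) (PT.nd (nat_lit 93522) (PT.nd (nat_lit 46722) (PT.lf (nat_lit 1140) (nat_lit 6) (nat_lit 15) (nat_lit 1) (nat_lit 162) (nat_lit 128) (nat_lit 160)) (PT.nd (nat_lit 78) (PT.lf (nat_lit 1292) (nat_lit 6) (nat_lit 17) (nat_lit 3) (nat_lit 160) (nat_lit 129)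 (nat_lit 161)) (PT.lf (nat_lit 1292) (nat_lit 6) (nat_lit 17) (nat_lit 1) (nat_lit 161) (nat_lit 129) (nat_lit 160)))) (PT.nd (nat_lit 78) (PT.lf (nat_lit 1368) (nat_lit 6) (nat_lit 18) (nat_lit 3) (nat_lit 159) (nat_lit 130) (nat_lit 161)) (PT.nd (nat_lit 78) (PT.lf (nat_lit 1444) (nat_lit 3) (nat_lit 19) (nat_lit 1) (nat_lit 160) (nat_lit 130) (nat_lit 160)) (PT.lf (nat_lit 1368) (nat_lit 6) (nat_lit 18) (nat_lit 1) (nat_lit 161) (nat_lit 130) (nat_lit 159))))) (PT.nd (nat_lit 46878) (PT.nd (nat_lit 78) (PT.lf (nat_lit 1520) (nat_lit 6) (nat_lit 20) (nat_lit 3) (nat_lit 159) (nat_lit 131) (nat_lit 160)) (PT.nd (nat_lit 46722) (PT.lf (nat_lit 1520) (nat_lit 6) (nat_lit 20) (nat_lit 1) (nat_lit 160) (nat_lit 131) (nat_lit 159)) (PT.lf (nat_lit 1596) (nat_lit 6) (nat_lit 21) (nat_lit 3) (nat_lit 158) (nat_lit 132) (nat_lit 160)))) (PT.nd (nat_lit 78) (PT.lf (nat_lit 1672) (nat_lit 3) (nat_lit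 22) (nat_lit 1) (nat_lit 159) (nat_lit 132) (nat_lit 159)) (PT.nd (nat_lit 46644) (PT.lf (nat_lit 1596) (nat_lit 6) (nat_lit 21) (nat_lit 1) (nat_lit 160) (nat_lit 132) (nat_lit 158)) (PT.lf (nat_lit 1748) (nat_lit 6) (nat_lit 23) (nat_lit 3) (nat_lit 157) (nat_lit 133) (nat_lit 160)))))) (PT.nd (nat_lit 93600) (PT.nd (nat_lit 46800) (PT.nd (nat_lit 78) (PT.lf (nat_lit 1824) (nat_lit 6) (nat_lit 24) (nat_lit 3) (nat_lit 158) (nat_lit 133) (nat_lit 159)) (PT.nd (nat_lit 78) (PT.lf (nat_lit 1824) (nat_lit 6) (nat_lit 24) (nat_lit 1) (nat_lit 159) (nat_lit 133) (nat_lit 158)) (PT.lf (nat_lit 1748) (nat_lit 6) (nat_lit 23) (nat_lit 1) (nat_lit 160) (nat_lit 133) (nat_lit 157)))) (PT.nd (nat_lit 78) (PT.lf (nat_lit 1900) (nat_lit 6) (nat_lit 25) (nat_lit 3) (nat_lit 157) (nat_lit 134) (nat_lit 159)) (PT.nd (nat_lit 78) (PT.lf (nat_lit 1976) (nat_lit 3) (nat_lit 26) (nat_lit 1) (nat_lit 158)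 (nat_lit 134) (nat_lit 158)) (PT.lf (nat_lit 1900) (nat_lit 6) (nat_lit 25) (nat_lit 1) (nat_lit 159) (nat_lit 134) (nat_lit 157))))) (PT.nd (nat_lit 234) (PT.nd (nat_lit 78) (PT.lf (nat_lit 2052) (nat_lit 6) (nat_lit 27) (nat_lit 3) (nat_lit 156) (nat_lit 135) (nat_lit 159)) (PT.nd (nat_lit 78) (PT.lf (nat_lit 2128) (nat_lit 6) (nat_lit 28) (nat_lit 3) (nat_lit 157) (nat_lit 135) (nat_lit 158)) (PT.lf (nat_lit 2128) (nat_lit 6) (nat_lit 28) (nat_lit 1) (nat_lit 158) (nat_lit 135) (nat_lit 157)))) (PT.nd (nat_lit 46644) (PT.nd (nat_lit 46566) (PT.lf (nat_lit 2052) (nat_lit 6) (nat_lit 27) (nat_lit 1) (nat_lit 159) (nat_lit 135) (nat_lit 156)) (PT.lf (nat_lit 2204) (nat_lit 6) (nat_lit 29) (nat_lit 3) (nat_lit 155) (nat_lit 136) (nat_lit 159))) (PT.nd (nat_lit 78) (PT.lf (nat_lit 2280) (nat_lit 6) (nat_lit 30) (nat_lit 3) (nat_lit 156) (nat_lit 136) (nat_lit 158)) (PT.lf (nat_lit 2356)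 (nat_lit 3) (nat_lit 31) (nat_lit 1) (nat_lit 157) (nat_lit 136) (nat_lit 157))))))))
noncomputable def pc1 : PT := (PT.nd (nat_lit 234156) (PT.nd (nat_lit 140322) (PT.nd (nat_lit 93444) (PT.nd (nat_lit 46722) (PT.nd (nat_lit 78) (PT.lf (nat_lit 2280) (nat_lit 6) (nat_lit 30) (nat_lit 1) (nat_lit 158) (nat_lit 136) (nat_lit 156)) (PT.nd (nat_lit 46566) (PT.lf (nat_lit 2204) (nat_lit 6) (nat_lit 29) (nat_lit 1) (nat_lit 159) (nat_lit 136) (nat_lit 155)) (PT.lf (nat_lit 2432) (nat_lit 6) (nat_lit 32) (nat_lit 3) (nat_lit 155) (nat_lit 137) (nat_lit 158)))) (PT.nd (nat_lit 78) (PT.lf (nat_lit 2508) (nat_lit 6) (nat_lit 33) (nat_lit 3) (nat_lit 156) (nat_lit 137) (nat_lit 157)) (PT.nd (nat_lit 78) (PT.lf (nat_lit 2508) (nat_lit 6) (nat_lit 33) (nat_lit 1) (nat_lit 157) (nat_lit 137) (nat_lit 156)) (PT.lf (nat_lit 2432) (nat_lit 6) (nat_lit 32) (nat_lit 1) (nat_lit 158) (nat_lit 137) (nat_lit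 155))))) (PT.nd (nat_lit 234) (PT.nd (nat_lit 78) (PT.lf (nat_lit 2584) (nat_lit 6) (nat_lit 34) (nat_lit 3) (nat_lit 154) (nat_lit 138) (nat_lit 158)) (PT.nd (nat_lit 78) (PT.lf (nat_lit 2660) (nat_lit 6) (nat_lit 35) (nat_lit 3) (nat_lit 155) (nat_lit 138) (nat_lit 157)) (PT.lf (nat_lit 2736) (nat_lit 3) (nat_lit 36) (nat_lit 1) (nat_lit 156) (nat_lit 138) (nat_lit 156)))) (PT.nd (nat_lit 78) (PT.lf (nat_lit 2660) (nat_lit 6) (nat_lit 35) (nat_lit 1) (nat_lit 157) (nat_lit 138) (nat_lit 155)) (PT.nd (nat_lit 46488) (PT.lf (nat_lit 2584) (nat_lit 6) (nat_lit 34) (nat_lit 1) (nat_lit 158) (nat_lit 138) (nat_lit 154)) (PT.lf (nat_lit 2812) (nat_lit 6) (nat_lit 37) (nat_lit 3) (nat_lit 153) (nat_lit 139) (nat_lit 158)))))) (PT.nd (nat_lit 46878) (PT.nd (nat_lit 234) (PT.nd (nat_lit 78) (PT.lf (nat_lit 2888) (nat_lit 6) (nat_lit 38) (nat_lit 3) (nat_lit 154) (nat_lit 139) (nat_lit 157)) (PT.nd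 (nat_lit 78) (PT.lf (nat_lit 2964) (nat_lit 6) (nat_lit 39) (nat_lit 3) (nat_lit 155) (nat_lit 139) (nat_lit 156)) (PT.lf (nat_lit 2964) (nat_lit 6) (nat_lit 39) (nat_lit 1) (nat_lit 156) (nat_lit 139) (nat_lit 155)))) (PT.nd (nat_lit 78) (PT.lf (nat_lit 2888) (nat_lit 6) (nat_lit 38) (nat_lit 1) (nat_lit 157) (nat_lit 139) (nat_lit 154)) (PT.nd (nat_lit 46488) (PT.lf (nat_lit 2812) (nat_lit 6) (nat_lit 37) (nat_lit 1) (nat_lit 158) (nat_lit 139) (nat_lit 153)) (PT.lf (nat_lit 3040) (nat_lit 6) (nat_lit 40) (nat_lit 3) (nat_lit 153) (nat_lit 140) (nat_lit 157))))) (PT.nd (nat_lit 234) (PT.nd (nat_lit 78) (PT.lf (nat_lit 3116) (nat_lit 6) (nat_lit 41) (nat_lit 3) (nat_lit 154) (nat_lit 140) (nat_lit 156)) (PT.nd (nat_lit 78) (PT.lf (nat_lit 3192) (nat_lit 3) (nat_lit 42) (nat_lit 1) (nat_lit 155) (nat_lit 140) (nat_lit 155)) (PT.lf (nat_lit 3116) (nat_lit 6) (nat_lit 41) (nat_lit 1) (nat_lit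 156) (nat_lit 140) (nat_lit 154)))) (PT.nd (nat_lit 46566) (PT.nd (nat_lit 46488) (PT.lf (nat_lit 3040) (nat_lit 6) (nat_lit 40) (nat_lit 1) (nat_lit 157) (nat_lit 140) (nat_lit 153)) (PT.lf (nat_lit 3268) (nat_lit 6) (nat_lit 43) (nat_lit 3) (nat_lit 152) (nat_lit 141) (nat_lit 157))) (PT.nd (nat_lit 78) (PT.lf (nat_lit 3344) (nat_lit 6) (nat_lit 44) (nat_lit 3) (nat_lit 153) (nat_lit 141) (nat_lit 156)) (PT.lf (nat_lit 3420) (nat_lit 6) (nat_lit 45) (nat_lit 3) (nat_lit 154) (nat_lit 141) (nat_lit 155))))))) (PT.nd (nat_lit 93600) (PT.nd (nat_lit 46800) (PT.nd (nat_lit 46566) (PT.nd (nat_lit 78) (PT.lf (nat_lit 3420) (nat_lit 6) (nat_lit 45) (nat_lit 1) (nat_lit 155) (nat_lit 141) (nat_lit 154)) (PT.nd (nat_lit 78) (PT.lf (nat_lit 3344) (nat_lit 6) (nat_lit 44) (nat_lit 1) (nat_lit 156) (nat_lit 141) (nat_lit 153)) (PT.lf (nat_lit 3268) (nat_lit 6) (nat_lit 43) (nat_lit 1) (nat_lit 157)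 (nat_lit 141) (nat_lit 152)))) (PT.nd (nat_lit 78) (PT.lf (nat_lit 3496) (nat_lit 6) (nat_lit 46) (nat_lit 3) (nat_lit 151) (nat_lit 142) (nat_lit 157)) (PT.nd (nat_lit 78) (PT.lf (nat_lit 3572) (nat_lit 6) (nat_lit 47) (nat_lit 3) (nat_lit 152) (nat_lit 142) (nat_lit 156)) (PT.lf (nat_lit 3648) (nat_lit 6) (nat_lit 48) (nat_lit 3) (nat_lit 153) (nat_lit 142) (nat_lit 155))))) (PT.nd (nat_lit 234) (PT.nd (nat_lit 78) (PT.lf (nat_lit 3724) (nat_lit 3) (nat_lit 49) (nat_lit 1) (nat_lit 154) (nat_lit 142) (nat_lit 154)) (PT.nd (nat_lit 78) (PT.lf (nat_lit 3648) (nat_lit 6) (nat_lit 48) (nat_lit 1) (nat_lit 155) (nat_lit 142) (nat_lit 153)) (PT.lf (nat_lit 3572) (nat_lit 6) (nat_lit 47) (nat_lit 1) (nat_lit 156) (nat_lit 142) (nat_lit 152)))) (PT.nd (nat_lit 46410) (PT.nd (nat_lit 46332) (PT.lf (nat_lit 3496) (nat_lit 6) (nat_lit 46) (nat_lit 1) (nat_lit 157) (nat_lit 142) (nat_lit 151)) (PT.lf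 (nat_lit 3800) (nat_lit 6) (nat_lit 50) (nat_lit 3) (nat_lit 150) (nat_lit 143) (nat_lit 157))) (PT.nd (nat_lit 78) (PT.lf (nat_lit 3876) (nat_lit 6) (nat_lit 51) (nat_lit 3) (nat_lit 151) (nat_lit 143) (nat_lit 156)) (PT.lf (nat_lit 3952) (nat_lit 6) (nat_lit 52) (nat_lit 3) (nat_lit 152) (nat_lit 143) (nat_lit 155)))))) (PT.nd (nat_lit 46722) (PT.nd (nat_lit 234) (PT.nd (nat_lit 78) (PT.lf (nat_lit 4028) (nat_lit 6) (nat_lit 53) (nat_lit 3) (nat_lit 153) (nat_lit 143) (nat_lit 154)) (PT.nd (nat_lit 78) (PT.lf (nat_lit 4028) (nat_lit 6) (nat_lit 53) (nat_lit 1) (nat_lit 154) (nat_lit 143) (nat_lit 153)) (PT.lf (nat_lit 3952) (nat_lit 6) (nat_lit 52) (nat_lit 1) (nat_lit 155) (nat_lit 143) (nat_lit 152)))) (PT.nd (nat_lit 78) (PT.lf (nat_lit 3876) (nat_lit 6) (nat_lit 51) (nat_lit 1) (nat_lit 156) (nat_lit 143) (nat_lit 151)) (PT.nd (nat_lit 46332) (PT.lf (nat_lit 3800) (nat_lit 6) (nat_lit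 50) (nat_lit 1) (nat_lit 157) (nat_lit 143) (nat_lit 150)) (PT.lf (nat_lit 4332) (nat_lit 6) (nat_lit 57) (nat_lit 3) (nat_lit 150) (nat_lit 144) (nat_lit 156))))) (PT.nd (nat_lit 234) (PT.nd (nat_lit 78) (PT.lf (nat_lit 4408) (nat_lit 6) (nat_lit 58) (nat_lit 3) (nat_lit 151) (nat_lit 144) (nat_lit 155)) (PT.nd (nat_lit 78) (PT.lf (nat_lit 4484) (nat_lit 6) (nat_lit 59) (nat_lit 3) (nat_lit 152) (nat_lit 144) (nat_lit 154)) (PT.lf (nat_lit 4560) (nat_lit 3) (nat_lit 60) (nat_lit 1) (nat_lit 153) (nat_lit 144) (nat_lit 153)))) (PT.nd (nat_lit 156) (PT.nd (nat_lit 78) (PT.lf (nat_lit 4484) (nat_lit 6) (nat_lit 59) (nat_lit 1) (nat_lit 154) (nat_lit 144) (nat_lit 152)) (PT.lf (nat_lit 4408) (nat_lit 6) (nat_lit 58) (nat_lit 1) (nat_lit 155) (nat_lit 144) (nat_lit 151))) (PT.nd (nat_lit 46332) (PT.lf (nat_lit 4332) (nat_lit 6) (nat_lit 57) (nat_lit 1) (nat_lit 156) (nat_lit 144) (nat_lit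 150)) (PT.lf (nat_lit 4256) (nat_lit 6) (nat_lit 56) (nat_lit 3) (nat_lit 149) (nat_lit 145) (nat_lit 156))))))))
noncomputable def pc2 : PT := (PT.nd (nat_lit 94224) (PT.nd (nat_lit 47112) (PT.nd (nat_lit 468) (PT.nd (nat_lit 234) (PT.nd (nat_lit 78) (PT.lf (nat_lit 4788) (nat_lit 6) (nat_lit 63) (nat_lit 3) (nat_lit 150) (nat_lit 145) (nat_lit 155)) (PT.nd (nat_lit 78) (PT.lf (nat_lit 4864) (nat_lit 6) (nat_lit 64) (nat_lit 3) (nat_lit 151) (nat_lit 145) (nat_lit 154)) (PT.lf (nat_lit 4940) (nat_lit 6) (nat_lit 65) (nat_lit 3) (nat_lit 152) (nat_lit 145) (nat_lit 153)))) (PT.nd (nat_lit 78) (PT.lf (nat_lit 4940) (nat_lit 6) (nat_lit 65) (nat_lit 1) (nat_lit 153) (nat_lit 145) (nat_lit 152)) (PT.nd (nat_lit 78) (PT.lf (nat_lit 4864) (nat_lit 6) (nat_lit 64) (nat_lit 1) (nat_lit 154) (nat_lit 145) (nat_lit 151)) (PT.lf (nat_lit 4788) (nat_lit 6) (nat_lit 63) (nat_lit 1) (nat_lit 155) (nat_lit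 145) (nat_lit 150))))) (PT.nd (nat_lit 46410) (PT.nd (nat_lit 46254) (PT.lf (nat_lit 4256) (nat_lit 6) (nat_lit 56) (nat_lit 1) (nat_lit 156) (nat_lit 145) (nat_lit 149)) (PT.nd (nat_lit 78) (PT.lf (nat_lit 4180) (nat_lit 6) (nat_lit 55) (nat_lit 3) (nat_lit 148) (nat_lit 146) (nat_lit 156)) (PT.lf (nat_lit 4712) (nat_lit 6) (nat_lit 62) (nat_lit 3) (nat_lit 149) (nat_lit 146) (nat_lit 155)))) (PT.nd (nat_lit 78) (PT.lf (nat_lit 5168) (nat_lit 6) (nat_lit 68) (nat_lit 3) (nat_lit 150) (nat_lit 146) (nat_lit 154)) (PT.nd (nat_lit 78) (PT.lf (nat_lit 5244) (nat_lit 6) (nat_lit 69) (nat_lit 3) (nat_lit 151) (nat_lit 146) (nat_lit 153)) (PT.lf (nat_lit 5320) (nat_lit 3) (nat_lit 70) (nat_lit 1) (nat_lit 152) (nat_lit 146) (nat_lit 152)))))) (PT.nd (nat_lit 46566) (PT.nd (nat_lit 234) (PT.nd (nat_lit 78) (PT.lf (nat_lit 5244) (nat_lit 6) (nat_lit 69) (nat_lit 1) (nat_lit 153) (nat_lit 146)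 (nat_lit 151)) (PT.nd (nat_lit 78) (PT.lf (nat_lit 5168) (nat_lit 6) (nat_lit 68) (nat_lit 1) (nat_lit 154) (nat_lit 146) (nat_lit 150)) (PT.lf (nat_lit 4712) (nat_lit 6) (nat_lit 62) (nat_lit 1) (nat_lit 155) (nat_lit 146) (nat_lit 149)))) (PT.nd (nat_lit 46176) (PT.lf (nat_lit 4180) (nat_lit 6) (nat_lit 55) (nat_lit 1) (nat_lit 156) (nat_lit 146) (nat_lit 148)) (PT.nd (nat_lit 78) (PT.lf (nat_lit 4104) (nat_lit 3) (nat_lit 54) (nat_lit 3) (nat_lit 147) (nat_lit 147) (nat_lit 156)) (PT.lf (nat_lit 4636) (nat_lit 6) (nat_lit 61) (nat_lit 3) (nat_lit 148) (nat_lit 147) (nat_lit 155))))) (PT.nd (nat_lit 234) (PT.nd (nat_lit 78) (PT.lf (nat_lit 5092) (nat_lit 6) (nat_lit 67) (nat_lit 3) (nat_lit 149) (nat_lit 147) (nat_lit 154)) (PT.nd (nat_lit 78) (PT.lf (nat_lit 5472) (nat_lit 6) (nat_lit 72) (nat_lit 3) (nat_lit 150) (nat_lit 147) (nat_lit 153)) (PT.lf (nat_lit 5548) (nat_lit 6) (nat_lit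 73) (nat_lit 3) (nat_lit 151) (nat_lit 147) (nat_lit 152)))) (PT.nd (nat_lit 156) (PT.nd (nat_lit 78) (PT.lf (nat_lit 5548) (nat_lit 6) (nat_lit 73) (nat_lit 1) (nat_lit 152) (nat_lit 147) (nat_lit 151)) (PT.lf (nat_lit 5472) (nat_lit 6) (nat_lit 72) (nat_lit 1) (nat_lit 153) (nat_lit 147) (nat_lit 150))) (PT.nd (nat_lit 78) (PT.lf (nat_lit 5092) (nat_lit 6) (nat_lit 67) (nat_lit 1) (nat_lit 154) (nat_lit 147) (nat_lit 149)) (PT.lf (nat_lit 4636) (nat_lit 6) (nat_lit 61) (nat_lit 1) (nat_lit 155) (nat_lit 147) (nat_lit 148))))))) (PT.nd (nat_lit 92976) (PT.nd (nat_lit 46488) (PT.nd (nat_lit 46254) (PT.nd (nat_lit 46098) (PT.lf (nat_lit 4104) (nat_lit 3) (nat_lit 54) (nat_lit 0) (nat_lit 156) (nat_lit 147) (nat_lit 147)) (PT.nd (nat_lit 78) (PT.lf (nat_lit 4180) (nat_lit 6) (nat_lit 55) (nat_lit 5) (nat_lit 146) (nat_lit 148) (nat_lit 156)) (PT.lf (nat_lit 4636) (nat_lit 6) (nat_lit 61)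 (nat_lit 5) (nat_lit 147) (nat_lit 148) (nat_lit 155)))) (PT.nd (nat_lit 78) (PT.lf (nat_lit 5016) (nat_lit 3) (nat_lit 66) (nat_lit 3) (nat_lit 148) (nat_lit 148) (nat_lit 154)) (PT.nd (nat_lit 78) (PT.lf (nat_lit 5396) (nat_lit 6) (nat_lit 71) (nat_lit 3) (nat_lit 149) (nat_lit 148) (nat_lit 153)) (PT.lf (nat_lit 5700) (nat_lit 6) (nat_lit 75) (nat_lit 3) (nat_lit 150) (nat_lit 148) (nat_lit 152))))) (PT.nd (nat_lit 234) (PT.nd (nat_lit 78) (PT.lf (nat_lit 5776) (nat_lit 3) (nat_lit 76) (nat_lit 1) (nat_lit 151) (nat_lit 148) (nat_lit 151)) (PT.nd (nat_lit 78) (PT.lf (nat_lit 5700) (nat_lit 6) (nat_lit 75) (nat_lit 1) (nat_lit 152) (nat_lit 148) (nat_lit 150)) (PT.lf (nat_lit 5396) (nat_lit 6) (nat_lit 71) (nat_lit 1) (nat_lit 153) (nat_lit 148) (nat_lit 149)))) (PT.nd (nat_lit 156) (PT.nd (nat_lit 78) (PT.lf (nat_lit 5016) (nat_lit 3) (nat_lit 66) (nat_lit 0) (nat_lit 154) (nat_lit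 148) (nat_lit 148)) (PT.lf (nat_lit 4636) (nat_lit 6) (nat_lit 61) (nat_lit 0) (nat_lit 155) (nat_lit 148) (nat_lit 147))) (PT.nd (nat_lit 46020) (PT.lf (nat_lit 4180) (nat_lit 6) (nat_lit 55) (nat_lit 0) (nat_lit 156) (nat_lit 148) (nat_lit 146)) (PT.lf (nat_lit 4256) (nat_lit 6) (nat_lit 56) (nat_lit 5) (nat_lit 145) (nat_lit 149) (nat_lit 156)))))) (PT.nd (nat_lit 468) (PT.nd (nat_lit 234) (PT.nd (nat_lit 78) (PT.lf (nat_lit 4712) (nat_lit 6) (nat_lit 62) (nat_lit 5) (nat_lit 146) (nat_lit 149) (nat_lit 155)) (PT.nd (nat_lit 78) (PT.lf (nat_lit 5092) (nat_lit 6) (nat_lit 67) (nat_lit 5) (nat_lit 147) (nat_lit 149) (nat_lit 154)) (PT.lf (nat_lit 5396) (nat_lit 6) (nat_lit 71) (nat_lit 5) (nat_lit 148) (nat_lit 149) (nat_lit 153)))) (PT.nd (nat_lit 78) (PT.lf (nat_lit 5624) (nat_lit 3) (nat_lit 74) (nat_lit 3) (nat_lit 149) (nat_lit 149) (nat_lit 152)) (PT.nd (nat_lit 78) (PT.lf (nat_lit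 5852) (nat_lit 6) (nat_lit 77) (nat_lit 3) (nat_lit 150) (nat_lit 149) (nat_lit 151)) (PT.lf (nat_lit 5852) (nat_lit 6) (nat_lit 77) (nat_lit 1) (nat_lit 151) (nat_lit 149) (nat_lit 150))))) (PT.nd (nat_lit 234) (PT.nd (nat_lit 78) (PT.lf (nat_lit 5624) (nat_lit 3) (nat_lit 74) (nat_lit 0) (nat_lit 152) (nat_lit 149) (nat_lit 149)) (PT.nd (nat_lit 78) (PT.lf (nat_lit 5396) (nat_lit 6) (nat_lit 71) (nat_lit 0) (nat_lit 153) (nat_lit 149) (nat_lit 148)) (PT.lf (nat_lit 5092) (nat_lit 6) (nat_lit 67) (nat_lit 0) (nat_lit 154) (nat_lit 149) (nat_lit 147)))) (PT.nd (nat_lit 45942) (PT.nd (nat_lit 78) (PT.lf (nat_lit 4712) (nat_lit 6) (nat_lit 62) (nat_lit 0) (nat_lit 155) (nat_lit 149) (nat_lit 146)) (PT.lf (nat_lit 4256) (nat_lit 6) (nat_lit 56) (nat_lit 0) (nat_lit 156) (nat_lit 149) (nat_lit 145))) (PT.nd (nat_lit 78) (PT.lf (nat_lit 3800) (nat_lit 6) (nat_lit 50) (nat_lit 5) (nat_lit 143)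 (nat_lit 150) (nat_lit 157)) (PT.lf (nat_lit 4332) (nat_lit 6) (nat_lit 57) (nat_lit 5) (nat_lit 144) (nat_lit 150) (nat_lit 156))))))))
noncomputable def pc3 : PT := (PT.nd (nat_lit 47580) (PT.nd (nat_lit 936) (PT.nd (nat_lit 468) (PT.nd (nat_lit 234) (PT.nd (nat_lit 78) (PT.lf (nat_lit 4788) (nat_lit 6) (nat_lit 63) (nat_lit 5) (nat_lit 145) (nat_lit 150) (nat_lit 155)) (PT.nd (nat_lit 78) (PT.lf (nat_lit 5168) (nat_lit 6) (nat_lit 68) (nat_lit 5) (nat_lit 146) (nat_lit 150) (nat_lit 154)) (PT.lf (nat_lit 5472) (nat_lit 6) (nat_lit 72) (nat_lit 5) (nat_lit 147) (nat_lit 150) (nat_lit 153)))) (PT.nd (nat_lit 78) (PT.lf (nat_lit 5700) (nat_lit 6) (nat_lit 75) (nat_lit 5) (nat_lit 148) (nat_lit 150) (nat_lit 152)) (PT.nd (nat_lit 78) (PT.lf (nat_lit 5852) (nat_lit 6) (nat_lit 77) (nat_lit 5) (nat_lit 149) (nat_lit 150) (nat_lit 151)) (PT.lf (nat_lit 5928) (nat_lit 1) (nat_lit 78) (nat_lit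 0) (nat_lit 150) (nat_lit 150) (nat_lit 150))))) (PT.nd (nat_lit 234) (PT.nd (nat_lit 78) (PT.lf (nat_lit 5852) (nat_lit 6) (nat_lit 77) (nat_lit 0) (nat_lit 151) (nat_lit 150) (nat_lit 149)) (PT.nd (nat_lit 78) (PT.lf (nat_lit 5700) (nat_lit 6) (nat_lit 75) (nat_lit 0) (nat_lit 152) (nat_lit 150) (nat_lit 148)) (PT.lf (nat_lit 5472) (nat_lit 6) (nat_lit 72) (nat_lit 0) (nat_lit 153) (nat_lit 150) (nat_lit 147)))) (PT.nd (nat_lit 78) (PT.lf (nat_lit 5168) (nat_lit 6) (nat_lit 68) (nat_lit 0) (nat_lit 154) (nat_lit 150) (nat_lit 146)) (PT.nd (nat_lit 78) (PT.lf (nat_lit 4788) (nat_lit 6) (nat_lit 63) (nat_lit 0) (nat_lit 155) (nat_lit 150) (nat_lit 145)) (PT.lf (nat_lit 4332) (nat_lit 6) (nat_lit 57) (nat_lit 0) (nat_lit 156) (nat_lit 150) (nat_lit 144)))))) (PT.nd (nat_lit 46098) (PT.nd (nat_lit 45864) (PT.nd (nat_lit 45708) (PT.lf (nat_lit 3800) (nat_lit 6) (nat_lit 50) (nat_lit 0) (nat_lit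 157) (nat_lit 150) (nat_lit 143)) (PT.nd (nat_lit 78) (PT.lf (nat_lit 3496) (nat_lit 6) (nat_lit 46) (nat_lit 5) (nat_lit 142) (nat_lit 151) (nat_lit 157)) (PT.lf (nat_lit 3876) (nat_lit 6) (nat_lit 51) (nat_lit 5) (nat_lit 143) (nat_lit 151) (nat_lit 156)))) (PT.nd (nat_lit 78) (PT.lf (nat_lit 4408) (nat_lit 6) (nat_lit 58) (nat_lit 5) (nat_lit 144) (nat_lit 151) (nat_lit 155)) (PT.nd (nat_lit 78) (PT.lf (nat_lit 4864) (nat_lit 6) (nat_lit 64) (nat_lit 5) (nat_lit 145) (nat_lit 151) (nat_lit 154)) (PT.lf (nat_lit 5244) (nat_lit 6) (nat_lit 69) (nat_lit 5) (nat_lit 146) (nat_lit 151) (nat_lit 153))))) (PT.nd (nat_lit 234) (PT.nd (nat_lit 78) (PT.lf (nat_lit 5548) (nat_lit 6) (nat_lit 73) (nat_lit 5) (nat_lit 147) (nat_lit 151) (nat_lit 152)) (PT.nd (nat_lit 78) (PT.lf (nat_lit 5776) (nat_lit 3) (nat_lit 76) (nat_lit 4) (nat_lit 148) (nat_lit 151) (nat_lit 151)) (PT.lf (nat_lit 5852) (nat_lit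 6) (nat_lit 77) (nat_lit 4) (nat_lit 149) (nat_lit 151) (nat_lit 150)))) (PT.nd (nat_lit 156) (PT.nd (nat_lit 78) (PT.lf (nat_lit 5852) (nat_lit 6) (nat_lit 77) (nat_lit 2) (nat_lit 150) (nat_lit 151) (nat_lit 149)) (PT.lf (nat_lit 5776) (nat_lit 3) (nat_lit 76) (nat_lit 0) (nat_lit 151) (nat_lit 151) (nat_lit 148))) (PT.nd (nat_lit 78) (PT.lf (nat_lit 5548) (nat_lit 6) (nat_lit 73) (nat_lit 0) (nat_lit 152) (nat_lit 151) (nat_lit 147)) (PT.lf (nat_lit 5244) (nat_lit 6) (nat_lit 69) (nat_lit 0) (nat_lit 153) (nat_lit 151) (nat_lit 146))))))) (PT.nd (nat_lit 46566) (PT.nd (nat_lit 46020) (PT.nd (nat_lit 234) (PT.nd (nat_lit 78) (PT.lf (nat_lit 4864) (nat_lit 6) (nat_lit 64) (nat_lit 0) (nat_lit 154) (nat_lit 151) (nat_lit 145)) (PT.nd (nat_lit 78) (PT.lf (nat_lit 4408) (nat_lit 6) (nat_lit 58) (nat_lit 0) (nat_lit 155) (nat_lit 151) (nat_lit 144)) (PT.lf (nat_lit 3876) (nat_lit 6) (nat_lit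 51) (nat_lit 0) (nat_lit 156) (nat_lit 151) (nat_lit 143)))) (PT.nd (nat_lit 45630) (PT.lf (nat_lit 3496) (nat_lit 6) (nat_lit 46) (nat_lit 0) (nat_lit 157) (nat_lit 151) (nat_lit 142)) (PT.nd (nat_lit 78) (PT.lf (nat_lit 3268) (nat_lit 6) (nat_lit 43) (nat_lit 5) (nat_lit 141) (nat_lit 152) (nat_lit 157)) (PT.lf (nat_lit 3572) (nat_lit 6) (nat_lit 47) (nat_lit 5) (nat_lit 142) (nat_lit 152) (nat_lit 156))))) (PT.nd (nat_lit 234) (PT.nd (nat_lit 78) (PT.lf (nat_lit 3952) (nat_lit 6) (nat_lit 52) (nat_lit 5) (nat_lit 143) (nat_lit 152) (nat_lit 155)) (PT.nd (nat_lit 78) (PT.lf (nat_lit 4484) (nat_lit 6) (nat_lit 59) (nat_lit 5) (nat_lit 144) (nat_lit 152) (nat_lit 154)) (PT.lf (nat_lit 4940) (nat_lit 6) (nat_lit 65) (nat_lit 5) (nat_lit 145) (nat_lit 152) (nat_lit 153)))) (PT.nd (nat_lit 156) (PT.nd (nat_lit 78) (PT.lf (nat_lit 5320) (nat_lit 3) (nat_lit 70) (nat_lit 4) (nat_lit 146) (nat_lit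 152) (nat_lit 152)) (PT.lf (nat_lit 5548) (nat_lit 6) (nat_lit 73) (nat_lit 4) (nat_lit 147) (nat_lit 152) (nat_lit 151))) (PT.nd (nat_lit 78) (PT.lf (nat_lit 5700) (nat_lit 6) (nat_lit 75) (nat_lit 4) (nat_lit 148) (nat_lit 152) (nat_lit 150)) (PT.lf (nat_lit 5624) (nat_lit 3) (nat_lit 74) (nat_lit 2) (nat_lit 149) (nat_lit 152) (nat_lit 149)))))) (PT.nd (nat_lit 468) (PT.nd (nat_lit 234) (PT.nd (nat_lit 78) (PT.lf (nat_lit 5700) (nat_lit 6) (nat_lit 75) (nat_lit 2) (nat_lit 150) (nat_lit 152) (nat_lit 148)) (PT.nd (nat_lit 78) (PT.lf (nat_lit 5548) (nat_lit 6) (nat_lit 73) (nat_lit 2) (nat_lit 151) (nat_lit 152) (nat_lit 147)) (PT.lf (nat_lit 5320) (nat_lit 3) (nat_lit 70) (nat_lit 0) (nat_lit 152) (nat_lit 152) (nat_lit 146)))) (PT.nd (nat_lit 78) (PT.lf (nat_lit 4940) (nat_lit 6) (nat_lit 65) (nat_lit 0) (nat_lit 153) (nat_lit 152) (nat_lit 145)) (PT.nd (nat_lit 78) (PT.lf (nat_lit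 4484) (nat_lit 6) (nat_lit 59) (nat_lit 0) (nat_lit 154) (nat_lit 152) (nat_lit 144)) (PT.lf (nat_lit 3952) (nat_lit 6) (nat_lit 52) (nat_lit 0) (nat_lit 155) (nat_lit 152) (nat_lit 143))))) (PT.nd (nat_lit 45630) (PT.nd (nat_lit 78) (PT.lf (nat_lit 3572) (nat_lit 6) (nat_lit 47) (nat_lit 0) (nat_lit 156) (nat_lit 152) (nat_lit 142)) (PT.nd (nat_lit 45474) (PT.lf (nat_lit 3268) (nat_lit 6) (nat_lit 43) (nat_lit 0) (nat_lit 157) (nat_lit 152) (nat_lit 141)) (PT.lf (nat_lit 2812) (nat_lit 6) (nat_lit 37) (nat_lit 5) (nat_lit 139) (nat_lit 153) (nat_lit 158)))) (PT.nd (nat_lit 156) (PT.nd (nat_lit 78) (PT.lf (nat_lit 3040) (nat_lit 6) (nat_lit 40) (nat_lit 5) (nat_lit 140) (nat_lit 153) (nat_lit 157)) (PT.lf (nat_lit 3344) (nat_lit 6) (nat_lit 44) (nat_lit 5) (nat_lit 141) (nat_lit 153) (nat_lit 156))) (PT.nd (nat_lit 78) (PT.lf (nat_lit 3648) (nat_lit 6) (nat_lit 48) (nat_lit 5) (nat_lit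 142) (nat_lit 153) (nat_lit 155)) (PT.lf (nat_lit 4028) (nat_lit 6) (nat_lit 53) (nat_lit 5) (nat_lit 143) (nat_lit 153) (nat_lit 154))))))))
noncomputable def pc4 : PT := (PT.nd (nat_lit 47190) (PT.nd (nat_lit 936) (PT.nd (nat_lit 468) (PT.nd (nat_lit 234) (PT.nd (nat_lit 78) (PT.lf (nat_lit 4560) (nat_lit 3) (nat_lit 60) (nat_lit 4) (nat_lit 144) (nat_lit 153) (nat_lit 153)) (PT.nd (nat_lit 78) (PT.lf (nat_lit 4940) (nat_lit 6) (nat_lit 65) (nat_lit 4) (nat_lit 145) (nat_lit 153) (nat_lit 152)) (PT.lf (nat_lit 5244) (nat_lit 6) (nat_lit 69) (nat_lit 4) (nat_lit 146) (nat_lit 153) (nat_lit 151)))) (PT.nd (nat_lit 78) (PT.lf (nat_lit 5472) (nat_lit 6) (nat_lit 72) (nat_lit 4) (nat_lit 147) (nat_lit 153) (nat_lit 150)) (PT.nd (nat_lit 78) (PT.lf (nat_lit 5396) (nat_lit 6) (nat_lit 71) (nat_lit 4) (nat_lit 148) (nat_lit 153) (nat_lit 149)) (PT.lf (nat_lit 5396) (nat_lit 6) (nat_lit 71) (nat_lit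 2) (nat_lit 149) (nat_lit 153) (nat_lit 148))))) (PT.nd (nat_lit 234) (PT.nd (nat_lit 78) (PT.lf (nat_lit 5472) (nat_lit 6) (nat_lit 72) (nat_lit 2) (nat_lit 150) (nat_lit 153) (nat_lit 147)) (PT.nd (nat_lit 78) (PT.lf (nat_lit 5244) (nat_lit 6) (nat_lit 69) (nat_lit 2) (nat_lit 151) (nat_lit 153) (nat_lit 146)) (PT.lf (nat_lit 4940) (nat_lit 6) (nat_lit 65) (nat_lit 2) (nat_lit 152) (nat_lit 153) (nat_lit 145)))) (PT.nd (nat_lit 78) (PT.lf (nat_lit 4560) (nat_lit 3) (nat_lit 60) (nat_lit 0) (nat_lit 153) (nat_lit 153) (nat_lit 144)) (PT.nd (nat_lit 78) (PT.lf (nat_lit 4028) (nat_lit 6) (nat_lit 53) (nat_lit 0) (nat_lit 154) (nat_lit 153) (nat_lit 143)) (PT.lf (nat_lit 3648) (nat_lit 6) (nat_lit 48) (nat_lit 0) (nat_lit 155) (nat_lit 153) (nat_lit 142)))))) (PT.nd (nat_lit 45708) (PT.nd (nat_lit 45474) (PT.nd (nat_lit 78) (PT.lf (nat_lit 3344) (nat_lit 6) (nat_lit 44) (nat_lit 0) (nat_lit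 156) (nat_lit 153) (nat_lit 141)) (PT.nd (nat_lit 78) (PT.lf (nat_lit 3040) (nat_lit 6) (nat_lit 40) (nat_lit 0) (nat_lit 157) (nat_lit 153) (nat_lit 140)) (PT.lf (nat_lit 2812) (nat_lit 6) (nat_lit 37) (nat_lit 0) (nat_lit 158) (nat_lit 153) (nat_lit 139)))) (PT.nd (nat_lit 78) (PT.lf (nat_lit 2584) (nat_lit 6) (nat_lit 34) (nat_lit 5) (nat_lit 138) (nat_lit 154) (nat_lit 158)) (PT.nd (nat_lit 78) (PT.lf (nat_lit 2888) (nat_lit 6) (nat_lit 38) (nat_lit 5) (nat_lit 139) (nat_lit 154) (nat_lit 157)) (PT.lf (nat_lit 3116) (nat_lit 6) (nat_lit 41) (nat_lit 5) (nat_lit 140) (nat_lit 154) (nat_lit 156))))) (PT.nd (nat_lit 234) (PT.nd (nat_lit 78) (PT.lf (nat_lit 3420) (nat_lit 6) (nat_lit 45) (nat_lit 5) (nat_lit 141) (nat_lit 154) (nat_lit 155)) (PT.nd (nat_lit 78) (PT.lf (nat_lit 3724) (nat_lit 3) (nat_lit 49) (nat_lit 4) (nat_lit 142) (nat_lit 154) (nat_lit 154)) (PT.lf (nat_lit 4028) (nat_lit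 6) (nat_lit 53) (nat_lit 4) (nat_lit 143) (nat_lit 154) (nat_lit 153)))) (PT.nd (nat_lit 156) (PT.nd (nat_lit 78) (PT.lf (nat_lit 4484) (nat_lit 6) (nat_lit 59) (nat_lit 4) (nat_lit 144) (nat_lit 154) (nat_lit 152)) (PT.lf (nat_lit 4864) (nat_lit 6) (nat_lit 64) (nat_lit 4) (nat_lit 145) (nat_lit 154) (nat_lit 151))) (PT.nd (nat_lit 78) (PT.lf (nat_lit 5168) (nat_lit 6) (nat_lit 68) (nat_lit 4) (nat_lit 146) (nat_lit 154) (nat_lit 150)) (PT.lf (nat_lit 5092) (nat_lit 6) (nat_lit 67) (nat_lit 4) (nat_lit 147) (nat_lit 154) (nat_lit 149))))))) (PT.nd (nat_lit 46020) (PT.nd (nat_lit 468) (PT.nd (nat_lit 234) (PT.nd (nat_lit 78) (PT.lf (nat_lit 5016) (nat_lit 3) (nat_lit 66) (nat_lit 2) (nat_lit 148) (nat_lit 154) (nat_lit 148)) (PT.nd (nat_lit 78) (PT.lf (nat_lit 5092) (nat_lit 6) (nat_lit 67) (nat_lit 2) (nat_lit 149) (nat_lit 154) (nat_lit 147)) (PT.lf (nat_lit 5168) (nat_lit 6) (nat_lit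 68) (nat_lit 2) (nat_lit 150) (nat_lit 154) (nat_lit 146)))) (PT.nd (nat_lit 78) (PT.lf (nat_lit 4864) (nat_lit 6) (nat_lit 64) (nat_lit 2) (nat_lit 151) (nat_lit 154) (nat_lit 145)) (PT.nd (nat_lit 78) (PT.lf (nat_lit 4484) (nat_lit 6) (nat_lit 59) (nat_lit 2) (nat_lit 152) (nat_lit 154) (nat_lit 144)) (PT.lf (nat_lit 4028) (nat_lit 6) (nat_lit 53) (nat_lit 2) (nat_lit 153) (nat_lit 154) (nat_lit 143))))) (PT.nd (nat_lit 234) (PT.nd (nat_lit 78) (PT.lf (nat_lit 3724) (nat_lit 3) (nat_lit 49) (nat_lit 0) (nat_lit 154) (nat_lit 154) (nat_lit 142)) (PT.nd (nat_lit 78) (PT.lf (nat_lit 3420) (nat_lit 6) (nat_lit 45) (nat_lit 0) (nat_lit 155) (nat_lit 154) (nat_lit 141)) (PT.lf (nat_lit 3116) (nat_lit 6) (nat_lit 41) (nat_lit 0) (nat_lit 156) (nat_lit 154) (nat_lit 140)))) (PT.nd (nat_lit 78) (PT.lf (nat_lit 2888) (nat_lit 6) (nat_lit 38) (nat_lit 0) (nat_lit 157) (nat_lit 154) (nat_lit 139))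 (PT.nd (nat_lit 45162) (PT.lf (nat_lit 2584) (nat_lit 6) (nat_lit 34) (nat_lit 0) (nat_lit 158) (nat_lit 154) (nat_lit 138)) (PT.lf (nat_lit 2204) (nat_lit 6) (nat_lit 29) (nat_lit 5) (nat_lit 136) (nat_lit 155) (nat_lit 159)))))) (PT.nd (nat_lit 468) (PT.nd (nat_lit 234) (PT.nd (nat_lit 78) (PT.lf (nat_lit 2432) (nat_lit 6) (nat_lit 32) (nat_lit 5) (nat_lit 137) (nat_lit 155) (nat_lit 158)) (PT.nd (nat_lit 78) (PT.lf (nat_lit 2660) (nat_lit 6) (nat_lit 35) (nat_lit 5) (nat_lit 138) (nat_lit 155) (nat_lit 157)) (PT.lf (nat_lit 2964) (nat_lit 6) (nat_lit 39) (nat_lit 5) (nat_lit 139) (nat_lit 155) (nat_lit 156)))) (PT.nd (nat_lit 78) (PT.lf (nat_lit 3192) (nat_lit 3) (nat_lit 42) (nat_lit 4) (nat_lit 140) (nat_lit 155) (nat_lit 155)) (PT.nd (nat_lit 78) (PT.lf (nat_lit 3420) (nat_lit 6) (nat_lit 45) (nat_lit 4) (nat_lit 141) (nat_lit 155) (nat_lit 154)) (PT.lf (nat_lit 3648) (nat_lit 6)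 (nat_lit 48) (nat_lit 4) (nat_lit 142) (nat_lit 155) (nat_lit 153))))) (PT.nd (nat_lit 234) (PT.nd (nat_lit 78) (PT.lf (nat_lit 3952) (nat_lit 6) (nat_lit 52) (nat_lit 4) (nat_lit 143) (nat_lit 155) (nat_lit 152)) (PT.nd (nat_lit 78) (PT.lf (nat_lit 4408) (nat_lit 6) (nat_lit 58) (nat_lit 4) (nat_lit 144) (nat_lit 155) (nat_lit 151)) (PT.lf (nat_lit 4788) (nat_lit 6) (nat_lit 63) (nat_lit 4) (nat_lit 145) (nat_lit 155) (nat_lit 150)))) (PT.nd (nat_lit 156) (PT.nd (nat_lit 78) (PT.lf (nat_lit 4712) (nat_lit 6) (nat_lit 62) (nat_lit 4) (nat_lit 146) (nat_lit 155) (nat_lit 149)) (PT.lf (nat_lit 4636) (nat_lit 6) (nat_lit 61) (nat_lit 4) (nat_lit 147) (nat_lit 155) (nat_lit 148))) (PT.nd (nat_lit 78) (PT.lf (nat_lit 4636) (nat_lit 6) (nat_lit 61) (nat_lit 2) (nat_lit 148) (nat_lit 155) (nat_lit 147)) (PT.lf (nat_lit 4712) (nat_lit 6) (nat_lit 62) (nat_lit 2) (nat_lit 149) (nat_lit 155) (nat_lit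 146))))))))
noncomputable def pc5 : PT := (PT.nd (nat_lit 46878) (PT.nd (nat_lit 45864) (PT.nd (nat_lit 468) (PT.nd (nat_lit 234) (PT.nd (nat_lit 78) (PT.lf (nat_lit 4788) (nat_lit 6) (nat_lit 63) (nat_lit 2) (nat_lit 150) (nat_lit 155) (nat_lit 145)) (PT.nd (nat_lit 78) (PT.lf (nat_lit 4408) (nat_lit 6) (nat_lit 58) (nat_lit 2) (nat_lit 151) (nat_lit 155) (nat_lit 144)) (PT.lf (nat_lit 3952) (nat_lit 6) (nat_lit 52) (nat_lit 2) (nat_lit 152) (nat_lit 155) (nat_lit 143)))) (PT.nd (nat_lit 78) (PT.lf (nat_lit 3648) (nat_lit 6) (nat_lit 48) (nat_lit 2) (nat_lit 153) (nat_lit 155) (nat_lit 142)) (PT.nd (nat_lit 78) (PT.lf (nat_lit 3420) (nat_lit 6) (nat_lit 45) (nat_lit 2) (nat_lit 154) (nat_lit 155) (nat_lit 141)) (PT.lf (nat_lit 3192) (nat_lit 3) (nat_lit 42) (nat_lit 0) (nat_lit 155) (nat_lit 155) (nat_lit 140))))) (PT.nd (nat_lit 234) (PT.nd (nat_lit 78) (PT.lf (nat_lit 2964) (nat_lit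 6) (nat_lit 39) (nat_lit 0) (nat_lit 156) (nat_lit 155) (nat_lit 139)) (PT.nd (nat_lit 78) (PT.lf (nat_lit 2660) (nat_lit 6) (nat_lit 35) (nat_lit 0) (nat_lit 157) (nat_lit 155) (nat_lit 138)) (PT.lf (nat_lit 2432) (nat_lit 6) (nat_lit 32) (nat_lit 0) (nat_lit 158) (nat_lit 155) (nat_lit 137)))) (PT.nd (nat_lit 45006) (PT.lf (nat_lit 2204) (nat_lit 6) (nat_lit 29) (nat_lit 0) (nat_lit 159) (nat_lit 155) (nat_lit 136)) (PT.nd (nat_lit 78) (PT.lf (nat_lit 2052) (nat_lit 6) (nat_lit 27) (nat_lit 5) (nat_lit 135) (nat_lit 156) (nat_lit 159)) (PT.lf (nat_lit 2280) (nat_lit 6) (nat_lit 30) (nat_lit 5) (nat_lit 136) (nat_lit 156) (nat_lit 158)))))) (PT.nd (nat_lit 468) (PT.nd (nat_lit 234) (PT.nd (nat_lit 78) (PT.lf (nat_lit 2508) (nat_lit 6) (nat_lit 33) (nat_lit 5) (nat_lit 137) (nat_lit 156) (nat_lit 157)) (PT.nd (nat_lit 78) (PT.lf (nat_lit 2736) (nat_lit 3) (nat_lit 36) (nat_lit 4) (nat_lit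 138) (nat_lit 156) (nat_lit 156)) (PT.lf (nat_lit 2964) (nat_lit 6) (nat_lit 39) (nat_lit 4) (nat_lit 139) (nat_lit 156) (nat_lit 155)))) (PT.nd (nat_lit 78) (PT.lf (nat_lit 3116) (nat_lit 6) (nat_lit 41) (nat_lit 4) (nat_lit 140) (nat_lit 156) (nat_lit 154)) (PT.nd (nat_lit 78) (PT.lf (nat_lit 3344) (nat_lit 6) (nat_lit 44) (nat_lit 4) (nat_lit 141) (nat_lit 156) (nat_lit 153)) (PT.lf (nat_lit 3572) (nat_lit 6) (nat_lit 47) (nat_lit 4) (nat_lit 142) (nat_lit 156) (nat_lit 152))))) (PT.nd (nat_lit 234) (PT.nd (nat_lit 78) (PT.lf (nat_lit 3876) (nat_lit 6) (nat_lit 51) (nat_lit 4) (nat_lit 143) (nat_lit 156) (nat_lit 151)) (PT.nd (nat_lit 78) (PT.lf (nat_lit 4332) (nat_lit 6) (nat_lit 57) (nat_lit 4) (nat_lit 144) (nat_lit 156) (nat_lit 150)) (PT.lf (nat_lit 4256) (nat_lit 6) (nat_lit 56) (nat_lit 4) (nat_lit 145) (nat_lit 156) (nat_lit 149)))) (PT.nd (nat_lit 156) (PT.nd (nat_lit 78) (PT.lf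 (nat_lit 4180) (nat_lit 6) (nat_lit 55) (nat_lit 4) (nat_lit 146) (nat_lit 156) (nat_lit 148)) (PT.lf (nat_lit 4104) (nat_lit 3) (nat_lit 54) (nat_lit 2) (nat_lit 147) (nat_lit 156) (nat_lit 147))) (PT.nd (nat_lit 78) (PT.lf (nat_lit 4180) (nat_lit 6) (nat_lit 55) (nat_lit 2) (nat_lit 148) (nat_lit 156) (nat_lit 146)) (PT.lf (nat_lit 4256) (nat_lit 6) (nat_lit 56) (nat_lit 2) (nat_lit 149) (nat_lit 156) (nat_lit 145))))))) (PT.nd (nat_lit 45786) (PT.nd (nat_lit 468) (PT.nd (nat_lit 234) (PT.nd (nat_lit 78) (PT.lf (nat_lit 4332) (nat_lit 6) (nat_lit 57) (nat_lit 2) (nat_lit 150) (nat_lit 156) (nat_lit 144)) (PT.nd (nat_lit 78) (PT.lf (nat_lit 3876) (nat_lit 6) (nat_lit 51) (nat_lit 2) (nat_lit 151) (nat_lit 156) (nat_lit 143)) (PT.lf (nat_lit 3572) (nat_lit 6) (nat_lit 47) (nat_lit 2) (nat_lit 152) (nat_lit 156) (nat_lit 142)))) (PT.nd (nat_lit 78) (PT.lf (nat_lit 3344) (nat_lit 6) (nat_lit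 44) (nat_lit 2) (nat_lit 153) (nat_lit 156) (nat_lit 141)) (PT.nd (nat_lit 78) (PT.lf (nat_lit 3116) (nat_lit 6) (nat_lit 41) (nat_lit 2) (nat_lit 154) (nat_lit 156) (nat_lit 140)) (PT.lf (nat_lit 2964) (nat_lit 6) (nat_lit 39) (nat_lit 2) (nat_lit 155) (nat_lit 156) (nat_lit 139))))) (PT.nd (nat_lit 234) (PT.nd (nat_lit 78) (PT.lf (nat_lit 2736) (nat_lit 3) (nat_lit 36) (nat_lit 0) (nat_lit 156) (nat_lit 156) (nat_lit 138)) (PT.nd (nat_lit 78) (PT.lf (nat_lit 2508) (nat_lit 6) (nat_lit 33) (nat_lit 0) (nat_lit 157) (nat_lit 156) (nat_lit 137)) (PT.lf (nat_lit 2280) (nat_lit 6) (nat_lit 30) (nat_lit 0) (nat_lit 158) (nat_lit 156) (nat_lit 136)))) (PT.nd (nat_lit 44928) (PT.nd (nat_lit 44850) (PT.lf (nat_lit 2052) (nat_lit 6) (nat_lit 27) (nat_lit 0) (nat_lit 159) (nat_lit 156) (nat_lit 135)) (PT.lf (nat_lit 1748) (nat_lit 6) (nat_lit 23) (nat_lit 5) (nat_lit 133) (nat_lit 157) (nat_lit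 160))) (PT.nd (nat_lit 78) (PT.lf (nat_lit 1900) (nat_lit 6) (nat_lit 25) (nat_lit 5) (nat_lit 134) (nat_lit 157) (nat_lit 159)) (PT.lf (nat_lit 2128) (nat_lit 6) (nat_lit 28) (nat_lit 5) (nat_lit 135) (nat_lit 157) (nat_lit 158)))))) (PT.nd (nat_lit 468) (PT.nd (nat_lit 234) (PT.nd (nat_lit 78) (PT.lf (nat_lit 2356) (nat_lit 3) (nat_lit 31) (nat_lit 4) (nat_lit 136) (nat_lit 157) (nat_lit 157)) (PT.nd (nat_lit 78) (PT.lf (nat_lit 2508) (nat_lit 6) (nat_lit 33) (nat_lit 4) (nat_lit 137) (nat_lit 157) (nat_lit 156)) (PT.lf (nat_lit 2660) (nat_lit 6) (nat_lit 35) (nat_lit 4) (nat_lit 138) (nat_lit 157) (nat_lit 155)))) (PT.nd (nat_lit 78) (PT.lf (nat_lit 2888) (nat_lit 6) (nat_lit 38) (nat_lit 4) (nat_lit 139) (nat_lit 157) (nat_lit 154)) (PT.nd (nat_lit 78) (PT.lf (nat_lit 3040) (nat_lit 6) (nat_lit 40) (nat_lit 4) (nat_lit 140) (nat_lit 157) (nat_lit 153)) (PT.lf (nat_lit 3268) (nat_lit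 6) (nat_lit 43) (nat_lit 4) (nat_lit 141) (nat_lit 157) (nat_lit 152))))) (PT.nd (nat_lit 702) (PT.nd (nat_lit 78) (PT.lf (nat_lit 3496) (nat_lit 6) (nat_lit 46) (nat_lit 4) (nat_lit 142) (nat_lit 157) (nat_lit 151)) (PT.nd (nat_lit 546) (PT.lf (nat_lit 3800) (nat_lit 6) (nat_lit 50) (nat_lit 4) (nat_lit 143) (nat_lit 157) (nat_lit 150)) (PT.lf (nat_lit 3800) (nat_lit 6) (nat_lit 50) (nat_lit 2) (nat_lit 150) (nat_lit 157) (nat_lit 143)))) (PT.nd (nat_lit 156) (PT.nd (nat_lit 78) (PT.lf (nat_lit 3496) (nat_lit 6) (nat_lit 46) (nat_lit 2) (nat_lit 151) (nat_lit 157) (nat_lit 142)) (PT.lf (nat_lit 3268) (nat_lit 6) (nat_lit 43) (nat_lit 2) (nat_lit 152) (nat_lit 157) (nat_lit 141))) (PT.nd (nat_lit 78) (PT.lf (nat_lit 3040) (nat_lit 6) (nat_lit 40) (nat_lit 2) (nat_lit 153) (nat_lit 157) (nat_lit 140)) (PT.lf (nat_lit 2888) (nat_lit 6) (nat_lit 38) (nat_lit 2) (nat_lit 154) (nat_lit 157)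 (nat_lit 139))))))))
noncomputable def pc6 : PT := (PT.nd (nat_lit 92040) (PT.nd (nat_lit 45552) (PT.nd (nat_lit 45084) (PT.nd (nat_lit 234) (PT.nd (nat_lit 78) (PT.lf (nat_lit 2660) (nat_lit 6) (nat_lit 35) (nat_lit 2) (nat_lit 155) (nat_lit 157) (nat_lit 138)) (PT.nd (nat_lit 78) (PT.lf (nat_lit 2508) (nat_lit 6) (nat_lit 33) (nat_lit 2) (nat_lit 156) (nat_lit 157) (nat_lit 137)) (PT.lf (nat_lit 2356) (nat_lit 3) (nat_lit 31) (nat_lit 0) (nat_lit 157) (nat_lit 157) (nat_lit 136)))) (PT.nd (nat_lit 78) (PT.lf (nat_lit 2128) (nat_lit 6) (nat_lit 28) (nat_lit 0) (nat_lit 158) (nat_lit 157) (nat_lit 135)) (PT.nd (nat_lit 78) (PT.lf (nat_lit 1900) (nat_lit 6) (nat_lit 25) (nat_lit 0) (nat_lit 159) (nat_lit 157) (nat_lit 134)) (PT.lf (nat_lit 1748) (nat_lit 6) (nat_lit 23) (nat_lit 0) (nat_lit 160) (nat_lit 157) (nat_lit 133))))) (PT.nd (nat_lit 234) (PT.nd (nat_lit 78) (PT.lf (nat_lit 1596)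 (nat_lit 6) (nat_lit 21) (nat_lit 5) (nat_lit 132) (nat_lit 158) (nat_lit 160)) (PT.nd (nat_lit 78) (PT.lf (nat_lit 1824) (nat_lit 6) (nat_lit 24) (nat_lit 5) (nat_lit 133) (nat_lit 158) (nat_lit 159)) (PT.lf (nat_lit 1976) (nat_lit 3) (nat_lit 26) (nat_lit 4) (nat_lit 134) (nat_lit 158) (nat_lit 158)))) (PT.nd (nat_lit 78) (PT.lf (nat_lit 2128) (nat_lit 6) (nat_lit 28) (nat_lit 4) (nat_lit 135) (nat_lit 158) (nat_lit 157)) (PT.nd (nat_lit 78) (PT.lf (nat_lit 2280) (nat_lit 6) (nat_lit 30) (nat_lit 4) (nat_lit 136) (nat_lit 158) (nat_lit 156)) (PT.lf (nat_lit 2432) (nat_lit 6) (nat_lit 32) (nat_lit 4) (nat_lit 137) (nat_lit 158) (nat_lit 155)))))) (PT.nd (nat_lit 1482) (PT.nd (nat_lit 1248) (PT.nd (nat_lit 78) (PT.lf (nat_lit 2584) (nat_lit 6) (nat_lit 34) (nat_lit 4) (nat_lit 138) (nat_lit 158) (nat_lit 154)) (PT.nd (nat_lit 1092) (PT.lf (nat_lit 2812) (nat_lit 6) (nat_lit 37) (nat_lit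 4) (nat_lit 139) (nat_lit 158) (nat_lit 153)) (PT.lf (nat_lit 2812) (nat_lit 6) (nat_lit 37) (nat_lit 2) (nat_lit 153) (nat_lit 158) (nat_lit 139)))) (PT.nd (nat_lit 78) (PT.lf (nat_lit 2584) (nat_lit 6) (nat_lit 34) (nat_lit 2) (nat_lit 154) (nat_lit 158) (nat_lit 138)) (PT.nd (nat_lit 78) (PT.lf (nat_lit 2432) (nat_lit 6) (nat_lit 32) (nat_lit 2) (nat_lit 155) (nat_lit 158) (nat_lit 137)) (PT.lf (nat_lit 2280) (nat_lit 6) (nat_lit 30) (nat_lit 2) (nat_lit 156) (nat_lit 158) (nat_lit 136))))) (PT.nd (nat_lit 234) (PT.nd (nat_lit 78) (PT.lf (nat_lit 2128) (nat_lit 6) (nat_lit 28) (nat_lit 2) (nat_lit 157) (nat_lit 158) (nat_lit 135)) (PT.nd (nat_lit 78) (PT.lf (nat_lit 1976) (nat_lit 3) (nat_lit 26) (nat_lit 0) (nat_lit 158) (nat_lit 158) (nat_lit 134)) (PT.lf (nat_lit 1824) (nat_lit 6) (nat_lit 24) (nat_lit 0) (nat_lit 159) (nat_lit 158) (nat_lit 133)))) (PT.nd (nat_lit 44616) (PT.nd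 (nat_lit 44538) (PT.lf (nat_lit 1596) (nat_lit 6) (nat_lit 21) (nat_lit 0) (nat_lit 160) (nat_lit 158) (nat_lit 132)) (PT.lf (nat_lit 1368) (nat_lit 6) (nat_lit 18) (nat_lit 5) (nat_lit 130) (nat_lit 159) (nat_lit 161))) (PT.nd (nat_lit 78) (PT.lf (nat_lit 1520) (nat_lit 6) (nat_lit 20) (nat_lit 5) (nat_lit 131) (nat_lit 159) (nat_lit 160)) (PT.lf (nat_lit 1672) (nat_lit 3) (nat_lit 22) (nat_lit 4) (nat_lit 132) (nat_lit 159) (nat_lit 159))))))) (PT.nd (nat_lit 46644) (PT.nd (nat_lit 1872) (PT.nd (nat_lit 234) (PT.nd (nat_lit 78) (PT.lf (nat_lit 1824) (nat_lit 6) (nat_lit 24) (nat_lit 4) (nat_lit 133) (nat_lit 159) (nat_lit 158)) (PT.nd (nat_lit 78) (PT.lf (nat_lit 1900) (nat_lit 6) (nat_lit 25) (nat_lit 4) (nat_lit 134) (nat_lit 159) (nat_lit 157)) (PT.lf (nat_lit 2052) (nat_lit 6) (nat_lit 27) (nat_lit 4) (nat_lit 135) (nat_lit 159) (nat_lit 156)))) (PT.nd (nat_lit 1482) (PT.lf (nat_lit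 2204) (nat_lit 6) (nat_lit 29) (nat_lit 4) (nat_lit 136) (nat_lit 159) (nat_lit 155)) (PT.nd (nat_lit 78) (PT.lf (nat_lit 2204) (nat_lit 6) (nat_lit 29) (nat_lit 2) (nat_lit 155) (nat_lit 159) (nat_lit 136)) (PT.lf (nat_lit 2052) (nat_lit 6) (nat_lit 27) (nat_lit 2) (nat_lit 156) (nat_lit 159) (nat_lit 135))))) (PT.nd (nat_lit 234) (PT.nd (nat_lit 78) (PT.lf (nat_lit 1900) (nat_lit 6) (nat_lit 25) (nat_lit 2) (nat_lit 157) (nat_lit 159) (nat_lit 134)) (PT.nd (nat_lit 78) (PT.lf (nat_lit 1824) (nat_lit 6) (nat_lit 24) (nat_lit 2) (nat_lit 158) (nat_lit 159) (nat_lit 133)) (PT.lf (nat_lit 1672) (nat_lit 3) (nat_lit 22) (nat_lit 0) (nat_lit 159) (nat_lit 159) (nat_lit 132)))) (PT.nd (nat_lit 44382) (PT.nd (nat_lit 78) (PT.lf (nat_lit 1520) (nat_lit 6) (nat_lit 20) (nat_lit 0) (nat_lit 160) (nat_lit 159) (nat_lit 131)) (PT.lf (nat_lit 1368) (nat_lit 6) (nat_lit 18) (nat_lit 0) (nat_lit 161)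 (nat_lit 159) (nat_lit 130))) (PT.nd (nat_lit 78) (PT.lf (nat_lit 1140) (nat_lit 6) (nat_lit 15) (nat_lit 5) (nat_lit 128) (nat_lit 160) (nat_lit 162)) (PT.lf (nat_lit 1292) (nat_lit 6) (nat_lit 17) (nat_lit 5) (nat_lit 129) (nat_lit 160) (nat_lit 161)))))) (PT.nd (nat_lit 2262) (PT.nd (nat_lit 234) (PT.nd (nat_lit 78) (PT.lf (nat_lit 1444) (nat_lit 3) (nat_lit 19) (nat_lit 4) (nat_lit 130) (nat_lit 160) (nat_lit 160)) (PT.nd (nat_lit 78) (PT.lf (nat_lit 1520) (nat_lit 6) (nat_lit 20) (nat_lit 4) (nat_lit 131) (nat_lit 160) (nat_lit 159)) (PT.lf (nat_lit 1596) (nat_lit 6) (nat_lit 21) (nat_lit 4) (nat_lit 132) (nat_lit 160) (nat_lit 158)))) (PT.nd (nat_lit 1872) (PT.lf (nat_lit 1748) (nat_lit 6) (nat_lit 23) (nat_lit 4) (nat_lit 133) (nat_lit 160) (nat_lit 157)) (PT.nd (nat_lit 78) (PT.lf (nat_lit 1748) (nat_lit 6) (nat_lit 23) (nat_lit 2) (nat_lit 157) (nat_lit 160) (nat_lit 133)) (PT.lf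 (nat_lit 1596) (nat_lit 6) (nat_lit 21) (nat_lit 2) (nat_lit 158) (nat_lit 160) (nat_lit 132))))) (PT.nd (nat_lit 234) (PT.nd (nat_lit 78) (PT.lf (nat_lit 1520) (nat_lit 6) (nat_lit 20) (nat_lit 2) (nat_lit 159) (nat_lit 160) (nat_lit 131)) (PT.nd (nat_lit 78) (PT.lf (nat_lit 1444) (nat_lit 3) (nat_lit 19) (nat_lit 0) (nat_lit 160) (nat_lit 160) (nat_lit 130)) (PT.lf (nat_lit 1292) (nat_lit 6) (nat_lit 17) (nat_lit 0) (nat_lit 161) (nat_lit 160) (nat_lit 129)))) (PT.nd (nat_lit 44148) (PT.nd (nat_lit 44070) (PT.lf (nat_lit 1140) (nat_lit 6) (nat_lit 15) (nat_lit 0) (nat_lit 162) (nat_lit 160) (nat_lit 128)) (PT.lf (nat_lit 912) (nat_lit 6) (nat_lit 12) (nat_lit 5) (nat_lit 126) (nat_lit 161) (nat_lit 163))) (PT.nd (nat_lit 78) (PT.lf (nat_lit 1064) (nat_lit 6) (nat_lit 14) (nat_lit 5) (nat_lit 127) (nat_lit 161) (nat_lit 162)) (PT.lf (nat_lit 1216) (nat_lit 3) (nat_lit 16) (nat_lit 4)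 (nat_lit 128) (nat_lit 161) (nat_lit 161))))))))
noncomputable def pc7 : PT := (PT.nd (nat_lit 96486) (PT.nd (nat_lit 49296) (PT.nd (nat_lit 2652) (PT.nd (nat_lit 2418) (PT.nd (nat_lit 78) (PT.lf (nat_lit 1292) (nat_lit 6) (nat_lit 17) (nat_lit 4) (nat_lit 129) (nat_lit 161) (nat_lit 160)) (PT.nd (nat_lit 2262) (PT.lf (nat_lit 1368) (nat_lit 6) (nat_lit 18) (nat_lit 4) (nat_lit 130) (nat_lit 161) (nat_lit 159)) (PT.lf (nat_lit 1368) (nat_lit 6) (nat_lit 18) (nat_lit 2) (nat_lit 159) (nat_lit 161) (nat_lit 130)))) (PT.nd (nat_lit 78) (PT.lf (nat_lit 1292) (nat_lit 6) (nat_lit 17) (nat_lit 2) (nat_lit 160) (nat_lit 161) (nat_lit 129)) (PT.nd (nat_lit 78) (PT.lf (nat_lit 1216) (nat_lit 3) (nat_lit 16) (nat_lit 0) (nat_lit 161) (nat_lit 161) (nat_lit 128)) (PT.lf (nat_lit 1064) (nat_lit 6) (nat_lit 14) (nat_lit 0) (nat_lit 162) (nat_lit 161) (nat_lit 127))))) (PT.nd (nat_lit 43992) (PT.nd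 (nat_lit 43836) (PT.lf (nat_lit 912) (nat_lit 6) (nat_lit 12) (nat_lit 0) (nat_lit 163) (nat_lit 161) (nat_lit 126)) (PT.nd (nat_lit 78) (PT.lf (nat_lit 684) (nat_lit 6) (nat_lit 9) (nat_lit 5) (nat_lit 124) (nat_lit 162) (nat_lit 164)) (PT.lf (nat_lit 836) (nat_lit 6) (nat_lit 11) (nat_lit 5) (nat_lit 125) (nat_lit 162) (nat_lit 163)))) (PT.nd (nat_lit 78) (PT.lf (nat_lit 988) (nat_lit 3) (nat_lit 13) (nat_lit 4) (nat_lit 126) (nat_lit 162) (nat_lit 162)) (PT.nd (nat_lit 78) (PT.lf (nat_lit 1064) (nat_lit 6) (nat_lit 14) (nat_lit 4) (nat_lit 127) (nat_lit 162) (nat_lit 161)) (PT.lf (nat_lit 1140) (nat_lit 6) (nat_lit 15) (nat_lit 4) (nat_lit 128) (nat_lit 162) (nat_lit 160)))))) (PT.nd (nat_lit 43992) (PT.nd (nat_lit 234) (PT.nd (nat_lit 78) (PT.lf (nat_lit 1140) (nat_lit 6) (nat_lit 15) (nat_lit 2) (nat_lit 160) (nat_lit 162) (nat_lit 128)) (PT.nd (nat_lit 78) (PT.lf (nat_lit 1064) (nat_lit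 6) (nat_lit 14) (nat_lit 2) (nat_lit 161) (nat_lit 162) (nat_lit 127)) (PT.lf (nat_lit 988) (nat_lit 3) (nat_lit 13) (nat_lit 0) (nat_lit 162) (nat_lit 162) (nat_lit 126)))) (PT.nd (nat_lit 78) (PT.lf (nat_lit 836) (nat_lit 6) (nat_lit 11) (nat_lit 0) (nat_lit 163) (nat_lit 162) (nat_lit 125)) (PT.nd (nat_lit 43602) (PT.lf (nat_lit 684) (nat_lit 6) (nat_lit 9) (nat_lit 0) (nat_lit 164) (nat_lit 162) (nat_lit 124)) (PT.lf (nat_lit 456) (nat_lit 6) (nat_lit 6) (nat_lit 5) (nat_lit 122) (nat_lit 163) (nat_lit 165))))) (PT.nd (nat_lit 234) (PT.nd (nat_lit 78) (PT.lf (nat_lit 608) (nat_lit 6) (nat_lit 8) (nat_lit 5) (nat_lit 123) (nat_lit 163) (nat_lit 164)) (PT.nd (nat_lit 78) (PT.lf (nat_lit 760) (nat_lit 3) (nat_lit 10) (nat_lit 4) (nat_lit 124) (nat_lit 163) (nat_lit 163)) (PT.lf (nat_lit 836) (nat_lit 6) (nat_lit 11) (nat_lit 4) (nat_lit 125) (nat_lit 163) (nat_lit 162)))) (PT.nd (nat_lit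 2808) (PT.nd (nat_lit 2730) (PT.lf (nat_lit 912) (nat_lit 6) (nat_lit 12) (nat_lit 4) (nat_lit 126) (nat_lit 163) (nat_lit 161)) (PT.lf (nat_lit 912) (nat_lit 6) (nat_lit 12) (nat_lit 2) (nat_lit 161) (nat_lit 163) (nat_lit 126))) (PT.nd (nat_lit 78) (PT.lf (nat_lit 836) (nat_lit 6) (nat_lit 11) (nat_lit 2) (nat_lit 162) (nat_lit 163) (nat_lit 125)) (PT.lf (nat_lit 760) (nat_lit 3) (nat_lit 10) (nat_lit 0) (nat_lit 163) (nat_lit 163) (nat_lit 124))))))) (PT.nd (nat_lit 90324) (PT.nd (nat_lit 43758) (PT.nd (nat_lit 43524) (PT.nd (nat_lit 78) (PT.lf (nat_lit 608) (nat_lit 6) (nat_lit 8) (nat_lit 0) (nat_lit 164) (nat_lit 163) (nat_lit 123)) (PT.nd (nat_lit 43368) (PT.lf (nat_lit 456) (nat_lit 6) (nat_lit 6) (nat_lit 0) (nat_lit 165) (nat_lit 163) (nat_lit 122)) (PT.lf (nat_lit 228) (nat_lit 6) (nat_lit 3) (nat_lit 5) (nat_lit 120) (nat_lit 164) (nat_lit 166)))) (PT.nd (nat_lit 78) (PT.lf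 (nat_lit 380) (nat_lit 6) (nat_lit 5) (nat_lit 5) (nat_lit 121) (nat_lit 164) (nat_lit 165)) (PT.nd (nat_lit 78) (PT.lf (nat_lit 532) (nat_lit 3) (nat_lit 7) (nat_lit 4) (nat_lit 122) (nat_lit 164) (nat_lit 164)) (PT.lf (nat_lit 608) (nat_lit 6) (nat_lit 8) (nat_lit 4) (nat_lit 123) (nat_lit 164) (nat_lit 163))))) (PT.nd (nat_lit 3120) (PT.nd (nat_lit 2964) (PT.lf (nat_lit 684) (nat_lit 6) (nat_lit 9) (nat_lit 4) (nat_lit 124) (nat_lit 164) (nat_lit 162)) (PT.nd (nat_lit 78) (PT.lf (nat_lit 684) (nat_lit 6) (nat_lit 9) (nat_lit 2) (nat_lit 162) (nat_lit 164) (nat_lit 124)) (PT.lf (nat_lit 608) (nat_lit 6) (nat_lit 8) (nat_lit 2) (nat_lit 163) (nat_lit 164) (nat_lit 123)))) (PT.nd (nat_lit 156) (PT.nd (nat_lit 78) (PT.lf (nat_lit 532) (nat_lit 3) (nat_lit 7) (nat_lit 0) (nat_lit 164) (nat_lit 164) (nat_lit 122)) (PT.lf (nat_lit 380) (nat_lit 6) (nat_lit 5) (nat_lit 0) (nat_lit 165) (nat_lit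 164) (nat_lit 121))) (PT.nd (nat_lit 43212) (PT.lf (nat_lit 228) (nat_lit 6) (nat_lit 3) (nat_lit 0) (nat_lit 166) (nat_lit 164) (nat_lit 120)) (PT.lf (nat_lit 152) (nat_lit 6) (nat_lit 2) (nat_lit 5) (nat_lit 119) (nat_lit 165) (nat_lit 166)))))) (PT.nd (nat_lit 3588) (PT.nd (nat_lit 3354) (PT.nd (nat_lit 78) (PT.lf (nat_lit 304) (nat_lit 3) (nat_lit 4) (nat_lit 4) (nat_lit 120) (nat_lit 165) (nat_lit 165)) (PT.nd (nat_lit 78) (PT.lf (nat_lit 380) (nat_lit 6) (nat_lit 5) (nat_lit 4) (nat_lit 121) (nat_lit 165) (nat_lit 164)) (PT.lf (nat_lit 456) (nat_lit 6) (nat_lit 6) (nat_lit 4) (nat_lit 122) (nat_lit 165) (nat_lit 163)))) (PT.nd (nat_lit 78) (PT.lf (nat_lit 456) (nat_lit 6) (nat_lit 6) (nat_lit 2) (nat_lit 163) (nat_lit 165) (nat_lit 122)) (PT.nd (nat_lit 78) (PT.lf (nat_lit 380) (nat_lit 6) (nat_lit 5) (nat_lit 2) (nat_lit 164) (nat_lit 165) (nat_lit 121)) (PT.lf (nat_lit 304) (nat_lit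 3) (nat_lit 4) (nat_lit 0) (nat_lit 165) (nat_lit 165) (nat_lit 120))))) (PT.nd (nat_lit 43290) (PT.nd (nat_lit 43134) (PT.lf (nat_lit 152) (nat_lit 6) (nat_lit 2) (nat_lit 0) (nat_lit 166) (nat_lit 165) (nat_lit 119)) (PT.nd (nat_lit 78) (PT.lf (nat_lit 76) (nat_lit 3) (nat_lit 1) (nat_lit 4) (nat_lit 118) (nat_lit 166) (nat_lit 166)) (PT.lf (nat_lit 152) (nat_lit 6) (nat_lit 2) (nat_lit 4) (nat_lit 119) (nat_lit 166) (nat_lit 165)))) (PT.nd (nat_lit 3510) (PT.nd (nat_lit 3432) (PT.lf (nat_lit 228) (nat_lit 6) (nat_lit 3) (nat_lit 4) (nat_lit 120) (nat_lit 166) (nat_lit 164)) (PT.lf (nat_lit 228) (nat_lit 6) (nat_lit 3) (nat_lit 2) (nat_lit 164) (nat_lit 166) (nat_lit 120))) (PT.nd (nat_lit 78) (PT.lf (nat_lit 152) (nat_lit 6) (nat_lit 2) (nat_lit 2) (nat_lit 165) (nat_lit 166) (nat_lit 119)) (PT.lf (nat_lit 76) (nat_lit 3) (nat_lit 1) (nat_lit 0) (nat_lit 166) (nat_lit 166) (nat_lit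 118))))))))
noncomputable def xc0 : XT := (XT.nd (nat_lit 140556) (nat_lit 0) (nat_lit 0) (XT.nd (nat_lit 93600) (nat_lit 0) (nat_lit 0) (XT.nd (nat_lit 46878) (nat_lit 0) (nat_lit 0) (XT.nd (nat_lit 46722) (nat_lit 0) (nat_lit 0) (XT.nd (nat_lit 78) (nat_lit 0) (nat_lit 0) (XT.lf (nat_lit 0) (nat_lit 853537194419) (nat_lit 76) (nat_lit 1112965238420) (nat_lit 76) (nat_lit 1112965238420) (nat_lit 1) (nat_lit 4) (nat_lit 2) (nat_lit 5) (nat_lit 2) (nat_lit 4) (nat_lit 414) (nat_lit 243) (nat_lit 243)) (XT.lf (nat_lit 0) (nat_lit 1844521332048) (nat_lit 76) (nat_lit 2403552371185) (nat_lit 76) (nat_lit 2403541141742) (nat_lit 1) (nat_lit 4) (nat_lit 2) (nat_lit 5) (nat_lit 2) (nat_lit 4) (nat_lit 415) (nat_lit 243) (nat_lit 242))) (XT.nd (nat_lit 78) (nat_lit 0) (nat_lit 0) (XT.lf (nat_lit 0) (nat_lit 730932534321) (nat_lit 76) (nat_lit 954624124348) (nat_lit 76) (nat_lit 954624124348) (nat_lit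 1) (nat_lit 4) (nat_lit 2) (nat_lit 5) (nat_lit 2) (nat_lit 4) (nat_lit 412) (nat_lit 244) (nat_lit 244)) (XT.lf (nat_lit 0) (nat_lit 1579765745605) (nat_lit 76) (nat_lit 2061499361287) (nat_lit 76) (nat_lit 2061487233488) (nat_lit 1) (nat_lit 4) (nat_lit 2) (nat_lit 5) (nat_lit 2) (nat_lit 4) (nat_lit 413) (nat_lit 244) (nat_lit 243)))) (XT.nd (nat_lit 46566) (nat_lit 0) (nat_lit 0) (XT.nd (nat_lit 78) (nat_lit 0) (nat_lit 0) (XT.lf (nat_lit 0) (nat_lit 1707052085241) (nat_lit 76) (nat_lit 2225953754410) (nat_lit 76) (nat_lit 2225930397169) (nat_lit 1) (nat_lit 4) (nat_lit 2) (nat_lit 5) (nat_lit 2) (nat_lit 4) (nat_lit 414) (nat_lit 244) (nat_lit 242)) (XT.lf (nat_lit 0) (nat_lit 1844478376972) (nat_lit 76) (nat_lit 2403585972619) (nat_lit 76) (nat_lit 2403552217746) (nat_lit 1) (nat_lit 4) (nat_lit 2) (nat_lit 5) (nat_lit 2) (nat_lit 4) (nat_lit 415) (nat_lit 244) (nat_lit 241))) (XT.nd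 (nat_lit 78) (nat_lit 0) (nat_lit 0) (XT.lf (nat_lit 0) (nat_lit 625751756707) (nat_lit 76) (nat_lit 818907005989) (nat_lit 76) (nat_lit 818907005989) (nat_lit 1) (nat_lit 4) (nat_lit 2) (nat_lit 5) (nat_lit 2) (nat_lit 4) (nat_lit 410) (nat_lit 245) (nat_lit 245)) (XT.lf (nat_lit 0) (nat_lit 1352651383676) (nat_lit 76) (nat_lit 1768311285847) (nat_lit 76) (nat_lit 1768298187825) (nat_lit 1) (nat_lit 4) (nat_lit 2) (nat_lit 5) (nat_lit 2) (nat_lit 4) (nat_lit 411) (nat_lit 245) (nat_lit 244))))) (XT.nd (nat_lit 46566) (nat_lit 0) (nat_lit 0) (XT.nd (nat_lit 156) (nat_lit 0) (nat_lit 0) (XT.nd (nat_lit 78) (nat_lit 0) (nat_lit 0) (XT.lf (nat_lit 0) (nat_lit 1461840980757) (nat_lit 76) (nat_lit 1909273388473) (nat_lit 76) (nat_lit 1909248162652) (nat_lit 1) (nat_lit 4) (nat_lit 2) (nat_lit 5) (nat_lit 2) (nat_lit 4) (nat_lit 412) (nat_lit 245) (nat_lit 243)) (XT.lf (nat_lit 0) (nat_lit 1579719354122)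 (nat_lit 76) (nat_lit 2061535650835) (nat_lit 76) (nat_lit 2061499195572) (nat_lit 1) (nat_lit 4) (nat_lit 2) (nat_lit 5) (nat_lit 2) (nat_lit 4) (nat_lit 413) (nat_lit 245) (nat_lit 242))) (XT.nd (nat_lit 78) (nat_lit 0) (nat_lit 0) (XT.lf (nat_lit 0) (nat_lit 1706985042279) (nat_lit 76) (nat_lit 2226000367822) (nat_lit 76) (nat_lit 2225953514926) (nat_lit 1) (nat_lit 4) (nat_lit 2) (nat_lit 5) (nat_lit 2) (nat_lit 4) (nat_lit 414) (nat_lit 245) (nat_lit 241)) (XT.lf (nat_lit 0) (nat_lit 1844392212269) (nat_lit 76) (nat_lit 2403642145163) (nat_lit 76) (nat_lit 2403585664830) (nat_lit 1) (nat_lit 4) (nat_lit 2) (nat_lit 5) (nat_lit 2) (nat_lit 4) (nat_lit 415) (nat_lit 245) (nat_lit 240)))) (XT.nd (nat_lit 156) (nat_lit 0) (nat_lit 0) (XT.nd (nat_lit 78) (nat_lit 0) (nat_lit 0) (XT.lf (nat_lit 0) (nat_lit 535503786510) (nat_lit 76) (nat_lit 702589106672) (nat_lit 76) (nat_lit 702589106672)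 (nat_lit 1) (nat_lit 4) (nat_lit 2) (nat_lit 5) (nat_lit 2) (nat_lit 4) (nat_lit 408) (nat_lit 246) (nat_lit 246)) (XT.lf (nat_lit 0) (nat_lit 1157797975186) (nat_lit 76) (nat_lit 1517022395554) (nat_lit 76) (nat_lit 1517008249690) (nat_lit 1) (nat_lit 4) (nat_lit 2) (nat_lit 5) (nat_lit 2) (nat_lit 4) (nat_lit 409) (nat_lit 246) (nat_lit 245))) (XT.nd (nat_lit 78) (nat_lit 0) (nat_lit 0) (XT.lf (nat_lit 0) (nat_lit 1251477498499) (nat_lit 76) (nat_lit 1637841162937) (nat_lit 76) (nat_lit 1637813919051) (nat_lit 1) (nat_lit 4) (nat_lit 2) (nat_lit 5) (nat_lit 2) (nat_lit 4) (nat_lit 410) (nat_lit 246) (nat_lit 244)) (XT.nd (nat_lit 78) (nat_lit 0) (nat_lit 0) (XT.lf (nat_lit 0) (nat_lit 1352601280875) (nat_lit 76) (nat_lit 1768350478559) (nat_lit 76) (nat_lit 1768311106875) (nat_lit 1) (nat_lit 4) (nat_lit 2) (nat_lit 5) (nat_lit 2) (nat_lit 4) (nat_lit 411) (nat_lit 246) (nat_lit 243))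 (XT.lf (nat_lit 0) (nat_lit 1461768574358) (nat_lit 76) (nat_lit 1909323730957) (nat_lit 76) (nat_lit 1909273129830) (nat_lit 1) (nat_lit 4) (nat_lit 2) (nat_lit 5) (nat_lit 2) (nat_lit 4) (nat_lit 412) (nat_lit 246) (nat_lit 242))))))) (XT.nd (nat_lit 46722) (nat_lit 0) (nat_lit 0) (XT.nd (nat_lit 46410) (nat_lit 0) (nat_lit 0) (XT.nd (nat_lit 156) (nat_lit 0) (nat_lit 0) (XT.nd (nat_lit 78) (nat_lit 0) (nat_lit 0) (XT.lf (nat_lit 0) (nat_lit 1579626296244) (nat_lit 76) (nat_lit 2061596317183) (nat_lit 76) (nat_lit 2061535318423) (nat_lit 1) (nat_lit 4) (nat_lit 2) (nat_lit 5) (nat_lit 2) (nat_lit 4) (nat_lit 413) (nat_lit 246) (nat_lit 241)) (XT.lf (nat_lit 0) (nat_lit 1706872862661) (nat_lit 76) (nat_lit 2226070593302) (nat_lit 76) (nat_lit 2225999967105) (nat_lit 1) (nat_lit 4) (nat_lit 2) (nat_lit 5) (nat_lit 2) (nat_lit 4) (nat_lit 414) (nat_lit 246) (nat_lit 240))) (XT.nd (nat_lit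 46176) (nat_lit 0) (nat_lit 0) (XT.lf (nat_lit 0) (nat_lit 1844262327336) (nat_lit 76) (nat_lit 2403721221692) (nat_lit 76) (nat_lit 2403641681202) (nat_lit 1) (nat_lit 4) (nat_lit 2) (nat_lit 5) (nat_lit 2) (nat_lit 4) (nat_lit 415) (nat_lit 246) (nat_lit 239)) (XT.lf (nat_lit 0) (nat_lit 458052499296) (nat_lit 76) (nat_lit 602905923308) (nat_lit 76) (nat_lit 602905923308) (nat_lit 1) (nat_lit 4) (nat_lit 2) (nat_lit 5) (nat_lit 2) (nat_lit 4) (nat_lit 406) (nat_lit 247) (nat_lit 247)))) (XT.nd (nat_lit 156) (nat_lit 0) (nat_lit 0) (XT.nd (nat_lit 78) (nat_lit 0) (nat_lit 0) (XT.lf (nat_lit 0) (nat_lit 990591978509) (nat_lit 76) (nat_lit 1301661113501) (nat_lit 76) (nat_lit 1301645835968) (nat_lit 1) (nat_lit 4) (nat_lit 2) (nat_lit 5) (nat_lit 2) (nat_lit 4) (nat_lit 407) (nat_lit 247) (nat_lit 246)) (XT.lf (nat_lit 0) (nat_lit 1070979476911) (nat_lit 76) (nat_lit 1405207536378) (nat_lit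 76) (nat_lit 1405178112982) (nat_lit 1) (nat_lit 4) (nat_lit 2) (nat_lit 5) (nat_lit 2) (nat_lit 4) (nat_lit 408) (nat_lit 247) (nat_lit 245))) (XT.nd (nat_lit 78) (nat_lit 0) (nat_lit 0) (XT.lf (nat_lit 0) (nat_lit 1157743864160) (nat_lit 76) (nat_lit 1517064723683) (nat_lit 76) (nat_lit 1517022202264) (nat_lit 1) (nat_lit 4) (nat_lit 2) (nat_lit 5) (nat_lit 2) (nat_lit 4) (nat_lit 409) (nat_lit 247) (nat_lit 244)) (XT.lf (nat_lit 0) (nat_lit 1251399299588) (nat_lit 76) (nat_lit 1637895532820) (nat_lit 76) (nat_lit 1637840883603) (nat_lit 1) (nat_lit 4) (nat_lit 2) (nat_lit 5) (nat_lit 2) (nat_lit 4) (nat_lit 410) (nat_lit 247) (nat_lit 243))))) (XT.nd (nat_lit 312) (nat_lit 0) (nat_lit 0) (XT.nd (nat_lit 156) (nat_lit 0) (nat_lit 0) (XT.nd (nat_lit 78) (nat_lit 0) (nat_lit 0) (XT.lf (nat_lit 0) (nat_lit 1352500778366) (nat_lit 76) (nat_lit 1768415998214) (nat_lit 76) (nat_lit 1768350119555)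 (nat_lit 1) (nat_lit 4) (nat_lit 2) (nat_lit 5) (nat_lit 2) (nat_lit 4) (nat_lit 411) (nat_lit 247) (nat_lit 242)) (XT.lf (nat_lit 0) (nat_lit 1461647420371) (nat_lit 76) (nat_lit 1909399574476) (nat_lit 76) (nat_lit 1909323298184) (nat_lit 1) (nat_lit 4) (nat_lit 2) (nat_lit 5) (nat_lit 2) (nat_lit 4) (nat_lit 412) (nat_lit 247) (nat_lit 241))) (XT.nd (nat_lit 78) (nat_lit 0) (nat_lit 0) (XT.lf (nat_lit 0) (nat_lit 1579486020516) (nat_lit 76) (nat_lit 2061681719834) (nat_lit 76) (nat_lit 2061595816104) (nat_lit 1) (nat_lit 4) (nat_lit 2) (nat_lit 5) (nat_lit 2) (nat_lit 4) (nat_lit 413) (nat_lit 247) (nat_lit 240)) (XT.lf (nat_lit 0) (nat_lit 1706714881618) (nat_lit 76) (nat_lit 2226164847002) (nat_lit 76) (nat_lit 2226070028979) (nat_lit 1) (nat_lit 4) (nat_lit 2) (nat_lit 5) (nat_lit 2) (nat_lit 4) (nat_lit 414) (nat_lit 247) (nat_lit 239)))) (XT.nd (nat_lit 46098) (nat_lit 0) (nat_lit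 0) (XT.nd (nat_lit 46020) (nat_lit 0) (nat_lit 0) (XT.lf (nat_lit 0) (nat_lit 1844087952484) (nat_lit 76) (nat_lit 2403823670807) (nat_lit 76) (nat_lit 2403720598808) (nat_lit 1) (nat_lit 4) (nat_lit 2) (nat_lit 5) (nat_lit 2) (nat_lit 4) (nat_lit 415) (nat_lit 247) (nat_lit 238)) (XT.lf (nat_lit 0) (nat_lit 391566049261) (nat_lit 76) (nat_lit 517487581075) (nat_lit 76) (nat_lit 517487581075) (nat_lit 1) (nat_lit 4) (nat_lit 2) (nat_lit 5) (nat_lit 2) (nat_lit 4) (nat_lit 404) (nat_lit 248) (nat_lit 248))) (XT.nd (nat_lit 78) (nat_lit 0) (nat_lit 0) (XT.lf (nat_lit 0) (nat_lit 847077132836) (nat_lit 76) (nat_lit 1117108239808) (nat_lit 76) (nat_lit 1117091740073) (nat_lit 1) (nat_lit 4) (nat_lit 2) (nat_lit 5) (nat_lit 2) (nat_lit 4) (nat_lit 405) (nat_lit 248) (nat_lit 247)) (XT.nd (nat_lit 78) (nat_lit 0) (nat_lit 0) (XT.lf (nat_lit 0) (nat_lit 916074654794) (nat_lit 76) (nat_lit 1205843515495)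 (nat_lit 76) (nat_lit 1205811738226) (nat_lit 1) (nat_lit 4) (nat_lit 2) (nat_lit 5) (nat_lit 2) (nat_lit 4) (nat_lit 406) (nat_lit 248) (nat_lit 246)) (XT.lf (nat_lit 0) (nat_lit 990533538601) (nat_lit 76) (nat_lit 1301706827880) (nat_lit 76) (nat_lit 1301660904748) (nat_lit 1) (nat_lit 4) (nat_lit 2) (nat_lit 5) (nat_lit 2) (nat_lit 4) (nat_lit 407) (nat_lit 248) (nat_lit 245))))))))
noncomputable def xc1 : XT := (XT.nd (nat_lit 47112) (nat_lit 0) (nat_lit 0) (XT.nd (nat_lit 46410) (nat_lit 0) (nat_lit 0) (XT.nd (nat_lit 312) (nat_lit 0) (nat_lit 0) (XT.nd (nat_lit 156) (nat_lit 0) (nat_lit 0) (XT.nd (nat_lit 78) (nat_lit 0) (nat_lit 0) (XT.lf (nat_lit 0) (nat_lit 1070895022087) (nat_lit 76) (nat_lit 1405266255852) (nat_lit 76) (nat_lit 1405207234698) (nat_lit 1) (nat_lit 4) (nat_lit 2) (nat_lit 5) (nat_lit 2) (nat_lit 4) (nat_lit 408) (nat_lit 248) (nat_lit 244)) (XT.lf (nat_lit 0)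 (nat_lit 1157635321451) (nat_lit 76) (nat_lit 1517135484911) (nat_lit 76) (nat_lit 1517064335958) (nat_lit 1) (nat_lit 4) (nat_lit 2) (nat_lit 5) (nat_lit 2) (nat_lit 4) (nat_lit 409) (nat_lit 248) (nat_lit 243))) (XT.nd (nat_lit 78) (nat_lit 0) (nat_lit 0) (XT.lf (nat_lit 0) (nat_lit 1251268453281) (nat_lit 76) (nat_lit 1637977443820) (nat_lit 76) (nat_lit 1637895065425) (nat_lit 1) (nat_lit 4) (nat_lit 2) (nat_lit 5) (nat_lit 2) (nat_lit 4) (nat_lit 410) (nat_lit 248) (nat_lit 242)) (XT.lf (nat_lit 0) (nat_lit 1352349280580) (nat_lit 76) (nat_lit 1768508233078) (nat_lit 76) (nat_lit 1768415457050) (nat_lit 1) (nat_lit 4) (nat_lit 2) (nat_lit 5) (nat_lit 2) (nat_lit 4) (nat_lit 411) (nat_lit 248) (nat_lit 241)))) (XT.nd (nat_lit 156) (nat_lit 0) (nat_lit 0) (XT.nd (nat_lit 78) (nat_lit 0) (nat_lit 0) (XT.lf (nat_lit 0) (nat_lit 1461476800845) (nat_lit 76) (nat_lit 1909501368472) (nat_lit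 76) (nat_lit 1909398965007) (nat_lit 1) (nat_lit 4) (nat_lit 2) (nat_lit 5) (nat_lit 2) (nat_lit 4) (nat_lit 412) (nat_lit 248) (nat_lit 240)) (XT.lf (nat_lit 0) (nat_lit 1579297695675) (nat_lit 76) (nat_lit 2061792364878) (nat_lit 76) (nat_lit 2061681047120) (nat_lit 1) (nat_lit 4) (nat_lit 2) (nat_lit 5) (nat_lit 2) (nat_lit 4) (nat_lit 413) (nat_lit 248) (nat_lit 239))) (XT.nd (nat_lit 78) (nat_lit 0) (nat_lit 0) (XT.lf (nat_lit 0) (nat_lit 1706510162968) (nat_lit 76) (nat_lit 2226283687462) (nat_lit 76) (nat_lit 2226164115727) (nat_lit 1) (nat_lit 4) (nat_lit 2) (nat_lit 5) (nat_lit 2) (nat_lit 4) (nat_lit 414) (nat_lit 248) (nat_lit 238)) (XT.lf (nat_lit 0) (nat_lit 1843868054380) (nat_lit 76) (nat_lit 2403950099615) (nat_lit 76) (nat_lit 2403822885310) (nat_lit 1) (nat_lit 4) (nat_lit 2) (nat_lit 5) (nat_lit 2) (nat_lit 4) (nat_lit 415) (nat_lit 248) (nat_lit 237))))) (XT.nd (nat_lit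 312) (nat_lit 0) (nat_lit 0) (XT.nd (nat_lit 156) (nat_lit 0) (nat_lit 0) (XT.nd (nat_lit 78) (nat_lit 0) (nat_lit 0) (XT.lf (nat_lit 0) (nat_lit 334473423412) (nat_lit 76) (nat_lit 444302554555) (nat_lit 76) (nat_lit 444302554555) (nat_lit 1) (nat_lit 4) (nat_lit 2) (nat_lit 5) (nat_lit 2) (nat_lit 4) (nat_lit 402) (nat_lit 249) (nat_lit 249)) (XT.lf (nat_lit 0) (nat_lit 723860618317) (nat_lit 76) (nat_lit 958975387700) (nat_lit 76) (nat_lit 958957567986) (nat_lit 1) (nat_lit 4) (nat_lit 2) (nat_lit 5) (nat_lit 2) (nat_lit 4) (nat_lit 403) (nat_lit 249) (nat_lit 248))) (XT.nd (nat_lit 78) (nat_lit 0) (nat_lit 0) (XT.lf (nat_lit 0) (nat_lit 783099327220) (nat_lit 76) (nat_lit 1035009364538) (nat_lit 76) (nat_lit 1034975045088) (nat_lit 1) (nat_lit 4) (nat_lit 2) (nat_lit 5) (nat_lit 2) (nat_lit 4) (nat_lit 404) (nat_lit 249) (nat_lit 247)) (XT.lf (nat_lit 0) (nat_lit 847014017735) (nat_lit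 76) (nat_lit 1117157611338) (nat_lit 76) (nat_lit 1117108014355) (nat_lit 1) (nat_lit 4) (nat_lit 2) (nat_lit 5) (nat_lit 2) (nat_lit 4) (nat_lit 405) (nat_lit 249) (nat_lit 246)))) (XT.nd (nat_lit 156) (nat_lit 0) (nat_lit 0) (XT.nd (nat_lit 78) (nat_lit 0) (nat_lit 0) (XT.lf (nat_lit 0) (nat_lit 915983443584) (nat_lit 76) (nat_lit 1205906932527) (nat_lit 76) (nat_lit 1205843189680) (nat_lit 1) (nat_lit 4) (nat_lit 2) (nat_lit 5) (nat_lit 2) (nat_lit 4) (nat_lit 406) (nat_lit 249) (nat_lit 245)) (XT.lf (nat_lit 0) (nat_lit 990416312475) (nat_lit 76) (nat_lit 1301783250006) (nat_lit 76) (nat_lit 1301706409137) (nat_lit 1) (nat_lit 4) (nat_lit 2) (nat_lit 5) (nat_lit 2) (nat_lit 4) (nat_lit 407) (nat_lit 249) (nat_lit 244))) (XT.nd (nat_lit 78) (nat_lit 0) (nat_lit 0) (XT.lf (nat_lit 0) (nat_lit 1070753708076) (nat_lit 76) (nat_lit 1405354719732) (nat_lit 76) (nat_lit 1405265751065) (nat_lit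 1) (nat_lit 4) (nat_lit 2) (nat_lit 5) (nat_lit 2) (nat_lit 4) (nat_lit 408) (nat_lit 249) (nat_lit 243)) (XT.nd (nat_lit 78) (nat_lit 0) (nat_lit 0) (XT.lf (nat_lit 0) (nat_lit 1157471703842) (nat_lit 76) (nat_lit 1517235098563) (nat_lit 76) (nat_lit 1517134900453) (nat_lit 1) (nat_lit 4) (nat_lit 2) (nat_lit 5) (nat_lit 2) (nat_lit 4) (nat_lit 409) (nat_lit 249) (nat_lit 242)) (XT.lf (nat_lit 0) (nat_lit 1251084184193) (nat_lit 76) (nat_lit 1638087381336) (nat_lit 76) (nat_lit 1637976785594) (nat_lit 1) (nat_lit 4) (nat_lit 2) (nat_lit 5) (nat_lit 2) (nat_lit 4) (nat_lit 410) (nat_lit 249) (nat_lit 241))))))) (XT.nd (nat_lit 46254) (nat_lit 0) (nat_lit 0) (XT.nd (nat_lit 312) (nat_lit 0) (nat_lit 0) (XT.nd (nat_lit 156) (nat_lit 0) (nat_lit 0) (XT.nd (nat_lit 78) (nat_lit 0) (nat_lit 0) (XT.lf (nat_lit 0) (nat_lit 1352145889752) (nat_lit 76) (nat_lit 1768627729726) (nat_lit 76) (nat_lit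 1768507506546) (nat_lit 1) (nat_lit 4) (nat_lit 2) (nat_lit 5) (nat_lit 2) (nat_lit 4) (nat_lit 411) (nat_lit 249) (nat_lit 240)) (XT.lf (nat_lit 0) (nat_lit 1461255704702) (nat_lit 76) (nat_lit 1909629716168) (nat_lit 76) (nat_lit 1909500578695) (nat_lit 1) (nat_lit 4) (nat_lit 2) (nat_lit 5) (nat_lit 2) (nat_lit 4) (nat_lit 412) (nat_lit 249) (nat_lit 239))) (XT.nd (nat_lit 78) (nat_lit 0) (nat_lit 0) (XT.lf (nat_lit 0) (nat_lit 1579060205723) (nat_lit 76) (nat_lit 2061928907990) (nat_lit 76) (nat_lit 2061791516542) (nat_lit 1) (nat_lit 4) (nat_lit 2) (nat_lit 5) (nat_lit 2) (nat_lit 4) (nat_lit 413) (nat_lit 249) (nat_lit 238)) (XT.lf (nat_lit 0) (nat_lit 1706257493561) (nat_lit 76) (nat_lit 2226427818921) (nat_lit 76) (nat_lit 2226282784903) (nat_lit 1) (nat_lit 4) (nat_lit 2) (nat_lit 5) (nat_lit 2) (nat_lit 4) (nat_lit 414) (nat_lit 249) (nat_lit 237)))) (XT.nd (nat_lit 45786) (nat_lit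 0) (nat_lit 0) (XT.nd (nat_lit 45708) (nat_lit 0) (nat_lit 0) (XT.lf (nat_lit 0) (nat_lit 1843601329923) (nat_lit 76) (nat_lit 2404101257322) (nat_lit 76) (nat_lit 2403949146850) (nat_lit 1) (nat_lit 4) (nat_lit 2) (nat_lit 5) (nat_lit 2) (nat_lit 4) (nat_lit 415) (nat_lit 249) (nat_lit 236)) (XT.lf (nat_lit 0) (nat_lit 285427190812) (nat_lit 76) (nat_lit 381609419236) (nat_lit 76) (nat_lit 381609419236) (nat_lit 1) (nat_lit 4) (nat_lit 2) (nat_lit 5) (nat_lit 2) (nat_lit 4) (nat_lit 400) (nat_lit 250) (nat_lit 250))) (XT.nd (nat_lit 78) (nat_lit 0) (nat_lit 0) (XT.lf (nat_lit 0) (nat_lit 618032597801) (nat_lit 76) (nat_lit 823500765001) (nat_lit 76) (nat_lit 823481519710) (nat_lit 1) (nat_lit 4) (nat_lit 2) (nat_lit 5) (nat_lit 2) (nat_lit 4) (nat_lit 401) (nat_lit 250) (nat_lit 249)) (XT.lf (nat_lit 0) (nat_lit 668911453818) (nat_lit 76) (nat_lit 888642047689) (nat_lit 76) (nat_lit 888604982683)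 (nat_lit 1) (nat_lit 4) (nat_lit 2) (nat_lit 5) (nat_lit 2) (nat_lit 4) (nat_lit 402) (nat_lit 250) (nat_lit 248))))) (XT.nd (nat_lit 312) (nat_lit 0) (nat_lit 0) (XT.nd (nat_lit 156) (nat_lit 0) (nat_lit 0) (XT.nd (nat_lit 78) (nat_lit 0) (nat_lit 0) (XT.lf (nat_lit 0) (nat_lit 723792454008) (nat_lit 76) (nat_lit 959028708952) (nat_lit 76) (nat_lit 958975144211) (nat_lit 1) (nat_lit 4) (nat_lit 2) (nat_lit 5) (nat_lit 2) (nat_lit 4) (nat_lit 403) (nat_lit 250) (nat_lit 247)) (XT.lf (nat_lit 0) (nat_lit 783000819114) (nat_lit 76) (nat_lit 1035077854932) (nat_lit 76) (nat_lit 1035009012658) (nat_lit 1) (nat_lit 4) (nat_lit 2) (nat_lit 5) (nat_lit 2) (nat_lit 4) (nat_lit 404) (nat_lit 250) (nat_lit 246))) (XT.nd (nat_lit 78) (nat_lit 0) (nat_lit 0) (XT.lf (nat_lit 0) (nat_lit 846887413519) (nat_lit 76) (nat_lit 1117240147234) (nat_lit 76) (nat_lit 1117157159096) (nat_lit 1) (nat_lit 4) (nat_lit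 2) (nat_lit 5) (nat_lit 2) (nat_lit 4) (nat_lit 405) (nat_lit 250) (nat_lit 245)) (XT.lf (nat_lit 0) (nat_lit 915830824452) (nat_lit 76) (nat_lit 1206002473517) (nat_lit 76) (nat_lit 1205906387357) (nat_lit 1) (nat_lit 4) (nat_lit 2) (nat_lit 5) (nat_lit 2) (nat_lit 4) (nat_lit 406) (nat_lit 250) (nat_lit 244)))) (XT.nd (nat_lit 156) (nat_lit 0) (nat_lit 0) (XT.nd (nat_lit 78) (nat_lit 0) (nat_lit 0) (XT.lf (nat_lit 0) (nat_lit 990239605458) (nat_lit 76) (nat_lit 1301890832751) (nat_lit 76) (nat_lit 1301782618792) (nat_lit 1) (nat_lit 4) (nat_lit 2) (nat_lit 5) (nat_lit 2) (nat_lit 4) (nat_lit 407) (nat_lit 250) (nat_lit 243)) (XT.lf (nat_lit 0) (nat_lit 1070554697461) (nat_lit 76) (nat_lit 1405473452249) (nat_lit 76) (nat_lit 1405354008848) (nat_lit 1) (nat_lit 4) (nat_lit 2) (nat_lit 5) (nat_lit 2) (nat_lit 4) (nat_lit 408) (nat_lit 250) (nat_lit 242))) (XT.nd (nat_lit 78) (nat_lit 0)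 (nat_lit 0) (XT.lf (nat_lit 0) (nat_lit 1157252041748) (nat_lit 76) (nat_lit 1517364154943) (nat_lit 76) (nat_lit 1517234313909) (nat_lit 1) (nat_lit 4) (nat_lit 2) (nat_lit 5) (nat_lit 2) (nat_lit 4) (nat_lit 409) (nat_lit 250) (nat_lit 241)) (XT.nd (nat_lit 78) (nat_lit 0) (nat_lit 0) (XT.lf (nat_lit 0) (nat_lit 1250845400359) (nat_lit 76) (nat_lit 1638225996848) (nat_lit 76) (nat_lit 1638086528377) (nat_lit 1) (nat_lit 4) (nat_lit 2) (nat_lit 5) (nat_lit 2) (nat_lit 4) (nat_lit 410) (nat_lit 250) (nat_lit 240)) (XT.lf (nat_lit 0) (nat_lit 1351889400603) (nat_lit 76) (nat_lit 1768775196287) (nat_lit 76) (nat_lit 1768626813522) (nat_lit 1) (nat_lit 4) (nat_lit 2) (nat_lit 5) (nat_lit 2) (nat_lit 4) (nat_lit 411) (nat_lit 250) (nat_lit 239))))))))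
noncomputable def xc2 : XT := (XT.nd (nat_lit 46800) (nat_lit 0) (nat_lit 0) (XT.nd (nat_lit 46098) (nat_lit 0) (nat_lit 0) (XT.nd (nat_lit 45786) (nat_lit 0) (nat_lit 0) (XT.nd (nat_lit 156) (nat_lit 0) (nat_lit 0) (XT.nd (nat_lit 78) (nat_lit 0) (nat_lit 0) (XT.lf (nat_lit 0) (nat_lit 1460982821743) (nat_lit 76) (nat_lit 1909785378145) (nat_lit 76) (nat_lit 1909628741405) (nat_lit 1) (nat_lit 4) (nat_lit 2) (nat_lit 5) (nat_lit 2) (nat_lit 4) (nat_lit 412) (nat_lit 250) (nat_lit 238)) (XT.lf (nat_lit 0) (nat_lit 1578772143310) (nat_lit 76) (nat_lit 2062092158315) (nat_lit 76) (nat_lit 2061927879004) (nat_lit 1) (nat_lit 4) (nat_lit 2) (nat_lit 5) (nat_lit 2) (nat_lit 4) (nat_lit 413) (nat_lit 250) (nat_lit 237))) (XT.nd (nat_lit 78) (nat_lit 0) (nat_lit 0) (XT.lf (nat_lit 0) (nat_lit 1705955376099) (nat_lit 76) (nat_lit 2226598095494) (nat_lit 76) (nat_lit 2226426739729) (nat_lit 1)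 (nat_lit 4) (nat_lit 2) (nat_lit 5) (nat_lit 2) (nat_lit 4) (nat_lit 414) (nat_lit 250) (nat_lit 236)) (XT.lf (nat_lit 0) (nat_lit 1843286198526) (nat_lit 76) (nat_lit 2404278039680) (nat_lit 76) (nat_lit 2404100131643) (nat_lit 1) (nat_lit 4) (nat_lit 2) (nat_lit 5) (nat_lit 2) (nat_lit 4) (nat_lit 415) (nat_lit 250) (nat_lit 235)))) (XT.nd (nat_lit 156) (nat_lit 0) (nat_lit 0) (XT.nd (nat_lit 78) (nat_lit 0) (nat_lit 0) (XT.lf (nat_lit 0) (nat_lit 243271562860) (nat_lit 76) (nat_lit 327915487862) (nat_lit 76) (nat_lit 327915487862) (nat_lit 1) (nat_lit 4) (nat_lit 2) (nat_lit 5) (nat_lit 2) (nat_lit 4) (nat_lit 398) (nat_lit 251) (nat_lit 251)) (XT.lf (nat_lit 0) (nat_lit 527097230676) (nat_lit 76) (nat_lit 707459826789) (nat_lit 76) (nat_lit 707439041874) (nat_lit 1) (nat_lit 4) (nat_lit 2) (nat_lit 5) (nat_lit 2) (nat_lit 4) (nat_lit 399) (nat_lit 251) (nat_lit 250))) (XT.nd (nat_lit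 78) (nat_lit 0) (nat_lit 0) (XT.lf (nat_lit 0) (nat_lit 570816157179) (nat_lit 76) (nat_lit 763258732138) (nat_lit 76) (nat_lit 763218701932) (nat_lit 1) (nat_lit 4) (nat_lit 2) (nat_lit 5) (nat_lit 2) (nat_lit 4) (nat_lit 400) (nat_lit 251) (nat_lit 249)) (XT.lf (nat_lit 0) (nat_lit 617958980348) (nat_lit 76) (nat_lit 823558351954) (nat_lit 76) (nat_lit 823500502033) (nat_lit 1) (nat_lit 4) (nat_lit 2) (nat_lit 5) (nat_lit 2) (nat_lit 4) (nat_lit 401) (nat_lit 251) (nat_lit 248))))) (XT.nd (nat_lit 312) (nat_lit 0) (nat_lit 0) (XT.nd (nat_lit 156) (nat_lit 0) (nat_lit 0) (XT.nd (nat_lit 78) (nat_lit 0) (nat_lit 0) (XT.lf (nat_lit 0) (nat_lit 668805065063) (nat_lit 76) (nat_lit 888716017315) (nat_lit 76) (nat_lit 888641667658) (nat_lit 1) (nat_lit 4) (nat_lit 2) (nat_lit 5) (nat_lit 2) (nat_lit 4) (nat_lit 402) (nat_lit 251) (nat_lit 247)) (XT.lf (nat_lit 0) (nat_lit 723655721455) (nat_lit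 76) (nat_lit 959117847720) (nat_lit 76) (nat_lit 959028220531) (nat_lit 1) (nat_lit 4) (nat_lit 2) (nat_lit 5) (nat_lit 2) (nat_lit 4) (nat_lit 403) (nat_lit 251) (nat_lit 246))) (XT.nd (nat_lit 78) (nat_lit 0) (nat_lit 0) (XT.lf (nat_lit 0) (nat_lit 782835990451) (nat_lit 76) (nat_lit 1035181039202) (nat_lit 76) (nat_lit 1035077266149) (nat_lit 1) (nat_lit 4) (nat_lit 2) (nat_lit 5) (nat_lit 2) (nat_lit 4) (nat_lit 404) (nat_lit 251) (nat_lit 245)) (XT.lf (nat_lit 0) (nat_lit 846696569941) (nat_lit 76) (nat_lit 1117356336599) (nat_lit 76) (nat_lit 1117239465523) (nat_lit 1) (nat_lit 4) (nat_lit 2) (nat_lit 5) (nat_lit 2) (nat_lit 4) (nat_lit 405) (nat_lit 251) (nat_lit 244)))) (XT.nd (nat_lit 156) (nat_lit 0) (nat_lit 0) (XT.nd (nat_lit 78) (nat_lit 0) (nat_lit 0) (XT.lf (nat_lit 0) (nat_lit 915615892988) (nat_lit 76) (nat_lit 1206130704635) (nat_lit 76) (nat_lit 1206001705762) (nat_lit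 1) (nat_lit 4) (nat_lit 2) (nat_lit 5) (nat_lit 2) (nat_lit 4) (nat_lit 406) (nat_lit 251) (nat_lit 243)) (XT.lf (nat_lit 0) (nat_lit 990002370396) (nat_lit 76) (nat_lit 1302030213641) (nat_lit 76) (nat_lit 1301889985325) (nat_lit 1) (nat_lit 4) (nat_lit 2) (nat_lit 5) (nat_lit 2) (nat_lit 4) (nat_lit 407) (nat_lit 251) (nat_lit 242))) (XT.nd (nat_lit 78) (nat_lit 0) (nat_lit 0) (XT.lf (nat_lit 0) (nat_lit 1070296810920) (nat_lit 76) (nat_lit 1405623157003) (nat_lit 76) (nat_lit 1405472531054) (nat_lit 1) (nat_lit 4) (nat_lit 2) (nat_lit 5) (nat_lit 2) (nat_lit 4) (nat_lit 408) (nat_lit 251) (nat_lit 241)) (XT.nd (nat_lit 78) (nat_lit 0) (nat_lit 0) (XT.lf (nat_lit 0) (nat_lit 1156975033467) (nat_lit 76) (nat_lit 1517523418829) (nat_lit 76) (nat_lit 1517363165443) (nat_lit 1) (nat_lit 4) (nat_lit 2) (nat_lit 5) (nat_lit 2) (nat_lit 4) (nat_lit 409) (nat_lit 251) (nat_lit 240)) (XT.lf (nat_lit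 0) (nat_lit 1250550686763) (nat_lit 76) (nat_lit 1638394111783) (nat_lit 76) (nat_lit 1638224944103) (nat_lit 1) (nat_lit 4) (nat_lit 2) (nat_lit 5) (nat_lit 2) (nat_lit 4) (nat_lit 410) (nat_lit 251) (nat_lit 239))))))) (XT.nd (nat_lit 45942) (nat_lit 0) (nat_lit 0) (XT.nd (nat_lit 312) (nat_lit 0) (nat_lit 0) (XT.nd (nat_lit 156) (nat_lit 0) (nat_lit 0) (XT.nd (nat_lit 78) (nat_lit 0) (nat_lit 0) (XT.lf (nat_lit 0) (nat_lit 1351578293198) (nat_lit 76) (nat_lit 1768951506637) (nat_lit 76) (nat_lit 1768774084982) (nat_lit 1) (nat_lit 4) (nat_lit 2) (nat_lit 5) (nat_lit 2) (nat_lit 4) (nat_lit 411) (nat_lit 251) (nat_lit 238)) (XT.lf (nat_lit 0) (nat_lit 1460656534884) (nat_lit 76) (nat_lit 1909969276843) (nat_lit 76) (nat_lit 1909784212618) (nat_lit 1) (nat_lit 4) (nat_lit 2) (nat_lit 5) (nat_lit 2) (nat_lit 4) (nat_lit 412) (nat_lit 251) (nat_lit 237))) (XT.nd (nat_lit 78) (nat_lit 0)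 (nat_lit 0) (XT.lf (nat_lit 0) (nat_lit 1578431801401) (nat_lit 76) (nat_lit 2062283083261) (nat_lit 76) (nat_lit 2062090942581) (nat_lit 1) (nat_lit 4) (nat_lit 2) (nat_lit 5) (nat_lit 2) (nat_lit 4) (nat_lit 413) (nat_lit 251) (nat_lit 236)) (XT.lf (nat_lit 0) (nat_lit 1705602020255) (nat_lit 76) (nat_lit 2226795526224) (nat_lit 76) (nat_lit 2226596833273) (nat_lit 1) (nat_lit 4) (nat_lit 2) (nat_lit 5) (nat_lit 2) (nat_lit 4) (nat_lit 414) (nat_lit 251) (nat_lit 235)))) (XT.nd (nat_lit 45474) (nat_lit 0) (nat_lit 0) (XT.nd (nat_lit 45396) (nat_lit 0) (nat_lit 0) (XT.lf (nat_lit 0) (nat_lit 1842920792742) (nat_lit 76) (nat_lit 2404481494285) (nat_lit 76) (nat_lit 2404276734416) (nat_lit 1) (nat_lit 4) (nat_lit 2) (nat_lit 5) (nat_lit 2) (nat_lit 4) (nat_lit 415) (nat_lit 251) (nat_lit 234)) (XT.lf (nat_lit 0) (nat_lit 207015006667) (nat_lit 76) (nat_lit 281941349565) (nat_lit 76) (nat_lit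 281941349565) (nat_lit 1) (nat_lit 4) (nat_lit 2) (nat_lit 5) (nat_lit 2) (nat_lit 4) (nat_lit 396) (nat_lit 252) (nat_lit 252))) (XT.nd (nat_lit 78) (nat_lit 0) (nat_lit 0) (XT.lf (nat_lit 0) (nat_lit 448913521691) (nat_lit 76) (nat_lit 608088677907) (nat_lit 76) (nat_lit 608066230199) (nat_lit 1) (nat_lit 4) (nat_lit 2) (nat_lit 5) (nat_lit 2) (nat_lit 4) (nat_lit 397) (nat_lit 252) (nat_lit 251)) (XT.lf (nat_lit 0) (nat_lit 486501843318) (nat_lit 76) (nat_lit 655874060883) (nat_lit 76) (nat_lit 655830828260) (nat_lit 1) (nat_lit 4) (nat_lit 2) (nat_lit 5) (nat_lit 2) (nat_lit 4) (nat_lit 398) (nat_lit 252) (nat_lit 250))))) (XT.nd (nat_lit 312) (nat_lit 0) (nat_lit 0) (XT.nd (nat_lit 156) (nat_lit 0) (nat_lit 0) (XT.nd (nat_lit 78) (nat_lit 0) (nat_lit 0) (XT.lf (nat_lit 0) (nat_lit 527017723827) (nat_lit 76) (nat_lit 707522020697) (nat_lit 76) (nat_lit 707459542783) (nat_lit 1) (nat_lit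 4) (nat_lit 2) (nat_lit 5) (nat_lit 2) (nat_lit 4) (nat_lit 399) (nat_lit 252) (nat_lit 249)) (XT.lf (nat_lit 0) (nat_lit 570701257323) (nat_lit 76) (nat_lit 763338619334) (nat_lit 76) (nat_lit 763258321705) (nat_lit 1) (nat_lit 4) (nat_lit 2) (nat_lit 5) (nat_lit 2) (nat_lit 4) (nat_lit 400) (nat_lit 252) (nat_lit 248))) (XT.nd (nat_lit 78) (nat_lit 0) (nat_lit 0) (XT.lf (nat_lit 0) (nat_lit 617811309191) (nat_lit 76) (nat_lit 823654621823) (nat_lit 76) (nat_lit 823557824458) (nat_lit 1) (nat_lit 4) (nat_lit 2) (nat_lit 5) (nat_lit 2) (nat_lit 4) (nat_lit 401) (nat_lit 252) (nat_lit 247)) (XT.lf (nat_lit 0) (nat_lit 668627050108) (nat_lit 76) (nat_lit 888827456326) (nat_lit 76) (nat_lit 888715381429) (nat_lit 1) (nat_lit 4) (nat_lit 2) (nat_lit 5) (nat_lit 2) (nat_lit 4) (nat_lit 402) (nat_lit 252) (nat_lit 246)))) (XT.nd (nat_lit 156) (nat_lit 0) (nat_lit 0) (XT.nd (nat_lit 78) (nat_lit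 0) (nat_lit 0) (XT.lf (nat_lit 0) (nat_lit 723449610390) (nat_lit 76) (nat_lit 959243332233) (nat_lit 76) (nat_lit 959117111472) (nat_lit 1) (nat_lit 4) (nat_lit 2) (nat_lit 5) (nat_lit 2) (nat_lit 4) (nat_lit 403) (nat_lit 252) (nat_lit 245)) (XT.lf (nat_lit 0) (nat_lit 782603864470) (nat_lit 76) (nat_lit 1035319528810) (nat_lit 76) (nat_lit 1035180210026) (nat_lit 1) (nat_lit 4) (nat_lit 2) (nat_lit 5) (nat_lit 2) (nat_lit 4) (nat_lit 404) (nat_lit 252) (nat_lit 244))) (XT.nd (nat_lit 78) (nat_lit 0) (nat_lit 0) (XT.lf (nat_lit 0) (nat_lit 846440356074) (nat_lit 76) (nat_lit 1117506867960) (nat_lit 76) (nat_lit 1117355421378) (nat_lit 1) (nat_lit 4) (nat_lit 2) (nat_lit 5) (nat_lit 2) (nat_lit 4) (nat_lit 405) (nat_lit 252) (nat_lit 243)) (XT.nd (nat_lit 78) (nat_lit 0) (nat_lit 0) (XT.lf (nat_lit 0) (nat_lit 915337375524) (nat_lit 76) (nat_lit 1206292385769) (nat_lit 76) (nat_lit 1206129709745)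 (nat_lit 1) (nat_lit 4) (nat_lit 2) (nat_lit 5) (nat_lit 2) (nat_lit 4) (nat_lit 406) (nat_lit 252) (nat_lit 242)) (XT.lf (nat_lit 0) (nat_lit 989703201453) (nat_lit 76) (nat_lit 1302202218638) (nat_lit 76) (nat_lit 1302029144981) (nat_lit 1) (nat_lit 4) (nat_lit 2) (nat_lit 5) (nat_lit 2) (nat_lit 4) (nat_lit 407) (nat_lit 252) (nat_lit 241))))))))
noncomputable def xc3 : XT := (XT.nd (nat_lit 46488) (nat_lit 0) (nat_lit 0) (XT.nd (nat_lit 45786) (nat_lit 0) (nat_lit 0) (XT.nd (nat_lit 312) (nat_lit 0) (nat_lit 0) (XT.nd (nat_lit 156) (nat_lit 0) (nat_lit 0) (XT.nd (nat_lit 78) (nat_lit 0) (nat_lit 0) (XT.lf (nat_lit 0) (nat_lit 1069978520237) (nat_lit 76) (nat_lit 1405804721132) (nat_lit 76) (nat_lit 1405622020038) (nat_lit 1) (nat_lit 4) (nat_lit 2) (nat_lit 5) (nat_lit 2) (nat_lit 4) (nat_lit 408) (nat_lit 252) (nat_lit 240)) (XT.lf (nat_lit 0) (nat_lit 1156639037469) (nat_lit 76)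 (nat_lit 1517713834007) (nat_lit 76) (nat_lit 1517522218620) (nat_lit 1) (nat_lit 4) (nat_lit 2) (nat_lit 5) (nat_lit 2) (nat_lit 4) (nat_lit 409) (nat_lit 252) (nat_lit 239))) (XT.nd (nat_lit 78) (nat_lit 0) (nat_lit 0) (XT.lf (nat_lit 0) (nat_lit 1250198296955) (nat_lit 76) (nat_lit 1638592722377) (nat_lit 76) (nat_lit 1638392853013) (nat_lit 1) (nat_lit 4) (nat_lit 2) (nat_lit 5) (nat_lit 2) (nat_lit 4) (nat_lit 410) (nat_lit 252) (nat_lit 238)) (XT.lf (nat_lit 0) (nat_lit 1351210723936) (nat_lit 76) (nat_lit 1769157705579) (nat_lit 76) (nat_lit 1768950193645) (nat_lit 1) (nat_lit 4) (nat_lit 2) (nat_lit 5) (nat_lit 2) (nat_lit 4) (nat_lit 411) (nat_lit 252) (nat_lit 237)))) (XT.nd (nat_lit 156) (nat_lit 0) (nat_lit 0) (XT.nd (nat_lit 78) (nat_lit 0) (nat_lit 0) (XT.lf (nat_lit 0) (nat_lit 1460274910572) (nat_lit 76) (nat_lit 1910182502032) (nat_lit 76) (nat_lit 1909967913645) (nat_lit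 1) (nat_lit 4) (nat_lit 2) (nat_lit 5) (nat_lit 2) (nat_lit 4) (nat_lit 412) (nat_lit 252) (nat_lit 236)) (XT.lf (nat_lit 0) (nat_lit 1578037163154) (nat_lit 76) (nat_lit 2062502814235) (nat_lit 76) (nat_lit 2062281673575) (nat_lit 1) (nat_lit 4) (nat_lit 2) (nat_lit 5) (nat_lit 2) (nat_lit 4) (nat_lit 413) (nat_lit 252) (nat_lit 235))) (XT.nd (nat_lit 78) (nat_lit 0) (nat_lit 0) (XT.lf (nat_lit 0) (nat_lit 1705195332068) (nat_lit 76) (nat_lit 2227021281073) (nat_lit 76) (nat_lit 2226794073496) (nat_lit 1) (nat_lit 4) (nat_lit 2) (nat_lit 5) (nat_lit 2) (nat_lit 4) (nat_lit 414) (nat_lit 252) (nat_lit 234)) (XT.lf (nat_lit 0) (nat_lit 1842502947204) (nat_lit 76) (nat_lit 2404712826796) (nat_lit 76) (nat_lit 2404480001701) (nat_lit 1) (nat_lit 4) (nat_lit 2) (nat_lit 5) (nat_lit 2) (nat_lit 4) (nat_lit 415) (nat_lit 252) (nat_lit 233))))) (XT.nd (nat_lit 312) (nat_lit 0) (nat_lit 0) (XT.nd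 (nat_lit 156) (nat_lit 0) (nat_lit 0) (XT.nd (nat_lit 78) (nat_lit 0) (nat_lit 0) (XT.lf (nat_lit 0) (nat_lit 175806761708) (nat_lit 76) (nat_lit 242590469836) (nat_lit 76) (nat_lit 242590469836) (nat_lit 1) (nat_lit 4) (nat_lit 2) (nat_lit 5) (nat_lit 2) (nat_lit 4) (nat_lit 394) (nat_lit 253) (nat_lit 253)) (XT.lf (nat_lit 0) (nat_lit 381644601163) (nat_lit 76) (nat_lit 523018406721) (nat_lit 76) (nat_lit 522994163196) (nat_lit 1) (nat_lit 4) (nat_lit 2) (nat_lit 5) (nat_lit 2) (nat_lit 4) (nat_lit 395) (nat_lit 253) (nat_lit 252))) (XT.nd (nat_lit 78) (nat_lit 0) (nat_lit 0) (XT.lf (nat_lit 0) (nat_lit 413985428340) (nat_lit 76) (nat_lit 563929231101) (nat_lit 76) (nat_lit 563882539868) (nat_lit 1) (nat_lit 4) (nat_lit 2) (nat_lit 5) (nat_lit 2) (nat_lit 4) (nat_lit 396) (nat_lit 253) (nat_lit 251)) (XT.lf (nat_lit 0) (nat_lit 448827654294) (nat_lit 76) (nat_lit 608155847329) (nat_lit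 76) (nat_lit 608088371181) (nat_lit 1) (nat_lit 4) (nat_lit 2) (nat_lit 5) (nat_lit 2) (nat_lit 4) (nat_lit 397) (nat_lit 253) (nat_lit 250)))) (XT.nd (nat_lit 156) (nat_lit 0) (nat_lit 0) (XT.nd (nat_lit 78) (nat_lit 0) (nat_lit 0) (XT.lf (nat_lit 0) (nat_lit 486377751474) (nat_lit 76) (nat_lit 655960339055) (nat_lit 76) (nat_lit 655873617615) (nat_lit 1) (nat_lit 4) (nat_lit 2) (nat_lit 5) (nat_lit 2) (nat_lit 4) (nat_lit 398) (nat_lit 253) (nat_lit 249)) (XT.lf (nat_lit 0) (nat_lit 526858238977) (nat_lit 76) (nat_lit 707625992156) (nat_lit 76) (nat_lit 707521451002) (nat_lit 1) (nat_lit 4) (nat_lit 2) (nat_lit 5) (nat_lit 2) (nat_lit 4) (nat_lit 399) (nat_lit 253) (nat_lit 248))) (XT.nd (nat_lit 78) (nat_lit 0) (nat_lit 0) (XT.lf (nat_lit 0) (nat_lit 570509001171) (nat_lit 76) (nat_lit 763458973467) (nat_lit 76) (nat_lit 763337932577) (nat_lit 1) (nat_lit 4) (nat_lit 2) (nat_lit 5)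 (nat_lit 2) (nat_lit 4) (nat_lit 400) (nat_lit 253) (nat_lit 247)) (XT.nd (nat_lit 78) (nat_lit 0) (nat_lit 0) (XT.lf (nat_lit 0) (nat_lit 617588709240) (nat_lit 76) (nat_lit 823790145097) (nat_lit 76) (nat_lit 823653826675) (nat_lit 1) (nat_lit 4) (nat_lit 2) (nat_lit 5) (nat_lit 2) (nat_lit 4) (nat_lit 401) (nat_lit 253) (nat_lit 246)) (XT.lf (nat_lit 0) (nat_lit 668376354048) (nat_lit 76) (nat_lit 888977025102) (nat_lit 76) (nat_lit 888826560816) (nat_lit 1) (nat_lit 4) (nat_lit 2) (nat_lit 5) (nat_lit 2) (nat_lit 4) (nat_lit 402) (nat_lit 253) (nat_lit 245))))))) (XT.nd (nat_lit 702) (nat_lit 0) (nat_lit 0) (XT.nd (nat_lit 312) (nat_lit 0) (nat_lit 0) (XT.nd (nat_lit 156) (nat_lit 0) (nat_lit 0) (XT.nd (nat_lit 78) (nat_lit 0) (nat_lit 0) (XT.lf (nat_lit 0) (nat_lit 723172899414) (nat_lit 76) (nat_lit 959405906104) (nat_lit 76) (nat_lit 959242343796) (nat_lit 1) (nat_lit 4) (nat_lit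 2) (nat_lit 5) (nat_lit 2) (nat_lit 4) (nat_lit 403) (nat_lit 253) (nat_lit 244)) (XT.lf (nat_lit 0) (nat_lit 782303065608) (nat_lit 76) (nat_lit 1035494144434) (nat_lit 76) (nat_lit 1035318454328) (nat_lit 1) (nat_lit 4) (nat_lit 2) (nat_lit 5) (nat_lit 2) (nat_lit 4) (nat_lit 404) (nat_lit 253) (nat_lit 243))) (XT.nd (nat_lit 78) (nat_lit 0) (nat_lit 0) (XT.lf (nat_lit 0) (nat_lit 846117253615) (nat_lit 76) (nat_lit 1117692633357) (nat_lit 76) (nat_lit 1117505713808) (nat_lit 1) (nat_lit 4) (nat_lit 2) (nat_lit 5) (nat_lit 2) (nat_lit 4) (nat_lit 405) (nat_lit 253) (nat_lit 242)) (XT.lf (nat_lit 0) (nat_lit 914993621586) (nat_lit 76) (nat_lit 1206488475029) (nat_lit 76) (nat_lit 1206291157848) (nat_lit 1) (nat_lit 4) (nat_lit 2) (nat_lit 5) (nat_lit 2) (nat_lit 4) (nat_lit 406) (nat_lit 253) (nat_lit 241)))) (XT.nd (nat_lit 156) (nat_lit 0) (nat_lit 0) (XT.nd (nat_lit 78) (nat_lit 0)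 (nat_lit 0) (XT.lf (nat_lit 0) (nat_lit 989340325775) (nat_lit 76) (nat_lit 1302407867031) (nat_lit 76) (nat_lit 1302200922412) (nat_lit 1) (nat_lit 4) (nat_lit 2) (nat_lit 5) (nat_lit 2) (nat_lit 4) (nat_lit 407) (nat_lit 253) (nat_lit 240)) (XT.lf (nat_lit 0) (nat_lit 1069597939244) (nat_lit 76) (nat_lit 1406019220574) (nat_lit 76) (nat_lit 1405803361661) (nat_lit 1) (nat_lit 4) (nat_lit 2) (nat_lit 5) (nat_lit 2) (nat_lit 4) (nat_lit 408) (nat_lit 253) (nat_lit 239))) (XT.nd (nat_lit 78) (nat_lit 0) (nat_lit 0) (XT.lf (nat_lit 0) (nat_lit 1156242062666) (nat_lit 76) (nat_lit 1517936528864) (nat_lit 76) (nat_lit 1517712415976) (nat_lit 1) (nat_lit 4) (nat_lit 2) (nat_lit 5) (nat_lit 2) (nat_lit 4) (nat_lit 409) (nat_lit 253) (nat_lit 238)) (XT.nd (nat_lit 78) (nat_lit 0) (nat_lit 0) (XT.lf (nat_lit 0) (nat_lit 1249786142698) (nat_lit 76) (nat_lit 1638823005581) (nat_lit 76) (nat_lit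 1638591250123) (nat_lit 1) (nat_lit 4) (nat_lit 2) (nat_lit 5) (nat_lit 2) (nat_lit 4) (nat_lit 410) (nat_lit 253) (nat_lit 237)) (XT.lf (nat_lit 0) (nat_lit 1350784514629) (nat_lit 76) (nat_lit 1769395015031) (nat_lit 76) (nat_lit 1769156183119) (nat_lit 1) (nat_lit 4) (nat_lit 2) (nat_lit 5) (nat_lit 2) (nat_lit 4) (nat_lit 411) (nat_lit 253) (nat_lit 236)))))) (XT.nd (nat_lit 45318) (nat_lit 0) (nat_lit 0) (XT.nd (nat_lit 156) (nat_lit 0) (nat_lit 0) (XT.nd (nat_lit 78) (nat_lit 0) (nat_lit 0) (XT.lf (nat_lit 0) (nat_lit 1459835687331) (nat_lit 76) (nat_lit 1910426317269) (nat_lit 76) (nat_lit 1910180933085) (nat_lit 1) (nat_lit 4) (nat_lit 2) (nat_lit 5) (nat_lit 2) (nat_lit 4) (nat_lit 412) (nat_lit 253) (nat_lit 235)) (XT.lf (nat_lit 0) (nat_lit 1577585889973) (nat_lit 76) (nat_lit 2062752653347) (nat_lit 76) (nat_lit 2062501202244) (nat_lit 1) (nat_lit 4) (nat_lit 2) (nat_lit 5)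 (nat_lit 2) (nat_lit 4) (nat_lit 413) (nat_lit 253) (nat_lit 234))) (XT.nd (nat_lit 78) (nat_lit 0) (nat_lit 0) (XT.lf (nat_lit 0) (nat_lit 1704732901536) (nat_lit 76) (nat_lit 2227276697848) (nat_lit 76) (nat_lit 2227019629228) (nat_lit 1) (nat_lit 4) (nat_lit 2) (nat_lit 5) (nat_lit 2) (nat_lit 4) (nat_lit 414) (nat_lit 253) (nat_lit 233)) (XT.lf (nat_lit 0) (nat_lit 1842030185790) (nat_lit 76) (nat_lit 2404973408073) (nat_lit 76) (nat_lit 2404711138048) (nat_lit 1) (nat_lit 4) (nat_lit 2) (nat_lit 5) (nat_lit 2) (nat_lit 4) (nat_lit 415) (nat_lit 253) (nat_lit 232)))) (XT.nd (nat_lit 156) (nat_lit 0) (nat_lit 0) (XT.nd (nat_lit 78) (nat_lit 0) (nat_lit 0) (XT.lf (nat_lit 0) (nat_lit 148916702600) (nat_lit 76) (nat_lit 208923129496) (nat_lit 76) (nat_lit 208923129496) (nat_lit 1) (nat_lit 4) (nat_lit 2) (nat_lit 5) (nat_lit 2) (nat_lit 4) (nat_lit 392) (nat_lit 254) (nat_lit 254)) (XT.lf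 (nat_lit 0) (nat_lit 323714233160) (nat_lit 76) (nat_lit 450218790937) (nat_lit 76) (nat_lit 450192607930) (nat_lit 1) (nat_lit 4) (nat_lit 2) (nat_lit 5) (nat_lit 2) (nat_lit 4) (nat_lit 393) (nat_lit 254) (nat_lit 253))) (XT.nd (nat_lit 78) (nat_lit 0) (nat_lit 0) (XT.lf (nat_lit 0) (nat_lit 351565371623) (nat_lit 76) (nat_lit 485231194202) (nat_lit 76) (nat_lit 485180767670) (nat_lit 1) (nat_lit 4) (nat_lit 2) (nat_lit 5) (nat_lit 2) (nat_lit 4) (nat_lit 394) (nat_lit 254) (nat_lit 252)) (XT.nd (nat_lit 78) (nat_lit 0) (nat_lit 0) (XT.lf (nat_lit 0) (nat_lit 381551864374) (nat_lit 76) (nat_lit 523090949696) (nat_lit 76) (nat_lit 523018075456) (nat_lit 1) (nat_lit 4) (nat_lit 2) (nat_lit 5) (nat_lit 2) (nat_lit 4) (nat_lit 395) (nat_lit 254) (nat_lit 251)) (XT.lf (nat_lit 0) (nat_lit 413851409149) (nat_lit 76) (nat_lit 564022411527) (nat_lit 76) (nat_lit 563928752372) (nat_lit 1) (nat_lit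 4) (nat_lit 2) (nat_lit 5) (nat_lit 2) (nat_lit 4) (nat_lit 396) (nat_lit 254) (nat_lit 250))))))))
noncomputable def xc4 : XT := (XT.nd (nat_lit 1326) (nat_lit 0) (nat_lit 0) (XT.nd (nat_lit 624) (nat_lit 0) (nat_lit 0) (XT.nd (nat_lit 312) (nat_lit 0) (nat_lit 0) (XT.nd (nat_lit 156) (nat_lit 0) (nat_lit 0) (XT.nd (nat_lit 78) (nat_lit 0) (nat_lit 0) (XT.lf (nat_lit 0) (nat_lit 448655410656) (nat_lit 76) (nat_lit 608268136504) (nat_lit 76) (nat_lit 608155232058) (nat_lit 1) (nat_lit 4) (nat_lit 2) (nat_lit 5) (nat_lit 2) (nat_lit 4) (nat_lit 397) (nat_lit 254) (nat_lit 249)) (XT.lf (nat_lit 0) (nat_lit 486170114830) (nat_lit 76) (nat_lit 656090321517) (nat_lit 76) (nat_lit 655959597357) (nat_lit 1) (nat_lit 4) (nat_lit 2) (nat_lit 5) (nat_lit 2) (nat_lit 4) (nat_lit 398) (nat_lit 254) (nat_lit 248))) (XT.nd (nat_lit 78) (nat_lit 0) (nat_lit 0) (XT.lf (nat_lit 0) (nat_lit 526617831030)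 (nat_lit 76) (nat_lit 707772357292) (nat_lit 76) (nat_lit 707625133396) (nat_lit 1) (nat_lit 4) (nat_lit 2) (nat_lit 5) (nat_lit 2) (nat_lit 4) (nat_lit 399) (nat_lit 254) (nat_lit 247)) (XT.lf (nat_lit 0) (nat_lit 570238249426) (nat_lit 76) (nat_lit 763620507745) (nat_lit 76) (nat_lit 763458006316) (nat_lit 1) (nat_lit 4) (nat_lit 2) (nat_lit 5) (nat_lit 2) (nat_lit 4) (nat_lit 400) (nat_lit 254) (nat_lit 246)))) (XT.nd (nat_lit 156) (nat_lit 0) (nat_lit 0) (XT.nd (nat_lit 78) (nat_lit 0) (nat_lit 0) (XT.lf (nat_lit 0) (nat_lit 617289861386) (nat_lit 76) (nat_lit 823965724877) (nat_lit 76) (nat_lit 823789077584) (nat_lit 1) (nat_lit 4) (nat_lit 2) (nat_lit 5) (nat_lit 2) (nat_lit 4) (nat_lit 401) (nat_lit 254) (nat_lit 245)) (XT.lf (nat_lit 0) (nat_lit 668051491278) (nat_lit 76) (nat_lit 889165609977) (nat_lit 76) (nat_lit 888975864662) (nat_lit 1) (nat_lit 4) (nat_lit 2) (nat_lit 5)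 (nat_lit 2) (nat_lit 4) (nat_lit 402) (nat_lit 254) (nat_lit 244))) (XT.nd (nat_lit 78) (nat_lit 0) (nat_lit 0) (XT.lf (nat_lit 0) (nat_lit 722823948759) (nat_lit 76) (nat_lit 959606532732) (nat_lit 76) (nat_lit 959404659619) (nat_lit 1) (nat_lit 4) (nat_lit 2) (nat_lit 5) (nat_lit 2) (nat_lit 4) (nat_lit 403) (nat_lit 254) (nat_lit 243)) (XT.lf (nat_lit 0) (nat_lit 781931811355) (nat_lit 76) (nat_lit 1035705920835) (nat_lit 76) (nat_lit 1035492818279) (nat_lit 1) (nat_lit 4) (nat_lit 2) (nat_lit 5) (nat_lit 2) (nat_lit 4) (nat_lit 404) (nat_lit 254) (nat_lit 242))))) (XT.nd (nat_lit 312) (nat_lit 0) (nat_lit 0) (XT.nd (nat_lit 156) (nat_lit 0) (nat_lit 0) (XT.nd (nat_lit 78) (nat_lit 0) (nat_lit 0) (XT.lf (nat_lit 0) (nat_lit 845725347883) (nat_lit 76) (nat_lit 1117914733621) (nat_lit 76) (nat_lit 1117691233433) (nat_lit 1) (nat_lit 4) (nat_lit 2) (nat_lit 5) (nat_lit 2) (nat_lit 4) (nat_lit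 405) (nat_lit 254) (nat_lit 241)) (XT.lf (nat_lit 0) (nat_lit 914582594113) (nat_lit 76) (nat_lit 1206720134426) (nat_lit 76) (nat_lit 1206487006800) (nat_lit 1) (nat_lit 4) (nat_lit 2) (nat_lit 5) (nat_lit 2) (nat_lit 4) (nat_lit 406) (nat_lit 254) (nat_lit 240))) (XT.nd (nat_lit 78) (nat_lit 0) (nat_lit 0) (XT.lf (nat_lit 0) (nat_lit 988911592988) (nat_lit 76) (nat_lit 1302648377476) (nat_lit 76) (nat_lit 1302406335557) (nat_lit 1) (nat_lit 4) (nat_lit 2) (nat_lit 5) (nat_lit 2) (nat_lit 4) (nat_lit 407) (nat_lit 254) (nat_lit 239)) (XT.lf (nat_lit 0) (nat_lit 1069152812647) (nat_lit 76) (nat_lit 1406267926434) (nat_lit 76) (nat_lit 1406017630539) (nat_lit 1) (nat_lit 4) (nat_lit 2) (nat_lit 5) (nat_lit 2) (nat_lit 4) (nat_lit 408) (nat_lit 254) (nat_lit 238)))) (XT.nd (nat_lit 156) (nat_lit 0) (nat_lit 0) (XT.nd (nat_lit 78) (nat_lit 0) (nat_lit 0) (XT.lf (nat_lit 0) (nat_lit 1155781756615)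 (nat_lit 76) (nat_lit 1518192823072) (nat_lit 76) (nat_lit 1517934884607) (nat_lit 1) (nat_lit 4) (nat_lit 2) (nat_lit 5) (nat_lit 2) (nat_lit 4) (nat_lit 409) (nat_lit 254) (nat_lit 237)) (XT.lf (nat_lit 0) (nat_lit 1249311781598) (nat_lit 76) (nat_lit 1639086326037) (nat_lit 76) (nat_lit 1638821311118) (nat_lit 1) (nat_lit 4) (nat_lit 2) (nat_lit 5) (nat_lit 2) (nat_lit 4) (nat_lit 410) (nat_lit 254) (nat_lit 236))) (XT.nd (nat_lit 78) (nat_lit 0) (nat_lit 0) (XT.lf (nat_lit 0) (nat_lit 1350297139594) (nat_lit 76) (nat_lit 1769664841272) (nat_lit 76) (nat_lit 1769393274081) (nat_lit 1) (nat_lit 4) (nat_lit 2) (nat_lit 5) (nat_lit 2) (nat_lit 4) (nat_lit 411) (nat_lit 254) (nat_lit 235)) (XT.nd (nat_lit 78) (nat_lit 0) (nat_lit 0) (XT.lf (nat_lit 0) (nat_lit 1459336262355) (nat_lit 76) (nat_lit 1910702167385) (nat_lit 76) (nat_lit 1910424533276) (nat_lit 1) (nat_lit 4) (nat_lit 2) (nat_lit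 5) (nat_lit 2) (nat_lit 4) (nat_lit 412) (nat_lit 254) (nat_lit 234)) (XT.lf (nat_lit 0) (nat_lit 1577075307646) (nat_lit 76) (nat_lit 2063034081125) (nat_lit 76) (nat_lit 2062750829499) (nat_lit 1) (nat_lit 4) (nat_lit 2) (nat_lit 5) (nat_lit 2) (nat_lit 4) (nat_lit 413) (nat_lit 254) (nat_lit 233))))))) (XT.nd (nat_lit 45474) (nat_lit 0) (nat_lit 0) (XT.nd (nat_lit 45162) (nat_lit 0) (nat_lit 0) (XT.nd (nat_lit 45006) (nat_lit 0) (nat_lit 0) (XT.nd (nat_lit 78) (nat_lit 0) (nat_lit 0) (XT.lf (nat_lit 0) (nat_lit 1704211988328) (nat_lit 76) (nat_lit 2227563290128) (nat_lit 76) (nat_lit 2227274837096) (nat_lit 1) (nat_lit 4) (nat_lit 2) (nat_lit 5) (nat_lit 2) (nat_lit 4) (nat_lit 414) (nat_lit 254) (nat_lit 232)) (XT.lf (nat_lit 0) (nat_lit 1841499706952) (nat_lit 76) (nat_lit 2405264782299) (nat_lit 76) (nat_lit 2404971513152) (nat_lit 1) (nat_lit 4) (nat_lit 2) (nat_lit 5) (nat_lit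 2) (nat_lit 4) (nat_lit 415) (nat_lit 254) (nat_lit 231))) (XT.nd (nat_lit 78) (nat_lit 0) (nat_lit 0) (XT.lf (nat_lit 0) (nat_lit 125718070320) (nat_lit 76) (nat_lit 180134083828) (nat_lit 76) (nat_lit 180134083828) (nat_lit 1) (nat_lit 4) (nat_lit 2) (nat_lit 5) (nat_lit 2) (nat_lit 4) (nat_lit 390) (nat_lit 255) (nat_lit 255)) (XT.lf (nat_lit 0) (nat_lit 273769519878) (nat_lit 76) (nat_lit 387950038791) (nat_lit 76) (nat_lit 387921761144) (nat_lit 1) (nat_lit 4) (nat_lit 2) (nat_lit 5) (nat_lit 2) (nat_lit 4) (nat_lit 391) (nat_lit 255) (nat_lit 254)))) (XT.nd (nat_lit 156) (nat_lit 0) (nat_lit 0) (XT.nd (nat_lit 78) (nat_lit 0) (nat_lit 0) (XT.lf (nat_lit 0) (nat_lit 297781401264) (nat_lit 76) (nat_lit 417900533884) (nat_lit 76) (nat_lit 417846073230) (nat_lit 1) (nat_lit 4) (nat_lit 2) (nat_lit 5) (nat_lit 2) (nat_lit 4) (nat_lit 392) (nat_lit 255) (nat_lit 253)) (XT.lf (nat_lit 0)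 (nat_lit 323614077428) (nat_lit 76) (nat_lit 450297137350) (nat_lit 76) (nat_lit 450218433171) (nat_lit 1) (nat_lit 4) (nat_lit 2) (nat_lit 5) (nat_lit 2) (nat_lit 4) (nat_lit 393) (nat_lit 255) (nat_lit 252))) (XT.nd (nat_lit 78) (nat_lit 0) (nat_lit 0) (XT.lf (nat_lit 0) (nat_lit 351420630896) (nat_lit 76) (nat_lit 485331829061) (nat_lit 76) (nat_lit 485230677174) (nat_lit 1) (nat_lit 4) (nat_lit 2) (nat_lit 5) (nat_lit 2) (nat_lit 4) (nat_lit 394) (nat_lit 255) (nat_lit 251)) (XT.lf (nat_lit 0) (nat_lit 381365841245) (nat_lit 76) (nat_lit 523212222006) (nat_lit 76) (nat_lit 523090285204) (nat_lit 1) (nat_lit 4) (nat_lit 2) (nat_lit 5) (nat_lit 2) (nat_lit 4) (nat_lit 395) (nat_lit 255) (nat_lit 250))))) (XT.nd (nat_lit 312) (nat_lit 0) (nat_lit 0) (XT.nd (nat_lit 156) (nat_lit 0) (nat_lit 0) (XT.nd (nat_lit 78) (nat_lit 0) (nat_lit 0) (XT.lf (nat_lit 0) (nat_lit 413627161573) (nat_lit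 76) (nat_lit 564162792586) (nat_lit 76) (nat_lit 564021610493) (nat_lit 1) (nat_lit 4) (nat_lit 2) (nat_lit 5) (nat_lit 2) (nat_lit 4) (nat_lit 396) (nat_lit 255) (nat_lit 249)) (XT.lf (nat_lit 0) (nat_lit 448395770073) (nat_lit 76) (nat_lit 608426210851) (nat_lit 76) (nat_lit 608267209043) (nat_lit 1) (nat_lit 4) (nat_lit 2) (nat_lit 5) (nat_lit 2) (nat_lit 4) (nat_lit 397) (nat_lit 255) (nat_lit 248))) (XT.nd (nat_lit 78) (nat_lit 0) (nat_lit 0) (XT.lf (nat_lit 0) (nat_lit 485877702946) (nat_lit 76) (nat_lit 656264778538) (nat_lit 76) (nat_lit 656089276995) (nat_lit 1) (nat_lit 4) (nat_lit 2) (nat_lit 5) (nat_lit 2) (nat_lit 4) (nat_lit 398) (nat_lit 255) (nat_lit 247)) (XT.lf (nat_lit 0) (nat_lit 526295075348) (nat_lit 76) (nat_lit 707961983455) (nat_lit 76) (nat_lit 707771204379) (nat_lit 1) (nat_lit 4) (nat_lit 2) (nat_lit 5) (nat_lit 2) (nat_lit 4) (nat_lit 399) (nat_lit 255) (nat_lit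 246)))) (XT.nd (nat_lit 156) (nat_lit 0) (nat_lit 0) (XT.nd (nat_lit 78) (nat_lit 0) (nat_lit 0) (XT.lf (nat_lit 0) (nat_lit 569887397635) (nat_lit 76) (nat_lit 763824179409) (nat_lit 76) (nat_lit 763619254469) (nat_lit 1) (nat_lit 4) (nat_lit 2) (nat_lit 5) (nat_lit 2) (nat_lit 4) (nat_lit 400) (nat_lit 255) (nat_lit 245)) (XT.lf (nat_lit 0) (nat_lit 616912994678) (nat_lit 76) (nat_lit 824182401636) (nat_lit 76) (nat_lit 823964378674) (nat_lit 1) (nat_lit 4) (nat_lit 2) (nat_lit 5) (nat_lit 2) (nat_lit 4) (nat_lit 401) (nat_lit 255) (nat_lit 244))) (XT.nd (nat_lit 78) (nat_lit 0) (nat_lit 0) (XT.lf (nat_lit 0) (nat_lit 667650536684) (nat_lit 76) (nat_lit 889394328490) (nat_lit 76) (nat_lit 889164177729) (nat_lit 1) (nat_lit 4) (nat_lit 2) (nat_lit 5) (nat_lit 2) (nat_lit 4) (nat_lit 402) (nat_lit 255) (nat_lit 243)) (XT.nd (nat_lit 78) (nat_lit 0) (nat_lit 0) (XT.lf (nat_lit 0) (nat_lit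 722400690568) (nat_lit 76) (nat_lit 959846401017) (nat_lit 76) (nat_lit 959605020814) (nat_lit 1) (nat_lit 4) (nat_lit 2) (nat_lit 5) (nat_lit 2) (nat_lit 4) (nat_lit 403) (nat_lit 255) (nat_lit 242)) (XT.lf (nat_lit 0) (nat_lit 781487901685) (nat_lit 76) (nat_lit 1035956112983) (nat_lit 76) (nat_lit 1035704335148) (nat_lit 1) (nat_lit 4) (nat_lit 2) (nat_lit 5) (nat_lit 2) (nat_lit 4) (nat_lit 404) (nat_lit 255) (nat_lit 241))))))))
noncomputable def xc5 : XT := (XT.nd (nat_lit 46020) (nat_lit 0) (nat_lit 0) (XT.nd (nat_lit 624) (nat_lit 0) (nat_lit 0) (XT.nd (nat_lit 312) (nat_lit 0) (nat_lit 0) (XT.nd (nat_lit 156) (nat_lit 0) (nat_lit 0) (XT.nd (nat_lit 78) (nat_lit 0) (nat_lit 0) (XT.lf (nat_lit 0) (nat_lit 845262316473) (nat_lit 76) (nat_lit 1118174484902) (nat_lit 76) (nat_lit 1117913079629) (nat_lit 1) (nat_lit 4) (nat_lit 2) (nat_lit 5) (nat_lit 2) (nat_lit 4) (nat_lit 405) (nat_lit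 255) (nat_lit 240)) (XT.lf (nat_lit 0) (nat_lit 914101857388) (nat_lit 76) (nat_lit 1206988736755) (nat_lit 76) (nat_lit 1206718417189) (nat_lit 1) (nat_lit 4) (nat_lit 2) (nat_lit 5) (nat_lit 2) (nat_lit 4) (nat_lit 406) (nat_lit 255) (nat_lit 239))) (XT.nd (nat_lit 78) (nat_lit 0) (nat_lit 0) (XT.lf (nat_lit 0) (nat_lit 988414462453) (nat_lit 76) (nat_lit 1302925175221) (nat_lit 76) (nat_lit 1302646601679) (nat_lit 1) (nat_lit 4) (nat_lit 2) (nat_lit 5) (nat_lit 2) (nat_lit 4) (nat_lit 407) (nat_lit 255) (nat_lit 238)) (XT.lf (nat_lit 0) (nat_lit 1068640502658) (nat_lit 76) (nat_lit 1406552312527) (nat_lit 76) (nat_lit 1406266096415) (nat_lit 1) (nat_lit 4) (nat_lit 2) (nat_lit 5) (nat_lit 2) (nat_lit 4) (nat_lit 408) (nat_lit 255) (nat_lit 237)))) (XT.nd (nat_lit 156) (nat_lit 0) (nat_lit 0) (XT.nd (nat_lit 78) (nat_lit 0) (nat_lit 0) (XT.lf (nat_lit 0) (nat_lit 1155255391577) (nat_lit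 76) (nat_lit 1518484235413) (nat_lit 76) (nat_lit 1518190942847) (nat_lit 1) (nat_lit 4) (nat_lit 2) (nat_lit 5) (nat_lit 2) (nat_lit 4) (nat_lit 409) (nat_lit 255) (nat_lit 236)) (XT.lf (nat_lit 0) (nat_lit 1248772402624) (nat_lit 76) (nat_lit 1639384244163) (nat_lit 76) (nat_lit 1639084399325) (nat_lit 1) (nat_lit 4) (nat_lit 2) (nat_lit 5) (nat_lit 2) (nat_lit 4) (nat_lit 410) (nat_lit 255) (nat_lit 235))) (XT.nd (nat_lit 78) (nat_lit 0) (nat_lit 0) (XT.lf (nat_lit 0) (nat_lit 1349745710681) (nat_lit 76) (nat_lit 1769968783272) (nat_lit 76) (nat_lit 1769662871516) (nat_lit 1) (nat_lit 4) (nat_lit 2) (nat_lit 5) (nat_lit 2) (nat_lit 4) (nat_lit 411) (nat_lit 255) (nat_lit 234)) (XT.lf (nat_lit 0) (nat_lit 1458773676091) (nat_lit 76) (nat_lit 1911011687048) (nat_lit 76) (nat_lit 1910700157774) (nat_lit 1) (nat_lit 4) (nat_lit 2) (nat_lit 5) (nat_lit 2) (nat_lit 4) (nat_lit 412) (nat_lit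 255) (nat_lit 233))))) (XT.nd (nat_lit 45006) (nat_lit 0) (nat_lit 0) (XT.nd (nat_lit 156) (nat_lit 0) (nat_lit 0) (XT.nd (nat_lit 78) (nat_lit 0) (nat_lit 0) (XT.lf (nat_lit 0) (nat_lit 1576502390500) (nat_lit 76) (nat_lit 2063348765289) (nat_lit 76) (nat_lit 2063032034611) (nat_lit 1) (nat_lit 4) (nat_lit 2) (nat_lit 5) (nat_lit 2) (nat_lit 4) (nat_lit 413) (nat_lit 255) (nat_lit 232)) (XT.lf (nat_lit 0) (nat_lit 1703629505551) (nat_lit 76) (nat_lit 2227882756238) (nat_lit 76) (nat_lit 2227561209444) (nat_lit 1) (nat_lit 4) (nat_lit 2) (nat_lit 5) (nat_lit 2) (nat_lit 4) (nat_lit 414) (nat_lit 255) (nat_lit 231))) (XT.nd (nat_lit 44772) (nat_lit 0) (nat_lit 0) (XT.lf (nat_lit 0) (nat_lit 1840908367110) (nat_lit 76) (nat_lit 2405588676137) (nat_lit 76) (nat_lit 2405262669977) (nat_lit 1) (nat_lit 4) (nat_lit 2) (nat_lit 5) (nat_lit 2) (nat_lit 4) (nat_lit 415) (nat_lit 255) (nat_lit 230))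 (XT.lf (nat_lit 0) (nat_lit 105672662304) (nat_lit 76) (nat_lit 155533411334) (nat_lit 76) (nat_lit 155533411334) (nat_lit 1) (nat_lit 4) (nat_lit 2) (nat_lit 5) (nat_lit 2) (nat_lit 4) (nat_lit 388) (nat_lit 256) (nat_lit 256)))) (XT.nd (nat_lit 156) (nat_lit 0) (nat_lit 0) (XT.nd (nat_lit 78) (nat_lit 0) (nat_lit 0) (XT.lf (nat_lit 0) (nat_lit 230648917602) (nat_lit 76) (nat_lit 334721419621) (nat_lit 76) (nat_lit 334690879762) (nat_lit 1) (nat_lit 4) (nat_lit 2) (nat_lit 5) (nat_lit 2) (nat_lit 4) (nat_lit 389) (nat_lit 256) (nat_lit 255)) (XT.lf (nat_lit 0) (nat_lit 251379976388) (nat_lit 76) (nat_lit 360326784539) (nat_lit 76) (nat_lit 360267967033) (nat_lit 1) (nat_lit 4) (nat_lit 2) (nat_lit 5) (nat_lit 2) (nat_lit 4) (nat_lit 390) (nat_lit 256) (nat_lit 254))) (XT.nd (nat_lit 78) (nat_lit 0) (nat_lit 0) (XT.lf (nat_lit 0) (nat_lit 273661351688) (nat_lit 76) (nat_lit 388034652918)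 (nat_lit 76) (nat_lit 387949652404) (nat_lit 1) (nat_lit 4) (nat_lit 2) (nat_lit 5) (nat_lit 2) (nat_lit 4) (nat_lit 391) (nat_lit 256) (nat_lit 253)) (XT.nd (nat_lit 78) (nat_lit 0) (nat_lit 0) (XT.lf (nat_lit 0) (nat_lit 297625081279) (nat_lit 76) (nat_lit 418009219532) (nat_lit 76) (nat_lit 417899975494) (nat_lit 1) (nat_lit 4) (nat_lit 2) (nat_lit 5) (nat_lit 2) (nat_lit 4) (nat_lit 392) (nat_lit 256) (nat_lit 252)) (XT.lf (nat_lit 0) (nat_lit 323413172448) (nat_lit 76) (nat_lit 450428111444) (nat_lit 76) (nat_lit 450296419698) (nat_lit 1) (nat_lit 4) (nat_lit 2) (nat_lit 5) (nat_lit 2) (nat_lit 4) (nat_lit 393) (nat_lit 256) (nat_lit 251))))))) (XT.nd (nat_lit 624) (nat_lit 0) (nat_lit 0) (XT.nd (nat_lit 312) (nat_lit 0) (nat_lit 0) (XT.nd (nat_lit 156) (nat_lit 0) (nat_lit 0) (XT.nd (nat_lit 78) (nat_lit 0) (nat_lit 0) (XT.lf (nat_lit 0) (nat_lit 351178443514) (nat_lit 76) (nat_lit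 485483440606) (nat_lit 76) (nat_lit 485330963945) (nat_lit 1) (nat_lit 4) (nat_lit 2) (nat_lit 5) (nat_lit 2) (nat_lit 4) (nat_lit 394) (nat_lit 256) (nat_lit 250)) (XT.lf (nat_lit 0) (nat_lit 381085429417) (nat_lit 76) (nat_lit 523382942301) (nat_lit 76) (nat_lit 523211220348) (nat_lit 1) (nat_lit 4) (nat_lit 2) (nat_lit 5) (nat_lit 2) (nat_lit 4) (nat_lit 395) (nat_lit 256) (nat_lit 249))) (XT.nd (nat_lit 78) (nat_lit 0) (nat_lit 0) (XT.lf (nat_lit 0) (nat_lit 413311356738) (nat_lit 76) (nat_lit 564351206169) (nat_lit 76) (nat_lit 564161664502) (nat_lit 1) (nat_lit 4) (nat_lit 2) (nat_lit 5) (nat_lit 2) (nat_lit 4) (nat_lit 396) (nat_lit 256) (nat_lit 248)) (XT.lf (nat_lit 0) (nat_lit 448047193936) (nat_lit 76) (nat_lit 608631007107) (nat_lit 76) (nat_lit 608424965704) (nat_lit 1) (nat_lit 4) (nat_lit 2) (nat_lit 5) (nat_lit 2) (nat_lit 4) (nat_lit 397) (nat_lit 256) (nat_lit 247))))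 (XT.nd (nat_lit 156) (nat_lit 0) (nat_lit 0) (XT.nd (nat_lit 78) (nat_lit 0) (nat_lit 0) (XT.lf (nat_lit 0) (nat_lit 485498783011) (nat_lit 76) (nat_lit 656484743936) (nat_lit 76) (nat_lit 656263425000) (nat_lit 1) (nat_lit 4) (nat_lit 2) (nat_lit 5) (nat_lit 2) (nat_lit 4) (nat_lit 398) (nat_lit 256) (nat_lit 246)) (XT.lf (nat_lit 0) (nat_lit 525888059303) (nat_lit 76) (nat_lit 708195994354) (nat_lit 76) (nat_lit 707960529555) (nat_lit 1) (nat_lit 4) (nat_lit 2) (nat_lit 5) (nat_lit 2) (nat_lit 4) (nat_lit 399) (nat_lit 256) (nat_lit 245))) (XT.nd (nat_lit 78) (nat_lit 0) (nat_lit 0) (XT.lf (nat_lit 0) (nat_lit 569454366674) (nat_lit 76) (nat_lit 764071195403) (nat_lit 76) (nat_lit 763822632582) (nat_lit 1) (nat_lit 4) (nat_lit 2) (nat_lit 5) (nat_lit 2) (nat_lit 4) (nat_lit 400) (nat_lit 256) (nat_lit 244)) (XT.lf (nat_lit 0) (nat_lit 616455875832) (nat_lit 76) (nat_lit 824441459384)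 (nat_lit 76) (nat_lit 824180768764) (nat_lit 1) (nat_lit 4) (nat_lit 2) (nat_lit 5) (nat_lit 2) (nat_lit 4) (nat_lit 401) (nat_lit 256) (nat_lit 243))))) (XT.nd (nat_lit 312) (nat_lit 0) (nat_lit 0) (XT.nd (nat_lit 156) (nat_lit 0) (nat_lit 0) (XT.nd (nat_lit 78) (nat_lit 0) (nat_lit 0) (XT.lf (nat_lit 0) (nat_lit 667171114241) (nat_lit 76) (nat_lit 889664536010) (nat_lit 76) (nat_lit 889392615947) (nat_lit 1) (nat_lit 4) (nat_lit 2) (nat_lit 5) (nat_lit 2) (nat_lit 4) (nat_lit 402) (nat_lit 256) (nat_lit 242)) (XT.lf (nat_lit 0) (nat_lit 721900616645) (nat_lit 76) (nat_lit 960126932401) (nat_lit 76) (nat_lit 959844614706) (nat_lit 1) (nat_lit 4) (nat_lit 2) (nat_lit 5) (nat_lit 2) (nat_lit 4) (nat_lit 403) (nat_lit 256) (nat_lit 241))) (XT.nd (nat_lit 78) (nat_lit 0) (nat_lit 0) (XT.lf (nat_lit 0) (nat_lit 780968706022) (nat_lit 76) (nat_lit 1036246203499) (nat_lit 76) (nat_lit 1035954258367)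 (nat_lit 1) (nat_lit 4) (nat_lit 2) (nat_lit 5) (nat_lit 2) (nat_lit 4) (nat_lit 404) (nat_lit 256) (nat_lit 240)) (XT.lf (nat_lit 0) (nat_lit 844725415495) (nat_lit 76) (nat_lit 1118473426466) (nat_lit 76) (nat_lit 1118172567041) (nat_lit 1) (nat_lit 4) (nat_lit 2) (nat_lit 5) (nat_lit 2) (nat_lit 4) (nat_lit 405) (nat_lit 256) (nat_lit 239)))) (XT.nd (nat_lit 156) (nat_lit 0) (nat_lit 0) (XT.nd (nat_lit 78) (nat_lit 0) (nat_lit 0) (XT.lf (nat_lit 0) (nat_lit 913548562601) (nat_lit 76) (nat_lit 1207295873735) (nat_lit 76) (nat_lit 1206986760334) (nat_lit 1) (nat_lit 4) (nat_lit 2) (nat_lit 5) (nat_lit 2) (nat_lit 4) (nat_lit 406) (nat_lit 256) (nat_lit 238)) (XT.lf (nat_lit 0) (nat_lit 987845988211) (nat_lit 76) (nat_lit 1303239900548) (nat_lit 76) (nat_lit 1302923144577) (nat_lit 1) (nat_lit 4) (nat_lit 2) (nat_lit 5) (nat_lit 2) (nat_lit 4) (nat_lit 407) (nat_lit 256) (nat_lit 237)))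 (XT.nd (nat_lit 78) (nat_lit 0) (nat_lit 0) (XT.lf (nat_lit 0) (nat_lit 1068057973367) (nat_lit 76) (nat_lit 1406874064102) (nat_lit 76) (nat_lit 1406550231677) (nat_lit 1) (nat_lit 4) (nat_lit 2) (nat_lit 5) (nat_lit 2) (nat_lit 4) (nat_lit 408) (nat_lit 256) (nat_lit 236)) (XT.nd (nat_lit 78) (nat_lit 0) (nat_lit 0) (XT.lf (nat_lit 0) (nat_lit 1154659848351) (nat_lit 76) (nat_lit 1518812492773) (nat_lit 76) (nat_lit 1518482108076) (nat_lit 1) (nat_lit 4) (nat_lit 2) (nat_lit 5) (nat_lit 2) (nat_lit 4) (nat_lit 409) (nat_lit 256) (nat_lit 235)) (XT.lf (nat_lit 0) (nat_lit 1248164809459) (nat_lit 76) (nat_lit 1639718525398) (nat_lit 76) (nat_lit 1639382073782) (nat_lit 1) (nat_lit 4) (nat_lit 2) (nat_lit 5) (nat_lit 2) (nat_lit 4) (nat_lit 410) (nat_lit 256) (nat_lit 234))))))))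
noncomputable def xc6 : XT := (XT.nd (nat_lit 45864) (nat_lit 0) (nat_lit 0) (XT.nd (nat_lit 45162) (nat_lit 0) (nat_lit 0) (XT.nd (nat_lit 312) (nat_lit 0) (nat_lit 0) (XT.nd (nat_lit 156) (nat_lit 0) (nat_lit 0) (XT.nd (nat_lit 78) (nat_lit 0) (nat_lit 0) (XT.lf (nat_lit 0) (nat_lit 1349126960163) (nat_lit 76) (nat_lit 1770308642170) (nat_lit 76) (nat_lit 1769966573037) (nat_lit 1) (nat_lit 4) (nat_lit 2) (nat_lit 5) (nat_lit 2) (nat_lit 4) (nat_lit 411) (nat_lit 256) (nat_lit 233)) (XT.lf (nat_lit 0) (nat_lit 1458144594692) (nat_lit 76) (nat_lit 1911356710447) (nat_lit 76) (nat_lit 1911009439910) (nat_lit 1) (nat_lit 4) (nat_lit 2) (nat_lit 5) (nat_lit 2) (nat_lit 4) (nat_lit 412) (nat_lit 256) (nat_lit 232))) (XT.nd (nat_lit 78) (nat_lit 0) (nat_lit 0) (XT.lf (nat_lit 0) (nat_lit 1575863743471) (nat_lit 76) (nat_lit 2063698570635) (nat_lit 76) (nat_lit 2063346483982) (nat_lit 1) (nat_lit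 4) (nat_lit 2) (nat_lit 5) (nat_lit 2) (nat_lit 4) (nat_lit 413) (nat_lit 256) (nat_lit 231)) (XT.lf (nat_lit 0) (nat_lit 1702982001456) (nat_lit 76) (nat_lit 2228236989312) (nat_lit 76) (nat_lit 2227880443292) (nat_lit 1) (nat_lit 4) (nat_lit 2) (nat_lit 5) (nat_lit 2) (nat_lit 4) (nat_lit 414) (nat_lit 256) (nat_lit 230)))) (XT.nd (nat_lit 44694) (nat_lit 0) (nat_lit 0) (XT.nd (nat_lit 44616) (nat_lit 0) (nat_lit 0) (XT.lf (nat_lit 0) (nat_lit 1840252662028) (nat_lit 76) (nat_lit 2405947008959) (nat_lit 76) (nat_lit 2405586333897) (nat_lit 1) (nat_lit 4) (nat_lit 2) (nat_lit 5) (nat_lit 2) (nat_lit 4) (nat_lit 415) (nat_lit 256) (nat_lit 229)) (XT.lf (nat_lit 0) (nat_lit 88318130259) (nat_lit 76) (nat_lit 134530097271) (nat_lit 76) (nat_lit 134530097271) (nat_lit 1) (nat_lit 4) (nat_lit 2) (nat_lit 5) (nat_lit 2) (nat_lit 4) (nat_lit 386) (nat_lit 257) (nat_lit 257))) (XT.nd (nat_lit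 78) (nat_lit 0) (nat_lit 0) (XT.lf (nat_lit 0) (nat_lit 193354805746) (nat_lit 76) (nat_lit 289255801337) (nat_lit 76) (nat_lit 289222818290) (nat_lit 1) (nat_lit 4) (nat_lit 2) (nat_lit 5) (nat_lit 2) (nat_lit 4) (nat_lit 387) (nat_lit 257) (nat_lit 256)) (XT.lf (nat_lit 0) (nat_lit 211284667215) (nat_lit 76) (nat_lit 311130128901) (nat_lit 76) (nat_lit 311066605994) (nat_lit 1) (nat_lit 4) (nat_lit 2) (nat_lit 5) (nat_lit 2) (nat_lit 4) (nat_lit 388) (nat_lit 257) (nat_lit 255))))) (XT.nd (nat_lit 312) (nat_lit 0) (nat_lit 0) (XT.nd (nat_lit 156) (nat_lit 0) (nat_lit 0) (XT.nd (nat_lit 78) (nat_lit 0) (nat_lit 0) (XT.lf (nat_lit 0) (nat_lit 230532095956) (nat_lit 76) (nat_lit 334812802877) (nat_lit 76) (nat_lit 334721002323) (nat_lit 1) (nat_lit 4) (nat_lit 2) (nat_lit 5) (nat_lit 2) (nat_lit 4) (nat_lit 389) (nat_lit 257) (nat_lit 254)) (XT.lf (nat_lit 0) (nat_lit 251211150805) (nat_lit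 76) (nat_lit 360444165039) (nat_lit 76) (nat_lit 360326181478) (nat_lit 1) (nat_lit 4) (nat_lit 2) (nat_lit 5) (nat_lit 2) (nat_lit 4) (nat_lit 390) (nat_lit 257) (nat_lit 253))) (XT.nd (nat_lit 78) (nat_lit 0) (nat_lit 0) (XT.lf (nat_lit 0) (nat_lit 273444374310) (nat_lit 76) (nat_lit 388176104939) (nat_lit 76) (nat_lit 388033877854) (nat_lit 1) (nat_lit 4) (nat_lit 2) (nat_lit 5) (nat_lit 2) (nat_lit 4) (nat_lit 391) (nat_lit 257) (nat_lit 252)) (XT.lf (nat_lit 0) (nat_lit 297363518906) (nat_lit 76) (nat_lit 418172960000) (nat_lit 76) (nat_lit 418008285207) (nat_lit 1) (nat_lit 4) (nat_lit 2) (nat_lit 5) (nat_lit 2) (nat_lit 4) (nat_lit 392) (nat_lit 257) (nat_lit 251)))) (XT.nd (nat_lit 156) (nat_lit 0) (nat_lit 0) (XT.nd (nat_lit 78) (nat_lit 0) (nat_lit 0) (XT.lf (nat_lit 0) (nat_lit 323110327673) (nat_lit 76) (nat_lit 450612489363) (nat_lit 76) (nat_lit 450427029654) (nat_lit 1)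 (nat_lit 4) (nat_lit 2) (nat_lit 5) (nat_lit 2) (nat_lit 4) (nat_lit 393) (nat_lit 257) (nat_lit 250)) (XT.lf (nat_lit 0) (nat_lit 350837374293) (nat_lit 76) (nat_lit 485686927274) (nat_lit 76) (nat_lit 485482222274) (nat_lit 1) (nat_lit 4) (nat_lit 2) (nat_lit 5) (nat_lit 2) (nat_lit 4) (nat_lit 394) (nat_lit 257) (nat_lit 249))) (XT.nd (nat_lit 78) (nat_lit 0) (nat_lit 0) (XT.lf (nat_lit 0) (nat_lit 380708967189) (nat_lit 76) (nat_lit 523604122257) (nat_lit 76) (nat_lit 523381597542) (nat_lit 1) (nat_lit 4) (nat_lit 2) (nat_lit 5) (nat_lit 2) (nat_lit 4) (nat_lit 395) (nat_lit 257) (nat_lit 248)) (XT.nd (nat_lit 78) (nat_lit 0) (nat_lit 0) (XT.lf (nat_lit 0) (nat_lit 412902123208) (nat_lit 76) (nat_lit 564588768798) (nat_lit 76) (nat_lit 564349744348) (nat_lit 1) (nat_lit 4) (nat_lit 2) (nat_lit 5) (nat_lit 2) (nat_lit 4) (nat_lit 396) (nat_lit 257) (nat_lit 247)) (XT.lf (nat_lit 0)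 (nat_lit 447607616608) (nat_lit 76) (nat_lit 608883738878) (nat_lit 76) (nat_lit 608629436895) (nat_lit 1) (nat_lit 4) (nat_lit 2) (nat_lit 5) (nat_lit 2) (nat_lit 4) (nat_lit 397) (nat_lit 257) (nat_lit 246))))))) (XT.nd (nat_lit 624) (nat_lit 0) (nat_lit 0) (XT.nd (nat_lit 312) (nat_lit 0) (nat_lit 0) (XT.nd (nat_lit 156) (nat_lit 0) (nat_lit 0) (XT.nd (nat_lit 78) (nat_lit 0) (nat_lit 0) (XT.lf (nat_lit 0) (nat_lit 485031109573) (nat_lit 76) (nat_lit 656751521209) (nat_lit 76) (nat_lit 656483073362) (nat_lit 1) (nat_lit 4) (nat_lit 2) (nat_lit 5) (nat_lit 2) (nat_lit 4) (nat_lit 398) (nat_lit 257) (nat_lit 245)) (XT.lf (nat_lit 0) (nat_lit 525394370949) (nat_lit 76) (nat_lit 708475776722) (nat_lit 76) (nat_lit 708194230853) (nat_lit 1) (nat_lit 4) (nat_lit 2) (nat_lit 5) (nat_lit 2) (nat_lit 4) (nat_lit 399) (nat_lit 257) (nat_lit 244))) (XT.nd (nat_lit 78) (nat_lit 0) (nat_lit 0) (XT.lf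 (nat_lit 0) (nat_lit 568936590435) (nat_lit 76) (nat_lit 764363019525) (nat_lit 76) (nat_lit 764069345857) (nat_lit 1) (nat_lit 4) (nat_lit 2) (nat_lit 5) (nat_lit 2) (nat_lit 4) (nat_lit 400) (nat_lit 257) (nat_lit 243)) (XT.lf (nat_lit 0) (nat_lit 615915795995) (nat_lit 76) (nat_lit 824744433278) (nat_lit 76) (nat_lit 824439530168) (nat_lit 1) (nat_lit 4) (nat_lit 2) (nat_lit 5) (nat_lit 2) (nat_lit 4) (nat_lit 401) (nat_lit 257) (nat_lit 242)))) (XT.nd (nat_lit 156) (nat_lit 0) (nat_lit 0) (XT.nd (nat_lit 78) (nat_lit 0) (nat_lit 0) (XT.lf (nat_lit 0) (nat_lit 666610382925) (nat_lit 76) (nat_lit 889977833767) (nat_lit 76) (nat_lit 889662533024) (nat_lit 1) (nat_lit 4) (nat_lit 2) (nat_lit 5) (nat_lit 2) (nat_lit 4) (nat_lit 402) (nat_lit 257) (nat_lit 241)) (XT.lf (nat_lit 0) (nat_lit 721320763589) (nat_lit 76) (nat_lit 960449789290) (nat_lit 76) (nat_lit 960124861111) (nat_lit 1) (nat_lit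 4) (nat_lit 2) (nat_lit 5) (nat_lit 2) (nat_lit 4) (nat_lit 403) (nat_lit 257) (nat_lit 240))) (XT.nd (nat_lit 78) (nat_lit 0) (nat_lit 0) (XT.lf (nat_lit 0) (nat_lit 780371147651) (nat_lit 76) (nat_lit 1036577911437) (nat_lit 76) (nat_lit 1036244068964) (nat_lit 1) (nat_lit 4) (nat_lit 2) (nat_lit 5) (nat_lit 2) (nat_lit 4) (nat_lit 404) (nat_lit 257) (nat_lit 239)) (XT.lf (nat_lit 0) (nat_lit 844111463314) (nat_lit 76) (nat_lit 1118813329820) (nat_lit 76) (nat_lit 1118471233371) (nat_lit 1) (nat_lit 4) (nat_lit 2) (nat_lit 5) (nat_lit 2) (nat_lit 4) (nat_lit 405) (nat_lit 257) (nat_lit 238))))) (XT.nd (nat_lit 312) (nat_lit 0) (nat_lit 0) (XT.nd (nat_lit 156) (nat_lit 0) (nat_lit 0) (XT.nd (nat_lit 78) (nat_lit 0) (nat_lit 0) (XT.lf (nat_lit 0) (nat_lit 912919430966) (nat_lit 76) (nat_lit 1207643365436) (nat_lit 76) (nat_lit 1207293626417) (nat_lit 1) (nat_lit 4) (nat_lit 2) (nat_lit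 5) (nat_lit 2) (nat_lit 4) (nat_lit 406) (nat_lit 257) (nat_lit 237)) (XT.lf (nat_lit 0) (nat_lit 987202801527) (nat_lit 76) (nat_lit 1303594418498) (nat_lit 76) (nat_lit 1303237603025) (nat_lit 1) (nat_lit 4) (nat_lit 2) (nat_lit 5) (nat_lit 2) (nat_lit 4) (nat_lit 407) (nat_lit 257) (nat_lit 236))) (XT.nd (nat_lit 78) (nat_lit 0) (nat_lit 0) (XT.lf (nat_lit 0) (nat_lit 1067401772748) (nat_lit 76) (nat_lit 1407235087837) (nat_lit 76) (nat_lit 1406871720092) (nat_lit 1) (nat_lit 4) (nat_lit 2) (nat_lit 5) (nat_lit 2) (nat_lit 4) (nat_lit 408) (nat_lit 257) (nat_lit 235)) (XT.lf (nat_lit 0) (nat_lit 1153991597792) (nat_lit 76) (nat_lit 1519179540383) (nat_lit 76) (nat_lit 1518810105719) (nat_lit 1) (nat_lit 4) (nat_lit 2) (nat_lit 5) (nat_lit 2) (nat_lit 4) (nat_lit 409) (nat_lit 257) (nat_lit 234)))) (XT.nd (nat_lit 156) (nat_lit 0) (nat_lit 0) (XT.nd (nat_lit 78) (nat_lit 0) (nat_lit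 0) (XT.lf (nat_lit 0) (nat_lit 1247485401548) (nat_lit 76) (nat_lit 1640091150669) (nat_lit 76) (nat_lit 1639716098489) (nat_lit 1) (nat_lit 4) (nat_lit 2) (nat_lit 5) (nat_lit 2) (nat_lit 4) (nat_lit 410) (nat_lit 257) (nat_lit 233)) (XT.lf (nat_lit 0) (nat_lit 1348437221372) (nat_lit 76) (nat_lit 1770686431943) (nat_lit 76) (nat_lit 1770306178358) (nat_lit 1) (nat_lit 4) (nat_lit 2) (nat_lit 5) (nat_lit 2) (nat_lit 4) (nat_lit 411) (nat_lit 257) (nat_lit 232))) (XT.nd (nat_lit 78) (nat_lit 0) (nat_lit 0) (XT.lf (nat_lit 0) (nat_lit 1457445290270) (nat_lit 76) (nat_lit 1911739282167) (nat_lit 76) (nat_lit 1911354212466) (nat_lit 1) (nat_lit 4) (nat_lit 2) (nat_lit 5) (nat_lit 2) (nat_lit 4) (nat_lit 412) (nat_lit 257) (nat_lit 231)) (XT.nd (nat_lit 78) (nat_lit 0) (nat_lit 0) (XT.lf (nat_lit 0) (nat_lit 1575155581983) (nat_lit 76) (nat_lit 2064085570082) (nat_lit 76) (nat_lit 2063696041015)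 (nat_lit 1) (nat_lit 4) (nat_lit 2) (nat_lit 5) (nat_lit 2) (nat_lit 4) (nat_lit 413) (nat_lit 257) (nat_lit 230)) (XT.lf (nat_lit 0) (nat_lit 1702265638982) (nat_lit 76) (nat_lit 2228628088507) (nat_lit 76) (nat_lit 2228234430397) (nat_lit 1) (nat_lit 4) (nat_lit 2) (nat_lit 5) (nat_lit 2) (nat_lit 4) (nat_lit 414) (nat_lit 257) (nat_lit 229))))))))
noncomputable def xc7 : XT := (XT.nd (nat_lit 45708) (nat_lit 0) (nat_lit 0) (XT.nd (nat_lit 45006) (nat_lit 0) (nat_lit 0) (XT.nd (nat_lit 44694) (nat_lit 0) (nat_lit 0) (XT.nd (nat_lit 44538) (nat_lit 0) (nat_lit 0) (XT.nd (nat_lit 44460) (nat_lit 0) (nat_lit 0) (XT.lf (nat_lit 0) (nat_lit 1839528706048) (nat_lit 76) (nat_lit 2406341904218) (nat_lit 76) (nat_lit 2405944422920) (nat_lit 1) (nat_lit 4) (nat_lit 2) (nat_lit 5) (nat_lit 2) (nat_lit 4) (nat_lit 415) (nat_lit 257) (nat_lit 228)) (XT.lf (nat_lit 0) (nat_lit 73257084598) (nat_lit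 76) (nat_lit 116617962041) (nat_lit 76) (nat_lit 116617962041) (nat_lit 1) (nat_lit 4) (nat_lit 2) (nat_lit 5) (nat_lit 2) (nat_lit 4) (nat_lit 384) (nat_lit 258) (nat_lit 258))) (XT.nd (nat_lit 78) (nat_lit 0) (nat_lit 0) (XT.lf (nat_lit 0) (nat_lit 161029958671) (nat_lit 76) (nat_lit 250459252539) (nat_lit 76) (nat_lit 250423630847) (nat_lit 1) (nat_lit 4) (nat_lit 2) (nat_lit 5) (nat_lit 2) (nat_lit 4) (nat_lit 385) (nat_lit 258) (nat_lit 257)) (XT.lf (nat_lit 0) (nat_lit 176570750534) (nat_lit 76) (nat_lit 269128565274) (nat_lit 76) (nat_lit 269059960535) (nat_lit 1) (nat_lit 4) (nat_lit 2) (nat_lit 5) (nat_lit 2) (nat_lit 4) (nat_lit 386) (nat_lit 258) (nat_lit 256)))) (XT.nd (nat_lit 156) (nat_lit 0) (nat_lit 0) (XT.nd (nat_lit 78) (nat_lit 0) (nat_lit 0) (XT.lf (nat_lit 0) (nat_lit 193228638369) (nat_lit 76) (nat_lit 289354495254) (nat_lit 76) (nat_lit 289255350656) (nat_lit 1)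 (nat_lit 4) (nat_lit 2) (nat_lit 5) (nat_lit 2) (nat_lit 4) (nat_lit 387) (nat_lit 258) (nat_lit 255)) (XT.lf (nat_lit 0) (nat_lit 211102335585) (nat_lit 76) (nat_lit 311256899841) (nat_lit 76) (nat_lit 311129477595) (nat_lit 1) (nat_lit 4) (nat_lit 2) (nat_lit 5) (nat_lit 2) (nat_lit 4) (nat_lit 388) (nat_lit 258) (nat_lit 254))) (XT.nd (nat_lit 78) (nat_lit 0) (nat_lit 0) (XT.lf (nat_lit 0) (nat_lit 230297760388) (nat_lit 76) (nat_lit 334965571061) (nat_lit 76) (nat_lit 334811965808) (nat_lit 1) (nat_lit 4) (nat_lit 2) (nat_lit 5) (nat_lit 2) (nat_lit 4) (nat_lit 389) (nat_lit 258) (nat_lit 253)) (XT.lf (nat_lit 0) (nat_lit 250928663442) (nat_lit 76) (nat_lit 360621004745) (nat_lit 76) (nat_lit 360443155967) (nat_lit 1) (nat_lit 4) (nat_lit 2) (nat_lit 5) (nat_lit 2) (nat_lit 4) (nat_lit 390) (nat_lit 258) (nat_lit 252))))) (XT.nd (nat_lit 312) (nat_lit 0) (nat_lit 0) (XT.nd (nat_lit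 156) (nat_lit 0) (nat_lit 0) (XT.nd (nat_lit 78) (nat_lit 0) (nat_lit 0) (XT.lf (nat_lit 0) (nat_lit 273117301953) (nat_lit 76) (nat_lit 388375233091) (nat_lit 76) (nat_lit 388174936606) (nat_lit 1) (nat_lit 4) (nat_lit 2) (nat_lit 5) (nat_lit 2) (nat_lit 4) (nat_lit 391) (nat_lit 258) (nat_lit 251)) (XT.lf (nat_lit 0) (nat_lit 296995164147) (nat_lit 76) (nat_lit 418392725603) (nat_lit 76) (nat_lit 418171644202) (nat_lit 1) (nat_lit 4) (nat_lit 2) (nat_lit 5) (nat_lit 2) (nat_lit 4) (nat_lit 392) (nat_lit 258) (nat_lit 250))) (XT.nd (nat_lit 78) (nat_lit 0) (nat_lit 0) (XT.lf (nat_lit 0) (nat_lit 322703748467) (nat_lit 76) (nat_lit 450851363715) (nat_lit 76) (nat_lit 450611037023) (nat_lit 1) (nat_lit 4) (nat_lit 2) (nat_lit 5) (nat_lit 2) (nat_lit 4) (nat_lit 393) (nat_lit 258) (nat_lit 249)) (XT.lf (nat_lit 0) (nat_lit 350395402080) (nat_lit 76) (nat_lit 485943494914) (nat_lit 76) (nat_lit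 485685348508) (nat_lit 1) (nat_lit 4) (nat_lit 2) (nat_lit 5) (nat_lit 2) (nat_lit 4) (nat_lit 394) (nat_lit 258) (nat_lit 248)))) (XT.nd (nat_lit 156) (nat_lit 0) (nat_lit 0) (XT.nd (nat_lit 78) (nat_lit 0) (nat_lit 0) (XT.lf (nat_lit 0) (nat_lit 380234223674) (nat_lit 76) (nat_lit 523877072570) (nat_lit 76) (nat_lit 523602426428) (nat_lit 1) (nat_lit 4) (nat_lit 2) (nat_lit 5) (nat_lit 2) (nat_lit 4) (nat_lit 395) (nat_lit 258) (nat_lit 247)) (XT.lf (nat_lit 0) (nat_lit 412397035895) (nat_lit 76) (nat_lit 564876888253) (nat_lit 76) (nat_lit 564586964578) (nat_lit 1) (nat_lit 4) (nat_lit 2) (nat_lit 5) (nat_lit 2) (nat_lit 4) (nat_lit 396) (nat_lit 258) (nat_lit 246))) (XT.nd (nat_lit 78) (nat_lit 0) (nat_lit 0) (XT.lf (nat_lit 0) (nat_lit 447074433186) (nat_lit 76) (nat_lit 609185903835) (nat_lit 76) (nat_lit 608881834297) (nat_lit 1) (nat_lit 4) (nat_lit 2) (nat_lit 5) (nat_lit 2) (nat_lit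 4) (nat_lit 397) (nat_lit 258) (nat_lit 245)) (XT.nd (nat_lit 78) (nat_lit 0) (nat_lit 0) (XT.lf (nat_lit 0) (nat_lit 484471911235) (nat_lit 76) (nat_lit 657066691260) (nat_lit 76) (nat_lit 656749523700) (nat_lit 1) (nat_lit 4) (nat_lit 2) (nat_lit 5) (nat_lit 2) (nat_lit 4) (nat_lit 398) (nat_lit 258) (nat_lit 244)) (XT.lf (nat_lit 0) (nat_lit 524811084726) (nat_lit 76) (nat_lit 708802988528) (nat_lit 76) (nat_lit 708473693169) (nat_lit 1) (nat_lit 4) (nat_lit 2) (nat_lit 5) (nat_lit 2) (nat_lit 4) (nat_lit 399) (nat_lit 258) (nat_lit 243))))))) (XT.nd (nat_lit 702) (nat_lit 0) (nat_lit 0) (XT.nd (nat_lit 312) (nat_lit 0) (nat_lit 0) (XT.nd (nat_lit 156) (nat_lit 0) (nat_lit 0) (XT.nd (nat_lit 78) (nat_lit 0) (nat_lit 0) (XT.lf (nat_lit 0) (nat_lit 568331000613) (nat_lit 76) (nat_lit 764701381103) (nat_lit 76) (nat_lit 764360856301) (nat_lit 1) (nat_lit 4) (nat_lit 2) (nat_lit 5) (nat_lit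 2) (nat_lit 4) (nat_lit 400) (nat_lit 258) (nat_lit 242)) (XT.lf (nat_lit 0) (nat_lit 615289554695) (nat_lit 76) (nat_lit 825093118719) (nat_lit 76) (nat_lit 824742196285) (nat_lit 1) (nat_lit 4) (nat_lit 2) (nat_lit 5) (nat_lit 2) (nat_lit 4) (nat_lit 401) (nat_lit 258) (nat_lit 241))) (XT.nd (nat_lit 78) (nat_lit 0) (nat_lit 0) (XT.lf (nat_lit 0) (nat_lit 665965019884) (nat_lit 76) (nat_lit 890336078340) (nat_lit 76) (nat_lit 889975528469) (nat_lit 1) (nat_lit 4) (nat_lit 2) (nat_lit 5) (nat_lit 2) (nat_lit 4) (nat_lit 402) (nat_lit 258) (nat_lit 240)) (XT.lf (nat_lit 0) (nat_lit 720657695234) (nat_lit 76) (nat_lit 960816884913) (nat_lit 76) (nat_lit 960447420748) (nat_lit 1) (nat_lit 4) (nat_lit 2) (nat_lit 5) (nat_lit 2) (nat_lit 4) (nat_lit 403) (nat_lit 258) (nat_lit 239)))) (XT.nd (nat_lit 156) (nat_lit 0) (nat_lit 0) (XT.nd (nat_lit 78) (nat_lit 0) (nat_lit 0) (XT.lf (nat_lit 0)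 (nat_lit 779691685486) (nat_lit 76) (nat_lit 1036953202475) (nat_lit 76) (nat_lit 1036575484334) (nat_lit 1) (nat_lit 4) (nat_lit 2) (nat_lit 5) (nat_lit 2) (nat_lit 4) (nat_lit 404) (nat_lit 258) (nat_lit 238)) (XT.lf (nat_lit 0) (nat_lit 843416821695) (nat_lit 76) (nat_lit 1119196209205) (nat_lit 76) (nat_lit 1118810848495) (nat_lit 1) (nat_lit 4) (nat_lit 2) (nat_lit 5) (nat_lit 2) (nat_lit 4) (nat_lit 405) (nat_lit 258) (nat_lit 237))) (XT.nd (nat_lit 78) (nat_lit 0) (nat_lit 0) (XT.lf (nat_lit 0) (nat_lit 912210734298) (nat_lit 76) (nat_lit 1208033271069) (nat_lit 76) (nat_lit 1207640833905) (nat_lit 1) (nat_lit 4) (nat_lit 2) (nat_lit 5) (nat_lit 2) (nat_lit 4) (nat_lit 406) (nat_lit 258) (nat_lit 236)) (XT.nd (nat_lit 78) (nat_lit 0) (nat_lit 0) (XT.lf (nat_lit 0) (nat_lit 986481090923) (nat_lit 76) (nat_lit 1303990829916) (nat_lit 76) (nat_lit 1303591840479) (nat_lit 1) (nat_lit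 4) (nat_lit 2) (nat_lit 5) (nat_lit 2) (nat_lit 4) (nat_lit 407) (nat_lit 258) (nat_lit 235)) (XT.lf (nat_lit 0) (nat_lit 1066668012205) (nat_lit 76) (nat_lit 1407637523130) (nat_lit 76) (nat_lit 1407232466775) (nat_lit 1) (nat_lit 4) (nat_lit 2) (nat_lit 5) (nat_lit 2) (nat_lit 4) (nat_lit 408) (nat_lit 258) (nat_lit 234)))))) (XT.nd (nat_lit 312) (nat_lit 0) (nat_lit 0) (XT.nd (nat_lit 156) (nat_lit 0) (nat_lit 0) (XT.nd (nat_lit 78) (nat_lit 0) (nat_lit 0) (XT.lf (nat_lit 0) (nat_lit 1153246679897) (nat_lit 76) (nat_lit 1519587553338) (nat_lit 76) (nat_lit 1519176879465) (nat_lit 1) (nat_lit 4) (nat_lit 2) (nat_lit 5) (nat_lit 2) (nat_lit 4) (nat_lit 409) (nat_lit 258) (nat_lit 233)) (XT.lf (nat_lit 0) (nat_lit 1246730152772) (nat_lit 76) (nat_lit 1640504328126) (nat_lit 76) (nat_lit 1640088452849) (nat_lit 1) (nat_lit 4) (nat_lit 2) (nat_lit 5) (nat_lit 2) (nat_lit 4) (nat_lit 410)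 (nat_lit 258) (nat_lit 232))) (XT.nd (nat_lit 78) (nat_lit 0) (nat_lit 0) (XT.lf (nat_lit 0) (nat_lit 1347672406965) (nat_lit 76) (nat_lit 1771104391346) (nat_lit 76) (nat_lit 1770683699954) (nat_lit 1) (nat_lit 4) (nat_lit 2) (nat_lit 5) (nat_lit 2) (nat_lit 4) (nat_lit 411) (nat_lit 258) (nat_lit 231)) (XT.lf (nat_lit 0) (nat_lit 1456671618797) (nat_lit 76) (nat_lit 1912161669298) (nat_lit 76) (nat_lit 1911736518539) (nat_lit 1) (nat_lit 4) (nat_lit 2) (nat_lit 5) (nat_lit 2) (nat_lit 4) (nat_lit 412) (nat_lit 258) (nat_lit 230)))) (XT.nd (nat_lit 156) (nat_lit 0) (nat_lit 0) (XT.nd (nat_lit 78) (nat_lit 0) (nat_lit 0) (XT.lf (nat_lit 0) (nat_lit 1574373709525) (nat_lit 76) (nat_lit 2064512056962) (nat_lit 76) (nat_lit 2064082777160) (nat_lit 1) (nat_lit 4) (nat_lit 2) (nat_lit 5) (nat_lit 2) (nat_lit 4) (nat_lit 413) (nat_lit 258) (nat_lit 229)) (XT.lf (nat_lit 0) (nat_lit 1701476173017)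 (nat_lit 76) (nat_lit 2229058371450) (nat_lit 76) (nat_lit 2228625268460) (nat_lit 1) (nat_lit 4) (nat_lit 2) (nat_lit 5) (nat_lit 2) (nat_lit 4) (nat_lit 414) (nat_lit 258) (nat_lit 228))) (XT.nd (nat_lit 44304) (nat_lit 0) (nat_lit 0) (XT.lf (nat_lit 0) (nat_lit 1838732209059) (nat_lit 76) (nat_lit 2406775702033) (nat_lit 76) (nat_lit 2406339059055) (nat_lit 1) (nat_lit 4) (nat_lit 2) (nat_lit 5) (nat_lit 2) (nat_lit 4) (nat_lit 415) (nat_lit 258) (nat_lit 227)) (XT.nd (nat_lit 78) (nat_lit 0) (nat_lit 0) (XT.lf (nat_lit 0) (nat_lit 60147747318) (nat_lit 76) (nat_lit 101363600126) (nat_lit 76) (nat_lit 101363600126) (nat_lit 1) (nat_lit 4) (nat_lit 2) (nat_lit 5) (nat_lit 2) (nat_lit 4) (nat_lit 382) (nat_lit 259) (nat_lit 259)) (XT.lf (nat_lit 0) (nat_lit 132937362621) (nat_lit 76) (nat_lit 217394987164) (nat_lit 76) (nat_lit 217356515737) (nat_lit 1) (nat_lit 4) (nat_lit 2) (nat_lit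 5) (nat_lit 2) (nat_lit 4) (nat_lit 383) (nat_lit 259) (nat_lit 258))))))))
noncomputable def xc8 : XT := (XT.nd (nat_lit 1326) (nat_lit 0) (nat_lit 0) (XT.nd (nat_lit 624) (nat_lit 0) (nat_lit 0) (XT.nd (nat_lit 312) (nat_lit 0) (nat_lit 0) (XT.nd (nat_lit 156) (nat_lit 0) (nat_lit 0) (XT.nd (nat_lit 78) (nat_lit 0) (nat_lit 0) (XT.lf (nat_lit 0) (nat_lit 146443418414) (nat_lit 76) (nat_lit 233309764472) (nat_lit 76) (nat_lit 233235671354) (nat_lit 1) (nat_lit 4) (nat_lit 2) (nat_lit 5) (nat_lit 2) (nat_lit 4) (nat_lit 384) (nat_lit 259) (nat_lit 257)) (XT.lf (nat_lit 0) (nat_lit 160893697903) (nat_lit 76) (nat_lit 250565841969) (nat_lit 76) (nat_lit 250458765802) (nat_lit 1) (nat_lit 4) (nat_lit 2) (nat_lit 5) (nat_lit 2) (nat_lit 4) (nat_lit 385) (nat_lit 259) (nat_lit 256))) (XT.nd (nat_lit 78) (nat_lit 0) (nat_lit 0) (XT.lf (nat_lit 0) (nat_lit 176373832373) (nat_lit 76) (nat_lit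 269265477889) (nat_lit 76) (nat_lit 269127861864) (nat_lit 1) (nat_lit 4) (nat_lit 2) (nat_lit 5) (nat_lit 2) (nat_lit 4) (nat_lit 386) (nat_lit 259) (nat_lit 255)) (XT.lf (nat_lit 0) (nat_lit 192975555955) (nat_lit 76) (nat_lit 289519484892) (nat_lit 76) (nat_lit 289353591220) (nat_lit 1) (nat_lit 4) (nat_lit 2) (nat_lit 5) (nat_lit 2) (nat_lit 4) (nat_lit 387) (nat_lit 259) (nat_lit 254)))) (XT.nd (nat_lit 156) (nat_lit 0) (nat_lit 0) (XT.nd (nat_lit 78) (nat_lit 0) (nat_lit 0) (XT.lf (nat_lit 0) (nat_lit 210797249234) (nat_lit 76) (nat_lit 311447886723) (nat_lit 76) (nat_lit 311255810043) (nat_lit 1) (nat_lit 4) (nat_lit 2) (nat_lit 5) (nat_lit 2) (nat_lit 4) (nat_lit 388) (nat_lit 259) (nat_lit 253)) (XT.lf (nat_lit 0) (nat_lit 229944522242) (nat_lit 76) (nat_lit 335180629465) (nat_lit 76) (nat_lit 334964309261) (nat_lit 1) (nat_lit 4) (nat_lit 2) (nat_lit 5) (nat_lit 2) (nat_lit 4)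 (nat_lit 389) (nat_lit 259) (nat_lit 252))) (XT.nd (nat_lit 78) (nat_lit 0) (nat_lit 0) (XT.lf (nat_lit 0) (nat_lit 250530840302) (nat_lit 76) (nat_lit 360858351595) (nat_lit 76) (nat_lit 360619583683) (nat_lit 1) (nat_lit 4) (nat_lit 2) (nat_lit 5) (nat_lit 2) (nat_lit 4) (nat_lit 390) (nat_lit 259) (nat_lit 251)) (XT.lf (nat_lit 0) (nat_lit 272678196410) (nat_lit 76) (nat_lit 388633217392) (nat_lit 76) (nat_lit 388373664565) (nat_lit 1) (nat_lit 4) (nat_lit 2) (nat_lit 5) (nat_lit 2) (nat_lit 4) (nat_lit 391) (nat_lit 259) (nat_lit 250))))) (XT.nd (nat_lit 312) (nat_lit 0) (nat_lit 0) (XT.nd (nat_lit 156) (nat_lit 0) (nat_lit 0) (XT.nd (nat_lit 78) (nat_lit 0) (nat_lit 0) (XT.lf (nat_lit 0) (nat_lit 296517834157) (nat_lit 76) (nat_lit 418669818654) (nat_lit 76) (nat_lit 418391020535) (nat_lit 1) (nat_lit 4) (nat_lit 2) (nat_lit 5) (nat_lit 2) (nat_lit 4) (nat_lit 392) (nat_lit 259) (nat_lit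 249)) (XT.lf (nat_lit 0) (nat_lit 322191025472) (nat_lit 76) (nat_lit 451146150053) (nat_lit 76) (nat_lit 450849532220) (nat_lit 1) (nat_lit 4) (nat_lit 2) (nat_lit 5) (nat_lit 2) (nat_lit 4) (nat_lit 393) (nat_lit 259) (nat_lit 248))) (XT.nd (nat_lit 78) (nat_lit 0) (nat_lit 0) (XT.lf (nat_lit 0) (nat_lit 349849907783) (nat_lit 76) (nat_lit 486254663926) (nat_lit 76) (nat_lit 485941546357) (nat_lit 1) (nat_lit 4) (nat_lit 2) (nat_lit 5) (nat_lit 2) (nat_lit 4) (nat_lit 394) (nat_lit 259) (nat_lit 247)) (XT.lf (nat_lit 0) (nat_lit 379658385578) (nat_lit 76) (nat_lit 524203410723) (nat_lit 76) (nat_lit 523875015622) (nat_lit 1) (nat_lit 4) (nat_lit 2) (nat_lit 5) (nat_lit 2) (nat_lit 4) (nat_lit 395) (nat_lit 259) (nat_lit 246)))) (XT.nd (nat_lit 156) (nat_lit 0) (nat_lit 0) (XT.nd (nat_lit 78) (nat_lit 0) (nat_lit 0) (XT.lf (nat_lit 0) (nat_lit 411793101690) (nat_lit 76) (nat_lit 565217271909)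 (nat_lit 76) (nat_lit 564874730943) (nat_lit 1) (nat_lit 4) (nat_lit 2) (nat_lit 5) (nat_lit 2) (nat_lit 4) (nat_lit 396) (nat_lit 259) (nat_lit 245)) (XT.lf (nat_lit 0) (nat_lit 446444484065) (nat_lit 76) (nat_lit 609539292585) (nat_lit 76) (nat_lit 609183653598) (nat_lit 1) (nat_lit 4) (nat_lit 2) (nat_lit 5) (nat_lit 2) (nat_lit 4) (nat_lit 397) (nat_lit 259) (nat_lit 244))) (XT.nd (nat_lit 78) (nat_lit 0) (nat_lit 0) (XT.lf (nat_lit 0) (nat_lit 483817874228) (nat_lit 76) (nat_lit 657432121764) (nat_lit 76) (nat_lit 657064354978) (nat_lit 1) (nat_lit 4) (nat_lit 2) (nat_lit 5) (nat_lit 2) (nat_lit 4) (nat_lit 398) (nat_lit 259) (nat_lit 243)) (XT.nd (nat_lit 78) (nat_lit 0) (nat_lit 0) (XT.lf (nat_lit 0) (nat_lit 524134744121) (nat_lit 76) (nat_lit 709179568804) (nat_lit 76) (nat_lit 708800572575) (nat_lit 1) (nat_lit 4) (nat_lit 2) (nat_lit 5) (nat_lit 2) (nat_lit 4) (nat_lit 399)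 (nat_lit 259) (nat_lit 242)) (XT.lf (nat_lit 0) (nat_lit 567634008530) (nat_lit 76) (nat_lit 765088285242) (nat_lit 76) (nat_lit 764698891381) (nat_lit 1) (nat_lit 4) (nat_lit 2) (nat_lit 5) (nat_lit 2) (nat_lit 4) (nat_lit 400) (nat_lit 259) (nat_lit 241))))))) (XT.nd (nat_lit 624) (nat_lit 0) (nat_lit 0) (XT.nd (nat_lit 312) (nat_lit 0) (nat_lit 0) (XT.nd (nat_lit 156) (nat_lit 0) (nat_lit 0) (XT.nd (nat_lit 78) (nat_lit 0) (nat_lit 0) (XT.lf (nat_lit 0) (nat_lit 614573440872) (nat_lit 76) (nat_lit 825489581991) (nat_lit 76) (nat_lit 825090560693) (nat_lit 1) (nat_lit 4) (nat_lit 2) (nat_lit 5) (nat_lit 2) (nat_lit 4) (nat_lit 401) (nat_lit 259) (nat_lit 240)) (XT.lf (nat_lit 0) (nat_lit 665231200746) (nat_lit 76) (nat_lit 890741392661) (nat_lit 76) (nat_lit 890333457069) (nat_lit 1) (nat_lit 4) (nat_lit 2) (nat_lit 5) (nat_lit 2) (nat_lit 4) (nat_lit 402) (nat_lit 259) (nat_lit 239)))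 (XT.nd (nat_lit 78) (nat_lit 0) (nat_lit 0) (XT.lf (nat_lit 0) (nat_lit 719907482285) (nat_lit 76) (nat_lit 961230394649) (nat_lit 76) (nat_lit 960814205081) (nat_lit 1) (nat_lit 4) (nat_lit 2) (nat_lit 5) (nat_lit 2) (nat_lit 4) (nat_lit 403) (nat_lit 259) (nat_lit 238)) (XT.lf (nat_lit 0) (nat_lit 778926293084) (nat_lit 76) (nat_lit 1037374300559) (nat_lit 76) (nat_lit 1036950468421) (nat_lit 1) (nat_lit 4) (nat_lit 2) (nat_lit 5) (nat_lit 2) (nat_lit 4) (nat_lit 404) (nat_lit 259) (nat_lit 237)))) (XT.nd (nat_lit 156) (nat_lit 0) (nat_lit 0) (XT.nd (nat_lit 78) (nat_lit 0) (nat_lit 0) (XT.lf (nat_lit 0) (nat_lit 842637374243) (nat_lit 76) (nat_lit 1119624333537) (nat_lit 76) (nat_lit 1119193424945) (nat_lit 1) (nat_lit 4) (nat_lit 2) (nat_lit 5) (nat_lit 2) (nat_lit 4) (nat_lit 405) (nat_lit 259) (nat_lit 236)) (XT.lf (nat_lit 0) (nat_lit 911418272911) (nat_lit 76) (nat_lit 1208467901186)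 (nat_lit 76) (nat_lit 1208030440323) (nat_lit 1) (nat_lit 4) (nat_lit 2) (nat_lit 5) (nat_lit 2) (nat_lit 4) (nat_lit 406) (nat_lit 259) (nat_lit 235))) (XT.nd (nat_lit 78) (nat_lit 0) (nat_lit 0) (XT.lf (nat_lit 0) (nat_lit 985676579597) (nat_lit 76) (nat_lit 1304431483907) (nat_lit 76) (nat_lit 1303987956125) (nat_lit 1) (nat_lit 4) (nat_lit 2) (nat_lit 5) (nat_lit 2) (nat_lit 4) (nat_lit 407) (nat_lit 259) (nat_lit 234)) (XT.lf (nat_lit 0) (nat_lit 1065852343526) (nat_lit 76) (nat_lit 1408083754783) (nat_lit 76) (nat_lit 1407634609484) (nat_lit 1) (nat_lit 4) (nat_lit 2) (nat_lit 5) (nat_lit 2) (nat_lit 4) (nat_lit 408) (nat_lit 259) (nat_lit 233))))) (XT.nd (nat_lit 312) (nat_lit 0) (nat_lit 0) (XT.nd (nat_lit 156) (nat_lit 0) (nat_lit 0) (XT.nd (nat_lit 78) (nat_lit 0) (nat_lit 0) (XT.lf (nat_lit 0) (nat_lit 1152420680338) (nat_lit 76) (nat_lit 1520038949493) (nat_lit 76) (nat_lit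 1519584602789) (nat_lit 1) (nat_lit 4) (nat_lit 2) (nat_lit 5) (nat_lit 2) (nat_lit 4) (nat_lit 409) (nat_lit 259) (nat_lit 232)) (XT.lf (nat_lit 0) (nat_lit 1245894587582) (nat_lit 76) (nat_lit 1640960506228) (nat_lit 76) (nat_lit 1640501343409) (nat_lit 1) (nat_lit 4) (nat_lit 2) (nat_lit 5) (nat_lit 2) (nat_lit 4) (nat_lit 410) (nat_lit 259) (nat_lit 231))) (XT.nd (nat_lit 78) (nat_lit 0) (nat_lit 0) (XT.lf (nat_lit 0) (nat_lit 1346827984710) (nat_lit 76) (nat_lit 1771564997176) (nat_lit 76) (nat_lit 1771101374990) (nat_lit 1) (nat_lit 4) (nat_lit 2) (nat_lit 5) (nat_lit 2) (nat_lit 4) (nat_lit 411) (nat_lit 259) (nat_lit 230)) (XT.lf (nat_lit 0) (nat_lit 1455818995555) (nat_lit 76) (nat_lit 1912626374876) (nat_lit 76) (nat_lit 1912158623647) (nat_lit 1) (nat_lit 4) (nat_lit 2) (nat_lit 5) (nat_lit 2) (nat_lit 4) (nat_lit 412) (nat_lit 259) (nat_lit 229)))) (XT.nd (nat_lit 156) (nat_lit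 0) (nat_lit 0) (XT.nd (nat_lit 78) (nat_lit 0) (nat_lit 0) (XT.lf (nat_lit 0) (nat_lit 1573513492776) (nat_lit 76) (nat_lit 2064980558602) (nat_lit 76) (nat_lit 2064508984186) (nat_lit 1) (nat_lit 4) (nat_lit 2) (nat_lit 5) (nat_lit 2) (nat_lit 4) (nat_lit 413) (nat_lit 259) (nat_lit 228)) (XT.lf (nat_lit 0) (nat_lit 1700608925245) (nat_lit 76) (nat_lit 2229530387964) (nat_lit 76) (nat_lit 2229055273559) (nat_lit 1) (nat_lit 4) (nat_lit 2) (nat_lit 5) (nat_lit 2) (nat_lit 4) (nat_lit 414) (nat_lit 259) (nat_lit 227))) (XT.nd (nat_lit 44148) (nat_lit 0) (nat_lit 0) (XT.lf (nat_lit 0) (nat_lit 1837858451079) (nat_lit 76) (nat_lit 2407250973059) (nat_lit 76) (nat_lit 2406772580887) (nat_lit 1) (nat_lit 4) (nat_lit 2) (nat_lit 5) (nat_lit 2) (nat_lit 4) (nat_lit 415) (nat_lit 259) (nat_lit 226)) (XT.nd (nat_lit 78) (nat_lit 0) (nat_lit 0) (XT.lf (nat_lit 0) (nat_lit 48695931946) (nat_lit 76)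 (nat_lit 88396043007) (nat_lit 76) (nat_lit 88396043007) (nat_lit 1) (nat_lit 4) (nat_lit 2) (nat_lit 5) (nat_lit 2) (nat_lit 4) (nat_lit 380) (nat_lit 260) (nat_lit 260)) (XT.lf (nat_lit 0) (nat_lit 108442899690) (nat_lit 76) (nat_lit 189261032658) (nat_lit 76) (nat_lit 189219483517) (nat_lit 1) (nat_lit 4) (nat_lit 2) (nat_lit 5) (nat_lit 2) (nat_lit 4) (nat_lit 381) (nat_lit 260) (nat_lit 259))))))))
noncomputable def xc9 : XT := (XT.nd (nat_lit 1326) (nat_lit 0) (nat_lit 0) (XT.nd (nat_lit 624) (nat_lit 0) (nat_lit 0) (XT.nd (nat_lit 312) (nat_lit 0) (nat_lit 0) (XT.nd (nat_lit 156) (nat_lit 0) (nat_lit 0) (XT.nd (nat_lit 78) (nat_lit 0) (nat_lit 0) (XT.lf (nat_lit 0) (nat_lit 120219083792) (nat_lit 76) (nat_lit 202806947873) (nat_lit 76) (nat_lit 202726927305) (nat_lit 1) (nat_lit 4) (nat_lit 2) (nat_lit 5) (nat_lit 2) (nat_lit 4) (nat_lit 382) (nat_lit 260) (nat_lit 258)) (XT.lf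 (nat_lit 0) (nat_lit 132790200992) (nat_lit 76) (nat_lit 217510103748) (nat_lit 76) (nat_lit 217394461489) (nat_lit 1) (nat_lit 4) (nat_lit 2) (nat_lit 5) (nat_lit 2) (nat_lit 4) (nat_lit 383) (nat_lit 260) (nat_lit 257))) (XT.nd (nat_lit 78) (nat_lit 0) (nat_lit 0) (XT.lf (nat_lit 0) (nat_lit 146230746800) (nat_lit 76) (nat_lit 233457630097) (nat_lit 76) (nat_lit 233309004789) (nat_lit 1) (nat_lit 4) (nat_lit 2) (nat_lit 5) (nat_lit 2) (nat_lit 4) (nat_lit 384) (nat_lit 260) (nat_lit 256)) (XT.lf (nat_lit 0) (nat_lit 160620368896) (nat_lit 76) (nat_lit 250744030778) (nat_lit 76) (nat_lit 250564865612) (nat_lit 1) (nat_lit 4) (nat_lit 2) (nat_lit 5) (nat_lit 2) (nat_lit 4) (nat_lit 385) (nat_lit 260) (nat_lit 255)))) (XT.nd (nat_lit 156) (nat_lit 0) (nat_lit 0) (XT.nd (nat_lit 78) (nat_lit 0) (nat_lit 0) (XT.lf (nat_lit 0) (nat_lit 176044339114) (nat_lit 76) (nat_lit 269471743722) (nat_lit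 76) (nat_lit 269264300908) (nat_lit 1) (nat_lit 4) (nat_lit 2) (nat_lit 5) (nat_lit 2) (nat_lit 4) (nat_lit 386) (nat_lit 260) (nat_lit 254)) (XT.lf (nat_lit 0) (nat_lit 192594058758) (nat_lit 76) (nat_lit 289751747969) (nat_lit 76) (nat_lit 289518122148) (nat_lit 1) (nat_lit 4) (nat_lit 2) (nat_lit 5) (nat_lit 2) (nat_lit 4) (nat_lit 387) (nat_lit 260) (nat_lit 253))) (XT.nd (nat_lit 78) (nat_lit 0) (nat_lit 0) (XT.lf (nat_lit 0) (nat_lit 210367600242) (nat_lit 76) (nat_lit 311704221321) (nat_lit 76) (nat_lit 311446351976) (nat_lit 1) (nat_lit 4) (nat_lit 2) (nat_lit 5) (nat_lit 2) (nat_lit 4) (nat_lit 388) (nat_lit 260) (nat_lit 252)) (XT.lf (nat_lit 0) (nat_lit 229470288256) (nat_lit 76) (nat_lit 335459252510) (nat_lit 76) (nat_lit 335178935456) (nat_lit 1) (nat_lit 4) (nat_lit 2) (nat_lit 5) (nat_lit 2) (nat_lit 4) (nat_lit 389) (nat_lit 260) (nat_lit 251))))) (XT.nd (nat_lit 312)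 (nat_lit 0) (nat_lit 0) (XT.nd (nat_lit 156) (nat_lit 0) (nat_lit 0) (XT.nd (nat_lit 78) (nat_lit 0) (nat_lit 0) (XT.lf (nat_lit 0) (nat_lit 250015323914) (nat_lit 76) (nat_lit 361157612090) (nat_lit 76) (nat_lit 360856510122) (nat_lit 1) (nat_lit 4) (nat_lit 2) (nat_lit 5) (nat_lit 2) (nat_lit 4) (nat_lit 390) (nat_lit 260) (nat_lit 250)) (XT.lf (nat_lit 0) (nat_lit 272124455575) (nat_lit 76) (nat_lit 388951586637) (nat_lit 76) (nat_lit 388631239378) (nat_lit 1) (nat_lit 4) (nat_lit 2) (nat_lit 5) (nat_lit 2) (nat_lit 4) (nat_lit 391) (nat_lit 260) (nat_lit 249))) (XT.nd (nat_lit 78) (nat_lit 0) (nat_lit 0) (XT.lf (nat_lit 0) (nat_lit 295928700316) (nat_lit 76) (nat_lit 419005881186) (nat_lit 76) (nat_lit 418667714212) (nat_lit 1) (nat_lit 4) (nat_lit 2) (nat_lit 5) (nat_lit 2) (nat_lit 4) (nat_lit 392) (nat_lit 260) (nat_lit 248)) (XT.lf (nat_lit 0) (nat_lit 321569120328) (nat_lit 76)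 (nat_lit 451498595259) (nat_lit 76) (nat_lit 451143928549) (nat_lit 1) (nat_lit 4) (nat_lit 2) (nat_lit 5) (nat_lit 2) (nat_lit 4) (nat_lit 393) (nat_lit 260) (nat_lit 247)))) (XT.nd (nat_lit 156) (nat_lit 0) (nat_lit 0) (XT.nd (nat_lit 78) (nat_lit 0) (nat_lit 0) (XT.lf (nat_lit 0) (nat_lit 349197658841) (nat_lit 76) (nat_lit 486622278274) (nat_lit 76) (nat_lit 486252334031) (nat_lit 1) (nat_lit 4) (nat_lit 2) (nat_lit 5) (nat_lit 2) (nat_lit 4) (nat_lit 394) (nat_lit 260) (nat_lit 246)) (XT.lf (nat_lit 0) (nat_lit 378978040527) (nat_lit 76) (nat_lit 524585070573) (nat_lit 76) (nat_lit 524200980467) (nat_lit 1) (nat_lit 4) (nat_lit 2) (nat_lit 5) (nat_lit 2) (nat_lit 4) (nat_lit 395) (nat_lit 260) (nat_lit 245))) (XT.nd (nat_lit 78) (nat_lit 0) (nat_lit 0) (XT.lf (nat_lit 0) (nat_lit 411086741722) (nat_lit 76) (nat_lit 565611936853) (nat_lit 76) (nat_lit 565214748724) (nat_lit 1) (nat_lit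 4) (nat_lit 2) (nat_lit 5) (nat_lit 2) (nat_lit 4) (nat_lit 396) (nat_lit 260) (nat_lit 244)) (XT.nd (nat_lit 78) (nat_lit 0) (nat_lit 0) (XT.lf (nat_lit 0) (nat_lit 445714036212) (nat_lit 76) (nat_lit 609945999284) (nat_lit 76) (nat_lit 609536683357) (nat_lit 1) (nat_lit 4) (nat_lit 2) (nat_lit 5) (nat_lit 2) (nat_lit 4) (nat_lit 397) (nat_lit 260) (nat_lit 243)) (XT.lf (nat_lit 0) (nat_lit 483065122778) (nat_lit 76) (nat_lit 657849978235) (nat_lit 76) (nat_lit 657429432865) (nat_lit 1) (nat_lit 4) (nat_lit 2) (nat_lit 5) (nat_lit 2) (nat_lit 4) (nat_lit 398) (nat_lit 260) (nat_lit 242))))))) (XT.nd (nat_lit 624) (nat_lit 0) (nat_lit 0) (XT.nd (nat_lit 312) (nat_lit 0) (nat_lit 0) (XT.nd (nat_lit 156) (nat_lit 0) (nat_lit 0) (XT.nd (nat_lit 78) (nat_lit 0) (nat_lit 0) (XT.lf (nat_lit 0) (nat_lit 523361341192) (nat_lit 76) (nat_lit 709607749137) (nat_lit 76) (nat_lit 709176806135) (nat_lit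 1) (nat_lit 4) (nat_lit 2) (nat_lit 5) (nat_lit 2) (nat_lit 4) (nat_lit 399) (nat_lit 260) (nat_lit 241)) (XT.lf (nat_lit 0) (nat_lit 566841483860) (nat_lit 76) (nat_lit 765526024708) (nat_lit 76) (nat_lit 765085454269) (nat_lit 1) (nat_lit 4) (nat_lit 2) (nat_lit 5) (nat_lit 2) (nat_lit 4) (nat_lit 400) (nat_lit 260) (nat_lit 240))) (XT.nd (nat_lit 78) (nat_lit 0) (nat_lit 0) (XT.lf (nat_lit 0) (nat_lit 613763210887) (nat_lit 76) (nat_lit 825936172506) (nat_lit 76) (nat_lit 825486687773) (nat_lit 1) (nat_lit 4) (nat_lit 2) (nat_lit 5) (nat_lit 2) (nat_lit 4) (nat_lit 401) (nat_lit 260) (nat_lit 239)) (XT.lf (nat_lit 0) (nat_lit 664404576952) (nat_lit 76) (nat_lit 891196178591) (nat_lit 76) (nat_lit 890738439883) (nat_lit 1) (nat_lit 4) (nat_lit 2) (nat_lit 5) (nat_lit 2) (nat_lit 4) (nat_lit 402) (nat_lit 260) (nat_lit 238)))) (XT.nd (nat_lit 156) (nat_lit 0) (nat_lit 0) (XT.nd (nat_lit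 78) (nat_lit 0) (nat_lit 0) (XT.lf (nat_lit 0) (nat_lit 719065679037) (nat_lit 76) (nat_lit 961692768927) (nat_lit 76) (nat_lit 961227387648) (nat_lit 1) (nat_lit 4) (nat_lit 2) (nat_lit 5) (nat_lit 2) (nat_lit 4) (nat_lit 403) (nat_lit 260) (nat_lit 237)) (XT.lf (nat_lit 0) (nat_lit 778070434786) (nat_lit 76) (nat_lit 1037843701084) (nat_lit 76) (nat_lit 1037371243352) (nat_lit 1) (nat_lit 4) (nat_lit 2) (nat_lit 5) (nat_lit 2) (nat_lit 4) (nat_lit 404) (nat_lit 260) (nat_lit 236))) (XT.nd (nat_lit 78) (nat_lit 0) (nat_lit 0) (XT.lf (nat_lit 0) (nat_lit 841768502011) (nat_lit 76) (nat_lit 1120100239848) (nat_lit 76) (nat_lit 1119621229843) (nat_lit 1) (nat_lit 4) (nat_lit 2) (nat_lit 5) (nat_lit 2) (nat_lit 4) (nat_lit 405) (nat_lit 260) (nat_lit 235)) (XT.lf (nat_lit 0) (nat_lit 910537350738) (nat_lit 76) (nat_lit 1208949831372) (nat_lit 76) (nat_lit 1208464754449) (nat_lit 1) (nat_lit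 4) (nat_lit 2) (nat_lit 5) (nat_lit 2) (nat_lit 4) (nat_lit 406) (nat_lit 260) (nat_lit 234))))) (XT.nd (nat_lit 312) (nat_lit 0) (nat_lit 0) (XT.nd (nat_lit 156) (nat_lit 0) (nat_lit 0) (XT.nd (nat_lit 78) (nat_lit 0) (nat_lit 0) (XT.lf (nat_lit 0) (nat_lit 984784500073) (nat_lit 76) (nat_lit 1304918991755) (nat_lit 76) (nat_lit 1304428297315) (nat_lit 1) (nat_lit 4) (nat_lit 2) (nat_lit 5) (nat_lit 2) (nat_lit 4) (nat_lit 407) (nat_lit 260) (nat_lit 233)) (XT.lf (nat_lit 0) (nat_lit 1064949933121) (nat_lit 76) (nat_lit 1408576427133) (nat_lit 76) (nat_lit 1408080531288) (nat_lit 1) (nat_lit 4) (nat_lit 2) (nat_lit 5) (nat_lit 2) (nat_lit 4) (nat_lit 408) (nat_lit 260) (nat_lit 232))) (XT.nd (nat_lit 78) (nat_lit 0) (nat_lit 0) (XT.lf (nat_lit 0) (nat_lit 1151508704302) (nat_lit 76) (nat_lit 1520536403789) (nat_lit 76) (nat_lit 1520035691829) (nat_lit 1) (nat_lit 4) (nat_lit 2) (nat_lit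 5) (nat_lit 2) (nat_lit 4) (nat_lit 409) (nat_lit 260) (nat_lit 231)) (XT.lf (nat_lit 0) (nat_lit 1244973754481) (nat_lit 76) (nat_lit 1641462388252) (nat_lit 76) (nat_lit 1640957216925) (nat_lit 1) (nat_lit 4) (nat_lit 2) (nat_lit 5) (nat_lit 2) (nat_lit 4) (nat_lit 410) (nat_lit 260) (nat_lit 230)))) (XT.nd (nat_lit 156) (nat_lit 0) (nat_lit 0) (XT.nd (nat_lit 78) (nat_lit 0) (nat_lit 0) (XT.lf (nat_lit 0) (nat_lit 1345898950622) (nat_lit 76) (nat_lit 1772070978948) (nat_lit 76) (nat_lit 1771561678578) (nat_lit 1) (nat_lit 4) (nat_lit 2) (nat_lit 5) (nat_lit 2) (nat_lit 4) (nat_lit 411) (nat_lit 260) (nat_lit 229)) (XT.lf (nat_lit 0) (nat_lit 1454882367962) (nat_lit 76) (nat_lit 1913136152711) (nat_lit 76) (nat_lit 1912623029153) (nat_lit 1) (nat_lit 4) (nat_lit 2) (nat_lit 5) (nat_lit 2) (nat_lit 4) (nat_lit 412) (nat_lit 260) (nat_lit 228))) (XT.nd (nat_lit 78) (nat_lit 0) (nat_lit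 0) (XT.lf (nat_lit 0) (nat_lit 1572569834158) (nat_lit 76) (nat_lit 2065493851311) (nat_lit 76) (nat_lit 2064977187765) (nat_lit 1) (nat_lit 4) (nat_lit 2) (nat_lit 5) (nat_lit 2) (nat_lit 4) (nat_lit 413) (nat_lit 260) (nat_lit 227)) (XT.nd (nat_lit 78) (nat_lit 0) (nat_lit 0) (XT.lf (nat_lit 0) (nat_lit 1699658756419) (nat_lit 76) (nat_lit 2230046935184) (nat_lit 76) (nat_lit 2229526993871) (nat_lit 1) (nat_lit 4) (nat_lit 2) (nat_lit 5) (nat_lit 2) (nat_lit 4) (nat_lit 414) (nat_lit 260) (nat_lit 226)) (XT.lf (nat_lit 0) (nat_lit 1836902254284) (nat_lit 76) (nat_lit 2407770533717) (nat_lit 76) (nat_lit 2407247557434) (nat_lit 1) (nat_lit 4) (nat_lit 2) (nat_lit 5) (nat_lit 2) (nat_lit 4) (nat_lit 415) (nat_lit 260) (nat_lit 225))))))))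
noncomputable def xc10 : XT := (XT.nd (nat_lit 1326) (nat_lit 0) (nat_lit 0) (XT.nd (nat_lit 624) (nat_lit 0) (nat_lit 0) (XT.nd (nat_lit 312) (nat_lit 0) (nat_lit 0) (XT.nd (nat_lit 156) (nat_lit 0) (nat_lit 0) (XT.nd (nat_lit 78) (nat_lit 0) (nat_lit 0) (XT.lf (nat_lit 0) (nat_lit 38648160722) (nat_lit 76) (nat_lit 77397900376) (nat_lit 76) (nat_lit 77397900376) (nat_lit 1) (nat_lit 4) (nat_lit 2) (nat_lit 5) (nat_lit 2) (nat_lit 4) (nat_lit 378) (nat_lit 261) (nat_lit 261)) (XT.lf (nat_lit 0) (nat_lit 87000488781) (nat_lit 76) (nat_lit 165371090958) (nat_lit 76) (nat_lit 165326217885) (nat_lit 1) (nat_lit 4) (nat_lit 2) (nat_lit 5) (nat_lit 2) (nat_lit 4) (nat_lit 379) (nat_lit 261) (nat_lit 260))) (XT.nd (nat_lit 78) (nat_lit 0) (nat_lit 0) (XT.lf (nat_lit 0) (nat_lit 97309340180) (nat_lit 76) (nat_lit 176878213445) (nat_lit 76) (nat_lit 176791791231) (nat_lit 1) (nat_lit 4) (nat_lit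 2) (nat_lit 5) (nat_lit 2) (nat_lit 4) (nat_lit 380) (nat_lit 261) (nat_lit 259)) (XT.lf (nat_lit 0) (nat_lit 108283965131) (nat_lit 76) (nat_lit 189385358569) (nat_lit 76) (nat_lit 189260464929) (nat_lit 1) (nat_lit 4) (nat_lit 2) (nat_lit 5) (nat_lit 2) (nat_lit 4) (nat_lit 381) (nat_lit 261) (nat_lit 258)))) (XT.nd (nat_lit 156) (nat_lit 0) (nat_lit 0) (XT.nd (nat_lit 78) (nat_lit 0) (nat_lit 0) (XT.lf (nat_lit 0) (nat_lit 119989398449) (nat_lit 76) (nat_lit 202966642747) (nat_lit 76) (nat_lit 202806127415) (nat_lit 1) (nat_lit 4) (nat_lit 2) (nat_lit 5) (nat_lit 2) (nat_lit 4) (nat_lit 382) (nat_lit 261) (nat_lit 257)) (XT.lf (nat_lit 0) (nat_lit 132495005665) (nat_lit 76) (nat_lit 217702547663) (nat_lit 76) (nat_lit 217509049283) (nat_lit 1) (nat_lit 4) (nat_lit 2) (nat_lit 5) (nat_lit 2) (nat_lit 4) (nat_lit 383) (nat_lit 261) (nat_lit 256))) (XT.nd (nat_lit 78) (nat_lit 0) (nat_lit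 0) (XT.lf (nat_lit 0) (nat_lit 145874894080) (nat_lit 76) (nat_lit 233680397196) (nat_lit 76) (nat_lit 233456358957) (nat_lit 1) (nat_lit 4) (nat_lit 2) (nat_lit 5) (nat_lit 2) (nat_lit 4) (nat_lit 384) (nat_lit 261) (nat_lit 255)) (XT.lf (nat_lit 0) (nat_lit 160208351923) (nat_lit 76) (nat_lit 250994874901) (nat_lit 76) (nat_lit 250742559014) (nat_lit 1) (nat_lit 4) (nat_lit 2) (nat_lit 5) (nat_lit 2) (nat_lit 4) (nat_lit 385) (nat_lit 261) (nat_lit 254))))) (XT.nd (nat_lit 312) (nat_lit 0) (nat_lit 0) (XT.nd (nat_lit 156) (nat_lit 0) (nat_lit 0) (XT.nd (nat_lit 78) (nat_lit 0) (nat_lit 0) (XT.lf (nat_lit 0) (nat_lit 175580318203) (nat_lit 76) (nat_lit 269748585089) (nat_lit 76) (nat_lit 269470086196) (nat_lit 1) (nat_lit 4) (nat_lit 2) (nat_lit 5) (nat_lit 2) (nat_lit 4) (nat_lit 386) (nat_lit 261) (nat_lit 253)) (XT.lf (nat_lit 0) (nat_lit 192081886053) (nat_lit 76) (nat_lit 290052660857)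 (nat_lit 76) (nat_lit 289749918440) (nat_lit 1) (nat_lit 4) (nat_lit 2) (nat_lit 5) (nat_lit 2) (nat_lit 4) (nat_lit 387) (nat_lit 261) (nat_lit 252))) (XT.nd (nat_lit 78) (nat_lit 0) (nat_lit 0) (XT.lf (nat_lit 0) (nat_lit 209810842543) (nat_lit 76) (nat_lit 312027422656) (nat_lit 76) (nat_lit 311702232530) (nat_lit 1) (nat_lit 4) (nat_lit 2) (nat_lit 5) (nat_lit 2) (nat_lit 4) (nat_lit 388) (nat_lit 261) (nat_lit 251)) (XT.lf (nat_lit 0) (nat_lit 228872248154) (nat_lit 76) (nat_lit 335803091295) (nat_lit 76) (nat_lit 335457116254) (nat_lit 1) (nat_lit 4) (nat_lit 2) (nat_lit 5) (nat_lit 2) (nat_lit 4) (nat_lit 389) (nat_lit 261) (nat_lit 250)))) (XT.nd (nat_lit 156) (nat_lit 0) (nat_lit 0) (XT.nd (nat_lit 78) (nat_lit 0) (nat_lit 0) (XT.lf (nat_lit 0) (nat_lit 249379059365) (nat_lit 76) (nat_lit 361520559625) (nat_lit 76) (nat_lit 361155339293) (nat_lit 1) (nat_lit 4) (nat_lit 2) (nat_lit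 5) (nat_lit 2) (nat_lit 4) (nat_lit 390) (nat_lit 261) (nat_lit 249)) (XT.lf (nat_lit 0) (nat_lit 271452798020) (nat_lit 76) (nat_lit 389332227460) (nat_lit 76) (nat_lit 388949187413) (nat_lit 1) (nat_lit 4) (nat_lit 2) (nat_lit 5) (nat_lit 2) (nat_lit 4) (nat_lit 391) (nat_lit 261) (nat_lit 248))) (XT.nd (nat_lit 78) (nat_lit 0) (nat_lit 0) (XT.lf (nat_lit 0) (nat_lit 295224271459) (nat_lit 76) (nat_lit 419402904682) (nat_lit 76) (nat_lit 419003364900) (nat_lit 1) (nat_lit 4) (nat_lit 2) (nat_lit 5) (nat_lit 2) (nat_lit 4) (nat_lit 392) (nat_lit 261) (nat_lit 247)) (XT.nd (nat_lit 78) (nat_lit 0) (nat_lit 0) (XT.lf (nat_lit 0) (nat_lit 320834347673) (nat_lit 76) (nat_lit 451910787897) (nat_lit 76) (nat_lit 451495970582) (nat_lit 1) (nat_lit 4) (nat_lit 2) (nat_lit 5) (nat_lit 2) (nat_lit 4) (nat_lit 393) (nat_lit 261) (nat_lit 246)) (XT.lf (nat_lit 0) (nat_lit 348434790076) (nat_lit 76)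 (nat_lit 487048516414) (nat_lit 76) (nat_lit 486619553234) (nat_lit 1) (nat_lit 4) (nat_lit 2) (nat_lit 5) (nat_lit 2) (nat_lit 4) (nat_lit 394) (nat_lit 261) (nat_lit 245))))))) (XT.nd (nat_lit 624) (nat_lit 0) (nat_lit 0) (XT.nd (nat_lit 312) (nat_lit 0) (nat_lit 0) (XT.nd (nat_lit 156) (nat_lit 0) (nat_lit 0) (XT.nd (nat_lit 78) (nat_lit 0) (nat_lit 0) (XT.lf (nat_lit 0) (nat_lit 378189156846) (nat_lit 76) (nat_lit 525024313807) (nat_lit 76) (nat_lit 524582252606) (nat_lit 1) (nat_lit 4) (nat_lit 2) (nat_lit 5) (nat_lit 2) (nat_lit 4) (nat_lit 395) (nat_lit 261) (nat_lit 244)) (XT.lf (nat_lit 0) (nat_lit 410273770156) (nat_lit 76) (nat_lit 566063221841) (nat_lit 76) (nat_lit 565609032842) (nat_lit 1) (nat_lit 4) (nat_lit 2) (nat_lit 5) (nat_lit 2) (nat_lit 4) (nat_lit 396) (nat_lit 261) (nat_lit 243))) (XT.nd (nat_lit 78) (nat_lit 0) (nat_lit 0) (XT.lf (nat_lit 0) (nat_lit 444878761048)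 (nat_lit 76) (nat_lit 610408434044) (nat_lit 76) (nat_lit 609943015602) (nat_lit 1) (nat_lit 4) (nat_lit 2) (nat_lit 5) (nat_lit 2) (nat_lit 4) (nat_lit 397) (nat_lit 261) (nat_lit 242)) (XT.lf (nat_lit 0) (nat_lit 482209196135) (nat_lit 76) (nat_lit 658322736858) (nat_lit 76) (nat_lit 657846920784) (nat_lit 1) (nat_lit 4) (nat_lit 2) (nat_lit 5) (nat_lit 2) (nat_lit 4) (nat_lit 398) (nat_lit 261) (nat_lit 241)))) (XT.nd (nat_lit 156) (nat_lit 0) (nat_lit 0) (XT.nd (nat_lit 78) (nat_lit 0) (nat_lit 0) (XT.lf (nat_lit 0) (nat_lit 522486292809) (nat_lit 76) (nat_lit 710090066894) (nat_lit 76) (nat_lit 709604623382) (nat_lit 1) (nat_lit 4) (nat_lit 2) (nat_lit 5) (nat_lit 2) (nat_lit 4) (nat_lit 399) (nat_lit 261) (nat_lit 240)) (XT.lf (nat_lit 0) (nat_lit 565948730162) (nat_lit 76) (nat_lit 766017193513) (nat_lit 76) (nat_lit 765522835708) (nat_lit 1) (nat_lit 4) (nat_lit 2) (nat_lit 5)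 (nat_lit 2) (nat_lit 4) (nat_lit 400) (nat_lit 261) (nat_lit 239))) (XT.nd (nat_lit 78) (nat_lit 0) (nat_lit 0) (XT.lf (nat_lit 0) (nat_lit 612854063379) (nat_lit 76) (nat_lit 826435536726) (nat_lit 76) (nat_lit 825932924945) (nat_lit 1) (nat_lit 4) (nat_lit 2) (nat_lit 5) (nat_lit 2) (nat_lit 4) (nat_lit 401) (nat_lit 261) (nat_lit 238)) (XT.lf (nat_lit 0) (nat_lit 663480249990) (nat_lit 76) (nat_lit 891703131159) (nat_lit 76) (nat_lit 891192876808) (nat_lit 1) (nat_lit 4) (nat_lit 2) (nat_lit 5) (nat_lit 2) (nat_lit 4) (nat_lit 402) (nat_lit 261) (nat_lit 237))))) (XT.nd (nat_lit 312) (nat_lit 0) (nat_lit 0) (XT.nd (nat_lit 156) (nat_lit 0) (nat_lit 0) (XT.nd (nat_lit 78) (nat_lit 0) (nat_lit 0) (XT.lf (nat_lit 0) (nat_lit 718127297026) (nat_lit 76) (nat_lit 962206747742) (nat_lit 76) (nat_lit 961689416937) (nat_lit 1) (nat_lit 4) (nat_lit 2) (nat_lit 5) (nat_lit 2) (nat_lit 4) (nat_lit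 403) (nat_lit 261) (nat_lit 236)) (XT.lf (nat_lit 0) (nat_lit 777119038840) (nat_lit 76) (nat_lit 1038364185685) (nat_lit 76) (nat_lit 1037840302608) (nat_lit 1) (nat_lit 4) (nat_lit 2) (nat_lit 5) (nat_lit 2) (nat_lit 4) (nat_lit 404) (nat_lit 261) (nat_lit 235))) (XT.nd (nat_lit 78) (nat_lit 0) (nat_lit 0) (XT.lf (nat_lit 0) (nat_lit 840805056125) (nat_lit 76) (nat_lit 1120626748323) (nat_lit 76) (nat_lit 1120096798328) (nat_lit 1) (nat_lit 4) (nat_lit 2) (nat_lit 5) (nat_lit 2) (nat_lit 4) (nat_lit 405) (nat_lit 261) (nat_lit 234)) (XT.lf (nat_lit 0) (nat_lit 909562747501) (nat_lit 76) (nat_lit 1209481917510) (nat_lit 76) (nat_lit 1208946349997) (nat_lit 1) (nat_lit 4) (nat_lit 2) (nat_lit 5) (nat_lit 2) (nat_lit 4) (nat_lit 406) (nat_lit 261) (nat_lit 233)))) (XT.nd (nat_lit 156) (nat_lit 0) (nat_lit 0) (XT.nd (nat_lit 78) (nat_lit 0) (nat_lit 0) (XT.lf (nat_lit 0) (nat_lit 983799565954)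 (nat_lit 76) (nat_lit 1305456242395) (nat_lit 76) (nat_lit 1304915473477) (nat_lit 1) (nat_lit 4) (nat_lit 2) (nat_lit 5) (nat_lit 2) (nat_lit 4) (nat_lit 407) (nat_lit 261) (nat_lit 232)) (XT.lf (nat_lit 0) (nat_lit 1063955433372) (nat_lit 76) (nat_lit 1409118459719) (nat_lit 76) (nat_lit 1408572874686) (nat_lit 1) (nat_lit 4) (nat_lit 2) (nat_lit 5) (nat_lit 2) (nat_lit 4) (nat_lit 408) (nat_lit 261) (nat_lit 231))) (XT.nd (nat_lit 78) (nat_lit 0) (nat_lit 0) (XT.lf (nat_lit 0) (nat_lit 1150505347487) (nat_lit 76) (nat_lit 1521082864103) (nat_lit 76) (nat_lit 1520532819704) (nat_lit 1) (nat_lit 4) (nat_lit 2) (nat_lit 5) (nat_lit 2) (nat_lit 4) (nat_lit 409) (nat_lit 261) (nat_lit 230)) (XT.nd (nat_lit 78) (nat_lit 0) (nat_lit 0) (XT.lf (nat_lit 0) (nat_lit 1243962196679) (nat_lit 76) (nat_lit 1642012948314) (nat_lit 76) (nat_lit 1641458774872) (nat_lit 1) (nat_lit 4) (nat_lit 2) (nat_lit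 5) (nat_lit 2) (nat_lit 4) (nat_lit 410) (nat_lit 261) (nat_lit 229)) (XT.lf (nat_lit 0) (nat_lit 1344879799314) (nat_lit 76) (nat_lit 1772625335073) (nat_lit 76) (nat_lit 1772067338443) (nat_lit 1) (nat_lit 4) (nat_lit 2) (nat_lit 5) (nat_lit 2) (nat_lit 4) (nat_lit 411) (nat_lit 261) (nat_lit 228))))))))
noncomputable def xc11 : XT := (XT.nd (nat_lit 45084) (nat_lit 0) (nat_lit 0) (XT.nd (nat_lit 44382) (nat_lit 0) (nat_lit 0) (XT.nd (nat_lit 44070) (nat_lit 0) (nat_lit 0) (XT.nd (nat_lit 156) (nat_lit 0) (nat_lit 0) (XT.nd (nat_lit 78) (nat_lit 0) (nat_lit 0) (XT.lf (nat_lit 0) (nat_lit 1453856185630) (nat_lit 76) (nat_lit 1913694023709) (nat_lit 76) (nat_lit 1913132487090) (nat_lit 1) (nat_lit 4) (nat_lit 2) (nat_lit 5) (nat_lit 2) (nat_lit 4) (nat_lit 412) (nat_lit 261) (nat_lit 227)) (XT.lf (nat_lit 0) (nat_lit 1571537141619) (nat_lit 76) (nat_lit 2066054976821) (nat_lit 76) (nat_lit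 2065490162435) (nat_lit 1) (nat_lit 4) (nat_lit 2) (nat_lit 5) (nat_lit 2) (nat_lit 4) (nat_lit 413) (nat_lit 261) (nat_lit 226))) (XT.nd (nat_lit 78) (nat_lit 0) (nat_lit 0) (XT.lf (nat_lit 0) (nat_lit 1698620035910) (nat_lit 76) (nat_lit 2230611074132) (nat_lit 76) (nat_lit 2230043224776) (nat_lit 1) (nat_lit 4) (nat_lit 2) (nat_lit 5) (nat_lit 2) (nat_lit 4) (nat_lit 414) (nat_lit 261) (nat_lit 225)) (XT.lf (nat_lit 0) (nat_lit 1835857952321) (nat_lit 76) (nat_lit 2408337462885) (nat_lit 76) (nat_lit 2407766803372) (nat_lit 1) (nat_lit 4) (nat_lit 2) (nat_lit 5) (nat_lit 2) (nat_lit 4) (nat_lit 415) (nat_lit 261) (nat_lit 224)))) (XT.nd (nat_lit 156) (nat_lit 0) (nat_lit 0) (XT.nd (nat_lit 78) (nat_lit 0) (nat_lit 0) (XT.lf (nat_lit 0) (nat_lit 29785756224) (nat_lit 76) (nat_lit 68097769040) (nat_lit 76) (nat_lit 68097769040) (nat_lit 1) (nat_lit 4) (nat_lit 2) (nat_lit 5) (nat_lit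 2) (nat_lit 4) (nat_lit 376) (nat_lit 262) (nat_lit 262)) (XT.lf (nat_lit 0) (nat_lit 68139331995) (nat_lit 76) (nat_lit 145138137362) (nat_lit 76) (nat_lit 145089674444) (nat_lit 1) (nat_lit 4) (nat_lit 2) (nat_lit 5) (nat_lit 2) (nat_lit 4) (nat_lit 377) (nat_lit 262) (nat_lit 261))) (XT.nd (nat_lit 78) (nat_lit 0) (nat_lit 0) (XT.lf (nat_lit 0) (nat_lit 77207195835) (nat_lit 76) (nat_lit 154888818379) (nat_lit 76) (nat_lit 154795482388) (nat_lit 1) (nat_lit 4) (nat_lit 2) (nat_lit 5) (nat_lit 2) (nat_lit 4) (nat_lit 378) (nat_lit 262) (nat_lit 260)) (XT.lf (nat_lit 0) (nat_lit 86828839457) (nat_lit 76) (nat_lit 165505362942) (nat_lit 76) (nat_lit 165370477810) (nat_lit 1) (nat_lit 4) (nat_lit 2) (nat_lit 5) (nat_lit 2) (nat_lit 4) (nat_lit 379) (nat_lit 262) (nat_lit 259))))) (XT.nd (nat_lit 312) (nat_lit 0) (nat_lit 0) (XT.nd (nat_lit 156) (nat_lit 0) (nat_lit 0) (XT.nd (nat_lit 78)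 (nat_lit 0) (nat_lit 0) (XT.lf (nat_lit 0) (nat_lit 97061280010) (nat_lit 76) (nat_lit 177050683909) (nat_lit 76) (nat_lit 176877327350) (nat_lit 1) (nat_lit 4) (nat_lit 2) (nat_lit 5) (nat_lit 2) (nat_lit 4) (nat_lit 380) (nat_lit 262) (nat_lit 258)) (XT.lf (nat_lit 0) (nat_lit 107965154178) (nat_lit 76) (nat_lit 189593197997) (nat_lit 76) (nat_lit 189384219747) (nat_lit 1) (nat_lit 4) (nat_lit 2) (nat_lit 5) (nat_lit 2) (nat_lit 4) (nat_lit 381) (nat_lit 262) (nat_lit 257))) (XT.nd (nat_lit 78) (nat_lit 0) (nat_lit 0) (XT.lf (nat_lit 0) (nat_lit 119605077511) (nat_lit 76) (nat_lit 203207231215) (nat_lit 76) (nat_lit 202965269917) (nat_lit 1) (nat_lit 4) (nat_lit 2) (nat_lit 5) (nat_lit 2) (nat_lit 4) (nat_lit 382) (nat_lit 262) (nat_lit 256)) (XT.lf (nat_lit 0) (nat_lit 132050027334) (nat_lit 76) (nat_lit 217973459315) (nat_lit 76) (nat_lit 217700958158) (nat_lit 1) (nat_lit 4) (nat_lit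 2) (nat_lit 5) (nat_lit 2) (nat_lit 4) (nat_lit 383) (nat_lit 262) (nat_lit 255)))) (XT.nd (nat_lit 156) (nat_lit 0) (nat_lit 0) (XT.nd (nat_lit 78) (nat_lit 0) (nat_lit 0) (XT.lf (nat_lit 0) (nat_lit 145373751497) (nat_lit 76) (nat_lit 233979385872) (nat_lit 76) (nat_lit 233678607067) (nat_lit 1) (nat_lit 4) (nat_lit 2) (nat_lit 5) (nat_lit 2) (nat_lit 4) (nat_lit 384) (nat_lit 262) (nat_lit 254)) (XT.lf (nat_lit 0) (nat_lit 159655205402) (nat_lit 76) (nat_lit 251319860820) (nat_lit 76) (nat_lit 250992899009) (nat_lit 1) (nat_lit 4) (nat_lit 2) (nat_lit 5) (nat_lit 2) (nat_lit 4) (nat_lit 385) (nat_lit 262) (nat_lit 253))) (XT.nd (nat_lit 78) (nat_lit 0) (nat_lit 0) (XT.lf (nat_lit 0) (nat_lit 174979019887) (nat_lit 76) (nat_lit 270097642530) (nat_lit 76) (nat_lit 269746437194) (nat_lit 1) (nat_lit 4) (nat_lit 2) (nat_lit 5) (nat_lit 2) (nat_lit 4) (nat_lit 386) (nat_lit 262) (nat_lit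 252)) (XT.nd (nat_lit 78) (nat_lit 0) (nat_lit 0) (XT.lf (nat_lit 0) (nat_lit 191436002743) (nat_lit 76) (nat_lit 290424006745) (nat_lit 76) (nat_lit 290050353701) (nat_lit 1) (nat_lit 4) (nat_lit 2) (nat_lit 5) (nat_lit 2) (nat_lit 4) (nat_lit 387) (nat_lit 262) (nat_lit 251)) (XT.lf (nat_lit 0) (nat_lit 209123676830) (nat_lit 76) (nat_lit 312419405994) (nat_lit 76) (nat_lit 312024968035) (nat_lit 1) (nat_lit 4) (nat_lit 2) (nat_lit 5) (nat_lit 2) (nat_lit 4) (nat_lit 388) (nat_lit 262) (nat_lit 250))))))) (XT.nd (nat_lit 702) (nat_lit 0) (nat_lit 0) (XT.nd (nat_lit 312) (nat_lit 0) (nat_lit 0) (XT.nd (nat_lit 156) (nat_lit 0) (nat_lit 0) (XT.nd (nat_lit 78) (nat_lit 0) (nat_lit 0) (XT.lf (nat_lit 0) (nat_lit 228146857994) (nat_lit 76) (nat_lit 336214183383) (nat_lit 76) (nat_lit 335800500133) (nat_lit 1) (nat_lit 4) (nat_lit 2) (nat_lit 5) (nat_lit 2) (nat_lit 4) (nat_lit 389) (nat_lit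 262) (nat_lit 249)) (XT.lf (nat_lit 0) (nat_lit 248618276199) (nat_lit 76) (nat_lit 361949345001) (nat_lit 76) (nat_lit 361517842036) (nat_lit 1) (nat_lit 4) (nat_lit 2) (nat_lit 5) (nat_lit 2) (nat_lit 4) (nat_lit 390) (nat_lit 262) (nat_lit 248))) (XT.nd (nat_lit 78) (nat_lit 0) (nat_lit 0) (XT.lf (nat_lit 0) (nat_lit 270659243552) (nat_lit 76) (nat_lit 389777395509) (nat_lit 76) (nat_lit 389329392808) (nat_lit 1) (nat_lit 4) (nat_lit 2) (nat_lit 5) (nat_lit 2) (nat_lit 4) (nat_lit 391) (nat_lit 262) (nat_lit 247)) (XT.lf (nat_lit 0) (nat_lit 294400373193) (nat_lit 76) (nat_lit 419863241873) (nat_lit 76) (nat_lit 419399961639) (nat_lit 1) (nat_lit 4) (nat_lit 2) (nat_lit 5) (nat_lit 2) (nat_lit 4) (nat_lit 392) (nat_lit 262) (nat_lit 246)))) (XT.nd (nat_lit 156) (nat_lit 0) (nat_lit 0) (XT.nd (nat_lit 78) (nat_lit 0) (nat_lit 0) (XT.lf (nat_lit 0) (nat_lit 319982353297) (nat_lit 76)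 (nat_lit 452385170590) (nat_lit 76) (nat_lit 451907744493) (nat_lit 1) (nat_lit 4) (nat_lit 2) (nat_lit 5) (nat_lit 2) (nat_lit 4) (nat_lit 393) (nat_lit 262) (nat_lit 245)) (XT.lf (nat_lit 0) (nat_lit 347556780784) (nat_lit 76) (nat_lit 487535904201) (nat_lit 76) (nat_lit 487045380081) (nat_lit 1) (nat_lit 4) (nat_lit 2) (nat_lit 5) (nat_lit 2) (nat_lit 4) (nat_lit 394) (nat_lit 262) (nat_lit 244))) (XT.nd (nat_lit 78) (nat_lit 0) (nat_lit 0) (XT.lf (nat_lit 0) (nat_lit 377287059669) (nat_lit 76) (nat_lit 525523743349) (nat_lit 76) (nat_lit 525021091431) (nat_lit 1) (nat_lit 4) (nat_lit 2) (nat_lit 5) (nat_lit 2) (nat_lit 4) (nat_lit 395) (nat_lit 262) (nat_lit 243)) (XT.nd (nat_lit 78) (nat_lit 0) (nat_lit 0) (XT.lf (nat_lit 0) (nat_lit 409349369381) (nat_lit 76) (nat_lit 566573801155) (nat_lit 76) (nat_lit 566059919794) (nat_lit 1) (nat_lit 4) (nat_lit 2) (nat_lit 5) (nat_lit 2) (nat_lit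 4) (nat_lit 396) (nat_lit 262) (nat_lit 242)) (XT.lf (nat_lit 0) (nat_lit 443933708794) (nat_lit 76) (nat_lit 610929337220) (nat_lit 76) (nat_lit 610405058228) (nat_lit 1) (nat_lit 4) (nat_lit 2) (nat_lit 5) (nat_lit 2) (nat_lit 4) (nat_lit 397) (nat_lit 262) (nat_lit 241)))))) (XT.nd (nat_lit 312) (nat_lit 0) (nat_lit 0) (XT.nd (nat_lit 156) (nat_lit 0) (nat_lit 0) (XT.nd (nat_lit 78) (nat_lit 0) (nat_lit 0) (XT.lf (nat_lit 0) (nat_lit 481245022141) (nat_lit 76) (nat_lit 658853199167) (nat_lit 76) (nat_lit 658319292738) (nat_lit 1) (nat_lit 4) (nat_lit 2) (nat_lit 5) (nat_lit 2) (nat_lit 4) (nat_lit 398) (nat_lit 262) (nat_lit 240)) (XT.lf (nat_lit 0) (nat_lit 521504413500) (nat_lit 76) (nat_lit 710629380251) (nat_lit 76) (nat_lit 710086559528) (nat_lit 1) (nat_lit 4) (nat_lit 2) (nat_lit 5) (nat_lit 2) (nat_lit 4) (nat_lit 399) (nat_lit 262) (nat_lit 239))) (XT.nd (nat_lit 78) (nat_lit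 0) (nat_lit 0) (XT.lf (nat_lit 0) (nat_lit 564950457044) (nat_lit 76) (nat_lit 766564702286) (nat_lit 76) (nat_lit 766013627587) (nat_lit 1) (nat_lit 4) (nat_lit 2) (nat_lit 5) (nat_lit 2) (nat_lit 4) (nat_lit 400) (nat_lit 262) (nat_lit 238)) (XT.lf (nat_lit 0) (nat_lit 611840610807) (nat_lit 76) (nat_lit 826990633847) (nat_lit 76) (nat_lit 826431916578) (nat_lit 1) (nat_lit 4) (nat_lit 2) (nat_lit 5) (nat_lit 2) (nat_lit 4) (nat_lit 401) (nat_lit 262) (nat_lit 237)))) (XT.nd (nat_lit 156) (nat_lit 0) (nat_lit 0) (XT.nd (nat_lit 78) (nat_lit 0) (nat_lit 0) (XT.lf (nat_lit 0) (nat_lit 662452742368) (nat_lit 76) (nat_lit 892265254528) (nat_lit 76) (nat_lit 891699460805) (nat_lit 1) (nat_lit 4) (nat_lit 2) (nat_lit 5) (nat_lit 2) (nat_lit 4) (nat_lit 402) (nat_lit 262) (nat_lit 236)) (XT.lf (nat_lit 0) (nat_lit 717086775469) (nat_lit 76) (nat_lit 962775376896) (nat_lit 76) (nat_lit 962203030901)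 (nat_lit 1) (nat_lit 4) (nat_lit 2) (nat_lit 5) (nat_lit 2) (nat_lit 4) (nat_lit 403) (nat_lit 262) (nat_lit 235))) (XT.nd (nat_lit 78) (nat_lit 0) (nat_lit 0) (XT.lf (nat_lit 0) (nat_lit 776066467343) (nat_lit 76) (nat_lit 1038938838714) (nat_lit 76) (nat_lit 1038360425800) (nat_lit 1) (nat_lit 4) (nat_lit 2) (nat_lit 5) (nat_lit 2) (nat_lit 4) (nat_lit 404) (nat_lit 262) (nat_lit 234)) (XT.nd (nat_lit 78) (nat_lit 0) (nat_lit 0) (XT.lf (nat_lit 0) (nat_lit 839741327276) (nat_lit 76) (nat_lit 1121206979014) (nat_lit 76) (nat_lit 1120622948583) (nat_lit 1) (nat_lit 4) (nat_lit 2) (nat_lit 5) (nat_lit 2) (nat_lit 4) (nat_lit 405) (nat_lit 262) (nat_lit 233)) (XT.lf (nat_lit 0) (nat_lit 908488687771) (nat_lit 76) (nat_lit 1210067312702) (nat_lit 76) (nat_lit 1209478080867) (nat_lit 1) (nat_lit 4) (nat_lit 2) (nat_lit 5) (nat_lit 2) (nat_lit 4) (nat_lit 406) (nat_lit 262) (nat_lit 232))))))))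
noncomputable def xc12 : XT := (XT.nd (nat_lit 44928) (nat_lit 0) (nat_lit 0) (XT.nd (nat_lit 624) (nat_lit 0) (nat_lit 0) (XT.nd (nat_lit 312) (nat_lit 0) (nat_lit 0) (XT.nd (nat_lit 156) (nat_lit 0) (nat_lit 0) (XT.nd (nat_lit 78) (nat_lit 0) (nat_lit 0) (XT.lf (nat_lit 0) (nat_lit 982715940594) (nat_lit 76) (nat_lit 1306046419534) (nat_lit 76) (nat_lit 1305452371583) (nat_lit 1) (nat_lit 4) (nat_lit 2) (nat_lit 5) (nat_lit 2) (nat_lit 4) (nat_lit 407) (nat_lit 262) (nat_lit 231)) (XT.lf (nat_lit 0) (nat_lit 1062862950946) (nat_lit 76) (nat_lit 1409713064586) (nat_lit 76) (nat_lit 1409114557268) (nat_lit 1) (nat_lit 4) (nat_lit 2) (nat_lit 5) (nat_lit 2) (nat_lit 4) (nat_lit 408) (nat_lit 262) (nat_lit 230))) (XT.nd (nat_lit 78) (nat_lit 0) (nat_lit 0) (XT.lf (nat_lit 0) (nat_lit 1149404664075) (nat_lit 76) (nat_lit 1521681568718) (nat_lit 76) (nat_lit 1521078932358) (nat_lit 1) (nat_lit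 4) (nat_lit 2) (nat_lit 5) (nat_lit 2) (nat_lit 4) (nat_lit 409) (nat_lit 262) (nat_lit 229)) (XT.lf (nat_lit 0) (nat_lit 1242853919761) (nat_lit 76) (nat_lit 1642615448992) (nat_lit 76) (nat_lit 1642008989444) (nat_lit 1) (nat_lit 4) (nat_lit 2) (nat_lit 5) (nat_lit 2) (nat_lit 4) (nat_lit 410) (nat_lit 262) (nat_lit 228)))) (XT.nd (nat_lit 156) (nat_lit 0) (nat_lit 0) (XT.nd (nat_lit 78) (nat_lit 0) (nat_lit 0) (XT.lf (nat_lit 0) (nat_lit 1343764491372) (nat_lit 76) (nat_lit 1773231350624) (nat_lit 76) (nat_lit 1772621351088) (nat_lit 1) (nat_lit 4) (nat_lit 2) (nat_lit 5) (nat_lit 2) (nat_lit 4) (nat_lit 411) (nat_lit 262) (nat_lit 227)) (XT.lf (nat_lit 0) (nat_lit 1452734367480) (nat_lit 76) (nat_lit 1914303293772) (nat_lit 76) (nat_lit 1913690016468) (nat_lit 1) (nat_lit 4) (nat_lit 2) (nat_lit 5) (nat_lit 2) (nat_lit 4) (nat_lit 412) (nat_lit 262) (nat_lit 226))) (XT.nd (nat_lit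 78) (nat_lit 0) (nat_lit 0) (XT.lf (nat_lit 0) (nat_lit 1570409295500) (nat_lit 76) (nat_lit 2066667260322) (nat_lit 76) (nat_lit 2066050948048) (nat_lit 1) (nat_lit 4) (nat_lit 2) (nat_lit 5) (nat_lit 2) (nat_lit 4) (nat_lit 413) (nat_lit 262) (nat_lit 225)) (XT.lf (nat_lit 0) (nat_lit 1697486608337) (nat_lit 76) (nat_lit 2231226147852) (nat_lit 76) (nat_lit 2230607025422) (nat_lit 1) (nat_lit 4) (nat_lit 2) (nat_lit 5) (nat_lit 2) (nat_lit 4) (nat_lit 414) (nat_lit 262) (nat_lit 224))))) (XT.nd (nat_lit 43914) (nat_lit 0) (nat_lit 0) (XT.nd (nat_lit 43758) (nat_lit 0) (nat_lit 0) (XT.nd (nat_lit 43680) (nat_lit 0) (nat_lit 0) (XT.lf (nat_lit 0) (nat_lit 1834719356735) (nat_lit 76) (nat_lit 2408955120142) (nat_lit 76) (nat_lit 2408333395714) (nat_lit 1) (nat_lit 4) (nat_lit 2) (nat_lit 5) (nat_lit 2) (nat_lit 4) (nat_lit 415) (nat_lit 262) (nat_lit 223)) (XT.lf (nat_lit 0) (nat_lit 21919767823)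 (nat_lit 76) (nat_lit 60263728966) (nat_lit 76) (nat_lit 60263728966) (nat_lit 1) (nat_lit 4) (nat_lit 2) (nat_lit 5) (nat_lit 2) (nat_lit 4) (nat_lit 374) (nat_lit 263) (nat_lit 263))) (XT.nd (nat_lit 78) (nat_lit 0) (nat_lit 0) (XT.lf (nat_lit 0) (nat_lit 51452964933) (nat_lit 76) (nat_lit 128060367302) (nat_lit 76) (nat_lit 128008027350) (nat_lit 1) (nat_lit 4) (nat_lit 2) (nat_lit 5) (nat_lit 2) (nat_lit 4) (nat_lit 375) (nat_lit 263) (nat_lit 262)) (XT.lf (nat_lit 0) (nat_lit 59475256790) (nat_lit 76) (nat_lit 136295997116) (nat_lit 76) (nat_lit 136195194246) (nat_lit 1) (nat_lit 4) (nat_lit 2) (nat_lit 5) (nat_lit 2) (nat_lit 4) (nat_lit 376) (nat_lit 263) (nat_lit 261)))) (XT.nd (nat_lit 156) (nat_lit 0) (nat_lit 0) (XT.nd (nat_lit 78) (nat_lit 0) (nat_lit 0) (XT.lf (nat_lit 0) (nat_lit 67953950725) (nat_lit 76) (nat_lit 145283151105) (nat_lit 76) (nat_lit 145137475163) (nat_lit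 1) (nat_lit 4) (nat_lit 2) (nat_lit 5) (nat_lit 2) (nat_lit 4) (nat_lit 377) (nat_lit 263) (nat_lit 260)) (XT.lf (nat_lit 0) (nat_lit 76939290851) (nat_lit 76) (nat_lit 155075086480) (nat_lit 76) (nat_lit 154887861397) (nat_lit 1) (nat_lit 4) (nat_lit 2) (nat_lit 5) (nat_lit 2) (nat_lit 4) (nat_lit 378) (nat_lit 263) (nat_lit 259))) (XT.nd (nat_lit 78) (nat_lit 0) (nat_lit 0) (XT.lf (nat_lit 0) (nat_lit 86484523627) (nat_lit 76) (nat_lit 165729829523) (nat_lit 76) (nat_lit 165504133013) (nat_lit 1) (nat_lit 4) (nat_lit 2) (nat_lit 5) (nat_lit 2) (nat_lit 4) (nat_lit 379) (nat_lit 263) (nat_lit 258)) (XT.nd (nat_lit 78) (nat_lit 0) (nat_lit 0) (XT.lf (nat_lit 0) (nat_lit 96646213397) (nat_lit 76) (nat_lit 177310519454) (nat_lit 76) (nat_lit 177049201252) (nat_lit 1) (nat_lit 4) (nat_lit 2) (nat_lit 5) (nat_lit 2) (nat_lit 4) (nat_lit 380) (nat_lit 263) (nat_lit 257)) (XT.lf (nat_lit 0)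 (nat_lit 107484577580) (nat_lit 76) (nat_lit 189885782581) (nat_lit 76) (nat_lit 189591481332) (nat_lit 1) (nat_lit 4) (nat_lit 2) (nat_lit 5) (nat_lit 2) (nat_lit 4) (nat_lit 381) (nat_lit 263) (nat_lit 256))))))) (XT.nd (nat_lit 624) (nat_lit 0) (nat_lit 0) (XT.nd (nat_lit 312) (nat_lit 0) (nat_lit 0) (XT.nd (nat_lit 156) (nat_lit 0) (nat_lit 0) (XT.nd (nat_lit 78) (nat_lit 0) (nat_lit 0) (XT.lf (nat_lit 0) (nat_lit 119063843521) (nat_lit 76) (nat_lit 203530138984) (nat_lit 76) (nat_lit 203205297876) (nat_lit 1) (nat_lit 4) (nat_lit 2) (nat_lit 5) (nat_lit 2) (nat_lit 4) (nat_lit 382) (nat_lit 263) (nat_lit 255)) (XT.lf (nat_lit 0) (nat_lit 131452629091) (nat_lit 76) (nat_lit 218324444108) (nat_lit 76) (nat_lit 217971325352) (nat_lit 1) (nat_lit 4) (nat_lit 2) (nat_lit 5) (nat_lit 2) (nat_lit 4) (nat_lit 383) (nat_lit 263) (nat_lit 254))) (XT.nd (nat_lit 78) (nat_lit 0) (nat_lit 0) (XT.lf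 (nat_lit 0) (nat_lit 144724349316) (nat_lit 76) (nat_lit 234356367908) (nat_lit 76) (nat_lit 233977066146) (nat_lit 1) (nat_lit 4) (nat_lit 2) (nat_lit 5) (nat_lit 2) (nat_lit 4) (nat_lit 384) (nat_lit 263) (nat_lit 253)) (XT.lf (nat_lit 0) (nat_lit 158957651427) (nat_lit 76) (nat_lit 251720914379) (nat_lit 76) (nat_lit 251317369091) (nat_lit 1) (nat_lit 4) (nat_lit 2) (nat_lit 5) (nat_lit 2) (nat_lit 4) (nat_lit 385) (nat_lit 263) (nat_lit 252)))) (XT.nd (nat_lit 156) (nat_lit 0) (nat_lit 0) (XT.nd (nat_lit 78) (nat_lit 0) (nat_lit 0) (XT.lf (nat_lit 0) (nat_lit 174236880918) (nat_lit 76) (nat_lit 270520984535) (nat_lit 76) (nat_lit 270094991539) (nat_lit 1) (nat_lit 4) (nat_lit 2) (nat_lit 5) (nat_lit 2) (nat_lit 4) (nat_lit 386) (nat_lit 263) (nat_lit 251)) (XT.lf (nat_lit 0) (nat_lit 190652581371) (nat_lit 76) (nat_lit 290867986200) (nat_lit 76) (nat_lit 290421208290) (nat_lit 1) (nat_lit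 4) (nat_lit 2) (nat_lit 5) (nat_lit 2) (nat_lit 4) (nat_lit 387) (nat_lit 263) (nat_lit 250))) (XT.nd (nat_lit 78) (nat_lit 0) (nat_lit 0) (XT.lf (nat_lit 0) (nat_lit 208302031011) (nat_lit 76) (nat_lit 312882494199) (nat_lit 76) (nat_lit 312416470997) (nat_lit 1) (nat_lit 4) (nat_lit 2) (nat_lit 5) (nat_lit 2) (nat_lit 4) (nat_lit 388) (nat_lit 263) (nat_lit 249)) (XT.lf (nat_lit 0) (nat_lit 227289819169) (nat_lit 76) (nat_lit 336694964876) (nat_lit 76) (nat_lit 336211121959) (nat_lit 1) (nat_lit 4) (nat_lit 2) (nat_lit 5) (nat_lit 2) (nat_lit 4) (nat_lit 389) (nat_lit 263) (nat_lit 248))))) (XT.nd (nat_lit 312) (nat_lit 0) (nat_lit 0) (XT.nd (nat_lit 156) (nat_lit 0) (nat_lit 0) (XT.nd (nat_lit 78) (nat_lit 0) (nat_lit 0) (XT.lf (nat_lit 0) (nat_lit 247728466072) (nat_lit 76) (nat_lit 362446509167) (nat_lit 76) (nat_lit 361946166515) (nat_lit 1) (nat_lit 4) (nat_lit 2) (nat_lit 5) (nat_lit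 2) (nat_lit 4) (nat_lit 390) (nat_lit 263) (nat_lit 247)) (XT.lf (nat_lit 0) (nat_lit 269739089626) (nat_lit 76) (nat_lit 390289728817) (nat_lit 76) (nat_lit 389774108632) (nat_lit 1) (nat_lit 4) (nat_lit 2) (nat_lit 5) (nat_lit 2) (nat_lit 4) (nat_lit 391) (nat_lit 263) (nat_lit 246))) (XT.nd (nat_lit 78) (nat_lit 0) (nat_lit 0) (XT.lf (nat_lit 0) (nat_lit 293452123158) (nat_lit 76) (nat_lit 420389620683) (nat_lit 76) (nat_lit 419859854634) (nat_lit 1) (nat_lit 4) (nat_lit 2) (nat_lit 5) (nat_lit 2) (nat_lit 4) (nat_lit 392) (nat_lit 263) (nat_lit 245)) (XT.lf (nat_lit 0) (nat_lit 319008088346) (nat_lit 76) (nat_lit 452924554494) (nat_lit 76) (nat_lit 452381690424) (nat_lit 1) (nat_lit 4) (nat_lit 2) (nat_lit 5) (nat_lit 2) (nat_lit 4) (nat_lit 393) (nat_lit 263) (nat_lit 244)))) (XT.nd (nat_lit 156) (nat_lit 0) (nat_lit 0) (XT.nd (nat_lit 78) (nat_lit 0) (nat_lit 0) (XT.lf (nat_lit 0)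 (nat_lit 346558427948) (nat_lit 76) (nat_lit 488087329859) (nat_lit 76) (nat_lit 487532337990) (nat_lit 1) (nat_lit 4) (nat_lit 2) (nat_lit 5) (nat_lit 2) (nat_lit 4) (nat_lit 394) (nat_lit 263) (nat_lit 243)) (XT.lf (nat_lit 0) (nat_lit 376266403235) (nat_lit 76) (nat_lit 526086318779) (nat_lit 76) (nat_lit 525520097467) (nat_lit 1) (nat_lit 4) (nat_lit 2) (nat_lit 5) (nat_lit 2) (nat_lit 4) (nat_lit 395) (nat_lit 263) (nat_lit 242))) (XT.nd (nat_lit 78) (nat_lit 0) (nat_lit 0) (XT.lf (nat_lit 0) (nat_lit 408308061468) (nat_lit 76) (nat_lit 567146700449) (nat_lit 76) (nat_lit 566570081504) (nat_lit 1) (nat_lit 4) (nat_lit 2) (nat_lit 5) (nat_lit 2) (nat_lit 4) (nat_lit 396) (nat_lit 263) (nat_lit 241)) (XT.nd (nat_lit 78) (nat_lit 0) (nat_lit 0) (XT.lf (nat_lit 0) (nat_lit 442873279141) (nat_lit 76) (nat_lit 611511795647) (nat_lit 76) (nat_lit 610925549266) (nat_lit 1) (nat_lit 4) (nat_lit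 2) (nat_lit 5) (nat_lit 2) (nat_lit 4) (nat_lit 397) (nat_lit 263) (nat_lit 240)) (XT.lf (nat_lit 0) (nat_lit 480166887173) (nat_lit 76) (nat_lit 659444508643) (nat_lit 76) (nat_lit 658849347968) (nat_lit 1) (nat_lit 4) (nat_lit 2) (nat_lit 5) (nat_lit 2) (nat_lit 4) (nat_lit 398) (nat_lit 263) (nat_lit 239))))))))
noncomputable def xc13 : XT := (XT.nd (nat_lit 44772) (nat_lit 0) (nat_lit 0) (XT.nd (nat_lit 624) (nat_lit 0) (nat_lit 0) (XT.nd (nat_lit 312) (nat_lit 0) (nat_lit 0) (XT.nd (nat_lit 156) (nat_lit 0) (nat_lit 0) (XT.nd (nat_lit 78) (nat_lit 0) (nat_lit 0) (XT.lf (nat_lit 0) (nat_lit 520409884722) (nat_lit 76) (nat_lit 711228885142) (nat_lit 76) (nat_lit 710625470491) (nat_lit 1) (nat_lit 4) (nat_lit 2) (nat_lit 5) (nat_lit 2) (nat_lit 4) (nat_lit 399) (nat_lit 263) (nat_lit 238)) (XT.lf (nat_lit 0) (nat_lit 563840748812) (nat_lit 76) (nat_lit 767171795524) (nat_lit 76) (nat_lit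 766560738304) (nat_lit 1) (nat_lit 4) (nat_lit 2) (nat_lit 5) (nat_lit 2) (nat_lit 4) (nat_lit 400) (nat_lit 263) (nat_lit 237))) (XT.nd (nat_lit 78) (nat_lit 0) (nat_lit 0) (XT.lf (nat_lit 0) (nat_lit 610716847526) (nat_lit 76) (nat_lit 827604753333) (nat_lit 76) (nat_lit 826986619658) (nat_lit 1) (nat_lit 4) (nat_lit 2) (nat_lit 5) (nat_lit 2) (nat_lit 4) (nat_lit 401) (nat_lit 263) (nat_lit 236)) (XT.lf (nat_lit 0) (nat_lit 661315965152) (nat_lit 76) (nat_lit 892885879799) (nat_lit 76) (nat_lit 892261193852) (nat_lit 1) (nat_lit 4) (nat_lit 2) (nat_lit 5) (nat_lit 2) (nat_lit 4) (nat_lit 402) (nat_lit 263) (nat_lit 235)))) (XT.nd (nat_lit 156) (nat_lit 0) (nat_lit 0) (XT.nd (nat_lit 78) (nat_lit 0) (nat_lit 0) (XT.lf (nat_lit 0) (nat_lit 715937948313) (nat_lit 76) (nat_lit 963402026042) (nat_lit 76) (nat_lit 962771273177) (nat_lit 1) (nat_lit 4) (nat_lit 2) (nat_lit 5) (nat_lit 2) (nat_lit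 4) (nat_lit 403) (nat_lit 263) (nat_lit 234)) (XT.lf (nat_lit 0) (nat_lit 774906482836) (nat_lit 76) (nat_lit 1039571065522) (nat_lit 76) (nat_lit 1038934695140) (nat_lit 1) (nat_lit 4) (nat_lit 2) (nat_lit 5) (nat_lit 2) (nat_lit 4) (nat_lit 404) (nat_lit 263) (nat_lit 233))) (XT.nd (nat_lit 78) (nat_lit 0) (nat_lit 0) (XT.lf (nat_lit 0) (nat_lit 838571011888) (nat_lit 76) (nat_lit 1121844370324) (nat_lit 76) (nat_lit 1121202798537) (nat_lit 1) (nat_lit 4) (nat_lit 2) (nat_lit 5) (nat_lit 2) (nat_lit 4) (nat_lit 405) (nat_lit 263) (nat_lit 232)) (XT.lf (nat_lit 0) (nat_lit 907308806752) (nat_lit 76) (nat_lit 1210709485959) (nat_lit 76) (nat_lit 1210063098056) (nat_lit 1) (nat_lit 4) (nat_lit 2) (nat_lit 5) (nat_lit 2) (nat_lit 4) (nat_lit 406) (nat_lit 263) (nat_lit 231))))) (XT.nd (nat_lit 312) (nat_lit 0) (nat_lit 0) (XT.nd (nat_lit 156) (nat_lit 0) (nat_lit 0) (XT.nd (nat_lit 78) (nat_lit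 0) (nat_lit 0) (XT.lf (nat_lit 0) (nat_lit 981527202509) (nat_lit 76) (nat_lit 1306693020518) (nat_lit 76) (nat_lit 1306042173249) (nat_lit 1) (nat_lit 4) (nat_lit 2) (nat_lit 5) (nat_lit 2) (nat_lit 4) (nat_lit 407) (nat_lit 263) (nat_lit 230)) (XT.lf (nat_lit 0) (nat_lit 1061666011875) (nat_lit 76) (nat_lit 1410363765318) (nat_lit 76) (nat_lit 1409708789006) (nat_lit 1) (nat_lit 4) (nat_lit 2) (nat_lit 5) (nat_lit 2) (nat_lit 4) (nat_lit 408) (nat_lit 263) (nat_lit 229))) (XT.nd (nat_lit 78) (nat_lit 0) (nat_lit 0) (XT.lf (nat_lit 0) (nat_lit 1148200131497) (nat_lit 76) (nat_lit 1522336065513) (nat_lit 76) (nat_lit 1521677266014) (nat_lit 1) (nat_lit 4) (nat_lit 2) (nat_lit 5) (nat_lit 2) (nat_lit 4) (nat_lit 409) (nat_lit 263) (nat_lit 228)) (XT.lf (nat_lit 0) (nat_lit 1241642356159) (nat_lit 76) (nat_lit 1643273460661) (nat_lit 76) (nat_lit 1642611121172) (nat_lit 1) (nat_lit 4) (nat_lit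 2) (nat_lit 5) (nat_lit 2) (nat_lit 4) (nat_lit 410) (nat_lit 263) (nat_lit 227)))) (XT.nd (nat_lit 156) (nat_lit 0) (nat_lit 0) (XT.nd (nat_lit 78) (nat_lit 0) (nat_lit 0) (XT.lf (nat_lit 0) (nat_lit 1342546417563) (nat_lit 76) (nat_lit 1773892616805) (nat_lit 76) (nat_lit 1773226999549) (nat_lit 1) (nat_lit 4) (nat_lit 2) (nat_lit 5) (nat_lit 2) (nat_lit 4) (nat_lit 411) (nat_lit 263) (nat_lit 226)) (XT.lf (nat_lit 0) (nat_lit 1451510265701) (nat_lit 76) (nat_lit 1914967573390) (nat_lit 76) (nat_lit 1914298921165) (nat_lit 1) (nat_lit 4) (nat_lit 2) (nat_lit 5) (nat_lit 2) (nat_lit 4) (nat_lit 412) (nat_lit 263) (nat_lit 225))) (XT.nd (nat_lit 78) (nat_lit 0) (nat_lit 0) (XT.lf (nat_lit 0) (nat_lit 1569179612267) (nat_lit 76) (nat_lit 2067334330160) (nat_lit 76) (nat_lit 2066662867777) (nat_lit 1) (nat_lit 4) (nat_lit 2) (nat_lit 5) (nat_lit 2) (nat_lit 4) (nat_lit 413) (nat_lit 263)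 (nat_lit 224)) (XT.nd (nat_lit 78) (nat_lit 0) (nat_lit 0) (XT.lf (nat_lit 0) (nat_lit 1696251757092) (nat_lit 76) (nat_lit 2231895801227) (nat_lit 76) (nat_lit 2231221736847) (nat_lit 1) (nat_lit 4) (nat_lit 2) (nat_lit 5) (nat_lit 2) (nat_lit 4) (nat_lit 414) (nat_lit 263) (nat_lit 223)) (XT.lf (nat_lit 0) (nat_lit 1833479720293) (nat_lit 76) (nat_lit 2409627165680) (nat_lit 76) (nat_lit 2408950692043) (nat_lit 1) (nat_lit 4) (nat_lit 2) (nat_lit 5) (nat_lit 2) (nat_lit 4) (nat_lit 415) (nat_lit 263) (nat_lit 222))))))) (XT.nd (nat_lit 702) (nat_lit 0) (nat_lit 0) (XT.nd (nat_lit 312) (nat_lit 0) (nat_lit 0) (XT.nd (nat_lit 156) (nat_lit 0) (nat_lit 0) (XT.nd (nat_lit 78) (nat_lit 0) (nat_lit 0) (XT.lf (nat_lit 0) (nat_lit 14886613225) (nat_lit 76) (nat_lit 53697771730) (nat_lit 76) (nat_lit 53697771730) (nat_lit 1) (nat_lit 4) (nat_lit 2) (nat_lit 5) (nat_lit 2) (nat_lit 4) (nat_lit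 372) (nat_lit 264) (nat_lit 264)) (XT.lf (nat_lit 0) (nat_lit 36589852315) (nat_lit 76) (nat_lit 113709156692) (nat_lit 76) (nat_lit 113652629544) (nat_lit 1) (nat_lit 4) (nat_lit 2) (nat_lit 5) (nat_lit 2) (nat_lit 4) (nat_lit 373) (nat_lit 264) (nat_lit 263))) (XT.nd (nat_lit 78) (nat_lit 0) (nat_lit 0) (XT.lf (nat_lit 0) (nat_lit 43735579535) (nat_lit 76) (nat_lit 120635953691) (nat_lit 76) (nat_lit 120527086592) (nat_lit 1) (nat_lit 4) (nat_lit 2) (nat_lit 5) (nat_lit 2) (nat_lit 4) (nat_lit 374) (nat_lit 264) (nat_lit 262)) (XT.lf (nat_lit 0) (nat_lit 51252753161) (nat_lit 76) (nat_lit 128216982144) (nat_lit 76) (nat_lit 128059652127) (nat_lit 1) (nat_lit 4) (nat_lit 2) (nat_lit 5) (nat_lit 2) (nat_lit 4) (nat_lit 375) (nat_lit 264) (nat_lit 261)))) (XT.nd (nat_lit 156) (nat_lit 0) (nat_lit 0) (XT.nd (nat_lit 78) (nat_lit 0) (nat_lit 0) (XT.lf (nat_lit 0) (nat_lit 59185919407) (nat_lit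 76) (nat_lit 136497166665) (nat_lit 76) (nat_lit 136294963575) (nat_lit 1) (nat_lit 4) (nat_lit 2) (nat_lit 5) (nat_lit 2) (nat_lit 4) (nat_lit 376) (nat_lit 264) (nat_lit 260)) (XT.lf (nat_lit 0) (nat_lit 67582089629) (nat_lit 76) (nat_lit 145525575013) (nat_lit 76) (nat_lit 145281822782) (nat_lit 1) (nat_lit 4) (nat_lit 2) (nat_lit 5) (nat_lit 2) (nat_lit 4) (nat_lit 377) (nat_lit 264) (nat_lit 259))) (XT.nd (nat_lit 78) (nat_lit 0) (nat_lit 0) (XT.lf (nat_lit 0) (nat_lit 76491018909) (nat_lit 76) (nat_lit 155355708868) (nat_lit 76) (nat_lit 155073485210) (nat_lit 1) (nat_lit 4) (nat_lit 2) (nat_lit 5) (nat_lit 2) (nat_lit 4) (nat_lit 378) (nat_lit 264) (nat_lit 258)) (XT.nd (nat_lit 78) (nat_lit 0) (nat_lit 0) (XT.lf (nat_lit 0) (nat_lit 85965500902) (nat_lit 76) (nat_lit 166045820875) (nat_lit 76) (nat_lit 165727975525) (nat_lit 1) (nat_lit 4) (nat_lit 2) (nat_lit 5) (nat_lit 2) (nat_lit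 4) (nat_lit 379) (nat_lit 264) (nat_lit 257)) (XT.lf (nat_lit 0) (nat_lit 96061680687) (nat_lit 76) (nat_lit 177659259845) (nat_lit 76) (nat_lit 177308431448) (nat_lit 1) (nat_lit 4) (nat_lit 2) (nat_lit 5) (nat_lit 2) (nat_lit 4) (nat_lit 380) (nat_lit 264) (nat_lit 256)))))) (XT.nd (nat_lit 312) (nat_lit 0) (nat_lit 0) (XT.nd (nat_lit 156) (nat_lit 0) (nat_lit 0) (XT.nd (nat_lit 78) (nat_lit 0) (nat_lit 0) (XT.lf (nat_lit 0) (nat_lit 106839387478) (nat_lit 76) (nat_lit 190264846158) (nat_lit 76) (nat_lit 189883477901) (nat_lit 1) (nat_lit 4) (nat_lit 2) (nat_lit 5) (nat_lit 2) (nat_lit 4) (nat_lit 381) (nat_lit 264) (nat_lit 255)) (XT.lf (nat_lit 0) (nat_lit 118362489166) (nat_lit 76) (nat_lit 203937279584) (nat_lit 76) (nat_lit 203527633680) (nat_lit 1) (nat_lit 4) (nat_lit 2) (nat_lit 5) (nat_lit 2) (nat_lit 4) (nat_lit 382) (nat_lit 264) (nat_lit 254))) (XT.nd (nat_lit 78) (nat_lit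 0) (nat_lit 0) (XT.lf (nat_lit 0) (nat_lit 130699270798) (nat_lit 76) (nat_lit 218757581951) (nat_lit 76) (nat_lit 218321753041) (nat_lit 1) (nat_lit 4) (nat_lit 2) (nat_lit 5) (nat_lit 2) (nat_lit 4) (nat_lit 383) (nat_lit 264) (nat_lit 253)) (XT.lf (nat_lit 0) (nat_lit 143922839228) (nat_lit 76) (nat_lit 234813577274) (nat_lit 76) (nat_lit 234353504839) (nat_lit 1) (nat_lit 4) (nat_lit 2) (nat_lit 5) (nat_lit 2) (nat_lit 4) (nat_lit 384) (nat_lit 264) (nat_lit 252)))) (XT.nd (nat_lit 156) (nat_lit 0) (nat_lit 0) (XT.nd (nat_lit 78) (nat_lit 0) (nat_lit 0) (XT.lf (nat_lit 0) (nat_lit 158111556345) (nat_lit 76) (nat_lit 252200412190) (nat_lit 76) (nat_lit 251717892047) (nat_lit 1) (nat_lit 4) (nat_lit 2) (nat_lit 5) (nat_lit 2) (nat_lit 4) (nat_lit 385) (nat_lit 264) (nat_lit 251)) (XT.lf (nat_lit 0) (nat_lit 173349503433) (nat_lit 76) (nat_lit 271021119797) (nat_lit 76) (nat_lit 270517814739)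 (nat_lit 1) (nat_lit 4) (nat_lit 2) (nat_lit 5) (nat_lit 2) (nat_lit 4) (nat_lit 386) (nat_lit 264) (nat_lit 250))) (XT.nd (nat_lit 78) (nat_lit 0) (nat_lit 0) (XT.lf (nat_lit 0) (nat_lit 189726979439) (nat_lit 76) (nat_lit 291387230212) (nat_lit 76) (nat_lit 290864679863) (nat_lit 1) (nat_lit 4) (nat_lit 2) (nat_lit 5) (nat_lit 2) (nat_lit 4) (nat_lit 387) (nat_lit 264) (nat_lit 249)) (XT.nd (nat_lit 78) (nat_lit 0) (nat_lit 0) (XT.lf (nat_lit 0) (nat_lit 207341036073) (nat_lit 76) (nat_lit 313419431499) (nat_lit 76) (nat_lit 312879061435) (nat_lit 1) (nat_lit 4) (nat_lit 2) (nat_lit 5) (nat_lit 2) (nat_lit 4) (nat_lit 388) (nat_lit 264) (nat_lit 248)) (XT.lf (nat_lit 0) (nat_lit 226296052930) (nat_lit 76) (nat_lit 337248284849) (nat_lit 76) (nat_lit 336691415049) (nat_lit 1) (nat_lit 4) (nat_lit 2) (nat_lit 5) (nat_lit 2) (nat_lit 4) (nat_lit 389) (nat_lit 264) (nat_lit 247))))))))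
noncomputable def xc14 : XT := (XT.nd (nat_lit 1326) (nat_lit 0) (nat_lit 0) (XT.nd (nat_lit 624) (nat_lit 0) (nat_lit 0) (XT.nd (nat_lit 312) (nat_lit 0) (nat_lit 0) (XT.nd (nat_lit 156) (nat_lit 0) (nat_lit 0) (XT.nd (nat_lit 78) (nat_lit 0) (nat_lit 0) (XT.lf (nat_lit 0) (nat_lit 246704356034) (nat_lit 76) (nat_lit 363014998282) (nat_lit 76) (nat_lit 362442850949) (nat_lit 1) (nat_lit 4) (nat_lit 2) (nat_lit 5) (nat_lit 2) (nat_lit 4) (nat_lit 390) (nat_lit 264) (nat_lit 246)) (XT.lf (nat_lit 0) (nat_lit 268686883479) (nat_lit 76) (nat_lit 390872263434) (nat_lit 76) (nat_lit 390285970237) (nat_lit 1) (nat_lit 4) (nat_lit 2) (nat_lit 5) (nat_lit 2) (nat_lit 4) (nat_lit 391) (nat_lit 264) (nat_lit 245))) (XT.nd (nat_lit 78) (nat_lit 0) (nat_lit 0) (XT.lf (nat_lit 0) (nat_lit 292373902094) (nat_lit 76) (nat_lit 420985160394) (nat_lit 76) (nat_lit 420385769176) (nat_lit 1) (nat_lit 4) (nat_lit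 2) (nat_lit 5) (nat_lit 2) (nat_lit 4) (nat_lit 392) (nat_lit 264) (nat_lit 244)) (XT.lf (nat_lit 0) (nat_lit 317905779397) (nat_lit 76) (nat_lit 453532135960) (nat_lit 76) (nat_lit 452920616943) (nat_lit 1) (nat_lit 4) (nat_lit 2) (nat_lit 5) (nat_lit 2) (nat_lit 4) (nat_lit 393) (nat_lit 264) (nat_lit 243)))) (XT.nd (nat_lit 156) (nat_lit 0) (nat_lit 0) (XT.nd (nat_lit 78) (nat_lit 0) (nat_lit 0) (XT.lf (nat_lit 0) (nat_lit 345433815402) (nat_lit 76) (nat_lit 488706061097) (nat_lit 76) (nat_lit 488083312637) (nat_lit 1) (nat_lit 4) (nat_lit 2) (nat_lit 5) (nat_lit 2) (nat_lit 4) (nat_lit 394) (nat_lit 264) (nat_lit 242)) (XT.lf (nat_lit 0) (nat_lit 375121139210) (nat_lit 76) (nat_lit 526715373880) (nat_lit 76) (nat_lit 526082227788) (nat_lit 1) (nat_lit 4) (nat_lit 2) (nat_lit 5) (nat_lit 2) (nat_lit 4) (nat_lit 395) (nat_lit 264) (nat_lit 241))) (XT.nd (nat_lit 78) (nat_lit 0) (nat_lit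 0) (XT.lf (nat_lit 0) (nat_lit 407143675703) (nat_lit 76) (nat_lit 567785314682) (nat_lit 76) (nat_lit 567142541153) (nat_lit 1) (nat_lit 4) (nat_lit 2) (nat_lit 5) (nat_lit 2) (nat_lit 4) (nat_lit 396) (nat_lit 264) (nat_lit 240)) (XT.lf (nat_lit 0) (nat_lit 441691188061) (nat_lit 76) (nat_lit 612159260929) (nat_lit 76) (nat_lit 611507573106) (nat_lit 1) (nat_lit 4) (nat_lit 2) (nat_lit 5) (nat_lit 2) (nat_lit 4) (nat_lit 397) (nat_lit 264) (nat_lit 239))))) (XT.nd (nat_lit 312) (nat_lit 0) (nat_lit 0) (XT.nd (nat_lit 156) (nat_lit 0) (nat_lit 0) (XT.nd (nat_lit 78) (nat_lit 0) (nat_lit 0) (XT.lf (nat_lit 0) (nat_lit 478968402283) (nat_lit 76) (nat_lit 660100169340) (nat_lit 76) (nat_lit 659440227541) (nat_lit 1) (nat_lit 4) (nat_lit 2) (nat_lit 5) (nat_lit 2) (nat_lit 4) (nat_lit 398) (nat_lit 264) (nat_lit 238)) (XT.lf (nat_lit 0) (nat_lit 519196220378) (nat_lit 76) (nat_lit 711892134187)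 (nat_lit 76) (nat_lit 711224549818) (nat_lit 1) (nat_lit 4) (nat_lit 2) (nat_lit 5) (nat_lit 2) (nat_lit 4) (nat_lit 399) (nat_lit 264) (nat_lit 237))) (XT.nd (nat_lit 78) (nat_lit 0) (nat_lit 0) (XT.lf (nat_lit 0) (nat_lit 562613029418) (nat_lit 76) (nat_lit 767842070817) (nat_lit 76) (nat_lit 767167409995) (nat_lit 1) (nat_lit 4) (nat_lit 2) (nat_lit 5) (nat_lit 2) (nat_lit 4) (nat_lit 400) (nat_lit 264) (nat_lit 236)) (XT.lf (nat_lit 0) (nat_lit 609476114197) (nat_lit 76) (nat_lit 828281534411) (nat_lit 76) (nat_lit 827600321316) (nat_lit 1) (nat_lit 4) (nat_lit 2) (nat_lit 5) (nat_lit 2) (nat_lit 4) (nat_lit 401) (nat_lit 264) (nat_lit 235)))) (XT.nd (nat_lit 156) (nat_lit 0) (nat_lit 0) (XT.nd (nat_lit 78) (nat_lit 0) (nat_lit 0) (XT.lf (nat_lit 0) (nat_lit 660063181883) (nat_lit 76) (nat_lit 893568684752) (nat_lit 76) (nat_lit 892881404739) (nat_lit 1) (nat_lit 4) (nat_lit 2) (nat_lit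 5) (nat_lit 2) (nat_lit 4) (nat_lit 402) (nat_lit 264) (nat_lit 234)) (XT.lf (nat_lit 0) (nat_lit 714674007693) (nat_lit 76) (nat_lit 964090408657) (nat_lit 76) (nat_lit 963397511127) (nat_lit 1) (nat_lit 4) (nat_lit 2) (nat_lit 5) (nat_lit 2) (nat_lit 4) (nat_lit 403) (nat_lit 264) (nat_lit 233))) (XT.nd (nat_lit 78) (nat_lit 0) (nat_lit 0) (XT.lf (nat_lit 0) (nat_lit 773632211335) (nat_lit 76) (nat_lit 1040264612639) (nat_lit 76) (nat_lit 1039566513704) (nat_lit 1) (nat_lit 4) (nat_lit 2) (nat_lit 5) (nat_lit 2) (nat_lit 4) (nat_lit 404) (nat_lit 264) (nat_lit 232)) (XT.nd (nat_lit 78) (nat_lit 0) (nat_lit 0) (XT.lf (nat_lit 0) (nat_lit 837287174756) (nat_lit 76) (nat_lit 1122542699387) (nat_lit 76) (nat_lit 1121839784337) (nat_lit 1) (nat_lit 4) (nat_lit 2) (nat_lit 5) (nat_lit 2) (nat_lit 4) (nat_lit 405) (nat_lit 264) (nat_lit 231)) (XT.lf (nat_lit 0) (nat_lit 906016112554) (nat_lit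 76) (nat_lit 1211412242749) (nat_lit 76) (nat_lit 1210704868333) (nat_lit 1) (nat_lit 4) (nat_lit 2) (nat_lit 5) (nat_lit 2) (nat_lit 4) (nat_lit 406) (nat_lit 264) (nat_lit 230))))))) (XT.nd (nat_lit 624) (nat_lit 0) (nat_lit 0) (XT.nd (nat_lit 312) (nat_lit 0) (nat_lit 0) (XT.nd (nat_lit 156) (nat_lit 0) (nat_lit 0) (XT.nd (nat_lit 78) (nat_lit 0) (nat_lit 0) (XT.lf (nat_lit 0) (nat_lit 980226307325) (nat_lit 76) (nat_lit 1307399877057) (nat_lit 76) (nat_lit 1306688373597) (nat_lit 1) (nat_lit 4) (nat_lit 2) (nat_lit 5) (nat_lit 2) (nat_lit 4) (nat_lit 407) (nat_lit 264) (nat_lit 229)) (XT.lf (nat_lit 0) (nat_lit 1060357523185) (nat_lit 76) (nat_lit 1411074417920) (nat_lit 76) (nat_lit 1410359091273) (nat_lit 1) (nat_lit 4) (nat_lit 2) (nat_lit 5) (nat_lit 2) (nat_lit 4) (nat_lit 408) (nat_lit 264) (nat_lit 228))) (XT.nd (nat_lit 78) (nat_lit 0) (nat_lit 0) (XT.lf (nat_lit 0) (nat_lit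 1146884611783) (nat_lit 76) (nat_lit 1523050232989) (nat_lit 76) (nat_lit 1522331366353) (nat_lit 1) (nat_lit 4) (nat_lit 2) (nat_lit 5) (nat_lit 2) (nat_lit 4) (nat_lit 409) (nat_lit 264) (nat_lit 227)) (XT.lf (nat_lit 0) (nat_lit 1240320326238) (nat_lit 76) (nat_lit 1643990882648) (nat_lit 76) (nat_lit 1643268738245) (nat_lit 1) (nat_lit 4) (nat_lit 2) (nat_lit 5) (nat_lit 2) (nat_lit 4) (nat_lit 410) (nat_lit 264) (nat_lit 226)))) (XT.nd (nat_lit 156) (nat_lit 0) (nat_lit 0) (XT.nd (nat_lit 78) (nat_lit 0) (nat_lit 0) (XT.lf (nat_lit 0) (nat_lit 1341218359671) (nat_lit 76) (nat_lit 1774613052230) (nat_lit 76) (nat_lit 1773887872857) (nat_lit 1) (nat_lit 4) (nat_lit 2) (nat_lit 5) (nat_lit 2) (nat_lit 4) (nat_lit 411) (nat_lit 264) (nat_lit 225)) (XT.lf (nat_lit 0) (nat_lit 1450176626356) (nat_lit 76) (nat_lit 1915690799035) (nat_lit 76) (nat_lit 1914962809505) (nat_lit 1) (nat_lit 4)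 (nat_lit 2) (nat_lit 5) (nat_lit 2) (nat_lit 4) (nat_lit 412) (nat_lit 264) (nat_lit 224))) (XT.nd (nat_lit 78) (nat_lit 0) (nat_lit 0) (XT.lf (nat_lit 0) (nat_lit 1567840804909) (nat_lit 76) (nat_lit 2068060139341) (nat_lit 76) (nat_lit 2067329547813) (nat_lit 1) (nat_lit 4) (nat_lit 2) (nat_lit 5) (nat_lit 2) (nat_lit 4) (nat_lit 413) (nat_lit 264) (nat_lit 223)) (XT.lf (nat_lit 0) (nat_lit 1694908164537) (nat_lit 76) (nat_lit 2232624002572) (nat_lit 76) (nat_lit 2231891001787) (nat_lit 1) (nat_lit 4) (nat_lit 2) (nat_lit 5) (nat_lit 2) (nat_lit 4) (nat_lit 414) (nat_lit 264) (nat_lit 222))))) (XT.nd (nat_lit 43602) (nat_lit 0) (nat_lit 0) (XT.nd (nat_lit 43446) (nat_lit 0) (nat_lit 0) (XT.nd (nat_lit 43368) (nat_lit 0) (nat_lit 0) (XT.lf (nat_lit 0) (nat_lit 1832131697001) (nat_lit 76) (nat_lit 2410357581991) (nat_lit 76) (nat_lit 2409622350413) (nat_lit 1) (nat_lit 4) (nat_lit 2) (nat_lit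 5) (nat_lit 2) (nat_lit 4) (nat_lit 415) (nat_lit 264) (nat_lit 221)) (XT.lf (nat_lit 0) (nat_lit 8544332385) (nat_lit 76) (nat_lit 48231028694) (nat_lit 76) (nat_lit 48231028694) (nat_lit 1) (nat_lit 4) (nat_lit 2) (nat_lit 5) (nat_lit 2) (nat_lit 4) (nat_lit 370) (nat_lit 265) (nat_lit 265))) (XT.nd (nat_lit 78) (nat_lit 0) (nat_lit 0) (XT.lf (nat_lit 0) (nat_lit 23245307121) (nat_lit 76) (nat_lit 101718749315) (nat_lit 76) (nat_lit 101657699995) (nat_lit 1) (nat_lit 4) (nat_lit 2) (nat_lit 5) (nat_lit 2) (nat_lit 4) (nat_lit 371) (nat_lit 265) (nat_lit 264)) (XT.lf (nat_lit 0) (nat_lit 29660953849) (nat_lit 76) (nat_lit 107512718880) (nat_lit 76) (nat_lit 107395142413) (nat_lit 1) (nat_lit 4) (nat_lit 2) (nat_lit 5) (nat_lit 2) (nat_lit 4) (nat_lit 372) (nat_lit 265) (nat_lit 263)))) (XT.nd (nat_lit 156) (nat_lit 0) (nat_lit 0) (XT.nd (nat_lit 78) (nat_lit 0) (nat_lit 0) (XT.lf (nat_lit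 0) (nat_lit 36373623601) (nat_lit 76) (nat_lit 113878300722) (nat_lit 76) (nat_lit 113708384303) (nat_lit 1) (nat_lit 4) (nat_lit 2) (nat_lit 5) (nat_lit 2) (nat_lit 4) (nat_lit 373) (nat_lit 265) (nat_lit 262)) (XT.lf (nat_lit 0) (nat_lit 43423095162) (nat_lit 76) (nat_lit 120853216804) (nat_lit 76) (nat_lit 120634837467) (nat_lit 1) (nat_lit 4) (nat_lit 2) (nat_lit 5) (nat_lit 2) (nat_lit 4) (nat_lit 374) (nat_lit 265) (nat_lit 261))) (XT.nd (nat_lit 78) (nat_lit 0) (nat_lit 0) (XT.lf (nat_lit 0) (nat_lit 50851143178) (nat_lit 76) (nat_lit 128478799965) (nat_lit 76) (nat_lit 128215547555) (nat_lit 1) (nat_lit 4) (nat_lit 2) (nat_lit 5) (nat_lit 2) (nat_lit 4) (nat_lit 375) (nat_lit 265) (nat_lit 260)) (XT.nd (nat_lit 78) (nat_lit 0) (nat_lit 0) (XT.lf (nat_lit 0) (nat_lit 58701785710) (nat_lit 76) (nat_lit 136800238844) (nat_lit 76) (nat_lit 136495437294) (nat_lit 1) (nat_lit 4) (nat_lit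 2) (nat_lit 5) (nat_lit 2) (nat_lit 4) (nat_lit 376) (nat_lit 265) (nat_lit 259)) (XT.lf (nat_lit 0) (nat_lit 67021545086) (nat_lit 76) (nat_lit 145866845673) (nat_lit 76) (nat_lit 145523572695) (nat_lit 1) (nat_lit 4) (nat_lit 2) (nat_lit 5) (nat_lit 2) (nat_lit 4) (nat_lit 377) (nat_lit 265) (nat_lit 258))))))))
noncomputable def xc15 : XT := (XT.nd (nat_lit 1326) (nat_lit 0) (nat_lit 0) (XT.nd (nat_lit 624) (nat_lit 0) (nat_lit 0) (XT.nd (nat_lit 312) (nat_lit 0) (nat_lit 0) (XT.nd (nat_lit 156) (nat_lit 0) (nat_lit 0) (XT.nd (nat_lit 78) (nat_lit 0) (nat_lit 0) (XT.lf (nat_lit 0) (nat_lit 75859723583) (nat_lit 76) (nat_lit 155732348491) (nat_lit 76) (nat_lit 155353453822) (nat_lit 1) (nat_lit 4) (nat_lit 2) (nat_lit 5) (nat_lit 2) (nat_lit 4) (nat_lit 378) (nat_lit 265) (nat_lit 257)) (XT.lf (nat_lit 0) (nat_lit 85268695592) (nat_lit 76) (nat_lit 166455209537) (nat_lit 76) (nat_lit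 166043331820) (nat_lit 1) (nat_lit 4) (nat_lit 2) (nat_lit 5) (nat_lit 2) (nat_lit 4) (nat_lit 379) (nat_lit 265) (nat_lit 256))) (XT.nd (nat_lit 78) (nat_lit 0) (nat_lit 0) (XT.lf (nat_lit 0) (nat_lit 95304217984) (nat_lit 76) (nat_lit 178098971693) (nat_lit 76) (nat_lit 177656554117) (nat_lit 1) (nat_lit 4) (nat_lit 2) (nat_lit 5) (nat_lit 2) (nat_lit 4) (nat_lit 380) (nat_lit 265) (nat_lit 255)) (XT.lf (nat_lit 0) (nat_lit 106025760521) (nat_lit 76) (nat_lit 190732635029) (nat_lit 76) (nat_lit 190261939805) (nat_lit 1) (nat_lit 4) (nat_lit 2) (nat_lit 5) (nat_lit 2) (nat_lit 4) (nat_lit 381) (nat_lit 265) (nat_lit 254)))) (XT.nd (nat_lit 156) (nat_lit 0) (nat_lit 0) (XT.nd (nat_lit 78) (nat_lit 0) (nat_lit 0) (XT.lf (nat_lit 0) (nat_lit 117496858271) (nat_lit 76) (nat_lit 204431065699) (nat_lit 76) (nat_lit 203934187469) (nat_lit 1) (nat_lit 4) (nat_lit 2) (nat_lit 5) (nat_lit 2) (nat_lit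 4) (nat_lit 382) (nat_lit 265) (nat_lit 253)) (XT.lf (nat_lit 0) (nat_lit 129785488109) (nat_lit 76) (nat_lit 219275439588) (nat_lit 76) (nat_lit 218754317833) (nat_lit 1) (nat_lit 4) (nat_lit 2) (nat_lit 5) (nat_lit 2) (nat_lit 4) (nat_lit 383) (nat_lit 265) (nat_lit 252))) (XT.nd (nat_lit 78) (nat_lit 0) (nat_lit 0) (XT.lf (nat_lit 0) (nat_lit 142964471545) (nat_lit 76) (nat_lit 235353723357) (nat_lit 76) (nat_lit 234810153894) (nat_lit 1) (nat_lit 4) (nat_lit 2) (nat_lit 5) (nat_lit 2) (nat_lit 4) (nat_lit 384) (nat_lit 265) (nat_lit 251)) (XT.lf (nat_lit 0) (nat_lit 157111906259) (nat_lit 76) (nat_lit 252761195724) (nat_lit 76) (nat_lit 252196841346) (nat_lit 1) (nat_lit 4) (nat_lit 2) (nat_lit 5) (nat_lit 2) (nat_lit 4) (nat_lit 385) (nat_lit 265) (nat_lit 250))))) (XT.nd (nat_lit 312) (nat_lit 0) (nat_lit 0) (XT.nd (nat_lit 156) (nat_lit 0) (nat_lit 0) (XT.nd (nat_lit 78) (nat_lit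 0) (nat_lit 0) (XT.lf (nat_lit 0) (nat_lit 172311628901) (nat_lit 76) (nat_lit 271601012080) (nat_lit 76) (nat_lit 271017412411) (nat_lit 1) (nat_lit 4) (nat_lit 2) (nat_lit 5) (nat_lit 2) (nat_lit 4) (nat_lit 386) (nat_lit 265) (nat_lit 249)) (XT.lf (nat_lit 0) (nat_lit 188653711901) (nat_lit 76) (nat_lit 291984815783) (nat_lit 76) (nat_lit 291383396399) (nat_lit 1) (nat_lit 4) (nat_lit 2) (nat_lit 5) (nat_lit 2) (nat_lit 4) (nat_lit 387) (nat_lit 265) (nat_lit 248))) (XT.nd (nat_lit 78) (nat_lit 0) (nat_lit 0) (XT.lf (nat_lit 0) (nat_lit 206234997233) (nat_lit 76) (nat_lit 314033399743) (nat_lit 76) (nat_lit 313415480624) (nat_lit 1) (nat_lit 4) (nat_lit 2) (nat_lit 5) (nat_lit 2) (nat_lit 4) (nat_lit 388) (nat_lit 265) (nat_lit 247)) (XT.lf (nat_lit 0) (nat_lit 225159670291) (nat_lit 76) (nat_lit 337877422235) (nat_lit 76) (nat_lit 337244225583) (nat_lit 1) (nat_lit 4) (nat_lit 2) (nat_lit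 5) (nat_lit 2) (nat_lit 4) (nat_lit 389) (nat_lit 265) (nat_lit 246)))) (XT.nd (nat_lit 156) (nat_lit 0) (nat_lit 0) (XT.nd (nat_lit 78) (nat_lit 0) (nat_lit 0) (XT.lf (nat_lit 0) (nat_lit 245539877286) (nat_lit 76) (nat_lit 363658181170) (nat_lit 76) (nat_lit 363010838654) (nat_lit 1) (nat_lit 4) (nat_lit 2) (nat_lit 5) (nat_lit 2) (nat_lit 4) (nat_lit 390) (nat_lit 265) (nat_lit 245)) (XT.lf (nat_lit 0) (nat_lit 267496389815) (nat_lit 76) (nat_lit 391528451416) (nat_lit 76) (nat_lit 390868010878) (nat_lit 1) (nat_lit 4) (nat_lit 2) (nat_lit 5) (nat_lit 2) (nat_lit 4) (nat_lit 391) (nat_lit 265) (nat_lit 244))) (XT.nd (nat_lit 78) (nat_lit 0) (nat_lit 0) (XT.lf (nat_lit 0) (nat_lit 291159320545) (nat_lit 76) (nat_lit 421653390131) (nat_lit 76) (nat_lit 420980821794) (nat_lit 1) (nat_lit 4) (nat_lit 2) (nat_lit 5) (nat_lit 2) (nat_lit 4) (nat_lit 392) (nat_lit 265) (nat_lit 243)) (XT.nd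 (nat_lit 78) (nat_lit 0) (nat_lit 0) (XT.lf (nat_lit 0) (nat_lit 316668894250) (nat_lit 76) (nat_lit 454211515468) (nat_lit 76) (nat_lit 453527717689) (nat_lit 1) (nat_lit 4) (nat_lit 2) (nat_lit 5) (nat_lit 2) (nat_lit 4) (nat_lit 393) (nat_lit 265) (nat_lit 242)) (XT.lf (nat_lit 0) (nat_lit 344176278775) (nat_lit 76) (nat_lit 489395764468) (nat_lit 76) (nat_lit 488701569057) (nat_lit 1) (nat_lit 4) (nat_lit 2) (nat_lit 5) (nat_lit 2) (nat_lit 4) (nat_lit 394) (nat_lit 265) (nat_lit 241))))))) (XT.nd (nat_lit 702) (nat_lit 0) (nat_lit 0) (XT.nd (nat_lit 312) (nat_lit 0) (nat_lit 0) (XT.nd (nat_lit 156) (nat_lit 0) (nat_lit 0) (XT.nd (nat_lit 78) (nat_lit 0) (nat_lit 0) (XT.lf (nat_lit 0) (nat_lit 373844480843) (nat_lit 76) (nat_lit 527414636384) (nat_lit 76) (nat_lit 526710813536) (nat_lit 1) (nat_lit 4) (nat_lit 2) (nat_lit 5) (nat_lit 2) (nat_lit 4) (nat_lit 395) (nat_lit 265) (nat_lit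 240)) (XT.lf (nat_lit 0) (nat_lit 405849312021) (nat_lit 76) (nat_lit 568493428235) (nat_lit 76) (nat_lit 567780691092) (nat_lit 1) (nat_lit 4) (nat_lit 2) (nat_lit 5) (nat_lit 2) (nat_lit 4) (nat_lit 396) (nat_lit 265) (nat_lit 239))) (XT.nd (nat_lit 78) (nat_lit 0) (nat_lit 0) (XT.lf (nat_lit 0) (nat_lit 440380430569) (nat_lit 76) (nat_lit 612875569897) (nat_lit 76) (nat_lit 612154578779) (nat_lit 1) (nat_lit 4) (nat_lit 2) (nat_lit 5) (nat_lit 2) (nat_lit 4) (nat_lit 397) (nat_lit 265) (nat_lit 238)) (XT.lf (nat_lit 0) (nat_lit 477642465337) (nat_lit 76) (nat_lit 660824066656) (nat_lit 76) (nat_lit 660095432968) (nat_lit 1) (nat_lit 4) (nat_lit 2) (nat_lit 5) (nat_lit 2) (nat_lit 4) (nat_lit 398) (nat_lit 265) (nat_lit 237)))) (XT.nd (nat_lit 156) (nat_lit 0) (nat_lit 0) (XT.nd (nat_lit 78) (nat_lit 0) (nat_lit 0) (XT.lf (nat_lit 0) (nat_lit 517856228384) (nat_lit 76) (nat_lit 712623057751)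 (nat_lit 76) (nat_lit 711887347609) (nat_lit 1) (nat_lit 4) (nat_lit 2) (nat_lit 5) (nat_lit 2) (nat_lit 4) (nat_lit 399) (nat_lit 265) (nat_lit 236)) (XT.lf (nat_lit 0) (nat_lit 561260023489) (nat_lit 76) (nat_lit 768579500166) (nat_lit 76) (nat_lit 767837237752) (nat_lit 1) (nat_lit 4) (nat_lit 2) (nat_lit 5) (nat_lit 2) (nat_lit 4) (nat_lit 400) (nat_lit 265) (nat_lit 235))) (XT.nd (nat_lit 78) (nat_lit 0) (nat_lit 0) (XT.lf (nat_lit 0) (nat_lit 608111058327) (nat_lit 76) (nat_lit 829024987635) (nat_lit 76) (nat_lit 828276658302) (nat_lit 1) (nat_lit 4) (nat_lit 2) (nat_lit 5) (nat_lit 2) (nat_lit 4) (nat_lit 401) (nat_lit 265) (nat_lit 234)) (XT.nd (nat_lit 78) (nat_lit 0) (nat_lit 0) (XT.lf (nat_lit 0) (nat_lit 658686968662) (nat_lit 76) (nat_lit 894317715638) (nat_lit 76) (nat_lit 893563768788) (nat_lit 1) (nat_lit 4) (nat_lit 2) (nat_lit 5) (nat_lit 2) (nat_lit 4) (nat_lit 402)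 (nat_lit 265) (nat_lit 233)) (XT.lf (nat_lit 0) (nat_lit 713287463590) (nat_lit 76) (nat_lit 964844604045) (nat_lit 76) (nat_lit 964085455791) (nat_lit 1) (nat_lit 4) (nat_lit 2) (nat_lit 5) (nat_lit 2) (nat_lit 4) (nat_lit 403) (nat_lit 265) (nat_lit 232)))))) (XT.nd (nat_lit 312) (nat_lit 0) (nat_lit 0) (XT.nd (nat_lit 156) (nat_lit 0) (nat_lit 0) (XT.nd (nat_lit 78) (nat_lit 0) (nat_lit 0) (XT.lf (nat_lit 0) (nat_lit 772236101601) (nat_lit 76) (nat_lit 1041023589973) (nat_lit 76) (nat_lit 1040259625603) (nat_lit 1) (nat_lit 4) (nat_lit 2) (nat_lit 5) (nat_lit 2) (nat_lit 4) (nat_lit 404) (nat_lit 265) (nat_lit 231)) (XT.lf (nat_lit 0) (nat_lit 835882207957) (nat_lit 76) (nat_lit 1123306104449) (nat_lit 76) (nat_lit 1122537680713) (nat_lit 1) (nat_lit 4) (nat_lit 2) (nat_lit 5) (nat_lit 2) (nat_lit 4) (nat_lit 405) (nat_lit 265) (nat_lit 230))) (XT.nd (nat_lit 78) (nat_lit 0) (nat_lit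 0) (XT.lf (nat_lit 0) (nat_lit 904602944769) (nat_lit 76) (nat_lit 1212179747560) (nat_lit 76) (nat_lit 1211407194781) (nat_lit 1) (nat_lit 4) (nat_lit 2) (nat_lit 5) (nat_lit 2) (nat_lit 4) (nat_lit 406) (nat_lit 265) (nat_lit 229)) (XT.lf (nat_lit 0) (nat_lit 978805546034) (nat_lit 76) (nat_lit 1308171177930) (nat_lit 76) (nat_lit 1307394801963) (nat_lit 1) (nat_lit 4) (nat_lit 2) (nat_lit 5) (nat_lit 2) (nat_lit 4) (nat_lit 407) (nat_lit 265) (nat_lit 228)))) (XT.nd (nat_lit 156) (nat_lit 0) (nat_lit 0) (XT.nd (nat_lit 78) (nat_lit 0) (nat_lit 0) (XT.lf (nat_lit 0) (nat_lit 1058929730870) (nat_lit 76) (nat_lit 1411849233667) (nat_lit 76) (nat_lit 1411069317711) (nat_lit 1) (nat_lit 4) (nat_lit 2) (nat_lit 5) (nat_lit 2) (nat_lit 4) (nat_lit 408) (nat_lit 265) (nat_lit 227)) (XT.lf (nat_lit 0) (nat_lit 1145450309260) (nat_lit 76) (nat_lit 1523828303247) (nat_lit 76) (nat_lit 1523045109524)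 (nat_lit 1) (nat_lit 4) (nat_lit 2) (nat_lit 5) (nat_lit 2) (nat_lit 4) (nat_lit 409) (nat_lit 265) (nat_lit 226))) (XT.nd (nat_lit 78) (nat_lit 0) (nat_lit 0) (XT.lf (nat_lit 0) (nat_lit 1238879995745) (nat_lit 76) (nat_lit 1644771966344) (nat_lit 76) (nat_lit 1643985737651) (nat_lit 1) (nat_lit 4) (nat_lit 2) (nat_lit 5) (nat_lit 2) (nat_lit 4) (nat_lit 410) (nat_lit 265) (nat_lit 225)) (XT.nd (nat_lit 78) (nat_lit 0) (nat_lit 0) (XT.lf (nat_lit 0) (nat_lit 1339772447725) (nat_lit 76) (nat_lit 1775396926145) (nat_lit 76) (nat_lit 1774607887296) (nat_lit 1) (nat_lit 4) (nat_lit 2) (nat_lit 5) (nat_lit 2) (nat_lit 4) (nat_lit 411) (nat_lit 265) (nat_lit 224)) (XT.lf (nat_lit 0) (nat_lit 1448725546397) (nat_lit 76) (nat_lit 1916477256487) (nat_lit 76) (nat_lit 1915685615640) (nat_lit 1) (nat_lit 4) (nat_lit 2) (nat_lit 5) (nat_lit 2) (nat_lit 4) (nat_lit 412) (nat_lit 265) (nat_lit 223))))))))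
noncomputable def xc16 : XT := (XT.nd (nat_lit 44460) (nat_lit 0) (nat_lit 0) (XT.nd (nat_lit 43758) (nat_lit 0) (nat_lit 0) (XT.nd (nat_lit 43446) (nat_lit 0) (nat_lit 0) (XT.nd (nat_lit 156) (nat_lit 0) (nat_lit 0) (XT.nd (nat_lit 78) (nat_lit 0) (nat_lit 0) (XT.lf (nat_lit 0) (nat_lit 1566384939754) (nat_lit 76) (nat_lit 2068848988957) (nat_lit 76) (nat_lit 2068054938853) (nat_lit 1) (nat_lit 4) (nat_lit 2) (nat_lit 5) (nat_lit 2) (nat_lit 4) (nat_lit 413) (nat_lit 265) (nat_lit 222)) (XT.lf (nat_lit 0) (nat_lit 1693447868644) (nat_lit 76) (nat_lit 2233415067154) (nat_lit 76) (nat_lit 2232618786257) (nat_lit 1) (nat_lit 4) (nat_lit 2) (nat_lit 5) (nat_lit 2) (nat_lit 4) (nat_lit 414) (nat_lit 265) (nat_lit 221))) (XT.nd (nat_lit 43212) (nat_lit 0) (nat_lit 0) (XT.lf (nat_lit 0) (nat_lit 1830667298572) (nat_lit 76) (nat_lit 2411150697468) (nat_lit 76) (nat_lit 2410352351021) (nat_lit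 1) (nat_lit 4) (nat_lit 2) (nat_lit 5) (nat_lit 2) (nat_lit 4) (nat_lit 415) (nat_lit 265) (nat_lit 220)) (XT.lf (nat_lit 0) (nat_lit 2769365689) (nat_lit 76) (nat_lit 43719685223) (nat_lit 76) (nat_lit 43719685223) (nat_lit 1) (nat_lit 4) (nat_lit 2) (nat_lit 5) (nat_lit 2) (nat_lit 4) (nat_lit 368) (nat_lit 266) (nat_lit 266)))) (XT.nd (nat_lit 156) (nat_lit 0) (nat_lit 0) (XT.nd (nat_lit 78) (nat_lit 0) (nat_lit 0) (XT.lf (nat_lit 0) (nat_lit 11154542992) (nat_lit 76) (nat_lit 91777425603) (nat_lit 76) (nat_lit 91711492338) (nat_lit 1) (nat_lit 4) (nat_lit 2) (nat_lit 5) (nat_lit 2) (nat_lit 4) (nat_lit 369) (nat_lit 266) (nat_lit 265)) (XT.lf (nat_lit 0) (nat_lit 16967410362) (nat_lit 76) (nat_lit 96588606842) (nat_lit 76) (nat_lit 96461624257) (nat_lit 1) (nat_lit 4) (nat_lit 2) (nat_lit 5) (nat_lit 2) (nat_lit 4) (nat_lit 370) (nat_lit 266) (nat_lit 264))) (XT.nd (nat_lit 78) (nat_lit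 0) (nat_lit 0) (XT.lf (nat_lit 0) (nat_lit 23011780111) (nat_lit 76) (nat_lit 101901424866) (nat_lit 76) (nat_lit 101717915134) (nat_lit 1) (nat_lit 4) (nat_lit 2) (nat_lit 5) (nat_lit 2) (nat_lit 4) (nat_lit 371) (nat_lit 266) (nat_lit 263)) (XT.lf (nat_lit 0) (nat_lit 29323470726) (nat_lit 76) (nat_lit 107747363043) (nat_lit 76) (nat_lit 107511513359) (nat_lit 1) (nat_lit 4) (nat_lit 2) (nat_lit 5) (nat_lit 2) (nat_lit 4) (nat_lit 372) (nat_lit 266) (nat_lit 262))))) (XT.nd (nat_lit 312) (nat_lit 0) (nat_lit 0) (XT.nd (nat_lit 156) (nat_lit 0) (nat_lit 0) (XT.nd (nat_lit 78) (nat_lit 0) (nat_lit 0) (XT.lf (nat_lit 0) (nat_lit 35939884819) (nat_lit 76) (nat_lit 114161063968) (nat_lit 76) (nat_lit 113876751366) (nat_lit 1) (nat_lit 4) (nat_lit 2) (nat_lit 5) (nat_lit 2) (nat_lit 4) (nat_lit 373) (nat_lit 266) (nat_lit 261)) (XT.lf (nat_lit 0) (nat_lit 42900230769) (nat_lit 76) (nat_lit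 121180534758) (nat_lit 76) (nat_lit 120851349083) (nat_lit 1) (nat_lit 4) (nat_lit 2) (nat_lit 5) (nat_lit 2) (nat_lit 4) (nat_lit 374) (nat_lit 266) (nat_lit 260))) (XT.nd (nat_lit 78) (nat_lit 0) (nat_lit 0) (XT.lf (nat_lit 0) (nat_lit 50245755071) (nat_lit 76) (nat_lit 128847372277) (nat_lit 76) (nat_lit 128476637461) (nat_lit 1) (nat_lit 4) (nat_lit 2) (nat_lit 5) (nat_lit 2) (nat_lit 4) (nat_lit 375) (nat_lit 266) (nat_lit 259)) (XT.lf (nat_lit 0) (nat_lit 58019986758) (nat_lit 76) (nat_lit 137207009637) (nat_lit 76) (nat_lit 136797803394) (nat_lit 1) (nat_lit 4) (nat_lit 2) (nat_lit 5) (nat_lit 2) (nat_lit 4) (nat_lit 376) (nat_lit 266) (nat_lit 258)))) (XT.nd (nat_lit 156) (nat_lit 0) (nat_lit 0) (XT.nd (nat_lit 78) (nat_lit 0) (nat_lit 0) (XT.lf (nat_lit 0) (nat_lit 66268995350) (nat_lit 76) (nat_lit 146308985428) (nat_lit 76) (nat_lit 145864157494) (nat_lit 1) (nat_lit 4) (nat_lit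 2) (nat_lit 5) (nat_lit 2) (nat_lit 4) (nat_lit 377) (nat_lit 266) (nat_lit 257)) (XT.lf (nat_lit 0) (nat_lit 75041663863) (nat_lit 76) (nat_lit 156207237286) (nat_lit 76) (nat_lit 155729426304) (nat_lit 1) (nat_lit 4) (nat_lit 2) (nat_lit 5) (nat_lit 2) (nat_lit 4) (nat_lit 378) (nat_lit 266) (nat_lit 256))) (XT.nd (nat_lit 78) (nat_lit 0) (nat_lit 0) (XT.lf (nat_lit 0) (nat_lit 84389978479) (nat_lit 76) (nat_lit 166960421518) (nat_lit 76) (nat_lit 166452070677) (nat_lit 1) (nat_lit 4) (nat_lit 2) (nat_lit 5) (nat_lit 2) (nat_lit 4) (nat_lit 379) (nat_lit 266) (nat_lit 255)) (XT.nd (nat_lit 78) (nat_lit 0) (nat_lit 0) (XT.lf (nat_lit 0) (nat_lit 94369336618) (nat_lit 76) (nat_lit 178632260696) (nat_lit 76) (nat_lit 178095632208) (nat_lit 1) (nat_lit 4) (nat_lit 2) (nat_lit 5) (nat_lit 2) (nat_lit 4) (nat_lit 380) (nat_lit 266) (nat_lit 254)) (XT.lf (nat_lit 0) (nat_lit 105038875218) (nat_lit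 76) (nat_lit 191291921276) (nat_lit 76) (nat_lit 190729109781) (nat_lit 1) (nat_lit 4) (nat_lit 2) (nat_lit 5) (nat_lit 2) (nat_lit 4) (nat_lit 381) (nat_lit 266) (nat_lit 253))))))) (XT.nd (nat_lit 624) (nat_lit 0) (nat_lit 0) (XT.nd (nat_lit 312) (nat_lit 0) (nat_lit 0) (XT.nd (nat_lit 156) (nat_lit 0) (nat_lit 0) (XT.nd (nat_lit 78) (nat_lit 0) (nat_lit 0) (XT.lf (nat_lit 0) (nat_lit 116461821173) (nat_lit 76) (nat_lit 205014423468) (nat_lit 76) (nat_lit 204427368448) (nat_lit 1) (nat_lit 4) (nat_lit 2) (nat_lit 5) (nat_lit 2) (nat_lit 4) (nat_lit 382) (nat_lit 266) (nat_lit 252)) (XT.lf (nat_lit 0) (nat_lit 128705866016) (nat_lit 76) (nat_lit 219881085804) (nat_lit 76) (nat_lit 219271583076) (nat_lit 1) (nat_lit 4) (nat_lit 2) (nat_lit 5) (nat_lit 2) (nat_lit 4) (nat_lit 383) (nat_lit 266) (nat_lit 251))) (XT.nd (nat_lit 78) (nat_lit 0) (nat_lit 0) (XT.lf (nat_lit 0) (nat_lit 141843567050)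 (nat_lit 76) (nat_lit 235980007023) (nat_lit 76) (nat_lit 235349719380) (nat_lit 1) (nat_lit 4) (nat_lit 2) (nat_lit 5) (nat_lit 2) (nat_lit 4) (nat_lit 384) (nat_lit 266) (nat_lit 250)) (XT.lf (nat_lit 0) (nat_lit 155952777317) (nat_lit 76) (nat_lit 253406588140) (nat_lit 76) (nat_lit 252757055206) (nat_lit 1) (nat_lit 4) (nat_lit 2) (nat_lit 5) (nat_lit 2) (nat_lit 4) (nat_lit 385) (nat_lit 266) (nat_lit 249)))) (XT.nd (nat_lit 156) (nat_lit 0) (nat_lit 0) (XT.nd (nat_lit 78) (nat_lit 0) (nat_lit 0) (XT.lf (nat_lit 0) (nat_lit 171117106953) (nat_lit 76) (nat_lit 272264097784) (nat_lit 76) (nat_lit 271596745135) (nat_lit 1) (nat_lit 4) (nat_lit 2) (nat_lit 5) (nat_lit 2) (nat_lit 4) (nat_lit 386) (nat_lit 266) (nat_lit 248)) (XT.lf (nat_lit 0) (nat_lit 187426418651) (nat_lit 76) (nat_lit 292664284160) (nat_lit 76) (nat_lit 291980431776) (nat_lit 1) (nat_lit 4) (nat_lit 2) (nat_lit 5)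 (nat_lit 2) (nat_lit 4) (nat_lit 387) (nat_lit 266) (nat_lit 247))) (XT.nd (nat_lit 78) (nat_lit 0) (nat_lit 0) (XT.lf (nat_lit 0) (nat_lit 204977360184) (nat_lit 76) (nat_lit 314728037262) (nat_lit 76) (nat_lit 314028907345) (nat_lit 1) (nat_lit 4) (nat_lit 2) (nat_lit 5) (nat_lit 2) (nat_lit 4) (nat_lit 388) (nat_lit 266) (nat_lit 246)) (XT.lf (nat_lit 0) (nat_lit 223873937133) (nat_lit 76) (nat_lit 338586105256) (nat_lit 76) (nat_lit 337872829475) (nat_lit 1) (nat_lit 4) (nat_lit 2) (nat_lit 5) (nat_lit 2) (nat_lit 4) (nat_lit 389) (nat_lit 266) (nat_lit 245))))) (XT.nd (nat_lit 312) (nat_lit 0) (nat_lit 0) (XT.nd (nat_lit 156) (nat_lit 0) (nat_lit 0) (XT.nd (nat_lit 78) (nat_lit 0) (nat_lit 0) (XT.lf (nat_lit 0) (nat_lit 244228129212) (nat_lit 76) (nat_lit 364379869285) (nat_lit 76) (nat_lit 363653495482) (nat_lit 1) (nat_lit 4) (nat_lit 2) (nat_lit 5) (nat_lit 2) (nat_lit 4) (nat_lit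 390) (nat_lit 266) (nat_lit 244)) (XT.lf (nat_lit 0) (nat_lit 266160553855) (nat_lit 76) (nat_lit 392262181286) (nat_lit 76) (nat_lit 391523679684) (nat_lit 1) (nat_lit 4) (nat_lit 2) (nat_lit 5) (nat_lit 2) (nat_lit 4) (nat_lit 391) (nat_lit 266) (nat_lit 243))) (XT.nd (nat_lit 78) (nat_lit 0) (nat_lit 0) (XT.lf (nat_lit 0) (nat_lit 289801180988) (nat_lit 76) (nat_lit 422398269772) (nat_lit 76) (nat_lit 421648538728) (nat_lit 1) (nat_lit 4) (nat_lit 2) (nat_lit 5) (nat_lit 2) (nat_lit 4) (nat_lit 392) (nat_lit 266) (nat_lit 242)) (XT.lf (nat_lit 0) (nat_lit 315290103214) (nat_lit 76) (nat_lit 454966718973) (nat_lit 76) (nat_lit 454206590296) (nat_lit 1) (nat_lit 4) (nat_lit 2) (nat_lit 5) (nat_lit 2) (nat_lit 4) (nat_lit 393) (nat_lit 266) (nat_lit 241)))) (XT.nd (nat_lit 156) (nat_lit 0) (nat_lit 0) (XT.nd (nat_lit 78) (nat_lit 0) (nat_lit 0) (XT.lf (nat_lit 0) (nat_lit 342778365999)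 (nat_lit 76) (nat_lit 490160527106) (nat_lit 76) (nat_lit 489390770992) (nat_lit 1) (nat_lit 4) (nat_lit 2) (nat_lit 5) (nat_lit 2) (nat_lit 4) (nat_lit 394) (nat_lit 266) (nat_lit 240)) (XT.lf (nat_lit 0) (nat_lit 372428862752) (nat_lit 76) (nat_lit 528188250070) (nat_lit 76) (nat_lit 527409579663) (nat_lit 1) (nat_lit 4) (nat_lit 2) (nat_lit 5) (nat_lit 2) (nat_lit 4) (nat_lit 395) (nat_lit 266) (nat_lit 239))) (XT.nd (nat_lit 78) (nat_lit 0) (nat_lit 0) (XT.lf (nat_lit 0) (nat_lit 404417300121) (nat_lit 76) (nat_lit 569275237336) (nat_lit 76) (nat_lit 568488312953) (nat_lit 1) (nat_lit 4) (nat_lit 2) (nat_lit 5) (nat_lit 2) (nat_lit 4) (nat_lit 396) (nat_lit 266) (nat_lit 238)) (XT.nd (nat_lit 78) (nat_lit 0) (nat_lit 0) (XT.lf (nat_lit 0) (nat_lit 438933239215) (nat_lit 76) (nat_lit 613664967347) (nat_lit 76) (nat_lit 612870400393) (nat_lit 1) (nat_lit 4) (nat_lit 2) (nat_lit 5) (nat_lit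 2) (nat_lit 4) (nat_lit 397) (nat_lit 266) (nat_lit 237)) (XT.lf (nat_lit 0) (nat_lit 476181218933) (nat_lit 76) (nat_lit 661620490353) (nat_lit 76) (nat_lit 660818846946) (nat_lit 1) (nat_lit 4) (nat_lit 2) (nat_lit 5) (nat_lit 2) (nat_lit 4) (nat_lit 398) (nat_lit 266) (nat_lit 236))))))))
noncomputable def xc17 : XT := (XT.nd (nat_lit 44304) (nat_lit 0) (nat_lit 0) (XT.nd (nat_lit 624) (nat_lit 0) (nat_lit 0) (XT.nd (nat_lit 312) (nat_lit 0) (nat_lit 0) (XT.nd (nat_lit 156) (nat_lit 0) (nat_lit 0) (XT.nd (nat_lit 78) (nat_lit 0) (nat_lit 0) (XT.lf (nat_lit 0) (nat_lit 516381968044) (nat_lit 76) (nat_lit 713425987233) (nat_lit 76) (nat_lit 712617791554) (nat_lit 1) (nat_lit 4) (nat_lit 2) (nat_lit 5) (nat_lit 2) (nat_lit 4) (nat_lit 399) (nat_lit 266) (nat_lit 235)) (XT.lf (nat_lit 0) (nat_lit 559773713210) (nat_lit 76) (nat_lit 769388453523) (nat_lit 76) (nat_lit 768574190926) (nat_lit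 1) (nat_lit 4) (nat_lit 2) (nat_lit 5) (nat_lit 2) (nat_lit 4) (nat_lit 400) (nat_lit 266) (nat_lit 234))) (XT.nd (nat_lit 78) (nat_lit 0) (nat_lit 0) (XT.lf (nat_lit 0) (nat_lit 606613590697) (nat_lit 76) (nat_lit 829839518654) (nat_lit 76) (nat_lit 829019638539) (nat_lit 1) (nat_lit 4) (nat_lit 2) (nat_lit 5) (nat_lit 2) (nat_lit 4) (nat_lit 401) (nat_lit 266) (nat_lit 233)) (XT.lf (nat_lit 0) (nat_lit 657179170150) (nat_lit 76) (nat_lit 895137411159) (nat_lit 76) (nat_lit 894312329639) (nat_lit 1) (nat_lit 4) (nat_lit 2) (nat_lit 5) (nat_lit 2) (nat_lit 4) (nat_lit 402) (nat_lit 266) (nat_lit 232)))) (XT.nd (nat_lit 156) (nat_lit 0) (nat_lit 0) (XT.nd (nat_lit 78) (nat_lit 0) (nat_lit 0) (XT.lf (nat_lit 0) (nat_lit 711770099448) (nat_lit 76) (nat_lit 965669081512) (nat_lit 76) (nat_lit 964839183877) (nat_lit 1) (nat_lit 4) (nat_lit 2) (nat_lit 5) (nat_lit 2) (nat_lit 4) (nat_lit 403)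 (nat_lit 266) (nat_lit 231)) (XT.lf (nat_lit 0) (nat_lit 770709880394) (nat_lit 76) (nat_lit 1041852495168) (nat_lit 76) (nat_lit 1041018138167) (nat_lit 1) (nat_lit 4) (nat_lit 2) (nat_lit 5) (nat_lit 2) (nat_lit 4) (nat_lit 404) (nat_lit 266) (nat_lit 230))) (XT.nd (nat_lit 78) (nat_lit 0) (nat_lit 0) (XT.lf (nat_lit 0) (nat_lit 834347785763) (nat_lit 76) (nat_lit 1124139109392) (nat_lit 76) (nat_lit 1123300623348) (nat_lit 1) (nat_lit 4) (nat_lit 2) (nat_lit 5) (nat_lit 2) (nat_lit 4) (nat_lit 405) (nat_lit 266) (nat_lit 229)) (XT.lf (nat_lit 0) (nat_lit 903060929069) (nat_lit 76) (nat_lit 1213016548566) (nat_lit 76) (nat_lit 1212174239334) (nat_lit 1) (nat_lit 4) (nat_lit 2) (nat_lit 5) (nat_lit 2) (nat_lit 4) (nat_lit 406) (nat_lit 266) (nat_lit 228))))) (XT.nd (nat_lit 312) (nat_lit 0) (nat_lit 0) (XT.nd (nat_lit 156) (nat_lit 0) (nat_lit 0) (XT.nd (nat_lit 78) (nat_lit 0) (nat_lit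 0) (XT.lf (nat_lit 0) (nat_lit 977256499309) (nat_lit 76) (nat_lit 1309011493810) (nat_lit 76) (nat_lit 1308165644589) (nat_lit 1) (nat_lit 4) (nat_lit 2) (nat_lit 5) (nat_lit 2) (nat_lit 4) (nat_lit 407) (nat_lit 266) (nat_lit 227)) (XT.lf (nat_lit 0) (nat_lit 1057374173938) (nat_lit 76) (nat_lit 1412692804058) (nat_lit 76) (nat_lit 1411843677070) (nat_lit 1) (nat_lit 4) (nat_lit 2) (nat_lit 5) (nat_lit 2) (nat_lit 4) (nat_lit 408) (nat_lit 266) (nat_lit 226))) (XT.nd (nat_lit 78) (nat_lit 0) (nat_lit 0) (XT.lf (nat_lit 0) (nat_lit 1143888724359) (nat_lit 76) (nat_lit 1524674887076) (nat_lit 76) (nat_lit 1523822725119) (nat_lit 1) (nat_lit 4) (nat_lit 2) (nat_lit 5) (nat_lit 2) (nat_lit 4) (nat_lit 409) (nat_lit 266) (nat_lit 225)) (XT.lf (nat_lit 0) (nat_lit 1237312829390) (nat_lit 76) (nat_lit 1645621340393) (nat_lit 76) (nat_lit 1644766368278) (nat_lit 1) (nat_lit 4) (nat_lit 2) (nat_lit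 5) (nat_lit 2) (nat_lit 4) (nat_lit 410) (nat_lit 266) (nat_lit 224)))) (XT.nd (nat_lit 156) (nat_lit 0) (nat_lit 0) (XT.nd (nat_lit 78) (nat_lit 0) (nat_lit 0) (XT.lf (nat_lit 0) (nat_lit 1338200113357) (nat_lit 76) (nat_lit 1776248883731) (nat_lit 76) (nat_lit 1775391309619) (nat_lit 1) (nat_lit 4) (nat_lit 2) (nat_lit 5) (nat_lit 2) (nat_lit 4) (nat_lit 411) (nat_lit 266) (nat_lit 223)) (XT.lf (nat_lit 0) (nat_lit 1447148426832) (nat_lit 76) (nat_lit 1917331606236) (nat_lit 76) (nat_lit 1916471622867) (nat_lit 1) (nat_lit 4) (nat_lit 2) (nat_lit 5) (nat_lit 2) (nat_lit 4) (nat_lit 412) (nat_lit 266) (nat_lit 222))) (XT.nd (nat_lit 78) (nat_lit 0) (nat_lit 0) (XT.lf (nat_lit 0) (nat_lit 1564803389451) (nat_lit 76) (nat_lit 2069705553672) (nat_lit 76) (nat_lit 2068843339510) (nat_lit 1) (nat_lit 4) (nat_lit 2) (nat_lit 5) (nat_lit 2) (nat_lit 4) (nat_lit 413) (nat_lit 266) (nat_lit 221))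 (XT.nd (nat_lit 78) (nat_lit 0) (nat_lit 0) (XT.lf (nat_lit 0) (nat_lit 1691862215806) (nat_lit 76) (nat_lit 2234273682764) (nat_lit 76) (nat_lit 2233409403052) (nat_lit 1) (nat_lit 4) (nat_lit 2) (nat_lit 5) (nat_lit 2) (nat_lit 4) (nat_lit 414) (nat_lit 266) (nat_lit 220)) (XT.lf (nat_lit 0) (nat_lit 1829077847091) (nat_lit 76) (nat_lit 2412011212055) (nat_lit 76) (nat_lit 2411145019797) (nat_lit 1) (nat_lit 4) (nat_lit 2) (nat_lit 5) (nat_lit 2) (nat_lit 4) (nat_lit 415) (nat_lit 266) (nat_lit 219))))))) (XT.nd (nat_lit 624) (nat_lit 0) (nat_lit 0) (XT.nd (nat_lit 312) (nat_lit 0) (nat_lit 0) (XT.nd (nat_lit 156) (nat_lit 0) (nat_lit 0) (XT.nd (nat_lit 78) (nat_lit 76) (nat_lit 0) (XT.lf (nat_lit 0) (nat_lit 37556500908) (nat_lit 152) (nat_lit 2418847019) (nat_lit 0) (nat_lit 37556500908) (nat_lit 2) (nat_lit 5) (nat_lit 4) (nat_lit 4) (nat_lit 2) (nat_lit 4) (nat_lit 366) (nat_lit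 267) (nat_lit 267)) (XT.lf (nat_lit 0) (nat_lit 86696641) (nat_lit 76) (nat_lit 83619942306) (nat_lit 76) (nat_lit 83548734379) (nat_lit 1) (nat_lit 4) (nat_lit 2) (nat_lit 5) (nat_lit 2) (nat_lit 4) (nat_lit 367) (nat_lit 267) (nat_lit 266))) (XT.nd (nat_lit 78) (nat_lit 0) (nat_lit 0) (XT.lf (nat_lit 0) (nat_lit 5407776617) (nat_lit 76) (nat_lit 87576043856) (nat_lit 76) (nat_lit 87438902664) (nat_lit 1) (nat_lit 4) (nat_lit 2) (nat_lit 5) (nat_lit 2) (nat_lit 4) (nat_lit 368) (nat_lit 267) (nat_lit 265)) (XT.lf (nat_lit 0) (nat_lit 10902333820) (nat_lit 76) (nat_lit 91974715199) (nat_lit 76) (nat_lit 91776524688) (nat_lit 1) (nat_lit 4) (nat_lit 2) (nat_lit 5) (nat_lit 2) (nat_lit 4) (nat_lit 369) (nat_lit 267) (nat_lit 264)))) (XT.nd (nat_lit 156) (nat_lit 0) (nat_lit 0) (XT.nd (nat_lit 78) (nat_lit 0) (nat_lit 0) (XT.lf (nat_lit 0) (nat_lit 16602928589) (nat_lit 76) (nat_lit 96842022537)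 (nat_lit 76) (nat_lit 96587304879) (nat_lit 1) (nat_lit 4) (nat_lit 2) (nat_lit 5) (nat_lit 2) (nat_lit 4) (nat_lit 370) (nat_lit 267) (nat_lit 263)) (XT.lf (nat_lit 0) (nat_lit 22543342226) (nat_lit 76) (nat_lit 102206809172) (nat_lit 76) (nat_lit 101899751562) (nat_lit 1) (nat_lit 4) (nat_lit 2) (nat_lit 5) (nat_lit 2) (nat_lit 4) (nat_lit 371) (nat_lit 267) (nat_lit 262))) (XT.nd (nat_lit 78) (nat_lit 0) (nat_lit 0) (XT.lf (nat_lit 0) (nat_lit 28758777182) (nat_lit 76) (nat_lit 108100866433) (nat_lit 76) (nat_lit 107745345904) (nat_lit 1) (nat_lit 4) (nat_lit 2) (nat_lit 5) (nat_lit 2) (nat_lit 4) (nat_lit 372) (nat_lit 267) (nat_lit 261)) (XT.lf (nat_lit 0) (nat_lit 35286065664) (nat_lit 76) (nat_lit 114559122065) (nat_lit 76) (nat_lit 114158728464) (nat_lit 1) (nat_lit 4) (nat_lit 2) (nat_lit 5) (nat_lit 2) (nat_lit 4) (nat_lit 373) (nat_lit 267) (nat_lit 260))))) (XT.nd (nat_lit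 312) (nat_lit 0) (nat_lit 0) (XT.nd (nat_lit 156) (nat_lit 0) (nat_lit 0) (XT.nd (nat_lit 78) (nat_lit 0) (nat_lit 0) (XT.lf (nat_lit 0) (nat_lit 42163887901) (nat_lit 76) (nat_lit 121619847214) (nat_lit 76) (nat_lit 121177904472) (nat_lit 1) (nat_lit 4) (nat_lit 2) (nat_lit 5) (nat_lit 2) (nat_lit 4) (nat_lit 374) (nat_lit 267) (nat_lit 259)) (XT.lf (nat_lit 0) (nat_lit 49433001357) (nat_lit 76) (nat_lit 129324883213) (nat_lit 76) (nat_lit 128844469044) (nat_lit 1) (nat_lit 4) (nat_lit 2) (nat_lit 5) (nat_lit 2) (nat_lit 4) (nat_lit 375) (nat_lit 267) (nat_lit 258))) (XT.nd (nat_lit 78) (nat_lit 0) (nat_lit 0) (XT.lf (nat_lit 0) (nat_lit 57136482260) (nat_lit 76) (nat_lit 137719889536) (nat_lit 76) (nat_lit 137203853675) (nat_lit 1) (nat_lit 4) (nat_lit 2) (nat_lit 5) (nat_lit 2) (nat_lit 4) (nat_lit 376) (nat_lit 267) (nat_lit 257)) (XT.lf (nat_lit 0) (nat_lit 65319980868) (nat_lit 76)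 (nat_lit 146854614367) (nat_lit 76) (nat_lit 146305595459) (nat_lit 1) (nat_lit 4) (nat_lit 2) (nat_lit 5) (nat_lit 2) (nat_lit 4) (nat_lit 377) (nat_lit 267) (nat_lit 256)))) (XT.nd (nat_lit 156) (nat_lit 0) (nat_lit 0) (XT.nd (nat_lit 78) (nat_lit 0) (nat_lit 0) (XT.lf (nat_lit 0) (nat_lit 74031991988) (nat_lit 76) (nat_lit 156783189410) (nat_lit 76) (nat_lit 156203630643) (nat_lit 1) (nat_lit 4) (nat_lit 2) (nat_lit 5) (nat_lit 2) (nat_lit 4) (nat_lit 378) (nat_lit 267) (nat_lit 255)) (XT.lf (nat_lit 0) (nat_lit 83324142351) (nat_lit 76) (nat_lit 167564450665) (nat_lit 76) (nat_lit 166956614250) (nat_lit 1) (nat_lit 4) (nat_lit 2) (nat_lit 5) (nat_lit 2) (nat_lit 4) (nat_lit 379) (nat_lit 267) (nat_lit 254))) (XT.nd (nat_lit 78) (nat_lit 0) (nat_lit 0) (XT.lf (nat_lit 0) (nat_lit 93251496552) (nat_lit 76) (nat_lit 179262287088) (nat_lit 76) (nat_lit 178628267666) (nat_lit 1) (nat_lit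 4) (nat_lit 2) (nat_lit 5) (nat_lit 2) (nat_lit 4) (nat_lit 380) (nat_lit 267) (nat_lit 253)) (XT.nd (nat_lit 78) (nat_lit 0) (nat_lit 0) (XT.lf (nat_lit 0) (nat_lit 103872883358) (nat_lit 76) (nat_lit 191946019189) (nat_lit 76) (nat_lit 191287756243) (nat_lit 1) (nat_lit 4) (nat_lit 2) (nat_lit 5) (nat_lit 2) (nat_lit 4) (nat_lit 381) (nat_lit 267) (nat_lit 252)) (XT.lf (nat_lit 0) (nat_lit 115251244319) (nat_lit 76) (nat_lit 205690809828) (nat_lit 76) (nat_lit 205010099173) (nat_lit 1) (nat_lit 4) (nat_lit 2) (nat_lit 5) (nat_lit 2) (nat_lit 4) (nat_lit 382) (nat_lit 267) (nat_lit 251))))))))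
noncomputable def xc18 : XT := (XT.nd (nat_lit 1326) (nat_lit 0) (nat_lit 0) (XT.nd (nat_lit 624) (nat_lit 0) (nat_lit 0) (XT.nd (nat_lit 312) (nat_lit 0) (nat_lit 0) (XT.nd (nat_lit 156) (nat_lit 0) (nat_lit 0) (XT.nd (nat_lit 78) (nat_lit 0) (nat_lit 0) (XT.lf (nat_lit 0) (nat_lit 127454006759) (nat_lit 76) (nat_lit 220578109614) (nat_lit 76) (nat_lit 219876614044) (nat_lit 1) (nat_lit 4) (nat_lit 2) (nat_lit 5) (nat_lit 2) (nat_lit 4) (nat_lit 383) (nat_lit 267) (nat_lit 250)) (XT.lf (nat_lit 0) (nat_lit 140553483346) (nat_lit 76) (nat_lit 236696139583) (nat_lit 76) (nat_lit 235975398722) (nat_lit 1) (nat_lit 4) (nat_lit 2) (nat_lit 5) (nat_lit 2) (nat_lit 4) (nat_lit 384) (nat_lit 267) (nat_lit 249))) (XT.nd (nat_lit 78) (nat_lit 0) (nat_lit 0) (XT.lf (nat_lit 0) (nat_lit 154627300607) (nat_lit 76) (nat_lit 254140413987) (nat_lit 76) (nat_lit 253401853412) (nat_lit 1) (nat_lit 4) (nat_lit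 2) (nat_lit 5) (nat_lit 2) (nat_lit 4) (nat_lit 385) (nat_lit 267) (nat_lit 248)) (XT.lf (nat_lit 0) (nat_lit 169758858940) (nat_lit 76) (nat_lit 273014306305) (nat_lit 76) (nat_lit 272259245994) (nat_lit 1) (nat_lit 4) (nat_lit 2) (nat_lit 5) (nat_lit 2) (nat_lit 4) (nat_lit 386) (nat_lit 267) (nat_lit 247)))) (XT.nd (nat_lit 156) (nat_lit 0) (nat_lit 0) (XT.nd (nat_lit 78) (nat_lit 0) (nat_lit 0) (XT.lf (nat_lit 0) (nat_lit 186037826840) (nat_lit 76) (nat_lit 293429661823) (nat_lit 76) (nat_lit 292659323979) (nat_lit 1) (nat_lit 4) (nat_lit 2) (nat_lit 5) (nat_lit 2) (nat_lit 4) (nat_lit 387) (nat_lit 267) (nat_lit 246)) (XT.lf (nat_lit 0) (nat_lit 203560672264) (nat_lit 76) (nat_lit 315507460427) (nat_lit 76) (nat_lit 314722976719) (nat_lit 1) (nat_lit 4) (nat_lit 2) (nat_lit 5) (nat_lit 2) (nat_lit 4) (nat_lit 388) (nat_lit 267) (nat_lit 245))) (XT.nd (nat_lit 78) (nat_lit 0) (nat_lit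 0) (XT.lf (nat_lit 0) (nat_lit 222431234297) (nat_lit 76) (nat_lit 339378533515) (nat_lit 76) (nat_lit 338580951785) (nat_lit 1) (nat_lit 4) (nat_lit 2) (nat_lit 5) (nat_lit 2) (nat_lit 4) (nat_lit 389) (nat_lit 267) (nat_lit 244)) (XT.lf (nat_lit 0) (nat_lit 242761338490) (nat_lit 76) (nat_lit 365184339298) (nat_lit 76) (nat_lit 364374629770) (nat_lit 1) (nat_lit 4) (nat_lit 2) (nat_lit 5) (nat_lit 2) (nat_lit 4) (nat_lit 390) (nat_lit 267) (nat_lit 243))))) (XT.nd (nat_lit 312) (nat_lit 0) (nat_lit 0) (XT.nd (nat_lit 156) (nat_lit 0) (nat_lit 0) (XT.nd (nat_lit 78) (nat_lit 0) (nat_lit 0) (XT.lf (nat_lit 0) (nat_lit 264671459537) (nat_lit 76) (nat_lit 393077801071) (nat_lit 76) (nat_lit 392256862100) (nat_lit 1) (nat_lit 4) (nat_lit 2) (nat_lit 5) (nat_lit 2) (nat_lit 4) (nat_lit 391) (nat_lit 267) (nat_lit 242)) (XT.lf (nat_lit 0) (nat_lit 288291435190) (nat_lit 76) (nat_lit 423224213421)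 (nat_lit 76) (nat_lit 422392876818) (nat_lit 1) (nat_lit 4) (nat_lit 2) (nat_lit 5) (nat_lit 2) (nat_lit 4) (nat_lit 392) (nat_lit 267) (nat_lit 241))) (XT.nd (nat_lit 78) (nat_lit 0) (nat_lit 0) (XT.lf (nat_lit 0) (nat_lit 313761235676) (nat_lit 76) (nat_lit 455802221754) (nat_lit 76) (nat_lit 454961257714) (nat_lit 1) (nat_lit 4) (nat_lit 2) (nat_lit 5) (nat_lit 2) (nat_lit 4) (nat_lit 393) (nat_lit 267) (nat_lit 240)) (XT.lf (nat_lit 0) (nat_lit 341231793146) (nat_lit 76) (nat_lit 491004880935) (nat_lit 76) (nat_lit 490155002601) (nat_lit 1) (nat_lit 4) (nat_lit 2) (nat_lit 5) (nat_lit 2) (nat_lit 4) (nat_lit 394) (nat_lit 267) (nat_lit 239)))) (XT.nd (nat_lit 156) (nat_lit 0) (nat_lit 0) (XT.nd (nat_lit 78) (nat_lit 0) (nat_lit 0) (XT.lf (nat_lit 0) (nat_lit 370865896089) (nat_lit 76) (nat_lit 529040799315) (nat_lit 76) (nat_lit 528182667006) (nat_lit 1) (nat_lit 4) (nat_lit 2) (nat_lit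 5) (nat_lit 2) (nat_lit 4) (nat_lit 395) (nat_lit 267) (nat_lit 238)) (XT.lf (nat_lit 0) (nat_lit 402839154004) (nat_lit 76) (nat_lit 570135374929) (nat_lit 76) (nat_lit 569269600049) (nat_lit 1) (nat_lit 4) (nat_lit 2) (nat_lit 5) (nat_lit 2) (nat_lit 4) (nat_lit 396) (nat_lit 267) (nat_lit 237))) (XT.nd (nat_lit 78) (nat_lit 0) (nat_lit 0) (XT.lf (nat_lit 0) (nat_lit 437341038049) (nat_lit 76) (nat_lit 614532131187) (nat_lit 76) (nat_lit 613659279854) (nat_lit 1) (nat_lit 4) (nat_lit 2) (nat_lit 5) (nat_lit 2) (nat_lit 4) (nat_lit 397) (nat_lit 267) (nat_lit 236)) (XT.nd (nat_lit 78) (nat_lit 0) (nat_lit 0) (XT.lf (nat_lit 0) (nat_lit 474576003832) (nat_lit 76) (nat_lit 662494159979) (nat_lit 76) (nat_lit 661614756373) (nat_lit 1) (nat_lit 4) (nat_lit 2) (nat_lit 5) (nat_lit 2) (nat_lit 4) (nat_lit 398) (nat_lit 267) (nat_lit 235)) (XT.lf (nat_lit 0) (nat_lit 514764703003) (nat_lit 76)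 (nat_lit 714305680733) (nat_lit 76) (nat_lit 713420210209) (nat_lit 1) (nat_lit 4) (nat_lit 2) (nat_lit 5) (nat_lit 2) (nat_lit 4) (nat_lit 399) (nat_lit 267) (nat_lit 234))))))) (XT.nd (nat_lit 624) (nat_lit 0) (nat_lit 0) (XT.nd (nat_lit 312) (nat_lit 0) (nat_lit 0) (XT.nd (nat_lit 156) (nat_lit 0) (nat_lit 0) (XT.nd (nat_lit 78) (nat_lit 0) (nat_lit 0) (XT.lf (nat_lit 0) (nat_lit 558145290817) (nat_lit 76) (nat_lit 770273724686) (nat_lit 76) (nat_lit 769382636645) (nat_lit 1) (nat_lit 4) (nat_lit 2) (nat_lit 5) (nat_lit 2) (nat_lit 4) (nat_lit 400) (nat_lit 267) (nat_lit 233)) (XT.lf (nat_lit 0) (nat_lit 604974837423) (nat_lit 76) (nat_lit 830729954318) (nat_lit 76) (nat_lit 829833664872) (nat_lit 1) (nat_lit 4) (nat_lit 2) (nat_lit 5) (nat_lit 2) (nat_lit 4) (nat_lit 401) (nat_lit 267) (nat_lit 232))) (XT.nd (nat_lit 78) (nat_lit 0) (nat_lit 0) (XT.lf (nat_lit 0) (nat_lit 655530851246)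 (nat_lit 76) (nat_lit 896032628769) (nat_lit 76) (nat_lit 895131523208) (nat_lit 1) (nat_lit 4) (nat_lit 2) (nat_lit 5) (nat_lit 2) (nat_lit 4) (nat_lit 402) (nat_lit 267) (nat_lit 231)) (XT.lf (nat_lit 0) (nat_lit 710112923478) (nat_lit 76) (nat_lit 966568726851) (nat_lit 76) (nat_lit 965663161923) (nat_lit 1) (nat_lit 4) (nat_lit 2) (nat_lit 5) (nat_lit 2) (nat_lit 4) (nat_lit 403) (nat_lit 267) (nat_lit 230)))) (XT.nd (nat_lit 156) (nat_lit 0) (nat_lit 0) (XT.nd (nat_lit 78) (nat_lit 0) (nat_lit 0) (XT.lf (nat_lit 0) (nat_lit 769044503437) (nat_lit 76) (nat_lit 1042756240255) (nat_lit 76) (nat_lit 1041846546284) (nat_lit 1) (nat_lit 4) (nat_lit 2) (nat_lit 5) (nat_lit 2) (nat_lit 4) (nat_lit 404) (nat_lit 267) (nat_lit 229)) (XT.lf (nat_lit 0) (nat_lit 832674815300) (nat_lit 76) (nat_lit 1125046650542) (nat_lit 76) (nat_lit 1124133133384) (nat_lit 1) (nat_lit 4) (nat_lit 2) (nat_lit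 5) (nat_lit 2) (nat_lit 4) (nat_lit 405) (nat_lit 267) (nat_lit 228))) (XT.nd (nat_lit 78) (nat_lit 0) (nat_lit 0) (XT.lf (nat_lit 0) (nat_lit 901380927582) (nat_lit 76) (nat_lit 1213927604589) (nat_lit 76) (nat_lit 1213010547442) (nat_lit 1) (nat_lit 4) (nat_lit 2) (nat_lit 5) (nat_lit 2) (nat_lit 4) (nat_lit 406) (nat_lit 267) (nat_lit 227)) (XT.lf (nat_lit 0) (nat_lit 975569987615) (nat_lit 76) (nat_lit 1309925804345) (nat_lit 76) (nat_lit 1309005469431) (nat_lit 1) (nat_lit 4) (nat_lit 2) (nat_lit 5) (nat_lit 2) (nat_lit 4) (nat_lit 407) (nat_lit 267) (nat_lit 226))))) (XT.nd (nat_lit 312) (nat_lit 0) (nat_lit 0) (XT.nd (nat_lit 156) (nat_lit 0) (nat_lit 0) (XT.nd (nat_lit 78) (nat_lit 0) (nat_lit 0) (XT.lf (nat_lit 0) (nat_lit 1055681634274) (nat_lit 76) (nat_lit 1413610128031) (nat_lit 76) (nat_lit 1412686758147) (nat_lit 1) (nat_lit 4) (nat_lit 2) (nat_lit 5) (nat_lit 2) (nat_lit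 4) (nat_lit 408) (nat_lit 267) (nat_lit 225)) (XT.lf (nat_lit 0) (nat_lit 1142190603241) (nat_lit 76) (nat_lit 1525595001268) (nat_lit 76) (nat_lit 1524668821227) (nat_lit 1) (nat_lit 4) (nat_lit 2) (nat_lit 5) (nat_lit 2) (nat_lit 4) (nat_lit 409) (nat_lit 267) (nat_lit 224))) (XT.nd (nat_lit 78) (nat_lit 0) (nat_lit 0) (XT.lf (nat_lit 0) (nat_lit 1235609540259) (nat_lit 76) (nat_lit 1646544038122) (nat_lit 76) (nat_lit 1645615256083) (nat_lit 1) (nat_lit 4) (nat_lit 2) (nat_lit 5) (nat_lit 2) (nat_lit 4) (nat_lit 410) (nat_lit 267) (nat_lit 223)) (XT.lf (nat_lit 0) (nat_lit 1336492039030) (nat_lit 76) (nat_lit 1777173973623) (nat_lit 76) (nat_lit 1776242782328) (nat_lit 1) (nat_lit 4) (nat_lit 2) (nat_lit 5) (nat_lit 2) (nat_lit 4) (nat_lit 411) (nat_lit 267) (nat_lit 222)))) (XT.nd (nat_lit 156) (nat_lit 0) (nat_lit 0) (XT.nd (nat_lit 78) (nat_lit 0) (nat_lit 0) (XT.lf (nat_lit 0) (nat_lit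 1445435921767) (nat_lit 76) (nat_lit 1918258911095) (nat_lit 76) (nat_lit 1917325489006) (nat_lit 1) (nat_lit 4) (nat_lit 2) (nat_lit 5) (nat_lit 2) (nat_lit 4) (nat_lit 412) (nat_lit 267) (nat_lit 221)) (XT.lf (nat_lit 0) (nat_lit 1563086781851) (nat_lit 76) (nat_lit 2070634909426) (nat_lit 76) (nat_lit 2069699421788) (nat_lit 1) (nat_lit 4) (nat_lit 2) (nat_lit 5) (nat_lit 2) (nat_lit 4) (nat_lit 413) (nat_lit 267) (nat_lit 220))) (XT.nd (nat_lit 78) (nat_lit 0) (nat_lit 0) (XT.lf (nat_lit 0) (nat_lit 1690141809562) (nat_lit 76) (nat_lit 2235204937494) (nat_lit 76) (nat_lit 2234267537311) (nat_lit 1) (nat_lit 4) (nat_lit 2) (nat_lit 5) (nat_lit 2) (nat_lit 4) (nat_lit 414) (nat_lit 267) (nat_lit 219)) (XT.nd (nat_lit 42900) (nat_lit 0) (nat_lit 76) (XT.lf (nat_lit 0) (nat_lit 1827353923585) (nat_lit 76) (nat_lit 2412944225097) (nat_lit 76) (nat_lit 2412005054037) (nat_lit 1) (nat_lit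 4) (nat_lit 2) (nat_lit 5) (nat_lit 2) (nat_lit 4) (nat_lit 415) (nat_lit 267) (nat_lit 218)) (XT.lf (nat_lit 0) (nat_lit 29775919385) (nat_lit 152) (nat_lit 7122080677) (nat_lit 0) (nat_lit 29775919385) (nat_lit 2) (nat_lit 5) (nat_lit 4) (nat_lit 4) (nat_lit 2) (nat_lit 4) (nat_lit 364) (nat_lit 268) (nat_lit 268))))))))
noncomputable def xc19 : XT := (XT.nd (nat_lit 1326) (nat_lit 0) (nat_lit 0) (XT.nd (nat_lit 624) (nat_lit 0) (nat_lit 0) (XT.nd (nat_lit 312) (nat_lit 0) (nat_lit 0) (XT.nd (nat_lit 156) (nat_lit 76) (nat_lit 0) (XT.nd (nat_lit 78) (nat_lit 0) (nat_lit 0) (XT.lf (nat_lit 0) (nat_lit 67105098755) (nat_lit 152) (nat_lit 9652059434) (nat_lit 0) (nat_lit 67028194194) (nat_lit 2) (nat_lit 5) (nat_lit 4) (nat_lit 4) (nat_lit 2) (nat_lit 4) (nat_lit 365) (nat_lit 268) (nat_lit 267)) (XT.lf (nat_lit 0) (nat_lit 75122579378) (nat_lit 152) (nat_lit 4972050223) (nat_lit 0) (nat_lit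 74974466891) (nat_lit 2) (nat_lit 5) (nat_lit 4) (nat_lit 4) (nat_lit 2) (nat_lit 4) (nat_lit 366) (nat_lit 268) (nat_lit 266))) (XT.nd (nat_lit 78) (nat_lit 76) (nat_lit 0) (XT.lf (nat_lit 0) (nat_lit 83651791637) (nat_lit 152) (nat_lit 176400334) (nat_lit 0) (nat_lit 83437745885) (nat_lit 2) (nat_lit 5) (nat_lit 4) (nat_lit 4) (nat_lit 2) (nat_lit 4) (nat_lit 367) (nat_lit 268) (nat_lit 265)) (XT.lf (nat_lit 0) (nat_lit 5014136303) (nat_lit 76) (nat_lit 87849732807) (nat_lit 76) (nat_lit 87574637735) (nat_lit 1) (nat_lit 4) (nat_lit 2) (nat_lit 5) (nat_lit 2) (nat_lit 4) (nat_lit 368) (nat_lit 268) (nat_lit 264)))) (XT.nd (nat_lit 156) (nat_lit 0) (nat_lit 0) (XT.nd (nat_lit 78) (nat_lit 0) (nat_lit 0) (XT.lf (nat_lit 0) (nat_lit 10396420905) (nat_lit 76) (nat_lit 92304530250) (nat_lit 76) (nat_lit 91972908031) (nat_lit 1) (nat_lit 4) (nat_lit 2) (nat_lit 5) (nat_lit 2) (nat_lit 4) (nat_lit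 369) (nat_lit 268) (nat_lit 263)) (XT.lf (nat_lit 0) (nat_lit 15993059561) (nat_lit 76) (nat_lit 97223806199) (nat_lit 76) (nat_lit 96839844028) (nat_lit 1) (nat_lit 4) (nat_lit 2) (nat_lit 5) (nat_lit 2) (nat_lit 4) (nat_lit 370) (nat_lit 268) (nat_lit 262))) (XT.nd (nat_lit 78) (nat_lit 0) (nat_lit 0) (XT.lf (nat_lit 0) (nat_lit 21837217538) (nat_lit 76) (nat_lit 102636711917) (nat_lit 76) (nat_lit 102204286828) (nat_lit 1) (nat_lit 4) (nat_lit 2) (nat_lit 5) (nat_lit 2) (nat_lit 4) (nat_lit 371) (nat_lit 268) (nat_lit 261)) (XT.lf (nat_lit 0) (nat_lit 27963526884) (nat_lit 76) (nat_lit 108575323885) (nat_lit 76) (nat_lit 108098025724) (nat_lit 1) (nat_lit 4) (nat_lit 2) (nat_lit 5) (nat_lit 2) (nat_lit 4) (nat_lit 372) (nat_lit 268) (nat_lit 260))))) (XT.nd (nat_lit 312) (nat_lit 0) (nat_lit 0) (XT.nd (nat_lit 156) (nat_lit 0) (nat_lit 0) (XT.nd (nat_lit 78) (nat_lit 0) (nat_lit 0)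 (XT.lf (nat_lit 0) (nat_lit 34408291652) (nat_lit 76) (nat_lit 115074833876) (nat_lit 76) (nat_lit 114555986573) (nat_lit 1) (nat_lit 4) (nat_lit 2) (nat_lit 5) (nat_lit 2) (nat_lit 4) (nat_lit 373) (nat_lit 268) (nat_lit 259)) (XT.lf (nat_lit 0) (nat_lit 41209703043) (nat_lit 76) (nat_lit 122173757505) (nat_lit 76) (nat_lit 121616438775) (nat_lit 1) (nat_lit 4) (nat_lit 2) (nat_lit 5) (nat_lit 2) (nat_lit 4) (nat_lit 374) (nat_lit 268) (nat_lit 258))) (XT.nd (nat_lit 78) (nat_lit 0) (nat_lit 0) (XT.lf (nat_lit 0) (nat_lit 48408065716) (nat_lit 76) (nat_lit 129914162467) (nat_lit 76) (nat_lit 129321222046) (nat_lit 1) (nat_lit 4) (nat_lit 2) (nat_lit 5) (nat_lit 2) (nat_lit 4) (nat_lit 375) (nat_lit 268) (nat_lit 257)) (XT.lf (nat_lit 0) (nat_lit 56046036635) (nat_lit 76) (nat_lit 138341917830) (nat_lit 76) (nat_lit 137715994361) (nat_lit 1) (nat_lit 4) (nat_lit 2) (nat_lit 5) (nat_lit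 2) (nat_lit 4) (nat_lit 376) (nat_lit 268) (nat_lit 256)))) (XT.nd (nat_lit 156) (nat_lit 0) (nat_lit 0) (XT.nd (nat_lit 78) (nat_lit 0) (nat_lit 0) (XT.lf (nat_lit 0) (nat_lit 64168877850) (nat_lit 76) (nat_lit 147506965846) (nat_lit 76) (nat_lit 146850502519) (nat_lit 1) (nat_lit 4) (nat_lit 2) (nat_lit 5) (nat_lit 2) (nat_lit 4) (nat_lit 377) (nat_lit 268) (nat_lit 255)) (XT.lf (nat_lit 0) (nat_lit 72824724717) (nat_lit 76) (nat_lit 157463617913) (nat_lit 76) (nat_lit 156778876938) (nat_lit 1) (nat_lit 4) (nat_lit 2) (nat_lit 5) (nat_lit 2) (nat_lit 4) (nat_lit 378) (nat_lit 268) (nat_lit 254))) (XT.nd (nat_lit 78) (nat_lit 0) (nat_lit 0) (XT.lf (nat_lit 0) (nat_lit 82064871142) (nat_lit 76) (nat_lit 168270876411) (nat_lit 76) (nat_lit 167559952430) (nat_lit 1) (nat_lit 4) (nat_lit 2) (nat_lit 5) (nat_lit 2) (nat_lit 4) (nat_lit 379) (nat_lit 268) (nat_lit 253)) (XT.nd (nat_lit 78)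 (nat_lit 0) (nat_lit 0) (XT.lf (nat_lit 0) (nat_lit 91944073549) (nat_lit 76) (nat_lit 179992784356) (nat_lit 76) (nat_lit 179257616849) (nat_lit 1) (nat_lit 4) (nat_lit 2) (nat_lit 5) (nat_lit 2) (nat_lit 4) (nat_lit 380) (nat_lit 268) (nat_lit 252)) (XT.lf (nat_lit 0) (nat_lit 102520875360) (nat_lit 76) (nat_lit 192698804904) (nat_lit 76) (nat_lit 191941189689) (nat_lit 1) (nat_lit 4) (nat_lit 2) (nat_lit 5) (nat_lit 2) (nat_lit 4) (nat_lit 381) (nat_lit 268) (nat_lit 251))))))) (XT.nd (nat_lit 702) (nat_lit 0) (nat_lit 0) (XT.nd (nat_lit 312) (nat_lit 0) (nat_lit 0) (XT.nd (nat_lit 156) (nat_lit 0) (nat_lit 0) (XT.nd (nat_lit 78) (nat_lit 0) (nat_lit 0) (XT.lf (nat_lit 0) (nat_lit 113857953918) (nat_lit 76) (nat_lit 206464232992) (nat_lit 76) (nat_lit 205685832863) (nat_lit 1) (nat_lit 4) (nat_lit 2) (nat_lit 5) (nat_lit 2) (nat_lit 4) (nat_lit 382) (nat_lit 268) (nat_lit 250)) (XT.lf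 (nat_lit 0) (nat_lit 126022491912) (nat_lit 76) (nat_lit 221370641529) (nat_lit 76) (nat_lit 220572996107) (nat_lit 1) (nat_lit 4) (nat_lit 2) (nat_lit 5) (nat_lit 2) (nat_lit 4) (nat_lit 383) (nat_lit 268) (nat_lit 249))) (XT.nd (nat_lit 78) (nat_lit 0) (nat_lit 0) (XT.lf (nat_lit 0) (nat_lit 139086575493) (nat_lit 76) (nat_lit 237506364785) (nat_lit 76) (nat_lit 236690899649) (nat_lit 1) (nat_lit 4) (nat_lit 2) (nat_lit 5) (nat_lit 2) (nat_lit 4) (nat_lit 384) (nat_lit 268) (nat_lit 248)) (XT.lf (nat_lit 0) (nat_lit 153127621452) (nat_lit 76) (nat_lit 254967021863) (nat_lit 76) (nat_lit 254135056992) (nat_lit 1) (nat_lit 4) (nat_lit 2) (nat_lit 5) (nat_lit 2) (nat_lit 4) (nat_lit 385) (nat_lit 268) (nat_lit 247)))) (XT.nd (nat_lit 156) (nat_lit 0) (nat_lit 0) (XT.nd (nat_lit 78) (nat_lit 0) (nat_lit 0) (XT.lf (nat_lit 0) (nat_lit 168228835987) (nat_lit 76) (nat_lit 273856083322) (nat_lit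 76) (nat_lit 273008840918) (nat_lit 1) (nat_lit 4) (nat_lit 2) (nat_lit 5) (nat_lit 2) (nat_lit 4) (nat_lit 386) (nat_lit 268) (nat_lit 246)) (XT.lf (nat_lit 0) (nat_lit 184479707777) (nat_lit 76) (nat_lit 294285484343) (nat_lit 76) (nat_lit 293424096075) (nat_lit 1) (nat_lit 4) (nat_lit 2) (nat_lit 5) (nat_lit 2) (nat_lit 4) (nat_lit 387) (nat_lit 268) (nat_lit 245))) (XT.nd (nat_lit 78) (nat_lit 0) (nat_lit 0) (XT.lf (nat_lit 0) (nat_lit 201976538285) (nat_lit 76) (nat_lit 316376288041) (nat_lit 76) (nat_lit 315501801750) (nat_lit 1) (nat_lit 4) (nat_lit 2) (nat_lit 5) (nat_lit 2) (nat_lit 4) (nat_lit 388) (nat_lit 268) (nat_lit 244)) (XT.nd (nat_lit 78) (nat_lit 0) (nat_lit 0) (XT.lf (nat_lit 0) (nat_lit 220823012432) (nat_lit 76) (nat_lit 340259402883) (nat_lit 76) (nat_lit 339372788794) (nat_lit 1) (nat_lit 4) (nat_lit 2) (nat_lit 5) (nat_lit 2) (nat_lit 4) (nat_lit 389) (nat_lit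 268) (nat_lit 243)) (XT.lf (nat_lit 0) (nat_lit 241130813028) (nat_lit 76) (nat_lit 366076358439) (nat_lit 76) (nat_lit 365178514907) (nat_lit 1) (nat_lit 4) (nat_lit 2) (nat_lit 5) (nat_lit 2) (nat_lit 4) (nat_lit 390) (nat_lit 268) (nat_lit 242)))))) (XT.nd (nat_lit 312) (nat_lit 0) (nat_lit 0) (XT.nd (nat_lit 156) (nat_lit 0) (nat_lit 0) (XT.nd (nat_lit 78) (nat_lit 0) (nat_lit 0) (XT.lf (nat_lit 0) (nat_lit 263020282595) (nat_lit 76) (nat_lit 393980144074) (nat_lit 76) (nat_lit 393071902911) (nat_lit 1) (nat_lit 4) (nat_lit 2) (nat_lit 5) (nat_lit 2) (nat_lit 4) (nat_lit 391) (nat_lit 268) (nat_lit 241)) (XT.lf (nat_lit 0) (nat_lit 286621136509) (nat_lit 76) (nat_lit 424136115557) (nat_lit 76) (nat_lit 423218246956) (nat_lit 1) (nat_lit 4) (nat_lit 2) (nat_lit 5) (nat_lit 2) (nat_lit 4) (nat_lit 392) (nat_lit 268) (nat_lit 240))) (XT.nd (nat_lit 78) (nat_lit 0) (nat_lit 0) (XT.lf (nat_lit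 0) (nat_lit 312073231680) (nat_lit 76) (nat_lit 456722974939) (nat_lit 76) (nat_lit 455796192044) (nat_lit 1) (nat_lit 4) (nat_lit 2) (nat_lit 5) (nat_lit 2) (nat_lit 4) (nat_lit 393) (nat_lit 268) (nat_lit 239)) (XT.lf (nat_lit 0) (nat_lit 339527395340) (nat_lit 76) (nat_lit 491933829536) (nat_lit 76) (nat_lit 490998792665) (nat_lit 1) (nat_lit 4) (nat_lit 2) (nat_lit 5) (nat_lit 2) (nat_lit 4) (nat_lit 394) (nat_lit 268) (nat_lit 238)))) (XT.nd (nat_lit 156) (nat_lit 0) (nat_lit 0) (XT.nd (nat_lit 78) (nat_lit 0) (nat_lit 0) (XT.lf (nat_lit 0) (nat_lit 369146318830) (nat_lit 76) (nat_lit 529977336263) (nat_lit 76) (nat_lit 529034656823) (nat_lit 1) (nat_lit 4) (nat_lit 2) (nat_lit 5) (nat_lit 2) (nat_lit 4) (nat_lit 395) (nat_lit 268) (nat_lit 237)) (XT.lf (nat_lit 0) (nat_lit 401105521695) (nat_lit 76) (nat_lit 571078938125) (nat_lit 76) (nat_lit 570129182231) (nat_lit 1) (nat_lit 4)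 (nat_lit 2) (nat_lit 5) (nat_lit 2) (nat_lit 4) (nat_lit 396) (nat_lit 268) (nat_lit 236))) (XT.nd (nat_lit 78) (nat_lit 0) (nat_lit 0) (XT.lf (nat_lit 0) (nat_lit 435594391804) (nat_lit 76) (nat_lit 615482200168) (nat_lit 76) (nat_lit 614525892002) (nat_lit 1) (nat_lit 4) (nat_lit 2) (nat_lit 5) (nat_lit 2) (nat_lit 4) (nat_lit 397) (nat_lit 268) (nat_lit 235)) (XT.nd (nat_lit 78) (nat_lit 0) (nat_lit 0) (XT.lf (nat_lit 0) (nat_lit 472817307648) (nat_lit 76) (nat_lit 663450252834) (nat_lit 76) (nat_lit 662487877750) (nat_lit 1) (nat_lit 4) (nat_lit 2) (nat_lit 5) (nat_lit 2) (nat_lit 4) (nat_lit 398) (nat_lit 268) (nat_lit 234)) (XT.lf (nat_lit 0) (nat_lit 512994849468) (nat_lit 76) (nat_lit 715267351251) (nat_lit 76) (nat_lit 714299358649) (nat_lit 1) (nat_lit 4) (nat_lit 2) (nat_lit 5) (nat_lit 2) (nat_lit 4) (nat_lit 399) (nat_lit 268) (nat_lit 233))))))))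
noncomputable def xc20 : XT := (XT.nd (nat_lit 43992) (nat_lit 0) (nat_lit 0) (XT.nd (nat_lit 624) (nat_lit 0) (nat_lit 0) (XT.nd (nat_lit 312) (nat_lit 0) (nat_lit 0) (XT.nd (nat_lit 156) (nat_lit 0) (nat_lit 0) (XT.nd (nat_lit 78) (nat_lit 0) (nat_lit 0) (XT.lf (nat_lit 0) (nat_lit 556365106400) (nat_lit 76) (nat_lit 771240559705) (nat_lit 76) (nat_lit 770267365699) (nat_lit 1) (nat_lit 4) (nat_lit 2) (nat_lit 5) (nat_lit 2) (nat_lit 4) (nat_lit 400) (nat_lit 268) (nat_lit 232)) (XT.lf (nat_lit 0) (nat_lit 603185087376) (nat_lit 76) (nat_lit 831701571284) (nat_lit 76) (nat_lit 830723561162) (nat_lit 1) (nat_lit 4) (nat_lit 2) (nat_lit 5) (nat_lit 2) (nat_lit 4) (nat_lit 401) (nat_lit 268) (nat_lit 231))) (XT.nd (nat_lit 78) (nat_lit 0) (nat_lit 0) (XT.lf (nat_lit 0) (nat_lit 653732244133) (nat_lit 76) (nat_lit 897008673463) (nat_lit 76) (nat_lit 896026203975) (nat_lit 1) (nat_lit 4)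 (nat_lit 2) (nat_lit 5) (nat_lit 2) (nat_lit 4) (nat_lit 402) (nat_lit 268) (nat_lit 230)) (XT.lf (nat_lit 0) (nat_lit 708306115379) (nat_lit 76) (nat_lit 967548871293) (nat_lit 76) (nat_lit 966562272762) (nat_lit 1) (nat_lit 4) (nat_lit 2) (nat_lit 5) (nat_lit 2) (nat_lit 4) (nat_lit 403) (nat_lit 268) (nat_lit 229)))) (XT.nd (nat_lit 156) (nat_lit 0) (nat_lit 0) (XT.nd (nat_lit 78) (nat_lit 0) (nat_lit 0) (XT.lf (nat_lit 0) (nat_lit 767230101832) (nat_lit 76) (nat_lit 1043740180760) (nat_lit 76) (nat_lit 1042749759041) (nat_lit 1) (nat_lit 4) (nat_lit 2) (nat_lit 5) (nat_lit 2) (nat_lit 4) (nat_lit 404) (nat_lit 268) (nat_lit 228)) (XT.lf (nat_lit 0) (nat_lit 830853382671) (nat_lit 76) (nat_lit 1126034105920) (nat_lit 76) (nat_lit 1125040144213) (nat_lit 1) (nat_lit 4) (nat_lit 2) (nat_lit 5) (nat_lit 2) (nat_lit 4) (nat_lit 405) (nat_lit 268) (nat_lit 227))) (XT.nd (nat_lit 78) (nat_lit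 0) (nat_lit 0) (XT.lf (nat_lit 0) (nat_lit 899552984745) (nat_lit 76) (nat_lit 1214918314479) (nat_lit 76) (nat_lit 1213921075004) (nat_lit 1) (nat_lit 4) (nat_lit 2) (nat_lit 5) (nat_lit 2) (nat_lit 4) (nat_lit 406) (nat_lit 268) (nat_lit 226)) (XT.lf (nat_lit 0) (nat_lit 973736016808) (nat_lit 76) (nat_lit 1310919527672) (nat_lit 76) (nat_lit 1309919253228) (nat_lit 1) (nat_lit 4) (nat_lit 2) (nat_lit 5) (nat_lit 2) (nat_lit 4) (nat_lit 407) (nat_lit 268) (nat_lit 225))))) (XT.nd (nat_lit 312) (nat_lit 0) (nat_lit 0) (XT.nd (nat_lit 156) (nat_lit 0) (nat_lit 0) (XT.nd (nat_lit 78) (nat_lit 0) (nat_lit 0) (XT.lf (nat_lit 0) (nat_lit 1053842082013) (nat_lit 76) (nat_lit 1414606641578) (nat_lit 76) (nat_lit 1413603556976) (nat_lit 1) (nat_lit 4) (nat_lit 2) (nat_lit 5) (nat_lit 2) (nat_lit 4) (nat_lit 408) (nat_lit 268) (nat_lit 224)) (XT.lf (nat_lit 0) (nat_lit 1140345882968) (nat_lit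 76) (nat_lit 1526594098352) (nat_lit 76) (nat_lit 1525588411753) (nat_lit 1) (nat_lit 4) (nat_lit 2) (nat_lit 5) (nat_lit 2) (nat_lit 4) (nat_lit 409) (nat_lit 268) (nat_lit 223))) (XT.nd (nat_lit 78) (nat_lit 0) (nat_lit 0) (XT.lf (nat_lit 0) (nat_lit 1233760034789) (nat_lit 76) (nat_lit 1647545527369) (nat_lit 76) (nat_lit 1646537431513) (nat_lit 1) (nat_lit 4) (nat_lit 2) (nat_lit 5) (nat_lit 2) (nat_lit 4) (nat_lit 410) (nat_lit 268) (nat_lit 222)) (XT.lf (nat_lit 0) (nat_lit 1334638102822) (nat_lit 76) (nat_lit 1778177677837) (nat_lit 76) (nat_lit 1777167351188) (nat_lit 1) (nat_lit 4) (nat_lit 2) (nat_lit 5) (nat_lit 2) (nat_lit 4) (nat_lit 411) (nat_lit 268) (nat_lit 221)))) (XT.nd (nat_lit 156) (nat_lit 0) (nat_lit 0) (XT.nd (nat_lit 78) (nat_lit 0) (nat_lit 0) (XT.lf (nat_lit 0) (nat_lit 1443577883024) (nat_lit 76) (nat_lit 1919264666204) (nat_lit 76) (nat_lit 1918252274005) (nat_lit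 1) (nat_lit 4) (nat_lit 2) (nat_lit 5) (nat_lit 2) (nat_lit 4) (nat_lit 412) (nat_lit 268) (nat_lit 220)) (XT.lf (nat_lit 0) (nat_lit 1561224944464) (nat_lit 76) (nat_lit 2071642563511) (nat_lit 76) (nat_lit 2070628258767) (nat_lit 1) (nat_lit 4) (nat_lit 2) (nat_lit 5) (nat_lit 2) (nat_lit 4) (nat_lit 413) (nat_lit 268) (nat_lit 219))) (XT.nd (nat_lit 78) (nat_lit 0) (nat_lit 0) (XT.lf (nat_lit 0) (nat_lit 1688276454913) (nat_lit 76) (nat_lit 2236214349892) (nat_lit 76) (nat_lit 2235198274271) (nat_lit 1) (nat_lit 4) (nat_lit 2) (nat_lit 5) (nat_lit 2) (nat_lit 4) (nat_lit 414) (nat_lit 268) (nat_lit 218)) (XT.nd (nat_lit 42744) (nat_lit 0) (nat_lit 76) (XT.lf (nat_lit 0) (nat_lit 1825485312211) (nat_lit 76) (nat_lit 2413955265560) (nat_lit 76) (nat_lit 2412937550241) (nat_lit 1) (nat_lit 4) (nat_lit 2) (nat_lit 5) (nat_lit 2) (nat_lit 4) (nat_lit 415) (nat_lit 268) (nat_lit 217)) (XT.lf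 (nat_lit 0) (nat_lit 22911506657) (nat_lit 152) (nat_lit 11558210211) (nat_lit 0) (nat_lit 22911506657) (nat_lit 2) (nat_lit 5) (nat_lit 4) (nat_lit 4) (nat_lit 2) (nat_lit 4) (nat_lit 362) (nat_lit 269) (nat_lit 269))))))) (XT.nd (nat_lit 624) (nat_lit 0) (nat_lit 0) (XT.nd (nat_lit 312) (nat_lit 76) (nat_lit 0) (XT.nd (nat_lit 156) (nat_lit 0) (nat_lit 0) (XT.nd (nat_lit 78) (nat_lit 0) (nat_lit 0) (XT.lf (nat_lit 0) (nat_lit 52501096293) (nat_lit 152) (nat_lit 18775568442) (nat_lit 0) (nat_lit 52418039367) (nat_lit 2) (nat_lit 5) (nat_lit 4) (nat_lit 4) (nat_lit 2) (nat_lit 4) (nat_lit 363) (nat_lit 269) (nat_lit 268)) (XT.lf (nat_lit 0) (nat_lit 59562182537) (nat_lit 152) (nat_lit 14389266034) (nat_lit 0) (nat_lit 59402221051) (nat_lit 2) (nat_lit 5) (nat_lit 4) (nat_lit 4) (nat_lit 2) (nat_lit 4) (nat_lit 364) (nat_lit 269) (nat_lit 267))) (XT.nd (nat_lit 78) (nat_lit 0) (nat_lit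 0) (XT.lf (nat_lit 0) (nat_lit 67048115521) (nat_lit 152) (nat_lit 9931520298) (nat_lit 0) (nat_lit 66816946109) (nat_lit 2) (nat_lit 5) (nat_lit 4) (nat_lit 4) (nat_lit 2) (nat_lit 4) (nat_lit 365) (nat_lit 269) (nat_lit 266)) (XT.lf (nat_lit 0) (nat_lit 75003256329) (nat_lit 152) (nat_lit 5375914961) (nat_lit 0) (nat_lit 74706153652) (nat_lit 2) (nat_lit 5) (nat_lit 4) (nat_lit 4) (nat_lit 2) (nat_lit 4) (nat_lit 366) (nat_lit 269) (nat_lit 265)))) (XT.nd (nat_lit 156) (nat_lit 0) (nat_lit 0) (XT.nd (nat_lit 78) (nat_lit 76) (nat_lit 0) (XT.lf (nat_lit 0) (nat_lit 83474746538) (nat_lit 152) (nat_lit 695453845) (nat_lit 0) (nat_lit 83116594541) (nat_lit 2) (nat_lit 5) (nat_lit 4) (nat_lit 4) (nat_lit 2) (nat_lit 4) (nat_lit 367) (nat_lit 269) (nat_lit 264)) (XT.lf (nat_lit 0) (nat_lit 4355477753) (nat_lit 76) (nat_lit 88262059161) (nat_lit 76) (nat_lit 87847380016) (nat_lit 1) (nat_lit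 4) (nat_lit 2) (nat_lit 5) (nat_lit 2) (nat_lit 4) (nat_lit 368) (nat_lit 269) (nat_lit 263))) (XT.nd (nat_lit 78) (nat_lit 0) (nat_lit 0) (XT.lf (nat_lit 0) (nat_lit 9633806242) (nat_lit 76) (nat_lit 92768825214) (nat_lit 76) (nat_lit 92301806118) (nat_lit 1) (nat_lit 4) (nat_lit 2) (nat_lit 5) (nat_lit 2) (nat_lit 4) (nat_lit 369) (nat_lit 269) (nat_lit 262)) (XT.lf (nat_lit 0) (nat_lit 15134189239) (nat_lit 76) (nat_lit 97736220247) (nat_lit 76) (nat_lit 97220738233) (nat_lit 1) (nat_lit 4) (nat_lit 2) (nat_lit 5) (nat_lit 2) (nat_lit 4) (nat_lit 370) (nat_lit 269) (nat_lit 261))))) (XT.nd (nat_lit 312) (nat_lit 0) (nat_lit 0) (XT.nd (nat_lit 156) (nat_lit 0) (nat_lit 0) (XT.nd (nat_lit 78) (nat_lit 0) (nat_lit 0) (XT.lf (nat_lit 0) (nat_lit 20889221606) (nat_lit 76) (nat_lit 103193680673) (nat_lit 76) (nat_lit 102633325586) (nat_lit 1) (nat_lit 4) (nat_lit 2) (nat_lit 5) (nat_lit 2)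 (nat_lit 4) (nat_lit 371) (nat_lit 269) (nat_lit 260)) (XT.lf (nat_lit 0) (nat_lit 26933007237) (nat_lit 76) (nat_lit 109173546999) (nat_lit 76) (nat_lit 108571642772) (nat_lit 1) (nat_lit 4) (nat_lit 2) (nat_lit 5) (nat_lit 2) (nat_lit 4) (nat_lit 372) (nat_lit 269) (nat_lit 259))) (XT.nd (nat_lit 78) (nat_lit 0) (nat_lit 0) (XT.lf (nat_lit 0) (nat_lit 33301361160) (nat_lit 76) (nat_lit 115711255470) (nat_lit 76) (nat_lit 115070879816) (nat_lit 1) (nat_lit 4) (nat_lit 2) (nat_lit 5) (nat_lit 2) (nat_lit 4) (nat_lit 373) (nat_lit 269) (nat_lit 258)) (XT.lf (nat_lit 0) (nat_lit 40032021768) (nat_lit 76) (nat_lit 122845548062) (nat_lit 76) (nat_lit 122169550716) (nat_lit 1) (nat_lit 4) (nat_lit 2) (nat_lit 5) (nat_lit 2) (nat_lit 4) (nat_lit 374) (nat_lit 269) (nat_lit 257)))) (XT.nd (nat_lit 156) (nat_lit 0) (nat_lit 0) (XT.nd (nat_lit 78) (nat_lit 0) (nat_lit 0) (XT.lf (nat_lit 0) (nat_lit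 47164874456) (nat_lit 76) (nat_lit 130618702065) (nat_lit 76) (nat_lit 129909721671) (nat_lit 1) (nat_lit 4) (nat_lit 2) (nat_lit 5) (nat_lit 2) (nat_lit 4) (nat_lit 375) (nat_lit 269) (nat_lit 256)) (XT.lf (nat_lit 0) (nat_lit 54742187982) (nat_lit 76) (nat_lit 139076780612) (nat_lit 76) (nat_lit 138337260359) (nat_lit 1) (nat_lit 4) (nat_lit 2) (nat_lit 5) (nat_lit 2) (nat_lit 4) (nat_lit 376) (nat_lit 269) (nat_lit 255))) (XT.nd (nat_lit 78) (nat_lit 0) (nat_lit 0) (XT.lf (nat_lit 0) (nat_lit 62808864945) (nat_lit 76) (nat_lit 148269905652) (nat_lit 76) (nat_lit 147502107752) (nat_lit 1) (nat_lit 4) (nat_lit 2) (nat_lit 5) (nat_lit 2) (nat_lit 4) (nat_lit 377) (nat_lit 269) (nat_lit 254)) (XT.nd (nat_lit 78) (nat_lit 0) (nat_lit 0) (XT.lf (nat_lit 0) (nat_lit 71412707873) (nat_lit 76) (nat_lit 158252554962) (nat_lit 76) (nat_lit 157458574055) (nat_lit 1) (nat_lit 4) (nat_lit 2) (nat_lit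 5) (nat_lit 2) (nat_lit 4) (nat_lit 378) (nat_lit 269) (nat_lit 253)) (XT.lf (nat_lit 0) (nat_lit 80604702504) (nat_lit 76) (nat_lit 169083884983) (nat_lit 76) (nat_lit 168265660551) (nat_lit 1) (nat_lit 4) (nat_lit 2) (nat_lit 5) (nat_lit 2) (nat_lit 4) (nat_lit 379) (nat_lit 269) (nat_lit 252))))))))
noncomputable def xc21 : XT := (XT.nd (nat_lit 1326) (nat_lit 0) (nat_lit 0) (XT.nd (nat_lit 624) (nat_lit 0) (nat_lit 0) (XT.nd (nat_lit 312) (nat_lit 0) (nat_lit 0) (XT.nd (nat_lit 156) (nat_lit 0) (nat_lit 0) (XT.nd (nat_lit 78) (nat_lit 0) (nat_lit 0) (XT.lf (nat_lit 0) (nat_lit 90439319917) (nat_lit 76) (nat_lit 180828081374) (nat_lit 76) (nat_lit 179987409234) (nat_lit 1) (nat_lit 4) (nat_lit 2) (nat_lit 5) (nat_lit 2) (nat_lit 4) (nat_lit 380) (nat_lit 269) (nat_lit 251)) (XT.lf (nat_lit 0) (nat_lit 100974839325) (nat_lit 76) (nat_lit 193554739372) (nat_lit 76) (nat_lit 192693282317)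 (nat_lit 1) (nat_lit 4) (nat_lit 2) (nat_lit 5) (nat_lit 2) (nat_lit 4) (nat_lit 381) (nat_lit 269) (nat_lit 250))) (XT.nd (nat_lit 78) (nat_lit 0) (nat_lit 0) (XT.lf (nat_lit 0) (nat_lit 112273693437) (nat_lit 76) (nat_lit 207339276211) (nat_lit 76) (nat_lit 206458573864) (nat_lit 1) (nat_lit 4) (nat_lit 2) (nat_lit 5) (nat_lit 2) (nat_lit 4) (nat_lit 382) (nat_lit 269) (nat_lit 249)) (XT.lf (nat_lit 0) (nat_lit 124402838425) (nat_lit 76) (nat_lit 222263378034) (nat_lit 76) (nat_lit 221364855973) (nat_lit 1) (nat_lit 4) (nat_lit 2) (nat_lit 5) (nat_lit 2) (nat_lit 4) (nat_lit 383) (nat_lit 269) (nat_lit 248)))) (XT.nd (nat_lit 156) (nat_lit 0) (nat_lit 0) (XT.nd (nat_lit 78) (nat_lit 0) (nat_lit 0) (XT.lf (nat_lit 0) (nat_lit 137434150703) (nat_lit 76) (nat_lit 238415483964) (nat_lit 76) (nat_lit 237500462168) (nat_lit 1) (nat_lit 4) (nat_lit 2) (nat_lit 5) (nat_lit 2) (nat_lit 4) (nat_lit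 384) (nat_lit 269) (nat_lit 247)) (XT.lf (nat_lit 0) (nat_lit 151444852864) (nat_lit 76) (nat_lit 255891310184) (nat_lit 76) (nat_lit 254961010855) (nat_lit 1) (nat_lit 4) (nat_lit 2) (nat_lit 5) (nat_lit 2) (nat_lit 4) (nat_lit 385) (nat_lit 269) (nat_lit 246))) (XT.nd (nat_lit 78) (nat_lit 0) (nat_lit 0) (XT.lf (nat_lit 0) (nat_lit 166517971290) (nat_lit 76) (nat_lit 274794417146) (nat_lit 76) (nat_lit 273849971952) (nat_lit 1) (nat_lit 4) (nat_lit 2) (nat_lit 5) (nat_lit 2) (nat_lit 4) (nat_lit 386) (nat_lit 269) (nat_lit 245)) (XT.lf (nat_lit 0) (nat_lit 182742828164) (nat_lit 76) (nat_lit 295236823260) (nat_lit 76) (nat_lit 294279280045) (nat_lit 1) (nat_lit 4) (nat_lit 2) (nat_lit 5) (nat_lit 2) (nat_lit 4) (nat_lit 387) (nat_lit 269) (nat_lit 244))))) (XT.nd (nat_lit 312) (nat_lit 0) (nat_lit 0) (XT.nd (nat_lit 156) (nat_lit 0) (nat_lit 0) (XT.nd (nat_lit 78) (nat_lit 0) (nat_lit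 0) (XT.lf (nat_lit 0) (nat_lit 200215570787) (nat_lit 76) (nat_lit 317339668712) (nat_lit 76) (nat_lit 316369997698) (nat_lit 1) (nat_lit 4) (nat_lit 2) (nat_lit 5) (nat_lit 2) (nat_lit 4) (nat_lit 388) (nat_lit 269) (nat_lit 243)) (XT.lf (nat_lit 0) (nat_lit 219039741336) (nat_lit 76) (nat_lit 341233933326) (nat_lit 76) (nat_lit 340253032870) (nat_lit 1) (nat_lit 4) (nat_lit 2) (nat_lit 5) (nat_lit 2) (nat_lit 4) (nat_lit 389) (nat_lit 269) (nat_lit 242))) (XT.nd (nat_lit 78) (nat_lit 0) (nat_lit 0) (XT.lf (nat_lit 0) (nat_lit 239326890453) (nat_lit 76) (nat_lit 367061212745) (nat_lit 76) (nat_lit 366069914657) (nat_lit 1) (nat_lit 4) (nat_lit 2) (nat_lit 5) (nat_lit 2) (nat_lit 4) (nat_lit 390) (nat_lit 269) (nat_lit 241)) (XT.lf (nat_lit 0) (nat_lit 261197238280) (nat_lit 76) (nat_lit 394974557514) (nat_lit 76) (nat_lit 393973631988) (nat_lit 1) (nat_lit 4) (nat_lit 2) (nat_lit 5) (nat_lit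 2) (nat_lit 4) (nat_lit 391) (nat_lit 269) (nat_lit 240)))) (XT.nd (nat_lit 156) (nat_lit 0) (nat_lit 0) (XT.nd (nat_lit 78) (nat_lit 0) (nat_lit 0) (XT.lf (nat_lit 0) (nat_lit 284780386878) (nat_lit 76) (nat_lit 425139380045) (nat_lit 76) (nat_lit 424129540225) (nat_lit 1) (nat_lit 4) (nat_lit 2) (nat_lit 5) (nat_lit 2) (nat_lit 4) (nat_lit 392) (nat_lit 269) (nat_lit 239)) (XT.lf (nat_lit 0) (nat_lit 310216088240) (nat_lit 76) (nat_lit 457734434842) (nat_lit 76) (nat_lit 456716341047) (nat_lit 1) (nat_lit 4) (nat_lit 2) (nat_lit 5) (nat_lit 2) (nat_lit 4) (nat_lit 393) (nat_lit 269) (nat_lit 238))) (XT.nd (nat_lit 78) (nat_lit 0) (nat_lit 0) (XT.lf (nat_lit 0) (nat_lit 337655072446) (nat_lit 76) (nat_lit 492952877787) (nat_lit 76) (nat_lit 491927141421) (nat_lit 1) (nat_lit 4) (nat_lit 2) (nat_lit 5) (nat_lit 2) (nat_lit 4) (nat_lit 394) (nat_lit 269) (nat_lit 237)) (XT.nd (nat_lit 78)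 (nat_lit 0) (nat_lit 0) (XT.lf (nat_lit 0) (nat_lit 367259940886) (nat_lit 76) (nat_lit 531003410762) (nat_lit 76) (nat_lit 529970597943) (nat_lit 1) (nat_lit 4) (nat_lit 2) (nat_lit 5) (nat_lit 2) (nat_lit 4) (nat_lit 395) (nat_lit 269) (nat_lit 236)) (XT.lf (nat_lit 0) (nat_lit 399206129816) (nat_lit 76) (nat_lit 572111518409) (nat_lit 76) (nat_lit 571072153317) (nat_lit 1) (nat_lit 4) (nat_lit 2) (nat_lit 5) (nat_lit 2) (nat_lit 4) (nat_lit 396) (nat_lit 269) (nat_lit 235))))))) (XT.nd (nat_lit 702) (nat_lit 0) (nat_lit 0) (XT.nd (nat_lit 312) (nat_lit 0) (nat_lit 0) (XT.nd (nat_lit 156) (nat_lit 0) (nat_lit 0) (XT.nd (nat_lit 78) (nat_lit 0) (nat_lit 0) (XT.lf (nat_lit 0) (nat_lit 433682949986) (nat_lit 76) (nat_lit 616520804327) (nat_lit 76) (nat_lit 615475372317) (nat_lit 1) (nat_lit 4) (nat_lit 2) (nat_lit 5) (nat_lit 2) (nat_lit 4) (nat_lit 397) (nat_lit 269) (nat_lit 234)) (XT.lf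 (nat_lit 0) (nat_lit 470894708478) (nat_lit 76) (nat_lit 664494434655) (nat_lit 76) (nat_lit 663443385128) (nat_lit 1) (nat_lit 4) (nat_lit 2) (nat_lit 5) (nat_lit 2) (nat_lit 4) (nat_lit 398) (nat_lit 269) (nat_lit 233))) (XT.nd (nat_lit 78) (nat_lit 0) (nat_lit 0) (XT.lf (nat_lit 0) (nat_lit 511061919416) (nat_lit 76) (nat_lit 716316697574) (nat_lit 76) (nat_lit 715260446642) (nat_lit 1) (nat_lit 4) (nat_lit 2) (nat_lit 5) (nat_lit 2) (nat_lit 4) (nat_lit 399) (nat_lit 269) (nat_lit 232)) (XT.lf (nat_lit 0) (nat_lit 554422610718) (nat_lit 76) (nat_lit 772294687974) (nat_lit 76) (nat_lit 771233620927) (nat_lit 1) (nat_lit 4) (nat_lit 2) (nat_lit 5) (nat_lit 2) (nat_lit 4) (nat_lit 400) (nat_lit 269) (nat_lit 231)))) (XT.nd (nat_lit 156) (nat_lit 0) (nat_lit 0) (XT.nd (nat_lit 78) (nat_lit 0) (nat_lit 0) (XT.lf (nat_lit 0) (nat_lit 601233734628) (nat_lit 76) (nat_lit 832760127281) (nat_lit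 76) (nat_lit 831694600868) (nat_lit 1) (nat_lit 4) (nat_lit 2) (nat_lit 5) (nat_lit 2) (nat_lit 4) (nat_lit 401) (nat_lit 269) (nat_lit 230)) (XT.lf (nat_lit 0) (nat_lit 651772690399) (nat_lit 76) (nat_lit 898071329208) (nat_lit 76) (nat_lit 897001673752) (nat_lit 1) (nat_lit 4) (nat_lit 2) (nat_lit 5) (nat_lit 2) (nat_lit 4) (nat_lit 402) (nat_lit 269) (nat_lit 229))) (XT.nd (nat_lit 78) (nat_lit 0) (nat_lit 0) (XT.lf (nat_lit 0) (nat_lit 706338968139) (nat_lit 76) (nat_lit 968615323101) (nat_lit 76) (nat_lit 967541844457) (nat_lit 1) (nat_lit 4) (nat_lit 2) (nat_lit 5) (nat_lit 2) (nat_lit 4) (nat_lit 403) (nat_lit 269) (nat_lit 228)) (XT.nd (nat_lit 78) (nat_lit 0) (nat_lit 0) (XT.lf (nat_lit 0) (nat_lit 765255923567) (nat_lit 76) (nat_lit 1044810147441) (nat_lit 76) (nat_lit 1043733128808) (nat_lit 1) (nat_lit 4) (nat_lit 2) (nat_lit 5) (nat_lit 2) (nat_lit 4) (nat_lit 404) (nat_lit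 269) (nat_lit 227)) (XT.lf (nat_lit 0) (nat_lit 828872694199) (nat_lit 76) (nat_lit 1127107327114) (nat_lit 76) (nat_lit 1126027030714) (nat_lit 1) (nat_lit 4) (nat_lit 2) (nat_lit 5) (nat_lit 2) (nat_lit 4) (nat_lit 405) (nat_lit 269) (nat_lit 226)))))) (XT.nd (nat_lit 312) (nat_lit 0) (nat_lit 0) (XT.nd (nat_lit 156) (nat_lit 0) (nat_lit 0) (XT.nd (nat_lit 78) (nat_lit 0) (nat_lit 0) (XT.lf (nat_lit 0) (nat_lit 897566268304) (nat_lit 76) (nat_lit 1215994549110) (nat_lit 76) (nat_lit 1214911217740) (nat_lit 1) (nat_lit 4) (nat_lit 2) (nat_lit 5) (nat_lit 2) (nat_lit 4) (nat_lit 406) (nat_lit 269) (nat_lit 225)) (XT.lf (nat_lit 0) (nat_lit 971743718913) (nat_lit 76) (nat_lit 1311998552523) (nat_lit 76) (nat_lit 1310912410996) (nat_lit 1) (nat_lit 4) (nat_lit 2) (nat_lit 5) (nat_lit 2) (nat_lit 4) (nat_lit 407) (nat_lit 269) (nat_lit 224))) (XT.nd (nat_lit 78) (nat_lit 0) (nat_lit 0) (XT.lf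 (nat_lit 0) (nat_lit 1051844616105) (nat_lit 76) (nat_lit 1415688249965) (nat_lit 76) (nat_lit 1414599506441) (nat_lit 1) (nat_lit 4) (nat_lit 2) (nat_lit 5) (nat_lit 2) (nat_lit 4) (nat_lit 408) (nat_lit 269) (nat_lit 223)) (XT.lf (nat_lit 0) (nat_lit 1138343631863) (nat_lit 76) (nat_lit 1527678098903) (nat_lit 76) (nat_lit 1526586946122) (nat_lit 1) (nat_lit 4) (nat_lit 2) (nat_lit 5) (nat_lit 2) (nat_lit 4) (nat_lit 409) (nat_lit 269) (nat_lit 222)))) (XT.nd (nat_lit 156) (nat_lit 0) (nat_lit 0) (XT.nd (nat_lit 78) (nat_lit 0) (nat_lit 0) (XT.lf (nat_lit 0) (nat_lit 1231753352947) (nat_lit 76) (nat_lit 1648631742887) (nat_lit 76) (nat_lit 1647538359312) (nat_lit 1) (nat_lit 4) (nat_lit 2) (nat_lit 5) (nat_lit 2) (nat_lit 4) (nat_lit 410) (nat_lit 269) (nat_lit 221)) (XT.lf (nat_lit 0) (nat_lit 1332627318444) (nat_lit 76) (nat_lit 1779265944249) (nat_lit 76) (nat_lit 1778170495126) (nat_lit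 1) (nat_lit 4) (nat_lit 2) (nat_lit 5) (nat_lit 2) (nat_lit 4) (nat_lit 411) (nat_lit 269) (nat_lit 220))) (XT.nd (nat_lit 78) (nat_lit 0) (nat_lit 0) (XT.lf (nat_lit 0) (nat_lit 1441563300003) (nat_lit 76) (nat_lit 1920354831593) (nat_lit 76) (nat_lit 1919257469923) (nat_lit 1) (nat_lit 4) (nat_lit 2) (nat_lit 5) (nat_lit 2) (nat_lit 4) (nat_lit 412) (nat_lit 269) (nat_lit 219)) (XT.nd (nat_lit 78) (nat_lit 0) (nat_lit 0) (XT.lf (nat_lit 0) (nat_lit 1559206844180) (nat_lit 76) (nat_lit 2072734487212) (nat_lit 76) (nat_lit 2071635354666) (nat_lit 1) (nat_lit 4) (nat_lit 2) (nat_lit 5) (nat_lit 2) (nat_lit 4) (nat_lit 413) (nat_lit 269) (nat_lit 218)) (XT.lf (nat_lit 0) (nat_lit 1686255097905) (nat_lit 76) (nat_lit 2237307901658) (nat_lit 76) (nat_lit 2236207129413) (nat_lit 1) (nat_lit 4) (nat_lit 2) (nat_lit 5) (nat_lit 2) (nat_lit 4) (nat_lit 414) (nat_lit 269) (nat_lit 217))))))))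
noncomputable def xc22 : XT := (XT.nd (nat_lit 1326) (nat_lit 0) (nat_lit 0) (XT.nd (nat_lit 624) (nat_lit 76) (nat_lit 0) (XT.nd (nat_lit 312) (nat_lit 0) (nat_lit 0) (XT.nd (nat_lit 156) (nat_lit 0) (nat_lit 0) (XT.nd (nat_lit 78) (nat_lit 0) (nat_lit 0) (XT.lf (nat_lit 0) (nat_lit 16817055551) (nat_lit 152) (nat_lit 15797650190) (nat_lit 0) (nat_lit 16817055551) (nat_lit 2) (nat_lit 5) (nat_lit 4) (nat_lit 4) (nat_lit 2) (nat_lit 4) (nat_lit 360) (nat_lit 270) (nat_lit 270)) (XT.lf (nat_lit 0) (nat_lit 39578061257) (nat_lit 152) (nat_lit 27437545547) (nat_lit 0) (nat_lit 39488359778) (nat_lit 2) (nat_lit 5) (nat_lit 4) (nat_lit 4) (nat_lit 2) (nat_lit 4) (nat_lit 361) (nat_lit 270) (nat_lit 269))) (XT.nd (nat_lit 78) (nat_lit 0) (nat_lit 0) (XT.lf (nat_lit 0) (nat_lit 45834184582) (nat_lit 152) (nat_lit 23273133477) (nat_lit 0) (nat_lit 45661426177) (nat_lit 2) (nat_lit 5) (nat_lit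 4) (nat_lit 4) (nat_lit 2) (nat_lit 4) (nat_lit 362) (nat_lit 270) (nat_lit 268)) (XT.lf (nat_lit 0) (nat_lit 52439554400) (nat_lit 152) (nat_lit 19077386174) (nat_lit 0) (nat_lit 52189891435) (nat_lit 2) (nat_lit 5) (nat_lit 4) (nat_lit 4) (nat_lit 2) (nat_lit 4) (nat_lit 363) (nat_lit 270) (nat_lit 267)))) (XT.nd (nat_lit 156) (nat_lit 0) (nat_lit 0) (XT.nd (nat_lit 78) (nat_lit 0) (nat_lit 0) (XT.lf (nat_lit 0) (nat_lit 59433313644) (nat_lit 152) (nat_lit 14825439951) (nat_lit 0) (nat_lit 59112442753) (nat_lit 2) (nat_lit 5) (nat_lit 4) (nat_lit 4) (nat_lit 2) (nat_lit 4) (nat_lit 364) (nat_lit 270) (nat_lit 266)) (XT.lf (nat_lit 0) (nat_lit 66856906814) (nat_lit 152) (nat_lit 10492098089) (nat_lit 0) (nat_lit 66470102657) (nat_lit 2) (nat_lit 5) (nat_lit 4) (nat_lit 4) (nat_lit 2) (nat_lit 4) (nat_lit 365) (nat_lit 270) (nat_lit 265))) (XT.nd (nat_lit 78) (nat_lit 0) (nat_lit 0) (XT.lf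 (nat_lit 0) (nat_lit 74754325572) (nat_lit 152) (nat_lit 6051681526) (nat_lit 0) (nat_lit 74306472096) (nat_lit 2) (nat_lit 5) (nat_lit 4) (nat_lit 4) (nat_lit 2) (nat_lit 4) (nat_lit 366) (nat_lit 270) (nat_lit 264)) (XT.lf (nat_lit 0) (nat_lit 83172369437) (nat_lit 152) (nat_lit 1477876681) (nat_lit 0) (nat_lit 82667988813) (nat_lit 2) (nat_lit 5) (nat_lit 4) (nat_lit 4) (nat_lit 2) (nat_lit 4) (nat_lit 367) (nat_lit 270) (nat_lit 263))))) (XT.nd (nat_lit 312) (nat_lit 0) (nat_lit 0) (XT.nd (nat_lit 156) (nat_lit 0) (nat_lit 0) (XT.nd (nat_lit 78) (nat_lit 0) (nat_lit 0) (XT.lf (nat_lit 0) (nat_lit 3427897805) (nat_lit 76) (nat_lit 88815466333) (nat_lit 76) (nat_lit 88258745758) (nat_lit 1) (nat_lit 4) (nat_lit 2) (nat_lit 5) (nat_lit 2) (nat_lit 4) (nat_lit 368) (nat_lit 270) (nat_lit 262)) (XT.lf (nat_lit 0) (nat_lit 8609970635) (nat_lit 76) (nat_lit 93370351471) (nat_lit 76) (nat_lit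 92765167977) (nat_lit 1) (nat_lit 4) (nat_lit 2) (nat_lit 5) (nat_lit 2) (nat_lit 4) (nat_lit 369) (nat_lit 270) (nat_lit 261))) (XT.nd (nat_lit 78) (nat_lit 0) (nat_lit 0) (XT.lf (nat_lit 0) (nat_lit 14021228021) (nat_lit 76) (nat_lit 98382301210) (nat_lit 76) (nat_lit 97732244644) (nat_lit 1) (nat_lit 4) (nat_lit 2) (nat_lit 5) (nat_lit 2) (nat_lit 4) (nat_lit 370) (nat_lit 270) (nat_lit 260)) (XT.lf (nat_lit 0) (nat_lit 19693736674) (nat_lit 76) (nat_lit 103881015995) (nat_lit 76) (nat_lit 103189410288) (nat_lit 1) (nat_lit 4) (nat_lit 2) (nat_lit 5) (nat_lit 2) (nat_lit 4) (nat_lit 371) (nat_lit 270) (nat_lit 259)))) (XT.nd (nat_lit 156) (nat_lit 0) (nat_lit 0) (XT.nd (nat_lit 78) (nat_lit 0) (nat_lit 0) (XT.lf (nat_lit 0) (nat_lit 25661111460) (nat_lit 76) (nat_lit 109899080801) (nat_lit 76) (nat_lit 109169003667) (nat_lit 1) (nat_lit 4) (nat_lit 2) (nat_lit 5) (nat_lit 2) (nat_lit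 4) (nat_lit 372) (nat_lit 270) (nat_lit 258)) (XT.lf (nat_lit 0) (nat_lit 31958714600) (nat_lit 76) (nat_lit 116472158236) (nat_lit 76) (nat_lit 115706459410) (nat_lit 1) (nat_lit 4) (nat_lit 2) (nat_lit 5) (nat_lit 2) (nat_lit 4) (nat_lit 373) (nat_lit 270) (nat_lit 257))) (XT.nd (nat_lit 78) (nat_lit 0) (nat_lit 0) (XT.lf (nat_lit 0) (nat_lit 38623865223) (nat_lit 76) (nat_lit 123639199868) (nat_lit 76) (nat_lit 122840517994) (nat_lit 1) (nat_lit 4) (nat_lit 2) (nat_lit 5) (nat_lit 2) (nat_lit 4) (nat_lit 374) (nat_lit 270) (nat_lit 256)) (XT.nd (nat_lit 78) (nat_lit 0) (nat_lit 0) (XT.lf (nat_lit 0) (nat_lit 45696060518) (nat_lit 76) (nat_lit 131442677055) (nat_lit 76) (nat_lit 130613455323) (nat_lit 1) (nat_lit 4) (nat_lit 2) (nat_lit 5) (nat_lit 2) (nat_lit 4) (nat_lit 375) (nat_lit 270) (nat_lit 255)) (XT.lf (nat_lit 0) (nat_lit 53217209792) (nat_lit 76) (nat_lit 139928832626) (nat_lit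 76) (nat_lit 139071333246) (nat_lit 1) (nat_lit 4) (nat_lit 2) (nat_lit 5) (nat_lit 2) (nat_lit 4) (nat_lit 376) (nat_lit 270) (nat_lit 254))))))) (XT.nd (nat_lit 624) (nat_lit 0) (nat_lit 0) (XT.nd (nat_lit 312) (nat_lit 0) (nat_lit 0) (XT.nd (nat_lit 156) (nat_lit 0) (nat_lit 0) (XT.nd (nat_lit 78) (nat_lit 0) (nat_lit 0) (XT.lf (nat_lit 0) (nat_lit 61231882816) (nat_lit 76) (nat_lit 149147954910) (nat_lit 76) (nat_lit 148264272523) (nat_lit 1) (nat_lit 4) (nat_lit 2) (nat_lit 5) (nat_lit 2) (nat_lit 4) (nat_lit 377) (nat_lit 270) (nat_lit 253)) (XT.lf (nat_lit 0) (nat_lit 69787573951) (nat_lit 76) (nat_lit 159154675742) (nat_lit 76) (nat_lit 158246749831) (nat_lit 1) (nat_lit 4) (nat_lit 2) (nat_lit 5) (nat_lit 2) (nat_lit 4) (nat_lit 378) (nat_lit 270) (nat_lit 252))) (XT.nd (nat_lit 78) (nat_lit 0) (nat_lit 0) (XT.lf (nat_lit 0) (nat_lit 78934983587) (nat_lit 76) (nat_lit 170008294209)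 (nat_lit 76) (nat_lit 169077920589) (nat_lit 1) (nat_lit 4) (nat_lit 2) (nat_lit 5) (nat_lit 2) (nat_lit 4) (nat_lit 379) (nat_lit 270) (nat_lit 251)) (XT.lf (nat_lit 0) (nat_lit 88728318597) (nat_lit 76) (nat_lit 181773128050) (nat_lit 76) (nat_lit 180821969515) (nat_lit 1) (nat_lit 4) (nat_lit 2) (nat_lit 5) (nat_lit 2) (nat_lit 4) (nat_lit 380) (nat_lit 270) (nat_lit 250)))) (XT.nd (nat_lit 156) (nat_lit 0) (nat_lit 0) (XT.nd (nat_lit 78) (nat_lit 0) (nat_lit 0) (XT.lf (nat_lit 0) (nat_lit 99225613558) (nat_lit 76) (nat_lit 194518894798) (nat_lit 76) (nat_lit 193548490972) (nat_lit 1) (nat_lit 4) (nat_lit 2) (nat_lit 5) (nat_lit 2) (nat_lit 4) (nat_lit 381) (nat_lit 270) (nat_lit 249)) (XT.lf (nat_lit 0) (nat_lit 110489074664) (nat_lit 76) (nat_lit 208321124924) (nat_lit 76) (nat_lit 207332901384) (nat_lit 1) (nat_lit 4) (nat_lit 2) (nat_lit 5) (nat_lit 2) (nat_lit 4) (nat_lit 382)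 (nat_lit 270) (nat_lit 248))) (XT.nd (nat_lit 78) (nat_lit 0) (nat_lit 0) (XT.lf (nat_lit 0) (nat_lit 122585448350) (nat_lit 76) (nat_lit 223261609421) (nat_lit 76) (nat_lit 222256886145) (nat_lit 1) (nat_lit 4) (nat_lit 2) (nat_lit 5) (nat_lit 2) (nat_lit 4) (nat_lit 383) (nat_lit 270) (nat_lit 247)) (XT.lf (nat_lit 0) (nat_lit 135586416830) (nat_lit 76) (nat_lit 239428884493) (nat_lit 76) (nat_lit 238408883684) (nat_lit 1) (nat_lit 4) (nat_lit 2) (nat_lit 5) (nat_lit 2) (nat_lit 4) (nat_lit 384) (nat_lit 270) (nat_lit 246))))) (XT.nd (nat_lit 312) (nat_lit 0) (nat_lit 0) (XT.nd (nat_lit 156) (nat_lit 0) (nat_lit 0) (XT.nd (nat_lit 78) (nat_lit 0) (nat_lit 0) (XT.lf (nat_lit 0) (nat_lit 149569022881) (nat_lit 76) (nat_lit 256918756215) (nat_lit 76) (nat_lit 255884609542) (nat_lit 1) (nat_lit 4) (nat_lit 2) (nat_lit 5) (nat_lit 2) (nat_lit 4) (nat_lit 385) (nat_lit 270) (nat_lit 245))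 (XT.lf (nat_lit 0) (nat_lit 164616126391) (nat_lit 76) (nat_lit 275834868271) (nat_lit 76) (nat_lit 274787623576) (nat_lit 1) (nat_lit 4) (nat_lit 2) (nat_lit 5) (nat_lit 2) (nat_lit 4) (nat_lit 386) (nat_lit 270) (nat_lit 244))) (XT.nd (nat_lit 78) (nat_lit 0) (nat_lit 0) (XT.lf (nat_lit 0) (nat_lit 180816895380) (nat_lit 76) (nat_lit 296289316139) (nat_lit 76) (nat_lit 295229943646) (nat_lit 1) (nat_lit 4) (nat_lit 2) (nat_lit 5) (nat_lit 2) (nat_lit 4) (nat_lit 387) (nat_lit 270) (nat_lit 243)) (XT.lf (nat_lit 0) (nat_lit 198267334405) (nat_lit 76) (nat_lit 318403311363) (nat_lit 76) (nat_lit 317332709428) (nat_lit 1) (nat_lit 4) (nat_lit 2) (nat_lit 5) (nat_lit 2) (nat_lit 4) (nat_lit 388) (nat_lit 270) (nat_lit 242)))) (XT.nd (nat_lit 156) (nat_lit 0) (nat_lit 0) (XT.nd (nat_lit 78) (nat_lit 0) (nat_lit 0) (XT.lf (nat_lit 0) (nat_lit 217070853475) (nat_lit 76) (nat_lit 342307899841)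 (nat_lit 76) (nat_lit 341226900273) (nat_lit 1) (nat_lit 4) (nat_lit 2) (nat_lit 5) (nat_lit 2) (nat_lit 4) (nat_lit 389) (nat_lit 270) (nat_lit 241)) (XT.lf (nat_lit 0) (nat_lit 237338880852) (nat_lit 76) (nat_lit 368144738393) (nat_lit 76) (nat_lit 367054111387) (nat_lit 1) (nat_lit 4) (nat_lit 2) (nat_lit 5) (nat_lit 2) (nat_lit 4) (nat_lit 390) (nat_lit 270) (nat_lit 240))) (XT.nd (nat_lit 78) (nat_lit 0) (nat_lit 0) (XT.lf (nat_lit 0) (nat_lit 259191523364) (nat_lit 76) (nat_lit 396066934210) (nat_lit 76) (nat_lit 394967392911) (nat_lit 1) (nat_lit 4) (nat_lit 2) (nat_lit 5) (nat_lit 2) (nat_lit 4) (nat_lit 391) (nat_lit 270) (nat_lit 239)) (XT.nd (nat_lit 78) (nat_lit 0) (nat_lit 0) (XT.lf (nat_lit 0) (nat_lit 282758278153) (nat_lit 76) (nat_lit 426239952156) (nat_lit 76) (nat_lit 425132156881) (nat_lit 1) (nat_lit 4) (nat_lit 2) (nat_lit 5) (nat_lit 2) (nat_lit 4) (nat_lit 392)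 (nat_lit 270) (nat_lit 238)) (XT.lf (nat_lit 0) (nat_lit 308178800060) (nat_lit 76) (nat_lit 458842595301) (nat_lit 76) (nat_lit 457727157456) (nat_lit 1) (nat_lit 4) (nat_lit 2) (nat_lit 5) (nat_lit 2) (nat_lit 4) (nat_lit 393) (nat_lit 270) (nat_lit 237))))))))
noncomputable def xc23 : XT := (XT.nd (nat_lit 1326) (nat_lit 0) (nat_lit 0) (XT.nd (nat_lit 624) (nat_lit 0) (nat_lit 0) (XT.nd (nat_lit 312) (nat_lit 0) (nat_lit 0) (XT.nd (nat_lit 156) (nat_lit 0) (nat_lit 0) (XT.nd (nat_lit 78) (nat_lit 0) (nat_lit 0) (XT.lf (nat_lit 0) (nat_lit 335603729217) (nat_lit 76) (nat_lit 494068064493) (nat_lit 76) (nat_lit 492945550195) (nat_lit 1) (nat_lit 4) (nat_lit 2) (nat_lit 5) (nat_lit 2) (nat_lit 4) (nat_lit 394) (nat_lit 270) (nat_lit 236)) (XT.lf (nat_lit 0) (nat_lit 365195583722) (nat_lit 76) (nat_lit 532125103254) (nat_lit 76) (nat_lit 530996036683) (nat_lit 1) (nat_lit 4) (nat_lit 2)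 (nat_lit 5) (nat_lit 2) (nat_lit 4) (nat_lit 395) (nat_lit 270) (nat_lit 235))) (XT.nd (nat_lit 78) (nat_lit 0) (nat_lit 0) (XT.lf (nat_lit 0) (nat_lit 397129722712) (nat_lit 76) (nat_lit 573239234775) (nat_lit 76) (nat_lit 572104101286) (nat_lit 1) (nat_lit 4) (nat_lit 2) (nat_lit 5) (nat_lit 2) (nat_lit 4) (nat_lit 396) (nat_lit 270) (nat_lit 234)) (XT.lf (nat_lit 0) (nat_lit 431595385530) (nat_lit 76) (nat_lit 617654098355) (nat_lit 76) (nat_lit 616513347349) (nat_lit 1) (nat_lit 4) (nat_lit 2) (nat_lit 5) (nat_lit 2) (nat_lit 4) (nat_lit 397) (nat_lit 270) (nat_lit 233)))) (XT.nd (nat_lit 156) (nat_lit 0) (nat_lit 0) (XT.nd (nat_lit 78) (nat_lit 0) (nat_lit 0) (XT.lf (nat_lit 0) (nat_lit 468796813141) (nat_lit 76) (nat_lit 665632893186) (nat_lit 76) (nat_lit 664486940775) (nat_lit 1) (nat_lit 4) (nat_lit 2) (nat_lit 5) (nat_lit 2) (nat_lit 4) (nat_lit 398) (nat_lit 270) (nat_lit 232))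 (XT.lf (nat_lit 0) (nat_lit 508954458449) (nat_lit 76) (nat_lit 717459938051) (nat_lit 76) (nat_lit 716309169524) (nat_lit 1) (nat_lit 4) (nat_lit 2) (nat_lit 5) (nat_lit 2) (nat_lit 4) (nat_lit 399) (nat_lit 270) (nat_lit 231))) (XT.nd (nat_lit 78) (nat_lit 0) (nat_lit 0) (XT.lf (nat_lit 0) (nat_lit 552306292685) (nat_lit 76) (nat_lit 773442356179) (nat_lit 76) (nat_lit 772287128287) (nat_lit 1) (nat_lit 4) (nat_lit 2) (nat_lit 5) (nat_lit 2) (nat_lit 4) (nat_lit 400) (nat_lit 270) (nat_lit 230)) (XT.lf (nat_lit 0) (nat_lit 599109215609) (nat_lit 76) (nat_lit 833911895234) (nat_lit 76) (nat_lit 832752538298) (nat_lit 1) (nat_lit 4) (nat_lit 2) (nat_lit 5) (nat_lit 2) (nat_lit 4) (nat_lit 401) (nat_lit 270) (nat_lit 229))))) (XT.nd (nat_lit 312) (nat_lit 0) (nat_lit 0) (XT.nd (nat_lit 156) (nat_lit 0) (nat_lit 0) (XT.nd (nat_lit 78) (nat_lit 0) (nat_lit 0) (XT.lf (nat_lit 0) (nat_lit 649640577874)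 (nat_lit 76) (nat_lit 899226893224) (nat_lit 76) (nat_lit 898063713101) (nat_lit 1) (nat_lit 4) (nat_lit 2) (nat_lit 5) (nat_lit 2) (nat_lit 4) (nat_lit 402) (nat_lit 270) (nat_lit 228)) (XT.lf (nat_lit 0) (nat_lit 704199824589) (nat_lit 76) (nat_lit 969774401990) (nat_lit 76) (nat_lit 968607681878) (nat_lit 1) (nat_lit 4) (nat_lit 2) (nat_lit 5) (nat_lit 2) (nat_lit 4) (nat_lit 403) (nat_lit 270) (nat_lit 227))) (XT.nd (nat_lit 78) (nat_lit 0) (nat_lit 0) (XT.lf (nat_lit 0) (nat_lit 763110269811) (nat_lit 76) (nat_lit 1045972480843) (nat_lit 76) (nat_lit 1044802482963) (nat_lit 1) (nat_lit 4) (nat_lit 2) (nat_lit 5) (nat_lit 2) (nat_lit 4) (nat_lit 404) (nat_lit 270) (nat_lit 226)) (XT.lf (nat_lit 0) (nat_lit 826721012472) (nat_lit 76) (nat_lit 1128272673953) (nat_lit 76) (nat_lit 1127099641104) (nat_lit 1) (nat_lit 4) (nat_lit 2) (nat_lit 5) (nat_lit 2) (nat_lit 4) (nat_lit 405) (nat_lit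 270) (nat_lit 225)))) (XT.nd (nat_lit 156) (nat_lit 0) (nat_lit 0) (XT.nd (nat_lit 78) (nat_lit 0) (nat_lit 0) (XT.lf (nat_lit 0) (nat_lit 895409005123) (nat_lit 76) (nat_lit 1217162686169) (nat_lit 76) (nat_lit 1215986843162) (nat_lit 1) (nat_lit 4) (nat_lit 2) (nat_lit 5) (nat_lit 2) (nat_lit 4) (nat_lit 406) (nat_lit 270) (nat_lit 224)) (XT.lf (nat_lit 0) (nat_lit 969581287720) (nat_lit 76) (nat_lit 1313169273118) (nat_lit 76) (nat_lit 1311990828115) (nat_lit 1) (nat_lit 4) (nat_lit 2) (nat_lit 5) (nat_lit 2) (nat_lit 4) (nat_lit 407) (nat_lit 270) (nat_lit 223))) (XT.nd (nat_lit 78) (nat_lit 0) (nat_lit 0) (XT.lf (nat_lit 0) (nat_lit 1049677399715) (nat_lit 76) (nat_lit 1416861362724) (nat_lit 76) (nat_lit 1415680508464) (nat_lit 1) (nat_lit 4) (nat_lit 2) (nat_lit 5) (nat_lit 2) (nat_lit 4) (nat_lit 408) (nat_lit 270) (nat_lit 222)) (XT.nd (nat_lit 78) (nat_lit 0) (nat_lit 0) (XT.lf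 (nat_lit 0) (nat_lit 1136171984735) (nat_lit 76) (nat_lit 1528853426629) (nat_lit 76) (nat_lit 1527670341575) (nat_lit 1) (nat_lit 4) (nat_lit 2) (nat_lit 5) (nat_lit 2) (nat_lit 4) (nat_lit 409) (nat_lit 270) (nat_lit 221)) (XT.lf (nat_lit 0) (nat_lit 1229577603284) (nat_lit 76) (nat_lit 1649809121506) (nat_lit 76) (nat_lit 1648623970903) (nat_lit 1) (nat_lit 4) (nat_lit 2) (nat_lit 5) (nat_lit 2) (nat_lit 4) (nat_lit 410) (nat_lit 270) (nat_lit 220))))))) (XT.nd (nat_lit 43134) (nat_lit 0) (nat_lit 0) (XT.nd (nat_lit 42744) (nat_lit 0) (nat_lit 76) (XT.nd (nat_lit 156) (nat_lit 0) (nat_lit 0) (XT.nd (nat_lit 78) (nat_lit 0) (nat_lit 0) (XT.lf (nat_lit 0) (nat_lit 1330447770138) (nat_lit 76) (nat_lit 1780445221846) (nat_lit 76) (nat_lit 1779258158697) (nat_lit 1) (nat_lit 4) (nat_lit 2) (nat_lit 5) (nat_lit 2) (nat_lit 4) (nat_lit 411) (nat_lit 270) (nat_lit 219)) (XT.lf (nat_lit 0) (nat_lit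 1439380234434) (nat_lit 76) (nat_lit 1921535867501) (nat_lit 76) (nat_lit 1920347033476) (nat_lit 1) (nat_lit 4) (nat_lit 2) (nat_lit 5) (nat_lit 2) (nat_lit 4) (nat_lit 412) (nat_lit 270) (nat_lit 218))) (XT.nd (nat_lit 78) (nat_lit 0) (nat_lit 0) (XT.lf (nat_lit 0) (nat_lit 1557020521887) (nat_lit 76) (nat_lit 2073917151186) (nat_lit 76) (nat_lit 2072726677462) (nat_lit 1) (nat_lit 4) (nat_lit 2) (nat_lit 5) (nat_lit 2) (nat_lit 4) (nat_lit 413) (nat_lit 270) (nat_lit 217)) (XT.lf (nat_lit 0) (nat_lit 1684065760125) (nat_lit 76) (nat_lit 2238492073102) (nat_lit 76) (nat_lit 2237300081137) (nat_lit 1) (nat_lit 4) (nat_lit 2) (nat_lit 5) (nat_lit 2) (nat_lit 4) (nat_lit 414) (nat_lit 270) (nat_lit 216)))) (XT.nd (nat_lit 156) (nat_lit 0) (nat_lit 0) (XT.nd (nat_lit 78) (nat_lit 0) (nat_lit 0) (XT.lf (nat_lit 0) (nat_lit 11365976547) (nat_lit 152) (nat_lit 19903354491) (nat_lit 0) (nat_lit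 11365976547) (nat_lit 2) (nat_lit 5) (nat_lit 4) (nat_lit 4) (nat_lit 2) (nat_lit 4) (nat_lit 358) (nat_lit 271) (nat_lit 271)) (XT.lf (nat_lit 0) (nat_lit 28063988309) (nat_lit 152) (nat_lit 35771036527) (nat_lit 0) (nat_lit 27967110711) (nat_lit 2) (nat_lit 5) (nat_lit 4) (nat_lit 4) (nat_lit 2) (nat_lit 4) (nat_lit 359) (nat_lit 271) (nat_lit 270))) (XT.nd (nat_lit 78) (nat_lit 0) (nat_lit 0) (XT.lf (nat_lit 0) (nat_lit 33646176071) (nat_lit 152) (nat_lit 31764550479) (nat_lit 0) (nat_lit 33459596994) (nat_lit 2) (nat_lit 5) (nat_lit 4) (nat_lit 4) (nat_lit 2) (nat_lit 4) (nat_lit 360) (nat_lit 271) (nat_lit 269)) (XT.nd (nat_lit 78) (nat_lit 0) (nat_lit 0) (XT.lf (nat_lit 0) (nat_lit 39511596013) (nat_lit 152) (nat_lit 27763508698) (nat_lit 0) (nat_lit 39241960011) (nat_lit 2) (nat_lit 5) (nat_lit 4) (nat_lit 4) (nat_lit 2) (nat_lit 4) (nat_lit 361) (nat_lit 271) (nat_lit 268)) (XT.lf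 (nat_lit 0) (nat_lit 45695006178) (nat_lit 152) (nat_lit 23744201308) (nat_lit 0) (nat_lit 45348465615) (nat_lit 2) (nat_lit 5) (nat_lit 4) (nat_lit 4) (nat_lit 2) (nat_lit 4) (nat_lit 362) (nat_lit 271) (nat_lit 267)))))) (XT.nd (nat_lit 312) (nat_lit 76) (nat_lit 0) (XT.nd (nat_lit 156) (nat_lit 0) (nat_lit 0) (XT.nd (nat_lit 78) (nat_lit 0) (nat_lit 0) (XT.lf (nat_lit 0) (nat_lit 52233048996) (nat_lit 152) (nat_lit 19682810189) (nat_lit 0) (nat_lit 51815300507) (nat_lit 2) (nat_lit 5) (nat_lit 4) (nat_lit 4) (nat_lit 2) (nat_lit 4) (nat_lit 363) (nat_lit 271) (nat_lit 266)) (XT.lf (nat_lit 0) (nat_lit 59164468426) (nat_lit 152) (nat_lit 15555267841) (nat_lit 0) (nat_lit 58680786672) (nat_lit 2) (nat_lit 5) (nat_lit 4) (nat_lit 4) (nat_lit 2) (nat_lit 4) (nat_lit 364) (nat_lit 271) (nat_lit 265))) (XT.nd (nat_lit 78) (nat_lit 0) (nat_lit 0) (XT.lf (nat_lit 0) (nat_lit 66530339545) (nat_lit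 152) (nat_lit 11337114752) (nat_lit 0) (nat_lit 65985608471) (nat_lit 2) (nat_lit 5) (nat_lit 4) (nat_lit 4) (nat_lit 2) (nat_lit 4) (nat_lit 365) (nat_lit 271) (nat_lit 264)) (XT.lf (nat_lit 0) (nat_lit 74374311960) (nat_lit 152) (nat_lit 7003354459) (nat_lit 0) (nat_lit 73773053739) (nat_lit 2) (nat_lit 5) (nat_lit 4) (nat_lit 4) (nat_lit 2) (nat_lit 4) (nat_lit 366) (nat_lit 271) (nat_lit 263)))) (XT.nd (nat_lit 156) (nat_lit 0) (nat_lit 0) (XT.nd (nat_lit 78) (nat_lit 76) (nat_lit 0) (XT.lf (nat_lit 0) (nat_lit 82742868471) (nat_lit 152) (nat_lit 2528305420) (nat_lit 0) (nat_lit 82089270298) (nat_lit 2) (nat_lit 5) (nat_lit 4) (nat_lit 4) (nat_lit 2) (nat_lit 4) (nat_lit 367) (nat_lit 271) (nat_lit 262)) (XT.lf (nat_lit 0) (nat_lit 2225899690) (nat_lit 76) (nat_lit 89513233773) (nat_lit 76) (nat_lit 88811172682) (nat_lit 1) (nat_lit 4) (nat_lit 2) (nat_lit 5) (nat_lit 2) (nat_lit 4)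 (nat_lit 368) (nat_lit 271) (nat_lit 261))) (XT.nd (nat_lit 78) (nat_lit 0) (nat_lit 0) (XT.lf (nat_lit 0) (nat_lit 7318846909) (nat_lit 76) (nat_lit 94112673618) (nat_lit 76) (nat_lit 93365739455) (nat_lit 1) (nat_lit 4) (nat_lit 2) (nat_lit 5) (nat_lit 2) (nat_lit 4) (nat_lit 369) (nat_lit 271) (nat_lit 260)) (XT.nd (nat_lit 78) (nat_lit 0) (nat_lit 0) (XT.lf (nat_lit 0) (nat_lit 12647580582) (nat_lit 76) (nat_lit 99165877717) (nat_lit 76) (nat_lit 98377394412) (nat_lit 1) (nat_lit 4) (nat_lit 2) (nat_lit 5) (nat_lit 2) (nat_lit 4) (nat_lit 370) (nat_lit 271) (nat_lit 259)) (XT.lf (nat_lit 0) (nat_lit 18243678389) (nat_lit 76) (nat_lit 104702790982) (nat_lit 76) (nat_lit 103875836250) (nat_lit 1) (nat_lit 4) (nat_lit 2) (nat_lit 5) (nat_lit 2) (nat_lit 4) (nat_lit 371) (nat_lit 271) (nat_lit 258))))))))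
noncomputable def xc24 : XT := (XT.nd (nat_lit 1326) (nat_lit 0) (nat_lit 0) (XT.nd (nat_lit 624) (nat_lit 0) (nat_lit 0) (XT.nd (nat_lit 312) (nat_lit 0) (nat_lit 0) (XT.nd (nat_lit 156) (nat_lit 0) (nat_lit 0) (XT.nd (nat_lit 78) (nat_lit 0) (nat_lit 0) (XT.lf (nat_lit 0) (nat_lit 24140302392) (nat_lit 76) (nat_lit 110756224751) (nat_lit 76) (nat_lit 109893648328) (nat_lit 1) (nat_lit 4) (nat_lit 2) (nat_lit 5) (nat_lit 2) (nat_lit 4) (nat_lit 372) (nat_lit 271) (nat_lit 257)) (XT.lf (nat_lit 0) (nat_lit 30372395547) (nat_lit 76) (nat_lit 117362051225) (nat_lit 76) (nat_lit 116466491754) (nat_lit 1) (nat_lit 4) (nat_lit 2) (nat_lit 5) (nat_lit 2) (nat_lit 4) (nat_lit 373) (nat_lit 271) (nat_lit 256))) (XT.nd (nat_lit 78) (nat_lit 0) (nat_lit 0) (XT.lf (nat_lit 0) (nat_lit 36976888777) (nat_lit 76) (nat_lit 124559416042) (nat_lit 76) (nat_lit 123633316712) (nat_lit 1) (nat_lit 4) (nat_lit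 2) (nat_lit 5) (nat_lit 2) (nat_lit 4) (nat_lit 374) (nat_lit 271) (nat_lit 255)) (XT.lf (nat_lit 0) (nat_lit 43992919820) (nat_lit 76) (nat_lit 132390970253) (nat_lit 76) (nat_lit 131436593276) (nat_lit 1) (nat_lit 4) (nat_lit 2) (nat_lit 5) (nat_lit 2) (nat_lit 4) (nat_lit 375) (nat_lit 271) (nat_lit 254)))) (XT.nd (nat_lit 156) (nat_lit 0) (nat_lit 0) (XT.nd (nat_lit 78) (nat_lit 0) (nat_lit 0) (XT.lf (nat_lit 0) (nat_lit 51462065155) (nat_lit 76) (nat_lit 140903123068) (nat_lit 76) (nat_lit 139922563084) (nat_lit 1) (nat_lit 4) (nat_lit 2) (nat_lit 5) (nat_lit 2) (nat_lit 4) (nat_lit 376) (nat_lit 271) (nat_lit 253)) (XT.lf (nat_lit 0) (nat_lit 59428586385) (nat_lit 76) (nat_lit 150146316873) (nat_lit 76) (nat_lit 149141513365) (nat_lit 1) (nat_lit 4) (nat_lit 2) (nat_lit 5) (nat_lit 2) (nat_lit 4) (nat_lit 377) (nat_lit 271) (nat_lit 252))) (XT.nd (nat_lit 78) (nat_lit 0) (nat_lit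 0) (XT.lf (nat_lit 0) (nat_lit 67939692525) (nat_lit 76) (nat_lit 160175326152) (nat_lit 76) (nat_lit 159148074935) (nat_lit 1) (nat_lit 4) (nat_lit 2) (nat_lit 5) (nat_lit 2) (nat_lit 4) (nat_lit 378) (nat_lit 271) (nat_lit 251)) (XT.lf (nat_lit 0) (nat_lit 77045819759) (nat_lit 76) (nat_lit 171049582069) (nat_lit 76) (nat_lit 170001545937) (nat_lit 1) (nat_lit 4) (nat_lit 2) (nat_lit 5) (nat_lit 2) (nat_lit 4) (nat_lit 379) (nat_lit 271) (nat_lit 250))))) (XT.nd (nat_lit 312) (nat_lit 0) (nat_lit 0) (XT.nd (nat_lit 156) (nat_lit 0) (nat_lit 0) (XT.nd (nat_lit 78) (nat_lit 0) (nat_lit 0) (XT.lf (nat_lit 0) (nat_lit 86800930322) (nat_lit 76) (nat_lit 182833524660) (nat_lit 76) (nat_lit 181766243237) (nat_lit 1) (nat_lit 4) (nat_lit 2) (nat_lit 5) (nat_lit 2) (nat_lit 4) (nat_lit 380) (nat_lit 271) (nat_lit 249)) (XT.lf (nat_lit 0) (nat_lit 97262832278) (nat_lit 76) (nat_lit 195596984696)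 (nat_lit 76) (nat_lit 194511883558) (nat_lit 1) (nat_lit 4) (nat_lit 2) (nat_lit 5) (nat_lit 2) (nat_lit 4) (nat_lit 381) (nat_lit 271) (nat_lit 248))) (XT.nd (nat_lit 78) (nat_lit 0) (nat_lit 0) (XT.lf (nat_lit 0) (nat_lit 108493522081) (nat_lit 76) (nat_lit 209415597496) (nat_lit 76) (nat_lit 208313996622) (nat_lit 1) (nat_lit 4) (nat_lit 2) (nat_lit 5) (nat_lit 2) (nat_lit 4) (nat_lit 382) (nat_lit 271) (nat_lit 247)) (XT.lf (nat_lit 0) (nat_lit 120559551969) (nat_lit 76) (nat_lit 224371251135) (nat_lit 76) (nat_lit 223254372728) (nat_lit 1) (nat_lit 4) (nat_lit 2) (nat_lit 5) (nat_lit 2) (nat_lit 4) (nat_lit 383) (nat_lit 271) (nat_lit 246)))) (XT.nd (nat_lit 156) (nat_lit 0) (nat_lit 0) (XT.nd (nat_lit 78) (nat_lit 0) (nat_lit 0) (XT.lf (nat_lit 0) (nat_lit 133532424340) (nat_lit 76) (nat_lit 240552571708) (nat_lit 76) (nat_lit 239421547438) (nat_lit 1) (nat_lit 4) (nat_lit 2) (nat_lit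 5) (nat_lit 2) (nat_lit 4) (nat_lit 384) (nat_lit 271) (nat_lit 245)) (XT.lf (nat_lit 0) (nat_lit 147489015475) (nat_lit 76) (nat_lit 258055448524) (nat_lit 76) (nat_lit 256911326232) (nat_lit 1) (nat_lit 4) (nat_lit 2) (nat_lit 5) (nat_lit 2) (nat_lit 4) (nat_lit 385) (nat_lit 271) (nat_lit 244))) (XT.nd (nat_lit 78) (nat_lit 0) (nat_lit 0) (XT.lf (nat_lit 0) (nat_lit 162512031099) (nat_lit 76) (nat_lit 276983602334) (nat_lit 76) (nat_lit 275827352244) (nat_lit 1) (nat_lit 4) (nat_lit 2) (nat_lit 5) (nat_lit 2) (nat_lit 4) (nat_lit 386) (nat_lit 271) (nat_lit 243)) (XT.nd (nat_lit 78) (nat_lit 0) (nat_lit 0) (XT.lf (nat_lit 0) (nat_lit 178690496490) (nat_lit 76) (nat_lit 297449199975) (nat_lit 76) (nat_lit 296281720441) (nat_lit 1) (nat_lit 4) (nat_lit 2) (nat_lit 5) (nat_lit 2) (nat_lit 4) (nat_lit 387) (nat_lit 271) (nat_lit 242)) (XT.lf (nat_lit 0) (nat_lit 196120284036) (nat_lit 76)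 (nat_lit 319573519062) (nat_lit 76) (nat_lit 318395641897) (nat_lit 1) (nat_lit 4) (nat_lit 2) (nat_lit 5) (nat_lit 2) (nat_lit 4) (nat_lit 388) (nat_lit 271) (nat_lit 241))))))) (XT.nd (nat_lit 624) (nat_lit 0) (nat_lit 0) (XT.nd (nat_lit 312) (nat_lit 0) (nat_lit 0) (XT.nd (nat_lit 156) (nat_lit 0) (nat_lit 0) (XT.nd (nat_lit 78) (nat_lit 0) (nat_lit 0) (XT.lf (nat_lit 0) (nat_lit 214904681366) (nat_lit 76) (nat_lit 343487666673) (nat_lit 76) (nat_lit 342300162070) (nat_lit 1) (nat_lit 4) (nat_lit 2) (nat_lit 5) (nat_lit 2) (nat_lit 4) (nat_lit 389) (nat_lit 271) (nat_lit 240)) (XT.lf (nat_lit 0) (nat_lit 235155003428) (nat_lit 76) (nat_lit 369333356273) (nat_lit 76) (nat_lit 368136937376) (nat_lit 1) (nat_lit 4) (nat_lit 2) (nat_lit 5) (nat_lit 2) (nat_lit 4) (nat_lit 390) (nat_lit 271) (nat_lit 239))) (XT.nd (nat_lit 78) (nat_lit 0) (nat_lit 0) (XT.lf (nat_lit 0) (nat_lit 256991252131)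 (nat_lit 76) (nat_lit 397263747505) (nat_lit 76) (nat_lit 396059074633) (nat_lit 1) (nat_lit 4) (nat_lit 2) (nat_lit 5) (nat_lit 2) (nat_lit 4) (nat_lit 391) (nat_lit 271) (nat_lit 238)) (XT.lf (nat_lit 0) (nat_lit 280542827465) (nat_lit 76) (nat_lit 427444353799) (nat_lit 76) (nat_lit 426232038357) (nat_lit 1) (nat_lit 4) (nat_lit 2) (nat_lit 5) (nat_lit 2) (nat_lit 4) (nat_lit 392) (nat_lit 271) (nat_lit 237)))) (XT.nd (nat_lit 156) (nat_lit 0) (nat_lit 0) (XT.nd (nat_lit 78) (nat_lit 0) (nat_lit 0) (XT.lf (nat_lit 0) (nat_lit 305949294323) (nat_lit 76) (nat_lit 460054023192) (nat_lit 76) (nat_lit 458834631296) (nat_lit 1) (nat_lit 4) (nat_lit 2) (nat_lit 5) (nat_lit 2) (nat_lit 4) (nat_lit 393) (nat_lit 271) (nat_lit 236)) (XT.lf (nat_lit 0) (nat_lit 333361209545) (nat_lit 76) (nat_lit 495285998170) (nat_lit 76) (nat_lit 494060054001) (nat_lit 1) (nat_lit 4) (nat_lit 2) (nat_lit 5)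 (nat_lit 2) (nat_lit 4) (nat_lit 394) (nat_lit 271) (nat_lit 235))) (XT.nd (nat_lit 78) (nat_lit 0) (nat_lit 0) (XT.lf (nat_lit 0) (nat_lit 362941014110) (nat_lit 76) (nat_lit 533349060805) (nat_lit 76) (nat_lit 532117049718) (nat_lit 1) (nat_lit 4) (nat_lit 2) (nat_lit 5) (nat_lit 2) (nat_lit 4) (nat_lit 395) (nat_lit 271) (nat_lit 234)) (XT.lf (nat_lit 0) (nat_lit 394863995749) (nat_lit 76) (nat_lit 574468769989) (nat_lit 76) (nat_lit 573231141385) (nat_lit 1) (nat_lit 4) (nat_lit 2) (nat_lit 5) (nat_lit 2) (nat_lit 4) (nat_lit 396) (nat_lit 271) (nat_lit 233))))) (XT.nd (nat_lit 312) (nat_lit 0) (nat_lit 0) (XT.nd (nat_lit 156) (nat_lit 0) (nat_lit 0) (XT.nd (nat_lit 78) (nat_lit 0) (nat_lit 0) (XT.lf (nat_lit 0) (nat_lit 429319327686) (nat_lit 76) (nat_lit 618888798071) (nat_lit 76) (nat_lit 617645968062) (nat_lit 1) (nat_lit 4) (nat_lit 2) (nat_lit 5) (nat_lit 2) (nat_lit 4) (nat_lit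 397) (nat_lit 271) (nat_lit 232)) (XT.lf (nat_lit 0) (nat_lit 466511189666) (nat_lit 76) (nat_lit 666872374847) (nat_lit 76) (nat_lit 665624728723) (nat_lit 1) (nat_lit 4) (nat_lit 2) (nat_lit 5) (nat_lit 2) (nat_lit 4) (nat_lit 398) (nat_lit 271) (nat_lit 231))) (XT.nd (nat_lit 78) (nat_lit 0) (nat_lit 0) (XT.lf (nat_lit 0) (nat_lit 506659977908) (nat_lit 76) (nat_lit 718703847440) (nat_lit 76) (nat_lit 717451741950) (nat_lit 1) (nat_lit 4) (nat_lit 2) (nat_lit 5) (nat_lit 2) (nat_lit 4) (nat_lit 399) (nat_lit 271) (nat_lit 230)) (XT.lf (nat_lit 0) (nat_lit 550003611158) (nat_lit 76) (nat_lit 774690365317) (nat_lit 76) (nat_lit 773434130783) (nat_lit 1) (nat_lit 4) (nat_lit 2) (nat_lit 5) (nat_lit 2) (nat_lit 4) (nat_lit 400) (nat_lit 271) (nat_lit 229)))) (XT.nd (nat_lit 156) (nat_lit 0) (nat_lit 0) (XT.nd (nat_lit 78) (nat_lit 0) (nat_lit 0) (XT.lf (nat_lit 0) (nat_lit 596798940576)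 (nat_lit 76) (nat_lit 835163700434) (nat_lit 76) (nat_lit 833903642713) (nat_lit 1) (nat_lit 4) (nat_lit 2) (nat_lit 5) (nat_lit 2) (nat_lit 4) (nat_lit 401) (nat_lit 271) (nat_lit 228)) (XT.lf (nat_lit 0) (nat_lit 647323271816) (nat_lit 76) (nat_lit 900482213298) (nat_lit 76) (nat_lit 899218615588) (nat_lit 1) (nat_lit 4) (nat_lit 2) (nat_lit 5) (nat_lit 2) (nat_lit 4) (nat_lit 402) (nat_lit 271) (nat_lit 227))) (XT.nd (nat_lit 78) (nat_lit 0) (nat_lit 0) (XT.lf (nat_lit 0) (nat_lit 701876008324) (nat_lit 76) (nat_lit 971032976576) (nat_lit 76) (nat_lit 969766101099) (nat_lit 1) (nat_lit 4) (nat_lit 2) (nat_lit 5) (nat_lit 2) (nat_lit 4) (nat_lit 403) (nat_lit 271) (nat_lit 226)) (XT.nd (nat_lit 78) (nat_lit 0) (nat_lit 0) (XT.lf (nat_lit 0) (nat_lit 760780425576) (nat_lit 76) (nat_lit 1047234068866) (nat_lit 76) (nat_lit 1045964158419) (nat_lit 1) (nat_lit 4) (nat_lit 2) (nat_lit 5)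 (nat_lit 2) (nat_lit 4) (nat_lit 404) (nat_lit 271) (nat_lit 225)) (XT.lf (nat_lit 0) (nat_lit 824385586784) (nat_lit 76) (nat_lit 1129537052196) (nat_lit 76) (nat_lit 1128264331592) (nat_lit 1) (nat_lit 4) (nat_lit 2) (nat_lit 5) (nat_lit 2) (nat_lit 4) (nat_lit 405) (nat_lit 271) (nat_lit 224))))))))
noncomputable def xc25 : XT := (XT.nd (nat_lit 43602) (nat_lit 0) (nat_lit 0) (XT.nd (nat_lit 624) (nat_lit 0) (nat_lit 0) (XT.nd (nat_lit 312) (nat_lit 0) (nat_lit 0) (XT.nd (nat_lit 156) (nat_lit 0) (nat_lit 0) (XT.nd (nat_lit 78) (nat_lit 0) (nat_lit 0) (XT.lf (nat_lit 0) (nat_lit 893068411422) (nat_lit 76) (nat_lit 1218429647948) (nat_lit 76) (nat_lit 1217154325347) (nat_lit 1) (nat_lit 4) (nat_lit 2) (nat_lit 5) (nat_lit 2) (nat_lit 4) (nat_lit 406) (nat_lit 271) (nat_lit 223)) (XT.lf (nat_lit 0) (nat_lit 967235908822) (nat_lit 76) (nat_lit 1314438627061) (nat_lit 76) (nat_lit 1313160895203)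 (nat_lit 1) (nat_lit 4) (nat_lit 2) (nat_lit 5) (nat_lit 2) (nat_lit 4) (nat_lit 407) (nat_lit 271) (nat_lit 222))) (XT.nd (nat_lit 78) (nat_lit 0) (nat_lit 0) (XT.lf (nat_lit 0) (nat_lit 1047327590079) (nat_lit 76) (nat_lit 1418132931634) (nat_lit 76) (nat_lit 1416852968982) (nat_lit 1) (nat_lit 4) (nat_lit 2) (nat_lit 5) (nat_lit 2) (nat_lit 4) (nat_lit 408) (nat_lit 271) (nat_lit 221)) (XT.lf (nat_lit 0) (nat_lit 1133818072564) (nat_lit 76) (nat_lit 1530127046433) (nat_lit 76) (nat_lit 1528845018232) (nat_lit 1) (nat_lit 4) (nat_lit 2) (nat_lit 5) (nat_lit 2) (nat_lit 4) (nat_lit 409) (nat_lit 271) (nat_lit 220)))) (XT.nd (nat_lit 156) (nat_lit 0) (nat_lit 0) (XT.nd (nat_lit 78) (nat_lit 0) (nat_lit 0) (XT.lf (nat_lit 0) (nat_lit 1227219892469) (nat_lit 76) (nat_lit 1651084640287) (nat_lit 76) (nat_lit 1649800699541) (nat_lit 1) (nat_lit 4) (nat_lit 2) (nat_lit 5) (nat_lit 2) (nat_lit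 4) (nat_lit 410) (nat_lit 271) (nat_lit 219)) (XT.lf (nat_lit 0) (nat_lit 1328086542061) (nat_lit 76) (nat_lit 1781722498939) (nat_lit 76) (nat_lit 1780436787316) (nat_lit 1) (nat_lit 4) (nat_lit 2) (nat_lit 5) (nat_lit 2) (nat_lit 4) (nat_lit 411) (nat_lit 271) (nat_lit 218))) (XT.nd (nat_lit 78) (nat_lit 0) (nat_lit 0) (XT.lf (nat_lit 0) (nat_lit 1437015749632) (nat_lit 76) (nat_lit 1922814772660) (nat_lit 76) (nat_lit 1921527421338) (nat_lit 1) (nat_lit 4) (nat_lit 2) (nat_lit 5) (nat_lit 2) (nat_lit 4) (nat_lit 412) (nat_lit 271) (nat_lit 217)) (XT.lf (nat_lit 0) (nat_lit 1554653021600) (nat_lit 76) (nat_lit 2075197563814) (nat_lit 76) (nat_lit 2073908694252) (nat_lit 1) (nat_lit 4) (nat_lit 2) (nat_lit 5) (nat_lit 2) (nat_lit 4) (nat_lit 413) (nat_lit 271) (nat_lit 216))))) (XT.nd (nat_lit 42588) (nat_lit 0) (nat_lit 76) (XT.nd (nat_lit 42432) (nat_lit 0) (nat_lit 76) (XT.nd (nat_lit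 42354) (nat_lit 0) (nat_lit 76) (XT.lf (nat_lit 0) (nat_lit 1681695467722) (nat_lit 76) (nat_lit 2239773881534) (nat_lit 76) (nat_lit 2238483606194) (nat_lit 1) (nat_lit 4) (nat_lit 2) (nat_lit 5) (nat_lit 2) (nat_lit 4) (nat_lit 414) (nat_lit 271) (nat_lit 215)) (XT.lf (nat_lit 0) (nat_lit 6448399862) (nat_lit 152) (nat_lit 23932087430) (nat_lit 0) (nat_lit 6448399862) (nat_lit 2) (nat_lit 5) (nat_lit 4) (nat_lit 4) (nat_lit 2) (nat_lit 4) (nat_lit 356) (nat_lit 272) (nat_lit 272))) (XT.nd (nat_lit 78) (nat_lit 0) (nat_lit 0) (XT.lf (nat_lit 0) (nat_lit 17723100987) (nat_lit 152) (nat_lit 43895482941) (nat_lit 0) (nat_lit 17618473182) (nat_lit 2) (nat_lit 5) (nat_lit 4) (nat_lit 4) (nat_lit 2) (nat_lit 4) (nat_lit 357) (nat_lit 272) (nat_lit 271)) (XT.lf (nat_lit 0) (nat_lit 22744983260) (nat_lit 152) (nat_lit 39989499089) (nat_lit 0) (nat_lit 22543477857) (nat_lit 2) (nat_lit 5) (nat_lit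 4) (nat_lit 4) (nat_lit 2) (nat_lit 4) (nat_lit 358) (nat_lit 272) (nat_lit 270)))) (XT.nd (nat_lit 156) (nat_lit 0) (nat_lit 0) (XT.nd (nat_lit 78) (nat_lit 0) (nat_lit 0) (XT.lf (nat_lit 0) (nat_lit 27992205845) (nat_lit 152) (nat_lit 36123076731) (nat_lit 0) (nat_lit 27700998963) (nat_lit 2) (nat_lit 5) (nat_lit 4) (nat_lit 4) (nat_lit 2) (nat_lit 4) (nat_lit 359) (nat_lit 272) (nat_lit 269)) (XT.lf (nat_lit 0) (nat_lit 33495863395) (nat_lit 152) (nat_lit 32273303736) (nat_lit 0) (nat_lit 33121599587) (nat_lit 2) (nat_lit 5) (nat_lit 4) (nat_lit 4) (nat_lit 2) (nat_lit 4) (nat_lit 360) (nat_lit 272) (nat_lit 268))) (XT.nd (nat_lit 78) (nat_lit 0) (nat_lit 0) (XT.lf (nat_lit 0) (nat_lit 39288570177) (nat_lit 152) (nat_lit 28417366634) (nat_lit 0) (nat_lit 38837401809) (nat_lit 2) (nat_lit 5) (nat_lit 4) (nat_lit 4) (nat_lit 2) (nat_lit 4) (nat_lit 361) (nat_lit 272) (nat_lit 267)) (XT.nd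 (nat_lit 78) (nat_lit 0) (nat_lit 0) (XT.lf (nat_lit 0) (nat_lit 45404653342) (nat_lit 152) (nat_lit 24532415428) (nat_lit 0) (nat_lit 44882277047) (nat_lit 2) (nat_lit 5) (nat_lit 4) (nat_lit 4) (nat_lit 2) (nat_lit 4) (nat_lit 362) (nat_lit 272) (nat_lit 266)) (XT.lf (nat_lit 0) (nat_lit 51880356346) (nat_lit 152) (nat_lit 20595428185) (nat_lit 0) (nat_lit 51292046786) (nat_lit 2) (nat_lit 5) (nat_lit 4) (nat_lit 4) (nat_lit 2) (nat_lit 4) (nat_lit 363) (nat_lit 272) (nat_lit 265))))))) (XT.nd (nat_lit 624) (nat_lit 0) (nat_lit 0) (XT.nd (nat_lit 312) (nat_lit 76) (nat_lit 0) (XT.nd (nat_lit 156) (nat_lit 0) (nat_lit 0) (XT.nd (nat_lit 78) (nat_lit 0) (nat_lit 0) (XT.lf (nat_lit 0) (nat_lit 58754053725) (nat_lit 152) (nat_lit 16583074609) (nat_lit 0) (nat_lit 58104694846) (nat_lit 2) (nat_lit 5) (nat_lit 4) (nat_lit 4) (nat_lit 2) (nat_lit 4) (nat_lit 364) (nat_lit 272) (nat_lit 264))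 (XT.lf (nat_lit 0) (nat_lit 66066478501) (nat_lit 152) (nat_lit 12471577791) (nat_lit 0) (nat_lit 65360592474) (nat_lit 2) (nat_lit 5) (nat_lit 4) (nat_lit 4) (nat_lit 2) (nat_lit 4) (nat_lit 365) (nat_lit 272) (nat_lit 263))) (XT.nd (nat_lit 78) (nat_lit 0) (nat_lit 0) (XT.lf (nat_lit 0) (nat_lit 73860963562) (nat_lit 152) (nat_lit 8236573304) (nat_lit 0) (nat_lit 73102737583) (nat_lit 2) (nat_lit 5) (nat_lit 4) (nat_lit 4) (nat_lit 2) (nat_lit 4) (nat_lit 366) (nat_lit 272) (nat_lit 262)) (XT.lf (nat_lit 0) (nat_lit 82183698448) (nat_lit 152) (nat_lit 3852964827) (nat_lit 0) (nat_lit 81377009551) (nat_lit 2) (nat_lit 5) (nat_lit 4) (nat_lit 4) (nat_lit 2) (nat_lit 4) (nat_lit 367) (nat_lit 272) (nat_lit 261)))) (XT.nd (nat_lit 156) (nat_lit 0) (nat_lit 0) (XT.nd (nat_lit 78) (nat_lit 0) (nat_lit 0) (XT.lf (nat_lit 0) (nat_lit 742360455) (nat_lit 76) (nat_lit 90359496400) (nat_lit 76)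 (nat_lit 89507934431) (nat_lit 1) (nat_lit 4) (nat_lit 2) (nat_lit 5) (nat_lit 2) (nat_lit 4) (nat_lit 368) (nat_lit 272) (nat_lit 260)) (XT.lf (nat_lit 0) (nat_lit 5752783961) (nat_lit 76) (nat_lit 95000190604) (nat_lit 76) (nat_lit 94107079494) (nat_lit 1) (nat_lit 4) (nat_lit 2) (nat_lit 5) (nat_lit 2) (nat_lit 4) (nat_lit 369) (nat_lit 272) (nat_lit 259))) (XT.nd (nat_lit 78) (nat_lit 0) (nat_lit 0) (XT.lf (nat_lit 0) (nat_lit 11005106788) (nat_lit 76) (nat_lit 100091593182) (nat_lit 76) (nat_lit 99160010645) (nat_lit 1) (nat_lit 4) (nat_lit 2) (nat_lit 5) (nat_lit 2) (nat_lit 4) (nat_lit 370) (nat_lit 272) (nat_lit 258)) (XT.lf (nat_lit 0) (nat_lit 16530453812) (nat_lit 76) (nat_lit 105663875410) (nat_lit 76) (nat_lit 104696671182) (nat_lit 1) (nat_lit 4) (nat_lit 2) (nat_lit 5) (nat_lit 2) (nat_lit 4) (nat_lit 371) (nat_lit 272) (nat_lit 257))))) (XT.nd (nat_lit 312) (nat_lit 0)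 (nat_lit 0) (XT.nd (nat_lit 156) (nat_lit 0) (nat_lit 0) (XT.nd (nat_lit 78) (nat_lit 0) (nat_lit 0) (XT.lf (nat_lit 0) (nat_lit 22361567830) (nat_lit 76) (nat_lit 111750058220) (nat_lit 76) (nat_lit 110749870943) (nat_lit 1) (nat_lit 4) (nat_lit 2) (nat_lit 5) (nat_lit 2) (nat_lit 4) (nat_lit 372) (nat_lit 272) (nat_lit 256)) (XT.lf (nat_lit 0) (nat_lit 28533003592) (nat_lit 76) (nat_lit 118386207879) (nat_lit 76) (nat_lit 117355480743) (nat_lit 1) (nat_lit 4) (nat_lit 2) (nat_lit 5) (nat_lit 2) (nat_lit 4) (nat_lit 373) (nat_lit 272) (nat_lit 255))) (XT.nd (nat_lit 78) (nat_lit 0) (nat_lit 0) (XT.lf (nat_lit 0) (nat_lit 35081332569) (nat_lit 76) (nat_lit 125611649719) (nat_lit 76) (nat_lit 124552644936) (nat_lit 1) (nat_lit 4) (nat_lit 2) (nat_lit 5) (nat_lit 2) (nat_lit 4) (nat_lit 374) (nat_lit 272) (nat_lit 254)) (XT.lf (nat_lit 0) (nat_lit 42045359674) (nat_lit 76) (nat_lit 133469201174)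 (nat_lit 76) (nat_lit 132384013384) (nat_lit 1) (nat_lit 4) (nat_lit 2) (nat_lit 5) (nat_lit 2) (nat_lit 4) (nat_lit 375) (nat_lit 272) (nat_lit 253)))) (XT.nd (nat_lit 156) (nat_lit 0) (nat_lit 0) (XT.nd (nat_lit 78) (nat_lit 0) (nat_lit 0) (XT.lf (nat_lit 0) (nat_lit 49466353215) (nat_lit 76) (nat_lit 142005425511) (nat_lit 76) (nat_lit 140895994196) (nat_lit 1) (nat_lit 4) (nat_lit 2) (nat_lit 5) (nat_lit 2) (nat_lit 4) (nat_lit 376) (nat_lit 272) (nat_lit 252)) (XT.lf (nat_lit 0) (nat_lit 57388289451) (nat_lit 76) (nat_lit 151270907763) (nat_lit 76) (nat_lit 150139028740) (nat_lit 1) (nat_lit 4) (nat_lit 2) (nat_lit 5) (nat_lit 2) (nat_lit 4) (nat_lit 377) (nat_lit 272) (nat_lit 251))) (XT.nd (nat_lit 78) (nat_lit 0) (nat_lit 0) (XT.lf (nat_lit 0) (nat_lit 65858113188) (nat_lit 76) (nat_lit 161320554491) (nat_lit 76) (nat_lit 160167890554) (nat_lit 1) (nat_lit 4) (nat_lit 2) (nat_lit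 5) (nat_lit 2) (nat_lit 4) (nat_lit 378) (nat_lit 272) (nat_lit 250)) (XT.nd (nat_lit 78) (nat_lit 0) (nat_lit 0) (XT.lf (nat_lit 0) (nat_lit 74926015975) (nat_lit 76) (nat_lit 172213919159) (nat_lit 76) (nat_lit 171042009930) (nat_lit 1) (nat_lit 4) (nat_lit 2) (nat_lit 5) (nat_lit 2) (nat_lit 4) (nat_lit 379) (nat_lit 272) (nat_lit 249)) (XT.lf (nat_lit 0) (nat_lit 84645733532) (nat_lit 76) (nat_lit 184015555037) (nat_lit 76) (nat_lit 182825826094) (nat_lit 1) (nat_lit 4) (nat_lit 2) (nat_lit 5) (nat_lit 2) (nat_lit 4) (nat_lit 380) (nat_lit 272) (nat_lit 248))))))))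
noncomputable def xc26 : XT := (XT.nd (nat_lit 1326) (nat_lit 0) (nat_lit 0) (XT.nd (nat_lit 624) (nat_lit 0) (nat_lit 0) (XT.nd (nat_lit 312) (nat_lit 0) (nat_lit 0) (XT.nd (nat_lit 156) (nat_lit 0) (nat_lit 0) (XT.nd (nat_lit 78) (nat_lit 0) (nat_lit 0) (XT.lf (nat_lit 0) (nat_lit 95074864186) (nat_lit 76) (nat_lit 196795397746) (nat_lit 76) (nat_lit 195589169067) (nat_lit 1) (nat_lit 4) (nat_lit 2) (nat_lit 5) (nat_lit 2) (nat_lit 4) (nat_lit 381) (nat_lit 272) (nat_lit 247)) (XT.lf (nat_lit 0) (nat_lit 106275210191) (nat_lit 76) (nat_lit 210629179688) (nat_lit 76) (nat_lit 209407673476) (nat_lit 1) (nat_lit 4) (nat_lit 2) (nat_lit 5) (nat_lit 2) (nat_lit 4) (nat_lit 382) (nat_lit 272) (nat_lit 246))) (XT.nd (nat_lit 78) (nat_lit 0) (nat_lit 0) (XT.lf (nat_lit 0) (nat_lit 118313143969) (nat_lit 76) (nat_lit 225598878829) (nat_lit 76) (nat_lit 224363226753) (nat_lit 1) (nat_lit 4) (nat_lit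 2) (nat_lit 5) (nat_lit 2) (nat_lit 4) (nat_lit 383) (nat_lit 272) (nat_lit 245)) (XT.lf (nat_lit 0) (nat_lit 131260001424) (nat_lit 76) (nat_lit 241793204497) (nat_lit 76) (nat_lit 240544454399) (nat_lit 1) (nat_lit 4) (nat_lit 2) (nat_lit 5) (nat_lit 2) (nat_lit 4) (nat_lit 384) (nat_lit 272) (nat_lit 244)))) (XT.nd (nat_lit 156) (nat_lit 0) (nat_lit 0) (XT.nd (nat_lit 78) (nat_lit 0) (nat_lit 0) (XT.lf (nat_lit 0) (nat_lit 145192504674) (nat_lit 76) (nat_lit 259308123067) (nat_lit 76) (nat_lit 258047245171) (nat_lit 1) (nat_lit 4) (nat_lit 2) (nat_lit 5) (nat_lit 2) (nat_lit 4) (nat_lit 385) (nat_lit 272) (nat_lit 243)) (XT.lf (nat_lit 0) (nat_lit 160193216700) (nat_lit 76) (nat_lit 278247426649) (nat_lit 76) (nat_lit 276975319310) (nat_lit 1) (nat_lit 4) (nat_lit 2) (nat_lit 5) (nat_lit 2) (nat_lit 4) (nat_lit 386) (nat_lit 272) (nat_lit 242))) (XT.nd (nat_lit 78) (nat_lit 0) (nat_lit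 0) (XT.lf (nat_lit 0) (nat_lit 176351030612) (nat_lit 76) (nat_lit 298723348153) (nat_lit 76) (nat_lit 297440843182) (nat_lit 1) (nat_lit 4) (nat_lit 2) (nat_lit 5) (nat_lit 2) (nat_lit 4) (nat_lit 387) (nat_lit 272) (nat_lit 241)) (XT.lf (nat_lit 0) (nat_lit 193761696418) (nat_lit 76) (nat_lit 320857226373) (nat_lit 76) (nat_lit 319565093965) (nat_lit 1) (nat_lit 4) (nat_lit 2) (nat_lit 5) (nat_lit 2) (nat_lit 4) (nat_lit 388) (nat_lit 272) (nat_lit 240))))) (XT.nd (nat_lit 312) (nat_lit 0) (nat_lit 0) (XT.nd (nat_lit 156) (nat_lit 0) (nat_lit 0) (XT.nd (nat_lit 78) (nat_lit 0) (nat_lit 0) (XT.lf (nat_lit 0) (nat_lit 212528388434) (nat_lit 76) (nat_lit 344780225032) (nat_lit 76) (nat_lit 343479178330) (nat_lit 1) (nat_lit 4) (nat_lit 2) (nat_lit 5) (nat_lit 2) (nat_lit 4) (nat_lit 389) (nat_lit 272) (nat_lit 239)) (XT.lf (nat_lit 0) (nat_lit 232762316686) (nat_lit 76) (nat_lit 370634110048)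 (nat_lit 76) (nat_lit 369324809370) (nat_lit 1) (nat_lit 4) (nat_lit 2) (nat_lit 5) (nat_lit 2) (nat_lit 4) (nat_lit 390) (nat_lit 272) (nat_lit 238))) (XT.nd (nat_lit 78) (nat_lit 0) (nat_lit 0) (XT.lf (nat_lit 0) (nat_lit 254583385934) (nat_lit 76) (nat_lit 398572089628) (nat_lit 76) (nat_lit 397255146380) (nat_lit 1) (nat_lit 4) (nat_lit 2) (nat_lit 5) (nat_lit 2) (nat_lit 4) (nat_lit 391) (nat_lit 272) (nat_lit 237)) (XT.lf (nat_lit 0) (nat_lit 278120906219) (nat_lit 76) (nat_lit 428759722169) (nat_lit 76) (nat_lit 427435702468) (nat_lit 1) (nat_lit 4) (nat_lit 2) (nat_lit 5) (nat_lit 2) (nat_lit 4) (nat_lit 392) (nat_lit 272) (nat_lit 236)))) (XT.nd (nat_lit 156) (nat_lit 0) (nat_lit 0) (XT.nd (nat_lit 78) (nat_lit 0) (nat_lit 0) (XT.lf (nat_lit 0) (nat_lit 303514359142) (nat_lit 76) (nat_lit 461375897347) (nat_lit 76) (nat_lit 460045325374) (nat_lit 1) (nat_lit 4) (nat_lit 2) (nat_lit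 5) (nat_lit 2) (nat_lit 4) (nat_lit 393) (nat_lit 272) (nat_lit 235)) (XT.lf (nat_lit 0) (nat_lit 330914224424) (nat_lit 76) (nat_lit 496613896200) (nat_lit 76) (nat_lit 495277257308) (nat_lit 1) (nat_lit 4) (nat_lit 2) (nat_lit 5) (nat_lit 2) (nat_lit 4) (nat_lit 394) (nat_lit 272) (nat_lit 234))) (XT.nd (nat_lit 78) (nat_lit 0) (nat_lit 0) (XT.lf (nat_lit 0) (nat_lit 360482871638) (nat_lit 76) (nat_lit 534682536497) (nat_lit 76) (nat_lit 533340280088) (nat_lit 1) (nat_lit 4) (nat_lit 2) (nat_lit 5) (nat_lit 2) (nat_lit 4) (nat_lit 395) (nat_lit 272) (nat_lit 233)) (XT.nd (nat_lit 78) (nat_lit 0) (nat_lit 0) (XT.lf (nat_lit 0) (nat_lit 392395522395) (nat_lit 76) (nat_lit 575807410183) (nat_lit 76) (nat_lit 574459952369) (nat_lit 1) (nat_lit 4) (nat_lit 2) (nat_lit 5) (nat_lit 2) (nat_lit 4) (nat_lit 396) (nat_lit 272) (nat_lit 232)) (XT.lf (nat_lit 0) (nat_lit 426841288702) (nat_lit 76)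 (nat_lit 620232220211) (nat_lit 76) (nat_lit 618879946281) (nat_lit 1) (nat_lit 4) (nat_lit 2) (nat_lit 5) (nat_lit 2) (nat_lit 4) (nat_lit 397) (nat_lit 272) (nat_lit 231))))))) (XT.nd (nat_lit 624) (nat_lit 0) (nat_lit 0) (XT.nd (nat_lit 312) (nat_lit 0) (nat_lit 0) (XT.nd (nat_lit 156) (nat_lit 0) (nat_lit 0) (XT.nd (nat_lit 78) (nat_lit 0) (nat_lit 0) (XT.lf (nat_lit 0) (nat_lit 464024293616) (nat_lit 76) (nat_lit 668220224716) (nat_lit 76) (nat_lit 666863491420) (nat_lit 1) (nat_lit 4) (nat_lit 2) (nat_lit 5) (nat_lit 2) (nat_lit 4) (nat_lit 398) (nat_lit 272) (nat_lit 230)) (XT.lf (nat_lit 0) (nat_lit 504164880872) (nat_lit 76) (nat_lit 720055797057) (nat_lit 76) (nat_lit 718694934718) (nat_lit 1) (nat_lit 4) (nat_lit 2) (nat_lit 5) (nat_lit 2) (nat_lit 4) (nat_lit 399) (nat_lit 272) (nat_lit 229))) (XT.nd (nat_lit 78) (nat_lit 0) (nat_lit 0) (XT.lf (nat_lit 0) (nat_lit 547500920616)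 (nat_lit 76) (nat_lit 776046110996) (nat_lit 76) (nat_lit 774681425470) (nat_lit 1) (nat_lit 4) (nat_lit 2) (nat_lit 5) (nat_lit 2) (nat_lit 4) (nat_lit 400) (nat_lit 272) (nat_lit 228)) (XT.lf (nat_lit 0) (nat_lit 594289219009) (nat_lit 76) (nat_lit 836522960987) (nat_lit 76) (nat_lit 835154735472) (nat_lit 1) (nat_lit 4) (nat_lit 2) (nat_lit 5) (nat_lit 2) (nat_lit 4) (nat_lit 401) (nat_lit 272) (nat_lit 227)))) (XT.nd (nat_lit 156) (nat_lit 0) (nat_lit 0) (XT.nd (nat_lit 78) (nat_lit 0) (nat_lit 0) (XT.lf (nat_lit 0) (nat_lit 644807040042) (nat_lit 76) (nat_lit 901844728363) (nat_lit 76) (nat_lit 900473225080) (nat_lit 1) (nat_lit 4) (nat_lit 2) (nat_lit 5) (nat_lit 2) (nat_lit 4) (nat_lit 402) (nat_lit 272) (nat_lit 226)) (XT.lf (nat_lit 0) (nat_lit 699353748581) (nat_lit 76) (nat_lit 972398505078) (nat_lit 76) (nat_lit 971023966826) (nat_lit 1) (nat_lit 4) (nat_lit 2) (nat_lit 5)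 (nat_lit 2) (nat_lit 4) (nat_lit 403) (nat_lit 272) (nat_lit 225))) (XT.nd (nat_lit 78) (nat_lit 0) (nat_lit 0) (XT.lf (nat_lit 0) (nat_lit 758252584379) (nat_lit 76) (nat_lit 1048602387588) (nat_lit 76) (nat_lit 1047225039178) (nat_lit 1) (nat_lit 4) (nat_lit 2) (nat_lit 5) (nat_lit 2) (nat_lit 4) (nat_lit 404) (nat_lit 272) (nat_lit 224)) (XT.lf (nat_lit 0) (nat_lit 821852577574) (nat_lit 76) (nat_lit 1130907954454) (nat_lit 76) (nat_lit 1129528004047) (nat_lit 1) (nat_lit 4) (nat_lit 2) (nat_lit 5) (nat_lit 2) (nat_lit 4) (nat_lit 405) (nat_lit 272) (nat_lit 223))))) (XT.nd (nat_lit 312) (nat_lit 0) (nat_lit 0) (XT.nd (nat_lit 156) (nat_lit 0) (nat_lit 0) (XT.nd (nat_lit 78) (nat_lit 0) (nat_lit 0) (XT.lf (nat_lit 0) (nat_lit 890530617015) (nat_lit 76) (nat_lit 1219802942370) (nat_lit 76) (nat_lit 1218420582707) (nat_lit 1) (nat_lit 4) (nat_lit 2) (nat_lit 5) (nat_lit 2) (nat_lit 4)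 (nat_lit 406) (nat_lit 272) (nat_lit 222)) (XT.lf (nat_lit 0) (nat_lit 964693683678) (nat_lit 76) (nat_lit 1315814136450) (nat_lit 76) (nat_lit 1314429545993) (nat_lit 1) (nat_lit 4) (nat_lit 2) (nat_lit 5) (nat_lit 2) (nat_lit 4) (nat_lit 407) (nat_lit 272) (nat_lit 221))) (XT.nd (nat_lit 78) (nat_lit 0) (nat_lit 0) (XT.lf (nat_lit 0) (nat_lit 1044781262400) (nat_lit 76) (nat_lit 1419510491917) (nat_lit 76) (nat_lit 1418123835911) (nat_lit 1) (nat_lit 4) (nat_lit 2) (nat_lit 5) (nat_lit 2) (nat_lit 4) (nat_lit 408) (nat_lit 272) (nat_lit 220)) (XT.lf (nat_lit 0) (nat_lit 1131267946241) (nat_lit 76) (nat_lit 1531506505693) (nat_lit 76) (nat_lit 1530117937141) (nat_lit 1) (nat_lit 4) (nat_lit 2) (nat_lit 5) (nat_lit 2) (nat_lit 4) (nat_lit 409) (nat_lit 272) (nat_lit 219)))) (XT.nd (nat_lit 156) (nat_lit 0) (nat_lit 0) (XT.nd (nat_lit 78) (nat_lit 0) (nat_lit 0) (XT.lf (nat_lit 0) (nat_lit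 1224666248884) (nat_lit 76) (nat_lit 1652465857859) (nat_lit 76) (nat_lit 1651075518431) (nat_lit 1) (nat_lit 4) (nat_lit 2) (nat_lit 5) (nat_lit 2) (nat_lit 4) (nat_lit 410) (nat_lit 272) (nat_lit 218)) (XT.lf (nat_lit 0) (nat_lit 1325529641751) (nat_lit 76) (nat_lit 1783105344577) (nat_lit 76) (nat_lit 1781713365449) (nat_lit 1) (nat_lit 4) (nat_lit 2) (nat_lit 5) (nat_lit 2) (nat_lit 4) (nat_lit 411) (nat_lit 272) (nat_lit 217))) (XT.nd (nat_lit 78) (nat_lit 0) (nat_lit 0) (XT.lf (nat_lit 0) (nat_lit 1434455833836) (nat_lit 76) (nat_lit 1924199125767) (nat_lit 76) (nat_lit 1922805628399) (nat_lit 1) (nat_lit 4) (nat_lit 2) (nat_lit 5) (nat_lit 2) (nat_lit 4) (nat_lit 412) (nat_lit 272) (nat_lit 216)) (XT.nd (nat_lit 78) (nat_lit 0) (nat_lit 0) (XT.lf (nat_lit 0) (nat_lit 1552090313687) (nat_lit 76) (nat_lit 2076583312726) (nat_lit 76) (nat_lit 2075188409579) (nat_lit 1) (nat_lit 4)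 (nat_lit 2) (nat_lit 5) (nat_lit 2) (nat_lit 4) (nat_lit 413) (nat_lit 272) (nat_lit 215)) (XT.lf (nat_lit 0) (nat_lit 1679130174516) (nat_lit 76) (nat_lit 2241160922857) (nat_lit 76) (nat_lit 2239764718065) (nat_lit 1) (nat_lit 4) (nat_lit 2) (nat_lit 5) (nat_lit 2) (nat_lit 4) (nat_lit 414) (nat_lit 272) (nat_lit 214))))))))
noncomputable def xc27 : XT := (XT.nd (nat_lit 1326) (nat_lit 0) (nat_lit 0) (XT.nd (nat_lit 624) (nat_lit 76) (nat_lit 0) (XT.nd (nat_lit 312) (nat_lit 0) (nat_lit 0) (XT.nd (nat_lit 156) (nat_lit 0) (nat_lit 0) (XT.nd (nat_lit 78) (nat_lit 0) (nat_lit 0) (XT.lf (nat_lit 0) (nat_lit 1968683024) (nat_lit 152) (nat_lit 27935530093) (nat_lit 0) (nat_lit 1968683024) (nat_lit 2) (nat_lit 5) (nat_lit 4) (nat_lit 4) (nat_lit 2) (nat_lit 4) (nat_lit 354) (nat_lit 273) (nat_lit 273)) (XT.lf (nat_lit 0) (nat_lit 8350477199) (nat_lit 152) (nat_lit 51919093020) (nat_lit 0)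 (nat_lit 8237479169) (nat_lit 2) (nat_lit 5) (nat_lit 4) (nat_lit 4) (nat_lit 2) (nat_lit 4) (nat_lit 355) (nat_lit 273) (nat_lit 272))) (XT.nd (nat_lit 78) (nat_lit 0) (nat_lit 0) (XT.lf (nat_lit 0) (nat_lit 12910872304) (nat_lit 152) (nat_lit 48061588175) (nat_lit 0) (nat_lit 12693246468) (nat_lit 2) (nat_lit 5) (nat_lit 4) (nat_lit 4) (nat_lit 2) (nat_lit 4) (nat_lit 356) (nat_lit 273) (nat_lit 271)) (XT.lf (nat_lit 0) (nat_lit 17645575926) (nat_lit 152) (nat_lit 44275686361) (nat_lit 0) (nat_lit 17331072493) (nat_lit 2) (nat_lit 5) (nat_lit 4) (nat_lit 4) (nat_lit 2) (nat_lit 4) (nat_lit 357) (nat_lit 273) (nat_lit 270)))) (XT.nd (nat_lit 156) (nat_lit 0) (nat_lit 0) (XT.nd (nat_lit 78) (nat_lit 0) (nat_lit 0) (XT.lf (nat_lit 0) (nat_lit 22582645570) (nat_lit 152) (nat_lit 40538952606) (nat_lit 0) (nat_lit 22178440657) (nat_lit 2) (nat_lit 5) (nat_lit 4) (nat_lit 4) (nat_lit 2) (nat_lit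 4) (nat_lit 358) (nat_lit 273) (nat_lit 269)) (XT.lf (nat_lit 0) (nat_lit 27751337942) (nat_lit 152) (nat_lit 36829243302) (nat_lit 0) (nat_lit 27264076105) (nat_lit 2) (nat_lit 5) (nat_lit 4) (nat_lit 4) (nat_lit 2) (nat_lit 4) (nat_lit 359) (nat_lit 273) (nat_lit 268))) (XT.nd (nat_lit 78) (nat_lit 0) (nat_lit 0) (XT.lf (nat_lit 0) (nat_lit 33182282333) (nat_lit 152) (nat_lit 33124574986) (nat_lit 0) (nat_lit 32618115934) (nat_lit 2) (nat_lit 5) (nat_lit 4) (nat_lit 4) (nat_lit 2) (nat_lit 4) (nat_lit 360) (nat_lit 273) (nat_lit 267)) (XT.lf (nat_lit 0) (nat_lit 38907662115) (nat_lit 152) (nat_lit 29402994069) (nat_lit 0) (nat_lit 38272287790) (nat_lit 2) (nat_lit 5) (nat_lit 4) (nat_lit 4) (nat_lit 2) (nat_lit 4) (nat_lit 361) (nat_lit 273) (nat_lit 266))))) (XT.nd (nat_lit 312) (nat_lit 76) (nat_lit 0) (XT.nd (nat_lit 156) (nat_lit 0) (nat_lit 0) (XT.nd (nat_lit 78) (nat_lit 0) (nat_lit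 0) (XT.lf (nat_lit 0) (nat_lit 44961405465) (nat_lit 152) (nat_lit 25642446738) (nat_lit 0) (nat_lit 44260097876) (nat_lit 2) (nat_lit 5) (nat_lit 4) (nat_lit 4) (nat_lit 2) (nat_lit 4) (nat_lit 362) (nat_lit 273) (nat_lit 265)) (XT.lf (nat_lit 0) (nat_lit 51379386419) (nat_lit 152) (nat_lit 21820648267) (nat_lit 0) (nat_lit 50617029510) (nat_lit 2) (nat_lit 5) (nat_lit 4) (nat_lit 4) (nat_lit 2) (nat_lit 4) (nat_lit 363) (nat_lit 273) (nat_lit 264))) (XT.nd (nat_lit 78) (nat_lit 0) (nat_lit 0) (XT.lf (nat_lit 0) (nat_lit 58199637455) (nat_lit 152) (nat_lit 17914950962) (nat_lit 0) (nat_lit 57380753398) (nat_lit 2) (nat_lit 5) (nat_lit 4) (nat_lit 4) (nat_lit 2) (nat_lit 4) (nat_lit 364) (nat_lit 273) (nat_lit 263)) (XT.lf (nat_lit 0) (nat_lit 65462574876) (nat_lit 152) (nat_lit 13902209950) (nat_lit 0) (nat_lit 64591350868) (nat_lit 2) (nat_lit 5) (nat_lit 4) (nat_lit 4) (nat_lit 2) (nat_lit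 4) (nat_lit 365) (nat_lit 273) (nat_lit 262)))) (XT.nd (nat_lit 156) (nat_lit 76) (nat_lit 0) (XT.nd (nat_lit 78) (nat_lit 0) (nat_lit 0) (XT.lf (nat_lit 0) (nat_lit 73211238312) (nat_lit 152) (nat_lit 9758646026) (nat_lit 0) (nat_lit 72291551385) (nat_lit 2) (nat_lit 5) (nat_lit 4) (nat_lit 4) (nat_lit 2) (nat_lit 4) (nat_lit 366) (nat_lit 273) (nat_lit 261)) (XT.lf (nat_lit 0) (nat_lit 81491545768) (nat_lit 152) (nat_lit 5459704735) (nat_lit 0) (nat_lit 80526985769) (nat_lit 2) (nat_lit 5) (nat_lit 4) (nat_lit 4) (nat_lit 2) (nat_lit 4) (nat_lit 367) (nat_lit 273) (nat_lit 260))) (XT.nd (nat_lit 78) (nat_lit 76) (nat_lit 0) (XT.lf (nat_lit 0) (nat_lit 90352565732) (nat_lit 152) (nat_lit 979910871) (nat_lit 0) (nat_lit 89346456592) (nat_lit 2) (nat_lit 5) (nat_lit 4) (nat_lit 4) (nat_lit 2) (nat_lit 4) (nat_lit 368) (nat_lit 273) (nat_lit 259)) (XT.nd (nat_lit 78) (nat_lit 0) (nat_lit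 0) (XT.lf (nat_lit 0) (nat_lit 3902501418) (nat_lit 76) (nat_lit 96038161787) (nat_lit 76) (nat_lit 94993581220) (nat_lit 1) (nat_lit 4) (nat_lit 2) (nat_lit 5) (nat_lit 2) (nat_lit 4) (nat_lit 369) (nat_lit 273) (nat_lit 258)) (XT.lf (nat_lit 0) (nat_lit 9084073461) (nat_lit 76) (nat_lit 101164933329) (nat_lit 76) (nat_lit 100084731070) (nat_lit 1) (nat_lit 4) (nat_lit 2) (nat_lit 5) (nat_lit 2) (nat_lit 4) (nat_lit 370) (nat_lit 273) (nat_lit 257))))))) (XT.nd (nat_lit 702) (nat_lit 0) (nat_lit 0) (XT.nd (nat_lit 312) (nat_lit 0) (nat_lit 0) (XT.nd (nat_lit 156) (nat_lit 0) (nat_lit 0) (XT.nd (nat_lit 78) (nat_lit 0) (nat_lit 0) (XT.lf (nat_lit 0) (nat_lit 14543910501) (nat_lit 76) (nat_lit 106769964597) (nat_lit 76) (nat_lit 105656779290) (nat_lit 1) (nat_lit 4) (nat_lit 2) (nat_lit 5) (nat_lit 2) (nat_lit 4) (nat_lit 371) (nat_lit 273) (nat_lit 256)) (XT.lf (nat_lit 0) (nat_lit 20314367126)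 (nat_lit 76) (nat_lit 112886470591) (nat_lit 76) (nat_lit 111742745426) (nat_lit 1) (nat_lit 4) (nat_lit 2) (nat_lit 5) (nat_lit 2) (nat_lit 4) (nat_lit 372) (nat_lit 273) (nat_lit 255))) (XT.nd (nat_lit 78) (nat_lit 0) (nat_lit 0) (XT.lf (nat_lit 0) (nat_lit 26429638635) (nat_lit 76) (nat_lit 119550697274) (nat_lit 76) (nat_lit 118378694461) (nat_lit 1) (nat_lit 4) (nat_lit 2) (nat_lit 5) (nat_lit 2) (nat_lit 4) (nat_lit 373) (nat_lit 273) (nat_lit 254)) (XT.lf (nat_lit 0) (nat_lit 32925963675) (nat_lit 76) (nat_lit 126802136358) (nat_lit 76) (nat_lit 125603950538) (nat_lit 1) (nat_lit 4) (nat_lit 2) (nat_lit 5) (nat_lit 2) (nat_lit 4) (nat_lit 374) (nat_lit 273) (nat_lit 253)))) (XT.nd (nat_lit 156) (nat_lit 0) (nat_lit 0) (XT.nd (nat_lit 78) (nat_lit 0) (nat_lit 0) (XT.lf (nat_lit 0) (nat_lit 39841838985) (nat_lit 76) (nat_lit 134683759334) (nat_lit 76) (nat_lit 133461329990) (nat_lit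 1) (nat_lit 4) (nat_lit 2) (nat_lit 5) (nat_lit 2) (nat_lit 4) (nat_lit 375) (nat_lit 273) (nat_lit 252)) (XT.lf (nat_lit 0) (nat_lit 47218247532) (nat_lit 76) (nat_lit 143242272117) (nat_lit 76) (nat_lit 141997395065) (nat_lit 1) (nat_lit 4) (nat_lit 2) (nat_lit 5) (nat_lit 2) (nat_lit 4) (nat_lit 376) (nat_lit 273) (nat_lit 251))) (XT.nd (nat_lit 78) (nat_lit 0) (nat_lit 0) (XT.lf (nat_lit 0) (nat_lit 55098901365) (nat_lit 76) (nat_lit 152528391819) (nat_lit 76) (nat_lit 151262729852) (nat_lit 1) (nat_lit 4) (nat_lit 2) (nat_lit 5) (nat_lit 2) (nat_lit 4) (nat_lit 377) (nat_lit 273) (nat_lit 250)) (XT.nd (nat_lit 78) (nat_lit 0) (nat_lit 0) (XT.lf (nat_lit 0) (nat_lit 63530500656) (nat_lit 76) (nat_lit 162597147298) (nat_lit 76) (nat_lit 161312240039) (nat_lit 1) (nat_lit 4) (nat_lit 2) (nat_lit 5) (nat_lit 2) (nat_lit 4) (nat_lit 378) (nat_lit 273) (nat_lit 249)) (XT.lf (nat_lit 0)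 (nat_lit 72563010436) (nat_lit 76) (nat_lit 173508205253) (nat_lit 76) (nat_lit 172205478280) (nat_lit 1) (nat_lit 4) (nat_lit 2) (nat_lit 5) (nat_lit 2) (nat_lit 4) (nat_lit 379) (nat_lit 273) (nat_lit 248)))))) (XT.nd (nat_lit 312) (nat_lit 0) (nat_lit 0) (XT.nd (nat_lit 156) (nat_lit 0) (nat_lit 0) (XT.nd (nat_lit 78) (nat_lit 0) (nat_lit 0) (XT.lf (nat_lit 0) (nat_lit 82249956691) (nat_lit 76) (nat_lit 185326223805) (nat_lit 76) (nat_lit 184006997096) (nat_lit 1) (nat_lit 4) (nat_lit 2) (nat_lit 5) (nat_lit 2) (nat_lit 4) (nat_lit 380) (nat_lit 273) (nat_lit 247)) (XT.lf (nat_lit 0) (nat_lit 92648743547) (nat_lit 76) (nat_lit 198121235656) (nat_lit 76) (nat_lit 196786731414) (nat_lit 1) (nat_lit 4) (nat_lit 2) (nat_lit 5) (nat_lit 2) (nat_lit 4) (nat_lit 381) (nat_lit 273) (nat_lit 246))) (XT.nd (nat_lit 78) (nat_lit 0) (nat_lit 0) (XT.lf (nat_lit 0) (nat_lit 103820993442) (nat_lit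 76) (nat_lit 211969063100) (nat_lit 76) (nat_lit 210620412994) (nat_lit 1) (nat_lit 4) (nat_lit 2) (nat_lit 5) (nat_lit 2) (nat_lit 4) (nat_lit 382) (nat_lit 273) (nat_lit 245)) (XT.lf (nat_lit 0) (nat_lit 115832912304) (nat_lit 76) (nat_lit 226951767335) (nat_lit 76) (nat_lit 225590019207) (nat_lit 1) (nat_lit 4) (nat_lit 2) (nat_lit 5) (nat_lit 2) (nat_lit 4) (nat_lit 383) (nat_lit 273) (nat_lit 244)))) (XT.nd (nat_lit 156) (nat_lit 0) (nat_lit 0) (XT.nd (nat_lit 78) (nat_lit 0) (nat_lit 0) (XT.lf (nat_lit 0) (nat_lit 128755681874) (nat_lit 76) (nat_lit 243158134757) (nat_lit 76) (nat_lit 241784258831) (nat_lit 1) (nat_lit 4) (nat_lit 2) (nat_lit 5) (nat_lit 2) (nat_lit 4) (nat_lit 384) (nat_lit 273) (nat_lit 243)) (XT.lf (nat_lit 0) (nat_lit 142665881526) (nat_lit 76) (nat_lit 260684203099) (nat_lit 76) (nat_lit 259299097731) (nat_lit 1) (nat_lit 4) (nat_lit 2) (nat_lit 5) (nat_lit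 2) (nat_lit 4) (nat_lit 385) (nat_lit 273) (nat_lit 242))) (XT.nd (nat_lit 78) (nat_lit 0) (nat_lit 0) (XT.lf (nat_lit 0) (nat_lit 157645942073) (nat_lit 76) (nat_lit 279633830545) (nat_lit 76) (nat_lit 278238327543) (nat_lit 1) (nat_lit 4) (nat_lit 2) (nat_lit 5) (nat_lit 2) (nat_lit 4) (nat_lit 386) (nat_lit 273) (nat_lit 241)) (XT.nd (nat_lit 78) (nat_lit 0) (nat_lit 0) (XT.lf (nat_lit 0) (nat_lit 173784634245) (nat_lit 76) (nat_lit 300119311181) (nat_lit 76) (nat_lit 298714180743) (nat_lit 1) (nat_lit 4) (nat_lit 2) (nat_lit 5) (nat_lit 2) (nat_lit 4) (nat_lit 387) (nat_lit 273) (nat_lit 240)) (XT.lf (nat_lit 0) (nat_lit 191177594737) (nat_lit 76) (nat_lit 322262040450) (nat_lit 76) (nat_lit 320847995718) (nat_lit 1) (nat_lit 4) (nat_lit 2) (nat_lit 5) (nat_lit 2) (nat_lit 4) (nat_lit 388) (nat_lit 273) (nat_lit 239))))))))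
noncomputable def xc28 : XT := (XT.nd (nat_lit 1326) (nat_lit 0) (nat_lit 0) (XT.nd (nat_lit 624) (nat_lit 0) (nat_lit 0) (XT.nd (nat_lit 312) (nat_lit 0) (nat_lit 0) (XT.nd (nat_lit 156) (nat_lit 0) (nat_lit 0) (XT.nd (nat_lit 78) (nat_lit 0) (nat_lit 0) (XT.lf (nat_lit 0) (nat_lit 209927892942) (nat_lit 76) (nat_lit 346193234524) (nat_lit 76) (nat_lit 344770935816) (nat_lit 1) (nat_lit 4) (nat_lit 2) (nat_lit 5) (nat_lit 2) (nat_lit 4) (nat_lit 389) (nat_lit 273) (nat_lit 238)) (XT.lf (nat_lit 0) (nat_lit 230146641740) (nat_lit 76) (nat_lit 372054707887) (nat_lit 76) (nat_lit 370624766610) (nat_lit 1) (nat_lit 4) (nat_lit 2) (nat_lit 5) (nat_lit 2) (nat_lit 4) (nat_lit 390) (nat_lit 273) (nat_lit 237))) (XT.nd (nat_lit 78) (nat_lit 0) (nat_lit 0) (XT.lf (nat_lit 0) (nat_lit 251953655939) (nat_lit 76) (nat_lit 399999713715) (nat_lit 76) (nat_lit 398562695984) (nat_lit 1) (nat_lit 4) (nat_lit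 2) (nat_lit 5) (nat_lit 2) (nat_lit 4) (nat_lit 391) (nat_lit 273) (nat_lit 236)) (XT.lf (nat_lit 0) (nat_lit 275478162289) (nat_lit 76) (nat_lit 430193852042) (nat_lit 76) (nat_lit 428750282038) (nat_lit 1) (nat_lit 4) (nat_lit 2) (nat_lit 5) (nat_lit 2) (nat_lit 4) (nat_lit 392) (nat_lit 273) (nat_lit 235)))) (XT.nd (nat_lit 156) (nat_lit 0) (nat_lit 0) (XT.nd (nat_lit 78) (nat_lit 0) (nat_lit 0) (XT.lf (nat_lit 0) (nat_lit 300859565272) (nat_lit 76) (nat_lit 462816051095) (nat_lit 76) (nat_lit 461366414173) (nat_lit 1) (nat_lit 4) (nat_lit 2) (nat_lit 5) (nat_lit 2) (nat_lit 4) (nat_lit 393) (nat_lit 273) (nat_lit 234)) (XT.lf (nat_lit 0) (nat_lit 328248273203) (nat_lit 76) (nat_lit 498059627609) (nat_lit 76) (nat_lit 496604373170) (nat_lit 1) (nat_lit 4) (nat_lit 2) (nat_lit 5) (nat_lit 2) (nat_lit 4) (nat_lit 394) (nat_lit 273) (nat_lit 233))) (XT.nd (nat_lit 78) (nat_lit 0) (nat_lit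 0) (XT.lf (nat_lit 0) (nat_lit 357806589535) (nat_lit 76) (nat_lit 536133432409) (nat_lit 76) (nat_lit 534672976565) (nat_lit 1) (nat_lit 4) (nat_lit 2) (nat_lit 5) (nat_lit 2) (nat_lit 4) (nat_lit 395) (nat_lit 273) (nat_lit 232)) (XT.lf (nat_lit 0) (nat_lit 389709674662) (nat_lit 76) (nat_lit 577263088040) (nat_lit 76) (nat_lit 575797816081) (nat_lit 1) (nat_lit 4) (nat_lit 2) (nat_lit 5) (nat_lit 2) (nat_lit 4) (nat_lit 396) (nat_lit 273) (nat_lit 231))))) (XT.nd (nat_lit 312) (nat_lit 0) (nat_lit 0) (XT.nd (nat_lit 156) (nat_lit 0) (nat_lit 0) (XT.nd (nat_lit 78) (nat_lit 0) (nat_lit 0) (XT.lf (nat_lit 0) (nat_lit 424146583903) (nat_lit 76) (nat_lit 621692325797) (nat_lit 76) (nat_lit 620222594471) (nat_lit 1) (nat_lit 4) (nat_lit 2) (nat_lit 5) (nat_lit 2) (nat_lit 4) (nat_lit 397) (nat_lit 273) (nat_lit 230)) (XT.lf (nat_lit 0) (nat_lit 461321387831) (nat_lit 76) (nat_lit 669684430049)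 (nat_lit 76) (nat_lit 668210569681) (nat_lit 1) (nat_lit 4) (nat_lit 2) (nat_lit 5) (nat_lit 2) (nat_lit 4) (nat_lit 398) (nat_lit 273) (nat_lit 229))) (XT.nd (nat_lit 78) (nat_lit 0) (nat_lit 0) (XT.lf (nat_lit 0) (nat_lit 501454381581) (nat_lit 76) (nat_lit 721523798454) (nat_lit 76) (nat_lit 720046114897) (nat_lit 1) (nat_lit 4) (nat_lit 2) (nat_lit 5) (nat_lit 2) (nat_lit 4) (nat_lit 399) (nat_lit 273) (nat_lit 228)) (XT.lf (nat_lit 0) (nat_lit 544783390301) (nat_lit 76) (nat_lit 777517627266) (nat_lit 76) (nat_lit 776036403721) (nat_lit 1) (nat_lit 4) (nat_lit 2) (nat_lit 5) (nat_lit 2) (nat_lit 4) (nat_lit 400) (nat_lit 273) (nat_lit 227)))) (XT.nd (nat_lit 156) (nat_lit 0) (nat_lit 0) (XT.nd (nat_lit 78) (nat_lit 0) (nat_lit 0) (XT.lf (nat_lit 0) (nat_lit 591565178486) (nat_lit 76) (nat_lit 837997731770) (nat_lit 76) (nat_lit 836513230457) (nat_lit 1) (nat_lit 4) (nat_lit 2) (nat_lit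 5) (nat_lit 2) (nat_lit 4) (nat_lit 401) (nat_lit 273) (nat_lit 226)) (XT.lf (nat_lit 0) (nat_lit 642076971549) (nat_lit 76) (nat_lit 903322512582) (nat_lit 76) (nat_lit 901834976300) (nat_lit 1) (nat_lit 4) (nat_lit 2) (nat_lit 5) (nat_lit 2) (nat_lit 4) (nat_lit 402) (nat_lit 273) (nat_lit 225))) (XT.nd (nat_lit 78) (nat_lit 0) (nat_lit 0) (XT.lf (nat_lit 0) (nat_lit 696618098634) (nat_lit 76) (nat_lit 973879079517) (nat_lit 76) (nat_lit 972388733078) (nat_lit 1) (nat_lit 4) (nat_lit 2) (nat_lit 5) (nat_lit 2) (nat_lit 4) (nat_lit 403) (nat_lit 273) (nat_lit 224)) (XT.nd (nat_lit 78) (nat_lit 0) (nat_lit 0) (XT.lf (nat_lit 0) (nat_lit 755511766419) (nat_lit 76) (nat_lit 1050085545564) (nat_lit 76) (nat_lit 1048592597127) (nat_lit 1) (nat_lit 4) (nat_lit 2) (nat_lit 5) (nat_lit 2) (nat_lit 4) (nat_lit 404) (nat_lit 273) (nat_lit 223)) (XT.lf (nat_lit 0) (nat_lit 819106974418) (nat_lit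 76) (nat_lit 1132393504594) (nat_lit 76) (nat_lit 1130898146900) (nat_lit 1) (nat_lit 4) (nat_lit 2) (nat_lit 5) (nat_lit 2) (nat_lit 4) (nat_lit 405) (nat_lit 273) (nat_lit 222))))))) (XT.nd (nat_lit 624) (nat_lit 0) (nat_lit 0) (XT.nd (nat_lit 312) (nat_lit 0) (nat_lit 0) (XT.nd (nat_lit 156) (nat_lit 0) (nat_lit 0) (XT.nd (nat_lit 78) (nat_lit 0) (nat_lit 0) (XT.lf (nat_lit 0) (nat_lit 887780583121) (nat_lit 76) (nat_lit 1221290707476) (nat_lit 76) (nat_lit 1219793118990) (nat_lit 1) (nat_lit 4) (nat_lit 2) (nat_lit 5) (nat_lit 2) (nat_lit 4) (nat_lit 406) (nat_lit 273) (nat_lit 221)) (XT.lf (nat_lit 0) (nat_lit 961939547249) (nat_lit 76) (nat_lit 1317303952451) (nat_lit 76) (nat_lit 1315804298415) (nat_lit 1) (nat_lit 4) (nat_lit 2) (nat_lit 5) (nat_lit 2) (nat_lit 4) (nat_lit 407) (nat_lit 273) (nat_lit 220))) (XT.nd (nat_lit 78) (nat_lit 0) (nat_lit 0) (XT.lf (nat_lit 0) (nat_lit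 1042023327327) (nat_lit 76) (nat_lit 1421002206894) (nat_lit 76) (nat_lit 1419500640312) (nat_lit 1) (nat_lit 4) (nat_lit 2) (nat_lit 5) (nat_lit 2) (nat_lit 4) (nat_lit 408) (nat_lit 273) (nat_lit 219)) (XT.lf (nat_lit 0) (nat_lit 1128506493906) (nat_lit 76) (nat_lit 1532999978982) (nat_lit 76) (nat_lit 1531496641524) (nat_lit 1) (nat_lit 4) (nat_lit 2) (nat_lit 5) (nat_lit 2) (nat_lit 4) (nat_lit 409) (nat_lit 273) (nat_lit 218)))) (XT.nd (nat_lit 156) (nat_lit 0) (nat_lit 0) (XT.nd (nat_lit 78) (nat_lit 0) (nat_lit 0) (XT.lf (nat_lit 0) (nat_lit 1221901539824) (nat_lit 76) (nat_lit 1653960959215) (nat_lit 76) (nat_lit 1652455982057) (nat_lit 1) (nat_lit 4) (nat_lit 2) (nat_lit 5) (nat_lit 2) (nat_lit 4) (nat_lit 410) (nat_lit 273) (nat_lit 217)) (XT.lf (nat_lit 0) (nat_lit 1322761917205) (nat_lit 76) (nat_lit 1784601953401) (nat_lit 76) (nat_lit 1783095458003) (nat_lit 1) (nat_lit 4)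 (nat_lit 2) (nat_lit 5) (nat_lit 2) (nat_lit 4) (nat_lit 411) (nat_lit 273) (nat_lit 216))) (XT.nd (nat_lit 78) (nat_lit 0) (nat_lit 0) (XT.lf (nat_lit 0) (nat_lit 1431685317175) (nat_lit 76) (nat_lit 1925697130396) (nat_lit 76) (nat_lit 1924189229220) (nat_lit 1) (nat_lit 4) (nat_lit 2) (nat_lit 5) (nat_lit 2) (nat_lit 4) (nat_lit 412) (nat_lit 273) (nat_lit 215)) (XT.lf (nat_lit 0) (nat_lit 1549317211732) (nat_lit 76) (nat_lit 2078082609766) (nat_lit 76) (nat_lit 2076573406943) (nat_lit 1) (nat_lit 4) (nat_lit 2) (nat_lit 5) (nat_lit 2) (nat_lit 4) (nat_lit 413) (nat_lit 273) (nat_lit 214))))) (XT.nd (nat_lit 42276) (nat_lit 0) (nat_lit 76) (XT.nd (nat_lit 42120) (nat_lit 0) (nat_lit 76) (XT.nd (nat_lit 42042) (nat_lit 0) (nat_lit 228) (XT.lf (nat_lit 0) (nat_lit 1676354678772) (nat_lit 76) (nat_lit 2242661416575) (nat_lit 76) (nat_lit 2241151008524) (nat_lit 1) (nat_lit 4) (nat_lit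 2) (nat_lit 5) (nat_lit 2) (nat_lit 4) (nat_lit 414) (nat_lit 273) (nat_lit 213)) (XT.lf (nat_lit 0) (nat_lit 23426685029) (nat_lit 76) (nat_lit 2102133690) (nat_lit 76) (nat_lit 2102133690) (nat_lit 4) (nat_lit 4) (nat_lit 5) (nat_lit 5) (nat_lit 5) (nat_lit 4) (nat_lit 352) (nat_lit 274) (nat_lit 274))) (XT.nd (nat_lit 78) (nat_lit 152) (nat_lit 0) (XT.lf (nat_lit 0) (nat_lit 58779107935) (nat_lit 76) (nat_lit 352061674) (nat_lit 76) (nat_lit 220260772) (nat_lit 4) (nat_lit 4) (nat_lit 5) (nat_lit 5) (nat_lit 5) (nat_lit 4) (nat_lit 353) (nat_lit 274) (nat_lit 273)) (XT.lf (nat_lit 0) (nat_lit 3952564433) (nat_lit 152) (nat_lit 56084266565) (nat_lit 0) (nat_lit 3717528531) (nat_lit 2) (nat_lit 5) (nat_lit 4) (nat_lit 4) (nat_lit 2) (nat_lit 4) (nat_lit 354) (nat_lit 274) (nat_lit 272)))) (XT.nd (nat_lit 156) (nat_lit 0) (nat_lit 0) (XT.nd (nat_lit 78) (nat_lit 0) (nat_lit 0) (XT.lf (nat_lit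 0) (nat_lit 8266750133) (nat_lit 152) (nat_lit 52329712714) (nat_lit 0) (nat_lit 7927086425) (nat_lit 2) (nat_lit 5) (nat_lit 4) (nat_lit 4) (nat_lit 2) (nat_lit 4) (nat_lit 355) (nat_lit 274) (nat_lit 271)) (XT.lf (nat_lit 0) (nat_lit 12735547598) (nat_lit 152) (nat_lit 48654997974) (nat_lit 0) (nat_lit 12299006293) (nat_lit 2) (nat_lit 5) (nat_lit 4) (nat_lit 4) (nat_lit 2) (nat_lit 4) (nat_lit 356) (nat_lit 274) (nat_lit 270))) (XT.nd (nat_lit 78) (nat_lit 0) (nat_lit 0) (XT.lf (nat_lit 0) (nat_lit 17385438591) (nat_lit 152) (nat_lit 45038346258) (nat_lit 0) (nat_lit 16859195807) (nat_lit 2) (nat_lit 5) (nat_lit 4) (nat_lit 4) (nat_lit 2) (nat_lit 4) (nat_lit 357) (nat_lit 274) (nat_lit 269)) (XT.nd (nat_lit 78) (nat_lit 0) (nat_lit 0) (XT.lf (nat_lit 0) (nat_lit 22243978022) (nat_lit 152) (nat_lit 41458325557) (nat_lit 0) (nat_lit 21634678312) (nat_lit 2) (nat_lit 5) (nat_lit 4) (nat_lit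 4) (nat_lit 2) (nat_lit 4) (nat_lit 358) (nat_lit 274) (nat_lit 268)) (XT.lf (nat_lit 0) (nat_lit 27339957235) (nat_lit 152) (nat_lit 37893720932) (nat_lit 0) (nat_lit 26653752965) (nat_lit 2) (nat_lit 5) (nat_lit 4) (nat_lit 4) (nat_lit 2) (nat_lit 4) (nat_lit 359) (nat_lit 274) (nat_lit 267))))))))
noncomputable def xc29 : XT := (XT.nd (nat_lit 1326) (nat_lit 0) (nat_lit 0) (XT.nd (nat_lit 624) (nat_lit 76) (nat_lit 0) (XT.nd (nat_lit 312) (nat_lit 0) (nat_lit 0) (XT.nd (nat_lit 156) (nat_lit 0) (nat_lit 0) (XT.nd (nat_lit 78) (nat_lit 0) (nat_lit 0) (XT.lf (nat_lit 0) (nat_lit 32703574626) (nat_lit 152) (nat_lit 34323408801) (nat_lit 0) (nat_lit 31946162429) (nat_lit 2) (nat_lit 5) (nat_lit 4) (nat_lit 4) (nat_lit 2) (nat_lit 4) (nat_lit 360) (nat_lit 274) (nat_lit 266)) (XT.lf (nat_lit 0) (nat_lit 38366614593) (nat_lit 152) (nat_lit 30726231758) (nat_lit 0) (nat_lit 37543269131) (nat_lit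 2) (nat_lit 5) (nat_lit 4) (nat_lit 4) (nat_lit 2) (nat_lit 4) (nat_lit 361) (nat_lit 274) (nat_lit 265))) (XT.nd (nat_lit 78) (nat_lit 0) (nat_lit 0) (XT.lf (nat_lit 0) (nat_lit 44362635893) (nat_lit 152) (nat_lit 27080873199) (nat_lit 0) (nat_lit 43478241112) (nat_lit 2) (nat_lit 5) (nat_lit 4) (nat_lit 4) (nat_lit 2) (nat_lit 4) (nat_lit 362) (nat_lit 274) (nat_lit 264)) (XT.lf (nat_lit 0) (nat_lit 50727170504) (nat_lit 152) (nat_lit 23365730999) (nat_lit 0) (nat_lit 49786248575) (nat_lit 2) (nat_lit 5) (nat_lit 4) (nat_lit 4) (nat_lit 2) (nat_lit 4) (nat_lit 363) (nat_lit 274) (nat_lit 263)))) (XT.nd (nat_lit 156) (nat_lit 0) (nat_lit 0) (XT.nd (nat_lit 78) (nat_lit 0) (nat_lit 0) (XT.lf (nat_lit 0) (nat_lit 57497934185) (nat_lit 152) (nat_lit 19558789501) (nat_lit 0) (nat_lit 56504672304) (nat_lit 2) (nat_lit 5) (nat_lit 4) (nat_lit 4) (nat_lit 2) (nat_lit 4) (nat_lit 364) (nat_lit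 274) (nat_lit 262)) (XT.lf (nat_lit 0) (nat_lit 64715049982) (nat_lit 152) (nat_lit 15637489051) (nat_lit 0) (nat_lit 63673325183) (nat_lit 2) (nat_lit 5) (nat_lit 4) (nat_lit 4) (nat_lit 2) (nat_lit 4) (nat_lit 365) (nat_lit 274) (nat_lit 261))) (XT.nd (nat_lit 78) (nat_lit 0) (nat_lit 0) (XT.lf (nat_lit 0) (nat_lit 72421285987) (nat_lit 152) (nat_lit 11578592313) (nat_lit 0) (nat_lit 71334688116) (nat_lit 2) (nat_lit 5) (nat_lit 4) (nat_lit 4) (nat_lit 2) (nat_lit 4) (nat_lit 366) (nat_lit 274) (nat_lit 260)) (XT.lf (nat_lit 0) (nat_lit 80662308785) (nat_lit 152) (nat_lit 7358046565) (nat_lit 0) (nat_lit 79534161773) (nat_lit 2) (nat_lit 5) (nat_lit 4) (nat_lit 4) (nat_lit 2) (nat_lit 4) (nat_lit 367) (nat_lit 274) (nat_lit 259))))) (XT.nd (nat_lit 312) (nat_lit 0) (nat_lit 0) (XT.nd (nat_lit 156) (nat_lit 0) (nat_lit 0) (XT.nd (nat_lit 78) (nat_lit 76) (nat_lit 0) (XT.lf (nat_lit 0)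 (nat_lit 89486954066) (nat_lit 152) (nat_lit 2950841167) (nat_lit 0) (nat_lit 88320335627) (nat_lit 2) (nat_lit 5) (nat_lit 4) (nat_lit 4) (nat_lit 2) (nat_lit 4) (nat_lit 368) (nat_lit 274) (nat_lit 258)) (XT.lf (nat_lit 0) (nat_lit 1757034642) (nat_lit 76) (nat_lit 97232738108) (nat_lit 76) (nat_lit 96030497977) (nat_lit 1) (nat_lit 4) (nat_lit 2) (nat_lit 5) (nat_lit 2) (nat_lit 4) (nat_lit 369) (nat_lit 274) (nat_lit 257))) (XT.nd (nat_lit 78) (nat_lit 0) (nat_lit 0) (XT.lf (nat_lit 0) (nat_lit 6873096701) (nat_lit 76) (nat_lit 102392258689) (nat_lit 76) (nat_lit 101157035511) (nat_lit 1) (nat_lit 4) (nat_lit 2) (nat_lit 5) (nat_lit 2) (nat_lit 4) (nat_lit 370) (nat_lit 274) (nat_lit 256)) (XT.lf (nat_lit 0) (nat_lit 12272276347) (nat_lit 76) (nat_lit 108027613143) (nat_lit 76) (nat_lit 106761850105) (nat_lit 1) (nat_lit 4) (nat_lit 2) (nat_lit 5) (nat_lit 2) (nat_lit 4) (nat_lit 371)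 (nat_lit 274) (nat_lit 255)))) (XT.nd (nat_lit 156) (nat_lit 0) (nat_lit 0) (XT.nd (nat_lit 78) (nat_lit 0) (nat_lit 0) (XT.lf (nat_lit 0) (nat_lit 17986568720) (nat_lit 76) (nat_lit 114172196160) (nat_lit 76) (nat_lit 112878155475) (nat_lit 1) (nat_lit 4) (nat_lit 2) (nat_lit 5) (nat_lit 2) (nat_lit 4) (nat_lit 372) (nat_lit 274) (nat_lit 254)) (XT.lf (nat_lit 0) (nat_lit 24049836291) (nat_lit 76) (nat_lit 120862420087) (nat_lit 76) (nat_lit 119542196395) (nat_lit 1) (nat_lit 4) (nat_lit 2) (nat_lit 5) (nat_lit 2) (nat_lit 4) (nat_lit 373) (nat_lit 274) (nat_lit 253))) (XT.nd (nat_lit 78) (nat_lit 0) (nat_lit 0) (XT.lf (nat_lit 0) (nat_lit 30498009536) (nat_lit 76) (nat_lit 128137930693) (nat_lit 76) (nat_lit 126793463476) (nat_lit 1) (nat_lit 4) (nat_lit 2) (nat_lit 5) (nat_lit 2) (nat_lit 4) (nat_lit 374) (nat_lit 274) (nat_lit 252)) (XT.nd (nat_lit 78) (nat_lit 0) (nat_lit 0) (XT.lf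 (nat_lit 0) (nat_lit 37369299852) (nat_lit 76) (nat_lit 136041842116) (nat_lit 76) (nat_lit 134674927191) (nat_lit 1) (nat_lit 4) (nat_lit 2) (nat_lit 5) (nat_lit 2) (nat_lit 4) (nat_lit 375) (nat_lit 274) (nat_lit 251)) (XT.lf (nat_lit 0) (nat_lit 44704425996) (nat_lit 76) (nat_lit 144620992349) (nat_lit 76) (nat_lit 143233292509) (nat_lit 1) (nat_lit 4) (nat_lit 2) (nat_lit 5) (nat_lit 2) (nat_lit 4) (nat_lit 376) (nat_lit 274) (nat_lit 250))))))) (XT.nd (nat_lit 702) (nat_lit 0) (nat_lit 0) (XT.nd (nat_lit 312) (nat_lit 0) (nat_lit 0) (XT.nd (nat_lit 156) (nat_lit 0) (nat_lit 0) (XT.nd (nat_lit 78) (nat_lit 0) (nat_lit 0) (XT.lf (nat_lit 0) (nat_lit 52546855383) (nat_lit 76) (nat_lit 153926220801) (nat_lit 76) (nat_lit 152519275670) (nat_lit 1) (nat_lit 4) (nat_lit 2) (nat_lit 5) (nat_lit 2) (nat_lit 4) (nat_lit 377) (nat_lit 274) (nat_lit 249)) (XT.lf (nat_lit 0) (nat_lit 60943061667)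 (nat_lit 76) (nat_lit 164012669568) (nat_lit 76) (nat_lit 162587904722) (nat_lit 1) (nat_lit 4) (nat_lit 2) (nat_lit 5) (nat_lit 2) (nat_lit 4) (nat_lit 378) (nat_lit 274) (nat_lit 248))) (XT.nd (nat_lit 78) (nat_lit 0) (nat_lit 0) (XT.lf (nat_lit 0) (nat_lit 69942800146) (nat_lit 76) (nat_lit 174940110196) (nat_lit 76) (nat_lit 173498845614) (nat_lit 1) (nat_lit 4) (nat_lit 2) (nat_lit 5) (nat_lit 2) (nat_lit 4) (nat_lit 379) (nat_lit 274) (nat_lit 247)) (XT.lf (nat_lit 0) (nat_lit 79599402603) (nat_lit 76) (nat_lit 186773297890) (nat_lit 76) (nat_lit 185316755775) (nat_lit 1) (nat_lit 4) (nat_lit 2) (nat_lit 5) (nat_lit 2) (nat_lit 4) (nat_lit 380) (nat_lit 274) (nat_lit 246)))) (XT.nd (nat_lit 156) (nat_lit 0) (nat_lit 0) (XT.nd (nat_lit 78) (nat_lit 0) (nat_lit 0) (XT.lf (nat_lit 0) (nat_lit 89970093348) (nat_lit 76) (nat_lit 199582355243) (nat_lit 76) (nat_lit 198111667265) (nat_lit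 1) (nat_lit 4) (nat_lit 2) (nat_lit 5) (nat_lit 2) (nat_lit 4) (nat_lit 381) (nat_lit 274) (nat_lit 245)) (XT.lf (nat_lit 0) (nat_lit 101116328328) (nat_lit 76) (nat_lit 213443187781) (nat_lit 76) (nat_lit 211959401780) (nat_lit 1) (nat_lit 4) (nat_lit 2) (nat_lit 5) (nat_lit 2) (nat_lit 4) (nat_lit 382) (nat_lit 274) (nat_lit 244))) (XT.nd (nat_lit 78) (nat_lit 0) (nat_lit 0) (XT.lf (nat_lit 0) (nat_lit 113104159305) (nat_lit 76) (nat_lit 228437933770) (nat_lit 76) (nat_lit 226942019971) (nat_lit 1) (nat_lit 4) (nat_lit 2) (nat_lit 5) (nat_lit 2) (nat_lit 4) (nat_lit 383) (nat_lit 274) (nat_lit 243)) (XT.nd (nat_lit 78) (nat_lit 0) (nat_lit 0) (XT.lf (nat_lit 0) (nat_lit 126004625277) (nat_lit 76) (nat_lit 244655450964) (nat_lit 76) (nat_lit 243148307723) (nat_lit 1) (nat_lit 4) (nat_lit 2) (nat_lit 5) (nat_lit 2) (nat_lit 4) (nat_lit 384) (nat_lit 274) (nat_lit 242)) (XT.lf (nat_lit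 0) (nat_lit 139894173449) (nat_lit 76) (nat_lit 262191843170) (nat_lit 76) (nat_lit 260674302296) (nat_lit 1) (nat_lit 4) (nat_lit 2) (nat_lit 5) (nat_lit 2) (nat_lit 4) (nat_lit 385) (nat_lit 274) (nat_lit 241)))))) (XT.nd (nat_lit 312) (nat_lit 0) (nat_lit 0) (XT.nd (nat_lit 156) (nat_lit 0) (nat_lit 0) (XT.nd (nat_lit 78) (nat_lit 0) (nat_lit 0) (XT.lf (nat_lit 0) (nat_lit 154855112257) (nat_lit 76) (nat_lit 281151029747) (nat_lit 76) (nat_lit 279623861437) (nat_lit 1) (nat_lit 4) (nat_lit 2) (nat_lit 5) (nat_lit 2) (nat_lit 4) (nat_lit 386) (nat_lit 274) (nat_lit 240)) (XT.lf (nat_lit 0) (nat_lit 170976099114) (nat_lit 76) (nat_lit 301645361433) (nat_lit 76) (nat_lit 300109278828) (nat_lit 1) (nat_lit 4) (nat_lit 2) (nat_lit 5) (nat_lit 2) (nat_lit 4) (nat_lit 387) (nat_lit 274) (nat_lit 239))) (XT.nd (nat_lit 78) (nat_lit 0) (nat_lit 0) (XT.lf (nat_lit 0) (nat_lit 188352665795) (nat_lit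 76) (nat_lit 323796286117) (nat_lit 76) (nat_lit 322251949537) (nat_lit 1) (nat_lit 4) (nat_lit 2) (nat_lit 5) (nat_lit 2) (nat_lit 4) (nat_lit 388) (nat_lit 274) (nat_lit 238)) (XT.lf (nat_lit 0) (nat_lit 207087784547) (nat_lit 76) (nat_lit 347735068539) (nat_lit 76) (nat_lit 346183089389) (nat_lit 1) (nat_lit 4) (nat_lit 2) (nat_lit 5) (nat_lit 2) (nat_lit 4) (nat_lit 389) (nat_lit 274) (nat_lit 237)))) (XT.nd (nat_lit 156) (nat_lit 0) (nat_lit 0) (XT.nd (nat_lit 78) (nat_lit 0) (nat_lit 0) (XT.lf (nat_lit 0) (nat_lit 227292478296) (nat_lit 76) (nat_lit 373603568150) (nat_lit 76) (nat_lit 372044512546) (nat_lit 1) (nat_lit 4) (nat_lit 2) (nat_lit 5) (nat_lit 2) (nat_lit 4) (nat_lit 390) (nat_lit 274) (nat_lit 236)) (XT.lf (nat_lit 0) (nat_lit 249086478560) (nat_lit 76) (nat_lit 401555079763) (nat_lit 76) (nat_lit 399989471887) (nat_lit 1) (nat_lit 4) (nat_lit 2) (nat_lit 5) (nat_lit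 2) (nat_lit 4) (nat_lit 391) (nat_lit 274) (nat_lit 235))) (XT.nd (nat_lit 78) (nat_lit 0) (nat_lit 0) (XT.lf (nat_lit 0) (nat_lit 272598934970) (nat_lit 76) (nat_lit 431755241965) (nat_lit 76) (nat_lit 430183567170) (nat_lit 1) (nat_lit 4) (nat_lit 2) (nat_lit 5) (nat_lit 2) (nat_lit 4) (nat_lit 392) (nat_lit 274) (nat_lit 234)) (XT.nd (nat_lit 78) (nat_lit 0) (nat_lit 0) (XT.lf (nat_lit 0) (nat_lit 297969180601) (nat_lit 76) (nat_lit 464383018680) (nat_lit 76) (nat_lit 462805726368) (nat_lit 1) (nat_lit 4) (nat_lit 2) (nat_lit 5) (nat_lit 2) (nat_lit 4) (nat_lit 393) (nat_lit 274) (nat_lit 233)) (XT.lf (nat_lit 0) (nat_lit 325347557651) (nat_lit 76) (nat_lit 499631759696) (nat_lit 76) (nat_lit 498049265980) (nat_lit 1) (nat_lit 4) (nat_lit 2) (nat_lit 5) (nat_lit 2) (nat_lit 4) (nat_lit 394) (nat_lit 274) (nat_lit 232))))))))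
noncomputable def xc30 : XT := (XT.nd (nat_lit 1326) (nat_lit 0) (nat_lit 0) (XT.nd (nat_lit 624) (nat_lit 0) (nat_lit 0) (XT.nd (nat_lit 312) (nat_lit 0) (nat_lit 0) (XT.nd (nat_lit 156) (nat_lit 0) (nat_lit 0) (XT.nd (nat_lit 78) (nat_lit 0) (nat_lit 0) (XT.lf (nat_lit 0) (nat_lit 354896308352) (nat_lit 76) (nat_lit 537710346442) (nat_lit 76) (nat_lit 536123036610) (nat_lit 1) (nat_lit 4) (nat_lit 2) (nat_lit 5) (nat_lit 2) (nat_lit 4) (nat_lit 395) (nat_lit 274) (nat_lit 231)) (XT.lf (nat_lit 0) (nat_lit 386790536414) (nat_lit 76) (nat_lit 578844429801) (nat_lit 76) (nat_lit 577252660603) (nat_lit 1) (nat_lit 4) (nat_lit 2) (nat_lit 5) (nat_lit 2) (nat_lit 4) (nat_lit 396) (nat_lit 274) (nat_lit 230))) (XT.nd (nat_lit 78) (nat_lit 0) (nat_lit 0) (XT.lf (nat_lit 0) (nat_lit 421219244668) (nat_lit 76) (nat_lit 623277767305) (nat_lit 76) (nat_lit 621681869064) (nat_lit 1) (nat_lit 4) (nat_lit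 2) (nat_lit 5) (nat_lit 2) (nat_lit 4) (nat_lit 397) (nat_lit 274) (nat_lit 229)) (XT.lf (nat_lit 0) (nat_lit 458386455090) (nat_lit 76) (nat_lit 671273667621) (nat_lit 76) (nat_lit 669673946192) (nat_lit 1) (nat_lit 4) (nat_lit 2) (nat_lit 5) (nat_lit 2) (nat_lit 4) (nat_lit 398) (nat_lit 274) (nat_lit 228)))) (XT.nd (nat_lit 156) (nat_lit 0) (nat_lit 0) (XT.nd (nat_lit 78) (nat_lit 0) (nat_lit 0) (XT.lf (nat_lit 0) (nat_lit 498512417816) (nat_lit 76) (nat_lit 723116550898) (nat_lit 76) (nat_lit 721513289481) (nat_lit 1) (nat_lit 4) (nat_lit 2) (nat_lit 5) (nat_lit 2) (nat_lit 4) (nat_lit 399) (nat_lit 274) (nat_lit 227)) (XT.lf (nat_lit 0) (nat_lit 541834916328) (nat_lit 76) (nat_lit 779113634223) (nat_lit 76) (nat_lit 777507095039) (nat_lit 1) (nat_lit 4) (nat_lit 2) (nat_lit 5) (nat_lit 2) (nat_lit 4) (nat_lit 400) (nat_lit 274) (nat_lit 226))) (XT.nd (nat_lit 78) (nat_lit 0) (nat_lit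 0) (XT.lf (nat_lit 0) (nat_lit 588610676544) (nat_lit 76) (nat_lit 839596752164) (nat_lit 76) (nat_lit 837987178010) (nat_lit 1) (nat_lit 4) (nat_lit 2) (nat_lit 5) (nat_lit 2) (nat_lit 4) (nat_lit 401) (nat_lit 274) (nat_lit 225)) (XT.lf (nat_lit 0) (nat_lit 639116888154) (nat_lit 76) (nat_lit 904924323197) (nat_lit 76) (nat_lit 903311938885) (nat_lit 1) (nat_lit 4) (nat_lit 2) (nat_lit 5) (nat_lit 2) (nat_lit 4) (nat_lit 402) (nat_lit 274) (nat_lit 224))))) (XT.nd (nat_lit 312) (nat_lit 0) (nat_lit 0) (XT.nd (nat_lit 156) (nat_lit 0) (nat_lit 0) (XT.nd (nat_lit 78) (nat_lit 0) (nat_lit 0) (XT.lf (nat_lit 0) (nat_lit 693652847226) (nat_lit 76) (nat_lit 975483473668) (nat_lit 76) (nat_lit 973868487359) (nat_lit 1) (nat_lit 4) (nat_lit 2) (nat_lit 5) (nat_lit 2) (nat_lit 4) (nat_lit 403) (nat_lit 274) (nat_lit 223)) (XT.lf (nat_lit 0) (nat_lit 752541729814) (nat_lit 76) (nat_lit 1051692331878)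 (nat_lit 76) (nat_lit 1050074936312) (nat_lit 1) (nat_lit 4) (nat_lit 2) (nat_lit 5) (nat_lit 2) (nat_lit 4) (nat_lit 404) (nat_lit 274) (nat_lit 222))) (XT.nd (nat_lit 78) (nat_lit 0) (nat_lit 0) (XT.lf (nat_lit 0) (nat_lit 816132507075) (nat_lit 76) (nat_lit 1134002505875) (nat_lit 76) (nat_lit 1132382879516) (nat_lit 1) (nat_lit 4) (nat_lit 2) (nat_lit 5) (nat_lit 2) (nat_lit 4) (nat_lit 405) (nat_lit 274) (nat_lit 221)) (XT.lf (nat_lit 0) (nat_lit 884802013243) (nat_lit 76) (nat_lit 1222901759652) (nat_lit 76) (nat_lit 1221280067743) (nat_lit 1) (nat_lit 4) (nat_lit 2) (nat_lit 5) (nat_lit 2) (nat_lit 4) (nat_lit 406) (nat_lit 274) (nat_lit 220)))) (XT.nd (nat_lit 156) (nat_lit 0) (nat_lit 0) (XT.nd (nat_lit 78) (nat_lit 0) (nat_lit 0) (XT.lf (nat_lit 0) (nat_lit 958957178727) (nat_lit 76) (nat_lit 1318916903603) (nat_lit 76) (nat_lit 1317293299149) (nat_lit 1) (nat_lit 4) (nat_lit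 2) (nat_lit 5) (nat_lit 2) (nat_lit 4) (nat_lit 407) (nat_lit 274) (nat_lit 219)) (XT.lf (nat_lit 0) (nat_lit 1039037441543) (nat_lit 76) (nat_lit 1422616916358) (nat_lit 76) (nat_lit 1420991541028) (nat_lit 1) (nat_lit 4) (nat_lit 2) (nat_lit 5) (nat_lit 2) (nat_lit 4) (nat_lit 408) (nat_lit 274) (nat_lit 218))) (XT.nd (nat_lit 78) (nat_lit 0) (nat_lit 0) (XT.lf (nat_lit 0) (nat_lit 1125517351397) (nat_lit 76) (nat_lit 1534616316512) (nat_lit 76) (nat_lit 1532989301483) (nat_lit 1) (nat_lit 4) (nat_lit 2) (nat_lit 5) (nat_lit 2) (nat_lit 4) (nat_lit 409) (nat_lit 274) (nat_lit 217)) (XT.nd (nat_lit 78) (nat_lit 0) (nat_lit 0) (XT.lf (nat_lit 0) (nat_lit 1218909381829) (nat_lit 76) (nat_lit 1655578804214) (nat_lit 76) (nat_lit 1653950270944) (nat_lit 1) (nat_lit 4) (nat_lit 2) (nat_lit 5) (nat_lit 2) (nat_lit 4) (nat_lit 410) (nat_lit 274) (nat_lit 216)) (XT.lf (nat_lit 0) (nat_lit 1319766967094)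 (nat_lit 76) (nat_lit 1786221194205) (nat_lit 76) (nat_lit 1784591255156) (nat_lit 1) (nat_lit 4) (nat_lit 2) (nat_lit 5) (nat_lit 2) (nat_lit 4) (nat_lit 411) (nat_lit 274) (nat_lit 215))))))) (XT.nd (nat_lit 42432) (nat_lit 0) (nat_lit 76) (XT.nd (nat_lit 42120) (nat_lit 0) (nat_lit 76) (XT.nd (nat_lit 156) (nat_lit 0) (nat_lit 0) (XT.nd (nat_lit 78) (nat_lit 0) (nat_lit 0) (XT.lf (nat_lit 0) (nat_lit 1428687781771) (nat_lit 76) (nat_lit 1927317663611) (nat_lit 76) (nat_lit 1925686422916) (nat_lit 1) (nat_lit 4) (nat_lit 2) (nat_lit 5) (nat_lit 2) (nat_lit 4) (nat_lit 412) (nat_lit 274) (nat_lit 214)) (XT.lf (nat_lit 0) (nat_lit 1546317282538) (nat_lit 76) (nat_lit 2079704339659) (nat_lit 76) (nat_lit 2078071893736) (nat_lit 1) (nat_lit 4) (nat_lit 2) (nat_lit 5) (nat_lit 2) (nat_lit 4) (nat_lit 413) (nat_lit 274) (nat_lit 213))) (XT.nd (nat_lit 41886) (nat_lit 0) (nat_lit 228) (XT.lf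 (nat_lit 0) (nat_lit 1673352533106) (nat_lit 76) (nat_lit 2244284254502) (nat_lit 76) (nat_lit 2242650692627) (nat_lit 1) (nat_lit 4) (nat_lit 2) (nat_lit 5) (nat_lit 2) (nat_lit 4) (nat_lit 414) (nat_lit 274) (nat_lit 212)) (XT.lf (nat_lit 0) (nat_lit 12305852112) (nat_lit 76) (nat_lit 5849251637) (nat_lit 76) (nat_lit 5849251637) (nat_lit 4) (nat_lit 4) (nat_lit 5) (nat_lit 5) (nat_lit 5) (nat_lit 4) (nat_lit 350) (nat_lit 275) (nat_lit 275)))) (XT.nd (nat_lit 156) (nat_lit 152) (nat_lit 0) (XT.nd (nat_lit 78) (nat_lit 0) (nat_lit 0) (XT.lf (nat_lit 0) (nat_lit 35412306296) (nat_lit 76) (nat_lit 8110752671) (nat_lit 76) (nat_lit 7968407697) (nat_lit 4) (nat_lit 4) (nat_lit 5) (nat_lit 5) (nat_lit 5) (nat_lit 4) (nat_lit 351) (nat_lit 275) (nat_lit 274)) (XT.lf (nat_lit 0) (nat_lit 46646345546) (nat_lit 76) (nat_lit 4449047852) (nat_lit 76) (nat_lit 4174901976) (nat_lit 4) (nat_lit 4)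 (nat_lit 5) (nat_lit 5) (nat_lit 5) (nat_lit 4) (nat_lit 352) (nat_lit 275) (nat_lit 273))) (XT.nd (nat_lit 78) (nat_lit 152) (nat_lit 0) (XT.lf (nat_lit 0) (nat_lit 58380394058) (nat_lit 76) (nat_lit 691689827) (nat_lit 76) (nat_lit 295506078) (nat_lit 4) (nat_lit 4) (nat_lit 5) (nat_lit 5) (nat_lit 5) (nat_lit 4) (nat_lit 353) (nat_lit 275) (nat_lit 272)) (XT.lf (nat_lit 0) (nat_lit 3763213751) (nat_lit 152) (nat_lit 56725149148) (nat_lit 0) (nat_lit 3291749141) (nat_lit 2) (nat_lit 5) (nat_lit 4) (nat_lit 4) (nat_lit 2) (nat_lit 4) (nat_lit 354) (nat_lit 275) (nat_lit 271))))) (XT.nd (nat_lit 312) (nat_lit 0) (nat_lit 0) (XT.nd (nat_lit 156) (nat_lit 0) (nat_lit 0) (XT.nd (nat_lit 78) (nat_lit 0) (nat_lit 0) (XT.lf (nat_lit 0) (nat_lit 7985801811) (nat_lit 152) (nat_lit 53153385402) (nat_lit 0) (nat_lit 7417459604) (nat_lit 2) (nat_lit 5) (nat_lit 4) (nat_lit 4) (nat_lit 2) (nat_lit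 4) (nat_lit 355) (nat_lit 275) (nat_lit 270)) (XT.lf (nat_lit 0) (nat_lit 12369786647) (nat_lit 152) (nat_lit 49647920760) (nat_lit 0) (nat_lit 11711742960) (nat_lit 2) (nat_lit 5) (nat_lit 4) (nat_lit 4) (nat_lit 2) (nat_lit 4) (nat_lit 356) (nat_lit 275) (nat_lit 269))) (XT.nd (nat_lit 78) (nat_lit 0) (nat_lit 0) (XT.lf (nat_lit 0) (nat_lit 16941147428) (nat_lit 152) (nat_lit 46187982098) (nat_lit 0) (nat_lit 16200046816) (nat_lit 2) (nat_lit 5) (nat_lit 4) (nat_lit 4) (nat_lit 2) (nat_lit 4) (nat_lit 357) (nat_lit 275) (nat_lit 268)) (XT.lf (nat_lit 0) (nat_lit 21726973699) (nat_lit 152) (nat_lit 42753066076) (nat_lit 0) (nat_lit 20908968526) (nat_lit 2) (nat_lit 5) (nat_lit 4) (nat_lit 4) (nat_lit 2) (nat_lit 4) (nat_lit 358) (nat_lit 275) (nat_lit 267)))) (XT.nd (nat_lit 156) (nat_lit 0) (nat_lit 0) (XT.nd (nat_lit 78) (nat_lit 0) (nat_lit 0) (XT.lf (nat_lit 0) (nat_lit 26755625912)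 (nat_lit 152) (nat_lit 39322817636) (nat_lit 0) (nat_lit 25866412813) (nat_lit 2) (nat_lit 5) (nat_lit 4) (nat_lit 4) (nat_lit 2) (nat_lit 4) (nat_lit 359) (nat_lit 275) (nat_lit 266)) (XT.lf (nat_lit 0) (nat_lit 32056903488) (nat_lit 152) (nat_lit 35876909379) (nat_lit 0) (nat_lit 31101757124) (nat_lit 2) (nat_lit 5) (nat_lit 4) (nat_lit 4) (nat_lit 2) (nat_lit 4) (nat_lit 360) (nat_lit 275) (nat_lit 265))) (XT.nd (nat_lit 78) (nat_lit 0) (nat_lit 0) (XT.lf (nat_lit 0) (nat_lit 37662221405) (nat_lit 152) (nat_lit 32394921109) (nat_lit 0) (nat_lit 36646025722) (nat_lit 2) (nat_lit 5) (nat_lit 4) (nat_lit 4) (nat_lit 2) (nat_lit 4) (nat_lit 361) (nat_lit 275) (nat_lit 264)) (XT.nd (nat_lit 78) (nat_lit 0) (nat_lit 0) (XT.lf (nat_lit 0) (nat_lit 43604796362) (nat_lit 152) (nat_lit 28856218821) (nat_lit 0) (nat_lit 42532073531) (nat_lit 2) (nat_lit 5) (nat_lit 4) (nat_lit 4) (nat_lit 2) (nat_lit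 4) (nat_lit 362) (nat_lit 275) (nat_lit 263)) (XT.lf (nat_lit 0) (nat_lit 49919843618) (nat_lit 152) (nat_lit 25239832428) (nat_lit 0) (nat_lit 48794780835) (nat_lit 2) (nat_lit 5) (nat_lit 4) (nat_lit 4) (nat_lit 2) (nat_lit 4) (nat_lit 363) (nat_lit 275) (nat_lit 262))))))))
noncomputable def xc31 : XT := (XT.nd (nat_lit 1326) (nat_lit 0) (nat_lit 0) (XT.nd (nat_lit 624) (nat_lit 0) (nat_lit 0) (XT.nd (nat_lit 312) (nat_lit 76) (nat_lit 0) (XT.nd (nat_lit 156) (nat_lit 0) (nat_lit 0) (XT.nd (nat_lit 78) (nat_lit 0) (nat_lit 0) (XT.lf (nat_lit 0) (nat_lit 56644785675) (nat_lit 152) (nat_lit 21524331491) (nat_lit 0) (nat_lit 55471259974) (nat_lit 2) (nat_lit 5) (nat_lit 4) (nat_lit 4) (nat_lit 2) (nat_lit 4) (nat_lit 364) (nat_lit 275) (nat_lit 261)) (XT.lf (nat_lit 0) (nat_lit 63819474041) (nat_lit 152) (nat_lit 17687698227) (nat_lit 0) (nat_lit 62601075268) (nat_lit 2) (nat_lit 5) (nat_lit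 4) (nat_lit 4) (nat_lit 2) (nat_lit 4) (nat_lit 365) (nat_lit 275) (nat_lit 260))) (XT.nd (nat_lit 78) (nat_lit 0) (nat_lit 0) (XT.lf (nat_lit 0) (nat_lit 71486425389) (nat_lit 152) (nat_lit 13707197032) (nat_lit 0) (nat_lit 70226477474) (nat_lit 2) (nat_lit 5) (nat_lit 4) (nat_lit 4) (nat_lit 2) (nat_lit 4) (nat_lit 366) (nat_lit 275) (nat_lit 259)) (XT.lf (nat_lit 0) (nat_lit 79691073504) (nat_lit 152) (nat_lit 9559239751) (nat_lit 0) (nat_lit 78392654162) (nat_lit 2) (nat_lit 5) (nat_lit 4) (nat_lit 4) (nat_lit 2) (nat_lit 4) (nat_lit 367) (nat_lit 275) (nat_lit 258)))) (XT.nd (nat_lit 156) (nat_lit 76) (nat_lit 0) (XT.nd (nat_lit 78) (nat_lit 0) (nat_lit 0) (XT.lf (nat_lit 0) (nat_lit 88482038523) (nat_lit 152) (nat_lit 5219245896) (nat_lit 0) (nat_lit 87147997490) (nat_lit 2) (nat_lit 5) (nat_lit 4) (nat_lit 4) (nat_lit 2) (nat_lit 4) (nat_lit 368) (nat_lit 275) (nat_lit 257)) (XT.lf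 (nat_lit 0) (nat_lit 97911415053) (nat_lit 152) (nat_lit 661496984) (nat_lit 0) (nat_lit 96544390972) (nat_lit 2) (nat_lit 5) (nat_lit 4) (nat_lit 4) (nat_lit 2) (nat_lit 4) (nat_lit 369) (nat_lit 275) (nat_lit 256))) (XT.nd (nat_lit 78) (nat_lit 0) (nat_lit 0) (XT.lf (nat_lit 0) (nat_lit 4359074422) (nat_lit 76) (nat_lit 103780842304) (nat_lit 76) (nat_lit 102383278364) (nat_lit 1) (nat_lit 4) (nat_lit 2) (nat_lit 5) (nat_lit 2) (nat_lit 4) (nat_lit 370) (nat_lit 275) (nat_lit 255)) (XT.lf (nat_lit 0) (nat_lit 9702089816) (nat_lit 76) (nat_lit 109444273781) (nat_lit 76) (nat_lit 108018432194) (nat_lit 1) (nat_lit 4) (nat_lit 2) (nat_lit 5) (nat_lit 2) (nat_lit 4) (nat_lit 371) (nat_lit 275) (nat_lit 254))))) (XT.nd (nat_lit 312) (nat_lit 0) (nat_lit 0) (XT.nd (nat_lit 156) (nat_lit 0) (nat_lit 0) (XT.nd (nat_lit 78) (nat_lit 0) (nat_lit 0) (XT.lf (nat_lit 0) (nat_lit 15364378250) (nat_lit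 76) (nat_lit 115614854042) (nat_lit 76) (nat_lit 114162829448) (nat_lit 1) (nat_lit 4) (nat_lit 2) (nat_lit 5) (nat_lit 2) (nat_lit 4) (nat_lit 372) (nat_lit 275) (nat_lit 253)) (XT.lf (nat_lit 0) (nat_lit 21379494028) (nat_lit 76) (nat_lit 122329149491) (nat_lit 76) (nat_lit 120852881372) (nat_lit 1) (nat_lit 4) (nat_lit 2) (nat_lit 5) (nat_lit 2) (nat_lit 4) (nat_lit 373) (nat_lit 275) (nat_lit 252))) (XT.nd (nat_lit 78) (nat_lit 0) (nat_lit 0) (XT.lf (nat_lit 0) (nat_lit 27783082278) (nat_lit 76) (nat_lit 129626948543) (nat_lit 76) (nat_lit 128128232716) (nat_lit 1) (nat_lit 4) (nat_lit 2) (nat_lit 5) (nat_lit 2) (nat_lit 4) (nat_lit 374) (nat_lit 275) (nat_lit 251)) (XT.lf (nat_lit 0) (nat_lit 34613090192) (nat_lit 76) (nat_lit 137551497416) (nat_lit 76) (nat_lit 136031996674) (nat_lit 1) (nat_lit 4) (nat_lit 2) (nat_lit 5) (nat_lit 2) (nat_lit 4) (nat_lit 375) (nat_lit 275) (nat_lit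 250)))) (XT.nd (nat_lit 156) (nat_lit 0) (nat_lit 0) (XT.nd (nat_lit 78) (nat_lit 0) (nat_lit 0) (XT.lf (nat_lit 0) (nat_lit 41909991889) (nat_lit 76) (nat_lit 146149756400) (nat_lit 76) (nat_lit 144611010366) (nat_lit 1) (nat_lit 4) (nat_lit 2) (nat_lit 5) (nat_lit 2) (nat_lit 4) (nat_lit 376) (nat_lit 275) (nat_lit 249)) (XT.lf (nat_lit 0) (nat_lit 49717028269) (nat_lit 76) (nat_lit 155472678139) (nat_lit 76) (nat_lit 153916112392) (nat_lit 1) (nat_lit 4) (nat_lit 2) (nat_lit 5) (nat_lit 2) (nat_lit 4) (nat_lit 377) (nat_lit 275) (nat_lit 248))) (XT.nd (nat_lit 78) (nat_lit 0) (nat_lit 0) (XT.lf (nat_lit 0) (nat_lit 58080463251) (nat_lit 76) (nat_lit 165575509579) (nat_lit 76) (nat_lit 164002444096) (nat_lit 1) (nat_lit 4) (nat_lit 2) (nat_lit 5) (nat_lit 2) (nat_lit 4) (nat_lit 378) (nat_lit 275) (nat_lit 247)) (XT.nd (nat_lit 78) (nat_lit 0) (nat_lit 0) (XT.lf (nat_lit 0) (nat_lit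 67049857932) (nat_lit 76) (nat_lit 176518119349) (nat_lit 76) (nat_lit 174929776333) (nat_lit 1) (nat_lit 4) (nat_lit 2) (nat_lit 5) (nat_lit 2) (nat_lit 4) (nat_lit 379) (nat_lit 275) (nat_lit 246)) (XT.lf (nat_lit 0) (nat_lit 76678364279) (nat_lit 76) (nat_lit 188365352545) (nat_lit 76) (nat_lit 186762863665) (nat_lit 1) (nat_lit 4) (nat_lit 2) (nat_lit 5) (nat_lit 2) (nat_lit 4) (nat_lit 380) (nat_lit 275) (nat_lit 245))))))) (XT.nd (nat_lit 702) (nat_lit 0) (nat_lit 0) (XT.nd (nat_lit 312) (nat_lit 0) (nat_lit 0) (XT.nd (nat_lit 156) (nat_lit 0) (nat_lit 0) (XT.nd (nat_lit 78) (nat_lit 0) (nat_lit 0) (XT.lf (nat_lit 0) (nat_lit 87023040109) (nat_lit 76) (nat_lit 201187414992) (nat_lit 76) (nat_lit 199571828090) (nat_lit 1) (nat_lit 4) (nat_lit 2) (nat_lit 5) (nat_lit 2) (nat_lit 4) (nat_lit 381) (nat_lit 275) (nat_lit 244)) (XT.lf (nat_lit 0) (nat_lit 98145187203) (nat_lit 76) (nat_lit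 215060289284) (nat_lit 76) (nat_lit 213432574584) (nat_lit 1) (nat_lit 4) (nat_lit 2) (nat_lit 5) (nat_lit 2) (nat_lit 4) (nat_lit 382) (nat_lit 275) (nat_lit 243))) (XT.nd (nat_lit 78) (nat_lit 0) (nat_lit 0) (XT.lf (nat_lit 0) (nat_lit 110110714582) (nat_lit 76) (nat_lit 230066185046) (nat_lit 76) (nat_lit 228427240902) (nat_lit 1) (nat_lit 4) (nat_lit 2) (nat_lit 5) (nat_lit 2) (nat_lit 4) (nat_lit 383) (nat_lit 275) (nat_lit 242)) (XT.lf (nat_lit 0) (nat_lit 122990529075) (nat_lit 76) (nat_lit 246294026103) (nat_lit 76) (nat_lit 244644684328) (nat_lit 1) (nat_lit 4) (nat_lit 2) (nat_lit 5) (nat_lit 2) (nat_lit 4) (nat_lit 384) (nat_lit 275) (nat_lit 241)))) (XT.nd (nat_lit 156) (nat_lit 0) (nat_lit 0) (XT.nd (nat_lit 78) (nat_lit 0) (nat_lit 0) (XT.lf (nat_lit 0) (nat_lit 136860955508) (nat_lit 76) (nat_lit 263839977441) (nat_lit 76) (nat_lit 262181008229) (nat_lit 1) (nat_lit 4) (nat_lit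 2) (nat_lit 5) (nat_lit 2) (nat_lit 4) (nat_lit 385) (nat_lit 275) (nat_lit 240)) (XT.lf (nat_lit 0) (nat_lit 151804189001) (nat_lit 76) (nat_lit 282808015068) (nat_lit 76) (nat_lit 281140131561) (nat_lit 1) (nat_lit 4) (nat_lit 2) (nat_lit 5) (nat_lit 2) (nat_lit 4) (nat_lit 386) (nat_lit 275) (nat_lit 239))) (XT.nd (nat_lit 78) (nat_lit 0) (nat_lit 0) (XT.lf (nat_lit 0) (nat_lit 167908782048) (nat_lit 76) (nat_lit 303310542168) (nat_lit 76) (nat_lit 301634404686) (nat_lit 1) (nat_lit 4) (nat_lit 2) (nat_lit 5) (nat_lit 2) (nat_lit 4) (nat_lit 387) (nat_lit 275) (nat_lit 238)) (XT.nd (nat_lit 78) (nat_lit 0) (nat_lit 0) (XT.lf (nat_lit 0) (nat_lit 185270169275) (nat_lit 76) (nat_lit 325469055200) (nat_lit 76) (nat_lit 323785275148) (nat_lit 1) (nat_lit 4) (nat_lit 2) (nat_lit 5) (nat_lit 2) (nat_lit 4) (nat_lit 388) (nat_lit 275) (nat_lit 237)) (XT.lf (nat_lit 0) (nat_lit 203991232977)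 (nat_lit 76) (nat_lit 349414863870) (nat_lit 76) (nat_lit 347724007364) (nat_lit 1) (nat_lit 4) (nat_lit 2) (nat_lit 5) (nat_lit 2) (nat_lit 4) (nat_lit 389) (nat_lit 275) (nat_lit 236)))))) (XT.nd (nat_lit 312) (nat_lit 0) (nat_lit 0) (XT.nd (nat_lit 156) (nat_lit 0) (nat_lit 0) (XT.nd (nat_lit 78) (nat_lit 0) (nat_lit 0) (XT.lf (nat_lit 0) (nat_lit 224182912791) (nat_lit 76) (nat_lit 375289869266) (nat_lit 76) (nat_lit 373592460488) (nat_lit 1) (nat_lit 4) (nat_lit 2) (nat_lit 5) (nat_lit 2) (nat_lit 4) (nat_lit 390) (nat_lit 275) (nat_lit 235)) (XT.lf (nat_lit 0) (nat_lit 245964863115) (nat_lit 76) (nat_lit 403247404754) (nat_lit 76) (nat_lit 401543929057) (nat_lit 1) (nat_lit 4) (nat_lit 2) (nat_lit 5) (nat_lit 2) (nat_lit 4) (nat_lit 391) (nat_lit 275) (nat_lit 234))) (XT.nd (nat_lit 78) (nat_lit 0) (nat_lit 0) (XT.lf (nat_lit 0) (nat_lit 269466162173) (nat_lit 76) (nat_lit 433453144618)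 (nat_lit 76) (nat_lit 431744051404) (nat_lit 1) (nat_lit 4) (nat_lit 2) (nat_lit 5) (nat_lit 2) (nat_lit 4) (nat_lit 392) (nat_lit 275) (nat_lit 233)) (XT.lf (nat_lit 0) (nat_lit 294826076924) (nat_lit 76) (nat_lit 466086085835) (nat_lit 76) (nat_lit 464371791216) (nat_lit 1) (nat_lit 4) (nat_lit 2) (nat_lit 5) (nat_lit 2) (nat_lit 4) (nat_lit 393) (nat_lit 275) (nat_lit 232)))) (XT.nd (nat_lit 156) (nat_lit 0) (nat_lit 0) (XT.nd (nat_lit 78) (nat_lit 0) (nat_lit 0) (XT.lf (nat_lit 0) (nat_lit 322194888343) (nat_lit 76) (nat_lit 501339608797) (nat_lit 76) (nat_lit 499620498063) (nat_lit 1) (nat_lit 4) (nat_lit 2) (nat_lit 5) (nat_lit 2) (nat_lit 4) (nat_lit 394) (nat_lit 275) (nat_lit 231)) (XT.lf (nat_lit 0) (nat_lit 351734781979) (nat_lit 76) (nat_lit 539422623271) (nat_lit 76) (nat_lit 537699053171) (nat_lit 1) (nat_lit 4) (nat_lit 2) (nat_lit 5) (nat_lit 2) (nat_lit 4) (nat_lit 395)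 (nat_lit 275) (nat_lit 230))) (XT.nd (nat_lit 78) (nat_lit 0) (nat_lit 0) (XT.lf (nat_lit 0) (nat_lit 383620809054) (nat_lit 76) (nat_lit 580560806378) (nat_lit 76) (nat_lit 578833107235) (nat_lit 1) (nat_lit 4) (nat_lit 2) (nat_lit 5) (nat_lit 2) (nat_lit 4) (nat_lit 396) (nat_lit 275) (nat_lit 229)) (XT.nd (nat_lit 78) (nat_lit 0) (nat_lit 0) (XT.lf (nat_lit 0) (nat_lit 418041923802) (nat_lit 76) (nat_lit 624997939946) (nat_lit 76) (nat_lit 623266417615) (nat_lit 1) (nat_lit 4) (nat_lit 2) (nat_lit 5) (nat_lit 2) (nat_lit 4) (nat_lit 397) (nat_lit 275) (nat_lit 228)) (XT.lf (nat_lit 0) (nat_lit 455202103200) (nat_lit 76) (nat_lit 672997355135) (nat_lit 76) (nat_lit 671262292815) (nat_lit 1) (nat_lit 4) (nat_lit 2) (nat_lit 5) (nat_lit 2) (nat_lit 4) (nat_lit 398) (nat_lit 275) (nat_lit 227))))))))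
noncomputable def xc32 : XT := (XT.nd (nat_lit 42978) (nat_lit 0) (nat_lit 76) (XT.nd (nat_lit 624) (nat_lit 0) (nat_lit 0) (XT.nd (nat_lit 312) (nat_lit 0) (nat_lit 0) (XT.nd (nat_lit 156) (nat_lit 0) (nat_lit 0) (XT.nd (nat_lit 78) (nat_lit 0) (nat_lit 0) (XT.lf (nat_lit 0) (nat_lit 495321555718) (nat_lit 76) (nat_lit 724843492924) (nat_lit 76) (nat_lit 723105152838) (nat_lit 1) (nat_lit 4) (nat_lit 2) (nat_lit 5) (nat_lit 2) (nat_lit 4) (nat_lit 399) (nat_lit 275) (nat_lit 226)) (XT.lf (nat_lit 0) (nat_lit 538638026261) (nat_lit 76) (nat_lit 780843589687) (nat_lit 76) (nat_lit 779102214630) (nat_lit 1) (nat_lit 4) (nat_lit 2) (nat_lit 5) (nat_lit 2) (nat_lit 4) (nat_lit 400) (nat_lit 275) (nat_lit 225))) (XT.nd (nat_lit 78) (nat_lit 0) (nat_lit 0) (XT.lf (nat_lit 0) (nat_lit 585408205023) (nat_lit 76) (nat_lit 841329497847) (nat_lit 76) (nat_lit 839585312633) (nat_lit 1) (nat_lit 4)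 (nat_lit 2) (nat_lit 5) (nat_lit 2) (nat_lit 4) (nat_lit 401) (nat_lit 275) (nat_lit 224)) (XT.lf (nat_lit 0) (nat_lit 635909248620) (nat_lit 76) (nat_lit 906659652416) (nat_lit 76) (nat_lit 904912865205) (nat_lit 1) (nat_lit 4) (nat_lit 2) (nat_lit 5) (nat_lit 2) (nat_lit 4) (nat_lit 402) (nat_lit 275) (nat_lit 223)))) (XT.nd (nat_lit 156) (nat_lit 0) (nat_lit 0) (XT.nd (nat_lit 78) (nat_lit 0) (nat_lit 0) (XT.lf (nat_lit 0) (nat_lit 690440422495) (nat_lit 76) (nat_lit 977221195052) (nat_lit 76) (nat_lit 975471998584) (nat_lit 1) (nat_lit 4) (nat_lit 2) (nat_lit 5) (nat_lit 2) (nat_lit 4) (nat_lit 403) (nat_lit 275) (nat_lit 222)) (XT.lf (nat_lit 0) (nat_lit 749324874345) (nat_lit 76) (nat_lit 1053432268228) (nat_lit 76) (nat_lit 1051680840967) (nat_lit 1) (nat_lit 4) (nat_lit 2) (nat_lit 5) (nat_lit 2) (nat_lit 4) (nat_lit 404) (nat_lit 275) (nat_lit 221))) (XT.nd (nat_lit 78) (nat_lit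 0) (nat_lit 0) (XT.lf (nat_lit 0) (nat_lit 812911549071) (nat_lit 76) (nat_lit 1135744493119) (nat_lit 76) (nat_lit 1133991000308) (nat_lit 1) (nat_lit 4) (nat_lit 2) (nat_lit 5) (nat_lit 2) (nat_lit 4) (nat_lit 405) (nat_lit 275) (nat_lit 220)) (XT.lf (nat_lit 0) (nat_lit 881577256596) (nat_lit 76) (nat_lit 1224645645873) (nat_lit 76) (nat_lit 1222890240517) (nat_lit 1) (nat_lit 4) (nat_lit 2) (nat_lit 5) (nat_lit 2) (nat_lit 4) (nat_lit 406) (nat_lit 275) (nat_lit 219))))) (XT.nd (nat_lit 312) (nat_lit 0) (nat_lit 0) (XT.nd (nat_lit 156) (nat_lit 0) (nat_lit 0) (XT.nd (nat_lit 78) (nat_lit 0) (nat_lit 0) (XT.lf (nat_lit 0) (nat_lit 955728904817) (nat_lit 76) (nat_lit 1320662548136) (nat_lit 76) (nat_lit 1318905371904) (nat_lit 1) (nat_lit 4) (nat_lit 2) (nat_lit 5) (nat_lit 2) (nat_lit 4) (nat_lit 407) (nat_lit 275) (nat_lit 218)) (XT.lf (nat_lit 0) (nat_lit 1035805910908) (nat_lit 76)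 (nat_lit 1424364188957) (nat_lit 76) (nat_lit 1422605373026) (nat_lit 1) (nat_lit 4) (nat_lit 2) (nat_lit 5) (nat_lit 2) (nat_lit 4) (nat_lit 408) (nat_lit 275) (nat_lit 217))) (XT.nd (nat_lit 78) (nat_lit 0) (nat_lit 0) (XT.lf (nat_lit 0) (nat_lit 1122282805277) (nat_lit 76) (nat_lit 1536365096580) (nat_lit 76) (nat_lit 1534604762408) (nat_lit 1) (nat_lit 4) (nat_lit 2) (nat_lit 5) (nat_lit 2) (nat_lit 4) (nat_lit 409) (nat_lit 275) (nat_lit 216)) (XT.lf (nat_lit 0) (nat_lit 1215672043593) (nat_lit 76) (nat_lit 1657328980086) (nat_lit 76) (nat_lit 1655567240136) (nat_lit 1) (nat_lit 4) (nat_lit 2) (nat_lit 5) (nat_lit 2) (nat_lit 4) (nat_lit 410) (nat_lit 275) (nat_lit 215)))) (XT.nd (nat_lit 156) (nat_lit 0) (nat_lit 0) (XT.nd (nat_lit 78) (nat_lit 0) (nat_lit 0) (XT.lf (nat_lit 0) (nat_lit 1316527043565) (nat_lit 76) (nat_lit 1787972662489) (nat_lit 76) (nat_lit 1786209620892) (nat_lit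 1) (nat_lit 4) (nat_lit 2) (nat_lit 5) (nat_lit 2) (nat_lit 4) (nat_lit 411) (nat_lit 275) (nat_lit 214)) (XT.lf (nat_lit 0) (nat_lit 1425445464451) (nat_lit 76) (nat_lit 1929070328572) (nat_lit 76) (nat_lit 1927306081747) (nat_lit 1) (nat_lit 4) (nat_lit 2) (nat_lit 5) (nat_lit 2) (nat_lit 4) (nat_lit 412) (nat_lit 275) (nat_lit 213))) (XT.nd (nat_lit 78) (nat_lit 0) (nat_lit 0) (XT.lf (nat_lit 0) (nat_lit 1543072748747) (nat_lit 76) (nat_lit 2081458112655) (nat_lit 76) (nat_lit 2079692749878) (nat_lit 1) (nat_lit 4) (nat_lit 2) (nat_lit 5) (nat_lit 2) (nat_lit 4) (nat_lit 413) (nat_lit 275) (nat_lit 212)) (XT.nd (nat_lit 41730) (nat_lit 0) (nat_lit 228) (XT.lf (nat_lit 0) (nat_lit 1670105947026) (nat_lit 76) (nat_lit 2246039053456) (nat_lit 76) (nat_lit 2244272657390) (nat_lit 1) (nat_lit 4) (nat_lit 2) (nat_lit 5) (nat_lit 2) (nat_lit 4) (nat_lit 414) (nat_lit 275) (nat_lit 211)) (XT.lf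 (nat_lit 0) (nat_lit 2149229987) (nat_lit 76) (nat_lit 9385562183) (nat_lit 76) (nat_lit 9385562183) (nat_lit 4) (nat_lit 4) (nat_lit 5) (nat_lit 5) (nat_lit 5) (nat_lit 4) (nat_lit 348) (nat_lit 276) (nat_lit 276))))))) (XT.nd (nat_lit 624) (nat_lit 0) (nat_lit 0) (XT.nd (nat_lit 312) (nat_lit 152) (nat_lit 0) (XT.nd (nat_lit 156) (nat_lit 0) (nat_lit 0) (XT.nd (nat_lit 78) (nat_lit 0) (nat_lit 0) (XT.lf (nat_lit 0) (nat_lit 14180535765) (nat_lit 76) (nat_lit 15387292981) (nat_lit 76) (nat_lit 15233560408) (nat_lit 4) (nat_lit 4) (nat_lit 5) (nat_lit 5) (nat_lit 5) (nat_lit 4) (nat_lit 349) (nat_lit 276) (nat_lit 275)) (XT.lf (nat_lit 0) (nat_lit 24388117751) (nat_lit 76) (nat_lit 11962866184) (nat_lit 76) (nat_lit 11666788637) (nat_lit 4) (nat_lit 4) (nat_lit 5) (nat_lit 5) (nat_lit 5) (nat_lit 4) (nat_lit 350) (nat_lit 276) (nat_lit 274))) (XT.nd (nat_lit 78) (nat_lit 0) (nat_lit 0)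 (XT.lf (nat_lit 0) (nat_lit 34981695309) (nat_lit 76) (nat_lit 8477551077) (nat_lit 76) (nat_lit 8049672628) (nat_lit 4) (nat_lit 4) (nat_lit 5) (nat_lit 5) (nat_lit 5) (nat_lit 4) (nat_lit 351) (nat_lit 276) (nat_lit 273)) (XT.lf (nat_lit 0) (nat_lit 46024045194) (nat_lit 76) (nat_lit 4910693940) (nat_lit 76) (nat_lit 4360777619) (nat_lit 4) (nat_lit 4) (nat_lit 5) (nat_lit 5) (nat_lit 5) (nat_lit 4) (nat_lit 352) (nat_lit 276) (nat_lit 272)))) (XT.nd (nat_lit 156) (nat_lit 0) (nat_lit 0) (XT.nd (nat_lit 78) (nat_lit 152) (nat_lit 0) (XT.lf (nat_lit 0) (nat_lit 57580603554) (nat_lit 76) (nat_lit 1241157843) (nat_lit 76) (nat_lit 578243492) (nat_lit 4) (nat_lit 4) (nat_lit 5) (nat_lit 5) (nat_lit 5) (nat_lit 4) (nat_lit 353) (nat_lit 276) (nat_lit 271)) (XT.lf (nat_lit 0) (nat_lit 3368191924) (nat_lit 152) (nat_lit 57797505758) (nat_lit 0) (nat_lit 2657504742) (nat_lit 2) (nat_lit 5) (nat_lit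 4) (nat_lit 4) (nat_lit 2) (nat_lit 4) (nat_lit 354) (nat_lit 276) (nat_lit 270))) (XT.nd (nat_lit 78) (nat_lit 0) (nat_lit 0) (XT.lf (nat_lit 0) (nat_lit 7505967354) (nat_lit 152) (nat_lit 54394992110) (nat_lit 0) (nat_lit 6705578693) (nat_lit 2) (nat_lit 5) (nat_lit 4) (nat_lit 4) (nat_lit 2) (nat_lit 4) (nat_lit 355) (nat_lit 276) (nat_lit 269)) (XT.lf (nat_lit 0) (nat_lit 11811421978) (nat_lit 152) (nat_lit 51046240521) (nat_lit 0) (nat_lit 10927976391) (nat_lit 2) (nat_lit 5) (nat_lit 4) (nat_lit 4) (nat_lit 2) (nat_lit 4) (nat_lit 356) (nat_lit 276) (nat_lit 268))))) (XT.nd (nat_lit 312) (nat_lit 0) (nat_lit 0) (XT.nd (nat_lit 156) (nat_lit 0) (nat_lit 0) (XT.nd (nat_lit 78) (nat_lit 0) (nat_lit 0) (XT.lf (nat_lit 0) (nat_lit 16310069599) (nat_lit 152) (nat_lit 47731406538) (nat_lit 0) (nat_lit 15349719452) (nat_lit 2) (nat_lit 5) (nat_lit 4) (nat_lit 4) (nat_lit 2) (nat_lit 4) (nat_lit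 357) (nat_lit 276) (nat_lit 267)) (XT.lf (nat_lit 0) (nat_lit 21028568870) (nat_lit 152) (nat_lit 44430846700) (nat_lit 0) (nat_lit 19997010797) (nat_lit 2) (nat_lit 5) (nat_lit 4) (nat_lit 4) (nat_lit 2) (nat_lit 4) (nat_lit 358) (nat_lit 276) (nat_lit 266))) (XT.nd (nat_lit 78) (nat_lit 0) (nat_lit 0) (XT.lf (nat_lit 0) (nat_lit 25994881269) (nat_lit 152) (nat_lit 41125002135) (nat_lit 0) (nat_lit 24897389930) (nat_lit 2) (nat_lit 5) (nat_lit 4) (nat_lit 4) (nat_lit 2) (nat_lit 4) (nat_lit 359) (nat_lit 276) (nat_lit 265)) (XT.lf (nat_lit 0) (nat_lit 31238436794) (nat_lit 152) (nat_lit 37794282651) (nat_lit 0) (nat_lit 30079896136) (nat_lit 2) (nat_lit 5) (nat_lit 4) (nat_lit 4) (nat_lit 2) (nat_lit 4) (nat_lit 360) (nat_lit 276) (nat_lit 264)))) (XT.nd (nat_lit 156) (nat_lit 0) (nat_lit 0) (XT.nd (nat_lit 78) (nat_lit 0) (nat_lit 0) (XT.lf (nat_lit 0) (nat_lit 36790308368) (nat_lit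 152) (nat_lit 34418950652) (nat_lit 0) (nat_lit 35575240563) (nat_lit 2) (nat_lit 5) (nat_lit 4) (nat_lit 4) (nat_lit 2) (nat_lit 4) (nat_lit 361) (nat_lit 276) (nat_lit 263)) (XT.lf (nat_lit 0) (nat_lit 42683395971) (nat_lit 152) (nat_lit 30979004170) (nat_lit 0) (nat_lit 41415988213) (nat_lit 2) (nat_lit 5) (nat_lit 4) (nat_lit 4) (nat_lit 2) (nat_lit 4) (nat_lit 362) (nat_lit 276) (nat_lit 262))) (XT.nd (nat_lit 78) (nat_lit 0) (nat_lit 0) (XT.lf (nat_lit 0) (nat_lit 48952621602) (nat_lit 152) (nat_lit 27454058338) (nat_lit 0) (nat_lit 47636750926) (nat_lit 2) (nat_lit 5) (nat_lit 4) (nat_lit 4) (nat_lit 2) (nat_lit 4) (nat_lit 363) (nat_lit 276) (nat_lit 261)) (XT.nd (nat_lit 78) (nat_lit 0) (nat_lit 0) (XT.lf (nat_lit 0) (nat_lit 55635136228) (nat_lit 152) (nat_lit 23823224588) (nat_lit 0) (nat_lit 54274392481) (nat_lit 2) (nat_lit 5) (nat_lit 4) (nat_lit 4) (nat_lit 2) (nat_lit 4)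 (nat_lit 364) (nat_lit 276) (nat_lit 260)) (XT.lf (nat_lit 0) (nat_lit 62770539937) (nat_lit 152) (nat_lit 20064986868) (nat_lit 0) (nat_lit 61368247048) (nat_lit 2) (nat_lit 5) (nat_lit 4) (nat_lit 4) (nat_lit 2) (nat_lit 4) (nat_lit 365) (nat_lit 276) (nat_lit 259))))))))
noncomputable def xc33 : XT := (XT.nd (nat_lit 1326) (nat_lit 0) (nat_lit 0) (XT.nd (nat_lit 624) (nat_lit 0) (nat_lit 0) (XT.nd (nat_lit 312) (nat_lit 76) (nat_lit 0) (XT.nd (nat_lit 156) (nat_lit 0) (nat_lit 0) (XT.nd (nat_lit 78) (nat_lit 0) (nat_lit 0) (XT.lf (nat_lit 0) (nat_lit 70401116602) (nat_lit 152) (nat_lit 16157074139) (nat_lit 0) (nat_lit 68960352286) (nat_lit 2) (nat_lit 5) (nat_lit 4) (nat_lit 4) (nat_lit 2) (nat_lit 4) (nat_lit 366) (nat_lit 276) (nat_lit 258)) (XT.lf (nat_lit 0) (nat_lit 78572084454) (nat_lit 152) (nat_lit 12076328400) (nat_lit 0) (nat_lit 77095698447) (nat_lit 2) (nat_lit 5) (nat_lit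 4) (nat_lit 4) (nat_lit 2) (nat_lit 4) (nat_lit 367) (nat_lit 276) (nat_lit 257))) (XT.nd (nat_lit 78) (nat_lit 0) (nat_lit 0) (XT.lf (nat_lit 0) (nat_lit 87331864046) (nat_lit 152) (nat_lit 7798567454) (nat_lit 0) (nat_lit 85822494990) (nat_lit 2) (nat_lit 5) (nat_lit 4) (nat_lit 4) (nat_lit 2) (nat_lit 4) (nat_lit 368) (nat_lit 276) (nat_lit 256)) (XT.lf (nat_lit 0) (nat_lit 96732365180) (nat_lit 152) (nat_lit 3298441607) (nat_lit 0) (nat_lit 95192456266) (nat_lit 2) (nat_lit 5) (nat_lit 4) (nat_lit 4) (nat_lit 2) (nat_lit 4) (nat_lit 369) (nat_lit 276) (nat_lit 255)))) (XT.nd (nat_lit 156) (nat_lit 0) (nat_lit 0) (XT.nd (nat_lit 78) (nat_lit 0) (nat_lit 0) (XT.lf (nat_lit 0) (nat_lit 1527108715) (nat_lit 76) (nat_lit 105338912817) (nat_lit 76) (nat_lit 103770726255) (nat_lit 1) (nat_lit 4) (nat_lit 2) (nat_lit 5) (nat_lit 2) (nat_lit 4) (nat_lit 370) (nat_lit 276) (nat_lit 254)) (XT.lf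 (nat_lit 0) (nat_lit 6818120171) (nat_lit 76) (nat_lit 111028341537) (nat_lit 76) (nat_lit 109433971969) (nat_lit 1) (nat_lit 4) (nat_lit 2) (nat_lit 5) (nat_lit 2) (nat_lit 4) (nat_lit 371) (nat_lit 276) (nat_lit 253))) (XT.nd (nat_lit 78) (nat_lit 0) (nat_lit 0) (XT.lf (nat_lit 0) (nat_lit 12432256811) (nat_lit 76) (nat_lit 117222993321) (nat_lit 76) (nat_lit 115604380228) (nat_lit 1) (nat_lit 4) (nat_lit 2) (nat_lit 5) (nat_lit 2) (nat_lit 4) (nat_lit 372) (nat_lit 276) (nat_lit 252)) (XT.lf (nat_lit 0) (nat_lit 18402787594) (nat_lit 76) (nat_lit 123959577215) (nat_lit 76) (nat_lit 122318516414) (nat_lit 1) (nat_lit 4) (nat_lit 2) (nat_lit 5) (nat_lit 2) (nat_lit 4) (nat_lit 373) (nat_lit 276) (nat_lit 251))))) (XT.nd (nat_lit 312) (nat_lit 0) (nat_lit 0) (XT.nd (nat_lit 156) (nat_lit 0) (nat_lit 0) (XT.nd (nat_lit 78) (nat_lit 0) (nat_lit 0) (XT.lf (nat_lit 0) (nat_lit 24765093442)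 (nat_lit 76) (nat_lit 131278013718) (nat_lit 76) (nat_lit 129616168002) (nat_lit 1) (nat_lit 4) (nat_lit 2) (nat_lit 5) (nat_lit 2) (nat_lit 4) (nat_lit 374) (nat_lit 276) (nat_lit 250)) (XT.lf (nat_lit 0) (nat_lit 31556876909) (nat_lit 76) (nat_lit 139221671341) (nat_lit 76) (nat_lit 137540580334) (nat_lit 1) (nat_lit 4) (nat_lit 2) (nat_lit 5) (nat_lit 2) (nat_lit 4) (nat_lit 375) (nat_lit 276) (nat_lit 249))) (XT.nd (nat_lit 78) (nat_lit 0) (nat_lit 0) (XT.lf (nat_lit 0) (nat_lit 38818385600) (nat_lit 76) (nat_lit 147837623612) (nat_lit 76) (nat_lit 146138712890) (nat_lit 1) (nat_lit 4) (nat_lit 2) (nat_lit 5) (nat_lit 2) (nat_lit 4) (nat_lit 376) (nat_lit 276) (nat_lit 248)) (XT.lf (nat_lit 0) (nat_lit 46592650678) (nat_lit 76) (nat_lit 157176928025) (nat_lit 76) (nat_lit 155461517567) (nat_lit 1) (nat_lit 4) (nat_lit 2) (nat_lit 5) (nat_lit 2) (nat_lit 4) (nat_lit 377) (nat_lit 276)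 (nat_lit 247)))) (XT.nd (nat_lit 156) (nat_lit 0) (nat_lit 0) (XT.nd (nat_lit 78) (nat_lit 0) (nat_lit 0) (XT.lf (nat_lit 0) (nat_lit 54925741862) (nat_lit 76) (nat_lit 167294928607) (nat_lit 76) (nat_lit 165564240616) (nat_lit 1) (nat_lit 4) (nat_lit 2) (nat_lit 5) (nat_lit 2) (nat_lit 4) (nat_lit 378) (nat_lit 276) (nat_lit 246)) (XT.lf (nat_lit 0) (nat_lit 63867040433) (nat_lit 76) (nat_lit 178251583879) (nat_lit 76) (nat_lit 176506750024) (nat_lit 1) (nat_lit 4) (nat_lit 2) (nat_lit 5) (nat_lit 2) (nat_lit 4) (nat_lit 379) (nat_lit 276) (nat_lit 245))) (XT.nd (nat_lit 78) (nat_lit 0) (nat_lit 0) (XT.lf (nat_lit 0) (nat_lit 73469531864) (nat_lit 76) (nat_lit 190111822169) (nat_lit 76) (nat_lit 188353890292) (nat_lit 1) (nat_lit 4) (nat_lit 2) (nat_lit 5) (nat_lit 2) (nat_lit 4) (nat_lit 380) (nat_lit 276) (nat_lit 244)) (XT.nd (nat_lit 78) (nat_lit 0) (nat_lit 0) (XT.lf (nat_lit 0)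 (nat_lit 83790119809) (nat_lit 76) (nat_lit 202945926370) (nat_lit 76) (nat_lit 201175866696) (nat_lit 1) (nat_lit 4) (nat_lit 2) (nat_lit 5) (nat_lit 2) (nat_lit 4) (nat_lit 381) (nat_lit 276) (nat_lit 243)) (XT.lf (nat_lit 0) (nat_lit 94889963305) (nat_lit 76) (nat_lit 216829950434) (nat_lit 76) (nat_lit 215048661317) (nat_lit 1) (nat_lit 4) (nat_lit 2) (nat_lit 5) (nat_lit 2) (nat_lit 4) (nat_lit 382) (nat_lit 276) (nat_lit 242))))))) (XT.nd (nat_lit 624) (nat_lit 0) (nat_lit 0) (XT.nd (nat_lit 312) (nat_lit 0) (nat_lit 0) (XT.nd (nat_lit 156) (nat_lit 0) (nat_lit 0) (XT.nd (nat_lit 78) (nat_lit 0) (nat_lit 0) (XT.lf (nat_lit 0) (nat_lit 106834839205) (nat_lit 76) (nat_lit 231846170059) (nat_lit 76) (nat_lit 230054483309) (nat_lit 1) (nat_lit 4) (nat_lit 2) (nat_lit 5) (nat_lit 2) (nat_lit 4) (nat_lit 383) (nat_lit 276) (nat_lit 241)) (XT.lf (nat_lit 0) (nat_lit 119695531958) (nat_lit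 76) (nat_lit 248083570249) (nat_lit 76) (nat_lit 246282256062) (nat_lit 1) (nat_lit 4) (nat_lit 2) (nat_lit 5) (nat_lit 2) (nat_lit 4) (nat_lit 384) (nat_lit 276) (nat_lit 240))) (XT.nd (nat_lit 78) (nat_lit 0) (nat_lit 0) (XT.lf (nat_lit 0) (nat_lit 133548253076) (nat_lit 76) (nat_lit 265638372636) (nat_lit 76) (nat_lit 263828144155) (nat_lit 1) (nat_lit 4) (nat_lit 2) (nat_lit 5) (nat_lit 2) (nat_lit 4) (nat_lit 385) (nat_lit 276) (nat_lit 239)) (XT.lf (nat_lit 0) (nat_lit 148475092759) (nat_lit 76) (nat_lit 284614605678) (nat_lit 76) (nat_lit 282796123222) (nat_lit 1) (nat_lit 4) (nat_lit 2) (nat_lit 5) (nat_lit 2) (nat_lit 4) (nat_lit 386) (nat_lit 276) (nat_lit 238)))) (XT.nd (nat_lit 156) (nat_lit 0) (nat_lit 0) (XT.nd (nat_lit 78) (nat_lit 0) (nat_lit 0) (XT.lf (nat_lit 0) (nat_lit 164564506352) (nat_lit 76) (nat_lit 305124721126) (nat_lit 76) (nat_lit 303298596100) (nat_lit 1)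 (nat_lit 4) (nat_lit 2) (nat_lit 5) (nat_lit 2) (nat_lit 4) (nat_lit 387) (nat_lit 276) (nat_lit 237)) (XT.lf (nat_lit 0) (nat_lit 181911838530) (nat_lit 76) (nat_lit 327290260406) (nat_lit 76) (nat_lit 325457058925) (nat_lit 1) (nat_lit 4) (nat_lit 2) (nat_lit 5) (nat_lit 2) (nat_lit 4) (nat_lit 388) (nat_lit 276) (nat_lit 236))) (XT.nd (nat_lit 78) (nat_lit 0) (nat_lit 0) (XT.lf (nat_lit 0) (nat_lit 200619888297) (nat_lit 76) (nat_lit 351242574860) (nat_lit 76) (nat_lit 349402821108) (nat_lit 1) (nat_lit 4) (nat_lit 2) (nat_lit 5) (nat_lit 2) (nat_lit 4) (nat_lit 389) (nat_lit 276) (nat_lit 235)) (XT.lf (nat_lit 0) (nat_lit 220799518171) (nat_lit 76) (nat_lit 377123604132) (nat_lit 76) (nat_lit 375277783461) (nat_lit 1) (nat_lit 4) (nat_lit 2) (nat_lit 5) (nat_lit 2) (nat_lit 4) (nat_lit 390) (nat_lit 276) (nat_lit 234))))) (XT.nd (nat_lit 312) (nat_lit 0) (nat_lit 0) (XT.nd (nat_lit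 156) (nat_lit 0) (nat_lit 0) (XT.nd (nat_lit 78) (nat_lit 0) (nat_lit 0) (XT.lf (nat_lit 0) (nat_lit 242570311143) (nat_lit 76) (nat_lit 405086717282) (nat_lit 76) (nat_lit 403235279094) (nat_lit 1) (nat_lit 4) (nat_lit 2) (nat_lit 5) (nat_lit 2) (nat_lit 4) (nat_lit 391) (nat_lit 276) (nat_lit 233)) (XT.lf (nat_lit 0) (nat_lit 266061279321) (nat_lit 76) (nat_lit 435297621647) (nat_lit 76) (nat_lit 433440982055) (nat_lit 1) (nat_lit 4) (nat_lit 2) (nat_lit 5) (nat_lit 2) (nat_lit 4) (nat_lit 392) (nat_lit 276) (nat_lit 232))) (XT.nd (nat_lit 78) (nat_lit 0) (nat_lit 0) (XT.lf (nat_lit 0) (nat_lit 291411628440) (nat_lit 76) (nat_lit 467935344811) (nat_lit 76) (nat_lit 466073889102) (nat_lit 1) (nat_lit 4) (nat_lit 2) (nat_lit 5) (nat_lit 2) (nat_lit 4) (nat_lit 393) (nat_lit 276) (nat_lit 231)) (XT.lf (nat_lit 0) (nat_lit 318771582794) (nat_lit 76) (nat_lit 503193295501) (nat_lit 76) (nat_lit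 501327380427) (nat_lit 1) (nat_lit 4) (nat_lit 2) (nat_lit 5) (nat_lit 2) (nat_lit 4) (nat_lit 394) (nat_lit 276) (nat_lit 230)))) (XT.nd (nat_lit 156) (nat_lit 0) (nat_lit 0) (XT.nd (nat_lit 78) (nat_lit 0) (nat_lit 0) (XT.lf (nat_lit 0) (nat_lit 348303275443) (nat_lit 76) (nat_lit 541280409723) (nat_lit 76) (nat_lit 539410365605) (nat_lit 1) (nat_lit 4) (nat_lit 2) (nat_lit 5) (nat_lit 2) (nat_lit 4) (nat_lit 395) (nat_lit 276) (nat_lit 229)) (XT.lf (nat_lit 0) (nat_lit 380181709012) (nat_lit 76) (nat_lit 582422388893) (nat_lit 76) (nat_lit 580548521588) (nat_lit 1) (nat_lit 4) (nat_lit 2) (nat_lit 5) (nat_lit 2) (nat_lit 4) (nat_lit 396) (nat_lit 276) (nat_lit 228))) (XT.nd (nat_lit 78) (nat_lit 0) (nat_lit 0) (XT.lf (nat_lit 0) (nat_lit 414595792736) (nat_lit 76) (nat_lit 626863037334) (nat_lit 76) (nat_lit 624985630040) (nat_lit 1) (nat_lit 4) (nat_lit 2) (nat_lit 5) (nat_lit 2) (nat_lit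 4) (nat_lit 397) (nat_lit 276) (nat_lit 227)) (XT.nd (nat_lit 78) (nat_lit 0) (nat_lit 0) (XT.lf (nat_lit 0) (nat_lit 451749461927) (nat_lit 76) (nat_lit 674865707035) (nat_lit 76) (nat_lit 672985021974) (nat_lit 1) (nat_lit 4) (nat_lit 2) (nat_lit 5) (nat_lit 2) (nat_lit 4) (nat_lit 398) (nat_lit 276) (nat_lit 226)) (XT.lf (nat_lit 0) (nat_lit 491862886475) (nat_lit 76) (nat_lit 726714858262) (nat_lit 76) (nat_lit 724831138231) (nat_lit 1) (nat_lit 4) (nat_lit 2) (nat_lit 5) (nat_lit 2) (nat_lit 4) (nat_lit 399) (nat_lit 276) (nat_lit 225))))))))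
noncomputable def xc34 : XT := (XT.nd (nat_lit 42822) (nat_lit 0) (nat_lit 76) (XT.nd (nat_lit 624) (nat_lit 0) (nat_lit 0) (XT.nd (nat_lit 312) (nat_lit 0) (nat_lit 0) (XT.nd (nat_lit 156) (nat_lit 0) (nat_lit 0) (XT.nd (nat_lit 78) (nat_lit 0) (nat_lit 0) (XT.lf (nat_lit 0) (nat_lit 535173775564) (nat_lit 76) (nat_lit 782717745244) (nat_lit 76) (nat_lit 780831215056) (nat_lit 1) (nat_lit 4) (nat_lit 2) (nat_lit 5) (nat_lit 2) (nat_lit 4) (nat_lit 400) (nat_lit 276) (nat_lit 224)) (XT.lf (nat_lit 0) (nat_lit 581938786314) (nat_lit 76) (nat_lit 843206236941) (nat_lit 76) (nat_lit 841317104756) (nat_lit 1) (nat_lit 4) (nat_lit 2) (nat_lit 5) (nat_lit 2) (nat_lit 4) (nat_lit 401) (nat_lit 276) (nat_lit 223))) (XT.nd (nat_lit 78) (nat_lit 0) (nat_lit 0) (XT.lf (nat_lit 0) (nat_lit 632435044714) (nat_lit 76) (nat_lit 908538783674) (nat_lit 76) (nat_lit 906647242232) (nat_lit 1) (nat_lit 4)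 (nat_lit 2) (nat_lit 5) (nat_lit 2) (nat_lit 4) (nat_lit 402) (nat_lit 276) (nat_lit 222)) (XT.lf (nat_lit 0) (nat_lit 686961787851) (nat_lit 76) (nat_lit 979102541276) (nat_lit 76) (nat_lit 977208769040) (nat_lit 1) (nat_lit 4) (nat_lit 2) (nat_lit 5) (nat_lit 2) (nat_lit 4) (nat_lit 403) (nat_lit 276) (nat_lit 221)))) (XT.nd (nat_lit 156) (nat_lit 0) (nat_lit 0) (XT.nd (nat_lit 78) (nat_lit 0) (nat_lit 0) (XT.lf (nat_lit 0) (nat_lit 745842137166) (nat_lit 76) (nat_lit 1055315665346) (nat_lit 76) (nat_lit 1053419827562) (nat_lit 1) (nat_lit 4) (nat_lit 2) (nat_lit 5) (nat_lit 2) (nat_lit 4) (nat_lit 404) (nat_lit 276) (nat_lit 220)) (XT.lf (nat_lit 0) (nat_lit 809425013248) (nat_lit 76) (nat_lit 1137629789214) (nat_lit 76) (nat_lit 1135732038884) (nat_lit 1) (nat_lit 4) (nat_lit 2) (nat_lit 5) (nat_lit 2) (nat_lit 4) (nat_lit 405) (nat_lit 276) (nat_lit 219))) (XT.nd (nat_lit 78) (nat_lit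 0) (nat_lit 0) (XT.lf (nat_lit 0) (nat_lit 878087203511) (nat_lit 76) (nat_lit 1226532700280) (nat_lit 76) (nat_lit 1224633179074) (nat_lit 1) (nat_lit 4) (nat_lit 2) (nat_lit 5) (nat_lit 2) (nat_lit 4) (nat_lit 406) (nat_lit 276) (nat_lit 218)) (XT.lf (nat_lit 0) (nat_lit 952235595007) (nat_lit 76) (nat_lit 1322551230609) (nat_lit 76) (nat_lit 1320650069703) (nat_lit 1) (nat_lit 4) (nat_lit 2) (nat_lit 5) (nat_lit 2) (nat_lit 4) (nat_lit 407) (nat_lit 276) (nat_lit 217))))) (XT.nd (nat_lit 312) (nat_lit 0) (nat_lit 0) (XT.nd (nat_lit 156) (nat_lit 0) (nat_lit 0) (XT.nd (nat_lit 78) (nat_lit 0) (nat_lit 0) (XT.lf (nat_lit 0) (nat_lit 1032309585613) (nat_lit 76) (nat_lit 1426254378900) (nat_lit 76) (nat_lit 1424351699753) (nat_lit 1) (nat_lit 4) (nat_lit 2) (nat_lit 5) (nat_lit 2) (nat_lit 4) (nat_lit 408) (nat_lit 276) (nat_lit 216)) (XT.lf (nat_lit 0) (nat_lit 1118783687865) (nat_lit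 76) (nat_lit 1538256682327) (nat_lit 76) (nat_lit 1536352597402) (nat_lit 1) (nat_lit 4) (nat_lit 2) (nat_lit 5) (nat_lit 2) (nat_lit 4) (nat_lit 409) (nat_lit 276) (nat_lit 215))) (XT.nd (nat_lit 78) (nat_lit 0) (nat_lit 0) (XT.lf (nat_lit 0) (nat_lit 1212170340888) (nat_lit 76) (nat_lit 1659221858245) (nat_lit 76) (nat_lit 1657316471673) (nat_lit 1) (nat_lit 4) (nat_lit 2) (nat_lit 5) (nat_lit 2) (nat_lit 4) (nat_lit 410) (nat_lit 276) (nat_lit 214)) (XT.lf (nat_lit 0) (nat_lit 1313022947070) (nat_lit 76) (nat_lit 1789866737324) (nat_lit 76) (nat_lit 1787960145525) (nat_lit 1) (nat_lit 4) (nat_lit 2) (nat_lit 5) (nat_lit 2) (nat_lit 4) (nat_lit 411) (nat_lit 276) (nat_lit 213)))) (XT.nd (nat_lit 156) (nat_lit 0) (nat_lit 0) (XT.nd (nat_lit 78) (nat_lit 0) (nat_lit 0) (XT.lf (nat_lit 0) (nat_lit 1421939151485) (nat_lit 76) (nat_lit 1930965511443) (nat_lit 76) (nat_lit 1929057803691) (nat_lit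 1) (nat_lit 4) (nat_lit 2) (nat_lit 5) (nat_lit 2) (nat_lit 4) (nat_lit 412) (nat_lit 276) (nat_lit 212)) (XT.lf (nat_lit 0) (nat_lit 1539564383492) (nat_lit 76) (nat_lit 2083354321483) (nat_lit 76) (nat_lit 2081445580443) (nat_lit 1) (nat_lit 4) (nat_lit 2) (nat_lit 5) (nat_lit 2) (nat_lit 4) (nat_lit 413) (nat_lit 276) (nat_lit 211))) (XT.nd (nat_lit 41574) (nat_lit 0) (nat_lit 304) (XT.lf (nat_lit 0) (nat_lit 1666595681503) (nat_lit 76) (nat_lit 2247936212246) (nat_lit 76) (nat_lit 2246026514456) (nat_lit 1) (nat_lit 4) (nat_lit 2) (nat_lit 5) (nat_lit 2) (nat_lit 4) (nat_lit 414) (nat_lit 276) (nat_lit 210)) (XT.nd (nat_lit 78) (nat_lit 0) (nat_lit 0) (XT.lf (nat_lit 0) (nat_lit 5710413606) (nat_lit 152) (nat_lit 6868820887) (nat_lit 0) (nat_lit 5710413606) (nat_lit 5) (nat_lit 5) (nat_lit 7) (nat_lit 4) (nat_lit 5) (nat_lit 4) (nat_lit 346) (nat_lit 277) (nat_lit 277)) (XT.lf (nat_lit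 0) (nat_lit 17111639830) (nat_lit 152) (nat_lit 5050708697) (nat_lit 0) (nat_lit 16945608652) (nat_lit 5) (nat_lit 5) (nat_lit 7) (nat_lit 4) (nat_lit 5) (nat_lit 4) (nat_lit 347) (nat_lit 277) (nat_lit 276))))))) (XT.nd (nat_lit 624) (nat_lit 0) (nat_lit 0) (XT.nd (nat_lit 312) (nat_lit 152) (nat_lit 0) (XT.nd (nat_lit 156) (nat_lit 0) (nat_lit 0) (XT.nd (nat_lit 78) (nat_lit 0) (nat_lit 0) (XT.lf (nat_lit 0) (nat_lit 4056986583) (nat_lit 76) (nat_lit 19056636308) (nat_lit 76) (nat_lit 18736872558) (nat_lit 4) (nat_lit 4) (nat_lit 5) (nat_lit 5) (nat_lit 5) (nat_lit 4) (nat_lit 348) (nat_lit 277) (nat_lit 275)) (XT.lf (nat_lit 0) (nat_lit 13715475898) (nat_lit 76) (nat_lit 15783435259) (nat_lit 76) (nat_lit 15321326534) (nat_lit 4) (nat_lit 4) (nat_lit 5) (nat_lit 5) (nat_lit 5) (nat_lit 4) (nat_lit 349) (nat_lit 277) (nat_lit 274))) (XT.nd (nat_lit 78) (nat_lit 0) (nat_lit 0) (XT.lf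 (nat_lit 0) (nat_lit 23716033371) (nat_lit 76) (nat_lit 12461443959) (nat_lit 76) (nat_lit 11867534332) (nat_lit 4) (nat_lit 4) (nat_lit 5) (nat_lit 5) (nat_lit 5) (nat_lit 4) (nat_lit 350) (nat_lit 277) (nat_lit 273)) (XT.lf (nat_lit 0) (nat_lit 34117921565) (nat_lit 76) (nat_lit 9070976534) (nat_lit 76) (nat_lit 8355029035) (nat_lit 4) (nat_lit 4) (nat_lit 5) (nat_lit 5) (nat_lit 5) (nat_lit 4) (nat_lit 351) (nat_lit 277) (nat_lit 272)))) (XT.nd (nat_lit 156) (nat_lit 152) (nat_lit 0) (XT.nd (nat_lit 78) (nat_lit 0) (nat_lit 0) (XT.lf (nat_lit 0) (nat_lit 44982781299) (nat_lit 76) (nat_lit 5591941325) (nat_lit 76) (nat_lit 4762995796) (nat_lit 4) (nat_lit 4) (nat_lit 5) (nat_lit 5) (nat_lit 5) (nat_lit 4) (nat_lit 352) (nat_lit 277) (nat_lit 271)) (XT.lf (nat_lit 0) (nat_lit 56374996925) (nat_lit 76) (nat_lit 2003721828) (nat_lit 76) (nat_lit 1070148494) (nat_lit 4) (nat_lit 4) (nat_lit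 5) (nat_lit 5) (nat_lit 5) (nat_lit 4) (nat_lit 353) (nat_lit 277) (nat_lit 270))) (XT.nd (nat_lit 78) (nat_lit 0) (nat_lit 0) (XT.lf (nat_lit 0) (nat_lit 2765158081) (nat_lit 152) (nat_lit 59307691100) (nat_lit 0) (nat_lit 1811036848) (nat_lit 2) (nat_lit 5) (nat_lit 4) (nat_lit 4) (nat_lit 2) (nat_lit 4) (nat_lit 354) (nat_lit 277) (nat_lit 269)) (XT.lf (nat_lit 0) (nat_lit 6824403299) (nat_lit 152) (nat_lit 56061890505) (nat_lit 0) (nat_lit 5787225141) (nat_lit 2) (nat_lit 5) (nat_lit 4) (nat_lit 4) (nat_lit 2) (nat_lit 4) (nat_lit 355) (nat_lit 277) (nat_lit 268))))) (XT.nd (nat_lit 312) (nat_lit 0) (nat_lit 0) (XT.nd (nat_lit 156) (nat_lit 0) (nat_lit 0) (XT.nd (nat_lit 78) (nat_lit 0) (nat_lit 0) (XT.lf (nat_lit 0) (nat_lit 11057144763) (nat_lit 152) (nat_lit 52858243596) (nat_lit 0) (nat_lit 9943062044) (nat_lit 2) (nat_lit 5) (nat_lit 4) (nat_lit 4) (nat_lit 2) (nat_lit 4) (nat_lit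 356) (nat_lit 277) (nat_lit 267)) (XT.lf (nat_lit 0) (nat_lit 15488465384) (nat_lit 152) (nat_lit 49677765797) (nat_lit 0) (nat_lit 14303174739) (nat_lit 2) (nat_lit 5) (nat_lit 4) (nat_lit 4) (nat_lit 2) (nat_lit 4) (nat_lit 357) (nat_lit 277) (nat_lit 266))) (XT.nd (nat_lit 78) (nat_lit 0) (nat_lit 0) (XT.lf (nat_lit 0) (nat_lit 20144624841) (nat_lit 152) (nat_lit 46501609834) (nat_lit 0) (nat_lit 18893400930) (nat_lit 2) (nat_lit 5) (nat_lit 4) (nat_lit 4) (nat_lit 2) (nat_lit 4) (nat_lit 358) (nat_lit 277) (nat_lit 265)) (XT.lf (nat_lit 0) (nat_lit 25053215189) (nat_lit 152) (nat_lit 43310954041) (nat_lit 0) (nat_lit 23740941959) (nat_lit 2) (nat_lit 5) (nat_lit 4) (nat_lit 4) (nat_lit 2) (nat_lit 4) (nat_lit 359) (nat_lit 277) (nat_lit 264)))) (XT.nd (nat_lit 156) (nat_lit 0) (nat_lit 0) (XT.nd (nat_lit 78) (nat_lit 0) (nat_lit 0) (XT.lf (nat_lit 0) (nat_lit 30243324371) (nat_lit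 152) (nat_lit 40086890828) (nat_lit 0) (nat_lit 28874523994) (nat_lit 2) (nat_lit 5) (nat_lit 4) (nat_lit 4) (nat_lit 2) (nat_lit 4) (nat_lit 360) (nat_lit 277) (nat_lit 263)) (XT.lf (nat_lit 0) (nat_lit 35745708591) (nat_lit 152) (nat_lit 36810314635) (nat_lit 0) (nat_lit 34324568262) (nat_lit 2) (nat_lit 5) (nat_lit 4) (nat_lit 4) (nat_lit 2) (nat_lit 4) (nat_lit 361) (nat_lit 277) (nat_lit 262))) (XT.nd (nat_lit 78) (nat_lit 0) (nat_lit 0) (XT.lf (nat_lit 0) (nat_lit 41592974568) (nat_lit 152) (nat_lit 33461808716) (nat_lit 0) (nat_lit 40123371321) (nat_lit 2) (nat_lit 5) (nat_lit 4) (nat_lit 4) (nat_lit 2) (nat_lit 4) (nat_lit 362) (nat_lit 277) (nat_lit 261)) (XT.nd (nat_lit 78) (nat_lit 0) (nat_lit 0) (XT.lf (nat_lit 0) (nat_lit 47819772769) (nat_lit 152) (nat_lit 30021530070) (nat_lit 0) (nat_lit 46305296449) (nat_lit 2) (nat_lit 5) (nat_lit 4) (nat_lit 4) (nat_lit 2) (nat_lit 4)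 (nat_lit 363) (nat_lit 277) (nat_lit 260)) (XT.lf (nat_lit 0) (nat_lit 54463002738) (nat_lit 152) (nat_lit 26469091863) (nat_lit 0) (nat_lit 52906977277) (nat_lit 2) (nat_lit 5) (nat_lit 4) (nat_lit 4) (nat_lit 2) (nat_lit 4) (nat_lit 364) (nat_lit 277) (nat_lit 259))))))))
noncomputable def xc35 : XT := (XT.nd (nat_lit 1326) (nat_lit 0) (nat_lit 0) (XT.nd (nat_lit 624) (nat_lit 0) (nat_lit 0) (XT.nd (nat_lit 312) (nat_lit 76) (nat_lit 0) (XT.nd (nat_lit 156) (nat_lit 0) (nat_lit 0) (XT.nd (nat_lit 78) (nat_lit 0) (nat_lit 0) (XT.lf (nat_lit 0) (nat_lit 61562031764) (nat_lit 152) (nat_lit 22783442609) (nat_lit 0) (nat_lit 59967534876) (nat_lit 2) (nat_lit 5) (nat_lit 4) (nat_lit 4) (nat_lit 2) (nat_lit 4) (nat_lit 365) (nat_lit 277) (nat_lit 258)) (XT.lf (nat_lit 0) (nat_lit 69158928166) (nat_lit 152) (nat_lit 18942741422) (nat_lit 0) (nat_lit 67528809587) (nat_lit 2) (nat_lit 5) (nat_lit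 4) (nat_lit 4) (nat_lit 2) (nat_lit 4) (nat_lit 366) (nat_lit 277) (nat_lit 257))) (XT.nd (nat_lit 78) (nat_lit 0) (nat_lit 0) (XT.lf (nat_lit 0) (nat_lit 77298710591) (nat_lit 152) (nat_lit 14924228593) (nat_lit 0) (nat_lit 75635608964) (nat_lit 2) (nat_lit 5) (nat_lit 4) (nat_lit 4) (nat_lit 2) (nat_lit 4) (nat_lit 367) (nat_lit 277) (nat_lit 256)) (XT.lf (nat_lit 0) (nat_lit 86029614786) (nat_lit 152) (nat_lit 10704090712) (nat_lit 0) (nat_lit 84335973300) (nat_lit 2) (nat_lit 5) (nat_lit 4) (nat_lit 4) (nat_lit 2) (nat_lit 4) (nat_lit 368) (nat_lit 277) (nat_lit 255)))) (XT.nd (nat_lit 156) (nat_lit 76) (nat_lit 0) (XT.nd (nat_lit 78) (nat_lit 0) (nat_lit 0) (XT.lf (nat_lit 0) (nat_lit 95403379443) (nat_lit 152) (nat_lit 6257319555) (nat_lit 0) (nat_lit 93681460309) (nat_lit 2) (nat_lit 5) (nat_lit 4) (nat_lit 4) (nat_lit 2) (nat_lit 4) (nat_lit 369) (nat_lit 277) (nat_lit 254)) (XT.lf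 (nat_lit 0) (nat_lit 105475552796) (nat_lit 152) (nat_lit 1557563884) (nat_lit 0) (nat_lit 103727450656) (nat_lit 2) (nat_lit 5) (nat_lit 4) (nat_lit 4) (nat_lit 2) (nat_lit 4) (nat_lit 370) (nat_lit 277) (nat_lit 253))) (XT.nd (nat_lit 78) (nat_lit 0) (nat_lit 0) (XT.lf (nat_lit 0) (nat_lit 3603277223) (nat_lit 76) (nat_lit 112789203479) (nat_lit 76) (nat_lit 111016857814) (nat_lit 1) (nat_lit 4) (nat_lit 2) (nat_lit 5) (nat_lit 2) (nat_lit 4) (nat_lit 371) (nat_lit 277) (nat_lit 252)) (XT.lf (nat_lit 0) (nat_lit 9172828868) (nat_lit 76) (nat_lit 119006143709) (nat_lit 76) (nat_lit 117211350336) (nat_lit 1) (nat_lit 4) (nat_lit 2) (nat_lit 5) (nat_lit 2) (nat_lit 4) (nat_lit 372) (nat_lit 277) (nat_lit 251))))) (XT.nd (nat_lit 312) (nat_lit 0) (nat_lit 0) (XT.nd (nat_lit 156) (nat_lit 0) (nat_lit 0) (XT.nd (nat_lit 78) (nat_lit 0) (nat_lit 0) (XT.lf (nat_lit 0) (nat_lit 15102077249) (nat_lit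 76) (nat_lit 125763365054) (nat_lit 76) (nat_lit 123947786766) (nat_lit 1) (nat_lit 4) (nat_lit 2) (nat_lit 5) (nat_lit 2) (nat_lit 4) (nat_lit 373) (nat_lit 277) (nat_lit 250)) (XT.lf (nat_lit 0) (nat_lit 21426158650) (nat_lit 76) (nat_lit 133100910307) (nat_lit 76) (nat_lit 131266086727) (nat_lit 1) (nat_lit 4) (nat_lit 2) (nat_lit 5) (nat_lit 2) (nat_lit 4) (nat_lit 374) (nat_lit 277) (nat_lit 249))) (XT.nd (nat_lit 78) (nat_lit 0) (nat_lit 0) (XT.lf (nat_lit 0) (nat_lit 28182549110) (nat_lit 76) (nat_lit 141062261218) (nat_lit 76) (nat_lit 139209617923) (nat_lit 1) (nat_lit 4) (nat_lit 2) (nat_lit 5) (nat_lit 2) (nat_lit 4) (nat_lit 375) (nat_lit 277) (nat_lit 248)) (XT.lf (nat_lit 0) (nat_lit 35411286499) (nat_lit 76) (nat_lit 149694596162) (nat_lit 76) (nat_lit 147825453132) (nat_lit 1) (nat_lit 4) (nat_lit 2) (nat_lit 5) (nat_lit 2) (nat_lit 4) (nat_lit 376) (nat_lit 277) (nat_lit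 247)))) (XT.nd (nat_lit 156) (nat_lit 0) (nat_lit 0) (XT.nd (nat_lit 78) (nat_lit 0) (nat_lit 0) (XT.lf (nat_lit 0) (nat_lit 43155207779) (nat_lit 76) (nat_lit 159049069717) (nat_lit 76) (nat_lit 157164649154) (nat_lit 1) (nat_lit 4) (nat_lit 2) (nat_lit 5) (nat_lit 2) (nat_lit 4) (nat_lit 377) (nat_lit 277) (nat_lit 246)) (XT.lf (nat_lit 0) (nat_lit 51460202854) (nat_lit 76) (nat_lit 169181115801) (nat_lit 76) (nat_lit 167282549374) (nat_lit 1) (nat_lit 4) (nat_lit 2) (nat_lit 5) (nat_lit 2) (nat_lit 4) (nat_lit 378) (nat_lit 277) (nat_lit 245))) (XT.nd (nat_lit 78) (nat_lit 0) (nat_lit 0) (XT.lf (nat_lit 0) (nat_lit 60375486509) (nat_lit 76) (nat_lit 180150776167) (nat_lit 76) (nat_lit 178239111718) (nat_lit 1) (nat_lit 4) (nat_lit 2) (nat_lit 5) (nat_lit 2) (nat_lit 4) (nat_lit 379) (nat_lit 277) (nat_lit 244)) (XT.nd (nat_lit 78) (nat_lit 0) (nat_lit 0) (XT.lf (nat_lit 0) (nat_lit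 69953890055) (nat_lit 76) (nat_lit 192023056211) (nat_lit 76) (nat_lit 190099263964) (nat_lit 1) (nat_lit 4) (nat_lit 2) (nat_lit 5) (nat_lit 2) (nat_lit 4) (nat_lit 380) (nat_lit 277) (nat_lit 243)) (XT.lf (nat_lit 0) (nat_lit 80252174401) (nat_lit 76) (nat_lit 204868310185) (nat_lit 76) (nat_lit 202933288495) (nat_lit 1) (nat_lit 4) (nat_lit 2) (nat_lit 5) (nat_lit 2) (nat_lit 4) (nat_lit 381) (nat_lit 277) (nat_lit 242))))))) (XT.nd (nat_lit 702) (nat_lit 0) (nat_lit 0) (XT.nd (nat_lit 312) (nat_lit 0) (nat_lit 0) (XT.nd (nat_lit 156) (nat_lit 0) (nat_lit 0) (XT.nd (nat_lit 78) (nat_lit 0) (nat_lit 0) (XT.lf (nat_lit 0) (nat_lit 91331366419) (nat_lit 76) (nat_lit 218762658112) (nat_lit 76) (nat_lit 216817238790) (nat_lit 1) (nat_lit 4) (nat_lit 2) (nat_lit 5) (nat_lit 2) (nat_lit 4) (nat_lit 382) (nat_lit 277) (nat_lit 241)) (XT.lf (nat_lit 0) (nat_lit 103257120579) (nat_lit 76) (nat_lit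 233788436869) (nat_lit 76) (nat_lit 231833390110) (nat_lit 1) (nat_lit 4) (nat_lit 2) (nat_lit 5) (nat_lit 2) (nat_lit 4) (nat_lit 383) (nat_lit 277) (nat_lit 240))) (XT.nd (nat_lit 78) (nat_lit 0) (nat_lit 0) (XT.lf (nat_lit 0) (nat_lit 116100108017) (nat_lit 76) (nat_lit 250034688108) (nat_lit 76) (nat_lit 248070727055) (nat_lit 1) (nat_lit 4) (nat_lit 2) (nat_lit 5) (nat_lit 2) (nat_lit 4) (nat_lit 384) (nat_lit 277) (nat_lit 239)) (XT.lf (nat_lit 0) (nat_lit 129936435325) (nat_lit 76) (nat_lit 267597685910) (nat_lit 76) (nat_lit 265625470882) (nat_lit 1) (nat_lit 4) (nat_lit 2) (nat_lit 5) (nat_lit 2) (nat_lit 4) (nat_lit 385) (nat_lit 277) (nat_lit 238)))) (XT.nd (nat_lit 156) (nat_lit 0) (nat_lit 0) (XT.nd (nat_lit 78) (nat_lit 0) (nat_lit 0) (XT.lf (nat_lit 0) (nat_lit 144848095554) (nat_lit 76) (nat_lit 286581507300) (nat_lit 76) (nat_lit 284601649701) (nat_lit 1) (nat_lit 4) (nat_lit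 2) (nat_lit 5) (nat_lit 2) (nat_lit 4) (nat_lit 386) (nat_lit 277) (nat_lit 237)) (XT.lf (nat_lit 0) (nat_lit 160923454098) (nat_lit 76) (nat_lit 307098648996) (nat_lit 76) (nat_lit 305111714944) (nat_lit 1) (nat_lit 4) (nat_lit 2) (nat_lit 5) (nat_lit 2) (nat_lit 4) (nat_lit 387) (nat_lit 277) (nat_lit 236))) (XT.nd (nat_lit 78) (nat_lit 0) (nat_lit 0) (XT.lf (nat_lit 0) (nat_lit 178257772340) (nat_lit 76) (nat_lit 329270694060) (nat_lit 76) (nat_lit 327277207736) (nat_lit 1) (nat_lit 4) (nat_lit 2) (nat_lit 5) (nat_lit 2) (nat_lit 4) (nat_lit 388) (nat_lit 277) (nat_lit 235)) (XT.nd (nat_lit 78) (nat_lit 0) (nat_lit 0) (XT.lf (nat_lit 0) (nat_lit 196953772168) (nat_lit 76) (nat_lit 353229032390) (nat_lit 76) (nat_lit 351229479147) (nat_lit 1) (nat_lit 4) (nat_lit 2) (nat_lit 5) (nat_lit 2) (nat_lit 4) (nat_lit 389) (nat_lit 277) (nat_lit 234)) (XT.lf (nat_lit 0) (nat_lit 217122244690)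 (nat_lit 76) (nat_lit 379115639323) (nat_lit 76) (nat_lit 377110468563) (nat_lit 1) (nat_lit 4) (nat_lit 2) (nat_lit 5) (nat_lit 2) (nat_lit 4) (nat_lit 390) (nat_lit 277) (nat_lit 233)))))) (XT.nd (nat_lit 312) (nat_lit 0) (nat_lit 0) (XT.nd (nat_lit 156) (nat_lit 0) (nat_lit 0) (XT.nd (nat_lit 78) (nat_lit 0) (nat_lit 0) (XT.lf (nat_lit 0) (nat_lit 238882706781) (nat_lit 76) (nat_lit 407083916975) (nat_lit 76) (nat_lit 405073544810) (nat_lit 1) (nat_lit 4) (nat_lit 2) (nat_lit 5) (nat_lit 2) (nat_lit 4) (nat_lit 391) (nat_lit 277) (nat_lit 232)) (XT.lf (nat_lit 0) (nat_lit 262364109328) (nat_lit 76) (nat_lit 437299603287) (nat_lit 76) (nat_lit 435284415007) (nat_lit 1) (nat_lit 4) (nat_lit 2) (nat_lit 5) (nat_lit 2) (nat_lit 4) (nat_lit 392) (nat_lit 277) (nat_lit 231))) (XT.nd (nat_lit 78) (nat_lit 0) (nat_lit 0) (XT.lf (nat_lit 0) (nat_lit 287705601382) (nat_lit 76) (nat_lit 469941754178)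 (nat_lit 76) (nat_lit 467922106532) (nat_lit 1) (nat_lit 4) (nat_lit 2) (nat_lit 5) (nat_lit 2) (nat_lit 4) (nat_lit 393) (nat_lit 277) (nat_lit 230)) (XT.lf (nat_lit 0) (nat_lit 315057354749) (nat_lit 76) (nat_lit 505203804617) (nat_lit 76) (nat_lit 503180027928) (nat_lit 1) (nat_lit 4) (nat_lit 2) (nat_lit 5) (nat_lit 2) (nat_lit 4) (nat_lit 394) (nat_lit 277) (nat_lit 229)))) (XT.nd (nat_lit 156) (nat_lit 0) (nat_lit 0) (XT.nd (nat_lit 78) (nat_lit 0) (nat_lit 0) (XT.lf (nat_lit 0) (nat_lit 344581453892) (nat_lit 76) (nat_lit 543294714902) (nat_lit 76) (nat_lit 541267115025) (nat_lit 1) (nat_lit 4) (nat_lit 2) (nat_lit 5) (nat_lit 2) (nat_lit 4) (nat_lit 395) (nat_lit 277) (nat_lit 228)) (XT.lf (nat_lit 0) (nat_lit 376452856437) (nat_lit 76) (nat_lit 584440208946) (nat_lit 76) (nat_lit 582409069080) (nat_lit 1) (nat_lit 4) (nat_lit 2) (nat_lit 5) (nat_lit 2) (nat_lit 4) (nat_lit 396)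 (nat_lit 277) (nat_lit 227))) (XT.nd (nat_lit 78) (nat_lit 0) (nat_lit 0) (XT.lf (nat_lit 0) (nat_lit 410860429954) (nat_lit 76) (nat_lit 628884111898) (nat_lit 76) (nat_lit 626849694265) (nat_lit 1) (nat_lit 4) (nat_lit 2) (nat_lit 5) (nat_lit 2) (nat_lit 4) (nat_lit 397) (nat_lit 277) (nat_lit 226)) (XT.nd (nat_lit 78) (nat_lit 0) (nat_lit 0) (XT.lf (nat_lit 0) (nat_lit 448008071175) (nat_lit 76) (nat_lit 676889795037) (nat_lit 76) (nat_lit 674852342434) (nat_lit 1) (nat_lit 4) (nat_lit 2) (nat_lit 5) (nat_lit 2) (nat_lit 4) (nat_lit 398) (nat_lit 277) (nat_lit 225)) (XT.lf (nat_lit 0) (nat_lit 488115914269) (nat_lit 76) (nat_lit 728741736484) (nat_lit 76) (nat_lit 726701473723) (nat_lit 1) (nat_lit 4) (nat_lit 2) (nat_lit 5) (nat_lit 2) (nat_lit 4) (nat_lit 399) (nat_lit 277) (nat_lit 224))))))))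
noncomputable def xc36 : XT := (XT.nd (nat_lit 42666) (nat_lit 0) (nat_lit 76) (XT.nd (nat_lit 624) (nat_lit 0) (nat_lit 0) (XT.nd (nat_lit 312) (nat_lit 0) (nat_lit 0) (XT.nd (nat_lit 156) (nat_lit 0) (nat_lit 0) (XT.nd (nat_lit 78) (nat_lit 0) (nat_lit 0) (XT.lf (nat_lit 0) (nat_lit 531421635345) (nat_lit 76) (nat_lit 784747207002) (nat_lit 76) (nat_lit 782704342245) (nat_lit 1) (nat_lit 4) (nat_lit 2) (nat_lit 5) (nat_lit 2) (nat_lit 4) (nat_lit 400) (nat_lit 277) (nat_lit 223)) (XT.lf (nat_lit 0) (nat_lit 578181860898) (nat_lit 76) (nat_lit 845238090863) (nat_lit 76) (nat_lit 843192816848) (nat_lit 1) (nat_lit 4) (nat_lit 2) (nat_lit 5) (nat_lit 2) (nat_lit 4) (nat_lit 401) (nat_lit 277) (nat_lit 222))) (XT.nd (nat_lit 78) (nat_lit 0) (nat_lit 0) (XT.lf (nat_lit 0) (nat_lit 628673688560) (nat_lit 76) (nat_lit 910572852562) (nat_lit 76) (nat_lit 908525347754) (nat_lit 1) (nat_lit 4)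 (nat_lit 2) (nat_lit 5) (nat_lit 2) (nat_lit 4) (nat_lit 402) (nat_lit 277) (nat_lit 221)) (XT.lf (nat_lit 0) (nat_lit 683196329163) (nat_lit 76) (nat_lit 981138661059) (nat_lit 76) (nat_lit 979089090701) (nat_lit 1) (nat_lit 4) (nat_lit 2) (nat_lit 5) (nat_lit 2) (nat_lit 4) (nat_lit 403) (nat_lit 277) (nat_lit 220)))) (XT.nd (nat_lit 156) (nat_lit 0) (nat_lit 0) (XT.nd (nat_lit 78) (nat_lit 0) (nat_lit 0) (XT.lf (nat_lit 0) (nat_lit 742072879834) (nat_lit 76) (nat_lit 1057353684106) (nat_lit 76) (nat_lit 1055302201203) (nat_lit 1) (nat_lit 4) (nat_lit 2) (nat_lit 5) (nat_lit 2) (nat_lit 4) (nat_lit 404) (nat_lit 277) (nat_lit 219)) (XT.lf (nat_lit 0) (nat_lit 805652238654) (nat_lit 76) (nat_lit 1139669566286) (nat_lit 76) (nat_lit 1137616312507) (nat_lit 1) (nat_lit 4) (nat_lit 2) (nat_lit 5) (nat_lit 2) (nat_lit 4) (nat_lit 405) (nat_lit 277) (nat_lit 218))) (XT.nd (nat_lit 78) (nat_lit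 0) (nat_lit 0) (XT.lf (nat_lit 0) (nat_lit 874311172192) (nat_lit 76) (nat_lit 1228574105418) (nat_lit 76) (nat_lit 1226519211940) (nat_lit 1) (nat_lit 4) (nat_lit 2) (nat_lit 5) (nat_lit 2) (nat_lit 4) (nat_lit 406) (nat_lit 277) (nat_lit 217)) (XT.lf (nat_lit 0) (nat_lit 948456548203) (nat_lit 76) (nat_lit 1324594143216) (nat_lit 76) (nat_lit 1322537731497) (nat_lit 1) (nat_lit 4) (nat_lit 2) (nat_lit 5) (nat_lit 2) (nat_lit 4) (nat_lit 407) (nat_lit 277) (nat_lit 216))))) (XT.nd (nat_lit 312) (nat_lit 0) (nat_lit 0) (XT.nd (nat_lit 156) (nat_lit 0) (nat_lit 0) (XT.nd (nat_lit 78) (nat_lit 0) (nat_lit 0) (XT.lf (nat_lit 0) (nat_lit 1028527746692) (nat_lit 76) (nat_lit 1428298687311) (nat_lit 76) (nat_lit 1426240869814) (nat_lit 1) (nat_lit 4) (nat_lit 2) (nat_lit 5) (nat_lit 2) (nat_lit 4) (nat_lit 408) (nat_lit 277) (nat_lit 215)) (XT.lf (nat_lit 0) (nat_lit 1114999263651) (nat_lit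 76) (nat_lit 1540302283150) (nat_lit 76) (nat_lit 1538243164006) (nat_lit 1) (nat_lit 4) (nat_lit 2) (nat_lit 5) (nat_lit 2) (nat_lit 4) (nat_lit 409) (nat_lit 277) (nat_lit 214))) (XT.nd (nat_lit 78) (nat_lit 0) (nat_lit 0) (XT.lf (nat_lit 0) (nat_lit 1208383522884) (nat_lit 76) (nat_lit 1661268655745) (nat_lit 76) (nat_lit 1659208331373) (nat_lit 1) (nat_lit 4) (nat_lit 2) (nat_lit 5) (nat_lit 2) (nat_lit 4) (nat_lit 410) (nat_lit 277) (nat_lit 213)) (XT.lf (nat_lit 0) (nat_lit 1309233912594) (nat_lit 76) (nat_lit 1791914642859) (nat_lit 76) (nat_lit 1789853202535) (nat_lit 1) (nat_lit 4) (nat_lit 2) (nat_lit 5) (nat_lit 2) (nat_lit 4) (nat_lit 411) (nat_lit 277) (nat_lit 212)))) (XT.nd (nat_lit 156) (nat_lit 0) (nat_lit 0) (XT.nd (nat_lit 78) (nat_lit 0) (nat_lit 0) (XT.lf (nat_lit 0) (nat_lit 1418148064720) (nat_lit 76) (nat_lit 1933014442935) (nat_lit 76) (nat_lit 1930951969323) (nat_lit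 1) (nat_lit 4) (nat_lit 2) (nat_lit 5) (nat_lit 2) (nat_lit 4) (nat_lit 412) (nat_lit 277) (nat_lit 211)) (XT.lf (nat_lit 0) (nat_lit 1535771396459) (nat_lit 76) (nat_lit 2085404202937) (nat_lit 76) (nat_lit 2083340772575) (nat_lit 1) (nat_lit 4) (nat_lit 2) (nat_lit 5) (nat_lit 2) (nat_lit 4) (nat_lit 413) (nat_lit 277) (nat_lit 210))) (XT.nd (nat_lit 41418) (nat_lit 0) (nat_lit 304) (XT.lf (nat_lit 0) (nat_lit 1662800934963) (nat_lit 76) (nat_lit 2249986973293) (nat_lit 76) (nat_lit 2247922657053) (nat_lit 1) (nat_lit 4) (nat_lit 2) (nat_lit 5) (nat_lit 2) (nat_lit 4) (nat_lit 414) (nat_lit 277) (nat_lit 209)) (XT.nd (nat_lit 78) (nat_lit 0) (nat_lit 0) (XT.lf (nat_lit 0) (nat_lit 430503053) (nat_lit 152) (nat_lit 15197711873) (nat_lit 0) (nat_lit 430503053) (nat_lit 5) (nat_lit 5) (nat_lit 7) (nat_lit 4) (nat_lit 5) (nat_lit 4) (nat_lit 344) (nat_lit 278) (nat_lit 278)) (XT.lf (nat_lit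 0) (nat_lit 6089204752) (nat_lit 152) (nat_lit 22258237672) (nat_lit 0) (nat_lit 5909891080) (nat_lit 5) (nat_lit 5) (nat_lit 7) (nat_lit 4) (nat_lit 5) (nat_lit 4) (nat_lit 345) (nat_lit 278) (nat_lit 277))))))) (XT.nd (nat_lit 624) (nat_lit 152) (nat_lit 0) (XT.nd (nat_lit 312) (nat_lit 0) (nat_lit 0) (XT.nd (nat_lit 156) (nat_lit 76) (nat_lit 0) (XT.nd (nat_lit 78) (nat_lit 0) (nat_lit 0) (XT.lf (nat_lit 0) (nat_lit 11474660882) (nat_lit 152) (nat_lit 13985387203) (nat_lit 0) (nat_lit 11129316032) (nat_lit 5) (nat_lit 5) (nat_lit 7) (nat_lit 4) (nat_lit 5) (nat_lit 4) (nat_lit 346) (nat_lit 278) (nat_lit 276)) (XT.lf (nat_lit 0) (nat_lit 17049288312) (nat_lit 152) (nat_lit 5527848040) (nat_lit 0) (nat_lit 16550210889) (nat_lit 5) (nat_lit 5) (nat_lit 7) (nat_lit 4) (nat_lit 5) (nat_lit 4) (nat_lit 347) (nat_lit 278) (nat_lit 275))) (XT.nd (nat_lit 78) (nat_lit 0) (nat_lit 0) (XT.lf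 (nat_lit 0) (nat_lit 3331135453) (nat_lit 76) (nat_lit 19595100305) (nat_lit 76) (nat_lit 18953677908) (nat_lit 4) (nat_lit 4) (nat_lit 5) (nat_lit 5) (nat_lit 5) (nat_lit 4) (nat_lit 348) (nat_lit 278) (nat_lit 274)) (XT.lf (nat_lit 0) (nat_lit 12782600255) (nat_lit 76) (nat_lit 16424334752) (nat_lit 76) (nat_lit 15651111454) (nat_lit 4) (nat_lit 4) (nat_lit 5) (nat_lit 5) (nat_lit 5) (nat_lit 4) (nat_lit 349) (nat_lit 278) (nat_lit 273)))) (XT.nd (nat_lit 156) (nat_lit 0) (nat_lit 0) (XT.nd (nat_lit 78) (nat_lit 0) (nat_lit 0) (XT.lf (nat_lit 0) (nat_lit 22591468364) (nat_lit 76) (nat_lit 13197191135) (nat_lit 76) (nat_lit 12301929964) (nat_lit 4) (nat_lit 4) (nat_lit 5) (nat_lit 5) (nat_lit 5) (nat_lit 4) (nat_lit 350) (nat_lit 278) (nat_lit 272)) (XT.lf (nat_lit 0) (nat_lit 32815866406) (nat_lit 76) (nat_lit 9894545638) (nat_lit 76) (nat_lit 8886286437) (nat_lit 4) (nat_lit 4) (nat_lit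 5) (nat_lit 5) (nat_lit 5) (nat_lit 4) (nat_lit 351) (nat_lit 278) (nat_lit 271))) (XT.nd (nat_lit 78) (nat_lit 0) (nat_lit 0) (XT.lf (nat_lit 0) (nat_lit 43516383406) (nat_lit 76) (nat_lit 6496827029) (nat_lit 76) (nat_lit 5383940023) (nat_lit 4) (nat_lit 4) (nat_lit 5) (nat_lit 5) (nat_lit 5) (nat_lit 4) (nat_lit 352) (nat_lit 278) (nat_lit 270)) (XT.lf (nat_lit 0) (nat_lit 54756429836) (nat_lit 76) (nat_lit 2983900680) (nat_lit 76) (nat_lit 1774136076) (nat_lit 4) (nat_lit 4) (nat_lit 5) (nat_lit 5) (nat_lit 5) (nat_lit 4) (nat_lit 353) (nat_lit 278) (nat_lit 269))))) (XT.nd (nat_lit 312) (nat_lit 0) (nat_lit 0) (XT.nd (nat_lit 156) (nat_lit 0) (nat_lit 0) (XT.nd (nat_lit 78) (nat_lit 0) (nat_lit 0) (XT.lf (nat_lit 0) (nat_lit 1950538689) (nat_lit 152) (nat_lit 61264654420) (nat_lit 0) (nat_lit 747329352) (nat_lit 2) (nat_lit 5) (nat_lit 4) (nat_lit 4) (nat_lit 2) (nat_lit 4) (nat_lit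 354) (nat_lit 278) (nat_lit 268)) (XT.lf (nat_lit 0) (nat_lit 5937070747) (nat_lit 152) (nat_lit 58163958505) (nat_lit 0) (nat_lit 4656956850) (nat_lit 2) (nat_lit 5) (nat_lit 4) (nat_lit 4) (nat_lit 2) (nat_lit 4) (nat_lit 355) (nat_lit 278) (nat_lit 267))) (XT.nd (nat_lit 78) (nat_lit 0) (nat_lit 0) (XT.lf (nat_lit 0) (nat_lit 10102485211) (nat_lit 152) (nat_lit 55094667780) (nat_lit 0) (nat_lit 8751163388) (nat_lit 2) (nat_lit 5) (nat_lit 4) (nat_lit 4) (nat_lit 2) (nat_lit 4) (nat_lit 356) (nat_lit 278) (nat_lit 266)) (XT.lf (nat_lit 0) (nat_lit 14471466018) (nat_lit 152) (nat_lit 52038593856) (nat_lit 0) (nat_lit 13054210930) (nat_lit 2) (nat_lit 5) (nat_lit 4) (nat_lit 4) (nat_lit 2) (nat_lit 4) (nat_lit 357) (nat_lit 278) (nat_lit 265)))) (XT.nd (nat_lit 156) (nat_lit 0) (nat_lit 0) (XT.nd (nat_lit 78) (nat_lit 0) (nat_lit 0) (XT.lf (nat_lit 0) (nat_lit 19069903424) (nat_lit 152)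 (nat_lit 48977626665) (nat_lit 0) (nat_lit 17591599016) (nat_lit 2) (nat_lit 5) (nat_lit 4) (nat_lit 4) (nat_lit 2) (nat_lit 4) (nat_lit 358) (nat_lit 278) (nat_lit 264)) (XT.lf (nat_lit 0) (nat_lit 23925047429) (nat_lit 152) (nat_lit 45893627143) (nat_lit 0) (nat_lit 22390215874) (nat_lit 2) (nat_lit 5) (nat_lit 4) (nat_lit 4) (nat_lit 2) (nat_lit 4) (nat_lit 359) (nat_lit 278) (nat_lit 263))) (XT.nd (nat_lit 78) (nat_lit 0) (nat_lit 0) (XT.lf (nat_lit 0) (nat_lit 29065669257) (nat_lit 152) (nat_lit 42768319737) (nat_lit 0) (nat_lit 27478497750) (nat_lit 2) (nat_lit 5) (nat_lit 4) (nat_lit 4) (nat_lit 2) (nat_lit 4) (nat_lit 360) (nat_lit 278) (nat_lit 262)) (XT.nd (nat_lit 78) (nat_lit 0) (nat_lit 0) (XT.lf (nat_lit 0) (nat_lit 34522231852) (nat_lit 152) (nat_lit 39583184106) (nat_lit 0) (nat_lit 32886597426) (nat_lit 2) (nat_lit 5) (nat_lit 4) (nat_lit 4) (nat_lit 2) (nat_lit 4) (nat_lit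 361) (nat_lit 278) (nat_lit 261)) (XT.lf (nat_lit 0) (nat_lit 40327070399) (nat_lit 152) (nat_lit 36319345373) (nat_lit 0) (nat_lit 38646562901) (nat_lit 2) (nat_lit 5) (nat_lit 4) (nat_lit 4) (nat_lit 2) (nat_lit 4) (nat_lit 362) (nat_lit 278) (nat_lit 260))))))))
noncomputable def xc37 : XT := (XT.nd (nat_lit 1326) (nat_lit 0) (nat_lit 0) (XT.nd (nat_lit 624) (nat_lit 76) (nat_lit 0) (XT.nd (nat_lit 312) (nat_lit 0) (nat_lit 0) (XT.nd (nat_lit 156) (nat_lit 0) (nat_lit 0) (XT.nd (nat_lit 78) (nat_lit 0) (nat_lit 0) (XT.lf (nat_lit 0) (nat_lit 46514583942) (nat_lit 152) (nat_lit 32957462271) (nat_lit 0) (nat_lit 44792527303) (nat_lit 2) (nat_lit 5) (nat_lit 4) (nat_lit 4) (nat_lit 2) (nat_lit 4) (nat_lit 363) (nat_lit 278) (nat_lit 259)) (XT.lf (nat_lit 0) (nat_lit 53121439228) (nat_lit 152) (nat_lit 29477612529) (nat_lit 0) (nat_lit 51360911162) (nat_lit 2) (nat_lit 5) (nat_lit 4) (nat_lit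 4) (nat_lit 2) (nat_lit 4) (nat_lit 364) (nat_lit 278) (nat_lit 258))) (XT.nd (nat_lit 78) (nat_lit 0) (nat_lit 0) (XT.lf (nat_lit 0) (nat_lit 60186787992) (nat_lit 152) (nat_lit 25859174817) (nat_lit 0) (nat_lit 58390638234) (nat_lit 2) (nat_lit 5) (nat_lit 4) (nat_lit 4) (nat_lit 2) (nat_lit 4) (nat_lit 365) (nat_lit 278) (nat_lit 257)) (XT.lf (nat_lit 0) (nat_lit 67752498966) (nat_lit 152) (nat_lit 22080706541) (nat_lit 0) (nat_lit 65923366161) (nat_lit 2) (nat_lit 5) (nat_lit 4) (nat_lit 4) (nat_lit 2) (nat_lit 4) (nat_lit 366) (nat_lit 278) (nat_lit 256)))) (XT.nd (nat_lit 156) (nat_lit 0) (nat_lit 0) (XT.nd (nat_lit 78) (nat_lit 0) (nat_lit 0) (XT.lf (nat_lit 0) (nat_lit 75863405995) (nat_lit 152) (nat_lit 18119816776) (nat_lit 0) (nat_lit 74003733331) (nat_lit 2) (nat_lit 5) (nat_lit 4) (nat_lit 4) (nat_lit 2) (nat_lit 4) (nat_lit 367) (nat_lit 278) (nat_lit 255)) (XT.lf (nat_lit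 0) (nat_lit 84567573712) (nat_lit 152) (nat_lit 13953033585) (nat_lit 0) (nat_lit 82679623401) (nat_lit 2) (nat_lit 5) (nat_lit 4) (nat_lit 4) (nat_lit 2) (nat_lit 4) (nat_lit 368) (nat_lit 278) (nat_lit 254))) (XT.nd (nat_lit 78) (nat_lit 0) (nat_lit 0) (XT.lf (nat_lit 0) (nat_lit 93916582371) (nat_lit 152) (nat_lit 9555664917) (nat_lit 0) (nat_lit 92002449053) (nat_lit 2) (nat_lit 5) (nat_lit 4) (nat_lit 4) (nat_lit 2) (nat_lit 4) (nat_lit 369) (nat_lit 278) (nat_lit 253)) (XT.lf (nat_lit 0) (nat_lit 103965833504) (nat_lit 152) (nat_lit 4901652293) (nat_lit 0) (nat_lit 102027456660) (nat_lit 2) (nat_lit 5) (nat_lit 4) (nat_lit 4) (nat_lit 2) (nat_lit 4) (nat_lit 370) (nat_lit 278) (nat_lit 252))))) (XT.nd (nat_lit 312) (nat_lit 0) (nat_lit 0) (XT.nd (nat_lit 156) (nat_lit 0) (nat_lit 0) (XT.nd (nat_lit 78) (nat_lit 0) (nat_lit 0) (XT.lf (nat_lit 0) (nat_lit 38510050) (nat_lit 76) (nat_lit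 114737294346) (nat_lit 76) (nat_lit 112776469794) (nat_lit 1) (nat_lit 4) (nat_lit 2) (nat_lit 5) (nat_lit 2) (nat_lit 4) (nat_lit 371) (nat_lit 278) (nat_lit 251)) (XT.lf (nat_lit 0) (nat_lit 5566779293) (nat_lit 76) (nat_lit 120974872026) (nat_lit 76) (nat_lit 118993262560) (nat_lit 1) (nat_lit 4) (nat_lit 2) (nat_lit 5) (nat_lit 2) (nat_lit 4) (nat_lit 372) (nat_lit 278) (nat_lit 250))) (XT.nd (nat_lit 78) (nat_lit 0) (nat_lit 0) (XT.lf (nat_lit 0) (nat_lit 11457803226) (nat_lit 76) (nat_lit 127751202121) (nat_lit 76) (nat_lit 125750347363) (nat_lit 1) (nat_lit 4) (nat_lit 2) (nat_lit 5) (nat_lit 2) (nat_lit 4) (nat_lit 373) (nat_lit 278) (nat_lit 249)) (XT.lf (nat_lit 0) (nat_lit 17746491621) (nat_lit 76) (nat_lit 135106440661) (nat_lit 76) (nat_lit 133087766189) (nat_lit 1) (nat_lit 4) (nat_lit 2) (nat_lit 5) (nat_lit 2) (nat_lit 4) (nat_lit 374) (nat_lit 278) (nat_lit 248)))) (XT.nd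 (nat_lit 156) (nat_lit 0) (nat_lit 0) (XT.nd (nat_lit 78) (nat_lit 0) (nat_lit 0) (XT.lf (nat_lit 0) (nat_lit 24470110780) (nat_lit 76) (nat_lit 143084174245) (nat_lit 76) (nat_lit 141049000037) (nat_lit 1) (nat_lit 4) (nat_lit 2) (nat_lit 5) (nat_lit 2) (nat_lit 4) (nat_lit 375) (nat_lit 278) (nat_lit 247)) (XT.lf (nat_lit 0) (nat_lit 31668504371) (nat_lit 76) (nat_lit 151731678331) (nat_lit 76) (nat_lit 149681226591) (nat_lit 1) (nat_lit 4) (nat_lit 2) (nat_lit 5) (nat_lit 2) (nat_lit 4) (nat_lit 376) (nat_lit 278) (nat_lit 246))) (XT.nd (nat_lit 78) (nat_lit 0) (nat_lit 0) (XT.lf (nat_lit 0) (nat_lit 39384329541) (nat_lit 76) (nat_lit 161100197388) (nat_lit 76) (nat_lit 159035599784) (nat_lit 1) (nat_lit 4) (nat_lit 2) (nat_lit 5) (nat_lit 2) (nat_lit 4) (nat_lit 377) (nat_lit 278) (nat_lit 245)) (XT.nd (nat_lit 78) (nat_lit 0) (nat_lit 0) (XT.lf (nat_lit 0) (nat_lit 47663309699) (nat_lit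 76) (nat_lit 171245248566) (nat_lit 76) (nat_lit 169167552940) (nat_lit 1) (nat_lit 4) (nat_lit 2) (nat_lit 5) (nat_lit 2) (nat_lit 4) (nat_lit 378) (nat_lit 278) (nat_lit 244)) (XT.lf (nat_lit 0) (nat_lit 56554505469) (nat_lit 76) (nat_lit 182226950687) (nat_lit 76) (nat_lit 180137127262) (nat_lit 1) (nat_lit 4) (nat_lit 2) (nat_lit 5) (nat_lit 2) (nat_lit 4) (nat_lit 379) (nat_lit 278) (nat_lit 243))))))) (XT.nd (nat_lit 624) (nat_lit 0) (nat_lit 0) (XT.nd (nat_lit 312) (nat_lit 0) (nat_lit 0) (XT.nd (nat_lit 156) (nat_lit 0) (nat_lit 0) (XT.nd (nat_lit 78) (nat_lit 0) (nat_lit 0) (XT.lf (nat_lit 0) (nat_lit 66110605417) (nat_lit 76) (nat_lit 194110380503) (nat_lit 76) (nat_lit 192009327635) (nat_lit 1) (nat_lit 4) (nat_lit 2) (nat_lit 5) (nat_lit 2) (nat_lit 4) (nat_lit 380) (nat_lit 278) (nat_lit 242)) (XT.lf (nat_lit 0) (nat_lit 76388238285) (nat_lit 76) (nat_lit 206965958340) (nat_lit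 76) (nat_lit 204854507840) (nat_lit 1) (nat_lit 4) (nat_lit 2) (nat_lit 5) (nat_lit 2) (nat_lit 4) (nat_lit 381) (nat_lit 278) (nat_lit 241))) (XT.nd (nat_lit 78) (nat_lit 0) (nat_lit 0) (XT.lf (nat_lit 0) (nat_lit 87448308563) (nat_lit 76) (nat_lit 220869865400) (nat_lit 76) (nat_lit 218748787463) (nat_lit 1) (nat_lit 4) (nat_lit 2) (nat_lit 5) (nat_lit 2) (nat_lit 4) (nat_lit 382) (nat_lit 278) (nat_lit 240)) (XT.lf (nat_lit 0) (nat_lit 99356357408) (nat_lit 76) (nat_lit 235904495206) (nat_lit 76) (nat_lit 233774502975) (nat_lit 1) (nat_lit 4) (nat_lit 2) (nat_lit 5) (nat_lit 2) (nat_lit 4) (nat_lit 383) (nat_lit 278) (nat_lit 239)))) (XT.nd (nat_lit 156) (nat_lit 0) (nat_lit 0) (XT.nd (nat_lit 78) (nat_lit 0) (nat_lit 0) (XT.lf (nat_lit 0) (nat_lit 112182951035) (nat_lit 76) (nat_lit 252158941860) (nat_lit 76) (nat_lit 250020695653) (nat_lit 1) (nat_lit 4) (nat_lit 2) (nat_lit 5) (nat_lit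 2) (nat_lit 4) (nat_lit 384) (nat_lit 278) (nat_lit 238)) (XT.lf (nat_lit 0) (nat_lit 126004098890) (nat_lit 76) (nat_lit 269729528010) (nat_lit 76) (nat_lit 267583639233) (nat_lit 1) (nat_lit 4) (nat_lit 2) (nat_lit 5) (nat_lit 2) (nat_lit 4) (nat_lit 385) (nat_lit 278) (nat_lit 237))) (XT.nd (nat_lit 78) (nat_lit 0) (nat_lit 0) (XT.lf (nat_lit 0) (nat_lit 140901704069) (nat_lit 76) (nat_lit 288720375647) (nat_lit 76) (nat_lit 286567410417) (nat_lit 1) (nat_lit 4) (nat_lit 2) (nat_lit 5) (nat_lit 2) (nat_lit 4) (nat_lit 386) (nat_lit 278) (nat_lit 236)) (XT.lf (nat_lit 0) (nat_lit 156964048678) (nat_lit 76) (nat_lit 309244023128) (nat_lit 76) (nat_lit 307084505626) (nat_lit 1) (nat_lit 4) (nat_lit 2) (nat_lit 5) (nat_lit 2) (nat_lit 4) (nat_lit 387) (nat_lit 278) (nat_lit 235))))) (XT.nd (nat_lit 312) (nat_lit 0) (nat_lit 0) (XT.nd (nat_lit 156) (nat_lit 0) (nat_lit 0) (XT.nd (nat_lit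 78) (nat_lit 0) (nat_lit 0) (XT.lf (nat_lit 0) (nat_lit 174286316981) (nat_lit 76) (nat_lit 331422092068) (nat_lit 76) (nat_lit 329256507647) (nat_lit 1) (nat_lit 4) (nat_lit 2) (nat_lit 5) (nat_lit 2) (nat_lit 4) (nat_lit 388) (nat_lit 278) (nat_lit 234)) (XT.lf (nat_lit 0) (nat_lit 192971159457) (nat_lit 76) (nat_lit 355386008060) (nat_lit 76) (nat_lit 353214806121) (nat_lit 1) (nat_lit 4) (nat_lit 2) (nat_lit 5) (nat_lit 2) (nat_lit 4) (nat_lit 389) (nat_lit 278) (nat_lit 233))) (XT.nd (nat_lit 78) (nat_lit 0) (nat_lit 0) (XT.lf (nat_lit 0) (nat_lit 213129301098) (nat_lit 76) (nat_lit 381277779495) (nat_lit 76) (nat_lit 379101376152) (nat_lit 1) (nat_lit 4) (nat_lit 2) (nat_lit 5) (nat_lit 2) (nat_lit 4) (nat_lit 390) (nat_lit 278) (nat_lit 232)) (XT.lf (nat_lit 0) (nat_lit 234880197558) (nat_lit 76) (nat_lit 409250839093) (nat_lit 76) (nat_lit 407069619634) (nat_lit 1) (nat_lit 4)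 (nat_lit 2) (nat_lit 5) (nat_lit 2) (nat_lit 4) (nat_lit 391) (nat_lit 278) (nat_lit 231)))) (XT.nd (nat_lit 156) (nat_lit 0) (nat_lit 0) (XT.nd (nat_lit 78) (nat_lit 0) (nat_lit 0) (XT.lf (nat_lit 0) (nat_lit 258352743040) (nat_lit 76) (nat_lit 439470953133) (nat_lit 76) (nat_lit 437285274308) (nat_lit 1) (nat_lit 4) (nat_lit 2) (nat_lit 5) (nat_lit 2) (nat_lit 4) (nat_lit 392) (nat_lit 278) (nat_lit 230)) (XT.lf (nat_lit 0) (nat_lit 283686034107) (nat_lit 76) (nat_lit 472117203772) (nat_lit 76) (nat_lit 469927395905) (nat_lit 1) (nat_lit 4) (nat_lit 2) (nat_lit 5) (nat_lit 2) (nat_lit 4) (nat_lit 393) (nat_lit 278) (nat_lit 229))) (XT.nd (nat_lit 78) (nat_lit 0) (nat_lit 0) (XT.lf (nat_lit 0) (nat_lit 311030193968) (nat_lit 76) (nat_lit 507383050274) (nat_lit 76) (nat_lit 505189419218) (nat_lit 1) (nat_lit 4) (nat_lit 2) (nat_lit 5) (nat_lit 2) (nat_lit 4) (nat_lit 394) (nat_lit 278)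 (nat_lit 228)) (XT.nd (nat_lit 78) (nat_lit 0) (nat_lit 0) (XT.lf (nat_lit 0) (nat_lit 340547262087) (nat_lit 76) (nat_lit 545477475432) (nat_lit 76) (nat_lit 543280304388) (nat_lit 1) (nat_lit 4) (nat_lit 2) (nat_lit 5) (nat_lit 2) (nat_lit 4) (nat_lit 395) (nat_lit 278) (nat_lit 227)) (XT.lf (nat_lit 0) (nat_lit 372412154425) (nat_lit 76) (nat_lit 586626223988) (nat_lit 76) (nat_lit 584425775176) (nat_lit 1) (nat_lit 4) (nat_lit 2) (nat_lit 5) (nat_lit 2) (nat_lit 4) (nat_lit 396) (nat_lit 278) (nat_lit 226))))))))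
noncomputable def xc38 : XT := (XT.nd (nat_lit 1326) (nat_lit 0) (nat_lit 0) (XT.nd (nat_lit 624) (nat_lit 0) (nat_lit 0) (XT.nd (nat_lit 312) (nat_lit 0) (nat_lit 0) (XT.nd (nat_lit 156) (nat_lit 0) (nat_lit 0) (XT.nd (nat_lit 78) (nat_lit 0) (nat_lit 0) (XT.lf (nat_lit 0) (nat_lit 406813699972) (nat_lit 76) (nat_lit 631073140378) (nat_lit 76) (nat_lit 628869656597) (nat_lit 1) (nat_lit 4) (nat_lit 2) (nat_lit 5) (nat_lit 2) (nat_lit 4) (nat_lit 397) (nat_lit 278) (nat_lit 225)) (XT.lf (nat_lit 0) (nat_lit 443955759739) (nat_lit 76) (nat_lit 679081613736) (nat_lit 76) (nat_lit 676875319798) (nat_lit 1) (nat_lit 4) (nat_lit 2) (nat_lit 5) (nat_lit 2) (nat_lit 4) (nat_lit 398) (nat_lit 278) (nat_lit 224))) (XT.nd (nat_lit 78) (nat_lit 0) (nat_lit 0) (XT.lf (nat_lit 0) (nat_lit 484058434821) (nat_lit 76) (nat_lit 730936138719) (nat_lit 76) (nat_lit 728727242784) (nat_lit 1) (nat_lit 4) (nat_lit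 2) (nat_lit 5) (nat_lit 2) (nat_lit 4) (nat_lit 399) (nat_lit 278) (nat_lit 223)) (XT.lf (nat_lit 0) (nat_lit 527359370700) (nat_lit 76) (nat_lit 786944001401) (nat_lit 76) (nat_lit 784732696209) (nat_lit 1) (nat_lit 4) (nat_lit 2) (nat_lit 5) (nat_lit 2) (nat_lit 4) (nat_lit 400) (nat_lit 278) (nat_lit 222)))) (XT.nd (nat_lit 156) (nat_lit 0) (nat_lit 0) (XT.nd (nat_lit 78) (nat_lit 0) (nat_lit 0) (XT.lf (nat_lit 0) (nat_lit 574115165515) (nat_lit 76) (nat_lit 847437100228) (nat_lit 76) (nat_lit 845223564243) (nat_lit 1) (nat_lit 4) (nat_lit 2) (nat_lit 5) (nat_lit 2) (nat_lit 4) (nat_lit 401) (nat_lit 278) (nat_lit 221)) (XT.lf (nat_lit 0) (nat_lit 624602890642) (nat_lit 76) (nat_lit 912773912822) (nat_lit 76) (nat_lit 910558311287) (nat_lit 1) (nat_lit 4) (nat_lit 2) (nat_lit 5) (nat_lit 2) (nat_lit 4) (nat_lit 402) (nat_lit 278) (nat_lit 220))) (XT.nd (nat_lit 78) (nat_lit 0) (nat_lit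 0) (XT.lf (nat_lit 0) (nat_lit 679121732601) (nat_lit 76) (nat_lit 983341620296) (nat_lit 76) (nat_lit 981124106215) (nat_lit 1) (nat_lit 4) (nat_lit 2) (nat_lit 5) (nat_lit 2) (nat_lit 4) (nat_lit 403) (nat_lit 278) (nat_lit 219)) (XT.lf (nat_lit 0) (nat_lit 737994766010) (nat_lit 76) (nat_lit 1059558401655) (nat_lit 76) (nat_lit 1057339116698) (nat_lit 1) (nat_lit 4) (nat_lit 2) (nat_lit 5) (nat_lit 2) (nat_lit 4) (nat_lit 404) (nat_lit 278) (nat_lit 218))))) (XT.nd (nat_lit 312) (nat_lit 0) (nat_lit 0) (XT.nd (nat_lit 156) (nat_lit 0) (nat_lit 0) (XT.nd (nat_lit 78) (nat_lit 0) (nat_lit 0) (XT.lf (nat_lit 0) (nat_lit 801570868105) (nat_lit 76) (nat_lit 1141875911901) (nat_lit 76) (nat_lit 1139654987245) (nat_lit 1) (nat_lit 4) (nat_lit 2) (nat_lit 5) (nat_lit 2) (nat_lit 4) (nat_lit 405) (nat_lit 278) (nat_lit 217)) (XT.lf (nat_lit 0) (nat_lit 870226786157) (nat_lit 76) (nat_lit 1230781958502)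 (nat_lit 76) (nat_lit 1228559515605) (nat_lit 1) (nat_lit 4) (nat_lit 2) (nat_lit 5) (nat_lit 2) (nat_lit 4) (nat_lit 406) (nat_lit 278) (nat_lit 216))) (XT.nd (nat_lit 78) (nat_lit 0) (nat_lit 0) (XT.lf (nat_lit 0) (nat_lit 944369370051) (nat_lit 76) (nat_lit 1326803392104) (nat_lit 76) (nat_lit 1324579543429) (nat_lit 1) (nat_lit 4) (nat_lit 2) (nat_lit 5) (nat_lit 2) (nat_lit 4) (nat_lit 407) (nat_lit 278) (nat_lit 215)) (XT.lf (nat_lit 0) (nat_lit 1024437983248) (nat_lit 76) (nat_lit 1430509228611) (nat_lit 76) (nat_lit 1428284078290) (nat_lit 1) (nat_lit 4) (nat_lit 2) (nat_lit 5) (nat_lit 2) (nat_lit 4) (nat_lit 408) (nat_lit 278) (nat_lit 214)))) (XT.nd (nat_lit 156) (nat_lit 0) (nat_lit 0) (XT.nd (nat_lit 78) (nat_lit 0) (nat_lit 0) (XT.lf (nat_lit 0) (nat_lit 1110907106417) (nat_lit 76) (nat_lit 1542514021127) (nat_lit 76) (nat_lit 1540287665578) (nat_lit 1) (nat_lit 4) (nat_lit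 2) (nat_lit 5) (nat_lit 2) (nat_lit 4) (nat_lit 409) (nat_lit 278) (nat_lit 213)) (XT.lf (nat_lit 0) (nat_lit 1204289149178) (nat_lit 76) (nat_lit 1663481501757) (nat_lit 76) (nat_lit 1661254030255) (nat_lit 1) (nat_lit 4) (nat_lit 2) (nat_lit 5) (nat_lit 2) (nat_lit 4) (nat_lit 410) (nat_lit 278) (nat_lit 212))) (XT.nd (nat_lit 78) (nat_lit 0) (nat_lit 0) (XT.lf (nat_lit 0) (nat_lit 1305137486599) (nat_lit 76) (nat_lit 1794128514829) (nat_lit 76) (nat_lit 1791900010039) (nat_lit 1) (nat_lit 4) (nat_lit 2) (nat_lit 5) (nat_lit 2) (nat_lit 4) (nat_lit 411) (nat_lit 278) (nat_lit 211)) (XT.nd (nat_lit 78) (nat_lit 0) (nat_lit 0) (XT.lf (nat_lit 0) (nat_lit 1414049738457) (nat_lit 76) (nat_lit 1935229264867) (nat_lit 76) (nat_lit 1932999803327) (nat_lit 1) (nat_lit 4) (nat_lit 2) (nat_lit 5) (nat_lit 2) (nat_lit 4) (nat_lit 412) (nat_lit 278) (nat_lit 210)) (XT.lf (nat_lit 0) (nat_lit 1531671310690)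 (nat_lit 76) (nat_lit 2087619904462) (nat_lit 76) (nat_lit 2085389557043) (nat_lit 1) (nat_lit 4) (nat_lit 2) (nat_lit 5) (nat_lit 2) (nat_lit 4) (nat_lit 413) (nat_lit 278) (nat_lit 209))))))) (XT.nd (nat_lit 41808) (nat_lit 0) (nat_lit 76) (XT.nd (nat_lit 41496) (nat_lit 0) (nat_lit 228) (XT.nd (nat_lit 41340) (nat_lit 0) (nat_lit 304) (XT.nd (nat_lit 41262) (nat_lit 0) (nat_lit 456) (XT.lf (nat_lit 0) (nat_lit 1658699220021) (nat_lit 76) (nat_lit 2252203489257) (nat_lit 76) (nat_lit 2249972321580) (nat_lit 1) (nat_lit 4) (nat_lit 2) (nat_lit 5) (nat_lit 2) (nat_lit 4) (nat_lit 414) (nat_lit 278) (nat_lit 208)) (XT.lf (nat_lit 0) (nat_lit 5460285160) (nat_lit 76) (nat_lit 4340645683) (nat_lit 76) (nat_lit 4340645683) (nat_lit 7) (nat_lit 4) (nat_lit 8) (nat_lit 5) (nat_lit 8) (nat_lit 4) (nat_lit 342) (nat_lit 279) (nat_lit 279))) (XT.nd (nat_lit 78) (nat_lit 152) (nat_lit 0) (XT.lf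 (nat_lit 0) (nat_lit 22046313728) (nat_lit 76) (nat_lit 4143749709) (nat_lit 76) (nat_lit 3934598242) (nat_lit 7) (nat_lit 4) (nat_lit 8) (nat_lit 5) (nat_lit 8) (nat_lit 4) (nat_lit 343) (nat_lit 279) (nat_lit 278)) (XT.lf (nat_lit 0) (nat_lit 919146470) (nat_lit 152) (nat_lit 30662988809) (nat_lit 0) (nat_lit 546174032) (nat_lit 5) (nat_lit 5) (nat_lit 7) (nat_lit 4) (nat_lit 5) (nat_lit 4) (nat_lit 344) (nat_lit 279) (nat_lit 277)))) (XT.nd (nat_lit 156) (nat_lit 76) (nat_lit 0) (XT.nd (nat_lit 78) (nat_lit 0) (nat_lit 0) (XT.lf (nat_lit 0) (nat_lit 6021865112) (nat_lit 152) (nat_lit 22773548163) (nat_lit 0) (nat_lit 5482861496) (nat_lit 5) (nat_lit 5) (nat_lit 7) (nat_lit 4) (nat_lit 5) (nat_lit 4) (nat_lit 345) (nat_lit 279) (nat_lit 276)) (XT.lf (nat_lit 0) (nat_lit 11291136054) (nat_lit 152) (nat_lit 14730091609) (nat_lit 0) (nat_lit 10598399866) (nat_lit 5) (nat_lit 5) (nat_lit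 7) (nat_lit 4) (nat_lit 5) (nat_lit 4) (nat_lit 346) (nat_lit 279) (nat_lit 275))) (XT.nd (nat_lit 78) (nat_lit 76) (nat_lit 0) (XT.lf (nat_lit 0) (nat_lit 16758184606) (nat_lit 152) (nat_lit 6484954220) (nat_lit 0) (nat_lit 15923103444) (nat_lit 5) (nat_lit 5) (nat_lit 7) (nat_lit 4) (nat_lit 5) (nat_lit 4) (nat_lit 347) (nat_lit 279) (nat_lit 274)) (XT.lf (nat_lit 0) (nat_lit 2116605245) (nat_lit 76) (nat_lit 20389707255) (nat_lit 76) (nat_lit 19422825190) (nat_lit 4) (nat_lit 4) (nat_lit 5) (nat_lit 5) (nat_lit 5) (nat_lit 4) (nat_lit 348) (nat_lit 279) (nat_lit 273))))) (XT.nd (nat_lit 312) (nat_lit 152) (nat_lit 0) (XT.nd (nat_lit 156) (nat_lit 0) (nat_lit 0) (XT.nd (nat_lit 78) (nat_lit 0) (nat_lit 0) (XT.lf (nat_lit 0) (nat_lit 11376380683) (nat_lit 76) (nat_lit 17313789384) (nat_lit 76) (nat_lit 16224869447) (nat_lit 4) (nat_lit 4) (nat_lit 5) (nat_lit 5) (nat_lit 5) (nat_lit 4)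 (nat_lit 349) (nat_lit 279) (nat_lit 272)) (XT.lf (nat_lit 0) (nat_lit 21007758640) (nat_lit 76) (nat_lit 14174467695) (nat_lit 76) (nat_lit 12972549728) (nat_lit 4) (nat_lit 4) (nat_lit 5) (nat_lit 5) (nat_lit 5) (nat_lit 4) (nat_lit 350) (nat_lit 279) (nat_lit 271))) (XT.nd (nat_lit 78) (nat_lit 0) (nat_lit 0) (XT.lf (nat_lit 0) (nat_lit 31067813949) (nat_lit 76) (nat_lit 10953138798) (nat_lit 76) (nat_lit 9646593025) (nat_lit 4) (nat_lit 4) (nat_lit 5) (nat_lit 5) (nat_lit 5) (nat_lit 4) (nat_lit 351) (nat_lit 279) (nat_lit 270)) (XT.lf (nat_lit 0) (nat_lit 41616161752) (nat_lit 76) (nat_lit 7630713337) (nat_lit 76) (nat_lit 6227289967) (nat_lit 4) (nat_lit 4) (nat_lit 5) (nat_lit 5) (nat_lit 5) (nat_lit 4) (nat_lit 352) (nat_lit 279) (nat_lit 269)))) (XT.nd (nat_lit 156) (nat_lit 0) (nat_lit 0) (XT.nd (nat_lit 78) (nat_lit 152) (nat_lit 0) (XT.lf (nat_lit 0) (nat_lit 52715310776) (nat_lit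 76) (nat_lit 4187502866) (nat_lit 76) (nat_lit 2694378017) (nat_lit 4) (nat_lit 4) (nat_lit 5) (nat_lit 5) (nat_lit 5) (nat_lit 4) (nat_lit 353) (nat_lit 279) (nat_lit 268)) (XT.lf (nat_lit 0) (nat_lit 364822775) (nat_lit 76) (nat_lit 568352488) (nat_lit 152) (nat_lit 63125308941) (nat_lit 2) (nat_lit 5) (nat_lit 3) (nat_lit 5) (nat_lit 4) (nat_lit 4) (nat_lit 354) (nat_lit 279) (nat_lit 267))) (XT.nd (nat_lit 78) (nat_lit 0) (nat_lit 0) (XT.lf (nat_lit 0) (nat_lit 4838711432) (nat_lit 152) (nat_lit 60713652808) (nat_lit 0) (nat_lit 3308075936) (nat_lit 2) (nat_lit 5) (nat_lit 4) (nat_lit 4) (nat_lit 2) (nat_lit 4) (nat_lit 355) (nat_lit 279) (nat_lit 266)) (XT.nd (nat_lit 78) (nat_lit 0) (nat_lit 0) (XT.lf (nat_lit 0) (nat_lit 8941786081) (nat_lit 152) (nat_lit 57768765958) (nat_lit 0) (nat_lit 7345217321) (nat_lit 2) (nat_lit 5) (nat_lit 4) (nat_lit 4) (nat_lit 2) (nat_lit 4) (nat_lit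 356) (nat_lit 279) (nat_lit 265)) (XT.lf (nat_lit 0) (nat_lit 13253044837) (nat_lit 152) (nat_lit 54827880806) (nat_lit 0) (nat_lit 11595426757) (nat_lit 2) (nat_lit 5) (nat_lit 4) (nat_lit 4) (nat_lit 2) (nat_lit 4) (nat_lit 357) (nat_lit 279) (nat_lit 264))))))))
noncomputable def xc39 : XT := (XT.nd (nat_lit 1326) (nat_lit 0) (nat_lit 0) (XT.nd (nat_lit 624) (nat_lit 76) (nat_lit 0) (XT.nd (nat_lit 312) (nat_lit 0) (nat_lit 0) (XT.nd (nat_lit 156) (nat_lit 0) (nat_lit 0) (XT.nd (nat_lit 78) (nat_lit 0) (nat_lit 0) (XT.lf (nat_lit 0) (nat_lit 17798035901) (nat_lit 152) (nat_lit 51873569887) (nat_lit 0) (nat_lit 16083890673) (nat_lit 2) (nat_lit 5) (nat_lit 4) (nat_lit 4) (nat_lit 2) (nat_lit 4) (nat_lit 358) (nat_lit 279) (nat_lit 263)) (XT.lf (nat_lit 0) (nat_lit 22603692551) (nat_lit 152) (nat_lit 48888326171) (nat_lit 0) (nat_lit 20837207372) (nat_lit 2) (nat_lit 5) (nat_lit 4) (nat_lit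 4) (nat_lit 2) (nat_lit 4) (nat_lit 359) (nat_lit 279) (nat_lit 262))) (XT.nd (nat_lit 78) (nat_lit 0) (nat_lit 0) (XT.lf (nat_lit 0) (nat_lit 27698492754) (nat_lit 152) (nat_lit 45854459326) (nat_lit 0) (nat_lit 25883544657) (nat_lit 2) (nat_lit 5) (nat_lit 4) (nat_lit 4) (nat_lit 2) (nat_lit 4) (nat_lit 360) (nat_lit 279) (nat_lit 261)) (XT.lf (nat_lit 0) (nat_lit 33112627919) (nat_lit 152) (nat_lit 42753990882) (nat_lit 0) (nat_lit 31252806749) (nat_lit 2) (nat_lit 5) (nat_lit 4) (nat_lit 4) (nat_lit 2) (nat_lit 4) (nat_lit 361) (nat_lit 279) (nat_lit 260)))) (XT.nd (nat_lit 156) (nat_lit 0) (nat_lit 0) (XT.nd (nat_lit 78) (nat_lit 0) (nat_lit 0) (XT.lf (nat_lit 0) (nat_lit 38878181808) (nat_lit 152) (nat_lit 39568547692) (nat_lit 0) (nat_lit 36976811497) (nat_lit 2) (nat_lit 5) (nat_lit 4) (nat_lit 4) (nat_lit 2) (nat_lit 4) (nat_lit 362) (nat_lit 279) (nat_lit 259)) (XT.lf (nat_lit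 0) (nat_lit 45029320668) (nat_lit 152) (nat_lit 36279253056) (nat_lit 0) (nat_lit 43089478930) (nat_lit 2) (nat_lit 5) (nat_lit 4) (nat_lit 4) (nat_lit 2) (nat_lit 4) (nat_lit 363) (nat_lit 279) (nat_lit 258))) (XT.nd (nat_lit 78) (nat_lit 0) (nat_lit 0) (XT.lf (nat_lit 0) (nat_lit 51602495692) (nat_lit 152) (nat_lit 32866614857) (nat_lit 0) (nat_lit 49627032262) (nat_lit 2) (nat_lit 5) (nat_lit 4) (nat_lit 4) (nat_lit 2) (nat_lit 4) (nat_lit 364) (nat_lit 279) (nat_lit 257)) (XT.lf (nat_lit 0) (nat_lit 58636659028) (nat_lit 152) (nat_lit 29310410055) (nat_lit 0) (nat_lit 56628212550) (nat_lit 2) (nat_lit 5) (nat_lit 4) (nat_lit 4) (nat_lit 2) (nat_lit 4) (nat_lit 365) (nat_lit 279) (nat_lit 256))))) (XT.nd (nat_lit 312) (nat_lit 76) (nat_lit 0) (XT.nd (nat_lit 156) (nat_lit 0) (nat_lit 0) (XT.nd (nat_lit 78) (nat_lit 0) (nat_lit 0) (XT.lf (nat_lit 0) (nat_lit 66173494607) (nat_lit 152)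 (nat_lit 25589564843) (nat_lit 0) (nat_lit 64134508270) (nat_lit 2) (nat_lit 5) (nat_lit 4) (nat_lit 4) (nat_lit 2) (nat_lit 4) (nat_lit 366) (nat_lit 279) (nat_lit 255)) (XT.lf (nat_lit 0) (nat_lit 74257665158) (nat_lit 152) (nat_lit 21682029768) (nat_lit 0) (nat_lit 72190401174) (nat_lit 2) (nat_lit 5) (nat_lit 4) (nat_lit 4) (nat_lit 2) (nat_lit 4) (nat_lit 367) (nat_lit 279) (nat_lit 254))) (XT.nd (nat_lit 78) (nat_lit 0) (nat_lit 0) (XT.lf (nat_lit 0) (nat_lit 82937076877) (nat_lit 152) (nat_lit 17564649066) (nat_lit 0) (nat_lit 80843629886) (nat_lit 2) (nat_lit 5) (nat_lit 4) (nat_lit 4) (nat_lit 2) (nat_lit 4) (nat_lit 368) (nat_lit 279) (nat_lit 253)) (XT.lf (nat_lit 0) (nat_lit 92263163315) (nat_lit 152) (nat_lit 13213023445) (nat_lit 0) (nat_lit 90145472799) (nat_lit 2) (nat_lit 5) (nat_lit 4) (nat_lit 4) (nat_lit 2) (nat_lit 4) (nat_lit 369) (nat_lit 279) (nat_lit 252)))) (XT.nd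 (nat_lit 156) (nat_lit 76) (nat_lit 0) (XT.nd (nat_lit 78) (nat_lit 0) (nat_lit 0) (XT.lf (nat_lit 0) (nat_lit 102291190169) (nat_lit 152) (nat_lit 8601365494) (nat_lit 0) (nat_lit 100151051946) (nat_lit 2) (nat_lit 5) (nat_lit 4) (nat_lit 4) (nat_lit 2) (nat_lit 4) (nat_lit 370) (nat_lit 279) (nat_lit 251)) (XT.lf (nat_lit 0) (nat_lit 113080582784) (nat_lit 152) (nat_lit 3702346868) (nat_lit 0) (nat_lit 110919659646) (nat_lit 2) (nat_lit 5) (nat_lit 4) (nat_lit 4) (nat_lit 2) (nat_lit 4) (nat_lit 371) (nat_lit 279) (nat_lit 250))) (XT.nd (nat_lit 78) (nat_lit 0) (nat_lit 0) (XT.lf (nat_lit 0) (nat_lit 1592738902) (nat_lit 76) (nat_lit 123140844808) (nat_lit 76) (nat_lit 120960676378) (nat_lit 1) (nat_lit 4) (nat_lit 2) (nat_lit 5) (nat_lit 2) (nat_lit 4) (nat_lit 372) (nat_lit 279) (nat_lit 249)) (XT.nd (nat_lit 78) (nat_lit 0) (nat_lit 0) (XT.lf (nat_lit 0) (nat_lit 7448369829) (nat_lit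 76) (nat_lit 129934868190) (nat_lit 76) (nat_lit 127736880046) (nat_lit 1) (nat_lit 4) (nat_lit 2) (nat_lit 5) (nat_lit 2) (nat_lit 4) (nat_lit 373) (nat_lit 279) (nat_lit 248)) (XT.lf (nat_lit 0) (nat_lit 13704286922) (nat_lit 76) (nat_lit 137306489404) (nat_lit 76) (nat_lit 135092001524) (nat_lit 1) (nat_lit 4) (nat_lit 2) (nat_lit 5) (nat_lit 2) (nat_lit 4) (nat_lit 374) (nat_lit 279) (nat_lit 247))))))) (XT.nd (nat_lit 702) (nat_lit 0) (nat_lit 0) (XT.nd (nat_lit 312) (nat_lit 0) (nat_lit 0) (XT.nd (nat_lit 156) (nat_lit 0) (nat_lit 0) (XT.nd (nat_lit 78) (nat_lit 0) (nat_lit 0) (XT.lf (nat_lit 0) (nat_lit 20397562283) (nat_lit 76) (nat_lit 145299392130) (nat_lit 76) (nat_lit 143069626717) (nat_lit 1) (nat_lit 4) (nat_lit 2) (nat_lit 5) (nat_lit 2) (nat_lit 4) (nat_lit 375) (nat_lit 279) (nat_lit 246)) (XT.lf (nat_lit 0) (nat_lit 27567859764) (nat_lit 76) (nat_lit 153960941718) (nat_lit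 76) (nat_lit 151717030441) (nat_lit 1) (nat_lit 4) (nat_lit 2) (nat_lit 5) (nat_lit 2) (nat_lit 4) (nat_lit 376) (nat_lit 279) (nat_lit 245))) (XT.nd (nat_lit 78) (nat_lit 0) (nat_lit 0) (XT.lf (nat_lit 0) (nat_lit 35257670018) (nat_lit 76) (nat_lit 163342465870) (nat_lit 76) (nat_lit 161085456571) (nat_lit 1) (nat_lit 4) (nat_lit 2) (nat_lit 5) (nat_lit 2) (nat_lit 4) (nat_lit 377) (nat_lit 279) (nat_lit 244)) (XT.lf (nat_lit 0) (nat_lit 43512562291) (nat_lit 76) (nat_lit 173499558801) (nat_lit 76) (nat_lit 171230421704) (nat_lit 1) (nat_lit 4) (nat_lit 2) (nat_lit 5) (nat_lit 2) (nat_lit 4) (nat_lit 378) (nat_lit 279) (nat_lit 243)))) (XT.nd (nat_lit 156) (nat_lit 0) (nat_lit 0) (XT.nd (nat_lit 78) (nat_lit 0) (nat_lit 0) (XT.lf (nat_lit 0) (nat_lit 52381454463) (nat_lit 76) (nat_lit 184492410694) (nat_lit 76) (nat_lit 182212044154) (nat_lit 1) (nat_lit 4) (nat_lit 2) (nat_lit 5) (nat_lit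 2) (nat_lit 4) (nat_lit 379) (nat_lit 279) (nat_lit 242)) (XT.lf (nat_lit 0) (nat_lit 61916902932) (nat_lit 76) (nat_lit 196386164374) (nat_lit 76) (nat_lit 194095400202) (nat_lit 1) (nat_lit 4) (nat_lit 2) (nat_lit 5) (nat_lit 2) (nat_lit 4) (nat_lit 380) (nat_lit 279) (nat_lit 241))) (XT.nd (nat_lit 78) (nat_lit 0) (nat_lit 0) (XT.lf (nat_lit 0) (nat_lit 72175414060) (nat_lit 76) (nat_lit 209251301343) (nat_lit 76) (nat_lit 206950909734) (nat_lit 1) (nat_lit 4) (nat_lit 2) (nat_lit 5) (nat_lit 2) (nat_lit 4) (nat_lit 381) (nat_lit 279) (nat_lit 240)) (XT.nd (nat_lit 78) (nat_lit 0) (nat_lit 0) (XT.lf (nat_lit 0) (nat_lit 83217779023) (nat_lit 76) (nat_lit 223164059452) (nat_lit 76) (nat_lit 220854753549) (nat_lit 1) (nat_lit 4) (nat_lit 2) (nat_lit 5) (nat_lit 2) (nat_lit 4) (nat_lit 382) (nat_lit 279) (nat_lit 239)) (XT.lf (nat_lit 0) (nat_lit 95109434058) (nat_lit 76) (nat_lit 238206884673)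 (nat_lit 76) (nat_lit 235889324794) (nat_lit 1) (nat_lit 4) (nat_lit 2) (nat_lit 5) (nat_lit 2) (nat_lit 4) (nat_lit 383) (nat_lit 279) (nat_lit 238)))))) (XT.nd (nat_lit 312) (nat_lit 0) (nat_lit 0) (XT.nd (nat_lit 156) (nat_lit 0) (nat_lit 0) (XT.nd (nat_lit 78) (nat_lit 0) (nat_lit 0) (XT.lf (nat_lit 0) (nat_lit 107920848232) (nat_lit 76) (nat_lit 254468919675) (nat_lit 76) (nat_lit 252143717226) (nat_lit 1) (nat_lit 4) (nat_lit 2) (nat_lit 5) (nat_lit 2) (nat_lit 4) (nat_lit 384) (nat_lit 279) (nat_lit 237)) (XT.lf (nat_lit 0) (nat_lit 121727941037) (nat_lit 76) (nat_lit 272046532073) (nat_lit 76) (nat_lit 269714253170) (nat_lit 1) (nat_lit 4) (nat_lit 2) (nat_lit 5) (nat_lit 2) (nat_lit 4) (nat_lit 385) (nat_lit 279) (nat_lit 236))) (XT.nd (nat_lit 78) (nat_lit 0) (nat_lit 0) (XT.lf (nat_lit 0) (nat_lit 136612532281) (nat_lit 76) (nat_lit 291043885495) (nat_lit 76) (nat_lit 288705054320)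 (nat_lit 1) (nat_lit 4) (nat_lit 2) (nat_lit 5) (nat_lit 2) (nat_lit 4) (nat_lit 386) (nat_lit 279) (nat_lit 235)) (XT.lf (nat_lit 0) (nat_lit 152662826950) (nat_lit 76) (nat_lit 311573556851) (nat_lit 76) (nat_lit 309228658758) (nat_lit 1) (nat_lit 4) (nat_lit 2) (nat_lit 5) (nat_lit 2) (nat_lit 4) (nat_lit 387) (nat_lit 279) (nat_lit 234)))) (XT.nd (nat_lit 156) (nat_lit 0) (nat_lit 0) (XT.nd (nat_lit 78) (nat_lit 0) (nat_lit 0) (XT.lf (nat_lit 0) (nat_lit 169973937901) (nat_lit 76) (nat_lit 333757203453) (nat_lit 76) (nat_lit 331406687842) (nat_lit 1) (nat_lit 4) (nat_lit 2) (nat_lit 5) (nat_lit 2) (nat_lit 4) (nat_lit 388) (nat_lit 279) (nat_lit 233)) (XT.lf (nat_lit 0) (nat_lit 188648449496) (nat_lit 76) (nat_lit 357726283946) (nat_lit 76) (nat_lit 355370566931) (nat_lit 1) (nat_lit 4) (nat_lit 2) (nat_lit 5) (nat_lit 2) (nat_lit 4) (nat_lit 389) (nat_lit 279) (nat_lit 232))) (XT.nd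 (nat_lit 78) (nat_lit 0) (nat_lit 0) (XT.lf (nat_lit 0) (nat_lit 208797025506) (nat_lit 76) (nat_lit 383622837328) (nat_lit 76) (nat_lit 381262304197) (nat_lit 1) (nat_lit 4) (nat_lit 2) (nat_lit 5) (nat_lit 2) (nat_lit 4) (nat_lit 390) (nat_lit 279) (nat_lit 231)) (XT.nd (nat_lit 78) (nat_lit 0) (nat_lit 0) (XT.lf (nat_lit 0) (nat_lit 230539064902) (nat_lit 76) (nat_lit 411600324654) (nat_lit 76) (nat_lit 409235332157) (nat_lit 1) (nat_lit 4) (nat_lit 2) (nat_lit 5) (nat_lit 2) (nat_lit 4) (nat_lit 391) (nat_lit 279) (nat_lit 230)) (XT.lf (nat_lit 0) (nat_lit 254003409396) (nat_lit 76) (nat_lit 441824538442) (nat_lit 76) (nat_lit 439455416902) (nat_lit 1) (nat_lit 4) (nat_lit 2) (nat_lit 5) (nat_lit 2) (nat_lit 4) (nat_lit 392) (nat_lit 279) (nat_lit 229))))))))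
noncomputable def xc40 : XT := (XT.nd (nat_lit 1326) (nat_lit 0) (nat_lit 0) (XT.nd (nat_lit 624) (nat_lit 0) (nat_lit 0) (XT.nd (nat_lit 312) (nat_lit 0) (nat_lit 0) (XT.nd (nat_lit 156) (nat_lit 0) (nat_lit 0) (XT.nd (nat_lit 78) (nat_lit 0) (nat_lit 0) (XT.lf (nat_lit 0) (nat_lit 279329106958) (nat_lit 76) (nat_lit 474474585144) (nat_lit 76) (nat_lit 472101640417) (nat_lit 1) (nat_lit 4) (nat_lit 2) (nat_lit 5) (nat_lit 2) (nat_lit 4) (nat_lit 393) (nat_lit 279) (nat_lit 228)) (XT.lf (nat_lit 0) (nat_lit 306666235795) (nat_lit 76) (nat_lit 509743946519) (nat_lit 76) (nat_lit 507367461803) (nat_lit 1) (nat_lit 4) (nat_lit 2) (nat_lit 5) (nat_lit 2) (nat_lit 4) (nat_lit 394) (nat_lit 279) (nat_lit 227))) (XT.nd (nat_lit 78) (nat_lit 0) (nat_lit 0) (XT.lf (nat_lit 0) (nat_lit 336176793706) (nat_lit 76) (nat_lit 547841626189) (nat_lit 76) (nat_lit 545461863706) (nat_lit 1) (nat_lit 4) (nat_lit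 2) (nat_lit 5) (nat_lit 2) (nat_lit 4) (nat_lit 395) (nat_lit 279) (nat_lit 226)) (XT.lf (nat_lit 0) (nat_lit 368035658074) (nat_lit 76) (nat_lit 588993388182) (nat_lit 76) (nat_lit 586610590729) (nat_lit 1) (nat_lit 4) (nat_lit 2) (nat_lit 5) (nat_lit 2) (nat_lit 4) (nat_lit 396) (nat_lit 279) (nat_lit 225)))) (XT.nd (nat_lit 156) (nat_lit 0) (nat_lit 0) (XT.nd (nat_lit 78) (nat_lit 0) (nat_lit 0) (XT.lf (nat_lit 0) (nat_lit 402431622167) (nat_lit 76) (nat_lit 633443094792) (nat_lit 76) (nat_lit 631057487182) (nat_lit 1) (nat_lit 4) (nat_lit 2) (nat_lit 5) (nat_lit 2) (nat_lit 4) (nat_lit 397) (nat_lit 279) (nat_lit 224)) (XT.lf (nat_lit 0) (nat_lit 439568513921) (nat_lit 76) (nat_lit 681454151687) (nat_lit 76) (nat_lit 679065942079) (nat_lit 1) (nat_lit 4) (nat_lit 2) (nat_lit 5) (nat_lit 2) (nat_lit 4) (nat_lit 398) (nat_lit 279) (nat_lit 223))) (XT.nd (nat_lit 78) (nat_lit 0) (nat_lit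 0) (XT.lf (nat_lit 0) (nat_lit 479666403807) (nat_lit 76) (nat_lit 733311068834) (nat_lit 76) (nat_lit 730920449970) (nat_lit 1) (nat_lit 4) (nat_lit 2) (nat_lit 5) (nat_lit 2) (nat_lit 4) (nat_lit 399) (nat_lit 279) (nat_lit 222)) (XT.lf (nat_lit 0) (nat_lit 522962908948) (nat_lit 76) (nat_lit 789321146483) (nat_lit 76) (nat_lit 786928296825) (nat_lit 1) (nat_lit 4) (nat_lit 2) (nat_lit 5) (nat_lit 2) (nat_lit 4) (nat_lit 400) (nat_lit 279) (nat_lit 221))))) (XT.nd (nat_lit 312) (nat_lit 0) (nat_lit 0) (XT.nd (nat_lit 156) (nat_lit 0) (nat_lit 0) (XT.nd (nat_lit 78) (nat_lit 0) (nat_lit 0) (XT.lf (nat_lit 0) (nat_lit 569714601228) (nat_lit 76) (nat_lit 849816296204) (nat_lit 76) (nat_lit 847421380997) (nat_lit 1) (nat_lit 4) (nat_lit 2) (nat_lit 5) (nat_lit 2) (nat_lit 4) (nat_lit 401) (nat_lit 279) (nat_lit 220)) (XT.lf (nat_lit 0) (nat_lit 620198527711) (nat_lit 76) (nat_lit 915155007775)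 (nat_lit 76) (nat_lit 912758180022) (nat_lit 1) (nat_lit 4) (nat_lit 2) (nat_lit 5) (nat_lit 2) (nat_lit 4) (nat_lit 402) (nat_lit 279) (nat_lit 219))) (XT.nd (nat_lit 78) (nat_lit 0) (nat_lit 0) (XT.lf (nat_lit 0) (nat_lit 674713852408) (nat_lit 76) (nat_lit 985724473560) (nat_lit 76) (nat_lit 983325874931) (nat_lit 1) (nat_lit 4) (nat_lit 2) (nat_lit 5) (nat_lit 2) (nat_lit 4) (nat_lit 403) (nat_lit 279) (nat_lit 218)) (XT.lf (nat_lit 0) (nat_lit 733583629092) (nat_lit 76) (nat_lit 1061942882985) (nat_lit 76) (nat_lit 1059542644657) (nat_lit 1) (nat_lit 4) (nat_lit 2) (nat_lit 5) (nat_lit 2) (nat_lit 4) (nat_lit 404) (nat_lit 279) (nat_lit 217)))) (XT.nd (nat_lit 156) (nat_lit 0) (nat_lit 0) (XT.nd (nat_lit 78) (nat_lit 0) (nat_lit 0) (XT.lf (nat_lit 0) (nat_lit 797156715701) (nat_lit 76) (nat_lit 1144261900700) (nat_lit 76) (nat_lit 1141860144131) (nat_lit 1) (nat_lit 4) (nat_lit 2)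 (nat_lit 5) (nat_lit 2) (nat_lit 4) (nat_lit 405) (nat_lit 279) (nat_lit 216)) (XT.lf (nat_lit 0) (nat_lit 865809841637) (nat_lit 76) (nat_lit 1233169343106) (nat_lit 76) (nat_lit 1230766180759) (nat_lit 1) (nat_lit 4) (nat_lit 2) (nat_lit 5) (nat_lit 2) (nat_lit 4) (nat_lit 406) (nat_lit 279) (nat_lit 215))) (XT.nd (nat_lit 78) (nat_lit 0) (nat_lit 0) (XT.lf (nat_lit 0) (nat_lit 939949840239) (nat_lit 76) (nat_lit 1329192069120) (nat_lit 76) (nat_lit 1326787605126) (nat_lit 1) (nat_lit 4) (nat_lit 2) (nat_lit 5) (nat_lit 2) (nat_lit 4) (nat_lit 407) (nat_lit 279) (nat_lit 214)) (XT.nd (nat_lit 78) (nat_lit 0) (nat_lit 0) (XT.lf (nat_lit 0) (nat_lit 1020016059645) (nat_lit 76) (nat_lit 1432899102304) (nat_lit 76) (nat_lit 1430493433082) (nat_lit 1) (nat_lit 4) (nat_lit 2) (nat_lit 5) (nat_lit 2) (nat_lit 4) (nat_lit 408) (nat_lit 279) (nat_lit 213)) (XT.lf (nat_lit 0) (nat_lit 1106482966342)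 (nat_lit 76) (nat_lit 1544905002855) (nat_lit 76) (nat_lit 1542498217681) (nat_lit 1) (nat_lit 4) (nat_lit 2) (nat_lit 5) (nat_lit 2) (nat_lit 4) (nat_lit 409) (nat_lit 279) (nat_lit 212))))))) (XT.nd (nat_lit 41652) (nat_lit 0) (nat_lit 228) (XT.nd (nat_lit 312) (nat_lit 0) (nat_lit 0) (XT.nd (nat_lit 156) (nat_lit 0) (nat_lit 0) (XT.nd (nat_lit 78) (nat_lit 0) (nat_lit 0) (XT.lf (nat_lit 0) (nat_lit 1199862956815) (nat_lit 76) (nat_lit 1665873509442) (nat_lit 76) (nat_lit 1663465690979) (nat_lit 1) (nat_lit 4) (nat_lit 2) (nat_lit 5) (nat_lit 2) (nat_lit 4) (nat_lit 410) (nat_lit 279) (nat_lit 211)) (XT.lf (nat_lit 0) (nat_lit 1300709393968) (nat_lit 76) (nat_lit 1796521472476) (nat_lit 76) (nat_lit 1794112697264) (nat_lit 1) (nat_lit 4) (nat_lit 2) (nat_lit 5) (nat_lit 2) (nat_lit 4) (nat_lit 411) (nat_lit 279) (nat_lit 210))) (XT.nd (nat_lit 78) (nat_lit 0) (nat_lit 0) (XT.lf (nat_lit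 0) (nat_lit 1409619886319) (nat_lit 76) (nat_lit 1937623102107) (nat_lit 76) (nat_lit 1935213441016) (nat_lit 1) (nat_lit 4) (nat_lit 2) (nat_lit 5) (nat_lit 2) (nat_lit 4) (nat_lit 412) (nat_lit 279) (nat_lit 209)) (XT.lf (nat_lit 0) (nat_lit 1527239829379) (nat_lit 76) (nat_lit 2090014556141) (nat_lit 76) (nat_lit 2087604074792) (nat_lit 1) (nat_lit 4) (nat_lit 2) (nat_lit 5) (nat_lit 2) (nat_lit 4) (nat_lit 413) (nat_lit 279) (nat_lit 208)))) (XT.nd (nat_lit 41184) (nat_lit 0) (nat_lit 456) (XT.nd (nat_lit 41106) (nat_lit 0) (nat_lit 532) (XT.lf (nat_lit 0) (nat_lit 1654266230216) (nat_lit 76) (nat_lit 2254598895045) (nat_lit 76) (nat_lit 2252187654198) (nat_lit 1) (nat_lit 4) (nat_lit 2) (nat_lit 5) (nat_lit 2) (nat_lit 4) (nat_lit 414) (nat_lit 279) (nat_lit 207)) (XT.lf (nat_lit 0) (nat_lit 3848864002) (nat_lit 152) (nat_lit 4817247742) (nat_lit 0) (nat_lit 3848864002) (nat_lit 8)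 (nat_lit 5) (nat_lit 10) (nat_lit 4) (nat_lit 8) (nat_lit 4) (nat_lit 340) (nat_lit 280) (nat_lit 280))) (XT.nd (nat_lit 78) (nat_lit 0) (nat_lit 0) (XT.lf (nat_lit 0) (nat_lit 119088184) (nat_lit 76) (nat_lit 13352690918) (nat_lit 76) (nat_lit 13126807334) (nat_lit 7) (nat_lit 4) (nat_lit 8) (nat_lit 5) (nat_lit 8) (nat_lit 4) (nat_lit 341) (nat_lit 280) (nat_lit 279)) (XT.lf (nat_lit 0) (nat_lit 10661023542) (nat_lit 76) (nat_lit 9033913214) (nat_lit 76) (nat_lit 8598878162) (nat_lit 7) (nat_lit 4) (nat_lit 8) (nat_lit 5) (nat_lit 8) (nat_lit 4) (nat_lit 342) (nat_lit 280) (nat_lit 278))))) (XT.nd (nat_lit 312) (nat_lit 76) (nat_lit 0) (XT.nd (nat_lit 156) (nat_lit 0) (nat_lit 0) (XT.nd (nat_lit 78) (nat_lit 152) (nat_lit 0) (XT.lf (nat_lit 0) (nat_lit 21546445857) (nat_lit 76) (nat_lit 4613721800) (nat_lit 76) (nat_lit 3985027982) (nat_lit 7) (nat_lit 4) (nat_lit 8) (nat_lit 5) (nat_lit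 8) (nat_lit 4) (nat_lit 343) (nat_lit 280) (nat_lit 277)) (XT.lf (nat_lit 0) (nat_lit 692980111) (nat_lit 76) (nat_lit 28648542) (nat_lit 152) (nat_lit 31439310022) (nat_lit 5) (nat_lit 5) (nat_lit 6) (nat_lit 5) (nat_lit 7) (nat_lit 4) (nat_lit 344) (nat_lit 280) (nat_lit 276))) (XT.nd (nat_lit 78) (nat_lit 0) (nat_lit 0) (XT.lf (nat_lit 0) (nat_lit 5707473110) (nat_lit 152) (nat_lit 23807222837) (nat_lit 0) (nat_lit 4805585454) (nat_lit 5) (nat_lit 5) (nat_lit 7) (nat_lit 4) (nat_lit 5) (nat_lit 4) (nat_lit 345) (nat_lit 280) (nat_lit 275)) (XT.lf (nat_lit 0) (nat_lit 10869165175) (nat_lit 152) (nat_lit 15976168056) (nat_lit 0) (nat_lit 9824932545) (nat_lit 5) (nat_lit 5) (nat_lit 7) (nat_lit 4) (nat_lit 5) (nat_lit 4) (nat_lit 346) (nat_lit 280) (nat_lit 274)))) (XT.nd (nat_lit 156) (nat_lit 0) (nat_lit 0) (XT.nd (nat_lit 78) (nat_lit 76) (nat_lit 0) (XT.lf (nat_lit 0) (nat_lit 16236603655)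 (nat_lit 152) (nat_lit 7927698975) (nat_lit 0) (nat_lit 15060570123) (nat_lit 5) (nat_lit 5) (nat_lit 7) (nat_lit 4) (nat_lit 5) (nat_lit 4) (nat_lit 347) (nat_lit 280) (nat_lit 273)) (XT.lf (nat_lit 0) (nat_lit 406198743) (nat_lit 76) (nat_lit 21445165940) (nat_lit 76) (nat_lit 20147094535) (nat_lit 4) (nat_lit 4) (nat_lit 5) (nat_lit 5) (nat_lit 5) (nat_lit 4) (nat_lit 348) (nat_lit 280) (nat_lit 272))) (XT.nd (nat_lit 78) (nat_lit 0) (nat_lit 0) (XT.lf (nat_lit 0) (nat_lit 9488484029) (nat_lit 76) (nat_lit 18457069997) (nat_lit 76) (nat_lit 17046000563) (nat_lit 4) (nat_lit 4) (nat_lit 5) (nat_lit 5) (nat_lit 5) (nat_lit 4) (nat_lit 349) (nat_lit 280) (nat_lit 271)) (XT.nd (nat_lit 78) (nat_lit 0) (nat_lit 0) (XT.lf (nat_lit 0) (nat_lit 18955519253) (nat_lit 76) (nat_lit 15399064908) (nat_lit 76) (nat_lit 13883367668) (nat_lit 4) (nat_lit 4) (nat_lit 5) (nat_lit 5) (nat_lit 5) (nat_lit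 4) (nat_lit 350) (nat_lit 280) (nat_lit 270)) (XT.lf (nat_lit 0) (nat_lit 28863405365) (nat_lit 76) (nat_lit 12253029159) (nat_lit 76) (nat_lit 10640454321) (nat_lit 4) (nat_lit 4) (nat_lit 5) (nat_lit 5) (nat_lit 5) (nat_lit 4) (nat_lit 351) (nat_lit 280) (nat_lit 269))))))))
noncomputable def xc41 : XT := (XT.nd (nat_lit 1326) (nat_lit 76) (nat_lit 0) (XT.nd (nat_lit 624) (nat_lit 0) (nat_lit 0) (XT.nd (nat_lit 312) (nat_lit 0) (nat_lit 0) (XT.nd (nat_lit 156) (nat_lit 152) (nat_lit 0) (XT.nd (nat_lit 78) (nat_lit 0) (nat_lit 0) (XT.lf (nat_lit 0) (nat_lit 39270855762) (nat_lit 76) (nat_lit 9000319576) (nat_lit 76) (nat_lit 7298043260) (nat_lit 4) (nat_lit 4) (nat_lit 5) (nat_lit 5) (nat_lit 5) (nat_lit 4) (nat_lit 352) (nat_lit 280) (nat_lit 268)) (XT.lf (nat_lit 0) (nat_lit 50239544226) (nat_lit 76) (nat_lit 5621660844) (nat_lit 76) (nat_lit 3836327602) (nat_lit 4) (nat_lit 4) (nat_lit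 5) (nat_lit 5) (nat_lit 5) (nat_lit 4) (nat_lit 353) (nat_lit 280) (nat_lit 267))) (XT.nd (nat_lit 78) (nat_lit 152) (nat_lit 0) (XT.lf (nat_lit 0) (nat_lit 61834470392) (nat_lit 76) (nat_lit 2097031280) (nat_lit 76) (nat_lit 234793477) (nat_lit 4) (nat_lit 4) (nat_lit 5) (nat_lit 5) (nat_lit 5) (nat_lit 4) (nat_lit 354) (nat_lit 280) (nat_lit 266)) (XT.lf (nat_lit 0) (nat_lit 3522816557) (nat_lit 152) (nat_lit 63726082715) (nat_lit 0) (nat_lit 1732589030) (nat_lit 2) (nat_lit 5) (nat_lit 4) (nat_lit 4) (nat_lit 2) (nat_lit 4) (nat_lit 355) (nat_lit 280) (nat_lit 265)))) (XT.nd (nat_lit 156) (nat_lit 0) (nat_lit 0) (XT.nd (nat_lit 78) (nat_lit 0) (nat_lit 0) (XT.lf (nat_lit 0) (nat_lit 7568169156) (nat_lit 152) (nat_lit 60896384637) (nat_lit 0) (nat_lit 5716892310) (nat_lit 2) (nat_lit 5) (nat_lit 4) (nat_lit 4) (nat_lit 2) (nat_lit 4) (nat_lit 356) (nat_lit 280) (nat_lit 264)) (XT.lf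 (nat_lit 0) (nat_lit 11825981569) (nat_lit 152) (nat_lit 58062155757) (nat_lit 0) (nat_lit 9918177575) (nat_lit 2) (nat_lit 5) (nat_lit 4) (nat_lit 4) (nat_lit 2) (nat_lit 4) (nat_lit 357) (nat_lit 280) (nat_lit 263))) (XT.nd (nat_lit 78) (nat_lit 0) (nat_lit 0) (XT.lf (nat_lit 0) (nat_lit 16321485277) (nat_lit 152) (nat_lit 55206600644) (nat_lit 0) (nat_lit 14361341332) (nat_lit 2) (nat_lit 5) (nat_lit 4) (nat_lit 4) (nat_lit 2) (nat_lit 4) (nat_lit 358) (nat_lit 280) (nat_lit 262)) (XT.lf (nat_lit 0) (nat_lit 21081320303) (nat_lit 152) (nat_lit 52312797489) (nat_lit 0) (nat_lit 19072713440) (nat_lit 2) (nat_lit 5) (nat_lit 4) (nat_lit 4) (nat_lit 2) (nat_lit 4) (nat_lit 359) (nat_lit 280) (nat_lit 261))))) (XT.nd (nat_lit 312) (nat_lit 0) (nat_lit 0) (XT.nd (nat_lit 156) (nat_lit 0) (nat_lit 0) (XT.nd (nat_lit 78) (nat_lit 0) (nat_lit 0) (XT.lf (nat_lit 0) (nat_lit 26133693076) (nat_lit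 152) (nat_lit 49363597831) (nat_lit 0) (nat_lit 24080213140) (nat_lit 2) (nat_lit 5) (nat_lit 4) (nat_lit 4) (nat_lit 2) (nat_lit 4) (nat_lit 360) (nat_lit 280) (nat_lit 260)) (XT.lf (nat_lit 0) (nat_lit 31508543583) (nat_lit 152) (nat_lit 46341524930) (nat_lit 0) (nat_lit 29413514506) (nat_lit 2) (nat_lit 5) (nat_lit 4) (nat_lit 4) (nat_lit 2) (nat_lit 4) (nat_lit 361) (nat_lit 280) (nat_lit 259))) (XT.nd (nat_lit 78) (nat_lit 0) (nat_lit 0) (XT.lf (nat_lit 0) (nat_lit 37237722789) (nat_lit 152) (nat_lit 43228670206) (nat_lit 0) (nat_lit 35104222285) (nat_lit 2) (nat_lit 5) (nat_lit 4) (nat_lit 4) (nat_lit 2) (nat_lit 4) (nat_lit 362) (nat_lit 280) (nat_lit 258)) (XT.lf (nat_lit 0) (nat_lit 43355181387) (nat_lit 152) (nat_lit 40006587112) (nat_lit 0) (nat_lit 41186059192) (nat_lit 2) (nat_lit 5) (nat_lit 4) (nat_lit 4) (nat_lit 2) (nat_lit 4) (nat_lit 363) (nat_lit 280) (nat_lit 257))))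 (XT.nd (nat_lit 156) (nat_lit 0) (nat_lit 0) (XT.nd (nat_lit 78) (nat_lit 0) (nat_lit 0) (XT.lf (nat_lit 0) (nat_lit 49897170983) (nat_lit 152) (nat_lit 36656181824) (nat_lit 0) (nat_lit 47695065740) (nat_lit 2) (nat_lit 5) (nat_lit 4) (nat_lit 4) (nat_lit 2) (nat_lit 4) (nat_lit 364) (nat_lit 280) (nat_lit 256)) (XT.lf (nat_lit 0) (nat_lit 56902458923) (nat_lit 152) (nat_lit 33157600086) (nat_lit 0) (nat_lit 54669813821) (nat_lit 2) (nat_lit 5) (nat_lit 4) (nat_lit 4) (nat_lit 2) (nat_lit 4) (nat_lit 365) (nat_lit 280) (nat_lit 255))) (XT.nd (nat_lit 78) (nat_lit 0) (nat_lit 0) (XT.lf (nat_lit 0) (nat_lit 64412558024) (nat_lit 152) (nat_lit 29490109563) (nat_lit 0) (nat_lit 62151635274) (nat_lit 2) (nat_lit 5) (nat_lit 4) (nat_lit 4) (nat_lit 2) (nat_lit 4) (nat_lit 366) (nat_lit 280) (nat_lit 254)) (XT.nd (nat_lit 78) (nat_lit 0) (nat_lit 0) (XT.lf (nat_lit 0) (nat_lit 72471972577) (nat_lit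 152) (nat_lit 25631976978) (nat_lit 0) (nat_lit 70184866820) (nat_lit 2) (nat_lit 5) (nat_lit 4) (nat_lit 4) (nat_lit 2) (nat_lit 4) (nat_lit 367) (nat_lit 280) (nat_lit 253)) (XT.lf (nat_lit 0) (nat_lit 81128462075) (nat_lit 152) (nat_lit 21560339323) (nat_lit 0) (nat_lit 78817112794) (nat_lit 2) (nat_lit 5) (nat_lit 4) (nat_lit 4) (nat_lit 2) (nat_lit 4) (nat_lit 368) (nat_lit 280) (nat_lit 252))))))) (XT.nd (nat_lit 624) (nat_lit 0) (nat_lit 0) (XT.nd (nat_lit 312) (nat_lit 76) (nat_lit 0) (XT.nd (nat_lit 156) (nat_lit 0) (nat_lit 0) (XT.nd (nat_lit 78) (nat_lit 0) (nat_lit 0) (XT.lf (nat_lit 0) (nat_lit 90433324235) (nat_lit 152) (nat_lit 17251068375) (nat_lit 0) (nat_lit 88099527246) (nat_lit 2) (nat_lit 5) (nat_lit 4) (nat_lit 4) (nat_lit 2) (nat_lit 4) (nat_lit 369) (nat_lit 280) (nat_lit 251)) (XT.lf (nat_lit 0) (nat_lit 100441698980) (nat_lit 152) (nat_lit 12678627713) (nat_lit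 0) (nat_lit 98087117076) (nat_lit 2) (nat_lit 5) (nat_lit 4) (nat_lit 4) (nat_lit 2) (nat_lit 4) (nat_lit 370) (nat_lit 280) (nat_lit 250))) (XT.nd (nat_lit 78) (nat_lit 0) (nat_lit 0) (XT.lf (nat_lit 0) (nat_lit 111212895198) (nat_lit 152) (nat_lit 7815921393) (nat_lit 0) (nat_lit 108839068002) (nat_lit 2) (nat_lit 5) (nat_lit 4) (nat_lit 4) (nat_lit 2) (nat_lit 4) (nat_lit 371) (nat_lit 280) (nat_lit 249)) (XT.lf (nat_lit 0) (nat_lit 122810742199) (nat_lit 152) (nat_lit 2634133376) (nat_lit 0) (nat_lit 120419095289) (nat_lit 2) (nat_lit 5) (nat_lit 4) (nat_lit 4) (nat_lit 2) (nat_lit 4) (nat_lit 372) (nat_lit 280) (nat_lit 248)))) (XT.nd (nat_lit 156) (nat_lit 0) (nat_lit 0) (XT.nd (nat_lit 78) (nat_lit 0) (nat_lit 0) (XT.lf (nat_lit 0) (nat_lit 3050017452) (nat_lit 76) (nat_lit 132327303506) (nat_lit 76) (nat_lit 129919156860) (nat_lit 1) (nat_lit 4) (nat_lit 2) (nat_lit 5) (nat_lit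 2) (nat_lit 4) (nat_lit 373) (nat_lit 280) (nat_lit 247)) (XT.lf (nat_lit 0) (nat_lit 9275590747) (nat_lit 76) (nat_lit 139714093862) (nat_lit 76) (nat_lit 137290669683) (nat_lit 1) (nat_lit 4) (nat_lit 2) (nat_lit 5) (nat_lit 2) (nat_lit 4) (nat_lit 374) (nat_lit 280) (nat_lit 246))) (XT.nd (nat_lit 78) (nat_lit 0) (nat_lit 0) (XT.lf (nat_lit 0) (nat_lit 15940769998) (nat_lit 76) (nat_lit 147721042090) (nat_lit 76) (nat_lit 145283472047) (nat_lit 1) (nat_lit 4) (nat_lit 2) (nat_lit 5) (nat_lit 2) (nat_lit 4) (nat_lit 375) (nat_lit 280) (nat_lit 245)) (XT.lf (nat_lit 0) (nat_lit 23085052563) (nat_lit 76) (nat_lit 156395596772) (nat_lit 76) (nat_lit 153944928707) (nat_lit 1) (nat_lit 4) (nat_lit 2) (nat_lit 5) (nat_lit 2) (nat_lit 4) (nat_lit 376) (nat_lit 280) (nat_lit 244))))) (XT.nd (nat_lit 312) (nat_lit 0) (nat_lit 0) (XT.nd (nat_lit 156) (nat_lit 0) (nat_lit 0) (XT.nd (nat_lit 78)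 (nat_lit 0) (nat_lit 0) (XT.lf (nat_lit 0) (nat_lit 30750774932) (nat_lit 76) (nat_lit 165789162678) (nat_lit 76) (nat_lit 163326366815) (nat_lit 1) (nat_lit 4) (nat_lit 2) (nat_lit 5) (nat_lit 2) (nat_lit 4) (nat_lit 377) (nat_lit 280) (nat_lit 243)) (XT.lf (nat_lit 0) (nat_lit 38983363607) (nat_lit 76) (nat_lit 175957405382) (nat_lit 76) (nat_lit 173483380076) (nat_lit 1) (nat_lit 4) (nat_lit 2) (nat_lit 5) (nat_lit 2) (nat_lit 4) (nat_lit 378) (nat_lit 280) (nat_lit 242))) (XT.nd (nat_lit 78) (nat_lit 0) (nat_lit 0) (XT.lf (nat_lit 0) (nat_lit 47831604300) (nat_lit 76) (nat_lit 186960581138) (nat_lit 76) (nat_lit 184476158200) (nat_lit 1) (nat_lit 4) (nat_lit 2) (nat_lit 5) (nat_lit 2) (nat_lit 4) (nat_lit 379) (nat_lit 280) (nat_lit 241)) (XT.lf (nat_lit 0) (nat_lit 57347931030) (nat_lit 76) (nat_lit 198863893950) (nat_lit 76) (nat_lit 196369843574) (nat_lit 1) (nat_lit 4) (nat_lit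 2) (nat_lit 5) (nat_lit 2) (nat_lit 4) (nat_lit 380) (nat_lit 280) (nat_lit 240)))) (XT.nd (nat_lit 156) (nat_lit 0) (nat_lit 0) (XT.nd (nat_lit 78) (nat_lit 0) (nat_lit 0) (XT.lf (nat_lit 0) (nat_lit 67588736842) (nat_lit 76) (nat_lit 211737881968) (nat_lit 76) (nat_lit 209234917299) (nat_lit 1) (nat_lit 4) (nat_lit 2) (nat_lit 5) (nat_lit 2) (nat_lit 4) (nat_lit 381) (nat_lit 280) (nat_lit 239)) (XT.lf (nat_lit 0) (nat_lit 78614707995) (nat_lit 76) (nat_lit 225658835492) (nat_lit 76) (nat_lit 223147616847) (nat_lit 1) (nat_lit 4) (nat_lit 2) (nat_lit 5) (nat_lit 2) (nat_lit 4) (nat_lit 382) (nat_lit 280) (nat_lit 238))) (XT.nd (nat_lit 78) (nat_lit 0) (nat_lit 0) (XT.lf (nat_lit 0) (nat_lit 90491183576) (nat_lit 76) (nat_lit 240709249061) (nat_lit 76) (nat_lit 238190387846) (nat_lit 1) (nat_lit 4) (nat_lit 2) (nat_lit 5) (nat_lit 2) (nat_lit 4) (nat_lit 383) (nat_lit 280) (nat_lit 237))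 (XT.nd (nat_lit 78) (nat_lit 0) (nat_lit 0) (XT.lf (nat_lit 0) (nat_lit 103288542701) (nat_lit 76) (nat_lit 256978310311) (nat_lit 76) (nat_lit 254452372642) (nat_lit 1) (nat_lit 4) (nat_lit 2) (nat_lit 5) (nat_lit 2) (nat_lit 4) (nat_lit 384) (nat_lit 280) (nat_lit 236)) (XT.lf (nat_lit 0) (nat_lit 117082621570) (nat_lit 76) (nat_lit 274562428493) (nat_lit 76) (nat_lit 272029938553) (nat_lit 1) (nat_lit 4) (nat_lit 2) (nat_lit 5) (nat_lit 2) (nat_lit 4) (nat_lit 385) (nat_lit 280) (nat_lit 235))))))))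
noncomputable def xc42 : XT := (XT.nd (nat_lit 1326) (nat_lit 0) (nat_lit 0) (XT.nd (nat_lit 624) (nat_lit 0) (nat_lit 0) (XT.nd (nat_lit 312) (nat_lit 0) (nat_lit 0) (XT.nd (nat_lit 156) (nat_lit 0) (nat_lit 0) (XT.nd (nat_lit 78) (nat_lit 0) (nat_lit 0) (XT.lf (nat_lit 0) (nat_lit 131955162875) (nat_lit 76) (nat_lit 293565805791) (nat_lit 76) (nat_lit 291027248931) (nat_lit 1) (nat_lit 4) (nat_lit 2) (nat_lit 5) (nat_lit 2) (nat_lit 4) (nat_lit 386) (nat_lit 280) (nat_lit 234)) (XT.lf (nat_lit 0) (nat_lit 147994300193) (nat_lit 76) (nat_lit 314101054809) (nat_lit 76) (nat_lit 311556880432) (nat_lit 1) (nat_lit 4) (nat_lit 2) (nat_lit 5) (nat_lit 2) (nat_lit 4) (nat_lit 387) (nat_lit 280) (nat_lit 233))) (XT.nd (nat_lit 78) (nat_lit 0) (nat_lit 0) (XT.lf (nat_lit 0) (nat_lit 165295080263) (nat_lit 76) (nat_lit 336289865912) (nat_lit 76) (nat_lit 333740490131) (nat_lit 1) (nat_lit 4) (nat_lit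 2) (nat_lit 5) (nat_lit 2) (nat_lit 4) (nat_lit 388) (nat_lit 280) (nat_lit 232)) (XT.lf (nat_lit 0) (nat_lit 183960026227) (nat_lit 76) (nat_lit 360263728352) (nat_lit 76) (nat_lit 357709536456) (nat_lit 1) (nat_lit 4) (nat_lit 2) (nat_lit 5) (nat_lit 2) (nat_lit 4) (nat_lit 389) (nat_lit 280) (nat_lit 231)))) (XT.nd (nat_lit 156) (nat_lit 0) (nat_lit 0) (XT.nd (nat_lit 78) (nat_lit 0) (nat_lit 0) (XT.lf (nat_lit 0) (nat_lit 204099745172) (nat_lit 76) (nat_lit 386164709461) (nat_lit 76) (nat_lit 383606058199) (nat_lit 1) (nat_lit 4) (nat_lit 2) (nat_lit 5) (nat_lit 2) (nat_lit 4) (nat_lit 390) (nat_lit 280) (nat_lit 230)) (XT.lf (nat_lit 0) (nat_lit 225833583580) (nat_lit 76) (nat_lit 414146296535) (nat_lit 76) (nat_lit 411583516230) (nat_lit 1) (nat_lit 4) (nat_lit 2) (nat_lit 5) (nat_lit 2) (nat_lit 4) (nat_lit 391) (nat_lit 280) (nat_lit 229))) (XT.nd (nat_lit 78) (nat_lit 0) (nat_lit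 0) (XT.lf (nat_lit 0) (nat_lit 249290334569) (nat_lit 76) (nat_lit 444374306387) (nat_lit 76) (nat_lit 441807702893) (nat_lit 1) (nat_lit 4) (nat_lit 2) (nat_lit 5) (nat_lit 2) (nat_lit 4) (nat_lit 392) (nat_lit 280) (nat_lit 228)) (XT.lf (nat_lit 0) (nat_lit 274609001107) (nat_lit 76) (nat_lit 477027867962) (nat_lit 76) (nat_lit 474457724480) (nat_lit 1) (nat_lit 4) (nat_lit 2) (nat_lit 5) (nat_lit 2) (nat_lit 4) (nat_lit 393) (nat_lit 280) (nat_lit 227))))) (XT.nd (nat_lit 312) (nat_lit 0) (nat_lit 0) (XT.nd (nat_lit 156) (nat_lit 0) (nat_lit 0) (XT.nd (nat_lit 78) (nat_lit 0) (nat_lit 0) (XT.lf (nat_lit 0) (nat_lit 301939619736) (nat_lit 76) (nat_lit 512300483849) (nat_lit 76) (nat_lit 509727062600) (nat_lit 1) (nat_lit 4) (nat_lit 2) (nat_lit 5) (nat_lit 2) (nat_lit 4) (nat_lit 394) (nat_lit 280) (nat_lit 226)) (XT.lf (nat_lit 0) (nat_lit 331444149677) (nat_lit 76) (nat_lit 550401176957)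 (nat_lit 76) (nat_lit 547824720738) (nat_lit 1) (nat_lit 4) (nat_lit 2) (nat_lit 5) (nat_lit 2) (nat_lit 4) (nat_lit 395) (nat_lit 280) (nat_lit 225))) (XT.nd (nat_lit 78) (nat_lit 0) (nat_lit 0) (XT.lf (nat_lit 0) (nat_lit 363297432591) (nat_lit 76) (nat_lit 591555729170) (nat_lit 76) (nat_lit 588976462793) (nat_lit 1) (nat_lit 4) (nat_lit 2) (nat_lit 5) (nat_lit 2) (nat_lit 4) (nat_lit 396) (nat_lit 280) (nat_lit 224)) (XT.lf (nat_lit 0) (nat_lit 397688228672) (nat_lit 76) (nat_lit 636008019316) (nat_lit 76) (nat_lit 633426150943) (nat_lit 1) (nat_lit 4) (nat_lit 2) (nat_lit 5) (nat_lit 2) (nat_lit 4) (nat_lit 397) (nat_lit 280) (nat_lit 223)))) (XT.nd (nat_lit 156) (nat_lit 0) (nat_lit 0) (XT.nd (nat_lit 78) (nat_lit 0) (nat_lit 0) (XT.lf (nat_lit 0) (nat_lit 434820335229) (nat_lit 76) (nat_lit 684021468375) (nat_lit 76) (nat_lit 681437190744) (nat_lit 1) (nat_lit 4) (nat_lit 2) (nat_lit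 5) (nat_lit 2) (nat_lit 4) (nat_lit 398) (nat_lit 280) (nat_lit 222)) (XT.lf (nat_lit 0) (nat_lit 474913794377) (nat_lit 76) (nat_lit 735880600488) (nat_lit 76) (nat_lit 733294092064) (nat_lit 1) (nat_lit 4) (nat_lit 2) (nat_lit 5) (nat_lit 2) (nat_lit 4) (nat_lit 399) (nat_lit 280) (nat_lit 221))) (XT.nd (nat_lit 78) (nat_lit 0) (nat_lit 0) (XT.lf (nat_lit 0) (nat_lit 518206196983) (nat_lit 76) (nat_lit 791892729031) (nat_lit 76) (nat_lit 789304155058) (nat_lit 1) (nat_lit 4) (nat_lit 2) (nat_lit 5) (nat_lit 2) (nat_lit 4) (nat_lit 400) (nat_lit 280) (nat_lit 220)) (XT.nd (nat_lit 78) (nat_lit 0) (nat_lit 0) (XT.lf (nat_lit 0) (nat_lit 564954090619) (nat_lit 76) (nat_lit 852389777730) (nat_lit 76) (nat_lit 849799291211) (nat_lit 1) (nat_lit 4) (nat_lit 2) (nat_lit 5) (nat_lit 2) (nat_lit 4) (nat_lit 401) (nat_lit 280) (nat_lit 219)) (XT.lf (nat_lit 0) (nat_lit 615434499840) (nat_lit 76)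 (nat_lit 917730247612) (nat_lit 76) (nat_lit 915137990218) (nat_lit 1) (nat_lit 4) (nat_lit 2) (nat_lit 5) (nat_lit 2) (nat_lit 4) (nat_lit 402) (nat_lit 280) (nat_lit 218))))))) (XT.nd (nat_lit 624) (nat_lit 0) (nat_lit 0) (XT.nd (nat_lit 312) (nat_lit 0) (nat_lit 0) (XT.nd (nat_lit 156) (nat_lit 0) (nat_lit 0) (XT.nd (nat_lit 78) (nat_lit 0) (nat_lit 0) (XT.lf (nat_lit 0) (nat_lit 669946567812) (nat_lit 76) (nat_lit 988301341463) (nat_lit 76) (nat_lit 985707444369) (nat_lit 1) (nat_lit 4) (nat_lit 2) (nat_lit 5) (nat_lit 2) (nat_lit 4) (nat_lit 403) (nat_lit 280) (nat_lit 217)) (XT.lf (nat_lit 0) (nat_lit 728813329011) (nat_lit 76) (nat_lit 1064521258358) (nat_lit 76) (nat_lit 1061925843023) (nat_lit 1) (nat_lit 4) (nat_lit 2) (nat_lit 5) (nat_lit 2) (nat_lit 4) (nat_lit 404) (nat_lit 280) (nat_lit 216))) (XT.nd (nat_lit 78) (nat_lit 0) (nat_lit 0) (XT.lf (nat_lit 0) (nat_lit 792383623504)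 (nat_lit 76) (nat_lit 1146841671877) (nat_lit 76) (nat_lit 1144244850764) (nat_lit 1) (nat_lit 4) (nat_lit 2) (nat_lit 5) (nat_lit 2) (nat_lit 4) (nat_lit 405) (nat_lit 280) (nat_lit 215)) (XT.lf (nat_lit 0) (nat_lit 861034164147) (nat_lit 76) (nat_lit 1235750406694) (nat_lit 76) (nat_lit 1233152283935) (nat_lit 1) (nat_lit 4) (nat_lit 2) (nat_lit 5) (nat_lit 2) (nat_lit 4) (nat_lit 406) (nat_lit 280) (nat_lit 214)))) (XT.nd (nat_lit 156) (nat_lit 0) (nat_lit 0) (XT.nd (nat_lit 78) (nat_lit 0) (nat_lit 0) (XT.lf (nat_lit 0) (nat_lit 935171768958) (nat_lit 76) (nat_lit 1331774329386) (nat_lit 76) (nat_lit 1329175001398) (nat_lit 1) (nat_lit 4) (nat_lit 2) (nat_lit 5) (nat_lit 2) (nat_lit 4) (nat_lit 407) (nat_lit 280) (nat_lit 213)) (XT.lf (nat_lit 0) (nat_lit 1015235771893) (nat_lit 76) (nat_lit 1435482470604) (nat_lit 76) (nat_lit 1432882026665) (nat_lit 1) (nat_lit 4) (nat_lit 2) (nat_lit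 5) (nat_lit 2) (nat_lit 4) (nat_lit 408) (nat_lit 280) (nat_lit 212))) (XT.nd (nat_lit 78) (nat_lit 0) (nat_lit 0) (XT.lf (nat_lit 0) (nat_lit 1101700626301) (nat_lit 76) (nat_lit 1547489397113) (nat_lit 76) (nat_lit 1544887919884) (nat_lit 1) (nat_lit 4) (nat_lit 2) (nat_lit 5) (nat_lit 2) (nat_lit 4) (nat_lit 409) (nat_lit 280) (nat_lit 211)) (XT.lf (nat_lit 0) (nat_lit 1195078716506) (nat_lit 76) (nat_lit 1668458853662) (nat_lit 76) (nat_lit 1665856419684) (nat_lit 1) (nat_lit 4) (nat_lit 2) (nat_lit 5) (nat_lit 2) (nat_lit 4) (nat_lit 410) (nat_lit 280) (nat_lit 210))))) (XT.nd (nat_lit 41184) (nat_lit 0) (nat_lit 456) (XT.nd (nat_lit 156) (nat_lit 0) (nat_lit 0) (XT.nd (nat_lit 78) (nat_lit 0) (nat_lit 0) (XT.lf (nat_lit 0) (nat_lit 1295923394152) (nat_lit 76) (nat_lit 1799107696289) (nat_lit 76) (nat_lit 1796504376433) (nat_lit 1) (nat_lit 4) (nat_lit 2) (nat_lit 5) (nat_lit 2) (nat_lit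 4) (nat_lit 411) (nat_lit 280) (nat_lit 209)) (XT.lf (nat_lit 0) (nat_lit 1404832257330) (nat_lit 76) (nat_lit 1940210140359) (nat_lit 76) (nat_lit 1937606000244) (nat_lit 1) (nat_lit 4) (nat_lit 2) (nat_lit 5) (nat_lit 2) (nat_lit 4) (nat_lit 412) (nat_lit 280) (nat_lit 208))) (XT.nd (nat_lit 78) (nat_lit 0) (nat_lit 0) (XT.lf (nat_lit 0) (nat_lit 1522450691896) (nat_lit 76) (nat_lit 2092602348502) (nat_lit 76) (nat_lit 2089997448889) (nat_lit 1) (nat_lit 4) (nat_lit 2) (nat_lit 5) (nat_lit 2) (nat_lit 4) (nat_lit 413) (nat_lit 280) (nat_lit 207)) (XT.lf (nat_lit 0) (nat_lit 1649475695980) (nat_lit 76) (nat_lit 2257187385656) (nat_lit 76) (nat_lit 2254581782804) (nat_lit 1) (nat_lit 4) (nat_lit 2) (nat_lit 5) (nat_lit 2) (nat_lit 4) (nat_lit 414) (nat_lit 280) (nat_lit 206)))) (XT.nd (nat_lit 156) (nat_lit 76) (nat_lit 0) (XT.nd (nat_lit 78) (nat_lit 152) (nat_lit 0) (XT.lf (nat_lit 0)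 (nat_lit 8212499161) (nat_lit 76) (nat_lit 1458896327) (nat_lit 76) (nat_lit 1458896327) (nat_lit 10) (nat_lit 4) (nat_lit 11) (nat_lit 5) (nat_lit 11) (nat_lit 4) (nat_lit 338) (nat_lit 281) (nat_lit 281)) (XT.lf (nat_lit 0) (nat_lit 2334732452) (nat_lit 152) (nat_lit 19172926934) (nat_lit 0) (nat_lit 2090778180) (nat_lit 8) (nat_lit 5) (nat_lit 10) (nat_lit 4) (nat_lit 8) (nat_lit 4) (nat_lit 339) (nat_lit 281) (nat_lit 280))) (XT.nd (nat_lit 78) (nat_lit 76) (nat_lit 0) (XT.lf (nat_lit 0) (nat_lit 7804990552) (nat_lit 152) (nat_lit 9900783739) (nat_lit 0) (nat_lit 7335152696) (nat_lit 8) (nat_lit 5) (nat_lit 10) (nat_lit 4) (nat_lit 8) (nat_lit 4) (nat_lit 340) (nat_lit 281) (nat_lit 279)) (XT.nd (nat_lit 78) (nat_lit 76) (nat_lit 0) (XT.lf (nat_lit 0) (nat_lit 13449611168) (nat_lit 152) (nat_lit 399720540) (nat_lit 0) (nat_lit 12770621844) (nat_lit 8) (nat_lit 5) (nat_lit 10) (nat_lit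 4) (nat_lit 8) (nat_lit 4) (nat_lit 341) (nat_lit 281) (nat_lit 278)) (XT.lf (nat_lit 0) (nat_lit 9880845149) (nat_lit 76) (nat_lit 9658833316) (nat_lit 76) (nat_lit 8786185227) (nat_lit 7) (nat_lit 4) (nat_lit 8) (nat_lit 5) (nat_lit 8) (nat_lit 4) (nat_lit 342) (nat_lit 281) (nat_lit 277))))))))
noncomputable def xc43 : XT := (XT.nd (nat_lit 1326) (nat_lit 76) (nat_lit 0) (XT.nd (nat_lit 624) (nat_lit 152) (nat_lit 0) (XT.nd (nat_lit 312) (nat_lit 76) (nat_lit 0) (XT.nd (nat_lit 156) (nat_lit 76) (nat_lit 0) (XT.nd (nat_lit 78) (nat_lit 76) (nat_lit 0) (XT.lf (nat_lit 0) (nat_lit 20543747934) (nat_lit 76) (nat_lit 5347299534) (nat_lit 76) (nat_lit 4295337773) (nat_lit 7) (nat_lit 4) (nat_lit 8) (nat_lit 5) (nat_lit 8) (nat_lit 4) (nat_lit 343) (nat_lit 281) (nat_lit 276)) (XT.lf (nat_lit 0) (nat_lit 301981524) (nat_lit 152) (nat_lit 589871368) (nat_lit 76) (nat_lit 31320888577) (nat_lit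 6) (nat_lit 5) (nat_lit 8) (nat_lit 5) (nat_lit 7) (nat_lit 4) (nat_lit 344) (nat_lit 281) (nat_lit 275))) (XT.nd (nat_lit 78) (nat_lit 0) (nat_lit 0) (XT.lf (nat_lit 0) (nat_lit 5144165682) (nat_lit 152) (nat_lit 25365387173) (nat_lit 0) (nat_lit 3874049468) (nat_lit 5) (nat_lit 5) (nat_lit 7) (nat_lit 4) (nat_lit 5) (nat_lit 4) (nat_lit 345) (nat_lit 281) (nat_lit 274)) (XT.lf (nat_lit 0) (nat_lit 10206247675) (nat_lit 152) (nat_lit 17731000701) (nat_lit 0) (nat_lit 8804330559) (nat_lit 5) (nat_lit 5) (nat_lit 7) (nat_lit 4) (nat_lit 5) (nat_lit 4) (nat_lit 346) (nat_lit 281) (nat_lit 273)))) (XT.nd (nat_lit 156) (nat_lit 76) (nat_lit 0) (XT.nd (nat_lit 78) (nat_lit 0) (nat_lit 0) (XT.lf (nat_lit 0) (nat_lit 15481454607) (nat_lit 152) (nat_lit 9864631906) (nat_lit 0) (nat_lit 13957499619) (nat_lit 5) (nat_lit 5) (nat_lit 7) (nat_lit 4) (nat_lit 5) (nat_lit 4) (nat_lit 347) (nat_lit 281)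 (nat_lit 272)) (XT.lf (nat_lit 0) (nat_lit 21001046965) (nat_lit 152) (nat_lit 1719665268) (nat_lit 0) (nat_lit 19364093946) (nat_lit 5) (nat_lit 5) (nat_lit 7) (nat_lit 4) (nat_lit 5) (nat_lit 4) (nat_lit 348) (nat_lit 281) (nat_lit 271))) (XT.nd (nat_lit 78) (nat_lit 0) (nat_lit 0) (XT.lf (nat_lit 0) (nat_lit 7107722758) (nat_lit 76) (nat_lit 19860951587) (nat_lit 76) (nat_lit 18119370763) (nat_lit 4) (nat_lit 4) (nat_lit 5) (nat_lit 5) (nat_lit 5) (nat_lit 4) (nat_lit 349) (nat_lit 281) (nat_lit 270)) (XT.lf (nat_lit 0) (nat_lit 16422588785) (nat_lit 76) (nat_lit 16878239646) (nat_lit 76) (nat_lit 15039781224) (nat_lit 4) (nat_lit 4) (nat_lit 5) (nat_lit 5) (nat_lit 5) (nat_lit 4) (nat_lit 350) (nat_lit 281) (nat_lit 269))))) (XT.nd (nat_lit 312) (nat_lit 152) (nat_lit 0) (XT.nd (nat_lit 156) (nat_lit 0) (nat_lit 0) (XT.nd (nat_lit 78) (nat_lit 0) (nat_lit 0) (XT.lf (nat_lit 0) (nat_lit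 26189577491) (nat_lit 76) (nat_lit 13801919775) (nat_lit 76) (nat_lit 11873759874) (nat_lit 4) (nat_lit 4) (nat_lit 5) (nat_lit 5) (nat_lit 5) (nat_lit 4) (nat_lit 351) (nat_lit 281) (nat_lit 268)) (XT.lf (nat_lit 0) (nat_lit 36466567328) (nat_lit 76) (nat_lit 10613761931) (nat_lit 76) (nat_lit 8602545104) (nat_lit 4) (nat_lit 4) (nat_lit 5) (nat_lit 5) (nat_lit 5) (nat_lit 4) (nat_lit 352) (nat_lit 281) (nat_lit 267))) (XT.nd (nat_lit 78) (nat_lit 0) (nat_lit 0) (XT.lf (nat_lit 0) (nat_lit 47314458977) (nat_lit 76) (nat_lit 7294873327) (nat_lit 76) (nat_lit 5206751940) (nat_lit 4) (nat_lit 4) (nat_lit 5) (nat_lit 5) (nat_lit 5) (nat_lit 4) (nat_lit 353) (nat_lit 281) (nat_lit 266)) (XT.lf (nat_lit 0) (nat_lit 58797536240) (nat_lit 76) (nat_lit 3825586475) (nat_lit 76) (nat_lit 1666257161) (nat_lit 4) (nat_lit 4) (nat_lit 5) (nat_lit 5) (nat_lit 5) (nat_lit 4) (nat_lit 354) (nat_lit 281)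 (nat_lit 265)))) (XT.nd (nat_lit 156) (nat_lit 0) (nat_lit 0) (XT.nd (nat_lit 78) (nat_lit 0) (nat_lit 0) (XT.lf (nat_lit 0) (nat_lit 1900592514) (nat_lit 76) (nat_lit 82991665) (nat_lit 152) (nat_lit 67138103947) (nat_lit 2) (nat_lit 5) (nat_lit 3) (nat_lit 5) (nat_lit 4) (nat_lit 4) (nat_lit 355) (nat_lit 281) (nat_lit 264)) (XT.lf (nat_lit 0) (nat_lit 5973494483) (nat_lit 152) (nat_lit 64496057854) (nat_lit 0) (nat_lit 3856539022) (nat_lit 2) (nat_lit 5) (nat_lit 4) (nat_lit 4) (nat_lit 2) (nat_lit 4) (nat_lit 356) (nat_lit 281) (nat_lit 263))) (XT.nd (nat_lit 78) (nat_lit 0) (nat_lit 0) (XT.lf (nat_lit 0) (nat_lit 10181819541) (nat_lit 152) (nat_lit 61760584781) (nat_lit 0) (nat_lit 8012524129) (nat_lit 2) (nat_lit 5) (nat_lit 4) (nat_lit 4) (nat_lit 2) (nat_lit 4) (nat_lit 357) (nat_lit 281) (nat_lit 262)) (XT.nd (nat_lit 78) (nat_lit 0) (nat_lit 0) (XT.lf (nat_lit 0) (nat_lit 14631501625)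 (nat_lit 152) (nat_lit 58996470229) (nat_lit 0) (nat_lit 12413743294) (nat_lit 2) (nat_lit 5) (nat_lit 4) (nat_lit 4) (nat_lit 2) (nat_lit 4) (nat_lit 358) (nat_lit 281) (nat_lit 261)) (XT.lf (nat_lit 0) (nat_lit 19348909221) (nat_lit 152) (nat_lit 56187334261) (nat_lit 0) (nat_lit 17086277817) (nat_lit 2) (nat_lit 5) (nat_lit 4) (nat_lit 4) (nat_lit 2) (nat_lit 4) (nat_lit 359) (nat_lit 281) (nat_lit 260))))))) (XT.nd (nat_lit 702) (nat_lit 76) (nat_lit 0) (XT.nd (nat_lit 312) (nat_lit 0) (nat_lit 0) (XT.nd (nat_lit 156) (nat_lit 0) (nat_lit 0) (XT.nd (nat_lit 78) (nat_lit 0) (nat_lit 0) (XT.lf (nat_lit 0) (nat_lit 24361997336) (nat_lit 152) (nat_lit 53316530146) (nat_lit 0) (nat_lit 22057816791) (nat_lit 2) (nat_lit 5) (nat_lit 4) (nat_lit 4) (nat_lit 2) (nat_lit 4) (nat_lit 360) (nat_lit 281) (nat_lit 259)) (XT.lf (nat_lit 0) (nat_lit 29700473160) (nat_lit 152) (nat_lit 50367045711)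 (nat_lit 0) (nat_lit 27357821188) (nat_lit 2) (nat_lit 5) (nat_lit 4) (nat_lit 4) (nat_lit 2) (nat_lit 4) (nat_lit 361) (nat_lit 281) (nat_lit 258))) (XT.nd (nat_lit 78) (nat_lit 0) (nat_lit 0) (XT.lf (nat_lit 0) (nat_lit 35395972104) (nat_lit 152) (nat_lit 47321402530) (nat_lit 0) (nat_lit 33017698441) (nat_lit 2) (nat_lit 5) (nat_lit 4) (nat_lit 4) (nat_lit 2) (nat_lit 4) (nat_lit 362) (nat_lit 281) (nat_lit 257)) (XT.lf (nat_lit 0) (nat_lit 41482245274) (nat_lit 152) (nat_lit 44161552346) (nat_lit 0) (nat_lit 39070988564) (nat_lit 2) (nat_lit 5) (nat_lit 4) (nat_lit 4) (nat_lit 2) (nat_lit 4) (nat_lit 363) (nat_lit 281) (nat_lit 256)))) (XT.nd (nat_lit 156) (nat_lit 0) (nat_lit 0) (XT.nd (nat_lit 78) (nat_lit 0) (nat_lit 0) (XT.lf (nat_lit 0) (nat_lit 47995359474) (nat_lit 152) (nat_lit 40868770121) (nat_lit 0) (nat_lit 45553562904) (nat_lit 2) (nat_lit 5) (nat_lit 4) (nat_lit 4) (nat_lit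 2) (nat_lit 4) (nat_lit 364) (nat_lit 281) (nat_lit 255)) (XT.lf (nat_lit 0) (nat_lit 54973910936) (nat_lit 152) (nat_lit 37423543073) (nat_lit 0) (nat_lit 52503836719) (nat_lit 2) (nat_lit 5) (nat_lit 4) (nat_lit 4) (nat_lit 2) (nat_lit 4) (nat_lit 365) (nat_lit 281) (nat_lit 254))) (XT.nd (nat_lit 78) (nat_lit 0) (nat_lit 0) (XT.lf (nat_lit 0) (nat_lit 62459254038) (nat_lit 152) (nat_lit 33805455041) (nat_lit 0) (nat_lit 59962996815) (nat_lit 2) (nat_lit 5) (nat_lit 4) (nat_lit 4) (nat_lit 2) (nat_lit 4) (nat_lit 366) (nat_lit 281) (nat_lit 253)) (XT.nd (nat_lit 78) (nat_lit 0) (nat_lit 0) (XT.lf (nat_lit 0) (nat_lit 70495746371) (nat_lit 152) (nat_lit 29993065502) (nat_lit 0) (nat_lit 67975245622) (nat_lit 2) (nat_lit 5) (nat_lit 4) (nat_lit 4) (nat_lit 2) (nat_lit 4) (nat_lit 367) (nat_lit 281) (nat_lit 252)) (XT.lf (nat_lit 0) (nat_lit 79131011591) (nat_lit 152) (nat_lit 25963782520)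 (nat_lit 0) (nat_lit 76588063135) (nat_lit 2) (nat_lit 5) (nat_lit 4) (nat_lit 4) (nat_lit 2) (nat_lit 4) (nat_lit 368) (nat_lit 281) (nat_lit 251)))))) (XT.nd (nat_lit 312) (nat_lit 76) (nat_lit 0) (XT.nd (nat_lit 156) (nat_lit 0) (nat_lit 0) (XT.nd (nat_lit 78) (nat_lit 0) (nat_lit 0) (XT.lf (nat_lit 0) (nat_lit 88416221642) (nat_lit 152) (nat_lit 21693728861) (nat_lit 0) (nat_lit 85852488270) (nat_lit 2) (nat_lit 5) (nat_lit 4) (nat_lit 4) (nat_lit 2) (nat_lit 4) (nat_lit 369) (nat_lit 281) (nat_lit 250)) (XT.lf (nat_lit 0) (nat_lit 98406399989) (nat_lit 152) (nat_lit 17157600504) (nat_lit 0) (nat_lit 95823421326) (nat_lit 2) (nat_lit 5) (nat_lit 4) (nat_lit 4) (nat_lit 2) (nat_lit 4) (nat_lit 370) (nat_lit 281) (nat_lit 249))) (XT.nd (nat_lit 78) (nat_lit 0) (nat_lit 0) (XT.lf (nat_lit 0) (nat_lit 109160747690) (nat_lit 152) (nat_lit 12328516689) (nat_lit 0) (nat_lit 106559949313)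 (nat_lit 2) (nat_lit 5) (nat_lit 4) (nat_lit 4) (nat_lit 2) (nat_lit 4) (nat_lit 371) (nat_lit 281) (nat_lit 248)) (XT.lf (nat_lit 0) (nat_lit 120742994213) (nat_lit 152) (nat_lit 7177860621) (nat_lit 0) (nat_lit 118125696100) (nat_lit 2) (nat_lit 5) (nat_lit 4) (nat_lit 4) (nat_lit 2) (nat_lit 4) (nat_lit 372) (nat_lit 281) (nat_lit 247)))) (XT.nd (nat_lit 156) (nat_lit 0) (nat_lit 0) (XT.nd (nat_lit 78) (nat_lit 76) (nat_lit 0) (XT.lf (nat_lit 0) (nat_lit 133221775093) (nat_lit 152) (nat_lit 1675109896) (nat_lit 0) (nat_lit 130589199447) (nat_lit 2) (nat_lit 5) (nat_lit 4) (nat_lit 4) (nat_lit 2) (nat_lit 4) (nat_lit 373) (nat_lit 281) (nat_lit 246)) (XT.lf (nat_lit 0) (nat_lit 4434158970) (nat_lit 76) (nat_lit 142343521320) (nat_lit 76) (nat_lit 139696799810) (nat_lit 1) (nat_lit 4) (nat_lit 2) (nat_lit 5) (nat_lit 2) (nat_lit 4) (nat_lit 374) (nat_lit 281) (nat_lit 245))) (XT.nd (nat_lit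 78) (nat_lit 0) (nat_lit 0) (XT.lf (nat_lit 0) (nat_lit 11073323305) (nat_lit 76) (nat_lit 150363474642) (nat_lit 76) (nat_lit 147703655110) (nat_lit 1) (nat_lit 4) (nat_lit 2) (nat_lit 5) (nat_lit 2) (nat_lit 4) (nat_lit 375) (nat_lit 281) (nat_lit 244)) (XT.nd (nat_lit 78) (nat_lit 0) (nat_lit 0) (XT.lf (nat_lit 0) (nat_lit 18193517985) (nat_lit 76) (nat_lit 159050071079) (nat_lit 76) (nat_lit 156378123749) (nat_lit 1) (nat_lit 4) (nat_lit 2) (nat_lit 5) (nat_lit 2) (nat_lit 4) (nat_lit 376) (nat_lit 281) (nat_lit 243)) (XT.lf (nat_lit 0) (nat_lit 25836936756) (nat_lit 76) (nat_lit 168454786757) (nat_lit 76) (nat_lit 165771609983) (nat_lit 1) (nat_lit 4) (nat_lit 2) (nat_lit 5) (nat_lit 2) (nat_lit 4) (nat_lit 377) (nat_lit 281) (nat_lit 242))))))))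
noncomputable def xc44 : XT := (XT.nd (nat_lit 1326) (nat_lit 0) (nat_lit 0) (XT.nd (nat_lit 624) (nat_lit 0) (nat_lit 0) (XT.nd (nat_lit 312) (nat_lit 0) (nat_lit 0) (XT.nd (nat_lit 156) (nat_lit 0) (nat_lit 0) (XT.nd (nat_lit 78) (nat_lit 0) (nat_lit 0) (XT.lf (nat_lit 0) (nat_lit 34048873952) (nat_lit 76) (nat_lit 178633353324) (nat_lit 76) (nat_lit 175939778919) (nat_lit 1) (nat_lit 4) (nat_lit 2) (nat_lit 5) (nat_lit 2) (nat_lit 4) (nat_lit 378) (nat_lit 281) (nat_lit 241)) (XT.lf (nat_lit 0) (nat_lit 42877992905) (nat_lit 76) (nat_lit 189646088212) (nat_lit 76) (nat_lit 186942886370) (nat_lit 1) (nat_lit 4) (nat_lit 2) (nat_lit 5) (nat_lit 2) (nat_lit 4) (nat_lit 379) (nat_lit 281) (nat_lit 240))) (XT.nd (nat_lit 78) (nat_lit 0) (nat_lit 0) (XT.lf (nat_lit 0) (nat_lit 52376614320) (nat_lit 76) (nat_lit 201558252073) (nat_lit 76) (nat_lit 198846135937) (nat_lit 1) (nat_lit 4) (nat_lit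 2) (nat_lit 5) (nat_lit 2) (nat_lit 4) (nat_lit 380) (nat_lit 281) (nat_lit 239)) (XT.lf (nat_lit 0) (nat_lit 62601026322) (nat_lit 76) (nat_lit 214440435507) (nat_lit 76) (nat_lit 211720065395) (nat_lit 1) (nat_lit 4) (nat_lit 2) (nat_lit 5) (nat_lit 2) (nat_lit 4) (nat_lit 381) (nat_lit 281) (nat_lit 238)))) (XT.nd (nat_lit 156) (nat_lit 0) (nat_lit 0) (XT.nd (nat_lit 78) (nat_lit 0) (nat_lit 0) (XT.lf (nat_lit 0) (nat_lit 73611818021) (nat_lit 76) (nat_lit 228368977378) (nat_lit 76) (nat_lit 225640964696) (nat_lit 1) (nat_lit 4) (nat_lit 2) (nat_lit 5) (nat_lit 2) (nat_lit 4) (nat_lit 382) (nat_lit 281) (nat_lit 237)) (XT.lf (nat_lit 0) (nat_lit 85474238553) (nat_lit 76) (nat_lit 243426417195) (nat_lit 76) (nat_lit 240691328059) (nat_lit 1) (nat_lit 4) (nat_lit 2) (nat_lit 5) (nat_lit 2) (nat_lit 4) (nat_lit 383) (nat_lit 281) (nat_lit 236))) (XT.nd (nat_lit 78) (nat_lit 0) (nat_lit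 0) (XT.lf (nat_lit 0) (nat_lit 98258583742) (nat_lit 76) (nat_lit 259701984230) (nat_lit 76) (nat_lit 256960342822) (nat_lit 1) (nat_lit 4) (nat_lit 2) (nat_lit 5) (nat_lit 2) (nat_lit 4) (nat_lit 384) (nat_lit 281) (nat_lit 235)) (XT.lf (nat_lit 0) (nat_lit 112040612672) (nat_lit 76) (nat_lit 277292126288) (nat_lit 76) (nat_lit 274544417961) (nat_lit 1) (nat_lit 4) (nat_lit 2) (nat_lit 5) (nat_lit 2) (nat_lit 4) (nat_lit 385) (nat_lit 281) (nat_lit 234))))) (XT.nd (nat_lit 312) (nat_lit 0) (nat_lit 0) (XT.nd (nat_lit 156) (nat_lit 0) (nat_lit 0) (XT.nd (nat_lit 78) (nat_lit 0) (nat_lit 0) (XT.lf (nat_lit 0) (nat_lit 126901996625) (nat_lit 76) (nat_lit 296301081247) (nat_lit 76) (nat_lit 293547755403) (nat_lit 1) (nat_lit 4) (nat_lit 2) (nat_lit 5) (nat_lit 2) (nat_lit 4) (nat_lit 386) (nat_lit 281) (nat_lit 233)) (XT.lf (nat_lit 0) (nat_lit 142930803062) (nat_lit 76) (nat_lit 316841494767)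 (nat_lit 76) (nat_lit 314082967519) (nat_lit 1) (nat_lit 4) (nat_lit 2) (nat_lit 5) (nat_lit 2) (nat_lit 4) (nat_lit 387) (nat_lit 281) (nat_lit 232))) (XT.nd (nat_lit 78) (nat_lit 0) (nat_lit 0) (XT.lf (nat_lit 0) (nat_lit 160222017501) (nat_lit 76) (nat_lit 339035087817) (nat_lit 76) (nat_lit 336271744453) (nat_lit 1) (nat_lit 4) (nat_lit 2) (nat_lit 5) (nat_lit 2) (nat_lit 4) (nat_lit 388) (nat_lit 281) (nat_lit 231)) (XT.lf (nat_lit 0) (nat_lit 178878106400) (nat_lit 76) (nat_lit 363013377985) (nat_lit 76) (nat_lit 360245575254) (nat_lit 1) (nat_lit 4) (nat_lit 2) (nat_lit 5) (nat_lit 2) (nat_lit 4) (nat_lit 389) (nat_lit 281) (nat_lit 230)))) (XT.nd (nat_lit 156) (nat_lit 0) (nat_lit 0) (XT.nd (nat_lit 78) (nat_lit 0) (nat_lit 0) (XT.lf (nat_lit 0) (nat_lit 199009624358) (nat_lit 76) (nat_lit 388918458842) (nat_lit 76) (nat_lit 386146527069) (nat_lit 1) (nat_lit 4) (nat_lit 2) (nat_lit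 5) (nat_lit 2) (nat_lit 4) (nat_lit 390) (nat_lit 281) (nat_lit 229)) (XT.lf (nat_lit 0) (nat_lit 220735869261) (nat_lit 76) (nat_lit 416903841979) (nat_lit 76) (nat_lit 414128087018) (nat_lit 1) (nat_lit 4) (nat_lit 2) (nat_lit 5) (nat_lit 2) (nat_lit 4) (nat_lit 391) (nat_lit 281) (nat_lit 228))) (XT.nd (nat_lit 78) (nat_lit 0) (nat_lit 0) (XT.lf (nat_lit 0) (nat_lit 244185589225) (nat_lit 76) (nat_lit 447135366703) (nat_lit 76) (nat_lit 444356071754) (nat_lit 1) (nat_lit 4) (nat_lit 2) (nat_lit 5) (nat_lit 2) (nat_lit 4) (nat_lit 392) (nat_lit 281) (nat_lit 227)) (XT.nd (nat_lit 78) (nat_lit 0) (nat_lit 0) (XT.lf (nat_lit 0) (nat_lit 269497745555) (nat_lit 76) (nat_lit 479792182791) (nat_lit 76) (nat_lit 477009610075) (nat_lit 1) (nat_lit 4) (nat_lit 2) (nat_lit 5) (nat_lit 2) (nat_lit 4) (nat_lit 393) (nat_lit 281) (nat_lit 226)) (XT.lf (nat_lit 0) (nat_lit 296822336214) (nat_lit 76)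 (nat_lit 515067812116) (nat_lit 76) (nat_lit 512282204429) (nat_lit 1) (nat_lit 4) (nat_lit 2) (nat_lit 5) (nat_lit 2) (nat_lit 4) (nat_lit 394) (nat_lit 281) (nat_lit 225))))))) (XT.nd (nat_lit 624) (nat_lit 0) (nat_lit 0) (XT.nd (nat_lit 312) (nat_lit 0) (nat_lit 0) (XT.nd (nat_lit 156) (nat_lit 0) (nat_lit 0) (XT.nd (nat_lit 78) (nat_lit 0) (nat_lit 0) (XT.lf (nat_lit 0) (nat_lit 326321284703) (nat_lit 76) (nat_lit 553171295443) (nat_lit 76) (nat_lit 550382877599) (nat_lit 1) (nat_lit 4) (nat_lit 2) (nat_lit 5) (nat_lit 2) (nat_lit 4) (nat_lit 395) (nat_lit 281) (nat_lit 224)) (XT.lf (nat_lit 0) (nat_lit 358169399604) (nat_lit 76) (nat_lit 594328431192) (nat_lit 76) (nat_lit 591537411352) (nat_lit 1) (nat_lit 4) (nat_lit 2) (nat_lit 5) (nat_lit 2) (nat_lit 4) (nat_lit 396) (nat_lit 281) (nat_lit 223))) (XT.nd (nat_lit 78) (nat_lit 0) (nat_lit 0) (XT.lf (nat_lit 0) (nat_lit 392555410487)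 (nat_lit 76) (nat_lit 638783113503) (nat_lit 76) (nat_lit 635989684405) (nat_lit 1) (nat_lit 4) (nat_lit 2) (nat_lit 5) (nat_lit 2) (nat_lit 4) (nat_lit 397) (nat_lit 281) (nat_lit 222)) (XT.lf (nat_lit 0) (nat_lit 429683086307) (nat_lit 76) (nat_lit 686798777527) (nat_lit 76) (nat_lit 684003117636) (nat_lit 1) (nat_lit 4) (nat_lit 2) (nat_lit 5) (nat_lit 2) (nat_lit 4) (nat_lit 398) (nat_lit 281) (nat_lit 221)))) (XT.nd (nat_lit 156) (nat_lit 0) (nat_lit 0) (XT.nd (nat_lit 78) (nat_lit 0) (nat_lit 0) (XT.lf (nat_lit 0) (nat_lit 469772442920) (nat_lit 76) (nat_lit 738659960535) (nat_lit 76) (nat_lit 735862235095) (nat_lit 1) (nat_lit 4) (nat_lit 2) (nat_lit 5) (nat_lit 2) (nat_lit 4) (nat_lit 399) (nat_lit 281) (nat_lit 220)) (XT.lf (nat_lit 0) (nat_lit 513061046882) (nat_lit 76) (nat_lit 794673988056) (nat_lit 76) (nat_lit 791874350069) (nat_lit 1) (nat_lit 4) (nat_lit 2) (nat_lit 5)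 (nat_lit 2) (nat_lit 4) (nat_lit 400) (nat_lit 281) (nat_lit 219))) (XT.nd (nat_lit 78) (nat_lit 0) (nat_lit 0) (XT.lf (nat_lit 0) (nat_lit 559805423256) (nat_lit 76) (nat_lit 855172795066) (nat_lit 76) (nat_lit 852371386204) (nat_lit 1) (nat_lit 4) (nat_lit 2) (nat_lit 5) (nat_lit 2) (nat_lit 4) (nat_lit 401) (nat_lit 281) (nat_lit 218)) (XT.lf (nat_lit 0) (nat_lit 610282575752) (nat_lit 76) (nat_lit 920514893014) (nat_lit 76) (nat_lit 917711844453) (nat_lit 1) (nat_lit 4) (nat_lit 2) (nat_lit 5) (nat_lit 2) (nat_lit 4) (nat_lit 402) (nat_lit 281) (nat_lit 217))))) (XT.nd (nat_lit 312) (nat_lit 0) (nat_lit 0) (XT.nd (nat_lit 156) (nat_lit 0) (nat_lit 0) (XT.nd (nat_lit 78) (nat_lit 0) (nat_lit 0) (XT.lf (nat_lit 0) (nat_lit 664791628238) (nat_lit 76) (nat_lit 991087494334) (nat_lit 76) (nat_lit 988282927532) (nat_lit 1) (nat_lit 4) (nat_lit 2) (nat_lit 5) (nat_lit 2) (nat_lit 4) (nat_lit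 403) (nat_lit 281) (nat_lit 216)) (XT.lf (nat_lit 0) (nat_lit 723655597321) (nat_lit 76) (nat_lit 1067308807033) (nat_lit 76) (nat_lit 1064502834453) (nat_lit 1) (nat_lit 4) (nat_lit 2) (nat_lit 5) (nat_lit 2) (nat_lit 4) (nat_lit 404) (nat_lit 281) (nat_lit 215))) (XT.nd (nat_lit 78) (nat_lit 0) (nat_lit 0) (XT.lf (nat_lit 0) (nat_lit 787223306521) (nat_lit 76) (nat_lit 1149630512964) (nat_lit 76) (nat_lit 1146823238738) (nat_lit 1) (nat_lit 4) (nat_lit 2) (nat_lit 5) (nat_lit 2) (nat_lit 4) (nat_lit 405) (nat_lit 281) (nat_lit 214)) (XT.lf (nat_lit 0) (nat_lit 855871453374) (nat_lit 76) (nat_lit 1238540444459) (nat_lit 76) (nat_lit 1235731965004) (nat_lit 1) (nat_lit 4) (nat_lit 2) (nat_lit 5) (nat_lit 2) (nat_lit 4) (nat_lit 406) (nat_lit 281) (nat_lit 213)))) (XT.nd (nat_lit 156) (nat_lit 0) (nat_lit 0) (XT.nd (nat_lit 78) (nat_lit 0) (nat_lit 0) (XT.lf (nat_lit 0) (nat_lit 930006841713)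 (nat_lit 76) (nat_lit 1334565475185) (nat_lit 76) (nat_lit 1331755879778) (nat_lit 1) (nat_lit 4) (nat_lit 2) (nat_lit 5) (nat_lit 2) (nat_lit 4) (nat_lit 407) (nat_lit 281) (nat_lit 212)) (XT.lf (nat_lit 0) (nat_lit 1010068792359) (nat_lit 76) (nat_lit 1438274642362) (nat_lit 76) (nat_lit 1435464013665) (nat_lit 1) (nat_lit 4) (nat_lit 2) (nat_lit 5) (nat_lit 2) (nat_lit 4) (nat_lit 408) (nat_lit 281) (nat_lit 211))) (XT.nd (nat_lit 78) (nat_lit 0) (nat_lit 0) (XT.lf (nat_lit 0) (nat_lit 1096531746500) (nat_lit 76) (nat_lit 1550282518831) (nat_lit 76) (nat_lit 1547470933386) (nat_lit 1) (nat_lit 4) (nat_lit 2) (nat_lit 5) (nat_lit 2) (nat_lit 4) (nat_lit 409) (nat_lit 281) (nat_lit 210)) (XT.nd (nat_lit 78) (nat_lit 0) (nat_lit 0) (XT.lf (nat_lit 0) (nat_lit 1189908077197) (nat_lit 76) (nat_lit 1671252854974) (nat_lit 76) (nat_lit 1668440383650) (nat_lit 1) (nat_lit 4) (nat_lit 2) (nat_lit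 5) (nat_lit 2) (nat_lit 4) (nat_lit 410) (nat_lit 281) (nat_lit 209)) (XT.lf (nat_lit 0) (nat_lit 1290751125671) (nat_lit 76) (nat_lit 1801902512039) (nat_lit 76) (nat_lit 1799089220458) (nat_lit 1) (nat_lit 4) (nat_lit 2) (nat_lit 5) (nat_lit 2) (nat_lit 4) (nat_lit 411) (nat_lit 281) (nat_lit 208))))))))
noncomputable def xc45 : XT := (XT.nd (nat_lit 42042) (nat_lit 0) (nat_lit 76) (XT.nd (nat_lit 41340) (nat_lit 0) (nat_lit 228) (XT.nd (nat_lit 41028) (nat_lit 0) (nat_lit 532) (XT.nd (nat_lit 156) (nat_lit 0) (nat_lit 0) (XT.nd (nat_lit 78) (nat_lit 0) (nat_lit 0) (XT.lf (nat_lit 0) (nat_lit 1399658480355) (nat_lit 76) (nat_lit 1943005710219) (nat_lit 76) (nat_lit 1940191659139) (nat_lit 1) (nat_lit 4) (nat_lit 2) (nat_lit 5) (nat_lit 2) (nat_lit 4) (nat_lit 412) (nat_lit 281) (nat_lit 207)) (XT.lf (nat_lit 0) (nat_lit 1517275518168) (nat_lit 76) (nat_lit 2095398616612) (nat_lit 76)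 (nat_lit 2092583862293) (nat_lit 1) (nat_lit 4) (nat_lit 2) (nat_lit 5) (nat_lit 2) (nat_lit 4) (nat_lit 413) (nat_lit 281) (nat_lit 206))) (XT.nd (nat_lit 40794) (nat_lit 0) (nat_lit 760) (XT.lf (nat_lit 0) (nat_lit 1644299228962) (nat_lit 76) (nat_lit 2259984300294) (nat_lit 76) (nat_lit 2257168894827) (nat_lit 1) (nat_lit 4) (nat_lit 2) (nat_lit 5) (nat_lit 2) (nat_lit 4) (nat_lit 414) (nat_lit 281) (nat_lit 205)) (XT.lf (nat_lit 0) (nat_lit 3711277638) (nat_lit 152) (nat_lit 2519745657) (nat_lit 0) (nat_lit 3711277638) (nat_lit 11) (nat_lit 5) (nat_lit 13) (nat_lit 4) (nat_lit 11) (nat_lit 4) (nat_lit 336) (nat_lit 282) (nat_lit 282)))) (XT.nd (nat_lit 156) (nat_lit 152) (nat_lit 0) (XT.nd (nat_lit 78) (nat_lit 0) (nat_lit 0) (XT.lf (nat_lit 0) (nat_lit 5276136913) (nat_lit 76) (nat_lit 8017507721) (nat_lit 76) (nat_lit 7732959459) (nat_lit 10) (nat_lit 4) (nat_lit 11) (nat_lit 5)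 (nat_lit 11) (nat_lit 4) (nat_lit 337) (nat_lit 282) (nat_lit 281)) (XT.lf (nat_lit 0) (nat_lit 16167019236) (nat_lit 76) (nat_lit 3326180631) (nat_lit 76) (nat_lit 2778161756) (nat_lit 10) (nat_lit 4) (nat_lit 11) (nat_lit 5) (nat_lit 11) (nat_lit 4) (nat_lit 338) (nat_lit 282) (nat_lit 280))) (XT.nd (nat_lit 78) (nat_lit 0) (nat_lit 0) (XT.lf (nat_lit 0) (nat_lit 2313884281) (nat_lit 152) (nat_lit 19726806502) (nat_lit 0) (nat_lit 1580575812) (nat_lit 8) (nat_lit 5) (nat_lit 10) (nat_lit 4) (nat_lit 8) (nat_lit 4) (nat_lit 339) (nat_lit 282) (nat_lit 279)) (XT.lf (nat_lit 0) (nat_lit 7657575971) (nat_lit 152) (nat_lit 10701226505) (nat_lit 0) (nat_lit 6715116035) (nat_lit 8) (nat_lit 5) (nat_lit 10) (nat_lit 4) (nat_lit 8) (nat_lit 4) (nat_lit 340) (nat_lit 282) (nat_lit 278))))) (XT.nd (nat_lit 312) (nat_lit 228) (nat_lit 0) (XT.nd (nat_lit 156) (nat_lit 0) (nat_lit 0) (XT.nd (nat_lit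 78) (nat_lit 76) (nat_lit 0) (XT.lf (nat_lit 0) (nat_lit 13185005466) (nat_lit 152) (nat_lit 1428462565) (nat_lit 0) (nat_lit 12048886764) (nat_lit 8) (nat_lit 5) (nat_lit 10) (nat_lit 4) (nat_lit 8) (nat_lit 4) (nat_lit 341) (nat_lit 282) (nat_lit 277)) (XT.lf (nat_lit 0) (nat_lit 8575411863) (nat_lit 76) (nat_lit 10559754902) (nat_lit 76) (nat_lit 9244322527) (nat_lit 7) (nat_lit 4) (nat_lit 8) (nat_lit 5) (nat_lit 8) (nat_lit 4) (nat_lit 342) (nat_lit 282) (nat_lit 276))) (XT.nd (nat_lit 78) (nat_lit 0) (nat_lit 0) (XT.lf (nat_lit 0) (nat_lit 19032278047) (nat_lit 76) (nat_lit 6348830039) (nat_lit 76) (nat_lit 4867366487) (nat_lit 7) (nat_lit 4) (nat_lit 8) (nat_lit 5) (nat_lit 8) (nat_lit 4) (nat_lit 343) (nat_lit 282) (nat_lit 275)) (XT.lf (nat_lit 0) (nat_lit 29928882294) (nat_lit 76) (nat_lit 1994796514) (nat_lit 76) (nat_lit 359600389) (nat_lit 7) (nat_lit 4) (nat_lit 8) (nat_lit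 5) (nat_lit 8) (nat_lit 4) (nat_lit 344) (nat_lit 282) (nat_lit 274)))) (XT.nd (nat_lit 156) (nat_lit 76) (nat_lit 0) (XT.nd (nat_lit 78) (nat_lit 0) (nat_lit 0) (XT.lf (nat_lit 0) (nat_lit 4328604711) (nat_lit 152) (nat_lit 27457274738) (nat_lit 0) (nat_lit 2682733323) (nat_lit 5) (nat_lit 5) (nat_lit 7) (nat_lit 4) (nat_lit 5) (nat_lit 4) (nat_lit 345) (nat_lit 282) (nat_lit 273)) (XT.lf (nat_lit 0) (nat_lit 9298455156) (nat_lit 152) (nat_lit 20004988552) (nat_lit 0) (nat_lit 7530545896) (nat_lit 5) (nat_lit 5) (nat_lit 7) (nat_lit 4) (nat_lit 5) (nat_lit 4) (nat_lit 346) (nat_lit 282) (nat_lit 272))) (XT.nd (nat_lit 78) (nat_lit 76) (nat_lit 0) (XT.lf (nat_lit 0) (nat_lit 14488262507) (nat_lit 152) (nat_lit 12307231132) (nat_lit 0) (nat_lit 12607355217) (nat_lit 5) (nat_lit 5) (nat_lit 7) (nat_lit 4) (nat_lit 5) (nat_lit 4) (nat_lit 347) (nat_lit 282) (nat_lit 271)) (XT.nd (nat_lit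 78) (nat_lit 76) (nat_lit 0) (XT.lf (nat_lit 0) (nat_lit 19928781178) (nat_lit 152) (nat_lit 4318386139) (nat_lit 0) (nat_lit 17943246082) (nat_lit 5) (nat_lit 5) (nat_lit 7) (nat_lit 4) (nat_lit 5) (nat_lit 4) (nat_lit 348) (nat_lit 282) (nat_lit 270)) (XT.lf (nat_lit 0) (nat_lit 4219988655) (nat_lit 76) (nat_lit 21533753452) (nat_lit 76) (nat_lit 19451340759) (nat_lit 4) (nat_lit 4) (nat_lit 5) (nat_lit 5) (nat_lit 5) (nat_lit 4) (nat_lit 349) (nat_lit 282) (nat_lit 269))))))) (XT.nd (nat_lit 702) (nat_lit 0) (nat_lit 0) (XT.nd (nat_lit 312) (nat_lit 152) (nat_lit 0) (XT.nd (nat_lit 156) (nat_lit 0) (nat_lit 0) (XT.nd (nat_lit 78) (nat_lit 0) (nat_lit 0) (XT.lf (nat_lit 0) (nat_lit 13393957276) (nat_lit 76) (nat_lit 18620757389) (nat_lit 76) (nat_lit 16448643216) (nat_lit 4) (nat_lit 4) (nat_lit 5) (nat_lit 5) (nat_lit 5) (nat_lit 4) (nat_lit 350) (nat_lit 282) (nat_lit 268)) (XT.lf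 (nat_lit 0) (nat_lit 23030485422) (nat_lit 76) (nat_lit 15608989257) (nat_lit 76) (nat_lit 13353818159) (nat_lit 4) (nat_lit 4) (nat_lit 5) (nat_lit 5) (nat_lit 5) (nat_lit 4) (nat_lit 351) (nat_lit 282) (nat_lit 267))) (XT.nd (nat_lit 78) (nat_lit 0) (nat_lit 0) (XT.lf (nat_lit 0) (nat_lit 33186678444) (nat_lit 76) (nat_lit 12480601541) (nat_lit 76) (nat_lit 10148525883) (nat_lit 4) (nat_lit 4) (nat_lit 5) (nat_lit 5) (nat_lit 5) (nat_lit 4) (nat_lit 352) (nat_lit 282) (nat_lit 266)) (XT.lf (nat_lit 0) (nat_lit 43922721191) (nat_lit 76) (nat_lit 9217055649) (nat_lit 76) (nat_lit 6813772064) (nat_lit 4) (nat_lit 4) (nat_lit 5) (nat_lit 5) (nat_lit 5) (nat_lit 4) (nat_lit 353) (nat_lit 282) (nat_lit 265)))) (XT.nd (nat_lit 156) (nat_lit 76) (nat_lit 0) (XT.nd (nat_lit 78) (nat_lit 76) (nat_lit 0) (XT.lf (nat_lit 0) (nat_lit 55302234655) (nat_lit 76) (nat_lit 5799012048) (nat_lit 76) (nat_lit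 3329795198) (nat_lit 4) (nat_lit 4) (nat_lit 5) (nat_lit 5) (nat_lit 5) (nat_lit 4) (nat_lit 354) (nat_lit 282) (nat_lit 264)) (XT.lf (nat_lit 0) (nat_lit 307840184) (nat_lit 152) (nat_lit 1889958585) (nat_lit 76) (nat_lit 67076395910) (nat_lit 3) (nat_lit 5) (nat_lit 5) (nat_lit 5) (nat_lit 4) (nat_lit 4) (nat_lit 355) (nat_lit 282) (nat_lit 263))) (XT.nd (nat_lit 78) (nat_lit 0) (nat_lit 0) (XT.lf (nat_lit 0) (nat_lit 4148312138) (nat_lit 152) (nat_lit 68589117006) (nat_lit 0) (nat_lit 1753133141) (nat_lit 2) (nat_lit 5) (nat_lit 4) (nat_lit 4) (nat_lit 2) (nat_lit 4) (nat_lit 356) (nat_lit 282) (nat_lit 262)) (XT.nd (nat_lit 78) (nat_lit 0) (nat_lit 0) (XT.lf (nat_lit 0) (nat_lit 8310815572) (nat_lit 152) (nat_lit 65945084494) (nat_lit 0) (nat_lit 5867173657) (nat_lit 2) (nat_lit 5) (nat_lit 4) (nat_lit 4) (nat_lit 2) (nat_lit 4) (nat_lit 357) (nat_lit 282) (nat_lit 261)) (XT.lf (nat_lit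 0) (nat_lit 12718070226) (nat_lit 152) (nat_lit 63265637129) (nat_lit 0) (nat_lit 10229555238) (nat_lit 2) (nat_lit 5) (nat_lit 4) (nat_lit 4) (nat_lit 2) (nat_lit 4) (nat_lit 358) (nat_lit 282) (nat_lit 260)))))) (XT.nd (nat_lit 312) (nat_lit 0) (nat_lit 0) (XT.nd (nat_lit 156) (nat_lit 0) (nat_lit 0) (XT.nd (nat_lit 78) (nat_lit 0) (nat_lit 0) (XT.lf (nat_lit 0) (nat_lit 17396193163) (nat_lit 152) (nat_lit 60534896705) (nat_lit 0) (nat_lit 14866129034) (nat_lit 2) (nat_lit 5) (nat_lit 4) (nat_lit 4) (nat_lit 2) (nat_lit 4) (nat_lit 359) (nat_lit 282) (nat_lit 259)) (XT.lf (nat_lit 0) (nat_lit 22372906596) (nat_lit 152) (nat_lit 57736681056) (nat_lit 0) (nat_lit 19804371040) (nat_lit 2) (nat_lit 5) (nat_lit 4) (nat_lit 4) (nat_lit 2) (nat_lit 4) (nat_lit 360) (nat_lit 282) (nat_lit 258))) (XT.nd (nat_lit 78) (nat_lit 0) (nat_lit 0) (XT.lf (nat_lit 0) (nat_lit 27677702157) (nat_lit 152)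 (nat_lit 54854408163) (nat_lit 0) (nat_lit 25073544910) (nat_lit 2) (nat_lit 5) (nat_lit 4) (nat_lit 4) (nat_lit 2) (nat_lit 4) (nat_lit 361) (nat_lit 282) (nat_lit 257)) (XT.lf (nat_lit 0) (nat_lit 33342015674) (nat_lit 152) (nat_lit 51870997891) (nat_lit 0) (nat_lit 30704875379) (nat_lit 2) (nat_lit 5) (nat_lit 4) (nat_lit 4) (nat_lit 2) (nat_lit 4) (nat_lit 362) (nat_lit 282) (nat_lit 256)))) (XT.nd (nat_lit 156) (nat_lit 0) (nat_lit 0) (XT.nd (nat_lit 78) (nat_lit 0) (nat_lit 0) (XT.lf (nat_lit 0) (nat_lit 39399413448) (nat_lit 152) (nat_lit 48768770772) (nat_lit 0) (nat_lit 36731733294) (nat_lit 2) (nat_lit 5) (nat_lit 4) (nat_lit 4) (nat_lit 2) (nat_lit 4) (nat_lit 363) (nat_lit 282) (nat_lit 255)) (XT.lf (nat_lit 0) (nat_lit 45885791170) (nat_lit 152) (nat_lit 45529343237) (nat_lit 0) (nat_lit 43189833368) (nat_lit 2) (nat_lit 5) (nat_lit 4) (nat_lit 4) (nat_lit 2) (nat_lit 4) (nat_lit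 364) (nat_lit 282) (nat_lit 254))) (XT.nd (nat_lit 78) (nat_lit 0) (nat_lit 0) (XT.lf (nat_lit 0) (nat_lit 52839586634) (nat_lit 152) (nat_lit 42133518679) (nat_lit 0) (nat_lit 50117445825) (nat_lit 2) (nat_lit 5) (nat_lit 4) (nat_lit 4) (nat_lit 2) (nat_lit 4) (nat_lit 365) (nat_lit 282) (nat_lit 253)) (XT.nd (nat_lit 78) (nat_lit 0) (nat_lit 0) (XT.lf (nat_lit 0) (nat_lit 60302007516) (nat_lit 152) (nat_lit 38561173693) (nat_lit 0) (nat_lit 57555623183) (nat_lit 2) (nat_lit 5) (nat_lit 4) (nat_lit 4) (nat_lit 2) (nat_lit 4) (nat_lit 366) (nat_lit 282) (nat_lit 252)) (XT.lf (nat_lit 0) (nat_lit 68317275570) (nat_lit 152) (nat_lit 34791138827) (nat_lit 0) (nat_lit 65548443529) (nat_lit 2) (nat_lit 5) (nat_lit 4) (nat_lit 4) (nat_lit 2) (nat_lit 4) (nat_lit 367) (nat_lit 282) (nat_lit 251))))))))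
noncomputable def xc46 : XT := (XT.nd (nat_lit 1326) (nat_lit 0) (nat_lit 0) (XT.nd (nat_lit 624) (nat_lit 0) (nat_lit 0) (XT.nd (nat_lit 312) (nat_lit 76) (nat_lit 0) (XT.nd (nat_lit 156) (nat_lit 0) (nat_lit 0) (XT.nd (nat_lit 78) (nat_lit 0) (nat_lit 0) (XT.lf (nat_lit 0) (nat_lit 76932888681) (nat_lit 152) (nat_lit 30801073134) (nat_lit 0) (nat_lit 74143271725) (nat_lit 2) (nat_lit 5) (nat_lit 4) (nat_lit 4) (nat_lit 2) (nat_lit 4) (nat_lit 368) (nat_lit 282) (nat_lit 250)) (XT.lf (nat_lit 0) (nat_lit 86199902334) (nat_lit 152) (nat_lit 26567331781) (nat_lit 0) (nat_lit 83391040086) (nat_lit 2) (nat_lit 5) (nat_lit 4) (nat_lit 4) (nat_lit 2) (nat_lit 4) (nat_lit 369) (nat_lit 282) (nat_lit 249))) (XT.nd (nat_lit 78) (nat_lit 0) (nat_lit 0) (XT.lf (nat_lit 0) (nat_lit 96173232165) (nat_lit 152) (nat_lit 22064825929) (nat_lit 0) (nat_lit 93346550203) (nat_lit 2) (nat_lit 5) (nat_lit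 4) (nat_lit 4) (nat_lit 2) (nat_lit 4) (nat_lit 370) (nat_lit 282) (nat_lit 248)) (XT.lf (nat_lit 0) (nat_lit 106911979388) (nat_lit 152) (nat_lit 17266874062) (nat_lit 0) (nat_lit 104068797690) (nat_lit 2) (nat_lit 5) (nat_lit 4) (nat_lit 4) (nat_lit 2) (nat_lit 4) (nat_lit 371) (nat_lit 282) (nat_lit 247)))) (XT.nd (nat_lit 156) (nat_lit 76) (nat_lit 0) (XT.nd (nat_lit 78) (nat_lit 0) (nat_lit 0) (XT.lf (nat_lit 0) (nat_lit 118479781024) (nat_lit 152) (nat_lit 12145043873) (nat_lit 0) (nat_lit 115621321793) (nat_lit 2) (nat_lit 5) (nat_lit 4) (nat_lit 4) (nat_lit 2) (nat_lit 4) (nat_lit 372) (nat_lit 282) (nat_lit 246)) (XT.lf (nat_lit 0) (nat_lit 130945187008) (nat_lit 152) (nat_lit 6668983776) (nat_lit 0) (nat_lit 128072581914) (nat_lit 2) (nat_lit 5) (nat_lit 4) (nat_lit 4) (nat_lit 2) (nat_lit 4) (nat_lit 373) (nat_lit 282) (nat_lit 245))) (XT.nd (nat_lit 78) (nat_lit 76) (nat_lit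 0) (XT.lf (nat_lit 0) (nat_lit 144382066413) (nat_lit 152) (nat_lit 806243044) (nat_lit 0) (nat_lit 141496363297) (nat_lit 2) (nat_lit 5) (nat_lit 4) (nat_lit 4) (nat_lit 2) (nat_lit 4) (nat_lit 374) (nat_lit 282) (nat_lit 244)) (XT.lf (nat_lit 0) (nat_lit 5766378075) (nat_lit 76) (nat_lit 153242348648) (nat_lit 76) (nat_lit 150344517733) (nat_lit 1) (nat_lit 4) (nat_lit 2) (nat_lit 5) (nat_lit 2) (nat_lit 4) (nat_lit 375) (nat_lit 282) (nat_lit 243))))) (XT.nd (nat_lit 312) (nat_lit 0) (nat_lit 0) (XT.nd (nat_lit 156) (nat_lit 0) (nat_lit 0) (XT.nd (nat_lit 78) (nat_lit 0) (nat_lit 0) (XT.lf (nat_lit 0) (nat_lit 12864269157) (nat_lit 76) (nat_lit 161940094856) (nat_lit 76) (nat_lit 159031034499) (nat_lit 1) (nat_lit 4) (nat_lit 2) (nat_lit 5) (nat_lit 2) (nat_lit 4) (nat_lit 376) (nat_lit 282) (nat_lit 242)) (XT.lf (nat_lit 0) (nat_lit 20487036449) (nat_lit 76) (nat_lit 171355134397)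 (nat_lit 76) (nat_lit 168435676407) (nat_lit 1) (nat_lit 4) (nat_lit 2) (nat_lit 5) (nat_lit 2) (nat_lit 4) (nat_lit 377) (nat_lit 282) (nat_lit 241))) (XT.nd (nat_lit 78) (nat_lit 0) (nat_lit 0) (XT.lf (nat_lit 0) (nat_lit 28679851905) (nat_lit 76) (nat_lit 181543260097) (nat_lit 76) (nat_lit 178614174670) (nat_lit 1) (nat_lit 4) (nat_lit 2) (nat_lit 5) (nat_lit 2) (nat_lit 4) (nat_lit 378) (nat_lit 282) (nat_lit 240)) (XT.lf (nat_lit 0) (nat_lit 37491265544) (nat_lit 76) (nat_lit 192564846034) (nat_lit 76) (nat_lit 189626846313) (nat_lit 1) (nat_lit 4) (nat_lit 2) (nat_lit 5) (nat_lit 2) (nat_lit 4) (nat_lit 379) (nat_lit 282) (nat_lit 239)))) (XT.nd (nat_lit 156) (nat_lit 0) (nat_lit 0) (XT.nd (nat_lit 78) (nat_lit 0) (nat_lit 0) (XT.lf (nat_lit 0) (nat_lit 46973493148) (nat_lit 76) (nat_lit 204485205310) (nat_lit 76) (nat_lit 201538951614) (nat_lit 1) (nat_lit 4) (nat_lit 2) (nat_lit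 5) (nat_lit 2) (nat_lit 4) (nat_lit 380) (nat_lit 282) (nat_lit 238)) (XT.lf (nat_lit 0) (nat_lit 57182725697) (nat_lit 76) (nat_lit 217374977092) (nat_lit 76) (nat_lit 214421080825) (nat_lit 1) (nat_lit 4) (nat_lit 2) (nat_lit 5) (nat_lit 2) (nat_lit 4) (nat_lit 381) (nat_lit 282) (nat_lit 237))) (XT.nd (nat_lit 78) (nat_lit 0) (nat_lit 0) (XT.lf (nat_lit 0) (nat_lit 68179462346) (nat_lit 76) (nat_lit 231310545211) (nat_lit 76) (nat_lit 228349572491) (nat_lit 1) (nat_lit 4) (nat_lit 2) (nat_lit 5) (nat_lit 2) (nat_lit 4) (nat_lit 382) (nat_lit 282) (nat_lit 236)) (XT.nd (nat_lit 78) (nat_lit 0) (nat_lit 0) (XT.lf (nat_lit 0) (nat_lit 80028868943) (nat_lit 76) (nat_lit 246374490813) (nat_lit 76) (nat_lit 243406965820) (nat_lit 1) (nat_lit 4) (nat_lit 2) (nat_lit 5) (nat_lit 2) (nat_lit 4) (nat_lit 383) (nat_lit 282) (nat_lit 235)) (XT.lf (nat_lit 0) (nat_lit 92801164193) (nat_lit 76) (nat_lit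 262656081723) (nat_lit 76) (nat_lit 259682489812) (nat_lit 1) (nat_lit 4) (nat_lit 2) (nat_lit 5) (nat_lit 2) (nat_lit 4) (nat_lit 384) (nat_lit 282) (nat_lit 234))))))) (XT.nd (nat_lit 624) (nat_lit 0) (nat_lit 0) (XT.nd (nat_lit 312) (nat_lit 0) (nat_lit 0) (XT.nd (nat_lit 156) (nat_lit 0) (nat_lit 0) (XT.nd (nat_lit 78) (nat_lit 0) (nat_lit 0) (XT.lf (nat_lit 0) (nat_lit 106572035771) (nat_lit 76) (nat_lit 280251801442) (nat_lit 76) (nat_lit 277272592014) (nat_lit 1) (nat_lit 4) (nat_lit 2) (nat_lit 5) (nat_lit 2) (nat_lit 4) (nat_lit 385) (nat_lit 282) (nat_lit 233)) (XT.lf (nat_lit 0) (nat_lit 121423088843) (nat_lit 76) (nat_lit 299265920904) (nat_lit 76) (nat_lit 296281510071) (nat_lit 1) (nat_lit 4) (nat_lit 2) (nat_lit 5) (nat_lit 2) (nat_lit 4) (nat_lit 386) (nat_lit 282) (nat_lit 232))) (XT.nd (nat_lit 78) (nat_lit 0) (nat_lit 0) (XT.lf (nat_lit 0) (nat_lit 137442329648) (nat_lit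 76) (nat_lit 319811116370) (nat_lit 76) (nat_lit 316821889421) (nat_lit 1) (nat_lit 4) (nat_lit 2) (nat_lit 5) (nat_lit 2) (nat_lit 4) (nat_lit 387) (nat_lit 282) (nat_lit 231)) (XT.lf (nat_lit 0) (nat_lit 154724687022) (nat_lit 76) (nat_lit 342009137148) (nat_lit 76) (nat_lit 339015450833) (nat_lit 1) (nat_lit 4) (nat_lit 2) (nat_lit 5) (nat_lit 2) (nat_lit 4) (nat_lit 388) (nat_lit 282) (nat_lit 230)))) (XT.nd (nat_lit 156) (nat_lit 0) (nat_lit 0) (XT.nd (nat_lit 78) (nat_lit 0) (nat_lit 0) (XT.lf (nat_lit 0) (nat_lit 173372574934) (nat_lit 76) (nat_lit 365991527064) (nat_lit 76) (nat_lit 362993711706) (nat_lit 1) (nat_lit 4) (nat_lit 2) (nat_lit 5) (nat_lit 2) (nat_lit 4) (nat_lit 389) (nat_lit 282) (nat_lit 229)) (XT.lf (nat_lit 0) (nat_lit 193496499387) (nat_lit 76) (nat_lit 391900403984) (nat_lit 76) (nat_lit 388898765439) (nat_lit 1) (nat_lit 4) (nat_lit 2) (nat_lit 5) (nat_lit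 2) (nat_lit 4) (nat_lit 390) (nat_lit 282) (nat_lit 228))) (XT.nd (nat_lit 78) (nat_lit 0) (nat_lit 0) (XT.lf (nat_lit 0) (nat_lit 215215713265) (nat_lit 76) (nat_lit 419889301994) (nat_lit 76) (nat_lit 416884123460) (nat_lit 1) (nat_lit 4) (nat_lit 2) (nat_lit 5) (nat_lit 2) (nat_lit 4) (nat_lit 391) (nat_lit 282) (nat_lit 227)) (XT.lf (nat_lit 0) (nat_lit 238658923022) (nat_lit 76) (nat_lit 450124081231) (nat_lit 76) (nat_lit 447115624930) (nat_lit 1) (nat_lit 4) (nat_lit 2) (nat_lit 5) (nat_lit 2) (nat_lit 4) (nat_lit 392) (nat_lit 282) (nat_lit 226))))) (XT.nd (nat_lit 312) (nat_lit 0) (nat_lit 0) (XT.nd (nat_lit 156) (nat_lit 0) (nat_lit 0) (XT.nd (nat_lit 78) (nat_lit 0) (nat_lit 0) (XT.lf (nat_lit 0) (nat_lit 263965051382) (nat_lit 76) (nat_lit 482783910756) (nat_lit 76) (nat_lit 479772419485) (nat_lit 1) (nat_lit 4) (nat_lit 2) (nat_lit 5) (nat_lit 2) (nat_lit 4) (nat_lit 393)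 (nat_lit 282) (nat_lit 225)) (XT.lf (nat_lit 0) (nat_lit 291284060588) (nat_lit 76) (nat_lit 518062330300) (nat_lit 76) (nat_lit 515048028872) (nat_lit 1) (nat_lit 4) (nat_lit 2) (nat_lit 5) (nat_lit 2) (nat_lit 4) (nat_lit 394) (nat_lit 282) (nat_lit 224))) (XT.nd (nat_lit 78) (nat_lit 0) (nat_lit 0) (XT.lf (nat_lit 0) (nat_lit 320777841064) (nat_lit 76) (nat_lit 556168397164) (nat_lit 76) (nat_lit 553151493738) (nat_lit 1) (nat_lit 4) (nat_lit 2) (nat_lit 5) (nat_lit 2) (nat_lit 4) (nat_lit 395) (nat_lit 282) (nat_lit 223)) (XT.lf (nat_lit 0) (nat_lit 352621170768) (nat_lit 76) (nat_lit 597327925077) (nat_lit 76) (nat_lit 594308612395) (nat_lit 1) (nat_lit 4) (nat_lit 2) (nat_lit 5) (nat_lit 2) (nat_lit 4) (nat_lit 396) (nat_lit 282) (nat_lit 222)))) (XT.nd (nat_lit 156) (nat_lit 0) (nat_lit 0) (XT.nd (nat_lit 78) (nat_lit 0) (nat_lit 0) (XT.lf (nat_lit 0) (nat_lit 387002750914) (nat_lit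 76) (nat_lit 641784822354) (nat_lit 76) (nat_lit 638763278878) (nat_lit 1) (nat_lit 4) (nat_lit 2) (nat_lit 5) (nat_lit 2) (nat_lit 4) (nat_lit 397) (nat_lit 282) (nat_lit 221)) (XT.lf (nat_lit 0) (nat_lit 424126324198) (nat_lit 76) (nat_lit 689802537274) (nat_lit 76) (nat_lit 686778928248) (nat_lit 1) (nat_lit 4) (nat_lit 2) (nat_lit 5) (nat_lit 2) (nat_lit 4) (nat_lit 398) (nat_lit 282) (nat_lit 220))) (XT.nd (nat_lit 78) (nat_lit 0) (nat_lit 0) (XT.lf (nat_lit 0) (nat_lit 464211882167) (nat_lit 76) (nat_lit 741665619258) (nat_lit 76) (nat_lit 738640097687) (nat_lit 1) (nat_lit 4) (nat_lit 2) (nat_lit 5) (nat_lit 2) (nat_lit 4) (nat_lit 399) (nat_lit 282) (nat_lit 219)) (XT.nd (nat_lit 78) (nat_lit 0) (nat_lit 0) (XT.lf (nat_lit 0) (nat_lit 507496968867) (nat_lit 76) (nat_lit 797681405090) (nat_lit 76) (nat_lit 794654112643) (nat_lit 1) (nat_lit 4) (nat_lit 2) (nat_lit 5) (nat_lit 2)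 (nat_lit 4) (nat_lit 400) (nat_lit 282) (nat_lit 218)) (XT.lf (nat_lit 0) (nat_lit 554238088517) (nat_lit 76) (nat_lit 858181840166) (nat_lit 76) (nat_lit 855152908020) (nat_lit 1) (nat_lit 4) (nat_lit 2) (nat_lit 5) (nat_lit 2) (nat_lit 4) (nat_lit 401) (nat_lit 282) (nat_lit 217))))))))
noncomputable def xc47 : XT := (XT.nd (nat_lit 41886) (nat_lit 0) (nat_lit 228) (XT.nd (nat_lit 624) (nat_lit 0) (nat_lit 0) (XT.nd (nat_lit 312) (nat_lit 0) (nat_lit 0) (XT.nd (nat_lit 156) (nat_lit 0) (nat_lit 0) (XT.nd (nat_lit 78) (nat_lit 0) (nat_lit 0) (XT.lf (nat_lit 0) (nat_lit 604712225527) (nat_lit 76) (nat_lit 923525445584) (nat_lit 76) (nat_lit 920494995197) (nat_lit 1) (nat_lit 4) (nat_lit 2) (nat_lit 5) (nat_lit 2) (nat_lit 4) (nat_lit 402) (nat_lit 282) (nat_lit 216)) (XT.lf (nat_lit 0) (nat_lit 659218485897) (nat_lit 76) (nat_lit 994099442708) (nat_lit 76) (nat_lit 991067586543) (nat_lit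 1) (nat_lit 4) (nat_lit 2) (nat_lit 5) (nat_lit 2) (nat_lit 4) (nat_lit 403) (nat_lit 282) (nat_lit 215))) (XT.nd (nat_lit 78) (nat_lit 0) (nat_lit 0) (XT.lf (nat_lit 0) (nat_lit 718079869686) (nat_lit 76) (nat_lit 1070322047819) (nat_lit 76) (nat_lit 1067288890008) (nat_lit 1) (nat_lit 4) (nat_lit 2) (nat_lit 5) (nat_lit 2) (nat_lit 4) (nat_lit 404) (nat_lit 282) (nat_lit 214)) (XT.lf (nat_lit 0) (nat_lit 781645185096) (nat_lit 76) (nat_lit 1152644950427) (nat_lit 76) (nat_lit 1149610587388) (nat_lit 1) (nat_lit 4) (nat_lit 2) (nat_lit 5) (nat_lit 2) (nat_lit 4) (nat_lit 405) (nat_lit 282) (nat_lit 213)))) (XT.nd (nat_lit 156) (nat_lit 0) (nat_lit 0) (XT.nd (nat_lit 78) (nat_lit 0) (nat_lit 0) (XT.lf (nat_lit 0) (nat_lit 850291115477) (nat_lit 76) (nat_lit 1241555989956) (nat_lit 76) (nat_lit 1238520510965) (nat_lit 1) (nat_lit 4) (nat_lit 2) (nat_lit 5) (nat_lit 2) (nat_lit 4) (nat_lit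 406) (nat_lit 282) (nat_lit 212)) (XT.lf (nat_lit 0) (nat_lit 924424451528) (nat_lit 76) (nat_lit 1337582046640) (nat_lit 76) (nat_lit 1334545534360) (nat_lit 1) (nat_lit 4) (nat_lit 2) (nat_lit 5) (nat_lit 2) (nat_lit 4) (nat_lit 407) (nat_lit 282) (nat_lit 211))) (XT.nd (nat_lit 78) (nat_lit 0) (nat_lit 0) (XT.lf (nat_lit 0) (nat_lit 1004484501906) (nat_lit 76) (nat_lit 1441292163778) (nat_lit 76) (nat_lit 1438254694749) (nat_lit 1) (nat_lit 4) (nat_lit 2) (nat_lit 5) (nat_lit 2) (nat_lit 4) (nat_lit 408) (nat_lit 282) (nat_lit 210)) (XT.lf (nat_lit 0) (nat_lit 1090945696540) (nat_lit 76) (nat_lit 1553300919842) (nat_lit 76) (nat_lit 1550262564933) (nat_lit 1) (nat_lit 4) (nat_lit 2) (nat_lit 5) (nat_lit 2) (nat_lit 4) (nat_lit 409) (nat_lit 282) (nat_lit 209))))) (XT.nd (nat_lit 312) (nat_lit 0) (nat_lit 0) (XT.nd (nat_lit 156) (nat_lit 0) (nat_lit 0) (XT.nd (nat_lit 78) (nat_lit 0)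 (nat_lit 0) (XT.lf (nat_lit 0) (nat_lit 1184320398065) (nat_lit 76) (nat_lit 1674272070423) (nat_lit 76) (nat_lit 1671232895256) (nat_lit 1) (nat_lit 4) (nat_lit 2) (nat_lit 5) (nat_lit 2) (nat_lit 4) (nat_lit 410) (nat_lit 282) (nat_lit 208)) (XT.lf (nat_lit 0) (nat_lit 1285161938044) (nat_lit 76) (nat_lit 1804922481598) (nat_lit 76) (nat_lit 1801882546933) (nat_lit 1) (nat_lit 4) (nat_lit 2) (nat_lit 5) (nat_lit 2) (nat_lit 4) (nat_lit 411) (nat_lit 282) (nat_lit 207))) (XT.nd (nat_lit 78) (nat_lit 0) (nat_lit 0) (XT.lf (nat_lit 0) (nat_lit 1394067895976) (nat_lit 76) (nat_lit 1946026378027) (nat_lit 76) (nat_lit 1942985740123) (nat_lit 1) (nat_lit 4) (nat_lit 2) (nat_lit 5) (nat_lit 2) (nat_lit 4) (nat_lit 412) (nat_lit 282) (nat_lit 206)) (XT.lf (nat_lit 0) (nat_lit 1511683640498) (nat_lit 76) (nat_lit 2098419930948) (nat_lit 76) (nat_lit 2095378641897) (nat_lit 1) (nat_lit 4) (nat_lit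 2) (nat_lit 5) (nat_lit 2) (nat_lit 4) (nat_lit 413) (nat_lit 282) (nat_lit 205)))) (XT.nd (nat_lit 40716) (nat_lit 0) (nat_lit 684) (XT.nd (nat_lit 40638) (nat_lit 0) (nat_lit 912) (XT.lf (nat_lit 0) (nat_lit 1638706153801) (nat_lit 76) (nat_lit 2263006213266) (nat_lit 76) (nat_lit 2259964321301) (nat_lit 1) (nat_lit 4) (nat_lit 2) (nat_lit 5) (nat_lit 2) (nat_lit 4) (nat_lit 414) (nat_lit 282) (nat_lit 204)) (XT.lf (nat_lit 0) (nat_lit 5844687547) (nat_lit 76) (nat_lit 1542059709) (nat_lit 76) (nat_lit 1542059709) (nat_lit 13) (nat_lit 4) (nat_lit 14) (nat_lit 5) (nat_lit 14) (nat_lit 4) (nat_lit 334) (nat_lit 283) (nat_lit 283))) (XT.nd (nat_lit 78) (nat_lit 76) (nat_lit 0) (XT.lf (nat_lit 0) (nat_lit 2145060682) (nat_lit 152) (nat_lit 14856369617) (nat_lit 0) (nat_lit 1837748559) (nat_lit 11) (nat_lit 5) (nat_lit 13) (nat_lit 4) (nat_lit 11) (nat_lit 4) (nat_lit 335) (nat_lit 283)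 (nat_lit 282)) (XT.nd (nat_lit 78) (nat_lit 76) (nat_lit 0) (XT.lf (nat_lit 0) (nat_lit 7591697632) (nat_lit 152) (nat_lit 5304171158) (nat_lit 0) (nat_lit 6999837247) (nat_lit 11) (nat_lit 5) (nat_lit 13) (nat_lit 4) (nat_lit 11) (nat_lit 4) (nat_lit 336) (nat_lit 283) (nat_lit 281)) (XT.lf (nat_lit 0) (nat_lit 4739540411) (nat_lit 76) (nat_lit 8582406449) (nat_lit 76) (nat_lit 7727075450) (nat_lit 10) (nat_lit 4) (nat_lit 11) (nat_lit 5) (nat_lit 11) (nat_lit 4) (nat_lit 337) (nat_lit 283) (nat_lit 280))))))) (XT.nd (nat_lit 702) (nat_lit 76) (nat_lit 0) (XT.nd (nat_lit 312) (nat_lit 228) (nat_lit 0) (XT.nd (nat_lit 156) (nat_lit 0) (nat_lit 0) (XT.nd (nat_lit 78) (nat_lit 152) (nat_lit 0) (XT.lf (nat_lit 0) (nat_lit 15391553208) (nat_lit 76) (nat_lit 4005745760) (nat_lit 76) (nat_lit 2906460491) (nat_lit 10) (nat_lit 4) (nat_lit 11) (nat_lit 5) (nat_lit 11) (nat_lit 4) (nat_lit 338)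 (nat_lit 283) (nat_lit 279)) (XT.lf (nat_lit 0) (nat_lit 2028110124) (nat_lit 152) (nat_lit 20837847888) (nat_lit 0) (nat_lit 801101925) (nat_lit 8) (nat_lit 5) (nat_lit 10) (nat_lit 4) (nat_lit 8) (nat_lit 4) (nat_lit 339) (nat_lit 283) (nat_lit 278))) (XT.nd (nat_lit 78) (nat_lit 0) (nat_lit 0) (XT.lf (nat_lit 0) (nat_lit 7254610694) (nat_lit 152) (nat_lit 12040567149) (nat_lit 0) (nat_lit 5833943729) (nat_lit 8) (nat_lit 5) (nat_lit 10) (nat_lit 4) (nat_lit 8) (nat_lit 4) (nat_lit 340) (nat_lit 283) (nat_lit 277)) (XT.lf (nat_lit 0) (nat_lit 12673529892) (nat_lit 152) (nat_lit 2979191410) (nat_lit 0) (nat_lit 11073549255) (nat_lit 8) (nat_lit 5) (nat_lit 10) (nat_lit 4) (nat_lit 8) (nat_lit 4) (nat_lit 341) (nat_lit 283) (nat_lit 276)))) (XT.nd (nat_lit 156) (nat_lit 152) (nat_lit 0) (XT.nd (nat_lit 78) (nat_lit 0) (nat_lit 0) (XT.lf (nat_lit 0) (nat_lit 6736987784) (nat_lit 76) (nat_lit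 11742016766) (nat_lit 76) (nat_lit 9976004951) (nat_lit 7) (nat_lit 4) (nat_lit 8) (nat_lit 5) (nat_lit 8) (nat_lit 4) (nat_lit 342) (nat_lit 283) (nat_lit 275)) (XT.lf (nat_lit 0) (nat_lit 17003079337) (nat_lit 76) (nat_lit 7624248311) (nat_lit 76) (nat_lit 5704503924) (nat_lit 7) (nat_lit 4) (nat_lit 8) (nat_lit 5) (nat_lit 8) (nat_lit 4) (nat_lit 343) (nat_lit 283) (nat_lit 274))) (XT.nd (nat_lit 78) (nat_lit 152) (nat_lit 0) (XT.lf (nat_lit 0) (nat_lit 27723040406) (nat_lit 76) (nat_lit 3356470717) (nat_lit 76) (nat_lit 1294381356) (nat_lit 7) (nat_lit 4) (nat_lit 8) (nat_lit 5) (nat_lit 8) (nat_lit 4) (nat_lit 344) (nat_lit 283) (nat_lit 273)) (XT.nd (nat_lit 78) (nat_lit 0) (nat_lit 0) (XT.lf (nat_lit 0) (nat_lit 3255957243) (nat_lit 152) (nat_lit 30095281902) (nat_lit 0) (nat_lit 1224577369) (nat_lit 5) (nat_lit 5) (nat_lit 7) (nat_lit 4) (nat_lit 5) (nat_lit 4) (nat_lit 345) (nat_lit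 283) (nat_lit 272)) (XT.lf (nat_lit 0) (nat_lit 8140408106) (nat_lit 152) (nat_lit 22811607092) (nat_lit 0) (nat_lit 5996030203) (nat_lit 5) (nat_lit 5) (nat_lit 7) (nat_lit 4) (nat_lit 5) (nat_lit 4) (nat_lit 346) (nat_lit 283) (nat_lit 271)))))) (XT.nd (nat_lit 312) (nat_lit 0) (nat_lit 0) (XT.nd (nat_lit 156) (nat_lit 76) (nat_lit 0) (XT.nd (nat_lit 78) (nat_lit 0) (nat_lit 0) (XT.lf (nat_lit 0) (nat_lit 13251141770) (nat_lit 152) (nat_lit 15269971316) (nat_lit 0) (nat_lit 11002136061) (nat_lit 5) (nat_lit 5) (nat_lit 7) (nat_lit 4) (nat_lit 5) (nat_lit 4) (nat_lit 347) (nat_lit 283) (nat_lit 270)) (XT.lf (nat_lit 0) (nat_lit 18618444064) (nat_lit 152) (nat_lit 7425683401) (nat_lit 0) (nat_lit 16272560758) (nat_lit 5) (nat_lit 5) (nat_lit 7) (nat_lit 4) (nat_lit 5) (nat_lit 4) (nat_lit 348) (nat_lit 283) (nat_lit 269))) (XT.nd (nat_lit 78) (nat_lit 0) (nat_lit 0) (XT.lf (nat_lit 0)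 (nat_lit 808169220) (nat_lit 76) (nat_lit 23485388493) (nat_lit 76) (nat_lit 21049803707) (nat_lit 4) (nat_lit 4) (nat_lit 5) (nat_lit 5) (nat_lit 5) (nat_lit 4) (nat_lit 349) (nat_lit 283) (nat_lit 268)) (XT.lf (nat_lit 0) (nat_lit 9851677281) (nat_lit 76) (nat_lit 20636944168) (nat_lit 76) (nat_lit 18118302457) (nat_lit 4) (nat_lit 4) (nat_lit 5) (nat_lit 5) (nat_lit 5) (nat_lit 4) (nat_lit 350) (nat_lit 283) (nat_lit 267)))) (XT.nd (nat_lit 156) (nat_lit 0) (nat_lit 0) (XT.nd (nat_lit 78) (nat_lit 0) (nat_lit 0) (XT.lf (nat_lit 0) (nat_lit 19367408612) (nat_lit 76) (nat_lit 17684946165) (nat_lit 76) (nat_lit 15089399893) (nat_lit 4) (nat_lit 4) (nat_lit 5) (nat_lit 5) (nat_lit 5) (nat_lit 4) (nat_lit 351) (nat_lit 283) (nat_lit 266)) (XT.lf (nat_lit 0) (nat_lit 29411752732) (nat_lit 76) (nat_lit 14611901161) (nat_lit 76) (nat_lit 11945146963) (nat_lit 4) (nat_lit 4) (nat_lit 5) (nat_lit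 5) (nat_lit 5) (nat_lit 4) (nat_lit 352) (nat_lit 283) (nat_lit 265))) (XT.nd (nat_lit 78) (nat_lit 0) (nat_lit 0) (XT.lf (nat_lit 0) (nat_lit 40044231679) (nat_lit 76) (nat_lit 11399598520) (nat_lit 76) (nat_lit 8666911057) (nat_lit 4) (nat_lit 4) (nat_lit 5) (nat_lit 5) (nat_lit 5) (nat_lit 4) (nat_lit 353) (nat_lit 283) (nat_lit 264)) (XT.nd (nat_lit 78) (nat_lit 0) (nat_lit 0) (XT.lf (nat_lit 0) (nat_lit 51327852737) (nat_lit 76) (nat_lit 8029002374) (nat_lit 76) (nat_lit 5235265592) (nat_lit 4) (nat_lit 4) (nat_lit 5) (nat_lit 5) (nat_lit 5) (nat_lit 4) (nat_lit 354) (nat_lit 283) (nat_lit 263)) (XT.lf (nat_lit 0) (nat_lit 63329481808) (nat_lit 76) (nat_lit 4480138821) (nat_lit 76) (nat_lit 1629874890) (nat_lit 4) (nat_lit 4) (nat_lit 5) (nat_lit 5) (nat_lit 5) (nat_lit 4) (nat_lit 355) (nat_lit 283) (nat_lit 262))))))))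
noncomputable def xc48 : XT := (XT.nd (nat_lit 1326) (nat_lit 76) (nat_lit 0) (XT.nd (nat_lit 624) (nat_lit 0) (nat_lit 0) (XT.nd (nat_lit 312) (nat_lit 0) (nat_lit 0) (XT.nd (nat_lit 156) (nat_lit 0) (nat_lit 0) (XT.nd (nat_lit 78) (nat_lit 0) (nat_lit 0) (XT.lf (nat_lit 0) (nat_lit 1459452896) (nat_lit 76) (nat_lit 637689785) (nat_lit 152) (nat_lit 72577463928) (nat_lit 2) (nat_lit 5) (nat_lit 3) (nat_lit 5) (nat_lit 4) (nat_lit 4) (nat_lit 356) (nat_lit 283) (nat_lit 261)) (XT.lf (nat_lit 0) (nat_lit 6201882230) (nat_lit 152) (nat_lit 70640451933) (nat_lit 0) (nat_lit 3469412971) (nat_lit 2) (nat_lit 5) (nat_lit 4) (nat_lit 4) (nat_lit 2) (nat_lit 4) (nat_lit 357) (nat_lit 283) (nat_lit 260))) (XT.nd (nat_lit 78) (nat_lit 0) (nat_lit 0) (XT.lf (nat_lit 0) (nat_lit 10569852226) (nat_lit 152) (nat_lit 68039400112) (nat_lit 0) (nat_lit 7795833826) (nat_lit 2) (nat_lit 5) (nat_lit 4) (nat_lit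 4) (nat_lit 2) (nat_lit 4) (nat_lit 358) (nat_lit 283) (nat_lit 259)) (XT.lf (nat_lit 0) (nat_lit 15211600481) (nat_lit 152) (nat_lit 65381248153) (nat_lit 0) (nat_lit 12399110654) (nat_lit 2) (nat_lit 5) (nat_lit 4) (nat_lit 4) (nat_lit 2) (nat_lit 4) (nat_lit 359) (nat_lit 283) (nat_lit 258)))) (XT.nd (nat_lit 156) (nat_lit 0) (nat_lit 0) (XT.nd (nat_lit 78) (nat_lit 0) (nat_lit 0) (XT.lf (nat_lit 0) (nat_lit 20154633651) (nat_lit 152) (nat_lit 62650244047) (nat_lit 0) (nat_lit 17306522132) (nat_lit 2) (nat_lit 5) (nat_lit 4) (nat_lit 4) (nat_lit 2) (nat_lit 4) (nat_lit 360) (nat_lit 283) (nat_lit 257)) (XT.lf (nat_lit 0) (nat_lit 25428243785) (nat_lit 152) (nat_lit 59830204064) (nat_lit 0) (nat_lit 22547149218) (nat_lit 2) (nat_lit 5) (nat_lit 4) (nat_lit 4) (nat_lit 2) (nat_lit 4) (nat_lit 361) (nat_lit 283) (nat_lit 256))) (XT.nd (nat_lit 78) (nat_lit 0) (nat_lit 0) (XT.lf (nat_lit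 0) (nat_lit 31063681905) (nat_lit 152) (nat_lit 56904416856) (nat_lit 0) (nat_lit 28152047480) (nat_lit 2) (nat_lit 5) (nat_lit 4) (nat_lit 4) (nat_lit 2) (nat_lit 4) (nat_lit 362) (nat_lit 283) (nat_lit 255)) (XT.lf (nat_lit 0) (nat_lit 37094343202) (nat_lit 152) (nat_lit 53855544426) (nat_lit 0) (nat_lit 34154431128) (nat_lit 2) (nat_lit 5) (nat_lit 4) (nat_lit 4) (nat_lit 2) (nat_lit 4) (nat_lit 363) (nat_lit 283) (nat_lit 254))))) (XT.nd (nat_lit 312) (nat_lit 0) (nat_lit 0) (XT.nd (nat_lit 156) (nat_lit 0) (nat_lit 0) (XT.nd (nat_lit 78) (nat_lit 0) (nat_lit 0) (XT.lf (nat_lit 0) (nat_lit 43555964925) (nat_lit 152) (nat_lit 50665519382) (nat_lit 0) (nat_lit 40589869846) (nat_lit 2) (nat_lit 5) (nat_lit 4) (nat_lit 4) (nat_lit 2) (nat_lit 4) (nat_lit 364) (nat_lit 283) (nat_lit 253)) (XT.lf (nat_lit 0) (nat_lit 50486838169) (nat_lit 152) (nat_lit 47315437870) (nat_lit 0) (nat_lit 47496499564)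 (nat_lit 2) (nat_lit 5) (nat_lit 4) (nat_lit 4) (nat_lit 2) (nat_lit 4) (nat_lit 365) (nat_lit 283) (nat_lit 252))) (XT.nd (nat_lit 78) (nat_lit 0) (nat_lit 0) (XT.lf (nat_lit 0) (nat_lit 57928034773) (nat_lit 152) (nat_lit 43785447557) (nat_lit 0) (nat_lit 54915248460) (nat_lit 2) (nat_lit 5) (nat_lit 4) (nat_lit 4) (nat_lit 2) (nat_lit 4) (nat_lit 366) (nat_lit 283) (nat_lit 251)) (XT.lf (nat_lit 0) (nat_lit 65923650717) (nat_lit 152) (nat_lit 40054629980) (nat_lit 0) (nat_lit 62890079490) (nat_lit 2) (nat_lit 5) (nat_lit 4) (nat_lit 4) (nat_lit 2) (nat_lit 4) (nat_lit 367) (nat_lit 283) (nat_lit 250)))) (XT.nd (nat_lit 156) (nat_lit 0) (nat_lit 0) (XT.nd (nat_lit 78) (nat_lit 0) (nat_lit 0) (XT.lf (nat_lit 0) (nat_lit 74521067431) (nat_lit 152) (nat_lit 36100876593) (nat_lit 0) (nat_lit 71468250912) (nat_lit 2) (nat_lit 5) (nat_lit 4) (nat_lit 4) (nat_lit 2) (nat_lit 4) (nat_lit 368)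 (nat_lit 283) (nat_lit 249)) (XT.lf (nat_lit 0) (nat_lit 83771232567) (nat_lit 152) (nat_lit 31900757744) (nat_lit 0) (nat_lit 80700596334) (nat_lit 2) (nat_lit 5) (nat_lit 4) (nat_lit 4) (nat_lit 2) (nat_lit 4) (nat_lit 369) (nat_lit 283) (nat_lit 248))) (XT.nd (nat_lit 78) (nat_lit 0) (nat_lit 0) (XT.lf (nat_lit 0) (nat_lit 93728961920) (nat_lit 152) (nat_lit 27429383840) (nat_lit 0) (nat_lit 90641825951) (nat_lit 2) (nat_lit 5) (nat_lit 4) (nat_lit 4) (nat_lit 2) (nat_lit 4) (nat_lit 370) (nat_lit 283) (nat_lit 247)) (XT.nd (nat_lit 78) (nat_lit 0) (nat_lit 0) (XT.lf (nat_lit 0) (nat_lit 104453264257) (nat_lit 152) (nat_lit 22660257852) (nat_lit 0) (nat_lit 101350850754) (nat_lit 2) (nat_lit 5) (nat_lit 4) (nat_lit 4) (nat_lit 2) (nat_lit 4) (nat_lit 371) (nat_lit 283) (nat_lit 246)) (XT.lf (nat_lit 0) (nat_lit 116007690997) (nat_lit 152) (nat_lit 17565118291) (nat_lit 0) (nat_lit 112891131631)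 (nat_lit 2) (nat_lit 5) (nat_lit 4) (nat_lit 4) (nat_lit 2) (nat_lit 4) (nat_lit 372) (nat_lit 283) (nat_lit 245))))))) (XT.nd (nat_lit 624) (nat_lit 0) (nat_lit 0) (XT.nd (nat_lit 312) (nat_lit 0) (nat_lit 0) (XT.nd (nat_lit 156) (nat_lit 76) (nat_lit 0) (XT.nd (nat_lit 78) (nat_lit 0) (nat_lit 0) (XT.lf (nat_lit 0) (nat_lit 128460712819) (nat_lit 152) (nat_lit 12113771739) (nat_lit 0) (nat_lit 125331055431) (nat_lit 2) (nat_lit 5) (nat_lit 4) (nat_lit 4) (nat_lit 2) (nat_lit 4) (nat_lit 373) (nat_lit 283) (nat_lit 244)) (XT.lf (nat_lit 0) (nat_lit 141886125407) (nat_lit 152) (nat_lit 6273913919) (nat_lit 0) (nat_lit 138744340220) (nat_lit 2) (nat_lit 5) (nat_lit 4) (nat_lit 4) (nat_lit 2) (nat_lit 4) (nat_lit 374) (nat_lit 283) (nat_lit 243))) (XT.nd (nat_lit 78) (nat_lit 76) (nat_lit 0) (XT.lf (nat_lit 0) (nat_lit 156363486761) (nat_lit 152) (nat_lit 10938266) (nat_lit 0) (nat_lit 153210472132)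 (nat_lit 2) (nat_lit 5) (nat_lit 4) (nat_lit 4) (nat_lit 2) (nat_lit 4) (nat_lit 375) (nat_lit 283) (nat_lit 242)) (XT.lf (nat_lit 0) (nat_lit 7065725346) (nat_lit 76) (nat_lit 165082794172) (nat_lit 76) (nat_lit 161919381910) (nat_lit 1) (nat_lit 4) (nat_lit 2) (nat_lit 5) (nat_lit 2) (nat_lit 4) (nat_lit 376) (nat_lit 283) (nat_lit 241)))) (XT.nd (nat_lit 156) (nat_lit 0) (nat_lit 0) (XT.nd (nat_lit 78) (nat_lit 0) (nat_lit 0) (XT.lf (nat_lit 0) (nat_lit 14669370899) (nat_lit 76) (nat_lit 174507392845) (nat_lit 76) (nat_lit 171334353146) (nat_lit 1) (nat_lit 4) (nat_lit 2) (nat_lit 5) (nat_lit 2) (nat_lit 4) (nat_lit 377) (nat_lit 283) (nat_lit 240)) (XT.lf (nat_lit 0) (nat_lit 22844481040) (nat_lit 76) (nat_lit 184704369593) (nat_lit 76) (nat_lit 181522415601) (nat_lit 1) (nat_lit 4) (nat_lit 2) (nat_lit 5) (nat_lit 2) (nat_lit 4) (nat_lit 378) (nat_lit 283) (nat_lit 239))) (XT.nd (nat_lit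 78) (nat_lit 0) (nat_lit 0) (XT.lf (nat_lit 0) (nat_lit 31639500868) (nat_lit 76) (nat_lit 195734150946) (nat_lit 76) (nat_lit 192543942978) (nat_lit 1) (nat_lit 4) (nat_lit 2) (nat_lit 5) (nat_lit 2) (nat_lit 4) (nat_lit 379) (nat_lit 283) (nat_lit 238)) (XT.lf (nat_lit 0) (nat_lit 41106549019) (nat_lit 76) (nat_lit 207662098570) (nat_lit 76) (nat_lit 204464248032) (nat_lit 1) (nat_lit 4) (nat_lit 2) (nat_lit 5) (nat_lit 2) (nat_lit 4) (nat_lit 380) (nat_lit 283) (nat_lit 237))))) (XT.nd (nat_lit 312) (nat_lit 0) (nat_lit 0) (XT.nd (nat_lit 156) (nat_lit 0) (nat_lit 0) (XT.nd (nat_lit 78) (nat_lit 0) (nat_lit 0) (XT.lf (nat_lit 0) (nat_lit 51301726518) (nat_lit 76) (nat_lit 220558896599) (nat_lit 76) (nat_lit 217353969607) (nat_lit 1) (nat_lit 4) (nat_lit 2) (nat_lit 5) (nat_lit 2) (nat_lit 4) (nat_lit 381) (nat_lit 283) (nat_lit 236)) (XT.lf (nat_lit 0) (nat_lit 62285449232) (nat_lit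 76) (nat_lit 234500970503) (nat_lit 76) (nat_lit 231289491240) (nat_lit 1) (nat_lit 4) (nat_lit 2) (nat_lit 5) (nat_lit 2) (nat_lit 4) (nat_lit 382) (nat_lit 283) (nat_lit 235))) (XT.nd (nat_lit 78) (nat_lit 0) (nat_lit 0) (XT.lf (nat_lit 0) (nat_lit 74122805889) (nat_lit 76) (nat_lit 249570939980) (nat_lit 76) (nat_lit 246353393798) (nat_lit 1) (nat_lit 4) (nat_lit 2) (nat_lit 5) (nat_lit 2) (nat_lit 4) (nat_lit 383) (nat_lit 283) (nat_lit 234)) (XT.lf (nat_lit 0) (nat_lit 86883943787) (nat_lit 76) (nat_lit 265858108552) (nat_lit 76) (nat_lit 262634944853) (nat_lit 1) (nat_lit 4) (nat_lit 2) (nat_lit 5) (nat_lit 2) (nat_lit 4) (nat_lit 384) (nat_lit 283) (nat_lit 233)))) (XT.nd (nat_lit 156) (nat_lit 0) (nat_lit 0) (XT.nd (nat_lit 78) (nat_lit 0) (nat_lit 0) (XT.lf (nat_lit 0) (nat_lit 100644484485) (nat_lit 76) (nat_lit 283458992774) (nat_lit 76) (nat_lit 280230627669) (nat_lit 1) (nat_lit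 4) (nat_lit 2) (nat_lit 5) (nat_lit 2) (nat_lit 4) (nat_lit 385) (nat_lit 283) (nat_lit 232)) (XT.lf (nat_lit 0) (nat_lit 115485971926) (nat_lit 76) (nat_lit 302477894181) (nat_lit 76) (nat_lit 299244712961) (nat_lit 1) (nat_lit 4) (nat_lit 2) (nat_lit 5) (nat_lit 2) (nat_lit 4) (nat_lit 386) (nat_lit 283) (nat_lit 231))) (XT.nd (nat_lit 78) (nat_lit 0) (nat_lit 0) (XT.lf (nat_lit 0) (nat_lit 131496355666) (nat_lit 76) (nat_lit 323027517375) (nat_lit 76) (nat_lit 319789876789) (nat_lit 1) (nat_lit 4) (nat_lit 2) (nat_lit 5) (nat_lit 2) (nat_lit 4) (nat_lit 387) (nat_lit 283) (nat_lit 230)) (XT.nd (nat_lit 78) (nat_lit 0) (nat_lit 0) (XT.lf (nat_lit 0) (nat_lit 148770512053) (nat_lit 76) (nat_lit 345229637901) (nat_lit 76) (nat_lit 341987868272) (nat_lit 1) (nat_lit 4) (nat_lit 2) (nat_lit 5) (nat_lit 2) (nat_lit 4) (nat_lit 388) (nat_lit 283) (nat_lit 229)) (XT.lf (nat_lit 0) (nat_lit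 167410806459) (nat_lit 76) (nat_lit 369215823880) (nat_lit 76) (nat_lit 365970231064) (nat_lit 1) (nat_lit 4) (nat_lit 2) (nat_lit 5) (nat_lit 2) (nat_lit 4) (nat_lit 389) (nat_lit 283) (nat_lit 228))))))))
noncomputable def xc49 : XT := (XT.nd (nat_lit 1326) (nat_lit 0) (nat_lit 0) (XT.nd (nat_lit 624) (nat_lit 0) (nat_lit 0) (XT.nd (nat_lit 312) (nat_lit 0) (nat_lit 0) (XT.nd (nat_lit 156) (nat_lit 0) (nat_lit 0) (XT.nd (nat_lit 78) (nat_lit 0) (nat_lit 0) (XT.lf (nat_lit 0) (nat_lit 187527699888) (nat_lit 76) (nat_lit 395128215674) (nat_lit 76) (nat_lit 391879082868) (nat_lit 1) (nat_lit 4) (nat_lit 2) (nat_lit 5) (nat_lit 2) (nat_lit 4) (nat_lit 390) (nat_lit 283) (nat_lit 227)) (XT.lf (nat_lit 0) (nat_lit 209240403559) (nat_lit 76) (nat_lit 423120368196) (nat_lit 76) (nat_lit 419867957624) (nat_lit 1) (nat_lit 4) (nat_lit 2) (nat_lit 5) (nat_lit 2) (nat_lit 4) (nat_lit 391) (nat_lit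 283) (nat_lit 226))) (XT.nd (nat_lit 78) (nat_lit 0) (nat_lit 0) (XT.lf (nat_lit 0) (nat_lit 232677585346) (nat_lit 76) (nat_lit 453358160870) (nat_lit 76) (nat_lit 450102715328) (nat_lit 1) (nat_lit 4) (nat_lit 2) (nat_lit 5) (nat_lit 2) (nat_lit 4) (nat_lit 392) (nat_lit 283) (nat_lit 225)) (XT.lf (nat_lit 0) (nat_lit 257978132252) (nat_lit 76) (nat_lit 486020780615) (nat_lit 76) (nat_lit 482762524915) (nat_lit 1) (nat_lit 4) (nat_lit 2) (nat_lit 5) (nat_lit 2) (nat_lit 4) (nat_lit 393) (nat_lit 283) (nat_lit 224)))) (XT.nd (nat_lit 156) (nat_lit 0) (nat_lit 0) (XT.nd (nat_lit 78) (nat_lit 0) (nat_lit 0) (XT.lf (nat_lit 0) (nat_lit 285291973445) (nat_lit 76) (nat_lit 521301783696) (nat_lit 76) (nat_lit 518040925999) (nat_lit 1) (nat_lit 4) (nat_lit 2) (nat_lit 5) (nat_lit 2) (nat_lit 4) (nat_lit 394) (nat_lit 283) (nat_lit 223)) (XT.lf (nat_lit 0) (nat_lit 314780968724) (nat_lit 76)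 (nat_lit 559410242723) (nat_lit 76) (nat_lit 556146975770) (nat_lit 1) (nat_lit 4) (nat_lit 2) (nat_lit 5) (nat_lit 2) (nat_lit 4) (nat_lit 395) (nat_lit 283) (nat_lit 222))) (XT.nd (nat_lit 78) (nat_lit 0) (nat_lit 0) (XT.lf (nat_lit 0) (nat_lit 346619867690) (nat_lit 76) (nat_lit 600571985603) (nat_lit 76) (nat_lit 597306487856) (nat_lit 1) (nat_lit 4) (nat_lit 2) (nat_lit 5) (nat_lit 2) (nat_lit 4) (nat_lit 396) (nat_lit 283) (nat_lit 221)) (XT.lf (nat_lit 0) (nat_lit 380997345301) (nat_lit 76) (nat_lit 645030933774) (nat_lit 76) (nat_lit 641763370478) (nat_lit 1) (nat_lit 4) (nat_lit 2) (nat_lit 5) (nat_lit 2) (nat_lit 4) (nat_lit 397) (nat_lit 283) (nat_lit 220))))) (XT.nd (nat_lit 312) (nat_lit 0) (nat_lit 0) (XT.nd (nat_lit 156) (nat_lit 0) (nat_lit 0) (XT.nd (nat_lit 78) (nat_lit 0) (nat_lit 0) (XT.lf (nat_lit 0) (nat_lit 418117119942) (nat_lit 76) (nat_lit 693050547671) (nat_lit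 76) (nat_lit 689781071828) (nat_lit 1) (nat_lit 4) (nat_lit 2) (nat_lit 5) (nat_lit 2) (nat_lit 4) (nat_lit 398) (nat_lit 283) (nat_lit 219)) (XT.lf (nat_lit 0) (nat_lit 458199160649) (nat_lit 76) (nat_lit 744915387967) (nat_lit 76) (nat_lit 741644141249) (nat_lit 1) (nat_lit 4) (nat_lit 2) (nat_lit 5) (nat_lit 2) (nat_lit 4) (nat_lit 399) (nat_lit 283) (nat_lit 218))) (XT.nd (nat_lit 78) (nat_lit 0) (nat_lit 0) (XT.lf (nat_lit 0) (nat_lit 501480990624) (nat_lit 76) (nat_lit 800932801865) (nat_lit 76) (nat_lit 797659915447) (nat_lit 1) (nat_lit 4) (nat_lit 2) (nat_lit 5) (nat_lit 2) (nat_lit 4) (nat_lit 400) (nat_lit 283) (nat_lit 217)) (XT.lf (nat_lit 0) (nat_lit 548219094788) (nat_lit 76) (nat_lit 861434744410) (nat_lit 76) (nat_lit 858160339752) (nat_lit 1) (nat_lit 4) (nat_lit 2) (nat_lit 5) (nat_lit 2) (nat_lit 4) (nat_lit 401) (nat_lit 283) (nat_lit 216)))) (XT.nd (nat_lit 156) (nat_lit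 0) (nat_lit 0) (XT.nd (nat_lit 78) (nat_lit 0) (nat_lit 0) (XT.lf (nat_lit 0) (nat_lit 598690439682) (nat_lit 76) (nat_lit 926779745632) (nat_lit 76) (nat_lit 923503935196) (nat_lit 1) (nat_lit 4) (nat_lit 2) (nat_lit 5) (nat_lit 2) (nat_lit 4) (nat_lit 402) (nat_lit 283) (nat_lit 215)) (XT.lf (nat_lit 0) (nat_lit 653194114758) (nat_lit 76) (nat_lit 997355035169) (nat_lit 76) (nat_lit 994077923086) (nat_lit 1) (nat_lit 4) (nat_lit 2) (nat_lit 5) (nat_lit 2) (nat_lit 4) (nat_lit 403) (nat_lit 283) (nat_lit 214))) (XT.nd (nat_lit 78) (nat_lit 0) (nat_lit 0) (XT.lf (nat_lit 0) (nat_lit 712053104758) (nat_lit 76) (nat_lit 1073578836957) (nat_lit 76) (nat_lit 1070300519645) (nat_lit 1) (nat_lit 4) (nat_lit 2) (nat_lit 5) (nat_lit 2) (nat_lit 4) (nat_lit 404) (nat_lit 283) (nat_lit 213)) (XT.nd (nat_lit 78) (nat_lit 0) (nat_lit 0) (XT.lf (nat_lit 0) (nat_lit 775616203696) (nat_lit 76) (nat_lit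 1155902847600) (nat_lit 76) (nat_lit 1152623414336) (nat_lit 1) (nat_lit 4) (nat_lit 2) (nat_lit 5) (nat_lit 2) (nat_lit 4) (nat_lit 405) (nat_lit 283) (nat_lit 212)) (XT.lf (nat_lit 0) (nat_lit 844260081788) (nat_lit 76) (nat_lit 1244814913087) (nat_lit 76) (nat_lit 1241534446534) (nat_lit 1) (nat_lit 4) (nat_lit 2) (nat_lit 5) (nat_lit 2) (nat_lit 4) (nat_lit 406) (nat_lit 283) (nat_lit 211))))))) (XT.nd (nat_lit 41028) (nat_lit 0) (nat_lit 532) (XT.nd (nat_lit 312) (nat_lit 0) (nat_lit 0) (XT.nd (nat_lit 156) (nat_lit 0) (nat_lit 0) (XT.nd (nat_lit 78) (nat_lit 0) (nat_lit 0) (XT.lf (nat_lit 0) (nat_lit 918391517571) (nat_lit 76) (nat_lit 1340841919732) (nat_lit 76) (nat_lit 1337560496431) (nat_lit 1) (nat_lit 4) (nat_lit 2) (nat_lit 5) (nat_lit 2) (nat_lit 4) (nat_lit 407) (nat_lit 283) (nat_lit 210)) (XT.lf (nat_lit 0) (nat_lit 998449808443) (nat_lit 76) (nat_lit 1444552916463) (nat_lit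 76) (nat_lit 1441270607283) (nat_lit 1) (nat_lit 4) (nat_lit 2) (nat_lit 5) (nat_lit 2) (nat_lit 4) (nat_lit 408) (nat_lit 283) (nat_lit 209))) (XT.nd (nat_lit 78) (nat_lit 0) (nat_lit 0) (XT.lf (nat_lit 0) (nat_lit 1084909373903) (nat_lit 76) (nat_lit 1556562486965) (nat_lit 76) (nat_lit 1553279357527) (nat_lit 1) (nat_lit 4) (nat_lit 2) (nat_lit 5) (nat_lit 2) (nat_lit 4) (nat_lit 409) (nat_lit 283) (nat_lit 208)) (XT.lf (nat_lit 0) (nat_lit 1178282566934) (nat_lit 76) (nat_lit 1677534391656) (nat_lit 76) (nat_lit 1674250502720) (nat_lit 1) (nat_lit 4) (nat_lit 2) (nat_lit 5) (nat_lit 2) (nat_lit 4) (nat_lit 410) (nat_lit 283) (nat_lit 207)))) (XT.nd (nat_lit 156) (nat_lit 0) (nat_lit 0) (XT.nd (nat_lit 78) (nat_lit 0) (nat_lit 0) (XT.lf (nat_lit 0) (nat_lit 1279122710161) (nat_lit 76) (nat_lit 1808185501081) (nat_lit 76) (nat_lit 1804900908906) (nat_lit 1) (nat_lit 4) (nat_lit 2) (nat_lit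 5) (nat_lit 2) (nat_lit 4) (nat_lit 411) (nat_lit 283) (nat_lit 206)) (XT.lf (nat_lit 0) (nat_lit 1388027374802) (nat_lit 76) (nat_lit 1949290044038) (nat_lit 76) (nat_lit 1946004800715) (nat_lit 1) (nat_lit 4) (nat_lit 2) (nat_lit 5) (nat_lit 2) (nat_lit 4) (nat_lit 412) (nat_lit 283) (nat_lit 205))) (XT.nd (nat_lit 78) (nat_lit 0) (nat_lit 0) (XT.lf (nat_lit 0) (nat_lit 1505641921833) (nat_lit 76) (nat_lit 2101684195595) (nat_lit 76) (nat_lit 2098398349358) (nat_lit 1) (nat_lit 4) (nat_lit 2) (nat_lit 5) (nat_lit 2) (nat_lit 4) (nat_lit 413) (nat_lit 283) (nat_lit 204)) (XT.lf (nat_lit 0) (nat_lit 1632663326348) (nat_lit 76) (nat_lit 2266271032207) (nat_lit 76) (nat_lit 2262984627716) (nat_lit 1) (nat_lit 4) (nat_lit 2) (nat_lit 5) (nat_lit 2) (nat_lit 4) (nat_lit 414) (nat_lit 283) (nat_lit 203))))) (XT.nd (nat_lit 312) (nat_lit 228) (nat_lit 0) (XT.nd (nat_lit 156) (nat_lit 152) (nat_lit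 0) (XT.nd (nat_lit 78) (nat_lit 76) (nat_lit 0) (XT.lf (nat_lit 0) (nat_lit 1839447040) (nat_lit 152) (nat_lit 4377721944) (nat_lit 0) (nat_lit 1839447040) (nat_lit 14) (nat_lit 5) (nat_lit 16) (nat_lit 4) (nat_lit 14) (nat_lit 4) (nat_lit 332) (nat_lit 284) (nat_lit 284)) (XT.lf (nat_lit 0) (nat_lit 967331938) (nat_lit 76) (nat_lit 8173264585) (nat_lit 76) (nat_lit 7814815725) (nat_lit 13) (nat_lit 4) (nat_lit 14) (nat_lit 5) (nat_lit 14) (nat_lit 4) (nat_lit 333) (nat_lit 284) (nat_lit 283))) (XT.nd (nat_lit 78) (nat_lit 152) (nat_lit 0) (XT.lf (nat_lit 0) (nat_lit 11433370848) (nat_lit 76) (nat_lit 3562756656) (nat_lit 76) (nat_lit 2872410703) (nat_lit 13) (nat_lit 4) (nat_lit 14) (nat_lit 5) (nat_lit 14) (nat_lit 4) (nat_lit 334) (nat_lit 284) (nat_lit 282)) (XT.lf (nat_lit 0) (nat_lit 2189564657) (nat_lit 152) (nat_lit 15406903691) (nat_lit 0) (nat_lit 1265807179) (nat_lit 11) (nat_lit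 5) (nat_lit 13) (nat_lit 4) (nat_lit 11) (nat_lit 4) (nat_lit 335) (nat_lit 284) (nat_lit 281)))) (XT.nd (nat_lit 156) (nat_lit 152) (nat_lit 0) (XT.nd (nat_lit 78) (nat_lit 76) (nat_lit 0) (XT.lf (nat_lit 0) (nat_lit 7508266637) (nat_lit 152) (nat_lit 6099779160) (nat_lit 0) (nat_lit 6321038546) (nat_lit 11) (nat_lit 5) (nat_lit 13) (nat_lit 4) (nat_lit 11) (nat_lit 4) (nat_lit 336) (nat_lit 284) (nat_lit 280)) (XT.lf (nat_lit 0) (nat_lit 3663167576) (nat_lit 76) (nat_lit 9431003190) (nat_lit 76) (nat_lit 7999820827) (nat_lit 10) (nat_lit 4) (nat_lit 11) (nat_lit 5) (nat_lit 11) (nat_lit 4) (nat_lit 337) (nat_lit 284) (nat_lit 279))) (XT.nd (nat_lit 78) (nat_lit 152) (nat_lit 0) (XT.lf (nat_lit 0) (nat_lit 14094004887) (nat_lit 76) (nat_lit 4960515096) (nat_lit 76) (nat_lit 3303449148) (nat_lit 10) (nat_lit 4) (nat_lit 11) (nat_lit 5) (nat_lit 11) (nat_lit 4) (nat_lit 338) (nat_lit 284)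 (nat_lit 278)) (XT.nd (nat_lit 78) (nat_lit 0) (nat_lit 0) (XT.lf (nat_lit 0) (nat_lit 1216556613) (nat_lit 76) (nat_lit 265546284) (nat_lit 152) (nat_lit 22253475151) (nat_lit 8) (nat_lit 5) (nat_lit 9) (nat_lit 5) (nat_lit 10) (nat_lit 4) (nat_lit 339) (nat_lit 284) (nat_lit 277)) (XT.lf (nat_lit 0) (nat_lit 6593706776) (nat_lit 152) (nat_lit 13926742503) (nat_lit 0) (nat_lit 4686414016) (nat_lit 8) (nat_lit 5) (nat_lit 10) (nat_lit 4) (nat_lit 8) (nat_lit 4) (nat_lit 340) (nat_lit 284) (nat_lit 276))))))))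
noncomputable def xc50 : XT := (XT.nd (nat_lit 1326) (nat_lit 0) (nat_lit 0) (XT.nd (nat_lit 624) (nat_lit 228) (nat_lit 0) (XT.nd (nat_lit 312) (nat_lit 152) (nat_lit 0) (XT.nd (nat_lit 156) (nat_lit 0) (nat_lit 0) (XT.nd (nat_lit 78) (nat_lit 76) (nat_lit 0) (XT.lf (nat_lit 0) (nat_lit 11912153477) (nat_lit 152) (nat_lit 5061096580) (nat_lit 0) (nat_lit 9838829540) (nat_lit 8) (nat_lit 5) (nat_lit 10) (nat_lit 4) (nat_lit 8) (nat_lit 4) (nat_lit 341) (nat_lit 284) (nat_lit 275)) (XT.lf (nat_lit 0) (nat_lit 4354678545) (nat_lit 76) (nat_lit 13212624906) (nat_lit 76) (nat_lit 10985568396) (nat_lit 7) (nat_lit 4) (nat_lit 8) (nat_lit 5) (nat_lit 8) (nat_lit 4) (nat_lit 342) (nat_lit 284) (nat_lit 274))) (XT.nd (nat_lit 78) (nat_lit 0) (nat_lit 0) (XT.lf (nat_lit 0) (nat_lit 14444126922) (nat_lit 76) (nat_lit 9181112382) (nat_lit 76) (nat_lit 6811710898) (nat_lit 7) (nat_lit 4) (nat_lit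 8) (nat_lit 5) (nat_lit 8) (nat_lit 4) (nat_lit 343) (nat_lit 284) (nat_lit 273)) (XT.lf (nat_lit 0) (nat_lit 25000529494) (nat_lit 76) (nat_lit 4993201393) (nat_lit 76) (nat_lit 2491999007) (nat_lit 7) (nat_lit 4) (nat_lit 8) (nat_lit 5) (nat_lit 8) (nat_lit 4) (nat_lit 344) (nat_lit 284) (nat_lit 272)))) (XT.nd (nat_lit 156) (nat_lit 0) (nat_lit 0) (XT.nd (nat_lit 78) (nat_lit 0) (nat_lit 0) (XT.lf (nat_lit 0) (nat_lit 1396888945) (nat_lit 76) (nat_lit 535865479) (nat_lit 152) (nat_lit 32772063399) (nat_lit 5) (nat_lit 5) (nat_lit 6) (nat_lit 5) (nat_lit 7) (nat_lit 4) (nat_lit 345) (nat_lit 284) (nat_lit 271)) (XT.lf (nat_lit 0) (nat_lit 6725244024) (nat_lit 152) (nat_lit 26167488135) (nat_lit 0) (nat_lit 4191690053) (nat_lit 5) (nat_lit 5) (nat_lit 7) (nat_lit 4) (nat_lit 5) (nat_lit 4) (nat_lit 346) (nat_lit 284) (nat_lit 270))) (XT.nd (nat_lit 78) (nat_lit 0) (nat_lit 0) (XT.lf (nat_lit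 0) (nat_lit 11762761311) (nat_lit 152) (nat_lit 18770409437) (nat_lit 0) (nat_lit 9132329743) (nat_lit 5) (nat_lit 5) (nat_lit 7) (nat_lit 4) (nat_lit 5) (nat_lit 4) (nat_lit 347) (nat_lit 284) (nat_lit 269)) (XT.lf (nat_lit 0) (nat_lit 17062270664) (nat_lit 152) (nat_lit 11059970668) (nat_lit 0) (nat_lit 14342137616) (nat_lit 5) (nat_lit 5) (nat_lit 7) (nat_lit 4) (nat_lit 5) (nat_lit 4) (nat_lit 348) (nat_lit 284) (nat_lit 268))))) (XT.nd (nat_lit 312) (nat_lit 152) (nat_lit 0) (XT.nd (nat_lit 156) (nat_lit 0) (nat_lit 0) (XT.nd (nat_lit 78) (nat_lit 76) (nat_lit 0) (XT.lf (nat_lit 0) (nat_lit 22655176583) (nat_lit 152) (nat_lit 2990480338) (nat_lit 0) (nat_lit 19851986609) (nat_lit 5) (nat_lit 5) (nat_lit 7) (nat_lit 4) (nat_lit 5) (nat_lit 4) (nat_lit 349) (nat_lit 284) (nat_lit 267)) (XT.lf (nat_lit 0) (nat_lit 5774757512) (nat_lit 76) (nat_lit 22938747757) (nat_lit 76) (nat_lit 20058653223)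 (nat_lit 4) (nat_lit 4) (nat_lit 5) (nat_lit 5) (nat_lit 5) (nat_lit 4) (nat_lit 350) (nat_lit 284) (nat_lit 266))) (XT.nd (nat_lit 78) (nat_lit 0) (nat_lit 0) (XT.lf (nat_lit 0) (nat_lit 15178639940) (nat_lit 76) (nat_lit 20042092465) (nat_lit 76) (nat_lit 17090790005) (nat_lit 4) (nat_lit 4) (nat_lit 5) (nat_lit 5) (nat_lit 5) (nat_lit 4) (nat_lit 351) (nat_lit 284) (nat_lit 265)) (XT.lf (nat_lit 0) (nat_lit 25119420261) (nat_lit 76) (nat_lit 17020290713) (nat_lit 76) (nat_lit 14003054988) (nat_lit 4) (nat_lit 4) (nat_lit 5) (nat_lit 5) (nat_lit 5) (nat_lit 4) (nat_lit 352) (nat_lit 284) (nat_lit 264)))) (XT.nd (nat_lit 156) (nat_lit 152) (nat_lit 0) (XT.nd (nat_lit 78) (nat_lit 0) (nat_lit 0) (XT.lf (nat_lit 0) (nat_lit 35656006802) (nat_lit 76) (nat_lit 13855435527) (nat_lit 76) (nat_lit 10777150482) (nat_lit 4) (nat_lit 4) (nat_lit 5) (nat_lit 5) (nat_lit 5) (nat_lit 4) (nat_lit 353)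 (nat_lit 284) (nat_lit 263)) (XT.lf (nat_lit 0) (nat_lit 46850838594) (nat_lit 76) (nat_lit 10528772210) (nat_lit 76) (nat_lit 7393960018) (nat_lit 4) (nat_lit 4) (nat_lit 5) (nat_lit 5) (nat_lit 5) (nat_lit 4) (nat_lit 354) (nat_lit 284) (nat_lit 262))) (XT.nd (nat_lit 78) (nat_lit 152) (nat_lit 0) (XT.lf (nat_lit 0) (nat_lit 58770255383) (nat_lit 76) (nat_lit 7020587202) (nat_lit 76) (nat_lit 3833435058) (nat_lit 4) (nat_lit 4) (nat_lit 5) (nat_lit 5) (nat_lit 5) (nat_lit 4) (nat_lit 355) (nat_lit 284) (nat_lit 261)) (XT.nd (nat_lit 78) (nat_lit 152) (nat_lit 0) (XT.lf (nat_lit 0) (nat_lit 71484890748) (nat_lit 76) (nat_lit 3310091257) (nat_lit 76) (nat_lit 74476195) (nat_lit 4) (nat_lit 4) (nat_lit 5) (nat_lit 5) (nat_lit 5) (nat_lit 4) (nat_lit 356) (nat_lit 284) (nat_lit 260)) (XT.lf (nat_lit 0) (nat_lit 3842522133) (nat_lit 152) (nat_lit 75874511497) (nat_lit 0) (nat_lit 805033120)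 (nat_lit 2) (nat_lit 5) (nat_lit 4) (nat_lit 4) (nat_lit 2) (nat_lit 4) (nat_lit 357) (nat_lit 284) (nat_lit 259))))))) (XT.nd (nat_lit 624) (nat_lit 0) (nat_lit 0) (XT.nd (nat_lit 312) (nat_lit 0) (nat_lit 0) (XT.nd (nat_lit 156) (nat_lit 0) (nat_lit 0) (XT.nd (nat_lit 78) (nat_lit 0) (nat_lit 0) (XT.lf (nat_lit 0) (nat_lit 8174117446) (nat_lit 152) (nat_lit 73346048142) (nat_lit 0) (nat_lit 5098157006) (nat_lit 2) (nat_lit 5) (nat_lit 4) (nat_lit 4) (nat_lit 2) (nat_lit 4) (nat_lit 358) (nat_lit 284) (nat_lit 258)) (XT.lf (nat_lit 0) (nat_lit 12782185439) (nat_lit 152) (nat_lit 70755107726) (nat_lit 0) (nat_lit 9670603307) (nat_lit 2) (nat_lit 5) (nat_lit 4) (nat_lit 4) (nat_lit 2) (nat_lit 4) (nat_lit 359) (nat_lit 284) (nat_lit 257))) (XT.nd (nat_lit 78) (nat_lit 0) (nat_lit 0) (XT.lf (nat_lit 0) (nat_lit 17694033181) (nat_lit 152) (nat_lit 68086336529) (nat_lit 0) (nat_lit 14549468001)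 (nat_lit 2) (nat_lit 5) (nat_lit 4) (nat_lit 4) (nat_lit 2) (nat_lit 4) (nat_lit 360) (nat_lit 284) (nat_lit 256)) (XT.lf (nat_lit 0) (nat_lit 22938767919) (nat_lit 152) (nat_lit 65323919610) (nat_lit 0) (nat_lit 19763662880) (nat_lit 2) (nat_lit 5) (nat_lit 4) (nat_lit 4) (nat_lit 2) (nat_lit 4) (nat_lit 361) (nat_lit 284) (nat_lit 255)))) (XT.nd (nat_lit 156) (nat_lit 0) (nat_lit 0) (XT.nd (nat_lit 78) (nat_lit 0) (nat_lit 0) (XT.lf (nat_lit 0) (nat_lit 28547469561) (nat_lit 152) (nat_lit 62451487092) (nat_lit 0) (nat_lit 25344086875) (nat_lit 2) (nat_lit 5) (nat_lit 4) (nat_lit 4) (nat_lit 2) (nat_lit 4) (nat_lit 362) (nat_lit 284) (nat_lit 254)) (XT.lf (nat_lit 0) (nat_lit 34553374859) (nat_lit 152) (nat_lit 59452017153) (nat_lit 0) (nat_lit 31323809166) (nat_lit 2) (nat_lit 5) (nat_lit 4) (nat_lit 4) (nat_lit 2) (nat_lit 4) (nat_lit 363) (nat_lit 284) (nat_lit 253))) (XT.nd (nat_lit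 78) (nat_lit 0) (nat_lit 0) (XT.lf (nat_lit 0) (nat_lit 40992074363) (nat_lit 152) (nat_lit 56307735155) (nat_lit 0) (nat_lit 37738265145) (nat_lit 2) (nat_lit 5) (nat_lit 4) (nat_lit 4) (nat_lit 2) (nat_lit 4) (nat_lit 364) (nat_lit 284) (nat_lit 252)) (XT.lf (nat_lit 0) (nat_lit 47901723328) (nat_lit 152) (nat_lit 53000008316) (nat_lit 0) (nat_lit 44625466402) (nat_lit 2) (nat_lit 5) (nat_lit 4) (nat_lit 4) (nat_lit 2) (nat_lit 4) (nat_lit 365) (nat_lit 284) (nat_lit 251))))) (XT.nd (nat_lit 312) (nat_lit 0) (nat_lit 0) (XT.nd (nat_lit 156) (nat_lit 0) (nat_lit 0) (XT.nd (nat_lit 78) (nat_lit 0) (nat_lit 0) (XT.lf (nat_lit 0) (nat_lit 55323267823) (nat_lit 152) (nat_lit 49509235292) (nat_lit 0) (nat_lit 52026225982) (nat_lit 2) (nat_lit 5) (nat_lit 4) (nat_lit 4) (nat_lit 2) (nat_lit 4) (nat_lit 366) (nat_lit 284) (nat_lit 250)) (XT.lf (nat_lit 0) (nat_lit 63300687370) (nat_lit 152)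 (nat_lit 45814730021) (nat_lit 0) (nat_lit 59984400237) (nat_lit 2) (nat_lit 5) (nat_lit 4) (nat_lit 4) (nat_lit 2) (nat_lit 4) (nat_lit 367) (nat_lit 284) (nat_lit 249))) (XT.nd (nat_lit 78) (nat_lit 0) (nat_lit 0) (XT.lf (nat_lit 0) (nat_lit 71881255567) (nat_lit 152) (nat_lit 41894599138) (nat_lit 0) (nat_lit 68547148720) (nat_lit 2) (nat_lit 5) (nat_lit 4) (nat_lit 4) (nat_lit 2) (nat_lit 4) (nat_lit 368) (nat_lit 284) (nat_lit 248)) (XT.lf (nat_lit 0) (nat_lit 81115820225) (nat_lit 152) (nat_lit 37725612237) (nat_lit 0) (nat_lit 77765213643) (nat_lit 2) (nat_lit 5) (nat_lit 4) (nat_lit 4) (nat_lit 2) (nat_lit 4) (nat_lit 369) (nat_lit 284) (nat_lit 247)))) (XT.nd (nat_lit 156) (nat_lit 0) (nat_lit 0) (XT.nd (nat_lit 78) (nat_lit 0) (nat_lit 0) (XT.lf (nat_lit 0) (nat_lit 91059104691) (nat_lit 152) (nat_lit 33283064212) (nat_lit 0) (nat_lit 87693220576) (nat_lit 2) (nat_lit 5) (nat_lit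 4) (nat_lit 4) (nat_lit 2) (nat_lit 4) (nat_lit 370) (nat_lit 284) (nat_lit 246)) (XT.lf (nat_lit 0) (nat_lit 101770032132) (nat_lit 152) (nat_lit 28540628852) (nat_lit 0) (nat_lit 98390002153) (nat_lit 2) (nat_lit 5) (nat_lit 4) (nat_lit 4) (nat_lit 2) (nat_lit 4) (nat_lit 371) (nat_lit 284) (nat_lit 245))) (XT.nd (nat_lit 78) (nat_lit 0) (nat_lit 0) (XT.lf (nat_lit 0) (nat_lit 113312074710) (nat_lit 152) (nat_lit 23470202837) (nat_lit 0) (nat_lit 109918946709) (nat_lit 2) (nat_lit 5) (nat_lit 4) (nat_lit 4) (nat_lit 2) (nat_lit 4) (nat_lit 372) (nat_lit 284) (nat_lit 244)) (XT.nd (nat_lit 78) (nat_lit 0) (nat_lit 0) (XT.lf (nat_lit 0) (nat_lit 125753629715) (nat_lit 152) (nat_lit 18041739196) (nat_lit 0) (nat_lit 122348373915) (nat_lit 2) (nat_lit 5) (nat_lit 4) (nat_lit 4) (nat_lit 2) (nat_lit 4) (nat_lit 373) (nat_lit 284) (nat_lit 243)) (XT.lf (nat_lit 0) (nat_lit 139168424879) (nat_lit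 152) (nat_lit 12223069257) (nat_lit 0) (nat_lit 135751939637) (nat_lit 2) (nat_lit 5) (nat_lit 4) (nat_lit 4) (nat_lit 2) (nat_lit 4) (nat_lit 374) (nat_lit 284) (nat_lit 242))))))))
noncomputable def xc51 : XT := (XT.nd (nat_lit 1326) (nat_lit 0) (nat_lit 0) (XT.nd (nat_lit 624) (nat_lit 0) (nat_lit 0) (XT.nd (nat_lit 312) (nat_lit 0) (nat_lit 0) (XT.nd (nat_lit 156) (nat_lit 0) (nat_lit 0) (XT.nd (nat_lit 78) (nat_lit 76) (nat_lit 0) (XT.lf (nat_lit 0) (nat_lit 153635955287) (nat_lit 152) (nat_lit 5979712013) (nat_lit 0) (nat_lit 150209072412) (nat_lit 2) (nat_lit 5) (nat_lit 4) (nat_lit 4) (nat_lit 2) (nat_lit 4) (nat_lit 375) (nat_lit 284) (nat_lit 241)) (XT.lf (nat_lit 0) (nat_lit 763524812) (nat_lit 76) (nat_lit 168496792428) (nat_lit 76) (nat_lit 165060282116) (nat_lit 1) (nat_lit 4) (nat_lit 2) (nat_lit 5) (nat_lit 2) (nat_lit 4) (nat_lit 376) (nat_lit 284) (nat_lit 240))) (XT.nd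 (nat_lit 78) (nat_lit 0) (nat_lit 0) (XT.lf (nat_lit 0) (nat_lit 8349465049) (nat_lit 76) (nat_lit 177930242150) (nat_lit 76) (nat_lit 174484817544) (nat_lit 1) (nat_lit 4) (nat_lit 2) (nat_lit 5) (nat_lit 2) (nat_lit 4) (nat_lit 377) (nat_lit 284) (nat_lit 239)) (XT.lf (nat_lit 0) (nat_lit 16508181381) (nat_lit 76) (nat_lit 188135414314) (nat_lit 76) (nat_lit 184681735733) (nat_lit 1) (nat_lit 4) (nat_lit 2) (nat_lit 5) (nat_lit 2) (nat_lit 4) (nat_lit 378) (nat_lit 284) (nat_lit 238)))) (XT.nd (nat_lit 156) (nat_lit 0) (nat_lit 0) (XT.nd (nat_lit 78) (nat_lit 0) (nat_lit 0) (XT.lf (nat_lit 0) (nat_lit 25288021755) (nat_lit 76) (nat_lit 199172784014) (nat_lit 76) (nat_lit 195711462863) (nat_lit 1) (nat_lit 4) (nat_lit 2) (nat_lit 5) (nat_lit 2) (nat_lit 4) (nat_lit 379) (nat_lit 284) (nat_lit 237)) (XT.lf (nat_lit 0) (nat_lit 34741014856) (nat_lit 76) (nat_lit 211107757886) (nat_lit 76)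 (nat_lit 207639360281) (nat_lit 1) (nat_lit 4) (nat_lit 2) (nat_lit 5) (nat_lit 2) (nat_lit 4) (nat_lit 380) (nat_lit 284) (nat_lit 236))) (XT.nd (nat_lit 78) (nat_lit 0) (nat_lit 0) (XT.lf (nat_lit 0) (nat_lit 44923178420) (nat_lit 76) (nat_lit 224011061700) (nat_lit 76) (nat_lit 220536111823) (nat_lit 1) (nat_lit 4) (nat_lit 2) (nat_lit 5) (nat_lit 2) (nat_lit 4) (nat_lit 381) (nat_lit 284) (nat_lit 235)) (XT.lf (nat_lit 0) (nat_lit 55894851195) (nat_lit 76) (nat_lit 237959159479) (nat_lit 76) (nat_lit 234478142684) (nat_lit 1) (nat_lit 4) (nat_lit 2) (nat_lit 5) (nat_lit 2) (nat_lit 4) (nat_lit 382) (nat_lit 284) (nat_lit 234))))) (XT.nd (nat_lit 312) (nat_lit 0) (nat_lit 0) (XT.nd (nat_lit 156) (nat_lit 0) (nat_lit 0) (XT.nd (nat_lit 78) (nat_lit 0) (nat_lit 0) (XT.lf (nat_lit 0) (nat_lit 67721050500) (nat_lit 76) (nat_lit 253034706618) (nat_lit 76) (nat_lit 249548072305) (nat_lit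 1) (nat_lit 4) (nat_lit 2) (nat_lit 5) (nat_lit 2) (nat_lit 4) (nat_lit 383) (nat_lit 284) (nat_lit 233)) (XT.lf (nat_lit 0) (nat_lit 80471857517) (nat_lit 76) (nat_lit 269327039692) (nat_lit 76) (nat_lit 265835203974) (nat_lit 1) (nat_lit 4) (nat_lit 2) (nat_lit 5) (nat_lit 2) (nat_lit 4) (nat_lit 384) (nat_lit 284) (nat_lit 232))) (XT.nd (nat_lit 78) (nat_lit 0) (nat_lit 0) (XT.lf (nat_lit 0) (nat_lit 94222832584) (nat_lit 76) (nat_lit 286932705860) (nat_lit 76) (nat_lit 283436054027) (nat_lit 1) (nat_lit 4) (nat_lit 2) (nat_lit 5) (nat_lit 2) (nat_lit 4) (nat_lit 385) (nat_lit 284) (nat_lit 231)) (XT.lf (nat_lit 0) (nat_lit 109055462959) (nat_lit 76) (nat_lit 305956034995) (nat_lit 76) (nat_lit 302454923796) (nat_lit 1) (nat_lit 4) (nat_lit 2) (nat_lit 5) (nat_lit 2) (nat_lit 4) (nat_lit 386) (nat_lit 284) (nat_lit 230)))) (XT.nd (nat_lit 156) (nat_lit 0) (nat_lit 0) (XT.nd (nat_lit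 78) (nat_lit 0) (nat_lit 0) (XT.lf (nat_lit 0) (nat_lit 125057645713) (nat_lit 76) (nat_lit 326509757937) (nat_lit 76) (nat_lit 323004517695) (nat_lit 1) (nat_lit 4) (nat_lit 2) (nat_lit 5) (nat_lit 2) (nat_lit 4) (nat_lit 387) (nat_lit 284) (nat_lit 229)) (XT.lf (nat_lit 0) (nat_lit 142324208594) (nat_lit 76) (nat_lit 348715674526) (nat_lit 76) (nat_lit 345206611096) (nat_lit 1) (nat_lit 4) (nat_lit 2) (nat_lit 5) (nat_lit 2) (nat_lit 4) (nat_lit 388) (nat_lit 284) (nat_lit 228))) (XT.nd (nat_lit 78) (nat_lit 0) (nat_lit 0) (XT.lf (nat_lit 0) (nat_lit 160957471976) (nat_lit 76) (nat_lit 372705375378) (nat_lit 76) (nat_lit 369192771960) (nat_lit 1) (nat_lit 4) (nat_lit 2) (nat_lit 5) (nat_lit 2) (nat_lit 4) (nat_lit 389) (nat_lit 284) (nat_lit 227)) (XT.nd (nat_lit 78) (nat_lit 0) (nat_lit 0) (XT.lf (nat_lit 0) (nat_lit 181067855197) (nat_lit 76) (nat_lit 398621021684) (nat_lit 76) (nat_lit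 395105140498) (nat_lit 1) (nat_lit 4) (nat_lit 2) (nat_lit 5) (nat_lit 2) (nat_lit 4) (nat_lit 390) (nat_lit 284) (nat_lit 226)) (XT.lf (nat_lit 0) (nat_lit 202774530898) (nat_lit 76) (nat_lit 426616187644) (nat_lit 76) (nat_lit 423097271489) (nat_lit 1) (nat_lit 4) (nat_lit 2) (nat_lit 5) (nat_lit 2) (nat_lit 4) (nat_lit 391) (nat_lit 284) (nat_lit 225))))))) (XT.nd (nat_lit 702) (nat_lit 0) (nat_lit 0) (XT.nd (nat_lit 312) (nat_lit 0) (nat_lit 0) (XT.nd (nat_lit 156) (nat_lit 0) (nat_lit 0) (XT.nd (nat_lit 78) (nat_lit 0) (nat_lit 0) (XT.lf (nat_lit 0) (nat_lit 226206131232) (nat_lit 76) (nat_lit 456856770538) (nat_lit 76) (nat_lit 453335044225) (nat_lit 1) (nat_lit 4) (nat_lit 2) (nat_lit 5) (nat_lit 2) (nat_lit 4) (nat_lit 392) (nat_lit 284) (nat_lit 224)) (XT.lf (nat_lit 0) (nat_lit 251501510126) (nat_lit 76) (nat_lit 489521973819) (nat_lit 76) (nat_lit 485997645509) (nat_lit 1) (nat_lit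 4) (nat_lit 2) (nat_lit 5) (nat_lit 2) (nat_lit 4) (nat_lit 393) (nat_lit 284) (nat_lit 223))) (XT.nd (nat_lit 78) (nat_lit 0) (nat_lit 0) (XT.lf (nat_lit 0) (nat_lit 278810566122) (nat_lit 76) (nat_lit 524805369064) (nat_lit 76) (nat_lit 521278631497) (nat_lit 1) (nat_lit 4) (nat_lit 2) (nat_lit 5) (nat_lit 2) (nat_lit 4) (nat_lit 394) (nat_lit 284) (nat_lit 222)) (XT.lf (nat_lit 0) (nat_lit 308295130662) (nat_lit 76) (nat_lit 562916043057) (nat_lit 76) (nat_lit 559387074697) (nat_lit 1) (nat_lit 4) (nat_lit 2) (nat_lit 5) (nat_lit 2) (nat_lit 4) (nat_lit 395) (nat_lit 284) (nat_lit 221)))) (XT.nd (nat_lit 156) (nat_lit 0) (nat_lit 0) (XT.nd (nat_lit 78) (nat_lit 0) (nat_lit 0) (XT.lf (nat_lit 0) (nat_lit 340129927094) (nat_lit 76) (nat_lit 604079836832) (nat_lit 76) (nat_lit 600548802922) (nat_lit 1) (nat_lit 4) (nat_lit 2) (nat_lit 5) (nat_lit 2) (nat_lit 4) (nat_lit 396) (nat_lit 284)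 (nat_lit 220)) (XT.lf (nat_lit 0) (nat_lit 374503606061) (nat_lit 76) (nat_lit 648540683980) (nat_lit 76) (nat_lit 645007737524) (nat_lit 1) (nat_lit 4) (nat_lit 2) (nat_lit 5) (nat_lit 2) (nat_lit 4) (nat_lit 397) (nat_lit 284) (nat_lit 219))) (XT.nd (nat_lit 78) (nat_lit 0) (nat_lit 0) (XT.lf (nat_lit 0) (nat_lit 411619863440) (nat_lit 76) (nat_lit 696562056188) (nat_lit 76) (nat_lit 693027338857) (nat_lit 1) (nat_lit 4) (nat_lit 2) (nat_lit 5) (nat_lit 2) (nat_lit 4) (nat_lit 398) (nat_lit 284) (nat_lit 218)) (XT.nd (nat_lit 78) (nat_lit 0) (nat_lit 0) (XT.lf (nat_lit 0) (nat_lit 451698647421) (nat_lit 76) (nat_lit 748428524550) (nat_lit 76) (nat_lit 744892167520) (nat_lit 1) (nat_lit 4) (nat_lit 2) (nat_lit 5) (nat_lit 2) (nat_lit 4) (nat_lit 399) (nat_lit 284) (nat_lit 217)) (XT.lf (nat_lit 0) (nat_lit 494977461911) (nat_lit 76) (nat_lit 804447445917) (nat_lit 76) (nat_lit 800909570646)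 (nat_lit 1) (nat_lit 4) (nat_lit 2) (nat_lit 5) (nat_lit 2) (nat_lit 4) (nat_lit 400) (nat_lit 284) (nat_lit 216)))))) (XT.nd (nat_lit 312) (nat_lit 0) (nat_lit 0) (XT.nd (nat_lit 156) (nat_lit 0) (nat_lit 0) (XT.nd (nat_lit 78) (nat_lit 0) (nat_lit 0) (XT.lf (nat_lit 0) (nat_lit 541712773958) (nat_lit 76) (nat_lit 864950784267) (nat_lit 76) (nat_lit 861411503218) (nat_lit 1) (nat_lit 4) (nat_lit 2) (nat_lit 5) (nat_lit 2) (nat_lit 4) (nat_lit 401) (nat_lit 284) (nat_lit 215)) (XT.lf (nat_lit 0) (nat_lit 592181533560) (nat_lit 76) (nat_lit 930297077901) (nat_lit 76) (nat_lit 926756495205) (nat_lit 1) (nat_lit 4) (nat_lit 2) (nat_lit 5) (nat_lit 2) (nat_lit 4) (nat_lit 402) (nat_lit 284) (nat_lit 214))) (XT.nd (nat_lit 78) (nat_lit 0) (nat_lit 0) (XT.lf (nat_lit 0) (nat_lit 646682814846) (nat_lit 76) (nat_lit 1000873564114) (nat_lit 76) (nat_lit 997331776190) (nat_lit 1) (nat_lit 4) (nat_lit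 2) (nat_lit 5) (nat_lit 2) (nat_lit 4) (nat_lit 403) (nat_lit 284) (nat_lit 213)) (XT.lf (nat_lit 0) (nat_lit 705539588374) (nat_lit 76) (nat_lit 1077098473937) (nat_lit 76) (nat_lit 1073555570061) (nat_lit 1) (nat_lit 4) (nat_lit 2) (nat_lit 5) (nat_lit 2) (nat_lit 4) (nat_lit 404) (nat_lit 284) (nat_lit 212)))) (XT.nd (nat_lit 156) (nat_lit 0) (nat_lit 0) (XT.nd (nat_lit 78) (nat_lit 0) (nat_lit 0) (XT.lf (nat_lit 0) (nat_lit 769100635023) (nat_lit 76) (nat_lit 1159423510538) (nat_lit 76) (nat_lit 1155879573373) (nat_lit 1) (nat_lit 4) (nat_lit 2) (nat_lit 5) (nat_lit 2) (nat_lit 4) (nat_lit 405) (nat_lit 284) (nat_lit 211)) (XT.lf (nat_lit 0) (nat_lit 837742612848) (nat_lit 76) (nat_lit 1248336525986) (nat_lit 76) (nat_lit 1244791632072) (nat_lit 1) (nat_lit 4) (nat_lit 2) (nat_lit 5) (nat_lit 2) (nat_lit 4) (nat_lit 406) (nat_lit 284) (nat_lit 210))) (XT.nd (nat_lit 78) (nat_lit 0)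 (nat_lit 0) (XT.lf (nat_lit 0) (nat_lit 911872289124) (nat_lit 76) (nat_lit 1344364412225) (nat_lit 76) (nat_lit 1340818632432) (nat_lit 1) (nat_lit 4) (nat_lit 2) (nat_lit 5) (nat_lit 2) (nat_lit 4) (nat_lit 407) (nat_lit 284) (nat_lit 209)) (XT.nd (nat_lit 78) (nat_lit 0) (nat_lit 0) (XT.lf (nat_lit 0) (nat_lit 991928950822) (nat_lit 76) (nat_lit 1448076223395) (nat_lit 76) (nat_lit 1444529623344) (nat_lit 1) (nat_lit 4) (nat_lit 2) (nat_lit 5) (nat_lit 2) (nat_lit 4) (nat_lit 408) (nat_lit 284) (nat_lit 208)) (XT.lf (nat_lit 0) (nat_lit 1078387007789) (nat_lit 76) (nat_lit 1560086548007) (nat_lit 76) (nat_lit 1556539188457) (nat_lit 1) (nat_lit 4) (nat_lit 2) (nat_lit 5) (nat_lit 2) (nat_lit 4) (nat_lit 409) (nat_lit 284) (nat_lit 207))))))))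
noncomputable def xc52 : XT := (XT.nd (nat_lit 41574) (nat_lit 0) (nat_lit 76) (XT.nd (nat_lit 40872) (nat_lit 0) (nat_lit 532) (XT.nd (nat_lit 312) (nat_lit 0) (nat_lit 0) (XT.nd (nat_lit 156) (nat_lit 0) (nat_lit 0) (XT.nd (nat_lit 78) (nat_lit 0) (nat_lit 0) (XT.lf (nat_lit 0) (nat_lit 1171758804067) (nat_lit 76) (nat_lit 1681059150947) (nat_lit 76) (nat_lit 1677511088159) (nat_lit 1) (nat_lit 4) (nat_lit 2) (nat_lit 5) (nat_lit 2) (nat_lit 4) (nat_lit 410) (nat_lit 284) (nat_lit 206)) (XT.lf (nat_lit 0) (nat_lit 1272597654003) (nat_lit 76) (nat_lit 1811710906900) (nat_lit 76) (nat_lit 1808162192964) (nat_lit 1) (nat_lit 4) (nat_lit 2) (nat_lit 5) (nat_lit 2) (nat_lit 4) (nat_lit 411) (nat_lit 284) (nat_lit 205))) (XT.nd (nat_lit 78) (nat_lit 0) (nat_lit 0) (XT.lf (nat_lit 0) (nat_lit 1381501121153) (nat_lit 76) (nat_lit 1952816048493) (nat_lit 76) (nat_lit 1949266731643) (nat_lit 1)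 (nat_lit 4) (nat_lit 2) (nat_lit 5) (nat_lit 2) (nat_lit 4) (nat_lit 412) (nat_lit 284) (nat_lit 204)) (XT.lf (nat_lit 0) (nat_lit 1499114559397) (nat_lit 76) (nat_lit 2105210754344) (nat_lit 76) (nat_lit 2101660879240) (nat_lit 1) (nat_lit 4) (nat_lit 2) (nat_lit 5) (nat_lit 2) (nat_lit 4) (nat_lit 413) (nat_lit 284) (nat_lit 203)))) (XT.nd (nat_lit 40404) (nat_lit 0) (nat_lit 988) (XT.nd (nat_lit 40326) (nat_lit 0) (nat_lit 1140) (XT.lf (nat_lit 0) (nat_lit 1626134937256) (nat_lit 76) (nat_lit 2269798104190) (nat_lit 76) (nat_lit 2266247712184) (nat_lit 1) (nat_lit 4) (nat_lit 2) (nat_lit 5) (nat_lit 2) (nat_lit 4) (nat_lit 414) (nat_lit 284) (nat_lit 202)) (XT.lf (nat_lit 0) (nat_lit 1173716733) (nat_lit 76) (nat_lit 3066155567) (nat_lit 76) (nat_lit 3066155567) (nat_lit 16) (nat_lit 4) (nat_lit 17) (nat_lit 5) (nat_lit 17) (nat_lit 4) (nat_lit 330) (nat_lit 285) (nat_lit 285))) (XT.nd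 (nat_lit 78) (nat_lit 152) (nat_lit 0) (XT.lf (nat_lit 0) (nat_lit 12549130581) (nat_lit 76) (nat_lit 1605598323) (nat_lit 76) (nat_lit 1187503572) (nat_lit 16) (nat_lit 4) (nat_lit 17) (nat_lit 5) (nat_lit 17) (nat_lit 4) (nat_lit 331) (nat_lit 285) (nat_lit 284)) (XT.lf (nat_lit 0) (nat_lit 3925987170) (nat_lit 152) (nat_lit 9018097596) (nat_lit 0) (nat_lit 3180413540) (nat_lit 14) (nat_lit 5) (nat_lit 16) (nat_lit 4) (nat_lit 14) (nat_lit 4) (nat_lit 332) (nat_lit 285) (nat_lit 283))))) (XT.nd (nat_lit 312) (nat_lit 228) (nat_lit 0) (XT.nd (nat_lit 156) (nat_lit 152) (nat_lit 0) (XT.nd (nat_lit 78) (nat_lit 0) (nat_lit 0) (XT.lf (nat_lit 0) (nat_lit 434843103) (nat_lit 76) (nat_lit 8810381178) (nat_lit 76) (nat_lit 7732910455) (nat_lit 13) (nat_lit 4) (nat_lit 14) (nat_lit 5) (nat_lit 14) (nat_lit 4) (nat_lit 333) (nat_lit 285) (nat_lit 282)) (XT.lf (nat_lit 0) (nat_lit 10663841044)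 (nat_lit 76) (nat_lit 4311158783) (nat_lit 76) (nat_lit 2926375937) (nat_lit 13) (nat_lit 4) (nat_lit 14) (nat_lit 5) (nat_lit 14) (nat_lit 4) (nat_lit 334) (nat_lit 285) (nat_lit 281))) (XT.nd (nat_lit 78) (nat_lit 0) (nat_lit 0) (XT.lf (nat_lit 0) (nat_lit 1971524212) (nat_lit 152) (nat_lit 16511234262) (nat_lit 0) (nat_lit 425847260) (nat_lit 11) (nat_lit 5) (nat_lit 13) (nat_lit 4) (nat_lit 11) (nat_lit 4) (nat_lit 335) (nat_lit 285) (nat_lit 280)) (XT.lf (nat_lit 0) (nat_lit 7171767886) (nat_lit 152) (nat_lit 7431030036) (nat_lit 0) (nat_lit 5382136663) (nat_lit 11) (nat_lit 5) (nat_lit 13) (nat_lit 4) (nat_lit 11) (nat_lit 4) (nat_lit 336) (nat_lit 285) (nat_lit 279)))) (XT.nd (nat_lit 156) (nat_lit 152) (nat_lit 0) (XT.nd (nat_lit 78) (nat_lit 0) (nat_lit 0) (XT.lf (nat_lit 0) (nat_lit 2040639903) (nat_lit 76) (nat_lit 10568326667) (nat_lit 76) (nat_lit 8552811859) (nat_lit 10)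 (nat_lit 4) (nat_lit 11) (nat_lit 5) (nat_lit 11) (nat_lit 4) (nat_lit 337) (nat_lit 285) (nat_lit 278)) (XT.lf (nat_lit 0) (nat_lit 12266685096) (nat_lit 76) (nat_lit 6196146530) (nat_lit 76) (nat_lit 3971480255) (nat_lit 10) (nat_lit 4) (nat_lit 11) (nat_lit 5) (nat_lit 11) (nat_lit 4) (nat_lit 338) (nat_lit 285) (nat_lit 277))) (XT.nd (nat_lit 78) (nat_lit 76) (nat_lit 0) (XT.lf (nat_lit 0) (nat_lit 717041100) (nat_lit 152) (nat_lit 926879551) (nat_lit 76) (nat_lit 22179753182) (nat_lit 9) (nat_lit 5) (nat_lit 11) (nat_lit 5) (nat_lit 10) (nat_lit 4) (nat_lit 339) (nat_lit 285) (nat_lit 276)) (XT.nd (nat_lit 78) (nat_lit 0) (nat_lit 0) (XT.lf (nat_lit 0) (nat_lit 5670947752) (nat_lit 152) (nat_lit 16370929904) (nat_lit 0) (nat_lit 3265726721) (nat_lit 8) (nat_lit 5) (nat_lit 10) (nat_lit 4) (nat_lit 8) (nat_lit 4) (nat_lit 340) (nat_lit 285) (nat_lit 275)) (XT.lf (nat_lit 0) (nat_lit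 10896364363) (nat_lit 152) (nat_lit 7686515292) (nat_lit 0) (nat_lit 8337410760) (nat_lit 8) (nat_lit 5) (nat_lit 10) (nat_lit 4) (nat_lit 8) (nat_lit 4) (nat_lit 341) (nat_lit 285) (nat_lit 274))))))) (XT.nd (nat_lit 624) (nat_lit 228) (nat_lit 0) (XT.nd (nat_lit 312) (nat_lit 76) (nat_lit 0) (XT.nd (nat_lit 156) (nat_lit 76) (nat_lit 0) (XT.nd (nat_lit 78) (nat_lit 0) (nat_lit 0) (XT.lf (nat_lit 0) (nat_lit 1414366760) (nat_lit 76) (nat_lit 14980294035) (nat_lit 76) (nat_lit 12278995458) (nat_lit 7) (nat_lit 4) (nat_lit 8) (nat_lit 5) (nat_lit 8) (nat_lit 4) (nat_lit 342) (nat_lit 285) (nat_lit 273)) (XT.lf (nat_lit 0) (nat_lit 11340256639) (nat_lit 76) (nat_lit 11028648116) (nat_lit 76) (nat_lit 8195548636) (nat_lit 7) (nat_lit 4) (nat_lit 8) (nat_lit 5) (nat_lit 8) (nat_lit 4) (nat_lit 343) (nat_lit 285) (nat_lit 272))) (XT.nd (nat_lit 78) (nat_lit 76) (nat_lit 0) (XT.lf (nat_lit 0)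 (nat_lit 21745216159) (nat_lit 76) (nat_lit 6914687686) (nat_lit 76) (nat_lit 3959550334) (nat_lit 7) (nat_lit 4) (nat_lit 8) (nat_lit 5) (nat_lit 8) (nat_lit 4) (nat_lit 344) (nat_lit 285) (nat_lit 271)) (XT.lf (nat_lit 0) (nat_lit 431385657) (nat_lit 152) (nat_lit 2170853214) (nat_lit 76) (nat_lit 32247723833) (nat_lit 6) (nat_lit 5) (nat_lit 8) (nat_lit 5) (nat_lit 7) (nat_lit 4) (nat_lit 345) (nat_lit 285) (nat_lit 270)))) (XT.nd (nat_lit 156) (nat_lit 0) (nat_lit 0) (XT.nd (nat_lit 78) (nat_lit 0) (nat_lit 0) (XT.lf (nat_lit 0) (nat_lit 5044576752) (nat_lit 152) (nat_lit 30092518383) (nat_lit 0) (nat_lit 2106833060) (nat_lit 5) (nat_lit 5) (nat_lit 7) (nat_lit 4) (nat_lit 5) (nat_lit 4) (nat_lit 346) (nat_lit 285) (nat_lit 269)) (XT.lf (nat_lit 0) (nat_lit 10014301098) (nat_lit 152) (nat_lit 22829288832) (nat_lit 0) (nat_lit 6986855927) (nat_lit 5) (nat_lit 5) (nat_lit 7) (nat_lit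 4) (nat_lit 5) (nat_lit 4) (nat_lit 347) (nat_lit 285) (nat_lit 268))) (XT.nd (nat_lit 78) (nat_lit 0) (nat_lit 0) (XT.lf (nat_lit 0) (nat_lit 15251039209) (nat_lit 152) (nat_lit 15242784457) (nat_lit 0) (nat_lit 12140537113) (nat_lit 5) (nat_lit 5) (nat_lit 7) (nat_lit 4) (nat_lit 5) (nat_lit 4) (nat_lit 348) (nat_lit 285) (nat_lit 267)) (XT.lf (nat_lit 0) (nat_lit 20785823608) (nat_lit 152) (nat_lit 7288048197) (nat_lit 0) (nat_lit 17598416951) (nat_lit 5) (nat_lit 5) (nat_lit 7) (nat_lit 4) (nat_lit 5) (nat_lit 4) (nat_lit 349) (nat_lit 285) (nat_lit 266))))) (XT.nd (nat_lit 312) (nat_lit 152) (nat_lit 0) (XT.nd (nat_lit 156) (nat_lit 0) (nat_lit 0) (XT.nd (nat_lit 78) (nat_lit 0) (nat_lit 0) (XT.lf (nat_lit 0) (nat_lit 1139038443) (nat_lit 76) (nat_lit 25539808473) (nat_lit 76) (nat_lit 22281193890) (nat_lit 4) (nat_lit 4) (nat_lit 5) (nat_lit 5) (nat_lit 5) (nat_lit 4) (nat_lit 350)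 (nat_lit 285) (nat_lit 265)) (XT.lf (nat_lit 0) (nat_lit 10439357072) (nat_lit 76) (nat_lit 22694396433) (nat_lit 76) (nat_lit 19369848584) (nat_lit 4) (nat_lit 4) (nat_lit 5) (nat_lit 5) (nat_lit 5) (nat_lit 4) (nat_lit 351) (nat_lit 285) (nat_lit 264))) (XT.nd (nat_lit 78) (nat_lit 0) (nat_lit 0) (XT.lf (nat_lit 0) (nat_lit 20284244987) (nat_lit 76) (nat_lit 19720042136) (nat_lit 76) (nat_lit 16334444968) (nat_lit 4) (nat_lit 4) (nat_lit 5) (nat_lit 5) (nat_lit 5) (nat_lit 4) (nat_lit 352) (nat_lit 285) (nat_lit 263)) (XT.lf (nat_lit 0) (nat_lit 30732042262) (nat_lit 76) (nat_lit 16599119778) (nat_lit 76) (nat_lit 13156995463) (nat_lit 4) (nat_lit 4) (nat_lit 5) (nat_lit 5) (nat_lit 5) (nat_lit 4) (nat_lit 353) (nat_lit 285) (nat_lit 262)))) (XT.nd (nat_lit 156) (nat_lit 152) (nat_lit 0) (XT.nd (nat_lit 78) (nat_lit 0) (nat_lit 0) (XT.lf (nat_lit 0) (nat_lit 41844661772) (nat_lit 76)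 (nat_lit 13313135007) (nat_lit 76) (nat_lit 9818670739) (nat_lit 4) (nat_lit 4) (nat_lit 5) (nat_lit 5) (nat_lit 5) (nat_lit 4) (nat_lit 354) (nat_lit 285) (nat_lit 261)) (XT.lf (nat_lit 0) (nat_lit 53687956077) (nat_lit 76) (nat_lit 9842615318) (nat_lit 76) (nat_lit 6299688133) (nat_lit 4) (nat_lit 4) (nat_lit 5) (nat_lit 5) (nat_lit 5) (nat_lit 4) (nat_lit 355) (nat_lit 285) (nat_lit 260))) (XT.nd (nat_lit 78) (nat_lit 152) (nat_lit 0) (XT.lf (nat_lit 0) (nat_lit 66332107661) (nat_lit 76) (nat_lit 6166994670) (nat_lit 76) (nat_lit 2579194412) (nat_lit 4) (nat_lit 4) (nat_lit 5) (nat_lit 5) (nat_lit 5) (nat_lit 4) (nat_lit 356) (nat_lit 285) (nat_lit 259)) (XT.nd (nat_lit 78) (nat_lit 76) (nat_lit 0) (XT.lf (nat_lit 0) (nat_lit 1296582077) (nat_lit 152) (nat_lit 932458676) (nat_lit 76) (nat_lit 78520011899) (nat_lit 3) (nat_lit 5) (nat_lit 5) (nat_lit 5) (nat_lit 4) (nat_lit 4) (nat_lit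 357) (nat_lit 285) (nat_lit 258)) (XT.lf (nat_lit 0) (nat_lit 5516668938) (nat_lit 152) (nat_lit 79217028022) (nat_lit 0) (nat_lit 2120538544) (nat_lit 2) (nat_lit 5) (nat_lit 4) (nat_lit 4) (nat_lit 2) (nat_lit 4) (nat_lit 358) (nat_lit 285) (nat_lit 257))))))))
noncomputable def xc53 : XT := (XT.nd (nat_lit 1326) (nat_lit 76) (nat_lit 0) (XT.nd (nat_lit 624) (nat_lit 0) (nat_lit 0) (XT.nd (nat_lit 312) (nat_lit 0) (nat_lit 0) (XT.nd (nat_lit 156) (nat_lit 0) (nat_lit 0) (XT.nd (nat_lit 78) (nat_lit 0) (nat_lit 0) (XT.lf (nat_lit 0) (nat_lit 10093551503) (nat_lit 152) (nat_lit 76688320516) (nat_lit 0) (nat_lit 6664438061) (nat_lit 2) (nat_lit 5) (nat_lit 4) (nat_lit 4) (nat_lit 2) (nat_lit 4) (nat_lit 359) (nat_lit 285) (nat_lit 256)) (XT.lf (nat_lit 0) (nat_lit 14976523849) (nat_lit 152) (nat_lit 74077172384) (nat_lit 0) (nat_lit 11516870548) (nat_lit 2) (nat_lit 5) (nat_lit 4) (nat_lit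 4) (nat_lit 2) (nat_lit 4) (nat_lit 360) (nat_lit 285) (nat_lit 255))) (XT.nd (nat_lit 78) (nat_lit 0) (nat_lit 0) (XT.lf (nat_lit 0) (nat_lit 20194522109) (nat_lit 152) (nat_lit 71368110155) (nat_lit 0) (nat_lit 16706591161) (nat_lit 2) (nat_lit 5) (nat_lit 4) (nat_lit 4) (nat_lit 2) (nat_lit 4) (nat_lit 361) (nat_lit 285) (nat_lit 254)) (XT.lf (nat_lit 0) (nat_lit 25778467754) (nat_lit 152) (nat_lit 68545080127) (nat_lit 0) (nat_lit 22264353799) (nat_lit 2) (nat_lit 5) (nat_lit 4) (nat_lit 4) (nat_lit 2) (nat_lit 4) (nat_lit 362) (nat_lit 285) (nat_lit 253)))) (XT.nd (nat_lit 156) (nat_lit 0) (nat_lit 0) (XT.nd (nat_lit 78) (nat_lit 0) (nat_lit 0) (XT.lf (nat_lit 0) (nat_lit 31761450831) (nat_lit 152) (nat_lit 65591353234) (nat_lit 0) (nat_lit 28223093352) (nat_lit 2) (nat_lit 5) (nat_lit 4) (nat_lit 4) (nat_lit 2) (nat_lit 4) (nat_lit 363) (nat_lit 285) (nat_lit 252)) (XT.lf (nat_lit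 0) (nat_lit 38178926057) (nat_lit 152) (nat_lit 62489425908) (nat_lit 0) (nat_lit 34618120869) (nat_lit 2) (nat_lit 5) (nat_lit 4) (nat_lit 4) (nat_lit 2) (nat_lit 4) (nat_lit 364) (nat_lit 285) (nat_lit 251))) (XT.nd (nat_lit 78) (nat_lit 0) (nat_lit 0) (XT.lf (nat_lit 0) (nat_lit 45068922912) (nat_lit 152) (nat_lit 59220916359) (nat_lit 0) (nat_lit 41487332809) (nat_lit 2) (nat_lit 5) (nat_lit 4) (nat_lit 4) (nat_lit 2) (nat_lit 4) (nat_lit 365) (nat_lit 285) (nat_lit 250)) (XT.lf (nat_lit 0) (nat_lit 52472271009) (nat_lit 152) (nat_lit 55766455640) (nat_lit 0) (nat_lit 48871435615) (nat_lit 2) (nat_lit 5) (nat_lit 4) (nat_lit 4) (nat_lit 2) (nat_lit 4) (nat_lit 366) (nat_lit 285) (nat_lit 249))))) (XT.nd (nat_lit 312) (nat_lit 0) (nat_lit 0) (XT.nd (nat_lit 156) (nat_lit 0) (nat_lit 0) (XT.nd (nat_lit 78) (nat_lit 0) (nat_lit 0) (XT.lf (nat_lit 0) (nat_lit 60432842040) (nat_lit 152)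 (nat_lit 52105572874) (nat_lit 0) (nat_lit 56814186931) (nat_lit 2) (nat_lit 5) (nat_lit 4) (nat_lit 4) (nat_lit 2) (nat_lit 4) (nat_lit 367) (nat_lit 285) (nat_lit 248)) (XT.lf (nat_lit 0) (nat_lit 68997809759) (nat_lit 152) (nat_lit 48216573939) (nat_lit 0) (nat_lit 65362654915) (nat_lit 2) (nat_lit 5) (nat_lit 4) (nat_lit 4) (nat_lit 2) (nat_lit 4) (nat_lit 368) (nat_lit 285) (nat_lit 247))) (XT.nd (nat_lit 78) (nat_lit 0) (nat_lit 0) (XT.lf (nat_lit 0) (nat_lit 78217929531) (nat_lit 152) (nat_lit 44076412918) (nat_lit 0) (nat_lit 74567497153) (nat_lit 2) (nat_lit 5) (nat_lit 4) (nat_lit 4) (nat_lit 2) (nat_lit 4) (nat_lit 369) (nat_lit 285) (nat_lit 246)) (XT.lf (nat_lit 0) (nat_lit 88147839101) (nat_lit 152) (nat_lit 39660555521) (nat_lit 0) (nat_lit 84483260860) (nat_lit 2) (nat_lit 5) (nat_lit 4) (nat_lit 4) (nat_lit 2) (nat_lit 4) (nat_lit 370) (nat_lit 285) (nat_lit 245)))) (XT.nd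 (nat_lit 156) (nat_lit 0) (nat_lit 0) (XT.nd (nat_lit 78) (nat_lit 0) (nat_lit 0) (XT.lf (nat_lit 0) (nat_lit 98846382379) (nat_lit 152) (nat_lit 34942833706) (nat_lit 0) (nat_lit 95168706116) (nat_lit 2) (nat_lit 5) (nat_lit 4) (nat_lit 4) (nat_lit 2) (nat_lit 4) (nat_lit 371) (nat_lit 285) (nat_lit 244)) (XT.lf (nat_lit 0) (nat_lit 110376958140) (nat_lit 152) (nat_lit 29895290602) (nat_lit 0) (nat_lit 106687154079) (nat_lit 2) (nat_lit 5) (nat_lit 4) (nat_lit 4) (nat_lit 2) (nat_lit 4) (nat_lit 372) (nat_lit 285) (nat_lit 243))) (XT.nd (nat_lit 78) (nat_lit 0) (nat_lit 0) (XT.lf (nat_lit 0) (nat_lit 122807895722) (nat_lit 152) (nat_lit 24488014842) (nat_lit 0) (nat_lit 119106862217) (nat_lit 2) (nat_lit 5) (nat_lit 4) (nat_lit 4) (nat_lit 2) (nat_lit 4) (nat_lit 373) (nat_lit 285) (nat_lit 242)) (XT.nd (nat_lit 78) (nat_lit 0) (nat_lit 0) (XT.lf (nat_lit 0) (nat_lit 136212859939) (nat_lit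 152) (nat_lit 18688963312) (nat_lit 0) (nat_lit 132501428802) (nat_lit 2) (nat_lit 5) (nat_lit 4) (nat_lit 4) (nat_lit 2) (nat_lit 4) (nat_lit 374) (nat_lit 285) (nat_lit 241)) (XT.lf (nat_lit 0) (nat_lit 150671287617) (nat_lit 152) (nat_lit 12463771261) (nat_lit 0) (nat_lit 146950229043) (nat_lit 2) (nat_lit 5) (nat_lit 4) (nat_lit 4) (nat_lit 2) (nat_lit 4) (nat_lit 375) (nat_lit 285) (nat_lit 240))))))) (XT.nd (nat_lit 702) (nat_lit 0) (nat_lit 0) (XT.nd (nat_lit 312) (nat_lit 0) (nat_lit 0) (XT.nd (nat_lit 156) (nat_lit 0) (nat_lit 0) (XT.nd (nat_lit 78) (nat_lit 76) (nat_lit 0) (XT.lf (nat_lit 0) (nat_lit 166268858327) (nat_lit 152) (nat_lit 5775548662) (nat_lit 0) (nat_lit 162538885460) (nat_lit 2) (nat_lit 5) (nat_lit 4) (nat_lit 4) (nat_lit 2) (nat_lit 4) (nat_lit 376) (nat_lit 285) (nat_lit 239)) (XT.lf (nat_lit 0) (nat_lit 1489867607) (nat_lit 76) (nat_lit 181643965863) (nat_lit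 76) (nat_lit 177905739020) (nat_lit 1) (nat_lit 4) (nat_lit 2) (nat_lit 5) (nat_lit 2) (nat_lit 4) (nat_lit 377) (nat_lit 285) (nat_lit 238))) (XT.nd (nat_lit 78) (nat_lit 0) (nat_lit 0) (XT.lf (nat_lit 0) (nat_lit 9633404485) (nat_lit 76) (nat_lit 191856726375) (nat_lit 76) (nat_lit 188110856961) (nat_lit 1) (nat_lit 4) (nat_lit 2) (nat_lit 5) (nat_lit 2) (nat_lit 4) (nat_lit 378) (nat_lit 285) (nat_lit 237)) (XT.lf (nat_lit 0) (nat_lit 18399189809) (nat_lit 76) (nat_lit 202901122323) (nat_lit 76) (nat_lit 199148176456) (nat_lit 1) (nat_lit 4) (nat_lit 2) (nat_lit 5) (nat_lit 2) (nat_lit 4) (nat_lit 379) (nat_lit 285) (nat_lit 236)))) (XT.nd (nat_lit 156) (nat_lit 0) (nat_lit 0) (XT.nd (nat_lit 78) (nat_lit 0) (nat_lit 0) (XT.lf (nat_lit 0) (nat_lit 27839168975) (nat_lit 76) (nat_lit 214842601979) (nat_lit 76) (nat_lit 211083103840) (nat_lit 1) (nat_lit 4) (nat_lit 2) (nat_lit 5) (nat_lit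 2) (nat_lit 4) (nat_lit 380) (nat_lit 285) (nat_lit 235)) (XT.lf (nat_lit 0) (nat_lit 38009282600) (nat_lit 76) (nat_lit 227751929669) (nat_lit 76) (nat_lit 223986364611) (nat_lit 1) (nat_lit 4) (nat_lit 2) (nat_lit 5) (nat_lit 2) (nat_lit 4) (nat_lit 381) (nat_lit 285) (nat_lit 234))) (XT.nd (nat_lit 78) (nat_lit 0) (nat_lit 0) (XT.lf (nat_lit 0) (nat_lit 48969798023) (nat_lit 76) (nat_lit 241705605110) (nat_lit 76) (nat_lit 237934422535) (nat_lit 1) (nat_lit 4) (nat_lit 2) (nat_lit 5) (nat_lit 2) (nat_lit 4) (nat_lit 382) (nat_lit 285) (nat_lit 233)) (XT.nd (nat_lit 78) (nat_lit 0) (nat_lit 0) (XT.lf (nat_lit 0) (nat_lit 60785666447) (nat_lit 76) (nat_lit 256786316751) (nat_lit 76) (nat_lit 253009932771) (nat_lit 1) (nat_lit 4) (nat_lit 2) (nat_lit 5) (nat_lit 2) (nat_lit 4) (nat_lit 383) (nat_lit 285) (nat_lit 232)) (XT.lf (nat_lit 0) (nat_lit 73526907833) (nat_lit 76) (nat_lit 273083431771)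 (nat_lit 76) (nat_lit 269302231676) (nat_lit 1) (nat_lit 4) (nat_lit 2) (nat_lit 5) (nat_lit 2) (nat_lit 4) (nat_lit 384) (nat_lit 285) (nat_lit 231)))))) (XT.nd (nat_lit 312) (nat_lit 0) (nat_lit 0) (XT.nd (nat_lit 156) (nat_lit 0) (nat_lit 0) (XT.nd (nat_lit 78) (nat_lit 0) (nat_lit 0) (XT.lf (nat_lit 0) (nat_lit 87269025834) (nat_lit 76) (nat_lit 290693525666) (nat_lit 76) (nat_lit 286907866205) (nat_lit 1) (nat_lit 4) (nat_lit 2) (nat_lit 5) (nat_lit 2) (nat_lit 4) (nat_lit 385) (nat_lit 285) (nat_lit 230)) (XT.lf (nat_lit 0) (nat_lit 102093455224) (nat_lit 76) (nat_lit 309720954550) (nat_lit 76) (nat_lit 305931166046) (nat_lit 1) (nat_lit 4) (nat_lit 2) (nat_lit 5) (nat_lit 2) (nat_lit 4) (nat_lit 386) (nat_lit 285) (nat_lit 229))) (XT.nd (nat_lit 78) (nat_lit 0) (nat_lit 0) (XT.lf (nat_lit 0) (nat_lit 118088044471) (nat_lit 76) (nat_lit 330278473555) (nat_lit 76) (nat_lit 326484861863)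 (nat_lit 1) (nat_lit 4) (nat_lit 2) (nat_lit 5) (nat_lit 2) (nat_lit 4) (nat_lit 387) (nat_lit 285) (nat_lit 228)) (XT.lf (nat_lit 0) (nat_lit 135347576329) (nat_lit 76) (nat_lit 352487905017) (nat_lit 76) (nat_lit 348690753337) (nat_lit 1) (nat_lit 4) (nat_lit 2) (nat_lit 5) (nat_lit 2) (nat_lit 4) (nat_lit 388) (nat_lit 285) (nat_lit 227)))) (XT.nd (nat_lit 156) (nat_lit 0) (nat_lit 0) (XT.nd (nat_lit 78) (nat_lit 0) (nat_lit 0) (XT.lf (nat_lit 0) (nat_lit 153974329503) (nat_lit 76) (nat_lit 376480860382) (nat_lit 76) (nat_lit 372680430934) (nat_lit 1) (nat_lit 4) (nat_lit 2) (nat_lit 5) (nat_lit 2) (nat_lit 4) (nat_lit 389) (nat_lit 285) (nat_lit 226)) (XT.lf (nat_lit 0) (nat_lit 174078684754) (nat_lit 76) (nat_lit 402399520125) (nat_lit 76) (nat_lit 398596055707) (nat_lit 1) (nat_lit 4) (nat_lit 2) (nat_lit 5) (nat_lit 2) (nat_lit 4) (nat_lit 390) (nat_lit 285) (nat_lit 225))) (XT.nd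 (nat_lit 78) (nat_lit 0) (nat_lit 0) (XT.lf (nat_lit 0) (nat_lit 195779779001) (nat_lit 76) (nat_lit 430397476305) (nat_lit 76) (nat_lit 426591201730) (nat_lit 1) (nat_lit 4) (nat_lit 2) (nat_lit 5) (nat_lit 2) (nat_lit 4) (nat_lit 391) (nat_lit 285) (nat_lit 224)) (XT.nd (nat_lit 78) (nat_lit 0) (nat_lit 0) (XT.lf (nat_lit 0) (nat_lit 219206211322) (nat_lit 76) (nat_lit 460640642735) (nat_lit 76) (nat_lit 456831766163) (nat_lit 1) (nat_lit 4) (nat_lit 2) (nat_lit 5) (nat_lit 2) (nat_lit 4) (nat_lit 392) (nat_lit 285) (nat_lit 223)) (XT.lf (nat_lit 0) (nat_lit 244496805019) (nat_lit 76) (nat_lit 493308238180) (nat_lit 76) (nat_lit 489496952351) (nat_lit 1) (nat_lit 4) (nat_lit 2) (nat_lit 5) (nat_lit 2) (nat_lit 4) (nat_lit 393) (nat_lit 285) (nat_lit 222))))))))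
noncomputable def xc54 : XT := (XT.nd (nat_lit 1326) (nat_lit 0) (nat_lit 0) (XT.nd (nat_lit 624) (nat_lit 0) (nat_lit 0) (XT.nd (nat_lit 312) (nat_lit 0) (nat_lit 0) (XT.nd (nat_lit 156) (nat_lit 0) (nat_lit 0) (XT.nd (nat_lit 78) (nat_lit 0) (nat_lit 0) (XT.lf (nat_lit 0) (nat_lit 271801430277) (nat_lit 76) (nat_lit 528593848391) (nat_lit 76) (nat_lit 524780331768) (nat_lit 1) (nat_lit 4) (nat_lit 2) (nat_lit 5) (nat_lit 2) (nat_lit 4) (nat_lit 394) (nat_lit 285) (nat_lit 221)) (XT.lf (nat_lit 0) (nat_lit 301281892283) (nat_lit 76) (nat_lit 566706573279) (nat_lit 76) (nat_lit 562890991107) (nat_lit 1) (nat_lit 4) (nat_lit 2) (nat_lit 5) (nat_lit 2) (nat_lit 4) (nat_lit 395) (nat_lit 285) (nat_lit 220))) (XT.nd (nat_lit 78) (nat_lit 0) (nat_lit 0) (XT.lf (nat_lit 0) (nat_lit 333112890071) (nat_lit 76) (nat_lit 607872266030) (nat_lit 76) (nat_lit 604054771313) (nat_lit 1) (nat_lit 4) (nat_lit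 2) (nat_lit 5) (nat_lit 2) (nat_lit 4) (nat_lit 396) (nat_lit 285) (nat_lit 219)) (XT.lf (nat_lit 0) (nat_lit 367483051776) (nat_lit 76) (nat_lit 652334871490) (nat_lit 76) (nat_lit 648515605897) (nat_lit 1) (nat_lit 4) (nat_lit 2) (nat_lit 5) (nat_lit 2) (nat_lit 4) (nat_lit 397) (nat_lit 285) (nat_lit 218)))) (XT.nd (nat_lit 156) (nat_lit 0) (nat_lit 0) (XT.nd (nat_lit 78) (nat_lit 0) (nat_lit 0) (XT.lf (nat_lit 0) (nat_lit 404596052430) (nat_lit 76) (nat_lit 700357871764) (nat_lit 76) (nat_lit 696536966471) (nat_lit 1) (nat_lit 4) (nat_lit 2) (nat_lit 5) (nat_lit 2) (nat_lit 4) (nat_lit 398) (nat_lit 285) (nat_lit 217)) (XT.lf (nat_lit 0) (nat_lit 444671820926) (nat_lit 76) (nat_lit 752225847596) (nat_lit 76) (nat_lit 748403424063) (nat_lit 1) (nat_lit 4) (nat_lit 2) (nat_lit 5) (nat_lit 2) (nat_lit 4) (nat_lit 399) (nat_lit 285) (nat_lit 216))) (XT.nd (nat_lit 78) (nat_lit 0) (nat_lit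 0) (XT.lf (nat_lit 0) (nat_lit 487947843299) (nat_lit 76) (nat_lit 808246164767) (nat_lit 76) (nat_lit 804422335456) (nat_lit 1) (nat_lit 4) (nat_lit 2) (nat_lit 5) (nat_lit 2) (nat_lit 4) (nat_lit 400) (nat_lit 285) (nat_lit 215)) (XT.lf (nat_lit 0) (nat_lit 534680570053) (nat_lit 76) (nat_lit 868750795529) (nat_lit 76) (nat_lit 864925664571) (nat_lit 1) (nat_lit 4) (nat_lit 2) (nat_lit 5) (nat_lit 2) (nat_lit 4) (nat_lit 401) (nat_lit 285) (nat_lit 214))))) (XT.nd (nat_lit 312) (nat_lit 0) (nat_lit 0) (XT.nd (nat_lit 156) (nat_lit 0) (nat_lit 0) (XT.nd (nat_lit 78) (nat_lit 0) (nat_lit 0) (XT.lf (nat_lit 0) (nat_lit 585146935865) (nat_lit 76) (nat_lit 934098285840) (nat_lit 76) (nat_lit 930271949654) (nat_lit 1) (nat_lit 4) (nat_lit 2) (nat_lit 5) (nat_lit 2) (nat_lit 4) (nat_lit 402) (nat_lit 285) (nat_lit 213)) (XT.lf (nat_lit 0) (nat_lit 639646000679) (nat_lit 76) (nat_lit 1004675880088)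 (nat_lit 76) (nat_lit 1000848427950) (nat_lit 1) (nat_lit 4) (nat_lit 2) (nat_lit 5) (nat_lit 2) (nat_lit 4) (nat_lit 403) (nat_lit 285) (nat_lit 212))) (XT.nd (nat_lit 78) (nat_lit 0) (nat_lit 0) (XT.lf (nat_lit 0) (nat_lit 698500721918) (nat_lit 76) (nat_lit 1080901815869) (nat_lit 76) (nat_lit 1077073330441) (nat_lit 1) (nat_lit 4) (nat_lit 2) (nat_lit 5) (nat_lit 2) (nat_lit 4) (nat_lit 404) (nat_lit 285) (nat_lit 211)) (XT.lf (nat_lit 0) (nat_lit 762059868300) (nat_lit 76) (nat_lit 1163227802431) (nat_lit 76) (nat_lit 1159398360254) (nat_lit 1) (nat_lit 4) (nat_lit 2) (nat_lit 5) (nat_lit 2) (nat_lit 4) (nat_lit 405) (nat_lit 285) (nat_lit 210)))) (XT.nd (nat_lit 156) (nat_lit 0) (nat_lit 0) (XT.nd (nat_lit 78) (nat_lit 0) (nat_lit 0) (XT.lf (nat_lit 0) (nat_lit 830700086617) (nat_lit 76) (nat_lit 1252141697473) (nat_lit 76) (nat_lit 1248311369417) (nat_lit 1) (nat_lit 4) (nat_lit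 2) (nat_lit 5) (nat_lit 2) (nat_lit 4) (nat_lit 406) (nat_lit 285) (nat_lit 209)) (XT.lf (nat_lit 0) (nat_lit 904828133720) (nat_lit 76) (nat_lit 1348170398150) (nat_lit 76) (nat_lit 1344339249836) (nat_lit 1) (nat_lit 4) (nat_lit 2) (nat_lit 5) (nat_lit 2) (nat_lit 4) (nat_lit 407) (nat_lit 285) (nat_lit 208))) (XT.nd (nat_lit 78) (nat_lit 0) (nat_lit 0) (XT.lf (nat_lit 0) (nat_lit 984883286925) (nat_lit 76) (nat_lit 1451882963429) (nat_lit 76) (nat_lit 1448051055618) (nat_lit 1) (nat_lit 4) (nat_lit 2) (nat_lit 5) (nat_lit 2) (nat_lit 4) (nat_lit 408) (nat_lit 285) (nat_lit 207)) (XT.nd (nat_lit 78) (nat_lit 0) (nat_lit 0) (XT.lf (nat_lit 0) (nat_lit 1071339947139) (nat_lit 76) (nat_lit 1563893986291) (nat_lit 76) (nat_lit 1560061375240) (nat_lit 1) (nat_lit 4) (nat_lit 2) (nat_lit 5) (nat_lit 2) (nat_lit 4) (nat_lit 409) (nat_lit 285) (nat_lit 206)) (XT.lf (nat_lit 0) (nat_lit 1164710450126)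 (nat_lit 76) (nat_lit 1684867235759) (nat_lit 76) (nat_lit 1681033973561) (nat_lit 1) (nat_lit 4) (nat_lit 2) (nat_lit 5) (nat_lit 2) (nat_lit 4) (nat_lit 410) (nat_lit 285) (nat_lit 205))))))) (XT.nd (nat_lit 40716) (nat_lit 0) (nat_lit 532) (XT.nd (nat_lit 40404) (nat_lit 0) (nat_lit 1140) (XT.nd (nat_lit 156) (nat_lit 0) (nat_lit 0) (XT.nd (nat_lit 78) (nat_lit 0) (nat_lit 0) (XT.lf (nat_lit 0) (nat_lit 1265548102572) (nat_lit 76) (nat_lit 1815519590348) (nat_lit 76) (nat_lit 1811685725236) (nat_lit 1) (nat_lit 4) (nat_lit 2) (nat_lit 5) (nat_lit 2) (nat_lit 4) (nat_lit 411) (nat_lit 285) (nat_lit 204)) (XT.lf (nat_lit 0) (nat_lit 1374450460934) (nat_lit 76) (nat_lit 1956625286235) (nat_lit 76) (nat_lit 1952790862869) (nat_lit 1) (nat_lit 4) (nat_lit 2) (nat_lit 5) (nat_lit 2) (nat_lit 4) (nat_lit 412) (nat_lit 285) (nat_lit 203))) (XT.nd (nat_lit 78) (nat_lit 0) (nat_lit 0) (XT.lf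 (nat_lit 0) (nat_lit 1492062872522) (nat_lit 76) (nat_lit 2109020505320) (nat_lit 76) (nat_lit 2105185565052) (nat_lit 1) (nat_lit 4) (nat_lit 2) (nat_lit 5) (nat_lit 2) (nat_lit 4) (nat_lit 413) (nat_lit 285) (nat_lit 202)) (XT.lf (nat_lit 0) (nat_lit 1619082299775) (nat_lit 76) (nat_lit 2273608330383) (nat_lit 76) (nat_lit 2269772911502) (nat_lit 1) (nat_lit 4) (nat_lit 2) (nat_lit 5) (nat_lit 2) (nat_lit 4) (nat_lit 414) (nat_lit 285) (nat_lit 201)))) (XT.nd (nat_lit 156) (nat_lit 76) (nat_lit 0) (XT.nd (nat_lit 78) (nat_lit 152) (nat_lit 0) (XT.lf (nat_lit 0) (nat_lit 5266876814) (nat_lit 76) (nat_lit 696147411) (nat_lit 76) (nat_lit 696147411) (nat_lit 19) (nat_lit 4) (nat_lit 20) (nat_lit 5) (nat_lit 20) (nat_lit 4) (nat_lit 328) (nat_lit 286) (nat_lit 286)) (XT.lf (nat_lit 0) (nat_lit 3593496760) (nat_lit 152) (nat_lit 7207312130) (nat_lit 0) (nat_lit 3141954429) (nat_lit 17) (nat_lit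 5) (nat_lit 19) (nat_lit 4) (nat_lit 17) (nat_lit 4) (nat_lit 329) (nat_lit 286) (nat_lit 285))) (XT.nd (nat_lit 78) (nat_lit 0) (nat_lit 0) (XT.lf (nat_lit 0) (nat_lit 2093916948) (nat_lit 76) (nat_lit 6699442210) (nat_lit 76) (nat_lit 5829805128) (nat_lit 16) (nat_lit 4) (nat_lit 17) (nat_lit 5) (nat_lit 17) (nat_lit 4) (nat_lit 330) (nat_lit 286) (nat_lit 284)) (XT.lf (nat_lit 0) (nat_lit 12060876547) (nat_lit 76) (nat_lit 2279756012) (nat_lit 76) (nat_lit 1022994161) (nat_lit 16) (nat_lit 4) (nat_lit 17) (nat_lit 5) (nat_lit 17) (nat_lit 4) (nat_lit 331) (nat_lit 286) (nat_lit 283))))) (XT.nd (nat_lit 312) (nat_lit 228) (nat_lit 0) (XT.nd (nat_lit 156) (nat_lit 228) (nat_lit 0) (XT.nd (nat_lit 78) (nat_lit 0) (nat_lit 0) (XT.lf (nat_lit 0) (nat_lit 3923157065) (nat_lit 152) (nat_lit 9807615187) (nat_lit 0) (nat_lit 2427591592) (nat_lit 14) (nat_lit 5) (nat_lit 16) (nat_lit 4) (nat_lit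 14) (nat_lit 4) (nat_lit 332) (nat_lit 286) (nat_lit 282)) (XT.lf (nat_lit 0) (nat_lit 9111881596) (nat_lit 152) (nat_lit 601610320) (nat_lit 0) (nat_lit 7309003999) (nat_lit 14) (nat_lit 5) (nat_lit 16) (nat_lit 4) (nat_lit 14) (nat_lit 4) (nat_lit 333) (nat_lit 286) (nat_lit 281))) (XT.nd (nat_lit 78) (nat_lit 152) (nat_lit 0) (XT.lf (nat_lit 0) (nat_lit 9376225506) (nat_lit 76) (nat_lit 5333760775) (nat_lit 76) (nat_lit 3246334916) (nat_lit 13) (nat_lit 4) (nat_lit 14) (nat_lit 5) (nat_lit 14) (nat_lit 4) (nat_lit 334) (nat_lit 286) (nat_lit 280)) (XT.lf (nat_lit 0) (nat_lit 783751748) (nat_lit 76) (nat_lit 723290665) (nat_lit 152) (nat_lit 17470010004) (nat_lit 11) (nat_lit 5) (nat_lit 12) (nat_lit 5) (nat_lit 13) (nat_lit 4) (nat_lit 335) (nat_lit 286) (nat_lit 279)))) (XT.nd (nat_lit 156) (nat_lit 228) (nat_lit 0) (XT.nd (nat_lit 78) (nat_lit 0) (nat_lit 0) (XT.lf (nat_lit 0) (nat_lit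 6580207312) (nat_lit 152) (nat_lit 9305812678) (nat_lit 0) (nat_lit 4177567735) (nat_lit 11) (nat_lit 5) (nat_lit 13) (nat_lit 4) (nat_lit 11) (nat_lit 4) (nat_lit 336) (nat_lit 286) (nat_lit 278)) (XT.lf (nat_lit 0) (nat_lit 11866769653) (nat_lit 152) (nat_lit 130771397) (nat_lit 0) (nat_lit 9254978609) (nat_lit 11) (nat_lit 5) (nat_lit 13) (nat_lit 4) (nat_lit 11) (nat_lit 4) (nat_lit 337) (nat_lit 286) (nat_lit 277))) (XT.nd (nat_lit 78) (nat_lit 152) (nat_lit 0) (XT.lf (nat_lit 0) (nat_lit 9898765274) (nat_lit 76) (nat_lit 7719962323) (nat_lit 76) (nat_lit 4914512512) (nat_lit 10) (nat_lit 4) (nat_lit 11) (nat_lit 5) (nat_lit 11) (nat_lit 4) (nat_lit 338) (nat_lit 286) (nat_lit 276)) (XT.nd (nat_lit 78) (nat_lit 152) (nat_lit 0) (XT.lf (nat_lit 0) (nat_lit 20372903403) (nat_lit 76) (nat_lit 3271624847) (nat_lit 76) (nat_lit 286861365) (nat_lit 10) (nat_lit 4) (nat_lit 11) (nat_lit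 5) (nat_lit 11) (nat_lit 4) (nat_lit 339) (nat_lit 286) (nat_lit 275)) (XT.lf (nat_lit 0) (nat_lit 4480865418) (nat_lit 152) (nat_lit 19387613424) (nat_lit 0) (nat_lit 1563462955) (nat_lit 8) (nat_lit 5) (nat_lit 10) (nat_lit 4) (nat_lit 8) (nat_lit 4) (nat_lit 340) (nat_lit 286) (nat_lit 274))))))))
noncomputable def xc55 : XT := (XT.nd (nat_lit 1326) (nat_lit 152) (nat_lit 0) (XT.nd (nat_lit 624) (nat_lit 76) (nat_lit 0) (XT.nd (nat_lit 312) (nat_lit 152) (nat_lit 0) (XT.nd (nat_lit 156) (nat_lit 76) (nat_lit 0) (XT.nd (nat_lit 78) (nat_lit 0) (nat_lit 0) (XT.lf (nat_lit 0) (nat_lit 9620143058) (nat_lit 152) (nat_lit 10871005582) (nat_lit 0) (nat_lit 6560395620) (nat_lit 8) (nat_lit 5) (nat_lit 10) (nat_lit 4) (nat_lit 8) (nat_lit 4) (nat_lit 341) (nat_lit 286) (nat_lit 273)) (XT.lf (nat_lit 0) (nat_lit 15004665629) (nat_lit 152) (nat_lit 1996252521) (nat_lit 0) (nat_lit 11813117289)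 (nat_lit 8) (nat_lit 5) (nat_lit 10) (nat_lit 4) (nat_lit 8) (nat_lit 4) (nat_lit 342) (nat_lit 286) (nat_lit 272))) (XT.nd (nat_lit 78) (nat_lit 0) (nat_lit 0) (XT.lf (nat_lit 0) (nat_lit 7673075185) (nat_lit 76) (nat_lit 13177803871) (nat_lit 76) (nat_lit 9864217659) (nat_lit 7) (nat_lit 4) (nat_lit 8) (nat_lit 5) (nat_lit 8) (nat_lit 4) (nat_lit 343) (nat_lit 286) (nat_lit 271)) (XT.lf (nat_lit 0) (nat_lit 17937809656) (nat_lit 76) (nat_lit 9132316180) (nat_lit 76) (nat_lit 5705731938) (nat_lit 7) (nat_lit 4) (nat_lit 8) (nat_lit 5) (nat_lit 8) (nat_lit 4) (nat_lit 344) (nat_lit 286) (nat_lit 270)))) (XT.nd (nat_lit 156) (nat_lit 0) (nat_lit 0) (XT.nd (nat_lit 78) (nat_lit 152) (nat_lit 0) (XT.lf (nat_lit 0) (nat_lit 28753659827) (nat_lit 76) (nat_lit 4895062900) (nat_lit 76) (nat_lit 1363850852) (nat_lit 7) (nat_lit 4) (nat_lit 8) (nat_lit 5) (nat_lit 8) (nat_lit 4) (nat_lit 345) (nat_lit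 286) (nat_lit 269)) (XT.lf (nat_lit 0) (nat_lit 2810144534) (nat_lit 76) (nat_lit 285160359) (nat_lit 152) (nat_lit 34331655030) (nat_lit 5) (nat_lit 5) (nat_lit 6) (nat_lit 5) (nat_lit 7) (nat_lit 4) (nat_lit 346) (nat_lit 286) (nat_lit 268))) (XT.nd (nat_lit 78) (nat_lit 0) (nat_lit 0) (XT.lf (nat_lit 0) (nat_lit 7995399885) (nat_lit 152) (nat_lit 27470662119) (nat_lit 0) (nat_lit 4553000696) (nat_lit 5) (nat_lit 5) (nat_lit 7) (nat_lit 4) (nat_lit 5) (nat_lit 4) (nat_lit 347) (nat_lit 286) (nat_lit 267)) (XT.lf (nat_lit 0) (nat_lit 13174016476) (nat_lit 152) (nat_lit 19998911814) (nat_lit 0) (nat_lit 9654712726) (nat_lit 5) (nat_lit 5) (nat_lit 7) (nat_lit 4) (nat_lit 5) (nat_lit 4) (nat_lit 348) (nat_lit 286) (nat_lit 266))))) (XT.nd (nat_lit 312) (nat_lit 0) (nat_lit 0) (XT.nd (nat_lit 156) (nat_lit 76) (nat_lit 0) (XT.nd (nat_lit 78) (nat_lit 0) (nat_lit 0) (XT.lf (nat_lit 0) (nat_lit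 18654984652) (nat_lit 152) (nat_lit 12150429321) (nat_lit 0) (nat_lit 15064472976) (nat_lit 5) (nat_lit 5) (nat_lit 7) (nat_lit 4) (nat_lit 5) (nat_lit 4) (nat_lit 349) (nat_lit 286) (nat_lit 265)) (XT.lf (nat_lit 0) (nat_lit 24470784224) (nat_lit 152) (nat_lit 3878705114) (nat_lit 0) (nat_lit 20814339282) (nat_lit 5) (nat_lit 5) (nat_lit 7) (nat_lit 4) (nat_lit 5) (nat_lit 4) (nat_lit 350) (nat_lit 286) (nat_lit 264))) (XT.nd (nat_lit 78) (nat_lit 0) (nat_lit 0) (XT.lf (nat_lit 0) (nat_lit 5121475370) (nat_lit 76) (nat_lit 25657575424) (nat_lit 76) (nat_lit 21940081164) (nat_lit 4) (nat_lit 4) (nat_lit 5) (nat_lit 5) (nat_lit 5) (nat_lit 4) (nat_lit 351) (nat_lit 286) (nat_lit 263)) (XT.lf (nat_lit 0) (nat_lit 14877574019) (nat_lit 76) (nat_lit 22727153956) (nat_lit 76) (nat_lit 18953132547) (nat_lit 4) (nat_lit 4) (nat_lit 5) (nat_lit 5) (nat_lit 5) (nat_lit 4) (nat_lit 352) (nat_lit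 286) (nat_lit 262)))) (XT.nd (nat_lit 156) (nat_lit 0) (nat_lit 0) (XT.nd (nat_lit 78) (nat_lit 0) (nat_lit 0) (XT.lf (nat_lit 0) (nat_lit 25243159012) (nat_lit 76) (nat_lit 19646910144) (nat_lit 76) (nat_lit 15820548784) (nat_lit 4) (nat_lit 4) (nat_lit 5) (nat_lit 5) (nat_lit 5) (nat_lit 4) (nat_lit 353) (nat_lit 286) (nat_lit 261)) (XT.lf (nat_lit 0) (nat_lit 36279656038) (nat_lit 76) (nat_lit 16398590692) (nat_lit 76) (nat_lit 12523766413) (nat_lit 4) (nat_lit 4) (nat_lit 5) (nat_lit 5) (nat_lit 5) (nat_lit 4) (nat_lit 354) (nat_lit 286) (nat_lit 260))) (XT.nd (nat_lit 78) (nat_lit 0) (nat_lit 0) (XT.lf (nat_lit 0) (nat_lit 48052466561) (nat_lit 76) (nat_lit 12962946299) (nat_lit 76) (nat_lit 9043248948) (nat_lit 4) (nat_lit 4) (nat_lit 5) (nat_lit 5) (nat_lit 5) (nat_lit 4) (nat_lit 355) (nat_lit 286) (nat_lit 259)) (XT.nd (nat_lit 78) (nat_lit 0) (nat_lit 0) (XT.lf (nat_lit 0) (nat_lit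 60631355385) (nat_lit 76) (nat_lit 9319617591) (nat_lit 76) (nat_lit 5358371100) (nat_lit 4) (nat_lit 4) (nat_lit 5) (nat_lit 5) (nat_lit 5) (nat_lit 4) (nat_lit 356) (nat_lit 286) (nat_lit 258)) (XT.lf (nat_lit 0) (nat_lit 74090864071) (nat_lit 76) (nat_lit 5447014473) (nat_lit 76) (nat_lit 1447296554) (nat_lit 4) (nat_lit 4) (nat_lit 5) (nat_lit 5) (nat_lit 5) (nat_lit 4) (nat_lit 357) (nat_lit 286) (nat_lit 257))))))) (XT.nd (nat_lit 702) (nat_lit 0) (nat_lit 0) (XT.nd (nat_lit 312) (nat_lit 0) (nat_lit 0) (XT.nd (nat_lit 156) (nat_lit 0) (nat_lit 0) (XT.nd (nat_lit 78) (nat_lit 0) (nat_lit 0) (XT.lf (nat_lit 0) (nat_lit 1395521522) (nat_lit 76) (nat_lit 1215469406) (nat_lit 152) (nat_lit 84500893407) (nat_lit 2) (nat_lit 5) (nat_lit 3) (nat_lit 5) (nat_lit 4) (nat_lit 4) (nat_lit 358) (nat_lit 286) (nat_lit 256)) (XT.lf (nat_lit 0) (nat_lit 7129766029) (nat_lit 152) (nat_lit 83216046304)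 (nat_lit 0) (nat_lit 3362800605) (nat_lit 2) (nat_lit 5) (nat_lit 4) (nat_lit 4) (nat_lit 2) (nat_lit 4) (nat_lit 359) (nat_lit 286) (nat_lit 255))) (XT.nd (nat_lit 78) (nat_lit 0) (nat_lit 0) (XT.lf (nat_lit 0) (nat_lit 11986001897) (nat_lit 152) (nat_lit 80658252861) (nat_lit 0) (nat_lit 8190758826) (nat_lit 2) (nat_lit 5) (nat_lit 4) (nat_lit 4) (nat_lit 2) (nat_lit 4) (nat_lit 360) (nat_lit 286) (nat_lit 254)) (XT.lf (nat_lit 0) (nat_lit 17179244159) (nat_lit 152) (nat_lit 77998593122) (nat_lit 0) (nat_lit 13357818081) (nat_lit 2) (nat_lit 5) (nat_lit 4) (nat_lit 4) (nat_lit 2) (nat_lit 4) (nat_lit 361) (nat_lit 286) (nat_lit 253)))) (XT.nd (nat_lit 156) (nat_lit 0) (nat_lit 0) (XT.nd (nat_lit 78) (nat_lit 0) (nat_lit 0) (XT.lf (nat_lit 0) (nat_lit 22740267583) (nat_lit 152) (nat_lit 75221306141) (nat_lit 0) (nat_lit 18894597980) (nat_lit 2) (nat_lit 5) (nat_lit 4) (nat_lit 4) (nat_lit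 2) (nat_lit 4) (nat_lit 362) (nat_lit 286) (nat_lit 252)) (XT.lf (nat_lit 0) (nat_lit 28702026383) (nat_lit 152) (nat_lit 72309933921) (nat_lit 0) (nat_lit 24833909071) (nat_lit 2) (nat_lit 5) (nat_lit 4) (nat_lit 4) (nat_lit 2) (nat_lit 4) (nat_lit 363) (nat_lit 286) (nat_lit 251))) (XT.nd (nat_lit 78) (nat_lit 0) (nat_lit 0) (XT.lf (nat_lit 0) (nat_lit 35099849498) (nat_lit 152) (nat_lit 69247223885) (nat_lit 0) (nat_lit 31210947272) (nat_lit 2) (nat_lit 5) (nat_lit 4) (nat_lit 4) (nat_lit 2) (nat_lit 4) (nat_lit 364) (nat_lit 286) (nat_lit 250)) (XT.nd (nat_lit 78) (nat_lit 0) (nat_lit 0) (XT.lf (nat_lit 0) (nat_lit 41971649956) (nat_lit 152) (nat_lit 66015026640) (nat_lit 0) (nat_lit 38063502439) (nat_lit 2) (nat_lit 5) (nat_lit 4) (nat_lit 4) (nat_lit 2) (nat_lit 4) (nat_lit 365) (nat_lit 286) (nat_lit 249)) (XT.lf (nat_lit 0) (nat_lit 49358149537) (nat_lit 152) (nat_lit 62594188426)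 (nat_lit 0) (nat_lit 45432182305) (nat_lit 2) (nat_lit 5) (nat_lit 4) (nat_lit 4) (nat_lit 2) (nat_lit 4) (nat_lit 366) (nat_lit 286) (nat_lit 248)))))) (XT.nd (nat_lit 312) (nat_lit 0) (nat_lit 0) (XT.nd (nat_lit 156) (nat_lit 0) (nat_lit 0) (XT.nd (nat_lit 78) (nat_lit 0) (nat_lit 0) (XT.lf (nat_lit 0) (nat_lit 57303120090) (nat_lit 152) (nat_lit 58964437609) (nat_lit 0) (nat_lit 53360653122) (nat_lit 2) (nat_lit 5) (nat_lit 4) (nat_lit 4) (nat_lit 2) (nat_lit 4) (nat_lit 367) (nat_lit 286) (nat_lit 247)) (XT.lf (nat_lit 0) (nat_lit 65853642922) (nat_lit 152) (nat_lit 55104264553) (nat_lit 0) (nat_lit 61895898421) (nat_lit 2) (nat_lit 5) (nat_lit 4) (nat_lit 4) (nat_lit 2) (nat_lit 4) (nat_lit 368) (nat_lit 286) (nat_lit 246))) (XT.nd (nat_lit 78) (nat_lit 0) (nat_lit 0) (XT.lf (nat_lit 0) (nat_lit 75060387798) (nat_lit 152) (nat_lit 50990794159) (nat_lit 0) (nat_lit 71088497433) (nat_lit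 2) (nat_lit 5) (nat_lit 4) (nat_lit 4) (nat_lit 2) (nat_lit 4) (nat_lit 369) (nat_lit 286) (nat_lit 245)) (XT.lf (nat_lit 0) (nat_lit 84977913206) (nat_lit 152) (nat_lit 46599650308) (nat_lit 0) (nat_lit 80992924819) (nat_lit 2) (nat_lit 5) (nat_lit 4) (nat_lit 4) (nat_lit 2) (nat_lit 4) (nat_lit 370) (nat_lit 286) (nat_lit 244)))) (XT.nd (nat_lit 156) (nat_lit 0) (nat_lit 0) (XT.nd (nat_lit 78) (nat_lit 0) (nat_lit 0) (XT.lf (nat_lit 0) (nat_lit 95664989667) (nat_lit 152) (nat_lit 41904811404) (nat_lit 0) (nat_lit 91667873482) (nat_lit 2) (nat_lit 5) (nat_lit 4) (nat_lit 4) (nat_lit 2) (nat_lit 4) (nat_lit 371) (nat_lit 286) (nat_lit 243)) (XT.lf (nat_lit 0) (nat_lit 107184948005) (nat_lit 152) (nat_lit 36878456181) (nat_lit 0) (nat_lit 103176602377) (nat_lit 2) (nat_lit 5) (nat_lit 4) (nat_lit 4) (nat_lit 2) (nat_lit 4) (nat_lit 372) (nat_lit 286) (nat_lit 242))) (XT.nd (nat_lit 78)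 (nat_lit 0) (nat_lit 0) (XT.lf (nat_lit 0) (nat_lit 119606054639) (nat_lit 152) (nat_lit 31490798830) (nat_lit 0) (nat_lit 115587311379) (nat_lit 2) (nat_lit 5) (nat_lit 4) (nat_lit 4) (nat_lit 2) (nat_lit 4) (nat_lit 373) (nat_lit 286) (nat_lit 241)) (XT.nd (nat_lit 78) (nat_lit 0) (nat_lit 0) (XT.lf (nat_lit 0) (nat_lit 133001916127) (nat_lit 152) (nat_lit 25709912493) (nat_lit 0) (nat_lit 128973545430) (nat_lit 2) (nat_lit 5) (nat_lit 4) (nat_lit 4) (nat_lit 2) (nat_lit 4) (nat_lit 374) (nat_lit 286) (nat_lit 240)) (XT.lf (nat_lit 0) (nat_lit 147451915352) (nat_lit 152) (nat_lit 19501540065) (nat_lit 0) (nat_lit 143414630361) (nat_lit 2) (nat_lit 5) (nat_lit 4) (nat_lit 4) (nat_lit 2) (nat_lit 4) (nat_lit 375) (nat_lit 286) (nat_lit 239))))))))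
noncomputable def xc56 : XT := (XT.nd (nat_lit 1326) (nat_lit 0) (nat_lit 0) (XT.nd (nat_lit 624) (nat_lit 0) (nat_lit 0) (XT.nd (nat_lit 312) (nat_lit 0) (nat_lit 0) (XT.nd (nat_lit 156) (nat_lit 76) (nat_lit 0) (XT.nd (nat_lit 78) (nat_lit 0) (nat_lit 0) (XT.lf (nat_lit 0) (nat_lit 163041681939) (nat_lit 152) (nat_lit 12828891192) (nat_lit 0) (nat_lit 158996142973) (nat_lit 2) (nat_lit 5) (nat_lit 4) (nat_lit 4) (nat_lit 2) (nat_lit 4) (nat_lit 376) (nat_lit 286) (nat_lit 238)) (XT.lf (nat_lit 0) (nat_lit 179863599691) (nat_lit 152) (nat_lit 5652424249) (nat_lit 0) (nat_lit 175810418154) (nat_lit 2) (nat_lit 5) (nat_lit 4) (nat_lit 4) (nat_lit 2) (nat_lit 4) (nat_lit 377) (nat_lit 286) (nat_lit 237))) (XT.nd (nat_lit 78) (nat_lit 0) (nat_lit 0) (XT.lf (nat_lit 0) (nat_lit 2179410934) (nat_lit 76) (nat_lit 195890357996) (nat_lit 76) (nat_lit 191830100006) (nat_lit 1) (nat_lit 4) (nat_lit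 2) (nat_lit 5) (nat_lit 2) (nat_lit 4) (nat_lit 378) (nat_lit 286) (nat_lit 236)) (XT.lf (nat_lit 0) (nat_lit 10932182324) (nat_lit 76) (nat_lit 206941259729) (nat_lit 76) (nat_lit 202874449467) (nat_lit 1) (nat_lit 4) (nat_lit 2) (nat_lit 5) (nat_lit 2) (nat_lit 4) (nat_lit 379) (nat_lit 286) (nat_lit 235)))) (XT.nd (nat_lit 156) (nat_lit 0) (nat_lit 0) (XT.nd (nat_lit 78) (nat_lit 0) (nat_lit 0) (XT.lf (nat_lit 0) (nat_lit 20360111550) (nat_lit 76) (nat_lit 218888763261) (nat_lit 76) (nat_lit 214815886080) (nat_lit 1) (nat_lit 4) (nat_lit 2) (nat_lit 5) (nat_lit 2) (nat_lit 4) (nat_lit 380) (nat_lit 286) (nat_lit 234)) (XT.lf (nat_lit 0) (nat_lit 30519067823) (nat_lit 76) (nat_lit 231803668612) (nat_lit 76) (nat_lit 227725173914) (nat_lit 1) (nat_lit 4) (nat_lit 2) (nat_lit 5) (nat_lit 2) (nat_lit 4) (nat_lit 381) (nat_lit 286) (nat_lit 233))) (XT.nd (nat_lit 78) (nat_lit 0) (nat_lit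 0) (XT.lf (nat_lit 0) (nat_lit 41469252364) (nat_lit 76) (nat_lit 245762508555) (nat_lit 76) (nat_lit 241678812452) (nat_lit 1) (nat_lit 4) (nat_lit 2) (nat_lit 5) (nat_lit 2) (nat_lit 4) (nat_lit 382) (nat_lit 286) (nat_lit 232)) (XT.lf (nat_lit 0) (nat_lit 53275555158) (nat_lit 76) (nat_lit 260848002142) (nat_lit 76) (nat_lit 256759489924) (nat_lit 1) (nat_lit 4) (nat_lit 2) (nat_lit 5) (nat_lit 2) (nat_lit 4) (nat_lit 383) (nat_lit 286) (nat_lit 231))))) (XT.nd (nat_lit 312) (nat_lit 0) (nat_lit 0) (XT.nd (nat_lit 156) (nat_lit 0) (nat_lit 0) (XT.nd (nat_lit 78) (nat_lit 0) (nat_lit 0) (XT.lf (nat_lit 0) (nat_lit 66007939479) (nat_lit 76) (nat_lit 277149544890) (nat_lit 76) (nat_lit 273056573306) (nat_lit 1) (nat_lit 4) (nat_lit 2) (nat_lit 5) (nat_lit 2) (nat_lit 4) (nat_lit 384) (nat_lit 286) (nat_lit 230)) (XT.lf (nat_lit 0) (nat_lit 79741856493) (nat_lit 76) (nat_lit 294763738534)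 (nat_lit 76) (nat_lit 290666637907) (nat_lit 1) (nat_lit 4) (nat_lit 2) (nat_lit 5) (nat_lit 2) (nat_lit 4) (nat_lit 385) (nat_lit 286) (nat_lit 229))) (XT.nd (nat_lit 78) (nat_lit 0) (nat_lit 0) (XT.lf (nat_lit 0) (nat_lit 94558692376) (nat_lit 76) (nat_lit 313794963481) (nat_lit 76) (nat_lit 309694039665) (nat_lit 1) (nat_lit 4) (nat_lit 2) (nat_lit 5) (nat_lit 2) (nat_lit 4) (nat_lit 386) (nat_lit 286) (nat_lit 228)) (XT.lf (nat_lit 0) (nat_lit 110546250600) (nat_lit 76) (nat_lit 334355997359) (nat_lit 76) (nat_lit 330251533555) (nat_lit 1) (nat_lit 4) (nat_lit 2) (nat_lit 5) (nat_lit 2) (nat_lit 4) (nat_lit 387) (nat_lit 286) (nat_lit 227)))) (XT.nd (nat_lit 156) (nat_lit 0) (nat_lit 0) (XT.nd (nat_lit 78) (nat_lit 0) (nat_lit 0) (XT.lf (nat_lit 0) (nat_lit 127799272250) (nat_lit 76) (nat_lit 356568683333) (nat_lit 76) (nat_lit 352460941762) (nat_lit 1) (nat_lit 4) (nat_lit 2) (nat_lit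 5) (nat_lit 2) (nat_lit 4) (nat_lit 388) (nat_lit 286) (nat_lit 226)) (XT.lf (nat_lit 0) (nat_lit 146419997454) (nat_lit 76) (nat_lit 380564652135) (nat_lit 76) (nat_lit 376453875594) (nat_lit 1) (nat_lit 4) (nat_lit 2) (nat_lit 5) (nat_lit 2) (nat_lit 4) (nat_lit 389) (nat_lit 286) (nat_lit 225))) (XT.nd (nat_lit 78) (nat_lit 0) (nat_lit 0) (XT.lf (nat_lit 0) (nat_lit 166518771251) (nat_lit 76) (nat_lit 406486102098) (nat_lit 76) (nat_lit 402372515400) (nat_lit 1) (nat_lit 4) (nat_lit 2) (nat_lit 5) (nat_lit 2) (nat_lit 4) (nat_lit 390) (nat_lit 286) (nat_lit 224)) (XT.nd (nat_lit 78) (nat_lit 0) (nat_lit 0) (XT.lf (nat_lit 0) (nat_lit 188214697486) (nat_lit 76) (nat_lit 434486641814) (nat_lit 76) (nat_lit 430370453119) (nat_lit 1) (nat_lit 4) (nat_lit 2) (nat_lit 5) (nat_lit 2) (nat_lit 4) (nat_lit 391) (nat_lit 286) (nat_lit 223)) (XT.lf (nat_lit 0) (nat_lit 211636344610) (nat_lit 76)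 (nat_lit 464732200408) (nat_lit 76) (nat_lit 460613602456) (nat_lit 1) (nat_lit 4) (nat_lit 2) (nat_lit 5) (nat_lit 2) (nat_lit 4) (nat_lit 392) (nat_lit 286) (nat_lit 222))))))) (XT.nd (nat_lit 624) (nat_lit 0) (nat_lit 0) (XT.nd (nat_lit 312) (nat_lit 0) (nat_lit 0) (XT.nd (nat_lit 156) (nat_lit 0) (nat_lit 0) (XT.nd (nat_lit 78) (nat_lit 0) (nat_lit 0) (XT.lf (nat_lit 0) (nat_lit 236922507569) (nat_lit 76) (nat_lit 497402010820) (nat_lit 76) (nat_lit 493281182074) (nat_lit 1) (nat_lit 4) (nat_lit 2) (nat_lit 5) (nat_lit 2) (nat_lit 4) (nat_lit 393) (nat_lit 286) (nat_lit 221)) (XT.lf (nat_lit 0) (nat_lit 264223030293) (nat_lit 76) (nat_lit 532689671925) (nat_lit 76) (nat_lit 528566777630) (nat_lit 1) (nat_lit 4) (nat_lit 2) (nat_lit 5) (nat_lit 2) (nat_lit 4) (nat_lit 394) (nat_lit 286) (nat_lit 220))) (XT.nd (nat_lit 78) (nat_lit 0) (nat_lit 0) (XT.lf (nat_lit 0) (nat_lit 293699693655)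 (nat_lit 76) (nat_lit 570804295790) (nat_lit 76) (nat_lit 566679488950) (nat_lit 1) (nat_lit 4) (nat_lit 2) (nat_lit 5) (nat_lit 2) (nat_lit 4) (nat_lit 395) (nat_lit 286) (nat_lit 219)) (XT.lf (nat_lit 0) (nat_lit 325527174180) (nat_lit 76) (nat_lit 611971746853) (nat_lit 76) (nat_lit 607845169137) (nat_lit 1) (nat_lit 4) (nat_lit 2) (nat_lit 5) (nat_lit 2) (nat_lit 4) (nat_lit 396) (nat_lit 286) (nat_lit 218)))) (XT.nd (nat_lit 156) (nat_lit 0) (nat_lit 0) (XT.nd (nat_lit 78) (nat_lit 0) (nat_lit 0) (XT.lf (nat_lit 0) (nat_lit 359894079160) (nat_lit 76) (nat_lit 656435980379) (nat_lit 76) (nat_lit 652307762963) (nat_lit 1) (nat_lit 4) (nat_lit 2) (nat_lit 5) (nat_lit 2) (nat_lit 4) (nat_lit 397) (nat_lit 286) (nat_lit 217)) (XT.lf (nat_lit 0) (nat_lit 397004064328) (nat_lit 76) (nat_lit 704460488122) (nat_lit 76) (nat_lit 700330752466) (nat_lit 1) (nat_lit 4) (nat_lit 2) (nat_lit 5)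 (nat_lit 2) (nat_lit 4) (nat_lit 398) (nat_lit 286) (nat_lit 216))) (XT.nd (nat_lit 78) (nat_lit 0) (nat_lit 0) (XT.lf (nat_lit 0) (nat_lit 437077040708) (nat_lit 76) (nat_lit 756329859758) (nat_lit 76) (nat_lit 752198718324) (nat_lit 1) (nat_lit 4) (nat_lit 2) (nat_lit 5) (nat_lit 2) (nat_lit 4) (nat_lit 399) (nat_lit 286) (nat_lit 215)) (XT.lf (nat_lit 0) (nat_lit 480350477789) (nat_lit 76) (nat_lit 812351469342) (nat_lit 76) (nat_lit 808219026260) (nat_lit 1) (nat_lit 4) (nat_lit 2) (nat_lit 5) (nat_lit 2) (nat_lit 4) (nat_lit 400) (nat_lit 286) (nat_lit 214))))) (XT.nd (nat_lit 312) (nat_lit 0) (nat_lit 0) (XT.nd (nat_lit 156) (nat_lit 0) (nat_lit 0) (XT.nd (nat_lit 78) (nat_lit 0) (nat_lit 0) (XT.lf (nat_lit 0) (nat_lit 527080810753) (nat_lit 76) (nat_lit 872857296780) (nat_lit 76) (nat_lit 868723648471) (nat_lit 1) (nat_lit 4) (nat_lit 2) (nat_lit 5) (nat_lit 2) (nat_lit 4) (nat_lit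 401) (nat_lit 286) (nat_lit 213)) (XT.lf (nat_lit 0) (nat_lit 577544960092) (nat_lit 76) (nat_lit 938205895126) (nat_lit 76) (nat_lit 934071130864) (nat_lit 1) (nat_lit 4) (nat_lit 2) (nat_lit 5) (nat_lit 2) (nat_lit 4) (nat_lit 402) (nat_lit 286) (nat_lit 212))) (XT.nd (nat_lit 78) (nat_lit 0) (nat_lit 0) (XT.lf (nat_lit 0) (nat_lit 632041972618) (nat_lit 76) (nat_lit 1008784515332) (nat_lit 76) (nat_lit 1004648717782) (nat_lit 1) (nat_lit 4) (nat_lit 2) (nat_lit 5) (nat_lit 2) (nat_lit 4) (nat_lit 403) (nat_lit 286) (nat_lit 211)) (XT.lf (nat_lit 0) (nat_lit 690894793589) (nat_lit 76) (nat_lit 1085011401074) (nat_lit 76) (nat_lit 1080874646774) (nat_lit 1) (nat_lit 4) (nat_lit 2) (nat_lit 5) (nat_lit 2) (nat_lit 4) (nat_lit 404) (nat_lit 286) (nat_lit 210)))) (XT.nd (nat_lit 156) (nat_lit 0) (nat_lit 0) (XT.nd (nat_lit 78) (nat_lit 0) (nat_lit 0) (XT.lf (nat_lit 0) (nat_lit 754452180464)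 (nat_lit 76) (nat_lit 1167338267230) (nat_lit 76) (nat_lit 1163200627051) (nat_lit 1) (nat_lit 4) (nat_lit 2) (nat_lit 5) (nat_lit 2) (nat_lit 4) (nat_lit 405) (nat_lit 286) (nat_lit 209)) (XT.lf (nat_lit 0) (nat_lit 823090769609) (nat_lit 76) (nat_lit 1256252976710) (nat_lit 76) (nat_lit 1252114516273) (nat_lit 1) (nat_lit 4) (nat_lit 2) (nat_lit 5) (nat_lit 2) (nat_lit 4) (nat_lit 406) (nat_lit 286) (nat_lit 208))) (XT.nd (nat_lit 78) (nat_lit 0) (nat_lit 0) (XT.lf (nat_lit 0) (nat_lit 897217308218) (nat_lit 76) (nat_lit 1352282431497) (nat_lit 76) (nat_lit 1348143211562) (nat_lit 1) (nat_lit 4) (nat_lit 2) (nat_lit 5) (nat_lit 2) (nat_lit 4) (nat_lit 407) (nat_lit 286) (nat_lit 207)) (XT.nd (nat_lit 78) (nat_lit 0) (nat_lit 0) (XT.lf (nat_lit 0) (nat_lit 977271064669) (nat_lit 76) (nat_lit 1455995695026) (nat_lit 76) (nat_lit 1451855771853) (nat_lit 1) (nat_lit 4) (nat_lit 2) (nat_lit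 5) (nat_lit 2) (nat_lit 4) (nat_lit 408) (nat_lit 286) (nat_lit 206)) (XT.lf (nat_lit 0) (nat_lit 1063726431593) (nat_lit 76) (nat_lit 1568007364415) (nat_lit 76) (nat_lit 1563866790094) (nat_lit 1) (nat_lit 4) (nat_lit 2) (nat_lit 5) (nat_lit 2) (nat_lit 4) (nat_lit 409) (nat_lit 286) (nat_lit 205))))))))
noncomputable def xc57 : XT := (XT.nd (nat_lit 41262) (nat_lit 0) (nat_lit 228) (XT.nd (nat_lit 40560) (nat_lit 0) (nat_lit 760) (XT.nd (nat_lit 312) (nat_lit 0) (nat_lit 0) (XT.nd (nat_lit 156) (nat_lit 0) (nat_lit 0) (XT.nd (nat_lit 78) (nat_lit 0) (nat_lit 0) (XT.lf (nat_lit 0) (nat_lit 1157095737089) (nat_lit 76) (nat_lit 1688981212520) (nat_lit 76) (nat_lit 1684840035285) (nat_lit 1) (nat_lit 4) (nat_lit 2) (nat_lit 5) (nat_lit 2) (nat_lit 4) (nat_lit 410) (nat_lit 286) (nat_lit 204)) (XT.lf (nat_lit 0) (nat_lit 1257932280747) (nat_lit 76) (nat_lit 1819634121403) (nat_lit 76) (nat_lit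 1815492385913) (nat_lit 1) (nat_lit 4) (nat_lit 2) (nat_lit 5) (nat_lit 2) (nat_lit 4) (nat_lit 411) (nat_lit 286) (nat_lit 203))) (XT.nd (nat_lit 78) (nat_lit 0) (nat_lit 0) (XT.lf (nat_lit 0) (nat_lit 1366833612454) (nat_lit 76) (nat_lit 1960740330523) (nat_lit 76) (nat_lit 1956598078133) (nat_lit 1) (nat_lit 4) (nat_lit 2) (nat_lit 5) (nat_lit 2) (nat_lit 4) (nat_lit 412) (nat_lit 286) (nat_lit 202)) (XT.lf (nat_lit 0) (nat_lit 1484445073435) (nat_lit 76) (nat_lit 2113136024825) (nat_lit 76) (nat_lit 2108993293822) (nat_lit 1) (nat_lit 4) (nat_lit 2) (nat_lit 5) (nat_lit 2) (nat_lit 4) (nat_lit 413) (nat_lit 286) (nat_lit 201)))) (XT.nd (nat_lit 40092) (nat_lit 0) (nat_lit 1368) (XT.nd (nat_lit 40014) (nat_lit 0) (nat_lit 1444) (XT.lf (nat_lit 0) (nat_lit 1611463620497) (nat_lit 76) (nat_lit 2277724289904) (nat_lit 76) (nat_lit 2273581115741) (nat_lit 1) (nat_lit 4) (nat_lit 2) (nat_lit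 5) (nat_lit 2) (nat_lit 4) (nat_lit 414) (nat_lit 286) (nat_lit 200)) (XT.lf (nat_lit 0) (nat_lit 1055001994) (nat_lit 152) (nat_lit 3985641786) (nat_lit 0) (nat_lit 1055001994) (nat_lit 20) (nat_lit 5) (nat_lit 22) (nat_lit 4) (nat_lit 20) (nat_lit 4) (nat_lit 326) (nat_lit 287) (nat_lit 287))) (XT.nd (nat_lit 78) (nat_lit 0) (nat_lit 0) (XT.lf (nat_lit 0) (nat_lit 827796203) (nat_lit 76) (nat_lit 6217478257) (nat_lit 76) (nat_lit 5690799282) (nat_lit 19) (nat_lit 4) (nat_lit 20) (nat_lit 5) (nat_lit 20) (nat_lit 4) (nat_lit 327) (nat_lit 287) (nat_lit 286)) (XT.lf (nat_lit 0) (nat_lit 10301917800) (nat_lit 76) (nat_lit 2020635399) (nat_lit 76) (nat_lit 1006290707) (nat_lit 19) (nat_lit 4) (nat_lit 20) (nat_lit 5) (nat_lit 20) (nat_lit 4) (nat_lit 328) (nat_lit 287) (nat_lit 285))))) (XT.nd (nat_lit 312) (nat_lit 228) (nat_lit 0) (XT.nd (nat_lit 156) (nat_lit 152) (nat_lit 0) (XT.nd (nat_lit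 78) (nat_lit 76) (nat_lit 0) (XT.lf (nat_lit 0) (nat_lit 3806954631) (nat_lit 152) (nat_lit 7708248086) (nat_lit 0) (nat_lit 2449651832) (nat_lit 17) (nat_lit 5) (nat_lit 19) (nat_lit 4) (nat_lit 17) (nat_lit 4) (nat_lit 329) (nat_lit 287) (nat_lit 284)) (XT.lf (nat_lit 0) (nat_lit 1331865076) (nat_lit 76) (nat_lit 7534559128) (nat_lit 76) (nat_lit 5790131560) (nat_lit 16) (nat_lit 4) (nat_lit 17) (nat_lit 5) (nat_lit 17) (nat_lit 4) (nat_lit 330) (nat_lit 287) (nat_lit 283))) (XT.nd (nat_lit 78) (nat_lit 152) (nat_lit 0) (XT.lf (nat_lit 0) (nat_lit 11081475123) (nat_lit 76) (nat_lit 3213971648) (nat_lit 76) (nat_lit 1111095219) (nat_lit 16) (nat_lit 4) (nat_lit 17) (nat_lit 5) (nat_lit 17) (nat_lit 4) (nat_lit 331) (nat_lit 287) (nat_lit 282)) (XT.lf (nat_lit 0) (nat_lit 3670386996) (nat_lit 152) (nat_lit 11128675284) (nat_lit 0) (nat_lit 1415967068) (nat_lit 14) (nat_lit 5) (nat_lit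 16) (nat_lit 4) (nat_lit 14) (nat_lit 4) (nat_lit 332) (nat_lit 287) (nat_lit 281)))) (XT.nd (nat_lit 156) (nat_lit 152) (nat_lit 0) (XT.nd (nat_lit 78) (nat_lit 76) (nat_lit 0) (XT.lf (nat_lit 0) (nat_lit 8747949865) (nat_lit 152) (nat_lit 2131173399) (nat_lit 0) (nat_lit 6208981675) (nat_lit 14) (nat_lit 5) (nat_lit 16) (nat_lit 4) (nat_lit 14) (nat_lit 4) (nat_lit 333) (nat_lit 287) (nat_lit 280)) (XT.lf (nat_lit 0) (nat_lit 7562893921) (nat_lit 76) (nat_lit 6636622496) (nat_lit 76) (nat_lit 3834183693) (nat_lit 13) (nat_lit 4) (nat_lit 14) (nat_lit 5) (nat_lit 14) (nat_lit 4) (nat_lit 334) (nat_lit 287) (nat_lit 279))) (XT.nd (nat_lit 78) (nat_lit 76) (nat_lit 0) (XT.lf (nat_lit 0) (nat_lit 827288091) (nat_lit 152) (nat_lit 1325633843) (nat_lit 76) (nat_lit 16912385544) (nat_lit 12) (nat_lit 5) (nat_lit 14) (nat_lit 5) (nat_lit 13) (nat_lit 4) (nat_lit 335) (nat_lit 287) (nat_lit 278))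 (XT.nd (nat_lit 78) (nat_lit 0) (nat_lit 0) (XT.lf (nat_lit 0) (nat_lit 5730079372) (nat_lit 152) (nat_lit 11735236911) (nat_lit 0) (nat_lit 2700193577) (nat_lit 11) (nat_lit 5) (nat_lit 13) (nat_lit 4) (nat_lit 11) (nat_lit 4) (nat_lit 336) (nat_lit 287) (nat_lit 277)) (XT.lf (nat_lit 0) (nat_lit 10922605690) (nat_lit 152) (nat_lit 2740332284) (nat_lit 0) (nat_lit 7699061129) (nat_lit 11) (nat_lit 5) (nat_lit 13) (nat_lit 4) (nat_lit 11) (nat_lit 4) (nat_lit 337) (nat_lit 287) (nat_lit 276))))))) (XT.nd (nat_lit 624) (nat_lit 228) (nat_lit 0) (XT.nd (nat_lit 312) (nat_lit 76) (nat_lit 0) (XT.nd (nat_lit 156) (nat_lit 152) (nat_lit 0) (XT.nd (nat_lit 78) (nat_lit 0) (nat_lit 0) (XT.lf (nat_lit 0) (nat_lit 6976213304) (nat_lit 76) (nat_lit 9540992494) (nat_lit 76) (nat_lit 6138134260) (nat_lit 10) (nat_lit 4) (nat_lit 11) (nat_lit 5) (nat_lit 11) (nat_lit 4) (nat_lit 338) (nat_lit 287)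 (nat_lit 275)) (XT.lf (nat_lit 0) (nat_lit 17287780847) (nat_lit 76) (nat_lit 5170695045) (nat_lit 76) (nat_lit 1601805633) (nat_lit 10) (nat_lit 4) (nat_lit 11) (nat_lit 5) (nat_lit 11) (nat_lit 4) (nat_lit 339) (nat_lit 287) (nat_lit 274))) (XT.nd (nat_lit 78) (nat_lit 0) (nat_lit 0) (XT.lf (nat_lit 0) (nat_lit 2574172997) (nat_lit 76) (nat_lit 453132281) (nat_lit 152) (nat_lit 22552435266) (nat_lit 8) (nat_lit 5) (nat_lit 9) (nat_lit 5) (nat_lit 10) (nat_lit 4) (nat_lit 340) (nat_lit 287) (nat_lit 273)) (XT.lf (nat_lit 0) (nat_lit 8075926768) (nat_lit 152) (nat_lit 14633438503) (nat_lit 0) (nat_lit 4497253659) (nat_lit 8) (nat_lit 5) (nat_lit 10) (nat_lit 4) (nat_lit 8) (nat_lit 4) (nat_lit 341) (nat_lit 287) (nat_lit 272)))) (XT.nd (nat_lit 156) (nat_lit 0) (nat_lit 0) (XT.nd (nat_lit 78) (nat_lit 76) (nat_lit 0) (XT.lf (nat_lit 0) (nat_lit 13386599055) (nat_lit 152) (nat_lit 5902552700)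 (nat_lit 0) (nat_lit 9685888073) (nat_lit 8) (nat_lit 5) (nat_lit 10) (nat_lit 4) (nat_lit 8) (nat_lit 4) (nat_lit 342) (nat_lit 287) (nat_lit 271)) (XT.lf (nat_lit 0) (nat_lit 3420851112) (nat_lit 76) (nat_lit 15641315385) (nat_lit 76) (nat_lit 11827606374) (nat_lit 7) (nat_lit 4) (nat_lit 8) (nat_lit 5) (nat_lit 8) (nat_lit 4) (nat_lit 343) (nat_lit 287) (nat_lit 270))) (XT.nd (nat_lit 78) (nat_lit 0) (nat_lit 0) (XT.lf (nat_lit 0) (nat_lit 13555747574) (nat_lit 76) (nat_lit 11659228380) (nat_lit 76) (nat_lit 7740891563) (nat_lit 7) (nat_lit 4) (nat_lit 8) (nat_lit 5) (nat_lit 8) (nat_lit 4) (nat_lit 344) (nat_lit 287) (nat_lit 269)) (XT.lf (nat_lit 0) (nat_lit 24251377368) (nat_lit 76) (nat_lit 7480679437) (nat_lit 76) (nat_lit 3465465023) (nat_lit 7) (nat_lit 4) (nat_lit 8) (nat_lit 5) (nat_lit 8) (nat_lit 4) (nat_lit 345) (nat_lit 287) (nat_lit 268))))) (XT.nd (nat_lit 312) (nat_lit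 76) (nat_lit 0) (XT.nd (nat_lit 156) (nat_lit 0) (nat_lit 0) (XT.nd (nat_lit 78) (nat_lit 76) (nat_lit 0) (XT.lf (nat_lit 0) (nat_lit 972784024) (nat_lit 152) (nat_lit 2081525122) (nat_lit 76) (nat_lit 34571740338) (nat_lit 6) (nat_lit 5) (nat_lit 8) (nat_lit 5) (nat_lit 7) (nat_lit 4) (nat_lit 346) (nat_lit 287) (nat_lit 267)) (XT.lf (nat_lit 0) (nat_lit 5694093813) (nat_lit 152) (nat_lit 32722033733) (nat_lit 0) (nat_lit 1816341202) (nat_lit 5) (nat_lit 5) (nat_lit 7) (nat_lit 4) (nat_lit 5) (nat_lit 4) (nat_lit 347) (nat_lit 287) (nat_lit 266))) (XT.nd (nat_lit 78) (nat_lit 0) (nat_lit 0) (XT.lf (nat_lit 0) (nat_lit 10818894181) (nat_lit 152) (nat_lit 25356537195) (nat_lit 0) (nat_lit 6869933645) (nat_lit 5) (nat_lit 5) (nat_lit 7) (nat_lit 4) (nat_lit 5) (nat_lit 4) (nat_lit 348) (nat_lit 287) (nat_lit 265)) (XT.lf (nat_lit 0) (nat_lit 16250032522) (nat_lit 152) (nat_lit 17606437821)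 (nat_lit 0) (nat_lit 12235138720) (nat_lit 5) (nat_lit 5) (nat_lit 7) (nat_lit 4) (nat_lit 5) (nat_lit 4) (nat_lit 349) (nat_lit 287) (nat_lit 264)))) (XT.nd (nat_lit 156) (nat_lit 76) (nat_lit 0) (XT.nd (nat_lit 78) (nat_lit 0) (nat_lit 0) (XT.lf (nat_lit 0) (nat_lit 22019693357) (nat_lit 152) (nat_lit 9425809094) (nat_lit 0) (nat_lit 17943750235) (nat_lit 5) (nat_lit 5) (nat_lit 7) (nat_lit 4) (nat_lit 5) (nat_lit 4) (nat_lit 350) (nat_lit 287) (nat_lit 263)) (XT.lf (nat_lit 0) (nat_lit 28162067270) (nat_lit 152) (nat_lit 766173216) (nat_lit 0) (nat_lit 24029597001) (nat_lit 5) (nat_lit 5) (nat_lit 7) (nat_lit 4) (nat_lit 5) (nat_lit 4) (nat_lit 351) (nat_lit 287) (nat_lit 262))) (XT.nd (nat_lit 78) (nat_lit 0) (nat_lit 0) (XT.lf (nat_lit 0) (nat_lit 8867367826) (nat_lit 76) (nat_lit 26059446096) (nat_lit 76) (nat_lit 21874635875) (nat_lit 4) (nat_lit 4) (nat_lit 5) (nat_lit 5) (nat_lit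 5) (nat_lit 4) (nat_lit 352) (nat_lit 287) (nat_lit 261)) (XT.nd (nat_lit 78) (nat_lit 0) (nat_lit 0) (XT.lf (nat_lit 0) (nat_lit 19156830335) (nat_lit 76) (nat_lit 23016867604) (nat_lit 76) (nat_lit 18783594465) (nat_lit 4) (nat_lit 4) (nat_lit 5) (nat_lit 5) (nat_lit 5) (nat_lit 4) (nat_lit 353) (nat_lit 287) (nat_lit 260)) (XT.lf (nat_lit 0) (nat_lit 30122843580) (nat_lit 76) (nat_lit 19803423447) (nat_lit 76) (nat_lit 15525277236) (nat_lit 4) (nat_lit 4) (nat_lit 5) (nat_lit 5) (nat_lit 5) (nat_lit 4) (nat_lit 354) (nat_lit 287) (nat_lit 259))))))))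
noncomputable def xc58 : XT := (XT.nd (nat_lit 1326) (nat_lit 76) (nat_lit 0) (XT.nd (nat_lit 624) (nat_lit 0) (nat_lit 0) (XT.nd (nat_lit 312) (nat_lit 152) (nat_lit 0) (XT.nd (nat_lit 156) (nat_lit 0) (nat_lit 0) (XT.nd (nat_lit 78) (nat_lit 0) (nat_lit 0) (XT.lf (nat_lit 0) (nat_lit 41830391343) (nat_lit 76) (nat_lit 16400070995) (nat_lit 76) (nat_lit 12080375643) (nat_lit 4) (nat_lit 4) (nat_lit 5) (nat_lit 5) (nat_lit 5) (nat_lit 4) (nat_lit 355) (nat_lit 287) (nat_lit 258)) (XT.lf (nat_lit 0) (nat_lit 54348851684) (nat_lit 76) (nat_lit 12786642233) (nat_lit 76) (nat_lit 8428475453) (nat_lit 4) (nat_lit 4) (nat_lit 5) (nat_lit 5) (nat_lit 5) (nat_lit 4) (nat_lit 356) (nat_lit 287) (nat_lit 257))) (XT.nd (nat_lit 78) (nat_lit 0) (nat_lit 0) (XT.lf (nat_lit 0) (nat_lit 67752408073) (nat_lit 76) (nat_lit 8941724248) (nat_lit 76) (nat_lit 4547935777) (nat_lit 4) (nat_lit 4) (nat_lit 5)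 (nat_lit 5) (nat_lit 5) (nat_lit 4) (nat_lit 357) (nat_lit 287) (nat_lit 256)) (XT.lf (nat_lit 0) (nat_lit 82120488990) (nat_lit 76) (nat_lit 4842532343) (nat_lit 76) (nat_lit 415760825) (nat_lit 4) (nat_lit 4) (nat_lit 5) (nat_lit 5) (nat_lit 5) (nat_lit 4) (nat_lit 358) (nat_lit 287) (nat_lit 255)))) (XT.nd (nat_lit 156) (nat_lit 0) (nat_lit 0) (XT.nd (nat_lit 78) (nat_lit 0) (nat_lit 0) (XT.lf (nat_lit 0) (nat_lit 3612450148) (nat_lit 76) (nat_lit 267242893) (nat_lit 152) (nat_lit 90116152214) (nat_lit 2) (nat_lit 5) (nat_lit 3) (nat_lit 5) (nat_lit 4) (nat_lit 4) (nat_lit 359) (nat_lit 287) (nat_lit 254)) (XT.lf (nat_lit 0) (nat_lit 8704745713) (nat_lit 152) (nat_lit 87868576956) (nat_lit 0) (nat_lit 4551422542) (nat_lit 2) (nat_lit 5) (nat_lit 4) (nat_lit 4) (nat_lit 2) (nat_lit 4) (nat_lit 360) (nat_lit 287) (nat_lit 253))) (XT.nd (nat_lit 78) (nat_lit 0) (nat_lit 0) (XT.lf (nat_lit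 0) (nat_lit 13875065754) (nat_lit 152) (nat_lit 85254660264) (nat_lit 0) (nat_lit 9697499058) (nat_lit 2) (nat_lit 5) (nat_lit 4) (nat_lit 4) (nat_lit 2) (nat_lit 4) (nat_lit 361) (nat_lit 287) (nat_lit 252)) (XT.lf (nat_lit 0) (nat_lit 19414864900) (nat_lit 152) (nat_lit 82519727955) (nat_lit 0) (nat_lit 15214850496) (nat_lit 2) (nat_lit 5) (nat_lit 4) (nat_lit 4) (nat_lit 2) (nat_lit 4) (nat_lit 362) (nat_lit 287) (nat_lit 251))))) (XT.nd (nat_lit 312) (nat_lit 0) (nat_lit 0) (XT.nd (nat_lit 156) (nat_lit 0) (nat_lit 0) (XT.nd (nat_lit 78) (nat_lit 0) (nat_lit 0) (XT.lf (nat_lit 0) (nat_lit 25356971590) (nat_lit 152) (nat_lit 79647573024) (nat_lit 0) (nat_lit 21136172271) (nat_lit 2) (nat_lit 5) (nat_lit 4) (nat_lit 4) (nat_lit 2) (nat_lit 4) (nat_lit 363) (nat_lit 287) (nat_lit 250)) (XT.lf (nat_lit 0) (nat_lit 31736598308) (nat_lit 152) (nat_lit 76621175293) (nat_lit 0) (nat_lit 27496553698)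 (nat_lit 2) (nat_lit 5) (nat_lit 4) (nat_lit 4) (nat_lit 2) (nat_lit 4) (nat_lit 364) (nat_lit 287) (nat_lit 249))) (XT.nd (nat_lit 78) (nat_lit 0) (nat_lit 0) (XT.lf (nat_lit 0) (nat_lit 38591550250) (nat_lit 152) (nat_lit 73422600554) (nat_lit 0) (nat_lit 34333685925) (nat_lit 2) (nat_lit 5) (nat_lit 4) (nat_lit 4) (nat_lit 2) (nat_lit 4) (nat_lit 365) (nat_lit 287) (nat_lit 248)) (XT.lf (nat_lit 0) (nat_lit 45962449353) (nat_lit 152) (nat_lit 70032894289) (nat_lit 0) (nat_lit 41688085292) (nat_lit 2) (nat_lit 5) (nat_lit 4) (nat_lit 4) (nat_lit 2) (nat_lit 4) (nat_lit 366) (nat_lit 287) (nat_lit 247)))) (XT.nd (nat_lit 156) (nat_lit 0) (nat_lit 0) (XT.nd (nat_lit 78) (nat_lit 0) (nat_lit 0) (XT.lf (nat_lit 0) (nat_lit 53892975019) (nat_lit 152) (nat_lit 66431969349) (nat_lit 0) (nat_lit 49603333425) (nat_lit 2) (nat_lit 5) (nat_lit 4) (nat_lit 4) (nat_lit 2) (nat_lit 4) (nat_lit 367)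 (nat_lit 287) (nat_lit 246)) (XT.lf (nat_lit 0) (nat_lit 62430122955) (nat_lit 152) (nat_lit 62598486922) (nat_lit 0) (nat_lit 58126335498) (nat_lit 2) (nat_lit 5) (nat_lit 4) (nat_lit 4) (nat_lit 2) (nat_lit 4) (nat_lit 368) (nat_lit 287) (nat_lit 245))) (XT.nd (nat_lit 78) (nat_lit 0) (nat_lit 0) (XT.lf (nat_lit 0) (nat_lit 71624483668) (nat_lit 152) (nat_lit 58509730073) (nat_lit 0) (nat_lit 67307598189) (nat_lit 2) (nat_lit 5) (nat_lit 4) (nat_lit 4) (nat_lit 2) (nat_lit 4) (nat_lit 369) (nat_lit 287) (nat_lit 244)) (XT.nd (nat_lit 78) (nat_lit 0) (nat_lit 0) (XT.lf (nat_lit 0) (nat_lit 81530542259) (nat_lit 152) (nat_lit 54141469133) (nat_lit 0) (nat_lit 77201528982) (nat_lit 2) (nat_lit 5) (nat_lit 4) (nat_lit 4) (nat_lit 2) (nat_lit 4) (nat_lit 370) (nat_lit 287) (nat_lit 243)) (XT.lf (nat_lit 0) (nat_lit 92207001297) (nat_lit 152) (nat_lit 49467818111) (nat_lit 0) (nat_lit 87866758577)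 (nat_lit 2) (nat_lit 5) (nat_lit 4) (nat_lit 4) (nat_lit 2) (nat_lit 4) (nat_lit 371) (nat_lit 287) (nat_lit 242))))))) (XT.nd (nat_lit 624) (nat_lit 0) (nat_lit 0) (XT.nd (nat_lit 312) (nat_lit 76) (nat_lit 0) (XT.nd (nat_lit 156) (nat_lit 0) (nat_lit 0) (XT.nd (nat_lit 78) (nat_lit 0) (nat_lit 0) (XT.lf (nat_lit 0) (nat_lit 103717128687) (nat_lit 152) (nat_lit 44461081297) (nat_lit 0) (nat_lit 99366488335) (nat_lit 2) (nat_lit 5) (nat_lit 4) (nat_lit 4) (nat_lit 2) (nat_lit 4) (nat_lit 372) (nat_lit 287) (nat_lit 241)) (XT.lf (nat_lit 0) (nat_lit 116129132592) (nat_lit 152) (nat_lit 39091589139) (nat_lit 0) (nat_lit 111768864802) (nat_lit 2) (nat_lit 5) (nat_lit 4) (nat_lit 4) (nat_lit 2) (nat_lit 4) (nat_lit 373) (nat_lit 287) (nat_lit 240))) (XT.nd (nat_lit 78) (nat_lit 0) (nat_lit 0) (XT.lf (nat_lit 0) (nat_lit 129516565628) (nat_lit 152) (nat_lit 33327522425) (nat_lit 0) (nat_lit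 125147383544) (nat_lit 2) (nat_lit 5) (nat_lit 4) (nat_lit 4) (nat_lit 2) (nat_lit 4) (nat_lit 374) (nat_lit 287) (nat_lit 239)) (XT.lf (nat_lit 0) (nat_lit 143958760730) (nat_lit 152) (nat_lit 27134723722) (nat_lit 0) (nat_lit 139581324670) (nat_lit 2) (nat_lit 5) (nat_lit 4) (nat_lit 4) (nat_lit 2) (nat_lit 4) (nat_lit 375) (nat_lit 287) (nat_lit 238)))) (XT.nd (nat_lit 156) (nat_lit 76) (nat_lit 0) (XT.nd (nat_lit 78) (nat_lit 0) (nat_lit 0) (XT.lf (nat_lit 0) (nat_lit 159541301277) (nat_lit 152) (nat_lit 20476494965) (nat_lit 0) (nat_lit 155156222648) (nat_lit 2) (nat_lit 5) (nat_lit 4) (nat_lit 4) (nat_lit 2) (nat_lit 4) (nat_lit 376) (nat_lit 287) (nat_lit 237)) (XT.lf (nat_lit 0) (nat_lit 176356528251) (nat_lit 152) (nat_lit 13313379982) (nat_lit 0) (nat_lit 171964373168) (nat_lit 2) (nat_lit 5) (nat_lit 4) (nat_lit 4) (nat_lit 2) (nat_lit 4) (nat_lit 377) (nat_lit 287) (nat_lit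 236))) (XT.nd (nat_lit 78) (nat_lit 76) (nat_lit 0) (XT.lf (nat_lit 0) (nat_lit 194504087441) (nat_lit 152) (nat_lit 5602930684) (nat_lit 0) (nat_lit 190105380085) (nat_lit 2) (nat_lit 5) (nat_lit 4) (nat_lit 4) (nat_lit 2) (nat_lit 4) (nat_lit 378) (nat_lit 287) (nat_lit 235)) (XT.lf (nat_lit 0) (nat_lit 2842750364) (nat_lit 76) (nat_lit 211317137788) (nat_lit 76) (nat_lit 206912363514) (nat_lit 1) (nat_lit 4) (nat_lit 2) (nat_lit 5) (nat_lit 2) (nat_lit 4) (nat_lit 379) (nat_lit 287) (nat_lit 234))))) (XT.nd (nat_lit 312) (nat_lit 0) (nat_lit 0) (XT.nd (nat_lit 156) (nat_lit 0) (nat_lit 0) (XT.nd (nat_lit 78) (nat_lit 0) (nat_lit 0) (XT.lf (nat_lit 0) (nat_lit 12259522239) (nat_lit 76) (nat_lit 223270218981) (nat_lit 76) (nat_lit 218859827190) (nat_lit 1) (nat_lit 4) (nat_lit 2) (nat_lit 5) (nat_lit 2) (nat_lit 4) (nat_lit 380) (nat_lit 287) (nat_lit 233)) (XT.lf (nat_lit 0) (nat_lit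 22408147630) (nat_lit 76) (nat_lit 236190288835) (nat_lit 76) (nat_lit 231774695639) (nat_lit 1) (nat_lit 4) (nat_lit 2) (nat_lit 5) (nat_lit 2) (nat_lit 4) (nat_lit 381) (nat_lit 287) (nat_lit 232))) (XT.nd (nat_lit 78) (nat_lit 0) (nat_lit 0) (XT.lf (nat_lit 0) (nat_lit 33348766542) (nat_lit 76) (nat_lit 250153910724) (nat_lit 76) (nat_lit 245733501413) (nat_lit 1) (nat_lit 4) (nat_lit 2) (nat_lit 5) (nat_lit 2) (nat_lit 4) (nat_lit 382) (nat_lit 287) (nat_lit 231)) (XT.lf (nat_lit 0) (nat_lit 45146212270) (nat_lit 76) (nat_lit 265243832039) (nat_lit 76) (nat_lit 260818963361) (nat_lit 1) (nat_lit 4) (nat_lit 2) (nat_lit 5) (nat_lit 2) (nat_lit 4) (nat_lit 383) (nat_lit 287) (nat_lit 230)))) (XT.nd (nat_lit 156) (nat_lit 0) (nat_lit 0) (XT.nd (nat_lit 78) (nat_lit 0) (nat_lit 0) (XT.lf (nat_lit 0) (nat_lit 57870395604) (nat_lit 76) (nat_lit 281549474535) (nat_lit 76) (nat_lit 277120476815)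 (nat_lit 1) (nat_lit 4) (nat_lit 2) (nat_lit 5) (nat_lit 2) (nat_lit 4) (nat_lit 384) (nat_lit 287) (nat_lit 229)) (XT.lf (nat_lit 0) (nat_lit 71596719112) (nat_lit 76) (nat_lit 299167464242) (nat_lit 76) (nat_lit 294734643334) (nat_lit 1) (nat_lit 4) (nat_lit 2) (nat_lit 5) (nat_lit 2) (nat_lit 4) (nat_lit 385) (nat_lit 287) (nat_lit 228))) (XT.nd (nat_lit 78) (nat_lit 0) (nat_lit 0) (XT.lf (nat_lit 0) (nat_lit 86406523971) (nat_lit 76) (nat_lit 318202204062) (nat_lit 76) (nat_lit 313765843165) (nat_lit 1) (nat_lit 4) (nat_lit 2) (nat_lit 5) (nat_lit 2) (nat_lit 4) (nat_lit 386) (nat_lit 287) (nat_lit 227)) (XT.nd (nat_lit 78) (nat_lit 0) (nat_lit 0) (XT.lf (nat_lit 0) (nat_lit 102387571987) (nat_lit 76) (nat_lit 338766492453) (nat_lit 76) (nat_lit 334326853788) (nat_lit 1) (nat_lit 4) (nat_lit 2) (nat_lit 5) (nat_lit 2) (nat_lit 4) (nat_lit 387) (nat_lit 287) (nat_lit 226)) (XT.lf (nat_lit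 0) (nat_lit 119634565667) (nat_lit 76) (nat_lit 360982191864) (nat_lit 76) (nat_lit 356539518230) (nat_lit 1) (nat_lit 4) (nat_lit 2) (nat_lit 5) (nat_lit 2) (nat_lit 4) (nat_lit 388) (nat_lit 287) (nat_lit 225))))))))
noncomputable def xc59 : XT := (XT.nd (nat_lit 1326) (nat_lit 0) (nat_lit 0) (XT.nd (nat_lit 624) (nat_lit 0) (nat_lit 0) (XT.nd (nat_lit 312) (nat_lit 0) (nat_lit 0) (XT.nd (nat_lit 156) (nat_lit 0) (nat_lit 0) (XT.nd (nat_lit 78) (nat_lit 0) (nat_lit 0) (XT.lf (nat_lit 0) (nat_lit 138249709418) (nat_lit 76) (nat_lit 384980950886) (nat_lit 76) (nat_lit 380535467095) (nat_lit 1) (nat_lit 4) (nat_lit 2) (nat_lit 5) (nat_lit 2) (nat_lit 4) (nat_lit 389) (nat_lit 287) (nat_lit 224)) (XT.lf (nat_lit 0) (nat_lit 158343315203) (nat_lit 76) (nat_lit 410904984385) (nat_lit 76) (nat_lit 406456898597) (nat_lit 1) (nat_lit 4) (nat_lit 2) (nat_lit 5) (nat_lit 2) (nat_lit 4) (nat_lit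 390) (nat_lit 287) (nat_lit 223))) (XT.nd (nat_lit 78) (nat_lit 0) (nat_lit 0) (XT.lf (nat_lit 0) (nat_lit 180034456240) (nat_lit 76) (nat_lit 438907916265) (nat_lit 76) (nat_lit 434457421220) (nat_lit 1) (nat_lit 4) (nat_lit 2) (nat_lit 5) (nat_lit 2) (nat_lit 4) (nat_lit 391) (nat_lit 287) (nat_lit 222)) (XT.lf (nat_lit 0) (nat_lit 203451672627) (nat_lit 76) (nat_lit 469155689825) (nat_lit 76) (nat_lit 464702963987) (nat_lit 1) (nat_lit 4) (nat_lit 2) (nat_lit 5) (nat_lit 2) (nat_lit 4) (nat_lit 392) (nat_lit 287) (nat_lit 221)))) (XT.nd (nat_lit 156) (nat_lit 0) (nat_lit 0) (XT.nd (nat_lit 78) (nat_lit 0) (nat_lit 0) (XT.lf (nat_lit 0) (nat_lit 228733733051) (nat_lit 76) (nat_lit 501827551132) (nat_lit 76) (nat_lit 497372759744) (nat_lit 1) (nat_lit 4) (nat_lit 2) (nat_lit 5) (nat_lit 2) (nat_lit 4) (nat_lit 393) (nat_lit 287) (nat_lit 220)) (XT.lf (nat_lit 0) (nat_lit 256030457130)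 (nat_lit 76) (nat_lit 537117111214) (nat_lit 76) (nat_lit 532660407280) (nat_lit 1) (nat_lit 4) (nat_lit 2) (nat_lit 5) (nat_lit 2) (nat_lit 4) (nat_lit 394) (nat_lit 287) (nat_lit 219))) (XT.nd (nat_lit 78) (nat_lit 0) (nat_lit 0) (XT.lf (nat_lit 0) (nat_lit 285503603230) (nat_lit 76) (nat_lit 575233493391) (nat_lit 76) (nat_lit 570775018581) (nat_lit 1) (nat_lit 4) (nat_lit 2) (nat_lit 5) (nat_lit 2) (nat_lit 4) (nat_lit 395) (nat_lit 287) (nat_lit 218)) (XT.lf (nat_lit 0) (nat_lit 317327827031) (nat_lit 76) (nat_lit 616402572520) (nat_lit 76) (nat_lit 611942458011) (nat_lit 1) (nat_lit 4) (nat_lit 2) (nat_lit 5) (nat_lit 2) (nat_lit 4) (nat_lit 396) (nat_lit 287) (nat_lit 217))))) (XT.nd (nat_lit 312) (nat_lit 0) (nat_lit 0) (XT.nd (nat_lit 156) (nat_lit 0) (nat_lit 0) (XT.nd (nat_lit 78) (nat_lit 0) (nat_lit 0) (XT.lf (nat_lit 0) (nat_lit 351691716525) (nat_lit 76) (nat_lit 660868313515)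 (nat_lit 76) (nat_lit 656406680765) (nat_lit 1) (nat_lit 4) (nat_lit 2) (nat_lit 5) (nat_lit 2) (nat_lit 4) (nat_lit 397) (nat_lit 287) (nat_lit 216)) (XT.lf (nat_lit 0) (nat_lit 388798909577) (nat_lit 76) (nat_lit 708894217062) (nat_lit 76) (nat_lit 704431178535) (nat_lit 1) (nat_lit 4) (nat_lit 2) (nat_lit 5) (nat_lit 2) (nat_lit 4) (nat_lit 398) (nat_lit 287) (nat_lit 215))) (XT.nd (nat_lit 78) (nat_lit 0) (nat_lit 0) (XT.lf (nat_lit 0) (nat_lit 428869300664) (nat_lit 76) (nat_lit 760764881110) (nat_lit 76) (nat_lit 756300540936) (nat_lit 1) (nat_lit 4) (nat_lit 2) (nat_lit 5) (nat_lit 2) (nat_lit 4) (nat_lit 399) (nat_lit 287) (nat_lit 214)) (XT.lf (nat_lit 0) (nat_lit 472140343954) (nat_lit 76) (nat_lit 816787687371) (nat_lit 76) (nat_lit 812322141968) (nat_lit 1) (nat_lit 4) (nat_lit 2) (nat_lit 5) (nat_lit 2) (nat_lit 4) (nat_lit 400) (nat_lit 287) (nat_lit 213)))) (XT.nd (nat_lit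 156) (nat_lit 0) (nat_lit 0) (XT.nd (nat_lit 78) (nat_lit 0) (nat_lit 0) (XT.lf (nat_lit 0) (nat_lit 518868460447) (nat_lit 76) (nat_lit 877294622844) (nat_lit 76) (nat_lit 872827961489) (nat_lit 1) (nat_lit 4) (nat_lit 2) (nat_lit 5) (nat_lit 2) (nat_lit 4) (nat_lit 401) (nat_lit 287) (nat_lit 212)) (XT.lf (nat_lit 0) (nat_lit 569330557497) (nat_lit 76) (nat_lit 942644247148) (nat_lit 76) (nat_lit 938176552504) (nat_lit 1) (nat_lit 4) (nat_lit 2) (nat_lit 5) (nat_lit 2) (nat_lit 4) (nat_lit 402) (nat_lit 287) (nat_lit 211))) (XT.nd (nat_lit 78) (nat_lit 0) (nat_lit 0) (XT.lf (nat_lit 0) (nat_lit 623825669755) (nat_lit 76) (nat_lit 1013223817315) (nat_lit 76) (nat_lit 1008755165922) (nat_lit 1) (nat_lit 4) (nat_lit 2) (nat_lit 5) (nat_lit 2) (nat_lit 4) (nat_lit 403) (nat_lit 287) (nat_lit 210)) (XT.nd (nat_lit 78) (nat_lit 0) (nat_lit 0) (XT.lf (nat_lit 0) (nat_lit 682676731220) (nat_lit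 76) (nat_lit 1089451582650) (nat_lit 76) (nat_lit 1084982045379) (nat_lit 1) (nat_lit 4) (nat_lit 2) (nat_lit 5) (nat_lit 2) (nat_lit 4) (nat_lit 404) (nat_lit 287) (nat_lit 209)) (XT.lf (nat_lit 0) (nat_lit 746232488921) (nat_lit 76) (nat_lit 1171779263244) (nat_lit 76) (nat_lit 1167308905715) (nat_lit 1) (nat_lit 4) (nat_lit 2) (nat_lit 5) (nat_lit 2) (nat_lit 4) (nat_lit 405) (nat_lit 287) (nat_lit 208))))))) (XT.nd (nat_lit 40482) (nat_lit 0) (nat_lit 988) (XT.nd (nat_lit 312) (nat_lit 0) (nat_lit 0) (XT.nd (nat_lit 156) (nat_lit 0) (nat_lit 0) (XT.nd (nat_lit 78) (nat_lit 0) (nat_lit 0) (XT.lf (nat_lit 0) (nat_lit 814869569572) (nat_lit 76) (nat_lit 1260694726834) (nat_lit 76) (nat_lit 1256223609807) (nat_lit 1) (nat_lit 4) (nat_lit 2) (nat_lit 5) (nat_lit 2) (nat_lit 4) (nat_lit 406) (nat_lit 287) (nat_lit 207)) (XT.lf (nat_lit 0) (nat_lit 888994711428) (nat_lit 76) (nat_lit 1356724879871)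 (nat_lit 76) (nat_lit 1352253059604) (nat_lit 1) (nat_lit 4) (nat_lit 2) (nat_lit 5) (nat_lit 2) (nat_lit 4) (nat_lit 407) (nat_lit 287) (nat_lit 206))) (XT.nd (nat_lit 78) (nat_lit 0) (nat_lit 0) (XT.lf (nat_lit 0) (nat_lit 969047174589) (nat_lit 76) (nat_lit 1460438789928) (nat_lit 76) (nat_lit 1455966318514) (nat_lit 1) (nat_lit 4) (nat_lit 2) (nat_lit 5) (nat_lit 2) (nat_lit 4) (nat_lit 408) (nat_lit 287) (nat_lit 205)) (XT.lf (nat_lit 0) (nat_lit 1055501344022) (nat_lit 76) (nat_lit 1572451057954) (nat_lit 76) (nat_lit 1567977983626) (nat_lit 1) (nat_lit 4) (nat_lit 2) (nat_lit 5) (nat_lit 2) (nat_lit 4) (nat_lit 409) (nat_lit 287) (nat_lit 204)))) (XT.nd (nat_lit 156) (nat_lit 0) (nat_lit 0) (XT.nd (nat_lit 78) (nat_lit 0) (nat_lit 0) (XT.lf (nat_lit 0) (nat_lit 1148869540731) (nat_lit 76) (nat_lit 1693425460352) (nat_lit 76) (nat_lit 1688951827770) (nat_lit 1) (nat_lit 4) (nat_lit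 2) (nat_lit 5) (nat_lit 2) (nat_lit 4) (nat_lit 410) (nat_lit 287) (nat_lit 203)) (XT.lf (nat_lit 0) (nat_lit 1249705057733) (nat_lit 76) (nat_lit 1824078882469) (nat_lit 76) (nat_lit 1819604732985) (nat_lit 1) (nat_lit 4) (nat_lit 2) (nat_lit 5) (nat_lit 2) (nat_lit 4) (nat_lit 411) (nat_lit 287) (nat_lit 202))) (XT.nd (nat_lit 78) (nat_lit 0) (nat_lit 0) (XT.lf (nat_lit 0) (nat_lit 1358605438833) (nat_lit 76) (nat_lit 1965185566807) (nat_lit 76) (nat_lit 1960710938710) (nat_lit 1) (nat_lit 4) (nat_lit 2) (nat_lit 5) (nat_lit 2) (nat_lit 4) (nat_lit 412) (nat_lit 287) (nat_lit 201)) (XT.nd (nat_lit 78) (nat_lit 0) (nat_lit 0) (XT.lf (nat_lit 0) (nat_lit 1476216019623) (nat_lit 76) (nat_lit 2117581701124) (nat_lit 76) (nat_lit 2113106629868) (nat_lit 1) (nat_lit 4) (nat_lit 2) (nat_lit 5) (nat_lit 2) (nat_lit 4) (nat_lit 413) (nat_lit 287) (nat_lit 200)) (XT.lf (nat_lit 0) (nat_lit 1603233751692)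 (nat_lit 76) (nat_lit 2282170373625) (nat_lit 76) (nat_lit 2277694892036) (nat_lit 1) (nat_lit 4) (nat_lit 2) (nat_lit 5) (nat_lit 2) (nat_lit 4) (nat_lit 414) (nat_lit 287) (nat_lit 199)))))) (XT.nd (nat_lit 312) (nat_lit 380) (nat_lit 0) (XT.nd (nat_lit 156) (nat_lit 228) (nat_lit 0) (XT.nd (nat_lit 78) (nat_lit 152) (nat_lit 0) (XT.lf (nat_lit 0) (nat_lit 2355427968) (nat_lit 152) (nat_lit 895166584) (nat_lit 0) (nat_lit 2355427968) (nat_lit 24) (nat_lit 5) (nat_lit 26) (nat_lit 4) (nat_lit 24) (nat_lit 4) (nat_lit 324) (nat_lit 288) (nat_lit 288)) (XT.lf (nat_lit 0) (nat_lit 6977753542) (nat_lit 152) (nat_lit 2662009684) (nat_lit 152) (nat_lit 2047691328) (nat_lit 22) (nat_lit 4) (nat_lit 24) (nat_lit 5) (nat_lit 24) (nat_lit 4) (nat_lit 325) (nat_lit 288) (nat_lit 287))) (XT.nd (nat_lit 78) (nat_lit 76) (nat_lit 0) (XT.lf (nat_lit 0) (nat_lit 2544250827) (nat_lit 152) (nat_lit 8209141111)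 (nat_lit 0) (nat_lit 1448758560) (nat_lit 20) (nat_lit 5) (nat_lit 22) (nat_lit 4) (nat_lit 20) (nat_lit 4) (nat_lit 326) (nat_lit 288) (nat_lit 286)) (XT.lf (nat_lit 0) (nat_lit 345577681) (nat_lit 76) (nat_lit 6997747683) (nat_lit 76) (nat_lit 5414589698) (nat_lit 19) (nat_lit 4) (nat_lit 20) (nat_lit 5) (nat_lit 20) (nat_lit 4) (nat_lit 327) (nat_lit 288) (nat_lit 285)))) (XT.nd (nat_lit 156) (nat_lit 228) (nat_lit 0) (XT.nd (nat_lit 78) (nat_lit 152) (nat_lit 0) (XT.lf (nat_lit 0) (nat_lit 9605036474) (nat_lit 76) (nat_lit 2895035939) (nat_lit 76) (nat_lit 860335623) (nat_lit 19) (nat_lit 4) (nat_lit 20) (nat_lit 5) (nat_lit 20) (nat_lit 4) (nat_lit 328) (nat_lit 288) (nat_lit 284)) (XT.lf (nat_lit 0) (nat_lit 3783592977) (nat_lit 152) (nat_lit 8713088509) (nat_lit 0) (nat_lit 1512486434) (nat_lit 17) (nat_lit 5) (nat_lit 19) (nat_lit 4) (nat_lit 17) (nat_lit 4) (nat_lit 329) (nat_lit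 288) (nat_lit 283))) (XT.nd (nat_lit 78) (nat_lit 152) (nat_lit 0) (XT.lf (nat_lit 0) (nat_lit 56761986) (nat_lit 76) (nat_lit 8642610732) (nat_lit 76) (nat_lit 6013055328) (nat_lit 16) (nat_lit 4) (nat_lit 17) (nat_lit 5) (nat_lit 17) (nat_lit 4) (nat_lit 330) (nat_lit 288) (nat_lit 282)) (XT.nd (nat_lit 78) (nat_lit 152) (nat_lit 0) (XT.lf (nat_lit 0) (nat_lit 9605122448) (nat_lit 76) (nat_lit 4413781322) (nat_lit 76) (nat_lit 1452328826) (nat_lit 16) (nat_lit 4) (nat_lit 17) (nat_lit 5) (nat_lit 17) (nat_lit 4) (nat_lit 331) (nat_lit 288) (nat_lit 281)) (XT.lf (nat_lit 0) (nat_lit 3166179064) (nat_lit 152) (nat_lit 12989106391) (nat_lit 0) (nat_lit 139545157) (nat_lit 14) (nat_lit 5) (nat_lit 16) (nat_lit 4) (nat_lit 14) (nat_lit 4) (nat_lit 332) (nat_lit 288) (nat_lit 280))))))))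
noncomputable def xc60 : XT := (XT.nd (nat_lit 1326) (nat_lit 228) (nat_lit 0) (XT.nd (nat_lit 624) (nat_lit 304) (nat_lit 0) (XT.nd (nat_lit 312) (nat_lit 152) (nat_lit 0) (XT.nd (nat_lit 156) (nat_lit 152) (nat_lit 0) (XT.nd (nat_lit 78) (nat_lit 76) (nat_lit 0) (XT.lf (nat_lit 0) (nat_lit 8140814468) (nat_lit 152) (nat_lit 4184662822) (nat_lit 0) (nat_lit 4850709948) (nat_lit 14) (nat_lit 5) (nat_lit 16) (nat_lit 4) (nat_lit 14) (nat_lit 4) (nat_lit 333) (nat_lit 288) (nat_lit 279)) (XT.lf (nat_lit 0) (nat_lit 5213100620) (nat_lit 76) (nat_lit 8227464608) (nat_lit 76) (nat_lit 4693405816) (nat_lit 13) (nat_lit 4) (nat_lit 14) (nat_lit 5) (nat_lit 14) (nat_lit 4) (nat_lit 334) (nat_lit 288) (nat_lit 278))) (XT.nd (nat_lit 78) (nat_lit 152) (nat_lit 0) (XT.lf (nat_lit 0) (nat_lit 15238267667) (nat_lit 76) (nat_lit 3848181759) (nat_lit 76) (nat_lit 88239383) (nat_lit 13) (nat_lit 4) (nat_lit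 14) (nat_lit 5) (nat_lit 14) (nat_lit 4) (nat_lit 335) (nat_lit 288) (nat_lit 277)) (XT.lf (nat_lit 0) (nat_lit 4616346269) (nat_lit 152) (nat_lit 14733699322) (nat_lit 0) (nat_lit 941259377) (nat_lit 11) (nat_lit 5) (nat_lit 13) (nat_lit 4) (nat_lit 11) (nat_lit 4) (nat_lit 336) (nat_lit 288) (nat_lit 276)))) (XT.nd (nat_lit 156) (nat_lit 76) (nat_lit 0) (XT.nd (nat_lit 78) (nat_lit 76) (nat_lit 0) (XT.lf (nat_lit 0) (nat_lit 9721802196) (nat_lit 152) (nat_lit 5905587893) (nat_lit 0) (nat_lit 5867401632) (nat_lit 11) (nat_lit 5) (nat_lit 13) (nat_lit 4) (nat_lit 11) (nat_lit 4) (nat_lit 337) (nat_lit 288) (nat_lit 275)) (XT.lf (nat_lit 0) (nat_lit 3481710358) (nat_lit 76) (nat_lit 11670028333) (nat_lit 76) (nat_lit 7649596591) (nat_lit 10) (nat_lit 4) (nat_lit 11) (nat_lit 5) (nat_lit 11) (nat_lit 4) (nat_lit 338) (nat_lit 288) (nat_lit 274))) (XT.nd (nat_lit 78) (nat_lit 76) (nat_lit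 0) (XT.lf (nat_lit 0) (nat_lit 13642749582) (nat_lit 76) (nat_lit 7371990167) (nat_lit 76) (nat_lit 3197825853) (nat_lit 10) (nat_lit 4) (nat_lit 11) (nat_lit 5) (nat_lit 11) (nat_lit 4) (nat_lit 339) (nat_lit 288) (nat_lit 273)) (XT.lf (nat_lit 0) (nat_lit 1374837790) (nat_lit 152) (nat_lit 1456846684) (nat_lit 76) (nat_lit 22914337258) (nat_lit 9) (nat_lit 5) (nat_lit 11) (nat_lit 5) (nat_lit 10) (nat_lit 4) (nat_lit 340) (nat_lit 288) (nat_lit 272))))) (XT.nd (nat_lit 312) (nat_lit 152) (nat_lit 0) (XT.nd (nat_lit 156) (nat_lit 76) (nat_lit 0) (XT.nd (nat_lit 78) (nat_lit 0) (nat_lit 0) (XT.lf (nat_lit 0) (nat_lit 6254564584) (nat_lit 152) (nat_lit 18996109954) (nat_lit 0) (nat_lit 2135758852) (nat_lit 8) (nat_lit 5) (nat_lit 10) (nat_lit 4) (nat_lit 8) (nat_lit 4) (nat_lit 341) (nat_lit 288) (nat_lit 271)) (XT.lf (nat_lit 0) (nat_lit 11496856977) (nat_lit 152) (nat_lit 10398434575)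 (nat_lit 0) (nat_lit 7265053215) (nat_lit 8) (nat_lit 5) (nat_lit 10) (nat_lit 4) (nat_lit 8) (nat_lit 4) (nat_lit 342) (nat_lit 288) (nat_lit 270))) (XT.nd (nat_lit 78) (nat_lit 76) (nat_lit 0) (XT.lf (nat_lit 0) (nat_lit 17026838152) (nat_lit 152) (nat_lit 1369498575) (nat_lit 0) (nat_lit 12690406585) (nat_lit 8) (nat_lit 5) (nat_lit 10) (nat_lit 4) (nat_lit 8) (nat_lit 4) (nat_lit 343) (nat_lit 288) (nat_lit 269)) (XT.lf (nat_lit 0) (nat_lit 8573062141) (nat_lit 76) (nat_lit 14510398578) (nat_lit 76) (nat_lit 10077089413) (nat_lit 7) (nat_lit 4) (nat_lit 8) (nat_lit 5) (nat_lit 8) (nat_lit 4) (nat_lit 344) (nat_lit 288) (nat_lit 268)))) (XT.nd (nat_lit 156) (nat_lit 152) (nat_lit 0) (XT.nd (nat_lit 78) (nat_lit 0) (nat_lit 0) (XT.lf (nat_lit 0) (nat_lit 19157376769) (nat_lit 76) (nat_lit 10386205504) (nat_lit 76) (nat_lit 5863194860) (nat_lit 7) (nat_lit 4) (nat_lit 8) (nat_lit 5) (nat_lit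 8) (nat_lit 4) (nat_lit 345) (nat_lit 288) (nat_lit 267)) (XT.lf (nat_lit 0) (nat_lit 30374051806) (nat_lit 76) (nat_lit 6036762361) (nat_lit 76) (nat_lit 1430694791) (nat_lit 7) (nat_lit 4) (nat_lit 8) (nat_lit 5) (nat_lit 8) (nat_lit 4) (nat_lit 346) (nat_lit 288) (nat_lit 266))) (XT.nd (nat_lit 78) (nat_lit 0) (nat_lit 0) (XT.lf (nat_lit 0) (nat_lit 1823519973) (nat_lit 76) (nat_lit 1304601230) (nat_lit 152) (nat_lit 37341297374) (nat_lit 5) (nat_lit 5) (nat_lit 6) (nat_lit 5) (nat_lit 7) (nat_lit 4) (nat_lit 347) (nat_lit 288) (nat_lit 265)) (XT.nd (nat_lit 78) (nat_lit 0) (nat_lit 0) (XT.lf (nat_lit 0) (nat_lit 8171716045) (nat_lit 152) (nat_lit 31347409494) (nat_lit 0) (nat_lit 3769697474) (nat_lit 5) (nat_lit 5) (nat_lit 7) (nat_lit 4) (nat_lit 5) (nat_lit 4) (nat_lit 348) (nat_lit 288) (nat_lit 264)) (XT.lf (nat_lit 0) (nat_lit 13556715649) (nat_lit 152) (nat_lit 23688405599) (nat_lit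 0) (nat_lit 9093647758) (nat_lit 5) (nat_lit 5) (nat_lit 7) (nat_lit 4) (nat_lit 5) (nat_lit 4) (nat_lit 349) (nat_lit 288) (nat_lit 263))))))) (XT.nd (nat_lit 624) (nat_lit 152) (nat_lit 0) (XT.nd (nat_lit 312) (nat_lit 0) (nat_lit 0) (XT.nd (nat_lit 156) (nat_lit 76) (nat_lit 0) (XT.nd (nat_lit 78) (nat_lit 0) (nat_lit 0) (XT.lf (nat_lit 0) (nat_lit 19283655431) (nat_lit 152) (nat_lit 15592124539) (nat_lit 0) (nat_lit 14764060393) (nat_lit 5) (nat_lit 5) (nat_lit 7) (nat_lit 4) (nat_lit 5) (nat_lit 4) (nat_lit 350) (nat_lit 288) (nat_lit 262)) (XT.lf (nat_lit 0) (nat_lit 25386472814) (nat_lit 152) (nat_lit 7010588351) (nat_lit 0) (nat_lit 20814537824) (nat_lit 5) (nat_lit 5) (nat_lit 7) (nat_lit 4) (nat_lit 5) (nat_lit 4) (nat_lit 351) (nat_lit 288) (nat_lit 261))) (XT.nd (nat_lit 78) (nat_lit 0) (nat_lit 0) (XT.lf (nat_lit 0) (nat_lit 2218010371) (nat_lit 76) (nat_lit 29736665472) (nat_lit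 76) (nat_lit 25116267564) (nat_lit 4) (nat_lit 4) (nat_lit 5) (nat_lit 5) (nat_lit 5) (nat_lit 4) (nat_lit 352) (nat_lit 288) (nat_lit 260)) (XT.lf (nat_lit 0) (nat_lit 12436989099) (nat_lit 76) (nat_lit 26728962275) (nat_lit 76) (nat_lit 22063691295) (nat_lit 4) (nat_lit 4) (nat_lit 5) (nat_lit 5) (nat_lit 5) (nat_lit 4) (nat_lit 353) (nat_lit 288) (nat_lit 259)))) (XT.nd (nat_lit 156) (nat_lit 0) (nat_lit 0) (XT.nd (nat_lit 78) (nat_lit 0) (nat_lit 0) (XT.lf (nat_lit 0) (nat_lit 23337739584) (nat_lit 76) (nat_lit 23547810060) (nat_lit 76) (nat_lit 18840989938) (nat_lit 4) (nat_lit 4) (nat_lit 5) (nat_lit 5) (nat_lit 5) (nat_lit 4) (nat_lit 354) (nat_lit 288) (nat_lit 258)) (XT.lf (nat_lit 0) (nat_lit 34984858864) (nat_lit 76) (nat_lit 20174357553) (nat_lit 76) (nat_lit 15429066004) (nat_lit 4) (nat_lit 4) (nat_lit 5) (nat_lit 5) (nat_lit 5) (nat_lit 4) (nat_lit 355) (nat_lit 288) (nat_lit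 257))) (XT.nd (nat_lit 78) (nat_lit 0) (nat_lit 0) (XT.lf (nat_lit 0) (nat_lit 47447366908) (nat_lit 76) (nat_lit 16588613924) (nat_lit 76) (nat_lit 11807700684) (nat_lit 4) (nat_lit 4) (nat_lit 5) (nat_lit 5) (nat_lit 5) (nat_lit 4) (nat_lit 356) (nat_lit 288) (nat_lit 256)) (XT.lf (nat_lit 0) (nat_lit 60799115613) (nat_lit 76) (nat_lit 12769330324) (nat_lit 76) (nat_lit 7955434036) (nat_lit 4) (nat_lit 4) (nat_lit 5) (nat_lit 5) (nat_lit 5) (nat_lit 4) (nat_lit 357) (nat_lit 288) (nat_lit 255))))) (XT.nd (nat_lit 312) (nat_lit 0) (nat_lit 0) (XT.nd (nat_lit 156) (nat_lit 76) (nat_lit 0) (XT.nd (nat_lit 78) (nat_lit 76) (nat_lit 0) (XT.lf (nat_lit 0) (nat_lit 75119226453) (nat_lit 76) (nat_lit 8693873959) (nat_lit 76) (nat_lit 3849437812) (nat_lit 4) (nat_lit 4) (nat_lit 5) (nat_lit 5) (nat_lit 5) (nat_lit 4) (nat_lit 358) (nat_lit 288) (nat_lit 254)) (XT.lf (nat_lit 0) (nat_lit 507875967)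 (nat_lit 152) (nat_lit 3816331781) (nat_lit 76) (nat_lit 89970797149) (nat_lit 3) (nat_lit 5) (nat_lit 5) (nat_lit 5) (nat_lit 4) (nat_lit 4) (nat_lit 359) (nat_lit 288) (nat_lit 253))) (XT.nd (nat_lit 78) (nat_lit 0) (nat_lit 0) (XT.lf (nat_lit 0) (nat_lit 5113310815) (nat_lit 152) (nat_lit 95750872516) (nat_lit 0) (nat_lit 577295259) (nat_lit 2) (nat_lit 5) (nat_lit 4) (nat_lit 4) (nat_lit 2) (nat_lit 4) (nat_lit 360) (nat_lit 288) (nat_lit 252)) (XT.lf (nat_lit 0) (nat_lit 10262406579) (nat_lit 152) (nat_lit 93179310496) (nat_lit 0) (nat_lit 5703943314) (nat_lit 2) (nat_lit 5) (nat_lit 4) (nat_lit 4) (nat_lit 2) (nat_lit 4) (nat_lit 361) (nat_lit 288) (nat_lit 251)))) (XT.nd (nat_lit 156) (nat_lit 0) (nat_lit 0) (XT.nd (nat_lit 78) (nat_lit 0) (nat_lit 0) (XT.lf (nat_lit 0) (nat_lit 15782553615) (nat_lit 152) (nat_lit 90483595477) (nat_lit 0) (nat_lit 11203305436) (nat_lit 2) (nat_lit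 5) (nat_lit 4) (nat_lit 4) (nat_lit 2) (nat_lit 4) (nat_lit 362) (nat_lit 288) (nat_lit 250)) (XT.lf (nat_lit 0) (nat_lit 21706463907) (nat_lit 152) (nat_lit 87647752851) (nat_lit 0) (nat_lit 17107970436) (nat_lit 2) (nat_lit 5) (nat_lit 4) (nat_lit 4) (nat_lit 2) (nat_lit 4) (nat_lit 363) (nat_lit 288) (nat_lit 249))) (XT.nd (nat_lit 78) (nat_lit 0) (nat_lit 0) (XT.lf (nat_lit 0) (nat_lit 28069242109) (nat_lit 152) (nat_lit 84654977625) (nat_lit 0) (nat_lit 23452928924) (nat_lit 2) (nat_lit 5) (nat_lit 4) (nat_lit 4) (nat_lit 2) (nat_lit 4) (nat_lit 364) (nat_lit 288) (nat_lit 248)) (XT.nd (nat_lit 78) (nat_lit 0) (nat_lit 0) (XT.lf (nat_lit 0) (nat_lit 34908593573) (nat_lit 152) (nat_lit 81487534834) (nat_lit 0) (nat_lit 30275780652) (nat_lit 2) (nat_lit 5) (nat_lit 4) (nat_lit 4) (nat_lit 2) (nat_lit 4) (nat_lit 365) (nat_lit 288) (nat_lit 247)) (XT.lf (nat_lit 0) (nat_lit 42265047789)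 (nat_lit 152) (nat_lit 78126654447) (nat_lit 0) (nat_lit 37616957334) (nat_lit 2) (nat_lit 5) (nat_lit 4) (nat_lit 4) (nat_lit 2) (nat_lit 4) (nat_lit 366) (nat_lit 288) (nat_lit 246))))))))
noncomputable def xc61 : XT := (XT.nd (nat_lit 1326) (nat_lit 0) (nat_lit 0) (XT.nd (nat_lit 624) (nat_lit 76) (nat_lit 0) (XT.nd (nat_lit 312) (nat_lit 0) (nat_lit 0) (XT.nd (nat_lit 156) (nat_lit 0) (nat_lit 0) (XT.nd (nat_lit 78) (nat_lit 0) (nat_lit 0) (XT.lf (nat_lit 0) (nat_lit 50182198559) (nat_lit 152) (nat_lit 74552420137) (nat_lit 0) (nat_lit 45519962241) (nat_lit 2) (nat_lit 5) (nat_lit 4) (nat_lit 4) (nat_lit 2) (nat_lit 4) (nat_lit 367) (nat_lit 288) (nat_lit 245)) (XT.lf (nat_lit 0) (nat_lit 58706962333) (nat_lit 152) (nat_lit 70743651254) (nat_lit 0) (nat_lit 54031627993) (nat_lit 2) (nat_lit 5) (nat_lit 4) (nat_lit 4) (nat_lit 2) (nat_lit 4) (nat_lit 368) (nat_lit 288) (nat_lit 244)))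 (XT.nd (nat_lit 78) (nat_lit 0) (nat_lit 0) (XT.lf (nat_lit 0) (nat_lit 67889856229) (nat_lit 152) (nat_lit 66677777317) (nat_lit 0) (nat_lit 63202394091) (nat_lit 2) (nat_lit 5) (nat_lit 4) (nat_lit 4) (nat_lit 2) (nat_lit 4) (nat_lit 369) (nat_lit 288) (nat_lit 243)) (XT.lf (nat_lit 0) (nat_lit 77785297397) (nat_lit 152) (nat_lit 62330704258) (nat_lit 0) (nat_lit 73086605816) (nat_lit 2) (nat_lit 5) (nat_lit 4) (nat_lit 4) (nat_lit 2) (nat_lit 4) (nat_lit 370) (nat_lit 288) (nat_lit 242)))) (XT.nd (nat_lit 156) (nat_lit 0) (nat_lit 0) (XT.nd (nat_lit 78) (nat_lit 0) (nat_lit 0) (XT.lf (nat_lit 0) (nat_lit 88451925487) (nat_lit 152) (nat_lit 57676671644) (nat_lit 0) (nat_lit 83742836274) (nat_lit 2) (nat_lit 5) (nat_lit 4) (nat_lit 4) (nat_lit 2) (nat_lit 4) (nat_lit 371) (nat_lit 288) (nat_lit 241)) (XT.lf (nat_lit 0) (nat_lit 99952950148) (nat_lit 152) (nat_lit 52688100023) (nat_lit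 0) (nat_lit 95234233498) (nat_lit 2) (nat_lit 5) (nat_lit 4) (nat_lit 4) (nat_lit 2) (nat_lit 4) (nat_lit 372) (nat_lit 288) (nat_lit 240))) (XT.nd (nat_lit 78) (nat_lit 0) (nat_lit 0) (XT.lf (nat_lit 0) (nat_lit 112356525600) (nat_lit 152) (nat_lit 47335427489) (nat_lit 0) (nat_lit 107628894656) (nat_lit 2) (nat_lit 5) (nat_lit 4) (nat_lit 4) (nat_lit 2) (nat_lit 4) (nat_lit 373) (nat_lit 288) (nat_lit 239)) (XT.lf (nat_lit 0) (nat_lit 125736154513) (nat_lit 152) (nat_lit 41586934500) (nat_lit 0) (nat_lit 121000269593) (nat_lit 2) (nat_lit 5) (nat_lit 4) (nat_lit 4) (nat_lit 2) (nat_lit 4) (nat_lit 374) (nat_lit 288) (nat_lit 238))))) (XT.nd (nat_lit 312) (nat_lit 76) (nat_lit 0) (XT.nd (nat_lit 156) (nat_lit 0) (nat_lit 0) (XT.nd (nat_lit 78) (nat_lit 0) (nat_lit 0) (XT.lf (nat_lit 0) (nat_lit 140171123575) (nat_lit 152) (nat_lit 35408555913) (nat_lit 0) (nat_lit 135427596085) (nat_lit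 2) (nat_lit 5) (nat_lit 4) (nat_lit 4) (nat_lit 2) (nat_lit 4) (nat_lit 375) (nat_lit 288) (nat_lit 237)) (XT.lf (nat_lit 0) (nat_lit 155746973345) (nat_lit 152) (nat_lit 28763679115) (nat_lit 0) (nat_lit 150996369401) (nat_lit 2) (nat_lit 5) (nat_lit 4) (nat_lit 4) (nat_lit 2) (nat_lit 4) (nat_lit 376) (nat_lit 288) (nat_lit 236))) (XT.nd (nat_lit 78) (nat_lit 0) (nat_lit 0) (XT.lf (nat_lit 0) (nat_lit 172556005154) (nat_lit 152) (nat_lit 21612927057) (nat_lit 0) (nat_lit 167798848938) (nat_lit 2) (nat_lit 5) (nat_lit 4) (nat_lit 4) (nat_lit 2) (nat_lit 4) (nat_lit 377) (nat_lit 288) (nat_lit 235)) (XT.lf (nat_lit 0) (nat_lit 190697828080) (nat_lit 152) (nat_lit 13913924913) (nat_lit 0) (nat_lit 185934604946) (nat_lit 2) (nat_lit 5) (nat_lit 4) (nat_lit 4) (nat_lit 2) (nat_lit 4) (nat_lit 378) (nat_lit 288) (nat_lit 234)))) (XT.nd (nat_lit 156) (nat_lit 0) (nat_lit 0) (XT.nd (nat_lit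 78) (nat_lit 76) (nat_lit 0) (XT.lf (nat_lit 0) (nat_lit 210279949222) (nat_lit 152) (nat_lit 5621048965) (nat_lit 0) (nat_lit 205511108571) (nat_lit 2) (nat_lit 5) (nat_lit 4) (nat_lit 4) (nat_lit 2) (nat_lit 4) (nat_lit 379) (nat_lit 288) (nat_lit 233)) (XT.lf (nat_lit 0) (nat_lit 3489397550) (nat_lit 76) (nat_lit 228012933324) (nat_lit 76) (nat_lit 223238891268) (nat_lit 1) (nat_lit 4) (nat_lit 2) (nat_lit 5) (nat_lit 2) (nat_lit 4) (nat_lit 380) (nat_lit 288) (nat_lit 232))) (XT.nd (nat_lit 78) (nat_lit 0) (nat_lit 0) (XT.lf (nat_lit 0) (nat_lit 13628457311) (nat_lit 76) (nat_lit 240937785123) (nat_lit 76) (nat_lit 236158926952) (nat_lit 1) (nat_lit 4) (nat_lit 2) (nat_lit 5) (nat_lit 2) (nat_lit 4) (nat_lit 381) (nat_lit 288) (nat_lit 231)) (XT.nd (nat_lit 78) (nat_lit 0) (nat_lit 0) (XT.lf (nat_lit 0) (nat_lit 24560219157) (nat_lit 76) (nat_lit 254905834741) (nat_lit 76) (nat_lit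 250122517203) (nat_lit 1) (nat_lit 4) (nat_lit 2) (nat_lit 5) (nat_lit 2) (nat_lit 4) (nat_lit 382) (nat_lit 288) (nat_lit 230)) (XT.lf (nat_lit 0) (nat_lit 36349463898) (nat_lit 76) (nat_lit 269999855804) (nat_lit 76) (nat_lit 265212409223) (nat_lit 1) (nat_lit 4) (nat_lit 2) (nat_lit 5) (nat_lit 2) (nat_lit 4) (nat_lit 383) (nat_lit 288) (nat_lit 229))))))) (XT.nd (nat_lit 702) (nat_lit 0) (nat_lit 0) (XT.nd (nat_lit 312) (nat_lit 0) (nat_lit 0) (XT.nd (nat_lit 156) (nat_lit 0) (nat_lit 0) (XT.nd (nat_lit 78) (nat_lit 0) (nat_lit 0) (XT.lf (nat_lit 0) (nat_lit 49066053726) (nat_lit 76) (nat_lit 286309294363) (nat_lit 76) (nat_lit 281518024594) (nat_lit 1) (nat_lit 4) (nat_lit 2) (nat_lit 5) (nat_lit 2) (nat_lit 4) (nat_lit 384) (nat_lit 288) (nat_lit 228)) (XT.lf (nat_lit 0) (nat_lit 62785346211) (nat_lit 76) (nat_lit 303930798943) (nat_lit 76) (nat_lit 299135989186) (nat_lit 1) (nat_lit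 4) (nat_lit 2) (nat_lit 5) (nat_lit 2) (nat_lit 4) (nat_lit 385) (nat_lit 288) (nat_lit 227))) (XT.nd (nat_lit 78) (nat_lit 0) (nat_lit 0) (XT.lf (nat_lit 0) (nat_lit 77588640862) (nat_lit 76) (nat_lit 322968793275) (nat_lit 76) (nat_lit 318170705750) (nat_lit 1) (nat_lit 4) (nat_lit 2) (nat_lit 5) (nat_lit 2) (nat_lit 4) (nat_lit 386) (nat_lit 288) (nat_lit 226)) (XT.lf (nat_lit 0) (nat_lit 93563660908) (nat_lit 76) (nat_lit 343536095103) (nat_lit 76) (nat_lit 338734972609) (nat_lit 1) (nat_lit 4) (nat_lit 2) (nat_lit 5) (nat_lit 2) (nat_lit 4) (nat_lit 387) (nat_lit 288) (nat_lit 225)))) (XT.nd (nat_lit 156) (nat_lit 0) (nat_lit 0) (XT.nd (nat_lit 78) (nat_lit 0) (nat_lit 0) (XT.lf (nat_lit 0) (nat_lit 110805073135) (nat_lit 76) (nat_lit 365754584734) (nat_lit 76) (nat_lit 360950652083) (nat_lit 1) (nat_lit 4) (nat_lit 2) (nat_lit 5) (nat_lit 2) (nat_lit 4) (nat_lit 388) (nat_lit 288)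 (nat_lit 224)) (XT.lf (nat_lit 0) (nat_lit 129415048873) (nat_lit 76) (nat_lit 389755927293) (nat_lit 76) (nat_lit 384949392644) (nat_lit 1) (nat_lit 4) (nat_lit 2) (nat_lit 5) (nat_lit 2) (nat_lit 4) (nat_lit 389) (nat_lit 288) (nat_lit 223))) (XT.nd (nat_lit 78) (nat_lit 0) (nat_lit 0) (XT.lf (nat_lit 0) (nat_lit 149503869460) (nat_lit 76) (nat_lit 415682352956) (nat_lit 76) (nat_lit 410873409050) (nat_lit 1) (nat_lit 4) (nat_lit 2) (nat_lit 5) (nat_lit 2) (nat_lit 4) (nat_lit 390) (nat_lit 288) (nat_lit 222)) (XT.nd (nat_lit 78) (nat_lit 0) (nat_lit 0) (XT.lf (nat_lit 0) (nat_lit 171190579760) (nat_lit 76) (nat_lit 443687499802) (nat_lit 76) (nat_lit 438876325103) (nat_lit 1) (nat_lit 4) (nat_lit 2) (nat_lit 5) (nat_lit 2) (nat_lit 4) (nat_lit 391) (nat_lit 288) (nat_lit 221)) (XT.lf (nat_lit 0) (nat_lit 194603693612) (nat_lit 76) (nat_lit 473937324257) (nat_lit 76) (nat_lit 469124084009)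 (nat_lit 1) (nat_lit 4) (nat_lit 2) (nat_lit 5) (nat_lit 2) (nat_lit 4) (nat_lit 392) (nat_lit 288) (nat_lit 220)))))) (XT.nd (nat_lit 312) (nat_lit 0) (nat_lit 0) (XT.nd (nat_lit 156) (nat_lit 0) (nat_lit 0) (XT.nd (nat_lit 78) (nat_lit 0) (nat_lit 0) (XT.lf (nat_lit 0) (nat_lit 219881955392) (nat_lit 76) (nat_lit 506611084540) (nat_lit 76) (nat_lit 501795931746) (nat_lit 1) (nat_lit 4) (nat_lit 2) (nat_lit 5) (nat_lit 2) (nat_lit 4) (nat_lit 393) (nat_lit 288) (nat_lit 219)) (XT.lf (nat_lit 0) (nat_lit 247175162209) (nat_lit 76) (nat_lit 541902402934) (nat_lit 76) (nat_lit 537085479264) (nat_lit 1) (nat_lit 4) (nat_lit 2) (nat_lit 5) (nat_lit 2) (nat_lit 4) (nat_lit 394) (nat_lit 288) (nat_lit 218))) (XT.nd (nat_lit 78) (nat_lit 0) (nat_lit 0) (XT.lf (nat_lit 0) (nat_lit 276645051585) (nat_lit 76) (nat_lit 580020413177) (nat_lit 76) (nat_lit 575201849807) (nat_lit 1) (nat_lit 4) (nat_lit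 2) (nat_lit 5) (nat_lit 2) (nat_lit 4) (nat_lit 395) (nat_lit 288) (nat_lit 217)) (XT.lf (nat_lit 0) (nat_lit 308466259899) (nat_lit 76) (nat_lit 621190999775) (nat_lit 76) (nat_lit 616370918165) (nat_lit 1) (nat_lit 4) (nat_lit 2) (nat_lit 5) (nat_lit 2) (nat_lit 4) (nat_lit 396) (nat_lit 288) (nat_lit 216)))) (XT.nd (nat_lit 156) (nat_lit 0) (nat_lit 0) (XT.nd (nat_lit 78) (nat_lit 0) (nat_lit 0) (XT.lf (nat_lit 0) (nat_lit 342827357277) (nat_lit 76) (nat_lit 665658136574) (nat_lit 76) (nat_lit 660836649186) (nat_lit 1) (nat_lit 4) (nat_lit 2) (nat_lit 5) (nat_lit 2) (nat_lit 4) (nat_lit 397) (nat_lit 288) (nat_lit 215)) (XT.lf (nat_lit 0) (nat_lit 379931965036) (nat_lit 76) (nat_lit 713685332534) (nat_lit 76) (nat_lit 708862543499) (nat_lit 1) (nat_lit 4) (nat_lit 2) (nat_lit 5) (nat_lit 2) (nat_lit 4) (nat_lit 398) (nat_lit 288) (nat_lit 214))) (XT.nd (nat_lit 78) (nat_lit 0) (nat_lit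 0) (XT.lf (nat_lit 0) (nat_lit 419999962333) (nat_lit 76) (nat_lit 765557193259) (nat_lit 76) (nat_lit 760733198996) (nat_lit 1) (nat_lit 4) (nat_lit 2) (nat_lit 5) (nat_lit 2) (nat_lit 4) (nat_lit 399) (nat_lit 288) (nat_lit 213)) (XT.nd (nat_lit 78) (nat_lit 0) (nat_lit 0) (XT.lf (nat_lit 0) (nat_lit 463268789152) (nat_lit 76) (nat_lit 821581107554) (nat_lit 76) (nat_lit 816755997339) (nat_lit 1) (nat_lit 4) (nat_lit 2) (nat_lit 5) (nat_lit 2) (nat_lit 4) (nat_lit 400) (nat_lit 288) (nat_lit 212)) (XT.lf (nat_lit 0) (nat_lit 509994853355) (nat_lit 76) (nat_lit 882089068985) (nat_lit 76) (nat_lit 877262925481) (nat_lit 1) (nat_lit 4) (nat_lit 2) (nat_lit 5) (nat_lit 2) (nat_lit 4) (nat_lit 401) (nat_lit 288) (nat_lit 211))))))))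
noncomputable def xc62 : XT := (XT.nd (nat_lit 40950) (nat_lit 0) (nat_lit 532) (XT.nd (nat_lit 624) (nat_lit 0) (nat_lit 0) (XT.nd (nat_lit 312) (nat_lit 0) (nat_lit 0) (XT.nd (nat_lit 156) (nat_lit 0) (nat_lit 0) (XT.nd (nat_lit 78) (nat_lit 0) (nat_lit 0) (XT.lf (nat_lit 0) (nat_lit 560455050138) (nat_lit 76) (nat_lit 947439643250) (nat_lit 76) (nat_lit 942612542997) (nat_lit 1) (nat_lit 4) (nat_lit 2) (nat_lit 5) (nat_lit 2) (nat_lit 4) (nat_lit 402) (nat_lit 288) (nat_lit 210)) (XT.lf (nat_lit 0) (nat_lit 614948402889) (nat_lit 76) (nat_lit 1018020093011) (nat_lit 76) (nat_lit 1013192106879) (nat_lit 1) (nat_lit 4) (nat_lit 2) (nat_lit 5) (nat_lit 2) (nat_lit 4) (nat_lit 403) (nat_lit 288) (nat_lit 209))) (XT.nd (nat_lit 78) (nat_lit 0) (nat_lit 0) (XT.lf (nat_lit 0) (nat_lit 673797835181) (nat_lit 76) (nat_lit 1094248672785) (nat_lit 76) (nat_lit 1089419866395) (nat_lit 1) (nat_lit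 4) (nat_lit 2) (nat_lit 5) (nat_lit 2) (nat_lit 4) (nat_lit 404) (nat_lit 288) (nat_lit 208)) (XT.lf (nat_lit 0) (nat_lit 737352084389) (nat_lit 76) (nat_lit 1176577107489) (nat_lit 76) (nat_lit 1171747541601) (nat_lit 1) (nat_lit 4) (nat_lit 2) (nat_lit 5) (nat_lit 2) (nat_lit 4) (nat_lit 405) (nat_lit 288) (nat_lit 207)))) (XT.nd (nat_lit 156) (nat_lit 0) (nat_lit 0) (XT.nd (nat_lit 78) (nat_lit 0) (nat_lit 0) (XT.lf (nat_lit 0) (nat_lit 805987768286) (nat_lit 76) (nat_lit 1265493269329) (nat_lit 76) (nat_lit 1260663000201) (nat_lit 1) (nat_lit 4) (nat_lit 2) (nat_lit 5) (nat_lit 2) (nat_lit 4) (nat_lit 406) (nat_lit 288) (nat_lit 206)) (XT.lf (nat_lit 0) (nat_lit 880111616852) (nat_lit 76) (nat_lit 1361524068893) (nat_lit 76) (nat_lit 1356693148618) (nat_lit 1) (nat_lit 4) (nat_lit 2) (nat_lit 5) (nat_lit 2) (nat_lit 4) (nat_lit 407) (nat_lit 288) (nat_lit 205))) (XT.nd (nat_lit 78)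 (nat_lit 0) (nat_lit 0) (XT.lf (nat_lit 0) (nat_lit 960162882522) (nat_lit 76) (nat_lit 1465238577586) (nat_lit 76) (nat_lit 1460407054398) (nat_lit 1) (nat_lit 4) (nat_lit 2) (nat_lit 5) (nat_lit 2) (nat_lit 4) (nat_lit 408) (nat_lit 288) (nat_lit 204)) (XT.lf (nat_lit 0) (nat_lit 1046615943167) (nat_lit 76) (nat_lit 1577251399905) (nat_lit 76) (nat_lit 1572419318463) (nat_lit 1) (nat_lit 4) (nat_lit 2) (nat_lit 5) (nat_lit 2) (nat_lit 4) (nat_lit 409) (nat_lit 288) (nat_lit 203))))) (XT.nd (nat_lit 312) (nat_lit 0) (nat_lit 0) (XT.nd (nat_lit 156) (nat_lit 0) (nat_lit 0) (XT.nd (nat_lit 78) (nat_lit 0) (nat_lit 0) (XT.lf (nat_lit 0) (nat_lit 1139983113220) (nat_lit 76) (nat_lit 1698226315538) (nat_lit 76) (nat_lit 1693393717193) (nat_lit 1) (nat_lit 4) (nat_lit 2) (nat_lit 5) (nat_lit 2) (nat_lit 4) (nat_lit 410) (nat_lit 288) (nat_lit 202)) (XT.lf (nat_lit 0) (nat_lit 1240817679616)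 (nat_lit 76) (nat_lit 1828880212872) (nat_lit 76) (nat_lit 1824047135915) (nat_lit 1) (nat_lit 4) (nat_lit 2) (nat_lit 5) (nat_lit 2) (nat_lit 4) (nat_lit 411) (nat_lit 288) (nat_lit 201))) (XT.nd (nat_lit 78) (nat_lit 0) (nat_lit 0) (XT.lf (nat_lit 0) (nat_lit 1349717180524) (nat_lit 76) (nat_lit 1969987337225) (nat_lit 76) (nat_lit 1965153817108) (nat_lit 1) (nat_lit 4) (nat_lit 2) (nat_lit 5) (nat_lit 2) (nat_lit 4) (nat_lit 412) (nat_lit 288) (nat_lit 200)) (XT.lf (nat_lit 0) (nat_lit 1467326946322) (nat_lit 76) (nat_lit 2122383878965) (nat_lit 76) (nat_lit 2117549948515) (nat_lit 1) (nat_lit 4) (nat_lit 2) (nat_lit 5) (nat_lit 2) (nat_lit 4) (nat_lit 413) (nat_lit 288) (nat_lit 199)))) (XT.nd (nat_lit 39780) (nat_lit 0) (nat_lit 1596) (XT.nd (nat_lit 39702) (nat_lit 0) (nat_lit 1900) (XT.lf (nat_lit 0) (nat_lit 1594343923769) (nat_lit 76) (nat_lit 2286972928709) (nat_lit 76) (nat_lit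 2282138618320) (nat_lit 1) (nat_lit 4) (nat_lit 2) (nat_lit 5) (nat_lit 2) (nat_lit 4) (nat_lit 414) (nat_lit 288) (nat_lit 198)) (XT.lf (nat_lit 0) (nat_lit 1556355647) (nat_lit 152) (nat_lit 1811816535) (nat_lit 152) (nat_lit 1811816535) (nat_lit 26) (nat_lit 4) (nat_lit 28) (nat_lit 5) (nat_lit 28) (nat_lit 4) (nat_lit 322) (nat_lit 289) (nat_lit 289))) (XT.nd (nat_lit 78) (nat_lit 152) (nat_lit 0) (XT.lf (nat_lit 0) (nat_lit 719787884) (nat_lit 152) (nat_lit 10003207746) (nat_lit 0) (nat_lit 56324060) (nat_lit 24) (nat_lit 5) (nat_lit 26) (nat_lit 4) (nat_lit 24) (nat_lit 4) (nat_lit 323) (nat_lit 289) (nat_lit 288)) (XT.nd (nat_lit 78) (nat_lit 152) (nat_lit 0) (XT.lf (nat_lit 0) (nat_lit 5246530205) (nat_lit 152) (nat_lit 2007099190) (nat_lit 0) (nat_lit 3968748024) (nat_lit 24) (nat_lit 5) (nat_lit 26) (nat_lit 4) (nat_lit 24) (nat_lit 4) (nat_lit 324) (nat_lit 289) (nat_lit 287))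 (XT.lf (nat_lit 0) (nat_lit 6538294731) (nat_lit 152) (nat_lit 3508250104) (nat_lit 152) (nat_lit 1661654631) (nat_lit 22) (nat_lit 4) (nat_lit 24) (nat_lit 5) (nat_lit 24) (nat_lit 4) (nat_lit 325) (nat_lit 289) (nat_lit 286))))))) (XT.nd (nat_lit 624) (nat_lit 456) (nat_lit 0) (XT.nd (nat_lit 312) (nat_lit 228) (nat_lit 0) (XT.nd (nat_lit 156) (nat_lit 228) (nat_lit 0) (XT.nd (nat_lit 78) (nat_lit 0) (nat_lit 0) (XT.lf (nat_lit 0) (nat_lit 2754072391) (nat_lit 152) (nat_lit 8924123250) (nat_lit 0) (nat_lit 556596050) (nat_lit 20) (nat_lit 5) (nat_lit 22) (nat_lit 4) (nat_lit 20) (nat_lit 4) (nat_lit 326) (nat_lit 289) (nat_lit 285)) (XT.lf (nat_lit 0) (nat_lit 7429466731) (nat_lit 152) (nat_lit 590616154) (nat_lit 0) (nat_lit 4780448059) (nat_lit 20) (nat_lit 5) (nat_lit 22) (nat_lit 4) (nat_lit 20) (nat_lit 4) (nat_lit 327) (nat_lit 289) (nat_lit 284))) (XT.nd (nat_lit 78) (nat_lit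 152) (nat_lit 0) (XT.lf (nat_lit 0) (nat_lit 8438979983) (nat_lit 76) (nat_lit 4020678072) (nat_lit 76) (nat_lit 953564650) (nat_lit 19) (nat_lit 4) (nat_lit 20) (nat_lit 5) (nat_lit 20) (nat_lit 4) (nat_lit 328) (nat_lit 289) (nat_lit 283)) (XT.lf (nat_lit 0) (nat_lit 3523273359) (nat_lit 152) (nat_lit 10227788007) (nat_lit 0) (nat_lit 324904663) (nat_lit 17) (nat_lit 5) (nat_lit 19) (nat_lit 4) (nat_lit 17) (nat_lit 4) (nat_lit 329) (nat_lit 289) (nat_lit 282)))) (XT.nd (nat_lit 156) (nat_lit 152) (nat_lit 0) (XT.nd (nat_lit 78) (nat_lit 76) (nat_lit 0) (XT.lf (nat_lit 0) (nat_lit 8333036517) (nat_lit 152) (nat_lit 1651959242) (nat_lit 0) (nat_lit 4802770728) (nat_lit 17) (nat_lit 5) (nat_lit 19) (nat_lit 4) (nat_lit 17) (nat_lit 4) (nat_lit 330) (nat_lit 289) (nat_lit 281)) (XT.lf (nat_lit 0) (nat_lit 7623069765) (nat_lit 76) (nat_lit 5886295020) (nat_lit 76) (nat_lit 2048717108) (nat_lit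 16) (nat_lit 4) (nat_lit 17) (nat_lit 5) (nat_lit 17) (nat_lit 4) (nat_lit 331) (nat_lit 289) (nat_lit 280))) (XT.nd (nat_lit 78) (nat_lit 0) (nat_lit 0) (XT.lf (nat_lit 0) (nat_lit 959776181) (nat_lit 76) (nat_lit 1483446105) (nat_lit 152) (nat_lit 13952164094) (nat_lit 14) (nat_lit 5) (nat_lit 15) (nat_lit 5) (nat_lit 16) (nat_lit 4) (nat_lit 332) (nat_lit 289) (nat_lit 279)) (XT.lf (nat_lit 0) (nat_lit 7286877568) (nat_lit 152) (nat_lit 6774247417) (nat_lit 0) (nat_lit 3226139802) (nat_lit 14) (nat_lit 5) (nat_lit 16) (nat_lit 4) (nat_lit 14) (nat_lit 4) (nat_lit 333) (nat_lit 289) (nat_lit 278))))) (XT.nd (nat_lit 312) (nat_lit 228) (nat_lit 0) (XT.nd (nat_lit 156) (nat_lit 152) (nat_lit 0) (XT.nd (nat_lit 78) (nat_lit 0) (nat_lit 0) (XT.lf (nat_lit 0) (nat_lit 2312920901) (nat_lit 76) (nat_lit 10115714323) (nat_lit 76) (nat_lit 5829092972) (nat_lit 13) (nat_lit 4) (nat_lit 14) (nat_lit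 5) (nat_lit 14) (nat_lit 4) (nat_lit 334) (nat_lit 289) (nat_lit 277)) (XT.lf (nat_lit 0) (nat_lit 12176761848) (nat_lit 76) (nat_lit 5812170539) (nat_lit 76) (nat_lit 1316397720) (nat_lit 13) (nat_lit 4) (nat_lit 14) (nat_lit 5) (nat_lit 14) (nat_lit 4) (nat_lit 335) (nat_lit 289) (nat_lit 276))) (XT.nd (nat_lit 78) (nat_lit 0) (nat_lit 0) (XT.lf (nat_lit 0) (nat_lit 2092409907) (nat_lit 76) (nat_lit 1168090809) (nat_lit 152) (nat_lit 17178970381) (nat_lit 11) (nat_lit 5) (nat_lit 12) (nat_lit 5) (nat_lit 13) (nat_lit 4) (nat_lit 336) (nat_lit 289) (nat_lit 275)) (XT.lf (nat_lit 0) (nat_lit 8257243299) (nat_lit 152) (nat_lit 9645295295) (nat_lit 0) (nat_lit 3749145840) (nat_lit 11) (nat_lit 5) (nat_lit 13) (nat_lit 4) (nat_lit 11) (nat_lit 4) (nat_lit 337) (nat_lit 289) (nat_lit 274)))) (XT.nd (nat_lit 156) (nat_lit 152) (nat_lit 0) (XT.nd (nat_lit 78) (nat_lit 76) (nat_lit 0) (XT.lf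 (nat_lit 0) (nat_lit 13528795750) (nat_lit 152) (nat_lit 575164580) (nat_lit 0) (nat_lit 8866965718) (nat_lit 11) (nat_lit 5) (nat_lit 13) (nat_lit 4) (nat_lit 11) (nat_lit 4) (nat_lit 338) (nat_lit 289) (nat_lit 273)) (XT.lf (nat_lit 0) (nat_lit 9416209422) (nat_lit 76) (nat_lit 9888554928) (nat_lit 76) (nat_lit 5084379922) (nat_lit 10) (nat_lit 4) (nat_lit 11) (nat_lit 5) (nat_lit 11) (nat_lit 4) (nat_lit 339) (nat_lit 289) (nat_lit 272))) (XT.nd (nat_lit 78) (nat_lit 152) (nat_lit 0) (XT.lf (nat_lit 0) (nat_lit 19971171618) (nat_lit 76) (nat_lit 5447790425) (nat_lit 76) (nat_lit 511814517) (nat_lit 10) (nat_lit 4) (nat_lit 11) (nat_lit 5) (nat_lit 11) (nat_lit 4) (nat_lit 340) (nat_lit 289) (nat_lit 271)) (XT.nd (nat_lit 78) (nat_lit 0) (nat_lit 0) (XT.lf (nat_lit 0) (nat_lit 3592468262) (nat_lit 76) (nat_lit 566417335) (nat_lit 152) (nat_lit 23432077819) (nat_lit 8) (nat_lit 5) (nat_lit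 9) (nat_lit 5) (nat_lit 10) (nat_lit 4) (nat_lit 341) (nat_lit 289) (nat_lit 270)) (XT.lf (nat_lit 0) (nat_lit 9324240924) (nat_lit 152) (nat_lit 15510540409) (nat_lit 0) (nat_lit 4536267025) (nat_lit 8) (nat_lit 5) (nat_lit 10) (nat_lit 4) (nat_lit 8) (nat_lit 4) (nat_lit 342) (nat_lit 289) (nat_lit 269))))))))
noncomputable def xc63 : XT := (XT.nd (nat_lit 1326) (nat_lit 152) (nat_lit 0) (XT.nd (nat_lit 624) (nat_lit 76) (nat_lit 0) (XT.nd (nat_lit 312) (nat_lit 152) (nat_lit 0) (XT.nd (nat_lit 156) (nat_lit 0) (nat_lit 0) (XT.nd (nat_lit 78) (nat_lit 76) (nat_lit 0) (XT.lf (nat_lit 0) (nat_lit 14795597362) (nat_lit 152) (nat_lit 6595810877) (nat_lit 0) (nat_lit 9910745866) (nat_lit 8) (nat_lit 5) (nat_lit 10) (nat_lit 4) (nat_lit 8) (nat_lit 4) (nat_lit 343) (nat_lit 289) (nat_lit 268)) (XT.lf (nat_lit 0) (nat_lit 2960226329) (nat_lit 76) (nat_lit 17702722599) (nat_lit 76) (nat_lit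 12728169624) (nat_lit 7) (nat_lit 4) (nat_lit 8) (nat_lit 5) (nat_lit 8) (nat_lit 4) (nat_lit 344) (nat_lit 289) (nat_lit 267))) (XT.nd (nat_lit 78) (nat_lit 0) (nat_lit 0) (XT.lf (nat_lit 0) (nat_lit 13441471361) (nat_lit 76) (nat_lit 13628859033) (nat_lit 76) (nat_lit 8571249132) (nat_lit 7) (nat_lit 4) (nat_lit 8) (nat_lit 5) (nat_lit 8) (nat_lit 4) (nat_lit 345) (nat_lit 289) (nat_lit 266)) (XT.lf (nat_lit 0) (nat_lit 24562711585) (nat_lit 76) (nat_lit 9326017286) (nat_lit 76) (nat_lit 4191502825) (nat_lit 7) (nat_lit 4) (nat_lit 8) (nat_lit 5) (nat_lit 8) (nat_lit 4) (nat_lit 346) (nat_lit 289) (nat_lit 265)))) (XT.nd (nat_lit 156) (nat_lit 0) (nat_lit 0) (XT.nd (nat_lit 78) (nat_lit 76) (nat_lit 0) (XT.lf (nat_lit 0) (nat_lit 415161673) (nat_lit 152) (nat_lit 4342186107) (nat_lit 76) (nat_lit 35963337720) (nat_lit 6) (nat_lit 5) (nat_lit 8) (nat_lit 5) (nat_lit 7) (nat_lit 4) (nat_lit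 347) (nat_lit 289) (nat_lit 264)) (XT.lf (nat_lit 0) (nat_lit 5216795086) (nat_lit 152) (nat_lit 38007030174) (nat_lit 0) (nat_lit 335632444) (nat_lit 5) (nat_lit 5) (nat_lit 7) (nat_lit 4) (nat_lit 5) (nat_lit 4) (nat_lit 348) (nat_lit 289) (nat_lit 263))) (XT.nd (nat_lit 78) (nat_lit 0) (nat_lit 0) (XT.lf (nat_lit 0) (nat_lit 10559073637) (nat_lit 152) (nat_lit 30432373945) (nat_lit 0) (nat_lit 5621383848) (nat_lit 5) (nat_lit 5) (nat_lit 7) (nat_lit 4) (nat_lit 5) (nat_lit 4) (nat_lit 349) (nat_lit 289) (nat_lit 262)) (XT.lf (nat_lit 0) (nat_lit 16246456890) (nat_lit 152) (nat_lit 22414192576) (nat_lit 0) (nat_lit 11256427149) (nat_lit 5) (nat_lit 5) (nat_lit 7) (nat_lit 4) (nat_lit 5) (nat_lit 4) (nat_lit 350) (nat_lit 289) (nat_lit 261))))) (XT.nd (nat_lit 312) (nat_lit 0) (nat_lit 0) (XT.nd (nat_lit 156) (nat_lit 76) (nat_lit 0) (XT.nd (nat_lit 78) (nat_lit 0) (nat_lit 0) (XT.lf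 (nat_lit 0) (nat_lit 22312647856) (nat_lit 152) (nat_lit 13904970918) (nat_lit 0) (nat_lit 17274155197) (nat_lit 5) (nat_lit 5) (nat_lit 7) (nat_lit 4) (nat_lit 5) (nat_lit 4) (nat_lit 351) (nat_lit 289) (nat_lit 260)) (XT.lf (nat_lit 0) (nat_lit 28793594334) (nat_lit 152) (nat_lit 4854283953) (nat_lit 0) (nat_lit 23710228602) (nat_lit 5) (nat_lit 5) (nat_lit 7) (nat_lit 4) (nat_lit 5) (nat_lit 4) (nat_lit 352) (nat_lit 289) (nat_lit 259))) (XT.nd (nat_lit 78) (nat_lit 0) (nat_lit 0) (XT.lf (nat_lit 0) (nat_lit 5043814023) (nat_lit 76) (nat_lit 30805191758) (nat_lit 76) (nat_lit 25680276885) (nat_lit 4) (nat_lit 4) (nat_lit 5) (nat_lit 5) (nat_lit 5) (nat_lit 4) (nat_lit 353) (nat_lit 289) (nat_lit 258)) (XT.lf (nat_lit 0) (nat_lit 15884136025) (nat_lit 76) (nat_lit 27653939487) (nat_lit 76) (nat_lit 22490553188) (nat_lit 4) (nat_lit 4) (nat_lit 5) (nat_lit 5) (nat_lit 5) (nat_lit 4) (nat_lit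 354) (nat_lit 289) (nat_lit 257)))) (XT.nd (nat_lit 156) (nat_lit 0) (nat_lit 0) (XT.nd (nat_lit 78) (nat_lit 0) (nat_lit 0) (XT.lf (nat_lit 0) (nat_lit 27475303008) (nat_lit 76) (nat_lit 24308172114) (nat_lit 76) (nat_lit 19109164123) (nat_lit 4) (nat_lit 4) (nat_lit 5) (nat_lit 5) (nat_lit 5) (nat_lit 4) (nat_lit 355) (nat_lit 289) (nat_lit 256)) (XT.lf (nat_lit 0) (nat_lit 39886003367) (nat_lit 76) (nat_lit 20748062870) (nat_lit 76) (nat_lit 15516071831) (nat_lit 4) (nat_lit 4) (nat_lit 5) (nat_lit 5) (nat_lit 5) (nat_lit 4) (nat_lit 356) (nat_lit 289) (nat_lit 255))) (XT.nd (nat_lit 78) (nat_lit 0) (nat_lit 0) (XT.lf (nat_lit 0) (nat_lit 53189781995) (nat_lit 76) (nat_lit 16952514809) (nat_lit 76) (nat_lit 11689983912) (nat_lit 4) (nat_lit 4) (nat_lit 5) (nat_lit 5) (nat_lit 5) (nat_lit 4) (nat_lit 357) (nat_lit 289) (nat_lit 254)) (XT.nd (nat_lit 78) (nat_lit 0) (nat_lit 0) (XT.lf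 (nat_lit 0) (nat_lit 67465476098) (nat_lit 76) (nat_lit 12899035797) (nat_lit 76) (nat_lit 7608227252) (nat_lit 4) (nat_lit 4) (nat_lit 5) (nat_lit 5) (nat_lit 5) (nat_lit 4) (nat_lit 358) (nat_lit 289) (nat_lit 253)) (XT.lf (nat_lit 0) (nat_lit 82797682381) (nat_lit 76) (nat_lit 8563605216) (nat_lit 76) (nat_lit 3246613664) (nat_lit 4) (nat_lit 4) (nat_lit 5) (nat_lit 5) (nat_lit 5) (nat_lit 4) (nat_lit 359) (nat_lit 289) (nat_lit 252))))))) (XT.nd (nat_lit 702) (nat_lit 0) (nat_lit 0) (XT.nd (nat_lit 312) (nat_lit 0) (nat_lit 0) (XT.nd (nat_lit 156) (nat_lit 0) (nat_lit 0) (XT.nd (nat_lit 78) (nat_lit 76) (nat_lit 0) (XT.lf (nat_lit 0) (nat_lit 1349634109) (nat_lit 152) (nat_lit 2533996128) (nat_lit 76) (nat_lit 97890722865) (nat_lit 3) (nat_lit 5) (nat_lit 5) (nat_lit 5) (nat_lit 4) (nat_lit 4) (nat_lit 360) (nat_lit 289) (nat_lit 251)) (XT.lf (nat_lit 0) (nat_lit 6319858281) (nat_lit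 152) (nat_lit 101819504709) (nat_lit 0) (nat_lit 1353485332) (nat_lit 2) (nat_lit 5) (nat_lit 4) (nat_lit 4) (nat_lit 2) (nat_lit 4) (nat_lit 361) (nat_lit 289) (nat_lit 250))) (XT.nd (nat_lit 78) (nat_lit 0) (nat_lit 0) (XT.lf (nat_lit 0) (nat_lit 11821808920) (nat_lit 152) (nat_lit 99160101995) (nat_lit 0) (nat_lit 6836190680) (nat_lit 2) (nat_lit 5) (nat_lit 4) (nat_lit 4) (nat_lit 2) (nat_lit 4) (nat_lit 362) (nat_lit 289) (nat_lit 249)) (XT.lf (nat_lit 0) (nat_lit 17728870696) (nat_lit 152) (nat_lit 96357881874) (nat_lit 0) (nat_lit 12725432741) (nat_lit 2) (nat_lit 5) (nat_lit 4) (nat_lit 4) (nat_lit 2) (nat_lit 4) (nat_lit 363) (nat_lit 289) (nat_lit 248)))) (XT.nd (nat_lit 156) (nat_lit 0) (nat_lit 0) (XT.nd (nat_lit 78) (nat_lit 0) (nat_lit 0) (XT.lf (nat_lit 0) (nat_lit 24076048420) (nat_lit 152) (nat_lit 93396238596) (nat_lit 0) (nat_lit 19056110730) (nat_lit 2) (nat_lit 5)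 (nat_lit 4) (nat_lit 4) (nat_lit 2) (nat_lit 4) (nat_lit 364) (nat_lit 289) (nat_lit 247)) (XT.lf (nat_lit 0) (nat_lit 30900954996) (nat_lit 152) (nat_lit 90257621684) (nat_lit 0) (nat_lit 25865739773) (nat_lit 2) (nat_lit 5) (nat_lit 4) (nat_lit 4) (nat_lit 2) (nat_lit 4) (nat_lit 365) (nat_lit 289) (nat_lit 246))) (XT.nd (nat_lit 78) (nat_lit 0) (nat_lit 0) (XT.lf (nat_lit 0) (nat_lit 38244034317) (nat_lit 152) (nat_lit 86923431926) (nat_lit 0) (nat_lit 33194673229) (nat_lit 2) (nat_lit 5) (nat_lit 4) (nat_lit 4) (nat_lit 2) (nat_lit 4) (nat_lit 366) (nat_lit 289) (nat_lit 245)) (XT.nd (nat_lit 78) (nat_lit 0) (nat_lit 0) (XT.lf (nat_lit 0) (nat_lit 46148800924) (nat_lit 152) (nat_lit 83373911160) (nat_lit 0) (nat_lit 41086341815) (nat_lit 2) (nat_lit 5) (nat_lit 4) (nat_lit 4) (nat_lit 2) (nat_lit 4) (nat_lit 367) (nat_lit 289) (nat_lit 244)) (XT.lf (nat_lit 0) (nat_lit 54662097881)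 (nat_lit 152) (nat_lit 79588025189) (nat_lit 0) (nat_lit 49587510974) (nat_lit 2) (nat_lit 5) (nat_lit 4) (nat_lit 4) (nat_lit 2) (nat_lit 4) (nat_lit 368) (nat_lit 289) (nat_lit 243)))))) (XT.nd (nat_lit 312) (nat_lit 0) (nat_lit 0) (XT.nd (nat_lit 156) (nat_lit 0) (nat_lit 0) (XT.nd (nat_lit 78) (nat_lit 0) (nat_lit 0) (XT.lf (nat_lit 0) (nat_lit 63834374354) (nat_lit 152) (nat_lit 75543339133) (nat_lit 0) (nat_lit 58748558004) (nat_lit 2) (nat_lit 5) (nat_lit 4) (nat_lit 4) (nat_lit 2) (nat_lit 4) (nat_lit 369) (nat_lit 289) (nat_lit 242)) (XT.lf (nat_lit 0) (nat_lit 73719984575) (nat_lit 152) (nat_lit 71215884483) (nat_lit 0) (nat_lit 68623770592) (nat_lit 2) (nat_lit 5) (nat_lit 4) (nat_lit 4) (nat_lit 2) (nat_lit 4) (nat_lit 370) (nat_lit 289) (nat_lit 241))) (XT.nd (nat_lit 78) (nat_lit 0) (nat_lit 0) (XT.lf (nat_lit 0) (nat_lit 84377509936) (nat_lit 152) (nat_lit 66580017062) (nat_lit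 0) (nat_lit 79271668516) (nat_lit 2) (nat_lit 5) (nat_lit 4) (nat_lit 4) (nat_lit 2) (nat_lit 4) (nat_lit 371) (nat_lit 289) (nat_lit 240)) (XT.lf (nat_lit 0) (nat_lit 95870106144) (nat_lit 152) (nat_lit 61608265064) (nat_lit 0) (nat_lit 90755350431) (nat_lit 2) (nat_lit 5) (nat_lit 4) (nat_lit 4) (nat_lit 2) (nat_lit 4) (nat_lit 372) (nat_lit 289) (nat_lit 239)))) (XT.nd (nat_lit 156) (nat_lit 0) (nat_lit 0) (XT.nd (nat_lit 78) (nat_lit 0) (nat_lit 0) (XT.lf (nat_lit 0) (nat_lit 108265877473) (nat_lit 152) (nat_lit 56271166255) (nat_lit 0) (nat_lit 103142867784) (nat_lit 2) (nat_lit 5) (nat_lit 4) (nat_lit 4) (nat_lit 2) (nat_lit 4) (nat_lit 373) (nat_lit 289) (nat_lit 238)) (XT.lf (nat_lit 0) (nat_lit 121638280346) (nat_lit 152) (nat_lit 50537093382) (nat_lit 0) (nat_lit 116507628086) (nat_lit 2) (nat_lit 5) (nat_lit 4) (nat_lit 4) (nat_lit 2) (nat_lit 4) (nat_lit 374) (nat_lit 289)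 (nat_lit 237))) (XT.nd (nat_lit 78) (nat_lit 0) (nat_lit 0) (XT.lf (nat_lit 0) (nat_lit 136066558630) (nat_lit 152) (nat_lit 44372066755) (nat_lit 0) (nat_lit 130928829917) (nat_lit 2) (nat_lit 5) (nat_lit 4) (nat_lit 4) (nat_lit 2) (nat_lit 4) (nat_lit 375) (nat_lit 289) (nat_lit 236)) (XT.nd (nat_lit 78) (nat_lit 0) (nat_lit 0) (XT.lf (nat_lit 0) (nat_lit 151636213236) (nat_lit 152) (nat_lit 37739552881) (nat_lit 0) (nat_lit 146491932251) (nat_lit 2) (nat_lit 5) (nat_lit 4) (nat_lit 4) (nat_lit 2) (nat_lit 4) (nat_lit 376) (nat_lit 289) (nat_lit 235)) (XT.lf (nat_lit 0) (nat_lit 168439508782) (nat_lit 152) (nat_lit 30600247976) (nat_lit 0) (nat_lit 163289160878) (nat_lit 2) (nat_lit 5) (nat_lit 4) (nat_lit 4) (nat_lit 2) (nat_lit 4) (nat_lit 377) (nat_lit 289) (nat_lit 234))))))))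
noncomputable def xc64 : XT := (XT.nd (nat_lit 1326) (nat_lit 0) (nat_lit 0) (XT.nd (nat_lit 624) (nat_lit 0) (nat_lit 0) (XT.nd (nat_lit 312) (nat_lit 0) (nat_lit 0) (XT.nd (nat_lit 156) (nat_lit 76) (nat_lit 0) (XT.nd (nat_lit 78) (nat_lit 0) (nat_lit 0) (XT.lf (nat_lit 0) (nat_lit 186576020353) (nat_lit 152) (nat_lit 22911845048) (nat_lit 0) (nat_lit 181420054932) (nat_lit 2) (nat_lit 5) (nat_lit 4) (nat_lit 4) (nat_lit 2) (nat_lit 4) (nat_lit 378) (nat_lit 289) (nat_lit 233)) (XT.lf (nat_lit 0) (nat_lit 206153223573) (nat_lit 152) (nat_lit 14628783189) (nat_lit 0) (nat_lit 200992056748) (nat_lit 2) (nat_lit 5) (nat_lit 4) (nat_lit 4) (nat_lit 2) (nat_lit 4) (nat_lit 379) (nat_lit 289) (nat_lit 232))) (XT.nd (nat_lit 78) (nat_lit 76) (nat_lit 0) (XT.lf (nat_lit 0) (nat_lit 227287131499) (nat_lit 152) (nat_lit 5701977590) (nat_lit 0) (nat_lit 222121148558) (nat_lit 2) (nat_lit 5) (nat_lit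 4) (nat_lit 4) (nat_lit 2) (nat_lit 4) (nat_lit 380) (nat_lit 289) (nat_lit 231)) (XT.lf (nat_lit 0) (nat_lit 4127969070) (nat_lit 76) (nat_lit 246074290789) (nat_lit 76) (nat_lit 240903848482) (nat_lit 1) (nat_lit 4) (nat_lit 2) (nat_lit 5) (nat_lit 2) (nat_lit 4) (nat_lit 381) (nat_lit 289) (nat_lit 230)))) (XT.nd (nat_lit 156) (nat_lit 0) (nat_lit 0) (XT.nd (nat_lit 78) (nat_lit 0) (nat_lit 0) (XT.lf (nat_lit 0) (nat_lit 15051529929) (nat_lit 76) (nat_lit 260046440155) (nat_lit 76) (nat_lit 254871868805) (nat_lit 1) (nat_lit 4) (nat_lit 2) (nat_lit 5) (nat_lit 2) (nat_lit 4) (nat_lit 382) (nat_lit 289) (nat_lit 229)) (XT.lf (nat_lit 0) (nat_lit 26833181164) (nat_lit 76) (nat_lit 275144257281) (nat_lit 76) (nat_lit 269965862743) (nat_lit 1) (nat_lit 4) (nat_lit 2) (nat_lit 5) (nat_lit 2) (nat_lit 4) (nat_lit 383) (nat_lit 289) (nat_lit 228))) (XT.nd (nat_lit 78) (nat_lit 0) (nat_lit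 0) (XT.lf (nat_lit 0) (nat_lit 39542739968) (nat_lit 76) (nat_lit 291457210713) (nat_lit 76) (nat_lit 286275276187) (nat_lit 1) (nat_lit 4) (nat_lit 2) (nat_lit 5) (nat_lit 2) (nat_lit 4) (nat_lit 384) (nat_lit 289) (nat_lit 227)) (XT.lf (nat_lit 0) (nat_lit 53255522245) (nat_lit 76) (nat_lit 309081969806) (nat_lit 76) (nat_lit 303896757512) (nat_lit 1) (nat_lit 4) (nat_lit 2) (nat_lit 5) (nat_lit 2) (nat_lit 4) (nat_lit 385) (nat_lit 289) (nat_lit 226))))) (XT.nd (nat_lit 312) (nat_lit 0) (nat_lit 0) (XT.nd (nat_lit 156) (nat_lit 0) (nat_lit 0) (XT.nd (nat_lit 78) (nat_lit 0) (nat_lit 0) (XT.lf (nat_lit 0) (nat_lit 68052788927) (nat_lit 76) (nat_lit 328122977575) (nat_lit 76) (nat_lit 322934730311) (nat_lit 1) (nat_lit 4) (nat_lit 2) (nat_lit 5) (nat_lit 2) (nat_lit 4) (nat_lit 386) (nat_lit 289) (nat_lit 225)) (XT.lf (nat_lit 0) (nat_lit 84022227519) (nat_lit 76) (nat_lit 348693069623)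 (nat_lit 76) (nat_lit 343502012202) (nat_lit 1) (nat_lit 4) (nat_lit 2) (nat_lit 5) (nat_lit 2) (nat_lit 4) (nat_lit 387) (nat_lit 289) (nat_lit 224))) (XT.nd (nat_lit 78) (nat_lit 0) (nat_lit 0) (XT.lf (nat_lit 0) (nat_lit 101258471733) (nat_lit 76) (nat_lit 370914142791) (nat_lit 76) (nat_lit 365720483372) (nat_lit 1) (nat_lit 4) (nat_lit 2) (nat_lit 5) (nat_lit 2) (nat_lit 4) (nat_lit 388) (nat_lit 289) (nat_lit 223)) (XT.lf (nat_lit 0) (nat_lit 119863662274) (nat_lit 76) (nat_lit 394917877512) (nat_lit 76) (nat_lit 389721808837) (nat_lit 1) (nat_lit 4) (nat_lit 2) (nat_lit 5) (nat_lit 2) (nat_lit 4) (nat_lit 389) (nat_lit 289) (nat_lit 222)))) (XT.nd (nat_lit 156) (nat_lit 0) (nat_lit 0) (XT.nd (nat_lit 78) (nat_lit 0) (nat_lit 0) (XT.lf (nat_lit 0) (nat_lit 139948052124) (nat_lit 76) (nat_lit 420846518142) (nat_lit 76) (nat_lit 415648218674) (nat_lit 1) (nat_lit 4) (nat_lit 2) (nat_lit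 5) (nat_lit 2) (nat_lit 4) (nat_lit 390) (nat_lit 289) (nat_lit 221)) (XT.lf (nat_lit 0) (nat_lit 161630659889) (nat_lit 76) (nat_lit 448853715883) (nat_lit 76) (nat_lit 443653350865) (nat_lit 1) (nat_lit 4) (nat_lit 2) (nat_lit 5) (nat_lit 2) (nat_lit 4) (nat_lit 391) (nat_lit 289) (nat_lit 220))) (XT.nd (nat_lit 78) (nat_lit 0) (nat_lit 0) (XT.lf (nat_lit 0) (nat_lit 185039975097) (nat_lit 76) (nat_lit 479105439315) (nat_lit 76) (nat_lit 473903161751) (nat_lit 1) (nat_lit 4) (nat_lit 2) (nat_lit 5) (nat_lit 2) (nat_lit 4) (nat_lit 392) (nat_lit 289) (nat_lit 219)) (XT.nd (nat_lit 78) (nat_lit 0) (nat_lit 0) (XT.lf (nat_lit 0) (nat_lit 210314719615) (nat_lit 76) (nat_lit 511780957909) (nat_lit 76) (nat_lit 506576909470) (nat_lit 1) (nat_lit 4) (nat_lit 2) (nat_lit 5) (nat_lit 2) (nat_lit 4) (nat_lit 393) (nat_lit 289) (nat_lit 218)) (XT.lf (nat_lit 0) (nat_lit 237604669707) (nat_lit 76)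 (nat_lit 547073904369) (nat_lit 76) (nat_lit 541868216230) (nat_lit 1) (nat_lit 4) (nat_lit 2) (nat_lit 5) (nat_lit 2) (nat_lit 4) (nat_lit 394) (nat_lit 289) (nat_lit 217))))))) (XT.nd (nat_lit 624) (nat_lit 0) (nat_lit 0) (XT.nd (nat_lit 312) (nat_lit 0) (nat_lit 0) (XT.nd (nat_lit 156) (nat_lit 0) (nat_lit 0) (XT.nd (nat_lit 78) (nat_lit 0) (nat_lit 0) (XT.lf (nat_lit 0) (nat_lit 267071543597) (nat_lit 76) (nat_lit 585193422081) (nat_lit 76) (nat_lit 579986215702) (nat_lit 1) (nat_lit 4) (nat_lit 2) (nat_lit 5) (nat_lit 2) (nat_lit 4) (nat_lit 395) (nat_lit 289) (nat_lit 216)) (XT.lf (nat_lit 0) (nat_lit 298889959795) (nat_lit 76) (nat_lit 626365404484) (nat_lit 76) (nat_lit 621156792327) (nat_lit 1) (nat_lit 4) (nat_lit 2) (nat_lit 5) (nat_lit 2) (nat_lit 4) (nat_lit 396) (nat_lit 289) (nat_lit 215))) (XT.nd (nat_lit 78) (nat_lit 0) (nat_lit 0) (XT.lf (nat_lit 0) (nat_lit 333248471880)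 (nat_lit 76) (nat_lit 670833833695) (nat_lit 76) (nat_lit 665623919891) (nat_lit 1) (nat_lit 4) (nat_lit 2) (nat_lit 5) (nat_lit 2) (nat_lit 4) (nat_lit 397) (nat_lit 289) (nat_lit 214)) (XT.lf (nat_lit 0) (nat_lit 370350685849) (nat_lit 76) (nat_lit 718862226332) (nat_lit 76) (nat_lit 713651107299) (nat_lit 1) (nat_lit 4) (nat_lit 2) (nat_lit 5) (nat_lit 2) (nat_lit 4) (nat_lit 398) (nat_lit 289) (nat_lit 213)))) (XT.nd (nat_lit 156) (nat_lit 0) (nat_lit 0) (XT.nd (nat_lit 78) (nat_lit 0) (nat_lit 0) (XT.lf (nat_lit 0) (nat_lit 410416466674) (nat_lit 76) (nat_lit 770735195091) (nat_lit 76) (nat_lit 765522960107) (nat_lit 1) (nat_lit 4) (nat_lit 2) (nat_lit 5) (nat_lit 2) (nat_lit 4) (nat_lit 399) (nat_lit 289) (nat_lit 212)) (XT.lf (nat_lit 0) (nat_lit 453683241204) (nat_lit 76) (nat_lit 826760135345) (nat_lit 76) (nat_lit 821546867071) (nat_lit 1) (nat_lit 4) (nat_lit 2) (nat_lit 5)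 (nat_lit 2) (nat_lit 4) (nat_lit 400) (nat_lit 289) (nat_lit 211))) (XT.nd (nat_lit 78) (nat_lit 0) (nat_lit 0) (XT.lf (nat_lit 0) (nat_lit 500407405140) (nat_lit 76) (nat_lit 887269046737) (nat_lit 76) (nat_lit 882054821715) (nat_lit 1) (nat_lit 4) (nat_lit 2) (nat_lit 5) (nat_lit 2) (nat_lit 4) (nat_lit 401) (nat_lit 289) (nat_lit 210)) (XT.lf (nat_lit 0) (nat_lit 550865842416) (nat_lit 76) (nat_lit 952620500595) (nat_lit 76) (nat_lit 947405389694) (nat_lit 1) (nat_lit 4) (nat_lit 2) (nat_lit 5) (nat_lit 2) (nat_lit 4) (nat_lit 402) (nat_lit 289) (nat_lit 209))))) (XT.nd (nat_lit 312) (nat_lit 0) (nat_lit 0) (XT.nd (nat_lit 156) (nat_lit 0) (nat_lit 0) (XT.nd (nat_lit 78) (nat_lit 0) (nat_lit 0) (XT.lf (nat_lit 0) (nat_lit 605357565994) (nat_lit 76) (nat_lit 1023201764795) (nat_lit 76) (nat_lit 1017985833636) (nat_lit 1) (nat_lit 4) (nat_lit 2) (nat_lit 5) (nat_lit 2) (nat_lit 4) (nat_lit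 403) (nat_lit 289) (nat_lit 208)) (XT.lf (nat_lit 0) (nat_lit 664205489792) (nat_lit 76) (nat_lit 1099431098678) (nat_lit 76) (nat_lit 1094214408021) (nat_lit 1) (nat_lit 4) (nat_lit 2) (nat_lit 5) (nat_lit 2) (nat_lit 4) (nat_lit 404) (nat_lit 289) (nat_lit 207))) (XT.nd (nat_lit 78) (nat_lit 0) (nat_lit 0) (XT.lf (nat_lit 0) (nat_lit 727758342246) (nat_lit 76) (nat_lit 1181760231632) (nat_lit 76) (nat_lit 1176542837736) (nat_lit 1) (nat_lit 4) (nat_lit 2) (nat_lit 5) (nat_lit 2) (nat_lit 4) (nat_lit 405) (nat_lit 289) (nat_lit 206)) (XT.lf (nat_lit 0) (nat_lit 796392732854) (nat_lit 76) (nat_lit 1270677039999) (nat_lit 76) (nat_lit 1265458994956) (nat_lit 1) (nat_lit 4) (nat_lit 2) (nat_lit 5) (nat_lit 2) (nat_lit 4) (nat_lit 406) (nat_lit 289) (nat_lit 205)))) (XT.nd (nat_lit 156) (nat_lit 0) (nat_lit 0) (XT.nd (nat_lit 78) (nat_lit 0) (nat_lit 0) (XT.lf (nat_lit 0) (nat_lit 870515383929)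 (nat_lit 76) (nat_lit 1366708438200) (nat_lit 76) (nat_lit 1361489790242) (nat_lit 1) (nat_lit 4) (nat_lit 2) (nat_lit 5) (nat_lit 2) (nat_lit 4) (nat_lit 407) (nat_lit 289) (nat_lit 204)) (XT.lf (nat_lit 0) (nat_lit 950565540811) (nat_lit 76) (nat_lit 1470423501187) (nat_lit 76) (nat_lit 1465204294975) (nat_lit 1) (nat_lit 4) (nat_lit 2) (nat_lit 5) (nat_lit 2) (nat_lit 4) (nat_lit 408) (nat_lit 289) (nat_lit 203))) (XT.nd (nat_lit 78) (nat_lit 0) (nat_lit 0) (XT.lf (nat_lit 0) (nat_lit 1037017574800) (nat_lit 76) (nat_lit 1582436836741) (nat_lit 76) (nat_lit 1577217113627) (nat_lit 1) (nat_lit 4) (nat_lit 2) (nat_lit 5) (nat_lit 2) (nat_lit 4) (nat_lit 409) (nat_lit 289) (nat_lit 202)) (XT.nd (nat_lit 78) (nat_lit 0) (nat_lit 0) (XT.lf (nat_lit 0) (nat_lit 1130383794247) (nat_lit 76) (nat_lit 1703412227590) (nat_lit 76) (nat_lit 1698192025863) (nat_lit 1) (nat_lit 4) (nat_lit 2) (nat_lit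 5) (nat_lit 2) (nat_lit 4) (nat_lit 410) (nat_lit 289) (nat_lit 201)) (XT.lf (nat_lit 0) (nat_lit 1231217480451) (nat_lit 76) (nat_lit 1834066564940) (nat_lit 76) (nat_lit 1828845920053) (nat_lit 1) (nat_lit 4) (nat_lit 2) (nat_lit 5) (nat_lit 2) (nat_lit 4) (nat_lit 411) (nat_lit 289) (nat_lit 200))))))))
noncomputable def xc65 : XT := (XT.nd (nat_lit 40872) (nat_lit 0) (nat_lit 304) (XT.nd (nat_lit 40170) (nat_lit 0) (nat_lit 988) (XT.nd (nat_lit 39858) (nat_lit 0) (nat_lit 1596) (XT.nd (nat_lit 39702) (nat_lit 0) (nat_lit 2052) (XT.nd (nat_lit 78) (nat_lit 0) (nat_lit 0) (XT.lf (nat_lit 0) (nat_lit 1340116166367) (nat_lit 76) (nat_lit 1975174096715) (nat_lit 76) (nat_lit 1969953041496) (nat_lit 1) (nat_lit 4) (nat_lit 2) (nat_lit 5) (nat_lit 2) (nat_lit 4) (nat_lit 412) (nat_lit 289) (nat_lit 199)) (XT.lf (nat_lit 0) (nat_lit 1457725177542) (nat_lit 76) (nat_lit 2127571015698) (nat_lit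 76) (nat_lit 2122349580540) (nat_lit 1) (nat_lit 4) (nat_lit 2) (nat_lit 5) (nat_lit 2) (nat_lit 4) (nat_lit 413) (nat_lit 289) (nat_lit 198))) (XT.nd (nat_lit 78) (nat_lit 228) (nat_lit 0) (XT.lf (nat_lit 0) (nat_lit 3536712805) (nat_lit 152) (nat_lit 636705135) (nat_lit 152) (nat_lit 636705135) (nat_lit 31) (nat_lit 4) (nat_lit 33) (nat_lit 5) (nat_lit 33) (nat_lit 4) (nat_lit 320) (nat_lit 290) (nat_lit 290)) (XT.lf (nat_lit 0) (nat_lit 2959688626) (nat_lit 228) (nat_lit 4833408770) (nat_lit 0) (nat_lit 2185824421) (nat_lit 28) (nat_lit 5) (nat_lit 31) (nat_lit 4) (nat_lit 28) (nat_lit 4) (nat_lit 321) (nat_lit 290) (nat_lit 289)))) (XT.nd (nat_lit 156) (nat_lit 152) (nat_lit 0) (XT.nd (nat_lit 78) (nat_lit 152) (nat_lit 0) (XT.lf (nat_lit 0) (nat_lit 2905696552) (nat_lit 152) (nat_lit 4477487676) (nat_lit 152) (nat_lit 2987082540) (nat_lit 26) (nat_lit 4) (nat_lit 28) (nat_lit 5) (nat_lit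 28) (nat_lit 4) (nat_lit 322) (nat_lit 290) (nat_lit 288)) (XT.lf (nat_lit 0) (nat_lit 324205904) (nat_lit 76) (nat_lit 867176242) (nat_lit 152) (nat_lit 9607760439) (nat_lit 24) (nat_lit 5) (nat_lit 25) (nat_lit 5) (nat_lit 26) (nat_lit 4) (nat_lit 323) (nat_lit 290) (nat_lit 287))) (XT.nd (nat_lit 78) (nat_lit 152) (nat_lit 0) (XT.lf (nat_lit 0) (nat_lit 5578945193) (nat_lit 152) (nat_lit 2658681795) (nat_lit 0) (nat_lit 3015808789) (nat_lit 24) (nat_lit 5) (nat_lit 26) (nat_lit 4) (nat_lit 24) (nat_lit 4) (nat_lit 324) (nat_lit 290) (nat_lit 286)) (XT.lf (nat_lit 0) (nat_lit 5656772908) (nat_lit 152) (nat_lit 4591427346) (nat_lit 152) (nat_lit 1501611968) (nat_lit 22) (nat_lit 4) (nat_lit 24) (nat_lit 5) (nat_lit 24) (nat_lit 4) (nat_lit 325) (nat_lit 290) (nat_lit 285))))) (XT.nd (nat_lit 312) (nat_lit 228) (nat_lit 0) (XT.nd (nat_lit 156) (nat_lit 228) (nat_lit 0) (XT.nd (nat_lit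 78) (nat_lit 0) (nat_lit 0) (XT.lf (nat_lit 0) (nat_lit 2153308421) (nat_lit 76) (nat_lit 601878846) (nat_lit 152) (nat_lit 9533063277) (nat_lit 20) (nat_lit 5) (nat_lit 21) (nat_lit 5) (nat_lit 22) (nat_lit 4) (nat_lit 326) (nat_lit 290) (nat_lit 284)) (XT.lf (nat_lit 0) (nat_lit 7309283217) (nat_lit 152) (nat_lit 1975778809) (nat_lit 0) (nat_lit 3578705970) (nat_lit 20) (nat_lit 5) (nat_lit 22) (nat_lit 4) (nat_lit 20) (nat_lit 4) (nat_lit 327) (nat_lit 290) (nat_lit 283))) (XT.nd (nat_lit 78) (nat_lit 152) (nat_lit 0) (XT.lf (nat_lit 0) (nat_lit 6796838362) (nat_lit 76) (nat_lit 5404232273) (nat_lit 76) (nat_lit 1286530256) (nat_lit 19) (nat_lit 4) (nat_lit 20) (nat_lit 5) (nat_lit 20) (nat_lit 4) (nat_lit 328) (nat_lit 290) (nat_lit 282)) (XT.lf (nat_lit 0) (nat_lit 1873695774) (nat_lit 76) (nat_lit 1179115115) (nat_lit 152) (nat_lit 11110565209) (nat_lit 17) (nat_lit 5) (nat_lit 18)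 (nat_lit 5) (nat_lit 19) (nat_lit 4) (nat_lit 329) (nat_lit 290) (nat_lit 281)))) (XT.nd (nat_lit 156) (nat_lit 152) (nat_lit 0) (XT.nd (nat_lit 78) (nat_lit 76) (nat_lit 0) (XT.lf (nat_lit 0) (nat_lit 7737316804) (nat_lit 152) (nat_lit 3862514429) (nat_lit 0) (nat_lit 3285420535) (nat_lit 17) (nat_lit 5) (nat_lit 19) (nat_lit 4) (nat_lit 17) (nat_lit 4) (nat_lit 330) (nat_lit 290) (nat_lit 280)) (XT.lf (nat_lit 0) (nat_lit 5123571577) (nat_lit 76) (nat_lit 7640238747) (nat_lit 76) (nat_lit 2903794216) (nat_lit 16) (nat_lit 4) (nat_lit 17) (nat_lit 5) (nat_lit 17) (nat_lit 4) (nat_lit 331) (nat_lit 290) (nat_lit 279))) (XT.nd (nat_lit 78) (nat_lit 76) (nat_lit 0) (XT.lf (nat_lit 0) (nat_lit 1518616960) (nat_lit 152) (nat_lit 1841191866) (nat_lit 76) (nat_lit 13155772952) (nat_lit 15) (nat_lit 5) (nat_lit 17) (nat_lit 5) (nat_lit 16) (nat_lit 4) (nat_lit 332) (nat_lit 290) (nat_lit 278))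 (XT.nd (nat_lit 78) (nat_lit 0) (nat_lit 0) (XT.lf (nat_lit 0) (nat_lit 6181078796) (nat_lit 152) (nat_lit 9915272868) (nat_lit 0) (nat_lit 1325644153) (nat_lit 14) (nat_lit 5) (nat_lit 16) (nat_lit 4) (nat_lit 14) (nat_lit 4) (nat_lit 333) (nat_lit 290) (nat_lit 277)) (XT.lf (nat_lit 0) (nat_lit 11185503510) (nat_lit 152) (nat_lit 1097062137) (nat_lit 0) (nat_lit 6120917399) (nat_lit 14) (nat_lit 5) (nat_lit 16) (nat_lit 4) (nat_lit 14) (nat_lit 4) (nat_lit 334) (nat_lit 290) (nat_lit 276))))))) (XT.nd (nat_lit 624) (nat_lit 228) (nat_lit 0) (XT.nd (nat_lit 312) (nat_lit 228) (nat_lit 0) (XT.nd (nat_lit 156) (nat_lit 76) (nat_lit 0) (XT.nd (nat_lit 78) (nat_lit 76) (nat_lit 0) (XT.lf (nat_lit 0) (nat_lit 8559633442) (nat_lit 76) (nat_lit 8079146249) (nat_lit 76) (nat_lit 2820901372) (nat_lit 13) (nat_lit 4) (nat_lit 14) (nat_lit 5) (nat_lit 14) (nat_lit 4) (nat_lit 335) (nat_lit 290)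 (nat_lit 275)) (XT.lf (nat_lit 0) (nat_lit 1705622652) (nat_lit 152) (nat_lit 1889863432) (nat_lit 76) (nat_lit 17011311016) (nat_lit 12) (nat_lit 5) (nat_lit 14) (nat_lit 5) (nat_lit 13) (nat_lit 4) (nat_lit 336) (nat_lit 290) (nat_lit 274))) (XT.nd (nat_lit 78) (nat_lit 0) (nat_lit 0) (XT.lf (nat_lit 0) (nat_lit 6520250131) (nat_lit 152) (nat_lit 13981615719) (nat_lit 0) (nat_lit 1331741125) (nat_lit 11) (nat_lit 5) (nat_lit 13) (nat_lit 4) (nat_lit 11) (nat_lit 4) (nat_lit 337) (nat_lit 290) (nat_lit 273)) (XT.lf (nat_lit 0) (nat_lit 11722683299) (nat_lit 152) (nat_lit 5043890822) (nat_lit 0) (nat_lit 6391829318) (nat_lit 11) (nat_lit 5) (nat_lit 13) (nat_lit 4) (nat_lit 11) (nat_lit 4) (nat_lit 338) (nat_lit 290) (nat_lit 272)))) (XT.nd (nat_lit 156) (nat_lit 152) (nat_lit 0) (XT.nd (nat_lit 78) (nat_lit 0) (nat_lit 0) (XT.lf (nat_lit 0) (nat_lit 4583114203) (nat_lit 76) (nat_lit 12735302302)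 (nat_lit 76) (nat_lit 7272647419) (nat_lit 10) (nat_lit 4) (nat_lit 11) (nat_lit 5) (nat_lit 11) (nat_lit 4) (nat_lit 339) (nat_lit 290) (nat_lit 271)) (XT.lf (nat_lit 0) (nat_lit 15018582166) (nat_lit 76) (nat_lit 8351899548) (nat_lit 76) (nat_lit 2767206793) (nat_lit 10) (nat_lit 4) (nat_lit 11) (nat_lit 5) (nat_lit 11) (nat_lit 4) (nat_lit 340) (nat_lit 290) (nat_lit 270))) (XT.nd (nat_lit 78) (nat_lit 76) (nat_lit 0) (XT.lf (nat_lit 0) (nat_lit 1870874780) (nat_lit 152) (nat_lit 1806271242) (nat_lit 76) (nat_lit 24136722712) (nat_lit 9) (nat_lit 5) (nat_lit 11) (nat_lit 5) (nat_lit 10) (nat_lit 4) (nat_lit 341) (nat_lit 290) (nat_lit 269)) (XT.lf (nat_lit 0) (nat_lit 6855876133) (nat_lit 152) (nat_lit 21269164164) (nat_lit 0) (nat_lit 1483358920) (nat_lit 8) (nat_lit 5) (nat_lit 10) (nat_lit 4) (nat_lit 8) (nat_lit 4) (nat_lit 342) (nat_lit 290) (nat_lit 268))))) (XT.nd (nat_lit 312)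 (nat_lit 152) (nat_lit 0) (XT.nd (nat_lit 156) (nat_lit 76) (nat_lit 0) (XT.nd (nat_lit 78) (nat_lit 0) (nat_lit 0) (XT.lf (nat_lit 0) (nat_lit 12272950408) (nat_lit 152) (nat_lit 12460181361) (nat_lit 0) (nat_lit 6810731715) (nat_lit 8) (nat_lit 5) (nat_lit 10) (nat_lit 4) (nat_lit 8) (nat_lit 4) (nat_lit 343) (nat_lit 290) (nat_lit 267)) (XT.lf (nat_lit 0) (nat_lit 18018847198) (nat_lit 152) (nat_lit 3150140302) (nat_lit 0) (nat_lit 12473571580) (nat_lit 8) (nat_lit 5) (nat_lit 10) (nat_lit 4) (nat_lit 8) (nat_lit 4) (nat_lit 344) (nat_lit 290) (nat_lit 266))) (XT.nd (nat_lit 78) (nat_lit 0) (nat_lit 0) (XT.lf (nat_lit 0) (nat_lit 7069789111) (nat_lit 76) (nat_lit 17227855749) (nat_lit 76) (nat_lit 11605675570) (nat_lit 7) (nat_lit 4) (nat_lit 8) (nat_lit 5) (nat_lit 8) (nat_lit 4) (nat_lit 345) (nat_lit 290) (nat_lit 265)) (XT.lf (nat_lit 0) (nat_lit 18102663768) (nat_lit 76) (nat_lit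 12968163442) (nat_lit 76) (nat_lit 7274775337) (nat_lit 7) (nat_lit 4) (nat_lit 8) (nat_lit 5) (nat_lit 8) (nat_lit 4) (nat_lit 346) (nat_lit 290) (nat_lit 264)))) (XT.nd (nat_lit 156) (nat_lit 76) (nat_lit 0) (XT.nd (nat_lit 78) (nat_lit 76) (nat_lit 0) (XT.lf (nat_lit 0) (nat_lit 29847982863) (nat_lit 76) (nat_lit 8450798378) (nat_lit 76) (nat_lit 2691477008) (nat_lit 7) (nat_lit 4) (nat_lit 8) (nat_lit 5) (nat_lit 8) (nat_lit 4) (nat_lit 347) (nat_lit 290) (nat_lit 263)) (XT.lf (nat_lit 0) (nat_lit 2062758496) (nat_lit 152) (nat_lit 1529833017) (nat_lit 76) (nat_lit 40256190316) (nat_lit 6) (nat_lit 5) (nat_lit 8) (nat_lit 5) (nat_lit 7) (nat_lit 4) (nat_lit 348) (nat_lit 290) (nat_lit 262))) (XT.nd (nat_lit 78) (nat_lit 0) (nat_lit 0) (XT.lf (nat_lit 0) (nat_lit 7239342682) (nat_lit 152) (nat_lit 37878307118) (nat_lit 0) (nat_lit 1797770610) (nat_lit 5) (nat_lit 5) (nat_lit 7) (nat_lit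 4) (nat_lit 5) (nat_lit 4) (nat_lit 349) (nat_lit 290) (nat_lit 261)) (XT.nd (nat_lit 78) (nat_lit 0) (nat_lit 0) (XT.lf (nat_lit 0) (nat_lit 12890099518) (nat_lit 152) (nat_lit 29932440278) (nat_lit 0) (nat_lit 7400064528) (nat_lit 5) (nat_lit 5) (nat_lit 7) (nat_lit 4) (nat_lit 5) (nat_lit 4) (nat_lit 350) (nat_lit 290) (nat_lit 260)) (XT.lf (nat_lit 0) (nat_lit 18922377135) (nat_lit 152) (nat_lit 21490176516) (nat_lit 0) (nat_lit 13387469073) (nat_lit 5) (nat_lit 5) (nat_lit 7) (nat_lit 4) (nat_lit 5) (nat_lit 4) (nat_lit 351) (nat_lit 290) (nat_lit 259))))))))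
noncomputable def xc66 : XT := (XT.nd (nat_lit 1326) (nat_lit 76) (nat_lit 0) (XT.nd (nat_lit 624) (nat_lit 152) (nat_lit 0) (XT.nd (nat_lit 312) (nat_lit 0) (nat_lit 0) (XT.nd (nat_lit 156) (nat_lit 76) (nat_lit 0) (XT.nd (nat_lit 78) (nat_lit 0) (nat_lit 0) (XT.lf (nat_lit 0) (nat_lit 25371922364) (nat_lit 152) (nat_lit 12501487604) (nat_lit 0) (nat_lit 19795465161) (nat_lit 5) (nat_lit 5) (nat_lit 7) (nat_lit 4) (nat_lit 5) (nat_lit 4) (nat_lit 352) (nat_lit 290) (nat_lit 258)) (XT.lf (nat_lit 0) (nat_lit 32276954732) (nat_lit 152) (nat_lit 2913107237) (nat_lit 0) (nat_lit 26662026102) (nat_lit 5) (nat_lit 5) (nat_lit 7) (nat_lit 4) (nat_lit 5) (nat_lit 4) (nat_lit 353) (nat_lit 290) (nat_lit 257))) (XT.nd (nat_lit 78) (nat_lit 0) (nat_lit 0) (XT.lf (nat_lit 0) (nat_lit 7717863402) (nat_lit 76) (nat_lit 32146144348) (nat_lit 76) (nat_lit 26495594026) (nat_lit 4) (nat_lit 4) (nat_lit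 5) (nat_lit 5) (nat_lit 5) (nat_lit 4) (nat_lit 354) (nat_lit 290) (nat_lit 256)) (XT.lf (nat_lit 0) (nat_lit 19257222701) (nat_lit 76) (nat_lit 28826011359) (nat_lit 76) (nat_lit 23142477989) (nat_lit 4) (nat_lit 4) (nat_lit 5) (nat_lit 5) (nat_lit 5) (nat_lit 4) (nat_lit 355) (nat_lit 290) (nat_lit 255)))) (XT.nd (nat_lit 156) (nat_lit 0) (nat_lit 0) (XT.nd (nat_lit 78) (nat_lit 0) (nat_lit 0) (XT.lf (nat_lit 0) (nat_lit 31619952983) (nat_lit 76) (nat_lit 25289637654) (nat_lit 76) (nat_lit 19575564426) (nat_lit 4) (nat_lit 4) (nat_lit 5) (nat_lit 5) (nat_lit 5) (nat_lit 4) (nat_lit 356) (nat_lit 290) (nat_lit 254)) (XT.lf (nat_lit 0) (nat_lit 44879314873) (nat_lit 76) (nat_lit 21516066946) (nat_lit 76) (nat_lit 15773716070) (nat_lit 4) (nat_lit 4) (nat_lit 5) (nat_lit 5) (nat_lit 5) (nat_lit 4) (nat_lit 357) (nat_lit 290) (nat_lit 253))) (XT.nd (nat_lit 78) (nat_lit 0) (nat_lit 0) (XT.lf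 (nat_lit 0) (nat_lit 59113882366) (nat_lit 76) (nat_lit 17482937334) (nat_lit 76) (nat_lit 11714403451) (nat_lit 4) (nat_lit 4) (nat_lit 5) (nat_lit 5) (nat_lit 5) (nat_lit 4) (nat_lit 358) (nat_lit 290) (nat_lit 252)) (XT.lf (nat_lit 0) (nat_lit 74408008455) (nat_lit 76) (nat_lit 13166348790) (nat_lit 76) (nat_lit 7373571383) (nat_lit 4) (nat_lit 4) (nat_lit 5) (nat_lit 5) (nat_lit 5) (nat_lit 4) (nat_lit 359) (nat_lit 290) (nat_lit 251))))) (XT.nd (nat_lit 312) (nat_lit 0) (nat_lit 0) (XT.nd (nat_lit 156) (nat_lit 76) (nat_lit 0) (XT.nd (nat_lit 78) (nat_lit 76) (nat_lit 0) (XT.lf (nat_lit 0) (nat_lit 90852324998) (nat_lit 76) (nat_lit 8540721531) (nat_lit 76) (nat_lit 2725496415) (nat_lit 4) (nat_lit 4) (nat_lit 5) (nat_lit 5) (nat_lit 5) (nat_lit 4) (nat_lit 360) (nat_lit 290) (nat_lit 250)) (XT.lf (nat_lit 0) (nat_lit 2144443028) (nat_lit 152) (nat_lit 1375568530) (nat_lit 76) (nat_lit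 106341203897) (nat_lit 3) (nat_lit 5) (nat_lit 5) (nat_lit 5) (nat_lit 4) (nat_lit 4) (nat_lit 361) (nat_lit 290) (nat_lit 249))) (XT.nd (nat_lit 78) (nat_lit 0) (nat_lit 0) (XT.lf (nat_lit 0) (nat_lit 7509159735) (nat_lit 152) (nat_lit 108600663844) (nat_lit 0) (nat_lit 2087627030) (nat_lit 2) (nat_lit 5) (nat_lit 4) (nat_lit 4) (nat_lit 2) (nat_lit 4) (nat_lit 362) (nat_lit 290) (nat_lit 248)) (XT.lf (nat_lit 0) (nat_lit 13400621034) (nat_lit 152) (nat_lit 105829575672) (nat_lit 0) (nat_lit 7962588592) (nat_lit 2) (nat_lit 5) (nat_lit 4) (nat_lit 4) (nat_lit 2) (nat_lit 4) (nat_lit 363) (nat_lit 290) (nat_lit 247)))) (XT.nd (nat_lit 156) (nat_lit 0) (nat_lit 0) (XT.nd (nat_lit 78) (nat_lit 0) (nat_lit 0) (XT.lf (nat_lit 0) (nat_lit 19733353870) (nat_lit 152) (nat_lit 102896758273) (nat_lit 0) (nat_lit 14280043896) (nat_lit 2) (nat_lit 5) (nat_lit 4) (nat_lit 4) (nat_lit 2) (nat_lit 4)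 (nat_lit 364) (nat_lit 290) (nat_lit 246)) (XT.lf (nat_lit 0) (nat_lit 26544885551) (nat_lit 152) (nat_lit 99784831989) (nat_lit 0) (nat_lit 21077429713) (nat_lit 2) (nat_lit 5) (nat_lit 4) (nat_lit 4) (nat_lit 2) (nat_lit 4) (nat_lit 365) (nat_lit 290) (nat_lit 245))) (XT.nd (nat_lit 78) (nat_lit 0) (nat_lit 0) (XT.lf (nat_lit 0) (nat_lit 33875580709) (nat_lit 152) (nat_lit 96475355775) (nat_lit 0) (nat_lit 28395026849) (nat_lit 2) (nat_lit 5) (nat_lit 4) (nat_lit 4) (nat_lit 2) (nat_lit 4) (nat_lit 366) (nat_lit 290) (nat_lit 244)) (XT.nd (nat_lit 78) (nat_lit 0) (nat_lit 0) (XT.lf (nat_lit 0) (nat_lit 41768880500) (nat_lit 152) (nat_lit 92948717921) (nat_lit 0) (nat_lit 36276198841) (nat_lit 2) (nat_lit 5) (nat_lit 4) (nat_lit 4) (nat_lit 2) (nat_lit 4) (nat_lit 367) (nat_lit 290) (nat_lit 243)) (XT.lf (nat_lit 0) (nat_lit 50271560033) (nat_lit 152) (nat_lit 89184019831) (nat_lit 0)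 (nat_lit 44767648932) (nat_lit 2) (nat_lit 5) (nat_lit 4) (nat_lit 4) (nat_lit 2) (nat_lit 4) (nat_lit 368) (nat_lit 290) (nat_lit 242))))))) (XT.nd (nat_lit 624) (nat_lit 76) (nat_lit 0) (XT.nd (nat_lit 312) (nat_lit 0) (nat_lit 0) (XT.nd (nat_lit 156) (nat_lit 0) (nat_lit 0) (XT.nd (nat_lit 78) (nat_lit 0) (nat_lit 0) (XT.lf (nat_lit 0) (nat_lit 59434005559) (nat_lit 152) (nat_lit 85158952184) (nat_lit 0) (nat_lit 53919696826) (nat_lit 2) (nat_lit 5) (nat_lit 4) (nat_lit 4) (nat_lit 2) (nat_lit 4) (nat_lit 369) (nat_lit 290) (nat_lit 241)) (XT.lf (nat_lit 0) (nat_lit 69310513050) (nat_lit 152) (nat_lit 80849662727) (nat_lit 0) (nat_lit 63786576880) (nat_lit 2) (nat_lit 5) (nat_lit 4) (nat_lit 4) (nat_lit 2) (nat_lit 4) (nat_lit 370) (nat_lit 290) (nat_lit 240))) (XT.nd (nat_lit 78) (nat_lit 0) (nat_lit 0) (XT.lf (nat_lit 0) (nat_lit 79959609959) (nat_lit 152) (nat_lit 76230614929) (nat_lit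 0) (nat_lit 74426759494) (nat_lit 2) (nat_lit 5) (nat_lit 4) (nat_lit 4) (nat_lit 2) (nat_lit 4) (nat_lit 371) (nat_lit 290) (nat_lit 239)) (XT.lf (nat_lit 0) (nat_lit 91444402044) (nat_lit 152) (nat_lit 71274436657) (nat_lit 0) (nat_lit 85903297604) (nat_lit 2) (nat_lit 5) (nat_lit 4) (nat_lit 4) (nat_lit 2) (nat_lit 4) (nat_lit 372) (nat_lit 290) (nat_lit 238)))) (XT.nd (nat_lit 156) (nat_lit 0) (nat_lit 0) (XT.nd (nat_lit 78) (nat_lit 0) (nat_lit 0) (XT.lf (nat_lit 0) (nat_lit 103832947333) (nat_lit 152) (nat_lit 65951757963) (nat_lit 0) (nat_lit 98284200323) (nat_lit 2) (nat_lit 5) (nat_lit 4) (nat_lit 4) (nat_lit 2) (nat_lit 4) (nat_lit 373) (nat_lit 290) (nat_lit 237)) (XT.lf (nat_lit 0) (nat_lit 117198659428) (nat_lit 152) (nat_lit 60231037050) (nat_lit 0) (nat_lit 111642835964) (nat_lit 2) (nat_lit 5) (nat_lit 4) (nat_lit 4) (nat_lit 2) (nat_lit 4) (nat_lit 374) (nat_lit 290) (nat_lit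 236))) (XT.nd (nat_lit 78) (nat_lit 0) (nat_lit 0) (XT.lf (nat_lit 0) (nat_lit 131620742548) (nat_lit 152) (nat_lit 54078373348) (nat_lit 0) (nat_lit 126058366812) (nat_lit 2) (nat_lit 5) (nat_lit 4) (nat_lit 4) (nat_lit 2) (nat_lit 4) (nat_lit 375) (nat_lit 290) (nat_lit 235)) (XT.lf (nat_lit 0) (nat_lit 147184660890) (nat_lit 152) (nat_lit 47457306627) (nat_lit 0) (nat_lit 141616218236) (nat_lit 2) (nat_lit 5) (nat_lit 4) (nat_lit 4) (nat_lit 2) (nat_lit 4) (nat_lit 376) (nat_lit 290) (nat_lit 234))))) (XT.nd (nat_lit 312) (nat_lit 76) (nat_lit 0) (XT.nd (nat_lit 156) (nat_lit 0) (nat_lit 0) (XT.nd (nat_lit 78) (nat_lit 0) (nat_lit 0) (XT.lf (nat_lit 0) (nat_lit 163982645081) (nat_lit 152) (nat_lit 40328600938) (nat_lit 0) (nat_lit 158408584909) (nat_lit 2) (nat_lit 5) (nat_lit 4) (nat_lit 4) (nat_lit 2) (nat_lit 4) (nat_lit 377) (nat_lit 290) (nat_lit 233)) (XT.lf (nat_lit 0) (nat_lit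 182114238731) (nat_lit 152) (nat_lit 32650012098) (nat_lit 0) (nat_lit 176534977154) (nat_lit 2) (nat_lit 5) (nat_lit 4) (nat_lit 4) (nat_lit 2) (nat_lit 4) (nat_lit 378) (nat_lit 290) (nat_lit 232))) (XT.nd (nat_lit 78) (nat_lit 0) (nat_lit 0) (XT.lf (nat_lit 0) (nat_lit 201686888320) (nat_lit 152) (nat_lit 24376037359) (nat_lit 0) (nat_lit 196102810629) (nat_lit 2) (nat_lit 5) (nat_lit 4) (nat_lit 4) (nat_lit 2) (nat_lit 4) (nat_lit 379) (nat_lit 290) (nat_lit 231)) (XT.lf (nat_lit 0) (nat_lit 222816579922) (nat_lit 152) (nat_lit 15457645759) (nat_lit 0) (nat_lit 217228042864) (nat_lit 2) (nat_lit 5) (nat_lit 4) (nat_lit 4) (nat_lit 2) (nat_lit 4) (nat_lit 380) (nat_lit 290) (nat_lit 230)))) (XT.nd (nat_lit 156) (nat_lit 0) (nat_lit 0) (XT.nd (nat_lit 78) (nat_lit 76) (nat_lit 0) (XT.lf (nat_lit 0) (nat_lit 245628526522) (nat_lit 152) (nat_lit 5841987569) (nat_lit 0) (nat_lit 240035860421)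 (nat_lit 2) (nat_lit 5) (nat_lit 4) (nat_lit 4) (nat_lit 2) (nat_lit 4) (nat_lit 381) (nat_lit 290) (nat_lit 229)) (XT.lf (nat_lit 0) (nat_lit 4766351070) (nat_lit 76) (nat_lit 265606189813) (nat_lit 76) (nat_lit 260009700524) (nat_lit 1) (nat_lit 4) (nat_lit 2) (nat_lit 5) (nat_lit 2) (nat_lit 4) (nat_lit 382) (nat_lit 290) (nat_lit 228))) (XT.nd (nat_lit 78) (nat_lit 0) (nat_lit 0) (XT.lf (nat_lit 0) (nat_lit 16540971282) (nat_lit 76) (nat_lit 280707521812) (nat_lit 76) (nat_lit 275107492535) (nat_lit 1) (nat_lit 4) (nat_lit 2) (nat_lit 5) (nat_lit 2) (nat_lit 4) (nat_lit 383) (nat_lit 290) (nat_lit 227)) (XT.nd (nat_lit 78) (nat_lit 0) (nat_lit 0) (XT.lf (nat_lit 0) (nat_lit 29244019878) (nat_lit 76) (nat_lit 297023729757) (nat_lit 76) (nat_lit 291420422712) (nat_lit 1) (nat_lit 4) (nat_lit 2) (nat_lit 5) (nat_lit 2) (nat_lit 4) (nat_lit 384) (nat_lit 290) (nat_lit 226)) (XT.lf (nat_lit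 0) (nat_lit 42950774185) (nat_lit 76) (nat_lit 314651502287) (nat_lit 76) (nat_lit 309045160272) (nat_lit 1) (nat_lit 4) (nat_lit 2) (nat_lit 5) (nat_lit 2) (nat_lit 4) (nat_lit 385) (nat_lit 290) (nat_lit 225))))))))
noncomputable def xc67 : XT := (XT.nd (nat_lit 1326) (nat_lit 0) (nat_lit 0) (XT.nd (nat_lit 624) (nat_lit 0) (nat_lit 0) (XT.nd (nat_lit 312) (nat_lit 0) (nat_lit 0) (XT.nd (nat_lit 156) (nat_lit 0) (nat_lit 0) (XT.nd (nat_lit 78) (nat_lit 0) (nat_lit 0) (XT.lf (nat_lit 0) (nat_lit 57742459413) (nat_lit 76) (nat_lit 333695300276) (nat_lit 76) (nat_lit 328086148104) (nat_lit 1) (nat_lit 4) (nat_lit 2) (nat_lit 5) (nat_lit 2) (nat_lit 4) (nat_lit 386) (nat_lit 290) (nat_lit 224)) (XT.lf (nat_lit 0) (nat_lit 73706729993) (nat_lit 76) (nat_lit 354267975860) (nat_lit 76) (nat_lit 348656221691) (nat_lit 1) (nat_lit 4) (nat_lit 2) (nat_lit 5) (nat_lit 2) (nat_lit 4) (nat_lit 387)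 (nat_lit 290) (nat_lit 223))) (XT.nd (nat_lit 78) (nat_lit 0) (nat_lit 0) (XT.lf (nat_lit 0) (nat_lit 90938189010) (nat_lit 76) (nat_lit 376491441192) (nat_lit 76) (nat_lit 370877277766) (nat_lit 1) (nat_lit 4) (nat_lit 2) (nat_lit 5) (nat_lit 2) (nat_lit 4) (nat_lit 388) (nat_lit 290) (nat_lit 222)) (XT.lf (nat_lit 0) (nat_lit 109538948813) (nat_lit 76) (nat_lit 400497390880) (nat_lit 76) (nat_lit 394880996661) (nat_lit 1) (nat_lit 4) (nat_lit 2) (nat_lit 5) (nat_lit 2) (nat_lit 4) (nat_lit 389) (nat_lit 290) (nat_lit 221)))) (XT.nd (nat_lit 156) (nat_lit 0) (nat_lit 0) (XT.nd (nat_lit 78) (nat_lit 0) (nat_lit 0) (XT.lf (nat_lit 0) (nat_lit 129619236128) (nat_lit 76) (nat_lit 426428082404) (nat_lit 76) (nat_lit 420809622636) (nat_lit 1) (nat_lit 4) (nat_lit 2) (nat_lit 5) (nat_lit 2) (nat_lit 4) (nat_lit 390) (nat_lit 290) (nat_lit 220)) (XT.lf (nat_lit 0) (nat_lit 151298045250) (nat_lit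 76) (nat_lit 454437179122) (nat_lit 76) (nat_lit 448816806807) (nat_lit 1) (nat_lit 4) (nat_lit 2) (nat_lit 5) (nat_lit 2) (nat_lit 4) (nat_lit 391) (nat_lit 290) (nat_lit 219))) (XT.nd (nat_lit 78) (nat_lit 0) (nat_lit 0) (XT.lf (nat_lit 0) (nat_lit 174703843195) (nat_lit 76) (nat_lit 484690660865) (nat_lit 76) (nat_lit 479068517675) (nat_lit 1) (nat_lit 4) (nat_lit 2) (nat_lit 5) (nat_lit 2) (nat_lit 4) (nat_lit 392) (nat_lit 290) (nat_lit 218)) (XT.lf (nat_lit 0) (nat_lit 199975330988) (nat_lit 76) (nat_lit 517367807526) (nat_lit 76) (nat_lit 511744024636) (nat_lit 1) (nat_lit 4) (nat_lit 2) (nat_lit 5) (nat_lit 2) (nat_lit 4) (nat_lit 393) (nat_lit 290) (nat_lit 217))))) (XT.nd (nat_lit 312) (nat_lit 0) (nat_lit 0) (XT.nd (nat_lit 156) (nat_lit 0) (nat_lit 0) (XT.nd (nat_lit 78) (nat_lit 0) (nat_lit 0) (XT.lf (nat_lit 0) (nat_lit 227262265595) (nat_lit 76) (nat_lit 552662261455) (nat_lit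 76) (nat_lit 547036960325) (nat_lit 1) (nat_lit 4) (nat_lit 2) (nat_lit 5) (nat_lit 2) (nat_lit 4) (nat_lit 394) (nat_lit 290) (nat_lit 216)) (XT.lf (nat_lit 0) (nat_lit 256726347368) (nat_lit 76) (nat_lit 590783174972) (nat_lit 76) (nat_lit 585156468063) (nat_lit 1) (nat_lit 4) (nat_lit 2) (nat_lit 5) (nat_lit 2) (nat_lit 4) (nat_lit 395) (nat_lit 290) (nat_lit 215))) (XT.nd (nat_lit 78) (nat_lit 0) (nat_lit 0) (XT.lf (nat_lit 0) (nat_lit 288542178274) (nat_lit 76) (nat_lit 631956449786) (nat_lit 76) (nat_lit 626328441231) (nat_lit 1) (nat_lit 4) (nat_lit 2) (nat_lit 5) (nat_lit 2) (nat_lit 4) (nat_lit 396) (nat_lit 290) (nat_lit 214)) (XT.lf (nat_lit 0) (nat_lit 322898296569) (nat_lit 76) (nat_lit 676426075674) (nat_lit 76) (nat_lit 670796861891) (nat_lit 1) (nat_lit 4) (nat_lit 2) (nat_lit 5) (nat_lit 2) (nat_lit 4) (nat_lit 397) (nat_lit 290) (nat_lit 213)))) (XT.nd (nat_lit 156) (nat_lit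 0) (nat_lit 0) (XT.nd (nat_lit 78) (nat_lit 0) (nat_lit 0) (XT.lf (nat_lit 0) (nat_lit 359998294066) (nat_lit 76) (nat_lit 724455576346) (nat_lit 76) (nat_lit 718825246610) (nat_lit 1) (nat_lit 4) (nat_lit 2) (nat_lit 5) (nat_lit 2) (nat_lit 4) (nat_lit 398) (nat_lit 290) (nat_lit 212)) (XT.lf (nat_lit 0) (nat_lit 400062022602) (nat_lit 76) (nat_lit 776329571063) (nat_lit 76) (nat_lit 770698208039) (nat_lit 1) (nat_lit 4) (nat_lit 2) (nat_lit 5) (nat_lit 2) (nat_lit 4) (nat_lit 399) (nat_lit 290) (nat_lit 211))) (XT.nd (nat_lit 78) (nat_lit 0) (nat_lit 0) (XT.lf (nat_lit 0) (nat_lit 443326896864) (nat_lit 76) (nat_lit 832355461277) (nat_lit 76) (nat_lit 826723141504) (nat_lit 1) (nat_lit 4) (nat_lit 2) (nat_lit 5) (nat_lit 2) (nat_lit 4) (nat_lit 400) (nat_lit 290) (nat_lit 210)) (XT.nd (nat_lit 78) (nat_lit 0) (nat_lit 0) (XT.lf (nat_lit 0) (nat_lit 490049301293) (nat_lit 76) (nat_lit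 892865252263) (nat_lit 76) (nat_lit 887232046612) (nat_lit 1) (nat_lit 4) (nat_lit 2) (nat_lit 5) (nat_lit 2) (nat_lit 4) (nat_lit 401) (nat_lit 290) (nat_lit 209)) (XT.lf (nat_lit 0) (nat_lit 540506109396) (nat_lit 76) (nat_lit 958217520561) (nat_lit 76) (nat_lit 952583494651) (nat_lit 1) (nat_lit 4) (nat_lit 2) (nat_lit 5) (nat_lit 2) (nat_lit 4) (nat_lit 402) (nat_lit 290) (nat_lit 208))))))) (XT.nd (nat_lit 702) (nat_lit 0) (nat_lit 0) (XT.nd (nat_lit 312) (nat_lit 0) (nat_lit 0) (XT.nd (nat_lit 156) (nat_lit 0) (nat_lit 0) (XT.nd (nat_lit 78) (nat_lit 0) (nat_lit 0) (XT.lf (nat_lit 0) (nat_lit 594996324480) (nat_lit 76) (nat_lit 1028799538870) (nat_lit 76) (nat_lit 1023164753461) (nat_lit 1) (nat_lit 4) (nat_lit 2) (nat_lit 5) (nat_lit 2) (nat_lit 4) (nat_lit 403) (nat_lit 290) (nat_lit 207)) (XT.lf (nat_lit 0) (nat_lit 653842851525) (nat_lit 76) (nat_lit 1105029571003) (nat_lit 76)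 (nat_lit 1099394082356) (nat_lit 1) (nat_lit 4) (nat_lit 2) (nat_lit 5) (nat_lit 2) (nat_lit 4) (nat_lit 404) (nat_lit 290) (nat_lit 206))) (XT.nd (nat_lit 78) (nat_lit 0) (nat_lit 0) (XT.lf (nat_lit 0) (nat_lit 717394410689) (nat_lit 76) (nat_lit 1187359350484) (nat_lit 76) (nat_lit 1181723210690) (nat_lit 1) (nat_lit 4) (nat_lit 2) (nat_lit 5) (nat_lit 2) (nat_lit 4) (nat_lit 405) (nat_lit 290) (nat_lit 205)) (XT.lf (nat_lit 0) (nat_lit 786027603806) (nat_lit 76) (nat_lit 1276276757488) (nat_lit 76) (nat_lit 1270640014779) (nat_lit 1) (nat_lit 4) (nat_lit 2) (nat_lit 5) (nat_lit 2) (nat_lit 4) (nat_lit 406) (nat_lit 290) (nat_lit 204)))) (XT.nd (nat_lit 156) (nat_lit 0) (nat_lit 0) (XT.nd (nat_lit 78) (nat_lit 0) (nat_lit 0) (XT.lf (nat_lit 0) (nat_lit 860149146093) (nat_lit 76) (nat_lit 1372308709982) (nat_lit 76) (nat_lit 1366671409020) (nat_lit 1) (nat_lit 4) (nat_lit 2) (nat_lit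 5) (nat_lit 2) (nat_lit 4) (nat_lit 407) (nat_lit 290) (nat_lit 203)) (XT.lf (nat_lit 0) (nat_lit 940198276319) (nat_lit 76) (nat_lit 1476024286204) (nat_lit 76) (nat_lit 1470386468339) (nat_lit 1) (nat_lit 4) (nat_lit 2) (nat_lit 5) (nat_lit 2) (nat_lit 4) (nat_lit 408) (nat_lit 290) (nat_lit 202))) (XT.nd (nat_lit 78) (nat_lit 0) (nat_lit 0) (XT.lf (nat_lit 0) (nat_lit 1026649359702) (nat_lit 76) (nat_lit 1588038096974) (nat_lit 76) (nat_lit 1582399800497) (nat_lit 1) (nat_lit 4) (nat_lit 2) (nat_lit 5) (nat_lit 2) (nat_lit 4) (nat_lit 409) (nat_lit 290) (nat_lit 201)) (XT.nd (nat_lit 78) (nat_lit 0) (nat_lit 0) (XT.lf (nat_lit 0) (nat_lit 1120014698957) (nat_lit 76) (nat_lit 1709013927839) (nat_lit 76) (nat_lit 1703375188202) (nat_lit 1) (nat_lit 4) (nat_lit 2) (nat_lit 5) (nat_lit 2) (nat_lit 4) (nat_lit 410) (nat_lit 290) (nat_lit 200)) (XT.lf (nat_lit 0) (nat_lit 1220847570169) (nat_lit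 76) (nat_lit 1839668672611) (nat_lit 76) (nat_lit 1834029522641) (nat_lit 1) (nat_lit 4) (nat_lit 2) (nat_lit 5) (nat_lit 2) (nat_lit 4) (nat_lit 411) (nat_lit 290) (nat_lit 199)))))) (XT.nd (nat_lit 39702) (nat_lit 0) (nat_lit 1748) (XT.nd (nat_lit 39546) (nat_lit 0) (nat_lit 2432) (XT.nd (nat_lit 78) (nat_lit 0) (nat_lit 0) (XT.lf (nat_lit 0) (nat_lit 1329745501463) (nat_lit 76) (nat_lit 1980776581629) (nat_lit 76) (nat_lit 1975137051721) (nat_lit 1) (nat_lit 4) (nat_lit 2) (nat_lit 5) (nat_lit 2) (nat_lit 4) (nat_lit 412) (nat_lit 290) (nat_lit 198)) (XT.lf (nat_lit 0) (nat_lit 1447353813914) (nat_lit 76) (nat_lit 2133173849910) (nat_lit 76) (nat_lit 2127533968207) (nat_lit 1) (nat_lit 4) (nat_lit 2) (nat_lit 5) (nat_lit 2) (nat_lit 4) (nat_lit 413) (nat_lit 290) (nat_lit 197))) (XT.nd (nat_lit 78) (nat_lit 0) (nat_lit 0) (XT.lf (nat_lit 0) (nat_lit 352059194) (nat_lit 228) (nat_lit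 3783938514) (nat_lit 0) (nat_lit 352059194) (nat_lit 33) (nat_lit 5) (nat_lit 36) (nat_lit 4) (nat_lit 33) (nat_lit 4) (nat_lit 318) (nat_lit 291) (nat_lit 291)) (XT.lf (nat_lit 0) (nat_lit 4791604392) (nat_lit 228) (nat_lit 606810626) (nat_lit 0) (nat_lit 3888969183) (nat_lit 33) (nat_lit 5) (nat_lit 36) (nat_lit 4) (nat_lit 33) (nat_lit 4) (nat_lit 319) (nat_lit 291) (nat_lit 290)))) (XT.nd (nat_lit 156) (nat_lit 304) (nat_lit 0) (XT.nd (nat_lit 78) (nat_lit 228) (nat_lit 0) (XT.lf (nat_lit 0) (nat_lit 6886718276) (nat_lit 152) (nat_lit 2240915977) (nat_lit 152) (nat_lit 502507426) (nat_lit 31) (nat_lit 4) (nat_lit 33) (nat_lit 5) (nat_lit 33) (nat_lit 4) (nat_lit 320) (nat_lit 291) (nat_lit 289)) (XT.lf (nat_lit 0) (nat_lit 3541607051) (nat_lit 228) (nat_lit 5242459547) (nat_lit 0) (nat_lit 1215428574) (nat_lit 28) (nat_lit 5) (nat_lit 31) (nat_lit 4) (nat_lit 28) (nat_lit 4) (nat_lit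 321) (nat_lit 291) (nat_lit 288))) (XT.nd (nat_lit 78) (nat_lit 152) (nat_lit 0) (XT.lf (nat_lit 0) (nat_lit 2283425570) (nat_lit 152) (nat_lit 5553706236) (nat_lit 152) (nat_lit 2564063934) (nat_lit 26) (nat_lit 4) (nat_lit 28) (nat_lit 5) (nat_lit 28) (nat_lit 4) (nat_lit 322) (nat_lit 291) (nat_lit 287)) (XT.nd (nat_lit 78) (nat_lit 76) (nat_lit 0) (XT.lf (nat_lit 0) (nat_lit 1473607193) (nat_lit 228) (nat_lit 538857695) (nat_lit 76) (nat_lit 8826464498) (nat_lit 25) (nat_lit 5) (nat_lit 28) (nat_lit 5) (nat_lit 26) (nat_lit 4) (nat_lit 323) (nat_lit 291) (nat_lit 286)) (XT.lf (nat_lit 0) (nat_lit 5710070769) (nat_lit 152) (nat_lit 3748942215) (nat_lit 0) (nat_lit 1846391185) (nat_lit 24) (nat_lit 5) (nat_lit 26) (nat_lit 4) (nat_lit 24) (nat_lit 4) (nat_lit 324) (nat_lit 291) (nat_lit 285))))))))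
noncomputable def xc68 : XT := (XT.nd (nat_lit 1326) (nat_lit 456) (nat_lit 0) (XT.nd (nat_lit 624) (nat_lit 380) (nat_lit 0) (XT.nd (nat_lit 312) (nat_lit 304) (nat_lit 0) (XT.nd (nat_lit 156) (nat_lit 76) (nat_lit 0) (XT.nd (nat_lit 78) (nat_lit 152) (nat_lit 0) (XT.lf (nat_lit 0) (nat_lit 4327964240) (nat_lit 152) (nat_lit 5917960239) (nat_lit 152) (nat_lit 1566614938) (nat_lit 22) (nat_lit 4) (nat_lit 24) (nat_lit 5) (nat_lit 24) (nat_lit 4) (nat_lit 325) (nat_lit 291) (nat_lit 284)) (XT.lf (nat_lit 0) (nat_lit 507937372) (nat_lit 76) (nat_lit 2045343879) (nat_lit 152) (nat_lit 9809108263) (nat_lit 20) (nat_lit 5) (nat_lit 21) (nat_lit 5) (nat_lit 22) (nat_lit 4) (nat_lit 326) (nat_lit 291) (nat_lit 283))) (XT.nd (nat_lit 78) (nat_lit 76) (nat_lit 0) (XT.lf (nat_lit 0) (nat_lit 6973751472) (nat_lit 152) (nat_lit 3835405850) (nat_lit 0) (nat_lit 2139508525) (nat_lit 20) (nat_lit 5)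 (nat_lit 22) (nat_lit 4) (nat_lit 20) (nat_lit 4) (nat_lit 327) (nat_lit 291) (nat_lit 282)) (XT.lf (nat_lit 0) (nat_lit 4668880402) (nat_lit 76) (nat_lit 7053897379) (nat_lit 76) (nat_lit 1861205572) (nat_lit 19) (nat_lit 4) (nat_lit 20) (nat_lit 5) (nat_lit 20) (nat_lit 4) (nat_lit 328) (nat_lit 291) (nat_lit 281)))) (XT.nd (nat_lit 156) (nat_lit 152) (nat_lit 0) (XT.nd (nat_lit 78) (nat_lit 76) (nat_lit 0) (XT.lf (nat_lit 0) (nat_lit 2370869136) (nat_lit 152) (nat_lit 593181095) (nat_lit 76) (nat_lit 11307749761) (nat_lit 18) (nat_lit 5) (nat_lit 20) (nat_lit 5) (nat_lit 19) (nat_lit 4) (nat_lit 329) (nat_lit 291) (nat_lit 280)) (XT.lf (nat_lit 0) (nat_lit 6907318260) (nat_lit 152) (nat_lit 6590842626) (nat_lit 0) (nat_lit 1507409905) (nat_lit 17) (nat_lit 5) (nat_lit 19) (nat_lit 4) (nat_lit 17) (nat_lit 4) (nat_lit 330) (nat_lit 291) (nat_lit 279))) (XT.nd (nat_lit 78) (nat_lit 76)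 (nat_lit 0) (XT.lf (nat_lit 0) (nat_lit 2091816042) (nat_lit 76) (nat_lit 9686006244) (nat_lit 76) (nat_lit 4022627276) (nat_lit 16) (nat_lit 4) (nat_lit 17) (nat_lit 5) (nat_lit 17) (nat_lit 4) (nat_lit 331) (nat_lit 291) (nat_lit 278)) (XT.lf (nat_lit 0) (nat_lit 373141352) (nat_lit 152) (nat_lit 5131199226) (nat_lit 76) (nat_lit 11152887905) (nat_lit 15) (nat_lit 5) (nat_lit 17) (nat_lit 5) (nat_lit 16) (nat_lit 4) (nat_lit 332) (nat_lit 291) (nat_lit 277))))) (XT.nd (nat_lit 312) (nat_lit 228) (nat_lit 0) (XT.nd (nat_lit 156) (nat_lit 76) (nat_lit 0) (XT.nd (nat_lit 78) (nat_lit 0) (nat_lit 0) (XT.lf (nat_lit 0) (nat_lit 3931256399) (nat_lit 76) (nat_lit 907432650) (nat_lit 152) (nat_lit 12740743788) (nat_lit 14) (nat_lit 5) (nat_lit 15) (nat_lit 5) (nat_lit 16) (nat_lit 4) (nat_lit 333) (nat_lit 291) (nat_lit 276)) (XT.lf (nat_lit 0) (nat_lit 9745635226) (nat_lit 152) (nat_lit 4950045556)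 (nat_lit 0) (nat_lit 3873071993) (nat_lit 14) (nat_lit 5) (nat_lit 16) (nat_lit 4) (nat_lit 14) (nat_lit 4) (nat_lit 334) (nat_lit 291) (nat_lit 275))) (XT.nd (nat_lit 78) (nat_lit 0) (nat_lit 0) (XT.lf (nat_lit 0) (nat_lit 4365447615) (nat_lit 76) (nat_lit 10662542820) (nat_lit 76) (nat_lit 4610665914) (nat_lit 13) (nat_lit 4) (nat_lit 14) (nat_lit 5) (nat_lit 14) (nat_lit 4) (nat_lit 335) (nat_lit 291) (nat_lit 274)) (XT.lf (nat_lit 0) (nat_lit 14441316727) (nat_lit 76) (nat_lit 6285641512) (nat_lit 76) (nat_lit 67733429) (nat_lit 13) (nat_lit 4) (nat_lit 14) (nat_lit 5) (nat_lit 14) (nat_lit 4) (nat_lit 336) (nat_lit 291) (nat_lit 273)))) (XT.nd (nat_lit 156) (nat_lit 76) (nat_lit 0) (XT.nd (nat_lit 78) (nat_lit 0) (nat_lit 0) (XT.lf (nat_lit 0) (nat_lit 3063136618) (nat_lit 76) (nat_lit 1472813994) (nat_lit 152) (nat_lit 17502853097) (nat_lit 11) (nat_lit 5) (nat_lit 12) (nat_lit 5)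 (nat_lit 13) (nat_lit 4) (nat_lit 337) (nat_lit 291) (nat_lit 272)) (XT.lf (nat_lit 0) (nat_lit 9638963230) (nat_lit 152) (nat_lit 10125118961) (nat_lit 0) (nat_lit 3607495055) (nat_lit 11) (nat_lit 5) (nat_lit 13) (nat_lit 4) (nat_lit 11) (nat_lit 4) (nat_lit 338) (nat_lit 291) (nat_lit 271))) (XT.nd (nat_lit 78) (nat_lit 76) (nat_lit 0) (XT.lf (nat_lit 0) (nat_lit 15065213785) (nat_lit 152) (nat_lit 840896517) (nat_lit 0) (nat_lit 8911707737) (nat_lit 11) (nat_lit 5) (nat_lit 13) (nat_lit 4) (nat_lit 11) (nat_lit 4) (nat_lit 339) (nat_lit 291) (nat_lit 270)) (XT.nd (nat_lit 78) (nat_lit 0) (nat_lit 0) (XT.lf (nat_lit 0) (nat_lit 9439648516) (nat_lit 76) (nat_lit 11598811881) (nat_lit 76) (nat_lit 5332307803) (nat_lit 10) (nat_lit 4) (nat_lit 11) (nat_lit 5) (nat_lit 11) (nat_lit 4) (nat_lit 340) (nat_lit 291) (nat_lit 269)) (XT.lf (nat_lit 0) (nat_lit 20377369829) (nat_lit 76) (nat_lit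 7024389841) (nat_lit 76) (nat_lit 653257957) (nat_lit 10) (nat_lit 4) (nat_lit 11) (nat_lit 5) (nat_lit 11) (nat_lit 4) (nat_lit 341) (nat_lit 291) (nat_lit 268))))))) (XT.nd (nat_lit 624) (nat_lit 76) (nat_lit 0) (XT.nd (nat_lit 312) (nat_lit 152) (nat_lit 0) (XT.nd (nat_lit 156) (nat_lit 76) (nat_lit 0) (XT.nd (nat_lit 78) (nat_lit 0) (nat_lit 0) (XT.lf (nat_lit 0) (nat_lit 2113101879) (nat_lit 76) (nat_lit 2012432428) (nat_lit 152) (nat_lit 25744397636) (nat_lit 8) (nat_lit 5) (nat_lit 9) (nat_lit 5) (nat_lit 10) (nat_lit 4) (nat_lit 342) (nat_lit 291) (nat_lit 267)) (XT.lf (nat_lit 0) (nat_lit 9443948271) (nat_lit 152) (nat_lit 18997361852) (nat_lit 0) (nat_lit 3371993678) (nat_lit 8) (nat_lit 5) (nat_lit 10) (nat_lit 4) (nat_lit 8) (nat_lit 4) (nat_lit 343) (nat_lit 291) (nat_lit 266))) (XT.nd (nat_lit 78) (nat_lit 76) (nat_lit 0) (XT.lf (nat_lit 0) (nat_lit 15143306854) (nat_lit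 152) (nat_lit 9777981569) (nat_lit 0) (nat_lit 8994447701) (nat_lit 8) (nat_lit 5) (nat_lit 10) (nat_lit 4) (nat_lit 8) (nat_lit 4) (nat_lit 344) (nat_lit 291) (nat_lit 265)) (XT.lf (nat_lit 0) (nat_lit 4571901) (nat_lit 76) (nat_lit 21204523038) (nat_lit 76) (nat_lit 14984455959) (nat_lit 7) (nat_lit 4) (nat_lit 8) (nat_lit 5) (nat_lit 8) (nat_lit 4) (nat_lit 345) (nat_lit 291) (nat_lit 264)))) (XT.nd (nat_lit 156) (nat_lit 152) (nat_lit 0) (XT.nd (nat_lit 78) (nat_lit 0) (nat_lit 0) (XT.lf (nat_lit 0) (nat_lit 10955626590) (nat_lit 76) (nat_lit 16984783918) (nat_lit 76) (nat_lit 10698783573) (nat_lit 7) (nat_lit 4) (nat_lit 8) (nat_lit 5) (nat_lit 8) (nat_lit 4) (nat_lit 346) (nat_lit 291) (nat_lit 263)) (XT.lf (nat_lit 0) (nat_lit 22625186454) (nat_lit 76) (nat_lit 12504412545) (nat_lit 76) (nat_lit 6157362881) (nat_lit 7) (nat_lit 4) (nat_lit 8) (nat_lit 5) (nat_lit 8) (nat_lit 4)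 (nat_lit 347) (nat_lit 291) (nat_lit 262))) (XT.nd (nat_lit 78) (nat_lit 152) (nat_lit 0) (XT.lf (nat_lit 0) (nat_lit 35082404440) (nat_lit 76) (nat_lit 7736858570) (nat_lit 76) (nat_lit 1333281758) (nat_lit 7) (nat_lit 4) (nat_lit 8) (nat_lit 5) (nat_lit 8) (nat_lit 4) (nat_lit 348) (nat_lit 291) (nat_lit 261)) (XT.lf (nat_lit 0) (nat_lit 1112383737) (nat_lit 76) (nat_lit 2526222272) (nat_lit 152) (nat_lit 43604862597) (nat_lit 5) (nat_lit 5) (nat_lit 6) (nat_lit 5) (nat_lit 7) (nat_lit 4) (nat_lit 349) (nat_lit 291) (nat_lit 260))))) (XT.nd (nat_lit 312) (nat_lit 76) (nat_lit 0) (XT.nd (nat_lit 156) (nat_lit 0) (nat_lit 0) (XT.nd (nat_lit 78) (nat_lit 0) (nat_lit 0) (XT.lf (nat_lit 0) (nat_lit 9194693791) (nat_lit 152) (nat_lit 38191420221) (nat_lit 0) (nat_lit 3172120011) (nat_lit 5) (nat_lit 5) (nat_lit 7) (nat_lit 4) (nat_lit 5) (nat_lit 4) (nat_lit 350) (nat_lit 291) (nat_lit 259))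 (XT.lf (nat_lit 0) (nat_lit 15195570159) (nat_lit 152) (nat_lit 29811154513) (nat_lit 0) (nat_lit 9131447238) (nat_lit 5) (nat_lit 5) (nat_lit 7) (nat_lit 4) (nat_lit 5) (nat_lit 4) (nat_lit 351) (nat_lit 291) (nat_lit 258))) (XT.nd (nat_lit 78) (nat_lit 0) (nat_lit 0) (XT.lf (nat_lit 0) (nat_lit 21616040158) (nat_lit 152) (nat_lit 20879871205) (nat_lit 0) (nat_lit 15513445810) (nat_lit 5) (nat_lit 5) (nat_lit 7) (nat_lit 4) (nat_lit 5) (nat_lit 4) (nat_lit 352) (nat_lit 291) (nat_lit 257)) (XT.lf (nat_lit 0) (nat_lit 28494151016) (nat_lit 152) (nat_lit 11344644175) (nat_lit 0) (nat_lit 22355934977) (nat_lit 5) (nat_lit 5) (nat_lit 7) (nat_lit 4) (nat_lit 5) (nat_lit 4) (nat_lit 353) (nat_lit 291) (nat_lit 256)))) (XT.nd (nat_lit 156) (nat_lit 0) (nat_lit 0) (XT.nd (nat_lit 78) (nat_lit 76) (nat_lit 0) (XT.lf (nat_lit 0) (nat_lit 35870661910) (nat_lit 152) (nat_lit 1148968374) (nat_lit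 0) (nat_lit 29699462823) (nat_lit 5) (nat_lit 5) (nat_lit 7) (nat_lit 4) (nat_lit 5) (nat_lit 4) (nat_lit 354) (nat_lit 291) (nat_lit 255)) (XT.lf (nat_lit 0) (nat_lit 10281918209) (nat_lit 76) (nat_lit 33754647667) (nat_lit 76) (nat_lit 27552908721) (nat_lit 4) (nat_lit 4) (nat_lit 5) (nat_lit 5) (nat_lit 5) (nat_lit 4) (nat_lit 355) (nat_lit 291) (nat_lit 254))) (XT.nd (nat_lit 78) (nat_lit 0) (nat_lit 0) (XT.lf (nat_lit 0) (nat_lit 22600231753) (nat_lit 76) (nat_lit 30240251315) (nat_lit 76) (nat_lit 24010234721) (nat_lit 4) (nat_lit 4) (nat_lit 5) (nat_lit 5) (nat_lit 5) (nat_lit 4) (nat_lit 356) (nat_lit 291) (nat_lit 253)) (XT.nd (nat_lit 78) (nat_lit 0) (nat_lit 0) (XT.lf (nat_lit 0) (nat_lit 35818467033) (nat_lit 76) (nat_lit 26487030007) (nat_lit 76) (nat_lit 20230830407) (nat_lit 4) (nat_lit 4) (nat_lit 5) (nat_lit 5) (nat_lit 5) (nat_lit 4) (nat_lit 357) (nat_lit 291) (nat_lit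 252)) (XT.lf (nat_lit 0) (nat_lit 50014954332) (nat_lit 76) (nat_lit 22472742432) (nat_lit 76) (nat_lit 16192299307) (nat_lit 4) (nat_lit 4) (nat_lit 5) (nat_lit 5) (nat_lit 5) (nat_lit 4) (nat_lit 358) (nat_lit 291) (nat_lit 251))))))))
noncomputable def xc69 : XT := (XT.nd (nat_lit 1326) (nat_lit 76) (nat_lit 0) (XT.nd (nat_lit 624) (nat_lit 0) (nat_lit 0) (XT.nd (nat_lit 312) (nat_lit 76) (nat_lit 0) (XT.nd (nat_lit 156) (nat_lit 76) (nat_lit 0) (XT.nd (nat_lit 78) (nat_lit 0) (nat_lit 0) (XT.lf (nat_lit 0) (nat_lit 65273820982) (nat_lit 76) (nat_lit 18173600219) (nat_lit 76) (nat_lit 11870709386) (nat_lit 4) (nat_lit 4) (nat_lit 5) (nat_lit 5) (nat_lit 5) (nat_lit 4) (nat_lit 359) (nat_lit 291) (nat_lit 250)) (XT.lf (nat_lit 0) (nat_lit 81685489897) (nat_lit 76) (nat_lit 13564126969) (nat_lit 76) (nat_lit 7240451221) (nat_lit 4) (nat_lit 4) (nat_lit 5) (nat_lit 5) (nat_lit 5) (nat_lit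 4) (nat_lit 360) (nat_lit 291) (nat_lit 249))) (XT.nd (nat_lit 78) (nat_lit 76) (nat_lit 0) (XT.lf (nat_lit 0) (nat_lit 99347215411) (nat_lit 76) (nat_lit 8617007286) (nat_lit 76) (nat_lit 2274086247) (nat_lit 4) (nat_lit 4) (nat_lit 5) (nat_lit 5) (nat_lit 5) (nat_lit 4) (nat_lit 361) (nat_lit 291) (nat_lit 248)) (XT.lf (nat_lit 0) (nat_lit 2904851514) (nat_lit 152) (nat_lit 318649603) (nat_lit 76) (nat_lit 115379384298) (nat_lit 3) (nat_lit 5) (nat_lit 5) (nat_lit 5) (nat_lit 4) (nat_lit 4) (nat_lit 362) (nat_lit 291) (nat_lit 247)))) (XT.nd (nat_lit 156) (nat_lit 0) (nat_lit 0) (XT.nd (nat_lit 78) (nat_lit 0) (nat_lit 0) (XT.lf (nat_lit 0) (nat_lit 8696066033) (nat_lit 152) (nat_lit 116118962801) (nat_lit 0) (nat_lit 2791213728) (nat_lit 2) (nat_lit 5) (nat_lit 4) (nat_lit 4) (nat_lit 2) (nat_lit 4) (nat_lit 363) (nat_lit 291) (nat_lit 246)) (XT.lf (nat_lit 0) (nat_lit 15015423974)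 (nat_lit 152) (nat_lit 113212836031) (nat_lit 0) (nat_lit 9096425805) (nat_lit 2) (nat_lit 5) (nat_lit 4) (nat_lit 4) (nat_lit 2) (nat_lit 4) (nat_lit 364) (nat_lit 291) (nat_lit 245))) (XT.nd (nat_lit 78) (nat_lit 0) (nat_lit 0) (XT.lf (nat_lit 0) (nat_lit 21814571493) (nat_lit 152) (nat_lit 110125623291) (nat_lit 0) (nat_lit 15882475302) (nat_lit 2) (nat_lit 5) (nat_lit 4) (nat_lit 4) (nat_lit 2) (nat_lit 4) (nat_lit 365) (nat_lit 291) (nat_lit 244)) (XT.lf (nat_lit 0) (nat_lit 29133799833) (nat_lit 152) (nat_lit 106839029989) (nat_lit 0) (nat_lit 23189575844) (nat_lit 2) (nat_lit 5) (nat_lit 4) (nat_lit 4) (nat_lit 2) (nat_lit 4) (nat_lit 366) (nat_lit 291) (nat_lit 243))))) (XT.nd (nat_lit 312) (nat_lit 0) (nat_lit 0) (XT.nd (nat_lit 156) (nat_lit 0) (nat_lit 0) (XT.nd (nat_lit 78) (nat_lit 0) (nat_lit 0) (XT.lf (nat_lit 0) (nat_lit 37016482201) (nat_lit 152) (nat_lit 103333580016)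 (nat_lit 0) (nat_lit 31061028769) (nat_lit 2) (nat_lit 5) (nat_lit 4) (nat_lit 4) (nat_lit 2) (nat_lit 4) (nat_lit 367) (nat_lit 291) (nat_lit 242)) (XT.lf (nat_lit 0) (nat_lit 45509330787) (nat_lit 152) (nat_lit 99588500335) (nat_lit 0) (nat_lit 39543479723) (nat_lit 2) (nat_lit 5) (nat_lit 4) (nat_lit 4) (nat_lit 2) (nat_lit 4) (nat_lit 368) (nat_lit 291) (nat_lit 241))) (XT.nd (nat_lit 78) (nat_lit 0) (nat_lit 0) (XT.lf (nat_lit 0) (nat_lit 54662673583) (nat_lit 152) (nat_lit 95581597881) (nat_lit 0) (nat_lit 48687195082) (nat_lit 2) (nat_lit 5) (nat_lit 4) (nat_lit 4) (nat_lit 2) (nat_lit 4) (nat_lit 369) (nat_lit 291) (nat_lit 240)) (XT.lf (nat_lit 0) (nat_lit 64530752622) (nat_lit 152) (nat_lit 91289128047) (nat_lit 0) (nat_lit 58546359827) (nat_lit 2) (nat_lit 5) (nat_lit 4) (nat_lit 4) (nat_lit 2) (nat_lit 4) (nat_lit 370) (nat_lit 291) (nat_lit 239)))) (XT.nd (nat_lit 156) (nat_lit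 0) (nat_lit 0) (XT.nd (nat_lit 78) (nat_lit 0) (nat_lit 0) (XT.lf (nat_lit 0) (nat_lit 75172045407) (nat_lit 152) (nat_lit 86685653975) (nat_lit 0) (nat_lit 69179398636) (nat_lit 2) (nat_lit 5) (nat_lit 4) (nat_lit 4) (nat_lit 2) (nat_lit 4) (nat_lit 371) (nat_lit 291) (nat_lit 238)) (XT.lf (nat_lit 0) (nat_lit 86649611452) (nat_lit 152) (nat_lit 81743895818) (nat_lit 0) (nat_lit 80649322112) (nat_lit 2) (nat_lit 5) (nat_lit 4) (nat_lit 4) (nat_lit 2) (nat_lit 4) (nat_lit 372) (nat_lit 291) (nat_lit 237))) (XT.nd (nat_lit 78) (nat_lit 0) (nat_lit 0) (XT.lf (nat_lit 0) (nat_lit 99031465964) (nat_lit 152) (nat_lit 76434569084) (nat_lit 0) (nat_lit 93024100169) (nat_lit 2) (nat_lit 5) (nat_lit 4) (nat_lit 4) (nat_lit 2) (nat_lit 4) (nat_lit 373) (nat_lit 291) (nat_lit 236)) (XT.nd (nat_lit 78) (nat_lit 0) (nat_lit 0) (XT.lf (nat_lit 0) (nat_lit 112390982894) (nat_lit 152) (nat_lit 70726211096)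 (nat_lit 0) (nat_lit 106377064828) (nat_lit 2) (nat_lit 5) (nat_lit 4) (nat_lit 4) (nat_lit 2) (nat_lit 4) (nat_lit 374) (nat_lit 291) (nat_lit 235)) (XT.lf (nat_lit 0) (nat_lit 126807329751) (nat_lit 152) (nat_lit 64584994546) (nat_lit 0) (nat_lit 120787344766) (nat_lit 2) (nat_lit 5) (nat_lit 4) (nat_lit 4) (nat_lit 2) (nat_lit 4) (nat_lit 375) (nat_lit 291) (nat_lit 234))))))) (XT.nd (nat_lit 624) (nat_lit 0) (nat_lit 0) (XT.nd (nat_lit 312) (nat_lit 76) (nat_lit 0) (XT.nd (nat_lit 156) (nat_lit 0) (nat_lit 0) (XT.nd (nat_lit 78) (nat_lit 0) (nat_lit 0) (XT.lf (nat_lit 0) (nat_lit 142365936738) (nat_lit 152) (nat_lit 57974527042) (nat_lit 0) (nat_lit 136340334236) (nat_lit 2) (nat_lit 5) (nat_lit 4) (nat_lit 4) (nat_lit 2) (nat_lit 4) (nat_lit 376) (nat_lit 291) (nat_lit 233)) (XT.lf (nat_lit 0) (nat_lit 159159003008) (nat_lit 152) (nat_lit 50855635441) (nat_lit 0) (nat_lit 153128199100)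 (nat_lit 2) (nat_lit 5) (nat_lit 4) (nat_lit 4) (nat_lit 2) (nat_lit 4) (nat_lit 377) (nat_lit 291) (nat_lit 232))) (XT.nd (nat_lit 78) (nat_lit 0) (nat_lit 0) (XT.lf (nat_lit 0) (nat_lit 177286043027) (nat_lit 152) (nat_lit 43186133721) (nat_lit 0) (nat_lit 171250423004) (nat_lit 2) (nat_lit 5) (nat_lit 4) (nat_lit 4) (nat_lit 2) (nat_lit 4) (nat_lit 378) (nat_lit 291) (nat_lit 231)) (XT.lf (nat_lit 0) (nat_lit 196854476292) (nat_lit 152) (nat_lit 34920572980) (nat_lit 0) (nat_lit 190814396903) (nat_lit 2) (nat_lit 5) (nat_lit 4) (nat_lit 4) (nat_lit 2) (nat_lit 4) (nat_lit 379) (nat_lit 291) (nat_lit 230)))) (XT.nd (nat_lit 156) (nat_lit 76) (nat_lit 0) (XT.nd (nat_lit 78) (nat_lit 0) (nat_lit 0) (XT.lf (nat_lit 0) (nat_lit 217980263888) (nat_lit 152) (nat_lit 26009972120) (nat_lit 0) (nat_lit 211936055456) (nat_lit 2) (nat_lit 5) (nat_lit 4) (nat_lit 4) (nat_lit 2) (nat_lit 4) (nat_lit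 380) (nat_lit 291) (nat_lit 229)) (XT.lf (nat_lit 0) (nat_lit 240788595669) (nat_lit 152) (nat_lit 16401527579) (nat_lit 0) (nat_lit 234740564050) (nat_lit 2) (nat_lit 5) (nat_lit 4) (nat_lit 4) (nat_lit 2) (nat_lit 4) (nat_lit 381) (nat_lit 291) (nat_lit 228))) (XT.nd (nat_lit 78) (nat_lit 76) (nat_lit 0) (XT.lf (nat_lit 0) (nat_lit 265414632119) (nat_lit 152) (nat_lit 6038300426) (nat_lit 0) (nat_lit 259363060511) (nat_lit 2) (nat_lit 5) (nat_lit 4) (nat_lit 4) (nat_lit 2) (nat_lit 4) (nat_lit 382) (nat_lit 291) (nat_lit 227)) (XT.lf (nat_lit 0) (nat_lit 5411843377) (nat_lit 76) (nat_lit 286722616892) (nat_lit 76) (nat_lit 280667767516) (nat_lit 1) (nat_lit 4) (nat_lit 2) (nat_lit 5) (nat_lit 2) (nat_lit 4) (nat_lit 383) (nat_lit 291) (nat_lit 226))))) (XT.nd (nat_lit 312) (nat_lit 0) (nat_lit 0) (XT.nd (nat_lit 156) (nat_lit 0) (nat_lit 0) (XT.nd (nat_lit 78) (nat_lit 0) (nat_lit 0)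 (XT.lf (nat_lit 0) (nat_lit 18108864004) (nat_lit 76) (nat_lit 303041838274) (nat_lit 76) (nat_lit 296983953928) (nat_lit 1) (nat_lit 4) (nat_lit 2) (nat_lit 5) (nat_lit 2) (nat_lit 4) (nat_lit 384) (nat_lit 291) (nat_lit 225)) (XT.lf (nat_lit 0) (nat_lit 31810036857) (nat_lit 76) (nat_lit 320672401023) (nat_lit 76) (nat_lit 314611706521) (nat_lit 1) (nat_lit 4) (nat_lit 2) (nat_lit 5) (nat_lit 2) (nat_lit 4) (nat_lit 385) (nat_lit 291) (nat_lit 224))) (XT.nd (nat_lit 78) (nat_lit 0) (nat_lit 0) (XT.lf (nat_lit 0) (nat_lit 46596554072) (nat_lit 76) (nat_lit 339718782549) (nat_lit 76) (nat_lit 333655486049) (nat_lit 1) (nat_lit 4) (nat_lit 2) (nat_lit 5) (nat_lit 2) (nat_lit 4) (nat_lit 386) (nat_lit 291) (nat_lit 223)) (XT.lf (nat_lit 0) (nat_lit 62556039455) (nat_lit 76) (nat_lit 360293850297) (nat_lit 76) (nat_lit 354228144540) (nat_lit 1) (nat_lit 4) (nat_lit 2) (nat_lit 5) (nat_lit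 2) (nat_lit 4) (nat_lit 387) (nat_lit 291) (nat_lit 222)))) (XT.nd (nat_lit 156) (nat_lit 0) (nat_lit 0) (XT.nd (nat_lit 78) (nat_lit 0) (nat_lit 0) (XT.lf (nat_lit 0) (nat_lit 79783067734) (nat_lit 76) (nat_lit 382519530595) (nat_lit 76) (nat_lit 376451594045) (nat_lit 1) (nat_lit 4) (nat_lit 2) (nat_lit 5) (nat_lit 2) (nat_lit 4) (nat_lit 388) (nat_lit 291) (nat_lit 221)) (XT.lf (nat_lit 0) (nat_lit 98379725003) (nat_lit 76) (nat_lit 406527531178) (nat_lit 76) (nat_lit 400457529078) (nat_lit 1) (nat_lit 4) (nat_lit 2) (nat_lit 5) (nat_lit 2) (nat_lit 4) (nat_lit 389) (nat_lit 291) (nat_lit 220))) (XT.nd (nat_lit 78) (nat_lit 0) (nat_lit 0) (XT.lf (nat_lit 0) (nat_lit 118456213674) (nat_lit 76) (nat_lit 432460121679) (nat_lit 76) (nat_lit 426388207034) (nat_lit 1) (nat_lit 4) (nat_lit 2) (nat_lit 5) (nat_lit 2) (nat_lit 4) (nat_lit 390) (nat_lit 291) (nat_lit 219)) (XT.nd (nat_lit 78)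 (nat_lit 0) (nat_lit 0) (XT.lf (nat_lit 0) (nat_lit 140131505533) (nat_lit 76) (nat_lit 460470976708) (nat_lit 76) (nat_lit 454397291187) (nat_lit 1) (nat_lit 4) (nat_lit 2) (nat_lit 5) (nat_lit 2) (nat_lit 4) (nat_lit 391) (nat_lit 291) (nat_lit 218)) (XT.lf (nat_lit 0) (nat_lit 163534046753) (nat_lit 76) (nat_lit 490726086518) (nat_lit 76) (nat_lit 484650761297) (nat_lit 1) (nat_lit 4) (nat_lit 2) (nat_lit 5) (nat_lit 2) (nat_lit 4) (nat_lit 392) (nat_lit 291) (nat_lit 217))))))))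
noncomputable def xc70 : XT := (XT.nd (nat_lit 1326) (nat_lit 0) (nat_lit 0) (XT.nd (nat_lit 624) (nat_lit 0) (nat_lit 0) (XT.nd (nat_lit 312) (nat_lit 0) (nat_lit 0) (XT.nd (nat_lit 156) (nat_lit 0) (nat_lit 0) (XT.nd (nat_lit 78) (nat_lit 0) (nat_lit 0) (XT.lf (nat_lit 0) (nat_lit 188802519061) (nat_lit 76) (nat_lit 523404740647) (nat_lit 76) (nat_lit 517327897186) (nat_lit 1) (nat_lit 4) (nat_lit 2) (nat_lit 5) (nat_lit 2) (nat_lit 4) (nat_lit 393) (nat_lit 291) (nat_lit 216)) (XT.lf (nat_lit 0) (nat_lit 216086661551) (nat_lit 76) (nat_lit 558700590381) (nat_lit 76) (nat_lit 552622341142) (nat_lit 1) (nat_lit 4) (nat_lit 2) (nat_lit 5) (nat_lit 2) (nat_lit 4) (nat_lit 394) (nat_lit 291) (nat_lit 215))) (XT.nd (nat_lit 78) (nat_lit 0) (nat_lit 0) (XT.lf (nat_lit 0) (nat_lit 245548158031) (nat_lit 76) (nat_lit 596822796309) (nat_lit 76) (nat_lit 590743245424) (nat_lit 1) (nat_lit 4) (nat_lit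 2) (nat_lit 5) (nat_lit 2) (nat_lit 4) (nat_lit 395) (nat_lit 291) (nat_lit 214)) (XT.lf (nat_lit 0) (nat_lit 277361595147) (nat_lit 76) (nat_lit 637997267801) (nat_lit 76) (nat_lit 631916511687) (nat_lit 1) (nat_lit 4) (nat_lit 2) (nat_lit 5) (nat_lit 2) (nat_lit 4) (nat_lit 396) (nat_lit 291) (nat_lit 213)))) (XT.nd (nat_lit 156) (nat_lit 0) (nat_lit 0) (XT.nd (nat_lit 78) (nat_lit 0) (nat_lit 0) (XT.lf (nat_lit 0) (nat_lit 311715496970) (nat_lit 76) (nat_lit 682468001724) (nat_lit 76) (nat_lit 676386129658) (nat_lit 1) (nat_lit 4) (nat_lit 2) (nat_lit 5) (nat_lit 2) (nat_lit 4) (nat_lit 397) (nat_lit 291) (nat_lit 212)) (XT.lf (nat_lit 0) (nat_lit 348813442178) (nat_lit 76) (nat_lit 730498528353) (nat_lit 76) (nat_lit 724415622998) (nat_lit 1) (nat_lit 4) (nat_lit 2) (nat_lit 5) (nat_lit 2) (nat_lit 4) (nat_lit 398) (nat_lit 291) (nat_lit 211))) (XT.nd (nat_lit 78) (nat_lit 0) (nat_lit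 0) (XT.lf (nat_lit 0) (nat_lit 388875270447) (nat_lit 76) (nat_lit 782373473032) (nat_lit 76) (nat_lit 776289610928) (nat_lit 1) (nat_lit 4) (nat_lit 2) (nat_lit 5) (nat_lit 2) (nat_lit 4) (nat_lit 399) (nat_lit 291) (nat_lit 210)) (XT.lf (nat_lit 0) (nat_lit 432138385202) (nat_lit 76) (nat_lit 838400242840) (nat_lit 76) (nat_lit 832315494857) (nat_lit 1) (nat_lit 4) (nat_lit 2) (nat_lit 5) (nat_lit 2) (nat_lit 4) (nat_lit 400) (nat_lit 291) (nat_lit 209))))) (XT.nd (nat_lit 312) (nat_lit 0) (nat_lit 0) (XT.nd (nat_lit 156) (nat_lit 0) (nat_lit 0) (XT.nd (nat_lit 78) (nat_lit 0) (nat_lit 0) (XT.lf (nat_lit 0) (nat_lit 478859160458) (nat_lit 76) (nat_lit 898910848264) (nat_lit 76) (nat_lit 892825280023) (nat_lit 1) (nat_lit 4) (nat_lit 2) (nat_lit 5) (nat_lit 2) (nat_lit 4) (nat_lit 401) (nat_lit 291) (nat_lit 208)) (XT.lf (nat_lit 0) (nat_lit 529314460067) (nat_lit 76) (nat_lit 964263870671)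 (nat_lit 76) (nat_lit 958177542932) (nat_lit 1) (nat_lit 4) (nat_lit 2) (nat_lit 5) (nat_lit 2) (nat_lit 4) (nat_lit 402) (nat_lit 291) (nat_lit 207))) (XT.nd (nat_lit 78) (nat_lit 0) (nat_lit 0) (XT.lf (nat_lit 0) (nat_lit 583803278398) (nat_lit 76) (nat_lit 1034846587230) (nat_lit 76) (nat_lit 1028759556252) (nat_lit 1) (nat_lit 4) (nat_lit 2) (nat_lit 5) (nat_lit 2) (nat_lit 4) (nat_lit 403) (nat_lit 291) (nat_lit 206)) (XT.lf (nat_lit 0) (nat_lit 642648512153) (nat_lit 76) (nat_lit 1111077265891) (nat_lit 76) (nat_lit 1104989583765) (nat_lit 1) (nat_lit 4) (nat_lit 2) (nat_lit 5) (nat_lit 2) (nat_lit 4) (nat_lit 404) (nat_lit 291) (nat_lit 205)))) (XT.nd (nat_lit 156) (nat_lit 0) (nat_lit 0) (XT.nd (nat_lit 78) (nat_lit 0) (nat_lit 0) (XT.lf (nat_lit 0) (nat_lit 706198873826) (nat_lit 76) (nat_lit 1193407644009) (nat_lit 76) (nat_lit 1187319358969) (nat_lit 1) (nat_lit 4) (nat_lit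 2) (nat_lit 5) (nat_lit 2) (nat_lit 4) (nat_lit 405) (nat_lit 291) (nat_lit 204)) (XT.lf (nat_lit 0) (nat_lit 774830958155) (nat_lit 76) (nat_lit 1282325605306) (nat_lit 76) (nat_lit 1276236762012) (nat_lit 1) (nat_lit 4) (nat_lit 2) (nat_lit 5) (nat_lit 2) (nat_lit 4) (nat_lit 406) (nat_lit 291) (nat_lit 203))) (XT.nd (nat_lit 78) (nat_lit 0) (nat_lit 0) (XT.lf (nat_lit 0) (nat_lit 848951473787) (nat_lit 76) (nat_lit 1378358071034) (nat_lit 76) (nat_lit 1372268710839) (nat_lit 1) (nat_lit 4) (nat_lit 2) (nat_lit 5) (nat_lit 2) (nat_lit 4) (nat_lit 407) (nat_lit 291) (nat_lit 202)) (XT.nd (nat_lit 78) (nat_lit 0) (nat_lit 0) (XT.lf (nat_lit 0) (nat_lit 928999653407) (nat_lit 76) (nat_lit 1482074122473) (nat_lit 76) (nat_lit 1475984283665) (nat_lit 1) (nat_lit 4) (nat_lit 2) (nat_lit 5) (nat_lit 2) (nat_lit 4) (nat_lit 408) (nat_lit 291) (nat_lit 201)) (XT.lf (nat_lit 0) (nat_lit 1015449856598)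 (nat_lit 76) (nat_lit 1594088373259) (nat_lit 76) (nat_lit 1587998091291) (nat_lit 1) (nat_lit 4) (nat_lit 2) (nat_lit 5) (nat_lit 2) (nat_lit 4) (nat_lit 409) (nat_lit 291) (nat_lit 200))))))) (XT.nd (nat_lit 39858) (nat_lit 0) (nat_lit 1368) (XT.nd (nat_lit 39546) (nat_lit 0) (nat_lit 2432) (XT.nd (nat_lit 156) (nat_lit 0) (nat_lit 0) (XT.nd (nat_lit 78) (nat_lit 0) (nat_lit 0) (XT.lf (nat_lit 0) (nat_lit 1108814380861) (nat_lit 76) (nat_lit 1715064611546) (nat_lit 76) (nat_lit 1708973919245) (nat_lit 1) (nat_lit 4) (nat_lit 2) (nat_lit 5) (nat_lit 2) (nat_lit 4) (nat_lit 410) (nat_lit 291) (nat_lit 199)) (XT.lf (nat_lit 0) (nat_lit 1209646497450) (nat_lit 76) (nat_lit 1845719733561) (nat_lit 76) (nat_lit 1839628661321) (nat_lit 1) (nat_lit 4) (nat_lit 2) (nat_lit 5) (nat_lit 2) (nat_lit 4) (nat_lit 411) (nat_lit 291) (nat_lit 198))) (XT.nd (nat_lit 78) (nat_lit 0) (nat_lit 0) (XT.lf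 (nat_lit 0) (nat_lit 1318543730019) (nat_lit 76) (nat_lit 1986827991878) (nat_lit 76) (nat_lit 1980736567844) (nat_lit 1) (nat_lit 4) (nat_lit 2) (nat_lit 5) (nat_lit 2) (nat_lit 4) (nat_lit 412) (nat_lit 291) (nat_lit 197)) (XT.lf (nat_lit 0) (nat_lit 1436151395503) (nat_lit 76) (nat_lit 2139225583584) (nat_lit 76) (nat_lit 2133133833814) (nat_lit 1) (nat_lit 4) (nat_lit 2) (nat_lit 5) (nat_lit 2) (nat_lit 4) (nat_lit 413) (nat_lit 291) (nat_lit 196)))) (XT.nd (nat_lit 156) (nat_lit 228) (nat_lit 0) (XT.nd (nat_lit 78) (nat_lit 228) (nat_lit 0) (XT.lf (nat_lit 0) (nat_lit 1229899388) (nat_lit 228) (nat_lit 1747220382) (nat_lit 0) (nat_lit 1229899388) (nat_lit 39) (nat_lit 5) (nat_lit 42) (nat_lit 4) (nat_lit 39) (nat_lit 4) (nat_lit 316) (nat_lit 292) (nat_lit 292)) (XT.lf (nat_lit 0) (nat_lit 3154762903) (nat_lit 228) (nat_lit 3291836398) (nat_lit 228) (nat_lit 2239002690) (nat_lit 36)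 (nat_lit 4) (nat_lit 39) (nat_lit 5) (nat_lit 39) (nat_lit 4) (nat_lit 317) (nat_lit 292) (nat_lit 291))) (XT.nd (nat_lit 78) (nat_lit 0) (nat_lit 0) (XT.lf (nat_lit 0) (nat_lit 1218086169) (nat_lit 152) (nat_lit 342378206) (nat_lit 228) (nat_lit 7425289902) (nat_lit 33) (nat_lit 5) (nat_lit 35) (nat_lit 5) (nat_lit 36) (nat_lit 4) (nat_lit 318) (nat_lit 292) (nat_lit 290)) (XT.lf (nat_lit 0) (nat_lit 5522369655) (nat_lit 228) (nat_lit 975734978) (nat_lit 0) (nat_lit 2809115079) (nat_lit 33) (nat_lit 5) (nat_lit 36) (nat_lit 4) (nat_lit 33) (nat_lit 4) (nat_lit 319) (nat_lit 292) (nat_lit 289))))) (XT.nd (nat_lit 312) (nat_lit 456) (nat_lit 0) (XT.nd (nat_lit 156) (nat_lit 228) (nat_lit 0) (XT.nd (nat_lit 78) (nat_lit 152) (nat_lit 0) (XT.lf (nat_lit 0) (nat_lit 72540987) (nat_lit 228) (nat_lit 3336233527) (nat_lit 76) (nat_lit 6250965474) (nat_lit 30) (nat_lit 5) (nat_lit 33) (nat_lit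 5) (nat_lit 31) (nat_lit 4) (nat_lit 320) (nat_lit 292) (nat_lit 288)) (XT.lf (nat_lit 0) (nat_lit 3935028101) (nat_lit 228) (nat_lit 6062985104) (nat_lit 0) (nat_lit 42750591) (nat_lit 28) (nat_lit 5) (nat_lit 31) (nat_lit 4) (nat_lit 28) (nat_lit 4) (nat_lit 321) (nat_lit 292) (nat_lit 287))) (XT.nd (nat_lit 78) (nat_lit 76) (nat_lit 0) (XT.lf (nat_lit 0) (nat_lit 1242210816) (nat_lit 152) (nat_lit 6858666342) (nat_lit 152) (nat_lit 2352070475) (nat_lit 26) (nat_lit 4) (nat_lit 28) (nat_lit 5) (nat_lit 28) (nat_lit 4) (nat_lit 322) (nat_lit 292) (nat_lit 286)) (XT.lf (nat_lit 0) (nat_lit 1571444681) (nat_lit 228) (nat_lit 1806804221) (nat_lit 76) (nat_lit 7520402228) (nat_lit 25) (nat_lit 5) (nat_lit 28) (nat_lit 5) (nat_lit 26) (nat_lit 4) (nat_lit 323) (nat_lit 292) (nat_lit 285)))) (XT.nd (nat_lit 156) (nat_lit 228) (nat_lit 0) (XT.nd (nat_lit 78) (nat_lit 152) (nat_lit 0) (XT.lf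 (nat_lit 0) (nat_lit 5640683972) (nat_lit 152) (nat_lit 5284341250) (nat_lit 0) (nat_lit 453565329) (nat_lit 24) (nat_lit 5) (nat_lit 26) (nat_lit 4) (nat_lit 24) (nat_lit 4) (nat_lit 324) (nat_lit 292) (nat_lit 284)) (XT.lf (nat_lit 0) (nat_lit 2543994306) (nat_lit 152) (nat_lit 7495709718) (nat_lit 152) (nat_lit 1857048744) (nat_lit 22) (nat_lit 4) (nat_lit 24) (nat_lit 5) (nat_lit 24) (nat_lit 4) (nat_lit 325) (nat_lit 292) (nat_lit 283))) (XT.nd (nat_lit 78) (nat_lit 152) (nat_lit 0) (XT.lf (nat_lit 0) (nat_lit 2172027304) (nat_lit 228) (nat_lit 1538938931) (nat_lit 76) (nat_lit 8744692152) (nat_lit 21) (nat_lit 5) (nat_lit 24) (nat_lit 5) (nat_lit 22) (nat_lit 4) (nat_lit 326) (nat_lit 292) (nat_lit 282)) (XT.nd (nat_lit 78) (nat_lit 76) (nat_lit 0) (XT.lf (nat_lit 0) (nat_lit 6420883159) (nat_lit 152) (nat_lit 6180517288) (nat_lit 0) (nat_lit 454327146) (nat_lit 20) (nat_lit 5) (nat_lit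 22) (nat_lit 4) (nat_lit 20) (nat_lit 4) (nat_lit 327) (nat_lit 292) (nat_lit 281)) (XT.lf (nat_lit 0) (nat_lit 2042495983) (nat_lit 76) (nat_lit 8979449186) (nat_lit 76) (nat_lit 2680996080) (nat_lit 19) (nat_lit 4) (nat_lit 20) (nat_lit 5) (nat_lit 20) (nat_lit 4) (nat_lit 328) (nat_lit 292) (nat_lit 280))))))))
noncomputable def xc71 : XT := (XT.nd (nat_lit 1326) (nat_lit 456) (nat_lit 0) (XT.nd (nat_lit 624) (nat_lit 380) (nat_lit 0) (XT.nd (nat_lit 312) (nat_lit 228) (nat_lit 0) (XT.nd (nat_lit 156) (nat_lit 76) (nat_lit 0) (XT.nd (nat_lit 78) (nat_lit 76) (nat_lit 0) (XT.lf (nat_lit 0) (nat_lit 1507873429) (nat_lit 152) (nat_lit 3469388495) (nat_lit 76) (nat_lit 9421860983) (nat_lit 18) (nat_lit 5) (nat_lit 20) (nat_lit 5) (nat_lit 19) (nat_lit 4) (nat_lit 329) (nat_lit 292) (nat_lit 279)) (XT.lf (nat_lit 0) (nat_lit 5281511152) (nat_lit 76) (nat_lit 570327618) (nat_lit 152) (nat_lit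 9296500479) (nat_lit 17) (nat_lit 5) (nat_lit 18) (nat_lit 5) (nat_lit 19) (nat_lit 4) (nat_lit 330) (nat_lit 292) (nat_lit 278))) (XT.nd (nat_lit 78) (nat_lit 76) (nat_lit 0) (XT.lf (nat_lit 0) (nat_lit 10581396233) (nat_lit 152) (nat_lit 1415618818) (nat_lit 0) (nat_lit 3957522063) (nat_lit 17) (nat_lit 5) (nat_lit 19) (nat_lit 4) (nat_lit 17) (nat_lit 4) (nat_lit 331) (nat_lit 292) (nat_lit 277)) (XT.lf (nat_lit 0) (nat_lit 7817285678) (nat_lit 76) (nat_lit 7926706260) (nat_lit 76) (nat_lit 1076948505) (nat_lit 16) (nat_lit 4) (nat_lit 17) (nat_lit 5) (nat_lit 17) (nat_lit 4) (nat_lit 332) (nat_lit 292) (nat_lit 276)))) (XT.nd (nat_lit 156) (nat_lit 76) (nat_lit 0) (XT.nd (nat_lit 78) (nat_lit 76) (nat_lit 0) (XT.lf (nat_lit 0) (nat_lit 3277099995) (nat_lit 152) (nat_lit 242541230) (nat_lit 76) (nat_lit 14238839852) (nat_lit 15) (nat_lit 5) (nat_lit 17) (nat_lit 5) (nat_lit 16) (nat_lit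 4) (nat_lit 333) (nat_lit 292) (nat_lit 275)) (XT.lf (nat_lit 0) (nat_lit 8044872018) (nat_lit 152) (nat_lit 9384563521) (nat_lit 0) (nat_lit 1329531288) (nat_lit 14) (nat_lit 5) (nat_lit 16) (nat_lit 4) (nat_lit 14) (nat_lit 4) (nat_lit 334) (nat_lit 292) (nat_lit 274))) (XT.nd (nat_lit 78) (nat_lit 76) (nat_lit 0) (XT.lf (nat_lit 0) (nat_lit 13157376345) (nat_lit 152) (nat_lit 409107206) (nat_lit 0) (nat_lit 6276004437) (nat_lit 14) (nat_lit 5) (nat_lit 16) (nat_lit 4) (nat_lit 14) (nat_lit 4) (nat_lit 335) (nat_lit 292) (nat_lit 273)) (XT.lf (nat_lit 0) (nat_lit 9526639545) (nat_lit 76) (nat_lit 9256438433) (nat_lit 76) (nat_lit 2221333953) (nat_lit 13) (nat_lit 4) (nat_lit 14) (nat_lit 5) (nat_lit 14) (nat_lit 4) (nat_lit 336) (nat_lit 292) (nat_lit 272))))) (XT.nd (nat_lit 312) (nat_lit 152) (nat_lit 0) (XT.nd (nat_lit 156) (nat_lit 76) (nat_lit 0) (XT.nd (nat_lit 78) (nat_lit 76)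 (nat_lit 0) (XT.lf (nat_lit 0) (nat_lit 2356627296) (nat_lit 152) (nat_lit 2275664677) (nat_lit 76) (nat_lit 17631075329) (nat_lit 12) (nat_lit 5) (nat_lit 14) (nat_lit 5) (nat_lit 13) (nat_lit 4) (nat_lit 337) (nat_lit 292) (nat_lit 271)) (XT.lf (nat_lit 0) (nat_lit 7265287574) (nat_lit 152) (nat_lit 15848959979) (nat_lit 0) (nat_lit 497463170) (nat_lit 11) (nat_lit 5) (nat_lit 13) (nat_lit 4) (nat_lit 11) (nat_lit 4) (nat_lit 338) (nat_lit 292) (nat_lit 270))) (XT.nd (nat_lit 78) (nat_lit 76) (nat_lit 0) (XT.lf (nat_lit 0) (nat_lit 12636669013) (nat_lit 152) (nat_lit 6669845542) (nat_lit 0) (nat_lit 5755846579) (nat_lit 11) (nat_lit 5) (nat_lit 13) (nat_lit 4) (nat_lit 11) (nat_lit 4) (nat_lit 339) (nat_lit 292) (nat_lit 269)) (XT.lf (nat_lit 0) (nat_lit 3201310320) (nat_lit 76) (nat_lit 15207768384) (nat_lit 76) (nat_lit 8222318145) (nat_lit 10) (nat_lit 4) (nat_lit 11) (nat_lit 5)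 (nat_lit 11) (nat_lit 4) (nat_lit 340) (nat_lit 292) (nat_lit 268)))) (XT.nd (nat_lit 156) (nat_lit 76) (nat_lit 0) (XT.nd (nat_lit 78) (nat_lit 76) (nat_lit 0) (XT.lf (nat_lit 0) (nat_lit 14044173258) (nat_lit 76) (nat_lit 10678881950) (nat_lit 76) (nat_lit 3596554113) (nat_lit 10) (nat_lit 4) (nat_lit 11) (nat_lit 5) (nat_lit 11) (nat_lit 4) (nat_lit 341) (nat_lit 292) (nat_lit 267)) (XT.lf (nat_lit 0) (nat_lit 1231783001) (nat_lit 152) (nat_lit 4609920673) (nat_lit 76) (nat_lit 24306312895) (nat_lit 9) (nat_lit 5) (nat_lit 11) (nat_lit 5) (nat_lit 10) (nat_lit 4) (nat_lit 342) (nat_lit 292) (nat_lit 266))) (XT.nd (nat_lit 78) (nat_lit 0) (nat_lit 0) (XT.lf (nat_lit 0) (nat_lit 5854337158) (nat_lit 76) (nat_lit 448270245) (nat_lit 152) (nat_lit 25808601860) (nat_lit 8) (nat_lit 5) (nat_lit 9) (nat_lit 5) (nat_lit 10) (nat_lit 4) (nat_lit 343) (nat_lit 292) (nat_lit 265)) (XT.nd (nat_lit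 78) (nat_lit 0) (nat_lit 0) (XT.lf (nat_lit 0) (nat_lit 11948094145) (nat_lit 152) (nat_lit 17110656076) (nat_lit 0) (nat_lit 5159213772) (nat_lit 8) (nat_lit 5) (nat_lit 10) (nat_lit 4) (nat_lit 8) (nat_lit 4) (nat_lit 344) (nat_lit 292) (nat_lit 264)) (XT.lf (nat_lit 0) (nat_lit 17973873266) (nat_lit 152) (nat_lit 7406058313) (nat_lit 0) (nat_lit 11119059628) (nat_lit 8) (nat_lit 5) (nat_lit 10) (nat_lit 4) (nat_lit 8) (nat_lit 4) (nat_lit 345) (nat_lit 292) (nat_lit 263))))))) (XT.nd (nat_lit 702) (nat_lit 228) (nat_lit 0) (XT.nd (nat_lit 312) (nat_lit 152) (nat_lit 0) (XT.nd (nat_lit 156) (nat_lit 0) (nat_lit 0) (XT.nd (nat_lit 78) (nat_lit 0) (nat_lit 0) (XT.lf (nat_lit 0) (nat_lit 3079247238) (nat_lit 76) (nat_lit 21399680909) (nat_lit 76) (nat_lit 14483817952) (nat_lit 7) (nat_lit 4) (nat_lit 8) (nat_lit 5) (nat_lit 8) (nat_lit 4) (nat_lit 346) (nat_lit 292) (nat_lit 262)) (XT.lf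 (nat_lit 0) (nat_lit 14678659666) (nat_lit 76) (nat_lit 16953562953) (nat_lit 76) (nat_lit 9981172848) (nat_lit 7) (nat_lit 4) (nat_lit 8) (nat_lit 5) (nat_lit 8) (nat_lit 4) (nat_lit 347) (nat_lit 292) (nat_lit 261))) (XT.nd (nat_lit 78) (nat_lit 0) (nat_lit 0) (XT.lf (nat_lit 0) (nat_lit 27070926322) (nat_lit 76) (nat_lit 12217725106) (nat_lit 76) (nat_lit 5192995049) (nat_lit 7) (nat_lit 4) (nat_lit 8) (nat_lit 5) (nat_lit 8) (nat_lit 4) (nat_lit 348) (nat_lit 292) (nat_lit 260)) (XT.lf (nat_lit 0) (nat_lit 40329482862) (nat_lit 76) (nat_lit 7164103142) (nat_lit 76) (nat_lit 90910167) (nat_lit 7) (nat_lit 4) (nat_lit 8) (nat_lit 5) (nat_lit 8) (nat_lit 4) (nat_lit 349) (nat_lit 292) (nat_lit 259)))) (XT.nd (nat_lit 156) (nat_lit 0) (nat_lit 0) (XT.nd (nat_lit 78) (nat_lit 0) (nat_lit 0) (XT.lf (nat_lit 0) (nat_lit 3646167266) (nat_lit 76) (nat_lit 1528944903) (nat_lit 152) (nat_lit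 45747900768) (nat_lit 5) (nat_lit 5) (nat_lit 6) (nat_lit 5) (nat_lit 7) (nat_lit 4) (nat_lit 350) (nat_lit 292) (nat_lit 258)) (XT.lf (nat_lit 0) (nat_lit 11110142146) (nat_lit 152) (nat_lit 38917214406) (nat_lit 0) (nat_lit 4480868823) (nat_lit 5) (nat_lit 5) (nat_lit 7) (nat_lit 4) (nat_lit 5) (nat_lit 4) (nat_lit 351) (nat_lit 292) (nat_lit 257))) (XT.nd (nat_lit 78) (nat_lit 0) (nat_lit 0) (XT.lf (nat_lit 0) (nat_lit 17503690635) (nat_lit 152) (nat_lit 30039084436) (nat_lit 0) (nat_lit 10838795621) (nat_lit 5) (nat_lit 5) (nat_lit 7) (nat_lit 4) (nat_lit 5) (nat_lit 4) (nat_lit 352) (nat_lit 292) (nat_lit 256)) (XT.nd (nat_lit 78) (nat_lit 0) (nat_lit 0) (XT.lf (nat_lit 0) (nat_lit 24356874169) (nat_lit 152) (nat_lit 20553073459) (nat_lit 0) (nat_lit 17658996107) (nat_lit 5) (nat_lit 5) (nat_lit 7) (nat_lit 4) (nat_lit 5) (nat_lit 4) (nat_lit 353) (nat_lit 292) (nat_lit 255)) (XT.lf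 (nat_lit 0) (nat_lit 31710304207) (nat_lit 152) (nat_lit 10402968078) (nat_lit 0) (nat_lit 24981886287) (nat_lit 5) (nat_lit 5) (nat_lit 7) (nat_lit 4) (nat_lit 5) (nat_lit 4) (nat_lit 354) (nat_lit 292) (nat_lit 254)))))) (XT.nd (nat_lit 312) (nat_lit 152) (nat_lit 0) (XT.nd (nat_lit 156) (nat_lit 0) (nat_lit 0) (XT.nd (nat_lit 78) (nat_lit 0) (nat_lit 0) (XT.lf (nat_lit 0) (nat_lit 496202542) (nat_lit 76) (nat_lit 39123287772) (nat_lit 76) (nat_lit 32366592204) (nat_lit 4) (nat_lit 4) (nat_lit 5) (nat_lit 5) (nat_lit 5) (nat_lit 4) (nat_lit 355) (nat_lit 292) (nat_lit 253)) (XT.lf (nat_lit 0) (nat_lit 12773389477) (nat_lit 76) (nat_lit 35629240820) (nat_lit 76) (nat_lit 28846362245) (nat_lit 4) (nat_lit 4) (nat_lit 5) (nat_lit 5) (nat_lit 5) (nat_lit 4) (nat_lit 356) (nat_lit 292) (nat_lit 252))) (XT.nd (nat_lit 78) (nat_lit 0) (nat_lit 0) (XT.lf (nat_lit 0) (nat_lit 25953544563) (nat_lit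 76) (nat_lit 31894861549) (nat_lit 76) (nat_lit 25087739450) (nat_lit 4) (nat_lit 4) (nat_lit 5) (nat_lit 5) (nat_lit 5) (nat_lit 4) (nat_lit 357) (nat_lit 292) (nat_lit 251)) (XT.lf (nat_lit 0) (nat_lit 40114772423) (nat_lit 76) (nat_lit 27898020305) (nat_lit 76) (nat_lit 21068450497) (nat_lit 4) (nat_lit 4) (nat_lit 5) (nat_lit 5) (nat_lit 5) (nat_lit 4) (nat_lit 358) (nat_lit 292) (nat_lit 250)))) (XT.nd (nat_lit 156) (nat_lit 152) (nat_lit 0) (XT.nd (nat_lit 78) (nat_lit 0) (nat_lit 0) (XT.lf (nat_lit 0) (nat_lit 55340991445) (nat_lit 76) (nat_lit 23615032102) (nat_lit 76) (nat_lit 16764677379) (nat_lit 4) (nat_lit 4) (nat_lit 5) (nat_lit 5) (nat_lit 5) (nat_lit 4) (nat_lit 359) (nat_lit 292) (nat_lit 249)) (XT.lf (nat_lit 0) (nat_lit 71722431074) (nat_lit 76) (nat_lit 19020516269) (nat_lit 76) (nat_lit 12150916255) (nat_lit 4) (nat_lit 4) (nat_lit 5) (nat_lit 5) (nat_lit 5) (nat_lit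 4) (nat_lit 360) (nat_lit 292) (nat_lit 248))) (XT.nd (nat_lit 78) (nat_lit 152) (nat_lit 0) (XT.lf (nat_lit 0) (nat_lit 89356166509) (nat_lit 76) (nat_lit 14087246046) (nat_lit 76) (nat_lit 7199826318) (nat_lit 4) (nat_lit 4) (nat_lit 5) (nat_lit 5) (nat_lit 5) (nat_lit 4) (nat_lit 361) (nat_lit 292) (nat_lit 247)) (XT.nd (nat_lit 78) (nat_lit 152) (nat_lit 0) (XT.lf (nat_lit 0) (nat_lit 108346693959) (nat_lit 76) (nat_lit 8785987239) (nat_lit 76) (nat_lit 1882067775) (nat_lit 4) (nat_lit 4) (nat_lit 5) (nat_lit 5) (nat_lit 5) (nat_lit 4) (nat_lit 362) (nat_lit 292) (nat_lit 246)) (XT.lf (nat_lit 0) (nat_lit 690904142) (nat_lit 76) (nat_lit 2967798328) (nat_lit 152) (nat_lit 124390594700) (nat_lit 2) (nat_lit 5) (nat_lit 3) (nat_lit 5) (nat_lit 4) (nat_lit 4) (nat_lit 363) (nat_lit 292) (nat_lit 245))))))))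
noncomputable def xc72 : XT := (XT.nd (nat_lit 1326) (nat_lit 76) (nat_lit 0) (XT.nd (nat_lit 624) (nat_lit 0) (nat_lit 0) (XT.nd (nat_lit 312) (nat_lit 0) (nat_lit 0) (XT.nd (nat_lit 156) (nat_lit 0) (nat_lit 0) (XT.nd (nat_lit 78) (nat_lit 0) (nat_lit 0) (XT.lf (nat_lit 0) (nat_lit 9894300628) (nat_lit 152) (nat_lit 124405604182) (nat_lit 0) (nat_lit 3474538720) (nat_lit 2) (nat_lit 5) (nat_lit 4) (nat_lit 4) (nat_lit 2) (nat_lit 4) (nat_lit 364) (nat_lit 292) (nat_lit 244)) (XT.lf (nat_lit 0) (nat_lit 16681981330) (nat_lit 152) (nat_lit 121341274354) (nat_lit 0) (nat_lit 10250091623) (nat_lit 2) (nat_lit 5) (nat_lit 4) (nat_lit 4) (nat_lit 2) (nat_lit 4) (nat_lit 365) (nat_lit 292) (nat_lit 243))) (XT.nd (nat_lit 78) (nat_lit 0) (nat_lit 0) (XT.lf (nat_lit 0) (nat_lit 23990592247) (nat_lit 152) (nat_lit 118075868933) (nat_lit 0) (nat_lit 17547473098) (nat_lit 2) (nat_lit 5) (nat_lit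 4) (nat_lit 4) (nat_lit 2) (nat_lit 4) (nat_lit 366) (nat_lit 292) (nat_lit 242)) (XT.lf (nat_lit 0) (nat_lit 31863443667) (nat_lit 152) (nat_lit 114590037369) (nat_lit 0) (nat_lit 25409926886) (nat_lit 2) (nat_lit 5) (nat_lit 4) (nat_lit 4) (nat_lit 2) (nat_lit 4) (nat_lit 367) (nat_lit 292) (nat_lit 241)))) (XT.nd (nat_lit 156) (nat_lit 0) (nat_lit 0) (XT.nd (nat_lit 78) (nat_lit 0) (nat_lit 0) (XT.lf (nat_lit 0) (nat_lit 40347189524) (nat_lit 152) (nat_lit 110863122881) (nat_lit 0) (nat_lit 33884045305) (nat_lit 2) (nat_lit 5) (nat_lit 4) (nat_lit 4) (nat_lit 2) (nat_lit 4) (nat_lit 368) (nat_lit 292) (nat_lit 240)) (XT.lf (nat_lit 0) (nat_lit 49492103868) (nat_lit 152) (nat_lit 106873040050) (nat_lit 0) (nat_lit 43020045355) (nat_lit 2) (nat_lit 5) (nat_lit 4) (nat_lit 4) (nat_lit 2) (nat_lit 4) (nat_lit 369) (nat_lit 292) (nat_lit 239))) (XT.nd (nat_lit 78) (nat_lit 0) (nat_lit 0)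 (XT.lf (nat_lit 0) (nat_lit 59352378783) (nat_lit 152) (nat_lit 102596143941) (nat_lit 0) (nat_lit 52872066295) (nat_lit 2) (nat_lit 5) (nat_lit 4) (nat_lit 4) (nat_lit 2) (nat_lit 4) (nat_lit 370) (nat_lit 292) (nat_lit 238)) (XT.lf (nat_lit 0) (nat_lit 69986445529) (nat_lit 152) (nat_lit 98007089985) (nat_lit 0) (nat_lit 63498490470) (nat_lit 2) (nat_lit 5) (nat_lit 4) (nat_lit 4) (nat_lit 2) (nat_lit 4) (nat_lit 371) (nat_lit 292) (nat_lit 237))))) (XT.nd (nat_lit 312) (nat_lit 0) (nat_lit 0) (XT.nd (nat_lit 156) (nat_lit 0) (nat_lit 0) (XT.nd (nat_lit 78) (nat_lit 0) (nat_lit 0) (XT.lf (nat_lit 0) (nat_lit 81457320796) (nat_lit 152) (nat_lit 93078683788) (nat_lit 0) (nat_lit 74962289284) (nat_lit 2) (nat_lit 5) (nat_lit 4) (nat_lit 4) (nat_lit 2) (nat_lit 4) (nat_lit 372) (nat_lit 292) (nat_lit 236)) (XT.lf (nat_lit 0) (nat_lit 93832980143) (nat_lit 152) (nat_lit 87781719979) (nat_lit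 0) (nat_lit 87331396359) (nat_lit 2) (nat_lit 5) (nat_lit 4) (nat_lit 4) (nat_lit 2) (nat_lit 4) (nat_lit 373) (nat_lit 292) (nat_lit 235))) (XT.nd (nat_lit 78) (nat_lit 0) (nat_lit 0) (XT.lf (nat_lit 0) (nat_lit 107186760810) (nat_lit 152) (nat_lit 82084809143) (nat_lit 0) (nat_lit 100679110108) (nat_lit 2) (nat_lit 5) (nat_lit 4) (nat_lit 4) (nat_lit 2) (nat_lit 4) (nat_lit 374) (nat_lit 292) (nat_lit 234)) (XT.lf (nat_lit 0) (nat_lit 121597796312) (nat_lit 152) (nat_lit 75954191810) (nat_lit 0) (nat_lit 115084528092) (nat_lit 2) (nat_lit 5) (nat_lit 4) (nat_lit 4) (nat_lit 2) (nat_lit 4) (nat_lit 375) (nat_lit 292) (nat_lit 233)))) (XT.nd (nat_lit 156) (nat_lit 0) (nat_lit 0) (XT.nd (nat_lit 78) (nat_lit 0) (nat_lit 0) (XT.lf (nat_lit 0) (nat_lit 137151485378) (nat_lit 152) (nat_lit 69353538394) (nat_lit 0) (nat_lit 130633015753) (nat_lit 2) (nat_lit 5) (nat_lit 4) (nat_lit 4) (nat_lit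 2) (nat_lit 4) (nat_lit 376) (nat_lit 292) (nat_lit 232)) (XT.lf (nat_lit 0) (nat_lit 153939998016) (nat_lit 152) (nat_lit 62243733912) (nat_lit 0) (nat_lit 147416712276) (nat_lit 2) (nat_lit 5) (nat_lit 4) (nat_lit 4) (nat_lit 2) (nat_lit 4) (nat_lit 377) (nat_lit 292) (nat_lit 231))) (XT.nd (nat_lit 78) (nat_lit 0) (nat_lit 0) (XT.lf (nat_lit 0) (nat_lit 172062821711) (nat_lit 152) (nat_lit 54582646191) (nat_lit 0) (nat_lit 165535076604) (nat_lit 2) (nat_lit 5) (nat_lit 4) (nat_lit 4) (nat_lit 2) (nat_lit 4) (nat_lit 378) (nat_lit 292) (nat_lit 230)) (XT.nd (nat_lit 78) (nat_lit 0) (nat_lit 0) (XT.lf (nat_lit 0) (nat_lit 191627350971) (nat_lit 152) (nat_lit 46324876190) (nat_lit 0) (nat_lit 185095476822) (nat_lit 2) (nat_lit 5) (nat_lit 4) (nat_lit 4) (nat_lit 2) (nat_lit 4) (nat_lit 379) (nat_lit 292) (nat_lit 229)) (XT.lf (nat_lit 0) (nat_lit 212749523749) (nat_lit 152) (nat_lit 37421488978)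 (nat_lit 0) (nat_lit 206213826412) (nat_lit 2) (nat_lit 5) (nat_lit 4) (nat_lit 4) (nat_lit 2) (nat_lit 4) (nat_lit 380) (nat_lit 292) (nat_lit 228))))))) (XT.nd (nat_lit 624) (nat_lit 0) (nat_lit 0) (XT.nd (nat_lit 312) (nat_lit 0) (nat_lit 0) (XT.nd (nat_lit 156) (nat_lit 76) (nat_lit 0) (XT.nd (nat_lit 78) (nat_lit 0) (nat_lit 0) (XT.lf (nat_lit 0) (nat_lit 235554508475) (nat_lit 152) (nat_lit 27819723741) (nat_lit 0) (nat_lit 229015271150) (nat_lit 2) (nat_lit 5) (nat_lit 4) (nat_lit 4) (nat_lit 2) (nat_lit 4) (nat_lit 381) (nat_lit 292) (nat_lit 227)) (XT.lf (nat_lit 0) (nat_lit 260177445800) (nat_lit 152) (nat_lit 17462681129) (nat_lit 0) (nat_lit 253634930708) (nat_lit 2) (nat_lit 5) (nat_lit 4) (nat_lit 4) (nat_lit 2) (nat_lit 4) (nat_lit 382) (nat_lit 292) (nat_lit 226))) (XT.nd (nat_lit 78) (nat_lit 76) (nat_lit 0) (XT.lf (nat_lit 0) (nat_lit 286764249427) (nat_lit 152) (nat_lit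 6288986075) (nat_lit 0) (nat_lit 280218699365) (nat_lit 2) (nat_lit 5) (nat_lit 4) (nat_lit 4) (nat_lit 2) (nat_lit 4) (nat_lit 383) (nat_lit 292) (nat_lit 225)) (XT.lf (nat_lit 0) (nat_lit 6071286235) (nat_lit 76) (nat_lit 309547199129) (nat_lit 76) (nat_lit 302998838909) (nat_lit 1) (nat_lit 4) (nat_lit 2) (nat_lit 5) (nat_lit 2) (nat_lit 4) (nat_lit 384) (nat_lit 292) (nat_lit 224)))) (XT.nd (nat_lit 156) (nat_lit 0) (nat_lit 0) (XT.nd (nat_lit 78) (nat_lit 0) (nat_lit 0) (XT.lf (nat_lit 0) (nat_lit 19767291076) (nat_lit 76) (nat_lit 327180345415) (nat_lit 76) (nat_lit 320629383198) (nat_lit 1) (nat_lit 4) (nat_lit 2) (nat_lit 5) (nat_lit 2) (nat_lit 4) (nat_lit 385) (nat_lit 292) (nat_lit 223)) (XT.lf (nat_lit 0) (nat_lit 34549023094) (nat_lit 76) (nat_lit 346229119104) (nat_lit 76) (nat_lit 339675747630) (nat_lit 1) (nat_lit 4) (nat_lit 2) (nat_lit 5) (nat_lit 2) (nat_lit 4) (nat_lit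 386) (nat_lit 292) (nat_lit 222))) (XT.nd (nat_lit 78) (nat_lit 0) (nat_lit 0) (XT.lf (nat_lit 0) (nat_lit 50504077740) (nat_lit 76) (nat_lit 366806401819) (nat_lit 76) (nat_lit 360250799551) (nat_lit 1) (nat_lit 4) (nat_lit 2) (nat_lit 5) (nat_lit 2) (nat_lit 4) (nat_lit 387) (nat_lit 292) (nat_lit 221)) (XT.lf (nat_lit 0) (nat_lit 67727003484) (nat_lit 76) (nat_lit 389034133011) (nat_lit 76) (nat_lit 382476465195) (nat_lit 1) (nat_lit 4) (nat_lit 2) (nat_lit 5) (nat_lit 2) (nat_lit 4) (nat_lit 388) (nat_lit 292) (nat_lit 220))))) (XT.nd (nat_lit 312) (nat_lit 0) (nat_lit 0) (XT.nd (nat_lit 156) (nat_lit 0) (nat_lit 0) (XT.nd (nat_lit 78) (nat_lit 0) (nat_lit 0) (XT.lf (nat_lit 0) (nat_lit 86319862108) (nat_lit 76) (nat_lit 413044032571) (nat_lit 76) (nat_lit 406484452208) (nat_lit 1) (nat_lit 4) (nat_lit 2) (nat_lit 5) (nat_lit 2) (nat_lit 4) (nat_lit 389) (nat_lit 292) (nat_lit 219))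 (XT.lf (nat_lit 0) (nat_lit 106392833517) (nat_lit 76) (nat_lit 438978381383) (nat_lit 76) (nat_lit 432417030145) (nat_lit 1) (nat_lit 4) (nat_lit 2) (nat_lit 5) (nat_lit 2) (nat_lit 4) (nat_lit 390) (nat_lit 292) (nat_lit 218))) (XT.nd (nat_lit 78) (nat_lit 0) (nat_lit 0) (XT.lf (nat_lit 0) (nat_lit 128064868651) (nat_lit 76) (nat_lit 466990864479) (nat_lit 76) (nat_lit 460427873541) (nat_lit 1) (nat_lit 4) (nat_lit 2) (nat_lit 5) (nat_lit 2) (nat_lit 4) (nat_lit 391) (nat_lit 292) (nat_lit 217)) (XT.lf (nat_lit 0) (nat_lit 151464394386) (nat_lit 76) (nat_lit 497247481758) (nat_lit 76) (nat_lit 490682972579) (nat_lit 1) (nat_lit 4) (nat_lit 2) (nat_lit 5) (nat_lit 2) (nat_lit 4) (nat_lit 392) (nat_lit 292) (nat_lit 216)))) (XT.nd (nat_lit 156) (nat_lit 0) (nat_lit 0) (XT.nd (nat_lit 78) (nat_lit 0) (nat_lit 0) (XT.lf (nat_lit 0) (nat_lit 176730074578) (nat_lit 76) (nat_lit 529927531692)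 (nat_lit 76) (nat_lit 523361616736) (nat_lit 1) (nat_lit 4) (nat_lit 2) (nat_lit 5) (nat_lit 2) (nat_lit 4) (nat_lit 393) (nat_lit 292) (nat_lit 215)) (XT.lf (nat_lit 0) (nat_lit 204011631775) (nat_lit 76) (nat_lit 565224673837) (nat_lit 76) (nat_lit 558657457234) (nat_lit 1) (nat_lit 4) (nat_lit 2) (nat_lit 5) (nat_lit 2) (nat_lit 4) (nat_lit 394) (nat_lit 292) (nat_lit 214))) (XT.nd (nat_lit 78) (nat_lit 0) (nat_lit 0) (XT.lf (nat_lit 0) (nat_lit 233470734465) (nat_lit 76) (nat_lit 603348076443) (nat_lit 76) (nat_lit 596779654612) (nat_lit 1) (nat_lit 4) (nat_lit 2) (nat_lit 5) (nat_lit 2) (nat_lit 4) (nat_lit 395) (nat_lit 292) (nat_lit 213)) (XT.nd (nat_lit 78) (nat_lit 0) (nat_lit 0) (XT.lf (nat_lit 0) (nat_lit 265281955109) (nat_lit 76) (nat_lit 644523655969) (nat_lit 76) (nat_lit 637954118186) (nat_lit 1) (nat_lit 4) (nat_lit 2) (nat_lit 5) (nat_lit 2) (nat_lit 4) (nat_lit 396)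 (nat_lit 292) (nat_lit 212)) (XT.lf (nat_lit 0) (nat_lit 299633804643) (nat_lit 76) (nat_lit 688995415850) (nat_lit 76) (nat_lit 682424844778) (nat_lit 1) (nat_lit 4) (nat_lit 2) (nat_lit 5) (nat_lit 2) (nat_lit 4) (nat_lit 397) (nat_lit 292) (nat_lit 211))))))))
noncomputable def xc73 : XT := (XT.nd (nat_lit 40404) (nat_lit 0) (nat_lit 1216) (XT.nd (nat_lit 624) (nat_lit 0) (nat_lit 0) (XT.nd (nat_lit 312) (nat_lit 0) (nat_lit 0) (XT.nd (nat_lit 156) (nat_lit 0) (nat_lit 0) (XT.nd (nat_lit 78) (nat_lit 0) (nat_lit 0) (XT.lf (nat_lit 0) (nat_lit 336729849584) (nat_lit 76) (nat_lit 737026892440) (nat_lit 76) (nat_lit 730455364619) (nat_lit 1) (nat_lit 4) (nat_lit 2) (nat_lit 5) (nat_lit 2) (nat_lit 4) (nat_lit 398) (nat_lit 292) (nat_lit 210)) (XT.lf (nat_lit 0) (nat_lit 376789918345) (nat_lit 76) (nat_lit 788902716713) (nat_lit 76) (nat_lit 782330303013) (nat_lit 1) (nat_lit 4) (nat_lit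 2) (nat_lit 5) (nat_lit 2) (nat_lit 4) (nat_lit 399) (nat_lit 292) (nat_lit 209))) (XT.nd (nat_lit 78) (nat_lit 0) (nat_lit 0) (XT.lf (nat_lit 0) (nat_lit 420051403927) (nat_lit 76) (nat_lit 844930300959) (nat_lit 76) (nat_lit 838357067001) (nat_lit 1) (nat_lit 4) (nat_lit 2) (nat_lit 5) (nat_lit 2) (nat_lit 4) (nat_lit 400) (nat_lit 292) (nat_lit 208)) (XT.lf (nat_lit 0) (nat_lit 466770670689) (nat_lit 76) (nat_lit 905441660493) (nat_lit 76) (nat_lit 898867667037) (nat_lit 1) (nat_lit 4) (nat_lit 2) (nat_lit 5) (nat_lit 2) (nat_lit 4) (nat_lit 401) (nat_lit 292) (nat_lit 207)))) (XT.nd (nat_lit 156) (nat_lit 0) (nat_lit 0) (XT.nd (nat_lit 78) (nat_lit 0) (nat_lit 0) (XT.lf (nat_lit 0) (nat_lit 517224573545) (nat_lit 76) (nat_lit 970795381150) (nat_lit 76) (nat_lit 964220684455) (nat_lit 1) (nat_lit 4) (nat_lit 2) (nat_lit 5) (nat_lit 2) (nat_lit 4) (nat_lit 402) (nat_lit 292) (nat_lit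 206)) (XT.lf (nat_lit 0) (nat_lit 571712098587) (nat_lit 76) (nat_lit 1041378744236) (nat_lit 76) (nat_lit 1034803396394) (nat_lit 1) (nat_lit 4) (nat_lit 2) (nat_lit 5) (nat_lit 2) (nat_lit 4) (nat_lit 403) (nat_lit 292) (nat_lit 205))) (XT.nd (nat_lit 78) (nat_lit 0) (nat_lit 0) (XT.lf (nat_lit 0) (nat_lit 630556134850) (nat_lit 76) (nat_lit 1117610021534) (nat_lit 76) (nat_lit 1111034070777) (nat_lit 1) (nat_lit 4) (nat_lit 2) (nat_lit 5) (nat_lit 2) (nat_lit 4) (nat_lit 404) (nat_lit 292) (nat_lit 204)) (XT.lf (nat_lit 0) (nat_lit 694105387736) (nat_lit 76) (nat_lit 1199940953945) (nat_lit 76) (nat_lit 1193364444934) (nat_lit 1) (nat_lit 4) (nat_lit 2) (nat_lit 5) (nat_lit 2) (nat_lit 4) (nat_lit 405) (nat_lit 292) (nat_lit 203))))) (XT.nd (nat_lit 312) (nat_lit 0) (nat_lit 0) (XT.nd (nat_lit 156) (nat_lit 0) (nat_lit 0) (XT.nd (nat_lit 78) (nat_lit 0) (nat_lit 0) (XT.lf (nat_lit 0)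 (nat_lit 762736445409) (nat_lit 76) (nat_lit 1288859428477) (nat_lit 76) (nat_lit 1282282402564) (nat_lit 1) (nat_lit 4) (nat_lit 2) (nat_lit 5) (nat_lit 2) (nat_lit 4) (nat_lit 406) (nat_lit 292) (nat_lit 202)) (XT.lf (nat_lit 0) (nat_lit 836856010434) (nat_lit 76) (nat_lit 1384892369422) (nat_lit 76) (nat_lit 1378314864897) (nat_lit 1) (nat_lit 4) (nat_lit 2) (nat_lit 5) (nat_lit 2) (nat_lit 4) (nat_lit 407) (nat_lit 292) (nat_lit 201))) (XT.nd (nat_lit 78) (nat_lit 0) (nat_lit 0) (XT.lf (nat_lit 0) (nat_lit 916903309862) (nat_lit 76) (nat_lit 1488608860876) (nat_lit 76) (nat_lit 1482030913191) (nat_lit 1) (nat_lit 4) (nat_lit 2) (nat_lit 5) (nat_lit 2) (nat_lit 4) (nat_lit 408) (nat_lit 292) (nat_lit 200)) (XT.lf (nat_lit 0) (nat_lit 1003352698061) (nat_lit 76) (nat_lit 1600623519085) (nat_lit 76) (nat_lit 1594045161066) (nat_lit 1) (nat_lit 4) (nat_lit 2) (nat_lit 5) (nat_lit 2) (nat_lit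 4) (nat_lit 409) (nat_lit 292) (nat_lit 199)))) (XT.nd (nat_lit 156) (nat_lit 0) (nat_lit 0) (XT.nd (nat_lit 78) (nat_lit 0) (nat_lit 0) (XT.lf (nat_lit 0) (nat_lit 1096716467702) (nat_lit 76) (nat_lit 1721600134614) (nat_lit 76) (nat_lit 1715021396657) (nat_lit 1) (nat_lit 4) (nat_lit 2) (nat_lit 5) (nat_lit 2) (nat_lit 4) (nat_lit 410) (nat_lit 292) (nat_lit 198)) (XT.lf (nat_lit 0) (nat_lit 1197547885566) (nat_lit 76) (nat_lit 1852255605927) (nat_lit 76) (nat_lit 1845676516176) (nat_lit 1) (nat_lit 4) (nat_lit 2) (nat_lit 5) (nat_lit 2) (nat_lit 4) (nat_lit 411) (nat_lit 292) (nat_lit 197))) (XT.nd (nat_lit 78) (nat_lit 0) (nat_lit 0) (XT.lf (nat_lit 0) (nat_lit 1306444471169) (nat_lit 76) (nat_lit 1993364187669) (nat_lit 76) (nat_lit 1986784772182) (nat_lit 1) (nat_lit 4) (nat_lit 2) (nat_lit 5) (nat_lit 2) (nat_lit 4) (nat_lit 412) (nat_lit 292) (nat_lit 196)) (XT.nd (nat_lit 39156)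 (nat_lit 0) (nat_lit 3116) (XT.lf (nat_lit 0) (nat_lit 1424051537609) (nat_lit 76) (nat_lit 2145762078843) (nat_lit 76) (nat_lit 2139182361748) (nat_lit 1) (nat_lit 4) (nat_lit 2) (nat_lit 5) (nat_lit 2) (nat_lit 4) (nat_lit 413) (nat_lit 292) (nat_lit 195)) (XT.lf (nat_lit 0) (nat_lit 112040185) (nat_lit 228) (nat_lit 1927788711) (nat_lit 228) (nat_lit 1927788711) (nat_lit 42) (nat_lit 4) (nat_lit 45) (nat_lit 5) (nat_lit 45) (nat_lit 4) (nat_lit 314) (nat_lit 293) (nat_lit 293))))))) (XT.nd (nat_lit 624) (nat_lit 836) (nat_lit 0) (XT.nd (nat_lit 312) (nat_lit 380) (nat_lit 0) (XT.nd (nat_lit 156) (nat_lit 456) (nat_lit 0) (XT.nd (nat_lit 78) (nat_lit 228) (nat_lit 0) (XT.lf (nat_lit 0) (nat_lit 6552911087) (nat_lit 228) (nat_lit 1422448501) (nat_lit 228) (nat_lit 194423265) (nat_lit 42) (nat_lit 4) (nat_lit 45) (nat_lit 5) (nat_lit 45) (nat_lit 4) (nat_lit 315) (nat_lit 293) (nat_lit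 292)) (XT.lf (nat_lit 0) (nat_lit 3474043867) (nat_lit 228) (nat_lit 3665857092) (nat_lit 0) (nat_lit 1284149756) (nat_lit 39) (nat_lit 5) (nat_lit 42) (nat_lit 4) (nat_lit 39) (nat_lit 4) (nat_lit 316) (nat_lit 293) (nat_lit 291))) (XT.nd (nat_lit 78) (nat_lit 228) (nat_lit 0) (XT.lf (nat_lit 0) (nat_lit 2807243423) (nat_lit 228) (nat_lit 4531525232) (nat_lit 228) (nat_lit 1366785095) (nat_lit 36) (nat_lit 4) (nat_lit 39) (nat_lit 5) (nat_lit 39) (nat_lit 4) (nat_lit 317) (nat_lit 293) (nat_lit 290)) (XT.lf (nat_lit 0) (nat_lit 639971573) (nat_lit 152) (nat_lit 1623175983) (nat_lit 228) (nat_lit 6751101119) (nat_lit 33) (nat_lit 5) (nat_lit 35) (nat_lit 5) (nat_lit 36) (nat_lit 4) (nat_lit 318) (nat_lit 293) (nat_lit 289)))) (XT.nd (nat_lit 156) (nat_lit 152) (nat_lit 0) (XT.nd (nat_lit 78) (nat_lit 228) (nat_lit 0) (XT.lf (nat_lit 0) (nat_lit 6085595433) (nat_lit 228) (nat_lit 1715769900)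 (nat_lit 0) (nat_lit 1545642945) (nat_lit 33) (nat_lit 5) (nat_lit 36) (nat_lit 4) (nat_lit 33) (nat_lit 4) (nat_lit 319) (nat_lit 293) (nat_lit 288)) (XT.lf (nat_lit 0) (nat_lit 443282472) (nat_lit 228) (nat_lit 4334465875) (nat_lit 76) (nat_lit 4931011964) (nat_lit 30) (nat_lit 5) (nat_lit 33) (nat_lit 5) (nat_lit 31) (nat_lit 4) (nat_lit 320) (nat_lit 293) (nat_lit 287))) (XT.nd (nat_lit 78) (nat_lit 0) (nat_lit 0) (XT.lf (nat_lit 0) (nat_lit 2766509458) (nat_lit 152) (nat_lit 1409676455) (nat_lit 228) (nat_lit 5924074112) (nat_lit 28) (nat_lit 5) (nat_lit 30) (nat_lit 5) (nat_lit 31) (nat_lit 4) (nat_lit 321) (nat_lit 293) (nat_lit 286)) (XT.lf (nat_lit 0) (nat_lit 8181373260) (nat_lit 228) (nat_lit 212906587) (nat_lit 0) (nat_lit 2131118075) (nat_lit 28) (nat_lit 5) (nat_lit 31) (nat_lit 4) (nat_lit 28) (nat_lit 4) (nat_lit 322) (nat_lit 293) (nat_lit 285))))) (XT.nd (nat_lit 312)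 (nat_lit 304) (nat_lit 0) (XT.nd (nat_lit 156) (nat_lit 228) (nat_lit 0) (XT.nd (nat_lit 78) (nat_lit 76) (nat_lit 0) (XT.lf (nat_lit 0) (nat_lit 1477677228) (nat_lit 228) (nat_lit 3503365524) (nat_lit 76) (nat_lit 5998242746) (nat_lit 25) (nat_lit 5) (nat_lit 28) (nat_lit 5) (nat_lit 26) (nat_lit 4) (nat_lit 323) (nat_lit 293) (nat_lit 284)) (XT.lf (nat_lit 0) (nat_lit 4167435964) (nat_lit 76) (nat_lit 1232581266) (nat_lit 152) (nat_lit 6071039906) (nat_lit 24) (nat_lit 5) (nat_lit 25) (nat_lit 5) (nat_lit 26) (nat_lit 4) (nat_lit 324) (nat_lit 293) (nat_lit 283))) (XT.nd (nat_lit 78) (nat_lit 76) (nat_lit 0) (XT.lf (nat_lit 0) (nat_lit 294291432) (nat_lit 152) (nat_lit 9334025409) (nat_lit 152) (nat_lit 2374634475) (nat_lit 22) (nat_lit 4) (nat_lit 24) (nat_lit 5) (nat_lit 24) (nat_lit 4) (nat_lit 325) (nat_lit 293) (nat_lit 282)) (XT.lf (nat_lit 0) (nat_lit 1594099130) (nat_lit 228)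 (nat_lit 4030789511) (nat_lit 76) (nat_lit 6944926588) (nat_lit 21) (nat_lit 5) (nat_lit 24) (nat_lit 5) (nat_lit 22) (nat_lit 4) (nat_lit 326) (nat_lit 293) (nat_lit 281)))) (XT.nd (nat_lit 156) (nat_lit 228) (nat_lit 0) (XT.nd (nat_lit 78) (nat_lit 0) (nat_lit 0) (XT.lf (nat_lit 0) (nat_lit 4119925181) (nat_lit 76) (nat_lit 1565117964) (nat_lit 152) (nat_lit 7497533241) (nat_lit 20) (nat_lit 5) (nat_lit 21) (nat_lit 5) (nat_lit 22) (nat_lit 4) (nat_lit 327) (nat_lit 293) (nat_lit 280)) (XT.lf (nat_lit 0) (nat_lit 10120823720) (nat_lit 152) (nat_lit 1042958319) (nat_lit 0) (nat_lit 2679285150) (nat_lit 20) (nat_lit 5) (nat_lit 22) (nat_lit 4) (nat_lit 20) (nat_lit 4) (nat_lit 328) (nat_lit 293) (nat_lit 279))) (XT.nd (nat_lit 78) (nat_lit 76) (nat_lit 0) (XT.lf (nat_lit 0) (nat_lit 413647290) (nat_lit 152) (nat_lit 6865700468) (nat_lit 76) (nat_lit 7270356585) (nat_lit 18) (nat_lit 5)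 (nat_lit 20) (nat_lit 5) (nat_lit 19) (nat_lit 4) (nat_lit 329) (nat_lit 293) (nat_lit 278)) (XT.nd (nat_lit 78) (nat_lit 0) (nat_lit 0) (XT.lf (nat_lit 0) (nat_lit 1570458291) (nat_lit 76) (nat_lit 3025703120) (nat_lit 152) (nat_lit 10715718740) (nat_lit 17) (nat_lit 5) (nat_lit 18) (nat_lit 5) (nat_lit 19) (nat_lit 4) (nat_lit 330) (nat_lit 293) (nat_lit 277)) (XT.lf (nat_lit 0) (nat_lit 9195443012) (nat_lit 152) (nat_lit 5361276179) (nat_lit 0) (nat_lit 1571821052) (nat_lit 17) (nat_lit 5) (nat_lit 19) (nat_lit 4) (nat_lit 17) (nat_lit 4) (nat_lit 331) (nat_lit 293) (nat_lit 276))))))))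
noncomputable def xc74 : XT := (XT.nd (nat_lit 1326) (nat_lit 380) (nat_lit 0) (XT.nd (nat_lit 624) (nat_lit 304) (nat_lit 0) (XT.nd (nat_lit 312) (nat_lit 228) (nat_lit 0) (XT.nd (nat_lit 156) (nat_lit 76) (nat_lit 0) (XT.nd (nat_lit 78) (nat_lit 76) (nat_lit 0) (XT.lf (nat_lit 0) (nat_lit 3537035617) (nat_lit 76) (nat_lit 10652114814) (nat_lit 76) (nat_lit 2819341387) (nat_lit 16) (nat_lit 4) (nat_lit 17) (nat_lit 5) (nat_lit 17) (nat_lit 4) (nat_lit 332) (nat_lit 293) (nat_lit 275)) (XT.lf (nat_lit 0) (nat_lit 1556289301) (nat_lit 152) (nat_lit 4789350446) (nat_lit 76) (nat_lit 11609023299) (nat_lit 15) (nat_lit 5) (nat_lit 17) (nat_lit 5) (nat_lit 16) (nat_lit 4) (nat_lit 333) (nat_lit 293) (nat_lit 274))) (XT.nd (nat_lit 78) (nat_lit 0) (nat_lit 0) (XT.lf (nat_lit 0) (nat_lit 4506667619) (nat_lit 76) (nat_lit 1605069632) (nat_lit 152) (nat_lit 12860426987) (nat_lit 14) (nat_lit 5)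 (nat_lit 15) (nat_lit 5) (nat_lit 16) (nat_lit 4) (nat_lit 334) (nat_lit 293) (nat_lit 273)) (XT.lf (nat_lit 0) (nat_lit 11125582428) (nat_lit 152) (nat_lit 5564086015) (nat_lit 0) (nat_lit 3373937017) (nat_lit 14) (nat_lit 5) (nat_lit 16) (nat_lit 4) (nat_lit 14) (nat_lit 4) (nat_lit 335) (nat_lit 293) (nat_lit 272)))) (XT.nd (nat_lit 156) (nat_lit 152) (nat_lit 0) (XT.nd (nat_lit 78) (nat_lit 0) (nat_lit 0) (XT.lf (nat_lit 0) (nat_lit 3990412853) (nat_lit 76) (nat_lit 12572116316) (nat_lit 76) (nat_lit 4678125931) (nat_lit 13) (nat_lit 4) (nat_lit 14) (nat_lit 5) (nat_lit 14) (nat_lit 4) (nat_lit 336) (nat_lit 293) (nat_lit 271)) (XT.lf (nat_lit 0) (nat_lit 14414247492) (nat_lit 76) (nat_lit 8060132681) (nat_lit 76) (nat_lit 34341394) (nat_lit 13) (nat_lit 4) (nat_lit 14) (nat_lit 5) (nat_lit 14) (nat_lit 4) (nat_lit 337) (nat_lit 293) (nat_lit 270))) (XT.nd (nat_lit 78) (nat_lit 0)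 (nat_lit 0) (XT.lf (nat_lit 0) (nat_lit 1550052639) (nat_lit 76) (nat_lit 3112390533) (nat_lit 152) (nat_lit 19211795467) (nat_lit 11) (nat_lit 5) (nat_lit 12) (nat_lit 5) (nat_lit 13) (nat_lit 4) (nat_lit 338) (nat_lit 293) (nat_lit 269)) (XT.lf (nat_lit 0) (nat_lit 9908166807) (nat_lit 152) (nat_lit 13167540725) (nat_lit 0) (nat_lit 2259252743) (nat_lit 11) (nat_lit 5) (nat_lit 13) (nat_lit 4) (nat_lit 11) (nat_lit 4) (nat_lit 339) (nat_lit 293) (nat_lit 268))))) (XT.nd (nat_lit 312) (nat_lit 152) (nat_lit 0) (XT.nd (nat_lit 156) (nat_lit 76) (nat_lit 0) (XT.nd (nat_lit 78) (nat_lit 76) (nat_lit 0) (XT.lf (nat_lit 0) (nat_lit 15556543485) (nat_lit 152) (nat_lit 3546640545) (nat_lit 0) (nat_lit 7810751823) (nat_lit 11) (nat_lit 5) (nat_lit 13) (nat_lit 4) (nat_lit 11) (nat_lit 4) (nat_lit 340) (nat_lit 293) (nat_lit 267)) (XT.lf (nat_lit 0) (nat_lit 7021630757) (nat_lit 76) (nat_lit 14713431632)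 (nat_lit 76) (nat_lit 6877938491) (nat_lit 10) (nat_lit 4) (nat_lit 11) (nat_lit 5) (nat_lit 11) (nat_lit 4) (nat_lit 341) (nat_lit 293) (nat_lit 266))) (XT.nd (nat_lit 78) (nat_lit 76) (nat_lit 0) (XT.lf (nat_lit 0) (nat_lit 18467906758) (nat_lit 76) (nat_lit 9948971929) (nat_lit 76) (nat_lit 2030421863) (nat_lit 10) (nat_lit 4) (nat_lit 11) (nat_lit 5) (nat_lit 11) (nat_lit 4) (nat_lit 342) (nat_lit 293) (nat_lit 265)) (XT.lf (nat_lit 0) (nat_lit 2960991535) (nat_lit 152) (nat_lit 1836592233) (nat_lit 76) (nat_lit 27631307145) (nat_lit 9) (nat_lit 5) (nat_lit 11) (nat_lit 5) (nat_lit 10) (nat_lit 4) (nat_lit 343) (nat_lit 293) (nat_lit 264)))) (XT.nd (nat_lit 156) (nat_lit 76) (nat_lit 0) (XT.nd (nat_lit 78) (nat_lit 0) (nat_lit 0) (XT.lf (nat_lit 0) (nat_lit 8414274476) (nat_lit 152) (nat_lit 25191616711) (nat_lit 0) (nat_lit 945142482) (nat_lit 8) (nat_lit 5) (nat_lit 10) (nat_lit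 4) (nat_lit 8) (nat_lit 4) (nat_lit 344) (nat_lit 293) (nat_lit 263)) (XT.lf (nat_lit 0) (nat_lit 14403110068) (nat_lit 152) (nat_lit 15558988395) (nat_lit 0) (nat_lit 6872928755) (nat_lit 8) (nat_lit 5) (nat_lit 10) (nat_lit 4) (nat_lit 8) (nat_lit 4) (nat_lit 345) (nat_lit 293) (nat_lit 262))) (XT.nd (nat_lit 78) (nat_lit 76) (nat_lit 0) (XT.lf (nat_lit 0) (nat_lit 20799902008) (nat_lit 152) (nat_lit 5294357638) (nat_lit 0) (nat_lit 13213193547) (nat_lit 8) (nat_lit 5) (nat_lit 10) (nat_lit 4) (nat_lit 8) (nat_lit 4) (nat_lit 346) (nat_lit 293) (nat_lit 261)) (XT.nd (nat_lit 78) (nat_lit 0) (nat_lit 0) (XT.lf (nat_lit 0) (nat_lit 5961311969) (nat_lit 76) (nat_lit 21824614939) (nat_lit 76) (nat_lit 14185566526) (nat_lit 7) (nat_lit 4) (nat_lit 8) (nat_lit 5) (nat_lit 8) (nat_lit 4) (nat_lit 347) (nat_lit 293) (nat_lit 260)) (XT.lf (nat_lit 0) (nat_lit 18293438506) (nat_lit 76) (nat_lit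 17118143876) (nat_lit 76) (nat_lit 9430632545) (nat_lit 7) (nat_lit 4) (nat_lit 8) (nat_lit 5) (nat_lit 8) (nat_lit 4) (nat_lit 348) (nat_lit 293) (nat_lit 259))))))) (XT.nd (nat_lit 624) (nat_lit 152) (nat_lit 0) (XT.nd (nat_lit 312) (nat_lit 76) (nat_lit 0) (XT.nd (nat_lit 156) (nat_lit 76) (nat_lit 0) (XT.nd (nat_lit 78) (nat_lit 76) (nat_lit 0) (XT.lf (nat_lit 0) (nat_lit 31496309749) (nat_lit 76) (nat_lit 12091713379) (nat_lit 76) (nat_lit 4359328976) (nat_lit 7) (nat_lit 4) (nat_lit 8) (nat_lit 5) (nat_lit 8) (nat_lit 4) (nat_lit 349) (nat_lit 293) (nat_lit 258)) (XT.lf (nat_lit 0) (nat_lit 1005451077) (nat_lit 152) (nat_lit 5682595303) (nat_lit 76) (nat_lit 44615223045) (nat_lit 6) (nat_lit 5) (nat_lit 8) (nat_lit 5) (nat_lit 7) (nat_lit 4) (nat_lit 350) (nat_lit 293) (nat_lit 257))) (XT.nd (nat_lit 78) (nat_lit 0) (nat_lit 0) (XT.lf (nat_lit 0) (nat_lit 6033876447) (nat_lit 76)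 (nat_lit 622989619) (nat_lit 152) (nat_lit 48254311329) (nat_lit 5) (nat_lit 5) (nat_lit 6) (nat_lit 5) (nat_lit 7) (nat_lit 4) (nat_lit 351) (nat_lit 293) (nat_lit 256)) (XT.lf (nat_lit 0) (nat_lit 13010504316) (nat_lit 152) (nat_lit 40033404116) (nat_lit 0) (nat_lit 5743812962) (nat_lit 5) (nat_lit 5) (nat_lit 7) (nat_lit 4) (nat_lit 5) (nat_lit 4) (nat_lit 352) (nat_lit 293) (nat_lit 255)))) (XT.nd (nat_lit 156) (nat_lit 76) (nat_lit 0) (XT.nd (nat_lit 78) (nat_lit 0) (nat_lit 0) (XT.lf (nat_lit 0) (nat_lit 19840606995) (nat_lit 152) (nat_lit 30592963559) (nat_lit 0) (nat_lit 12543375782) (nat_lit 5) (nat_lit 5) (nat_lit 7) (nat_lit 4) (nat_lit 5) (nat_lit 4) (nat_lit 353) (nat_lit 293) (nat_lit 254)) (XT.lf (nat_lit 0) (nat_lit 27172665871) (nat_lit 152) (nat_lit 20485053010) (nat_lit 0) (nat_lit 19847157010) (nat_lit 5) (nat_lit 5) (nat_lit 7) (nat_lit 4) (nat_lit 5) (nat_lit 4) (nat_lit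 354) (nat_lit 293) (nat_lit 253))) (XT.nd (nat_lit 78) (nat_lit 76) (nat_lit 0) (XT.lf (nat_lit 0) (nat_lit 35050130182) (nat_lit 152) (nat_lit 9649773741) (nat_lit 0) (nat_lit 27698438314) (nat_lit 5) (nat_lit 5) (nat_lit 7) (nat_lit 4) (nat_lit 5) (nat_lit 4) (nat_lit 355) (nat_lit 293) (nat_lit 252)) (XT.lf (nat_lit 0) (nat_lit 2081193015) (nat_lit 76) (nat_lit 41488540923) (nat_lit 76) (nat_lit 34112605531) (nat_lit 4) (nat_lit 4) (nat_lit 5) (nat_lit 5) (nat_lit 5) (nat_lit 4) (nat_lit 356) (nat_lit 293) (nat_lit 251))))) (XT.nd (nat_lit 312) (nat_lit 152) (nat_lit 0) (XT.nd (nat_lit 156) (nat_lit 0) (nat_lit 0) (XT.nd (nat_lit 78) (nat_lit 0) (nat_lit 0) (XT.lf (nat_lit 0) (nat_lit 15226088662) (nat_lit 76) (nat_lit 37771607983) (nat_lit 76) (nat_lit 30373224883) (nat_lit 4) (nat_lit 4) (nat_lit 5) (nat_lit 5) (nat_lit 5) (nat_lit 4) (nat_lit 357) (nat_lit 293) (nat_lit 250)) (XT.lf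 (nat_lit 0) (nat_lit 29354668894) (nat_lit 76) (nat_lit 33790920749) (nat_lit 76) (nat_lit 26371752734) (nat_lit 4) (nat_lit 4) (nat_lit 5) (nat_lit 5) (nat_lit 5) (nat_lit 4) (nat_lit 358) (nat_lit 293) (nat_lit 249))) (XT.nd (nat_lit 78) (nat_lit 0) (nat_lit 0) (XT.lf (nat_lit 0) (nat_lit 44550658630) (nat_lit 76) (nat_lit 29522889963) (nat_lit 76) (nat_lit 22084476656) (nat_lit 4) (nat_lit 4) (nat_lit 5) (nat_lit 5) (nat_lit 5) (nat_lit 4) (nat_lit 359) (nat_lit 293) (nat_lit 248)) (XT.lf (nat_lit 0) (nat_lit 60904108180) (nat_lit 76) (nat_lit 24942223590) (nat_lit 76) (nat_lit 17485990568) (nat_lit 4) (nat_lit 4) (nat_lit 5) (nat_lit 5) (nat_lit 5) (nat_lit 4) (nat_lit 360) (nat_lit 293) (nat_lit 247)))) (XT.nd (nat_lit 156) (nat_lit 152) (nat_lit 0) (XT.nd (nat_lit 78) (nat_lit 0) (nat_lit 0) (XT.lf (nat_lit 0) (nat_lit 78511926874) (nat_lit 76) (nat_lit 20021776941) (nat_lit 76)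 (nat_lit 12549044184) (nat_lit 4) (nat_lit 4) (nat_lit 5) (nat_lit 5) (nat_lit 5) (nat_lit 4) (nat_lit 361) (nat_lit 293) (nat_lit 246)) (XT.lf (nat_lit 0) (nat_lit 97478457343) (nat_lit 76) (nat_lit 14732391813) (nat_lit 76) (nat_lit 7244381523) (nat_lit 4) (nat_lit 4) (nat_lit 5) (nat_lit 5) (nat_lit 5) (nat_lit 4) (nat_lit 362) (nat_lit 293) (nat_lit 245))) (XT.nd (nat_lit 78) (nat_lit 152) (nat_lit 0) (XT.lf (nat_lit 0) (nat_lit 117916093839) (nat_lit 76) (nat_lit 9042723703) (nat_lit 76) (nat_lit 1540567549) (nat_lit 4) (nat_lit 4) (nat_lit 5) (nat_lit 5) (nat_lit 5) (nat_lit 4) (nat_lit 363) (nat_lit 293) (nat_lit 244)) (XT.nd (nat_lit 78) (nat_lit 0) (nat_lit 0) (XT.lf (nat_lit 0) (nat_lit 1649097941) (nat_lit 76) (nat_lit 2756840576) (nat_lit 152) (nat_lit 133850851747) (nat_lit 2) (nat_lit 5) (nat_lit 3) (nat_lit 5) (nat_lit 4) (nat_lit 4) (nat_lit 364) (nat_lit 293) (nat_lit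 243)) (XT.lf (nat_lit 0) (nat_lit 11116699713) (nat_lit 152) (nat_lit 133498248295) (nat_lit 0) (nat_lit 4146901589) (nat_lit 2) (nat_lit 5) (nat_lit 4) (nat_lit 4) (nat_lit 2) (nat_lit 4) (nat_lit 365) (nat_lit 293) (nat_lit 242))))))))
noncomputable def xc75 : XT := (XT.nd (nat_lit 1326) (nat_lit 76) (nat_lit 0) (XT.nd (nat_lit 624) (nat_lit 0) (nat_lit 0) (XT.nd (nat_lit 312) (nat_lit 0) (nat_lit 0) (XT.nd (nat_lit 156) (nat_lit 0) (nat_lit 0) (XT.nd (nat_lit 78) (nat_lit 0) (nat_lit 0) (XT.lf (nat_lit 0) (nat_lit 18415479683) (nat_lit 152) (nat_lit 130252461283) (nat_lit 0) (nat_lit 11435283927) (nat_lit 2) (nat_lit 5) (nat_lit 4) (nat_lit 4) (nat_lit 2) (nat_lit 4) (nat_lit 366) (nat_lit 293) (nat_lit 241)) (XT.lf (nat_lit 0) (nat_lit 26279228374) (nat_lit 152) (nat_lit 126784794911) (nat_lit 0) (nat_lit 19289405181) (nat_lit 2) (nat_lit 5) (nat_lit 4) (nat_lit 4) (nat_lit 2) (nat_lit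 4) (nat_lit 367) (nat_lit 293) (nat_lit 240))) (XT.nd (nat_lit 78) (nat_lit 0) (nat_lit 0) (XT.lf (nat_lit 0) (nat_lit 34754545778) (nat_lit 152) (nat_lit 123074700046) (nat_lit 0) (nat_lit 27755808291) (nat_lit 2) (nat_lit 5) (nat_lit 4) (nat_lit 4) (nat_lit 2) (nat_lit 4) (nat_lit 368) (nat_lit 293) (nat_lit 239)) (XT.lf (nat_lit 0) (nat_lit 43891655999) (nat_lit 152) (nat_lit 119100190941) (nat_lit 0) (nat_lit 36884664536) (nat_lit 2) (nat_lit 5) (nat_lit 4) (nat_lit 4) (nat_lit 2) (nat_lit 4) (nat_lit 369) (nat_lit 293) (nat_lit 238)))) (XT.nd (nat_lit 156) (nat_lit 0) (nat_lit 0) (XT.nd (nat_lit 78) (nat_lit 0) (nat_lit 0) (XT.lf (nat_lit 0) (nat_lit 53744704874) (nat_lit 152) (nat_lit 114837714948) (nat_lit 0) (nat_lit 46730070841) (nat_lit 2) (nat_lit 5) (nat_lit 4) (nat_lit 4) (nat_lit 2) (nat_lit 4) (nat_lit 370) (nat_lit 293) (nat_lit 237)) (XT.lf (nat_lit 0) (nat_lit 64372080842)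 (nat_lit 152) (nat_lit 110262012951) (nat_lit 0) (nat_lit 57350370356) (nat_lit 2) (nat_lit 5) (nat_lit 4) (nat_lit 4) (nat_lit 2) (nat_lit 4) (nat_lit 371) (nat_lit 293) (nat_lit 236))) (XT.nd (nat_lit 78) (nat_lit 0) (nat_lit 0) (XT.lf (nat_lit 0) (nat_lit 75836760946) (nat_lit 152) (nat_lit 105345969679) (nat_lit 0) (nat_lit 68808498187) (nat_lit 2) (nat_lit 5) (nat_lit 4) (nat_lit 4) (nat_lit 2) (nat_lit 4) (nat_lit 372) (nat_lit 293) (nat_lit 235)) (XT.lf (nat_lit 0) (nat_lit 88206684029) (nat_lit 152) (nat_lit 100060453023) (nat_lit 0) (nat_lit 81172354352) (nat_lit 2) (nat_lit 5) (nat_lit 4) (nat_lit 4) (nat_lit 2) (nat_lit 4) (nat_lit 373) (nat_lit 293) (nat_lit 234))))) (XT.nd (nat_lit 312) (nat_lit 0) (nat_lit 0) (XT.nd (nat_lit 156) (nat_lit 0) (nat_lit 0) (XT.nd (nat_lit 78) (nat_lit 0) (nat_lit 0) (XT.lf (nat_lit 0) (nat_lit 101555153341) (nat_lit 152) (nat_lit 94374141403)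 (nat_lit 0) (nat_lit 94515206147) (nat_lit 2) (nat_lit 5) (nat_lit 4) (nat_lit 4) (nat_lit 2) (nat_lit 4) (nat_lit 374) (nat_lit 293) (nat_lit 233)) (XT.lf (nat_lit 0) (nat_lit 115961270922) (nat_lit 152) (nat_lit 88253338158) (nat_lit 0) (nat_lit 108916122322) (nat_lit 2) (nat_lit 5) (nat_lit 4) (nat_lit 4) (nat_lit 2) (nat_lit 4) (nat_lit 375) (nat_lit 293) (nat_lit 232))) (XT.nd (nat_lit 78) (nat_lit 0) (nat_lit 0) (XT.lf (nat_lit 0) (nat_lit 131510406356) (nat_lit 152) (nat_lit 81661771862) (nat_lit 0) (nat_lit 124460441642) (nat_lit 2) (nat_lit 5) (nat_lit 4) (nat_lit 4) (nat_lit 2) (nat_lit 4) (nat_lit 376) (nat_lit 293) (nat_lit 231)) (XT.lf (nat_lit 0) (nat_lit 148294702670) (nat_lit 152) (nat_lit 74560381379) (nat_lit 0) (nat_lit 141240278589) (nat_lit 2) (nat_lit 5) (nat_lit 4) (nat_lit 4) (nat_lit 2) (nat_lit 4) (nat_lit 377) (nat_lit 293) (nat_lit 230)))) (XT.nd (nat_lit 156)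 (nat_lit 0) (nat_lit 0) (XT.nd (nat_lit 78) (nat_lit 0) (nat_lit 0) (XT.lf (nat_lit 0) (nat_lit 166413622360) (nat_lit 152) (nat_lit 66907084398) (nat_lit 0) (nat_lit 159355069236) (nat_lit 2) (nat_lit 5) (nat_lit 4) (nat_lit 4) (nat_lit 2) (nat_lit 4) (nat_lit 378) (nat_lit 293) (nat_lit 229)) (XT.lf (nat_lit 0) (nat_lit 185974536801) (nat_lit 152) (nat_lit 58656528045) (nat_lit 0) (nat_lit 178912160490) (nat_lit 2) (nat_lit 5) (nat_lit 4) (nat_lit 4) (nat_lit 2) (nat_lit 4) (nat_lit 379) (nat_lit 293) (nat_lit 228))) (XT.nd (nat_lit 78) (nat_lit 0) (nat_lit 0) (XT.lf (nat_lit 0) (nat_lit 207093362525) (nat_lit 152) (nat_lit 49759820137) (nat_lit 0) (nat_lit 200027446224) (nat_lit 2) (nat_lit 5) (nat_lit 4) (nat_lit 4) (nat_lit 2) (nat_lit 4) (nat_lit 380) (nat_lit 293) (nat_lit 227)) (XT.nd (nat_lit 78) (nat_lit 0) (nat_lit 0) (XT.lf (nat_lit 0) (nat_lit 229895248126) (nat_lit 152) (nat_lit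 40164239440) (nat_lit 0) (nat_lit 222826054059) (nat_lit 2) (nat_lit 5) (nat_lit 4) (nat_lit 4) (nat_lit 2) (nat_lit 4) (nat_lit 381) (nat_lit 293) (nat_lit 226)) (XT.lf (nat_lit 0) (nat_lit 254515315892) (nat_lit 152) (nat_lit 29812923255) (nat_lit 0) (nat_lit 247443086854) (nat_lit 2) (nat_lit 5) (nat_lit 4) (nat_lit 4) (nat_lit 2) (nat_lit 4) (nat_lit 382) (nat_lit 293) (nat_lit 225))))))) (XT.nd (nat_lit 702) (nat_lit 0) (nat_lit 0) (XT.nd (nat_lit 312) (nat_lit 0) (nat_lit 0) (XT.nd (nat_lit 156) (nat_lit 76) (nat_lit 0) (XT.nd (nat_lit 78) (nat_lit 0) (nat_lit 0) (XT.lf (nat_lit 0) (nat_lit 281099462519) (nat_lit 152) (nat_lit 18644530448) (nat_lit 0) (nat_lit 274024423324) (nat_lit 2) (nat_lit 5) (nat_lit 4) (nat_lit 4) (nat_lit 2) (nat_lit 4) (nat_lit 383) (nat_lit 293) (nat_lit 224)) (XT.lf (nat_lit 0) (nat_lit 309805223691) (nat_lit 152) (nat_lit 6592877950) (nat_lit 0) (nat_lit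 302727582499) (nat_lit 2) (nat_lit 5) (nat_lit 4) (nat_lit 4) (nat_lit 2) (nat_lit 4) (nat_lit 384) (nat_lit 293) (nat_lit 223))) (XT.nd (nat_lit 78) (nat_lit 0) (nat_lit 0) (XT.lf (nat_lit 0) (nat_lit 6751172423) (nat_lit 76) (nat_lit 334213901058) (nat_lit 76) (nat_lit 327133850610) (nat_lit 1) (nat_lit 4) (nat_lit 2) (nat_lit 5) (nat_lit 2) (nat_lit 4) (nat_lit 385) (nat_lit 293) (nat_lit 222)) (XT.lf (nat_lit 0) (nat_lit 21528473704) (nat_lit 76) (nat_lit 353264889714) (nat_lit 76) (nat_lit 346182608472) (nat_lit 1) (nat_lit 4) (nat_lit 2) (nat_lit 5) (nat_lit 2) (nat_lit 4) (nat_lit 386) (nat_lit 293) (nat_lit 221)))) (XT.nd (nat_lit 156) (nat_lit 0) (nat_lit 0) (XT.nd (nat_lit 78) (nat_lit 0) (nat_lit 0) (XT.lf (nat_lit 0) (nat_lit 37479425814) (nat_lit 76) (nat_lit 373844223323) (nat_lit 76) (nat_lit 366759876532) (nat_lit 1) (nat_lit 4) (nat_lit 2) (nat_lit 5) (nat_lit 2) (nat_lit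 4) (nat_lit 387) (nat_lit 293) (nat_lit 220)) (XT.lf (nat_lit 0) (nat_lit 54698552914) (nat_lit 76) (nat_lit 396073853493) (nat_lit 76) (nat_lit 388987594155) (nat_lit 1) (nat_lit 4) (nat_lit 2) (nat_lit 5) (nat_lit 2) (nat_lit 4) (nat_lit 388) (nat_lit 293) (nat_lit 219))) (XT.nd (nat_lit 78) (nat_lit 0) (nat_lit 0) (XT.lf (nat_lit 0) (nat_lit 73287894277) (nat_lit 76) (nat_lit 420085511364) (nat_lit 76) (nat_lit 412997481151) (nat_lit 1) (nat_lit 4) (nat_lit 2) (nat_lit 5) (nat_lit 2) (nat_lit 4) (nat_lit 389) (nat_lit 293) (nat_lit 218)) (XT.nd (nat_lit 78) (nat_lit 0) (nat_lit 0) (XT.lf (nat_lit 0) (nat_lit 93357608961) (nat_lit 76) (nat_lit 446021488243) (nat_lit 76) (nat_lit 438931818330) (nat_lit 1) (nat_lit 4) (nat_lit 2) (nat_lit 5) (nat_lit 2) (nat_lit 4) (nat_lit 390) (nat_lit 293) (nat_lit 217)) (XT.lf (nat_lit 0) (nat_lit 115026628609) (nat_lit 76) (nat_lit 474035478807) (nat_lit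 76) (nat_lit 466944290654) (nat_lit 1) (nat_lit 4) (nat_lit 2) (nat_lit 5) (nat_lit 2) (nat_lit 4) (nat_lit 391) (nat_lit 293) (nat_lit 216)))))) (XT.nd (nat_lit 312) (nat_lit 0) (nat_lit 0) (XT.nd (nat_lit 156) (nat_lit 0) (nat_lit 0) (XT.nd (nat_lit 78) (nat_lit 0) (nat_lit 0) (XT.lf (nat_lit 0) (nat_lit 138423362228) (nat_lit 76) (nat_lit 504293491890) (nat_lit 76) (nat_lit 497200897959) (nat_lit 1) (nat_lit 4) (nat_lit 2) (nat_lit 5) (nat_lit 2) (nat_lit 4) (nat_lit 392) (nat_lit 293) (nat_lit 215)) (XT.lf (nat_lit 0) (nat_lit 163686457126) (nat_lit 76) (nat_lit 536974834236) (nat_lit 76) (nat_lit 529880938659) (nat_lit 1) (nat_lit 4) (nat_lit 2) (nat_lit 5) (nat_lit 2) (nat_lit 4) (nat_lit 393) (nat_lit 293) (nat_lit 214))) (XT.nd (nat_lit 78) (nat_lit 0) (nat_lit 0) (XT.lf (nat_lit 0) (nat_lit 190965620534) (nat_lit 76) (nat_lit 572273173059) (nat_lit 76) (nat_lit 565178072253) (nat_lit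 1) (nat_lit 4) (nat_lit 2) (nat_lit 5) (nat_lit 2) (nat_lit 4) (nat_lit 394) (nat_lit 293) (nat_lit 213)) (XT.lf (nat_lit 0) (nat_lit 220422506752) (nat_lit 76) (nat_lit 610397683699) (nat_lit 76) (nat_lit 603301466941) (nat_lit 1) (nat_lit 4) (nat_lit 2) (nat_lit 5) (nat_lit 2) (nat_lit 4) (nat_lit 395) (nat_lit 293) (nat_lit 212)))) (XT.nd (nat_lit 156) (nat_lit 0) (nat_lit 0) (XT.nd (nat_lit 78) (nat_lit 0) (nat_lit 0) (XT.lf (nat_lit 0) (nat_lit 252231675107) (nat_lit 76) (nat_lit 651574289183) (nat_lit 76) (nat_lit 644477039136) (nat_lit 1) (nat_lit 4) (nat_lit 2) (nat_lit 5) (nat_lit 2) (nat_lit 4) (nat_lit 396) (nat_lit 293) (nat_lit 211)) (XT.lf (nat_lit 0) (nat_lit 286581624373) (nat_lit 76) (nat_lit 696046999025) (nat_lit 76) (nat_lit 688948792229) (nat_lit 1) (nat_lit 4) (nat_lit 2) (nat_lit 5) (nat_lit 2) (nat_lit 4) (nat_lit 397) (nat_lit 293) (nat_lit 210))) (XT.nd (nat_lit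 78) (nat_lit 0) (nat_lit 0) (XT.lf (nat_lit 0) (nat_lit 323675909807) (nat_lit 76) (nat_lit 744079355209) (nat_lit 76) (nat_lit 736980262535) (nat_lit 1) (nat_lit 4) (nat_lit 2) (nat_lit 5) (nat_lit 2) (nat_lit 4) (nat_lit 398) (nat_lit 293) (nat_lit 209)) (XT.nd (nat_lit 78) (nat_lit 0) (nat_lit 0) (XT.lf (nat_lit 0) (nat_lit 363734349395) (nat_lit 76) (nat_lit 795955993920) (nat_lit 76) (nat_lit 788856080987) (nat_lit 1) (nat_lit 4) (nat_lit 2) (nat_lit 5) (nat_lit 2) (nat_lit 4) (nat_lit 399) (nat_lit 293) (nat_lit 208)) (XT.lf (nat_lit 0) (nat_lit 406994326484) (nat_lit 76) (nat_lit 851984332276) (nat_lit 76) (nat_lit 844883659845) (nat_lit 1) (nat_lit 4) (nat_lit 2) (nat_lit 5) (nat_lit 2) (nat_lit 4) (nat_lit 400) (nat_lit 293) (nat_lit 207))))))))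
noncomputable def xc76 : XT := (XT.nd (nat_lit 40248) (nat_lit 0) (nat_lit 1216) (XT.nd (nat_lit 624) (nat_lit 0) (nat_lit 0) (XT.nd (nat_lit 312) (nat_lit 0) (nat_lit 0) (XT.nd (nat_lit 156) (nat_lit 0) (nat_lit 0) (XT.nd (nat_lit 78) (nat_lit 0) (nat_lit 0) (XT.lf (nat_lit 0) (nat_lit 453712196493) (nat_lit 76) (nat_lit 912496390060) (nat_lit 76) (nat_lit 905395014390) (nat_lit 1) (nat_lit 4) (nat_lit 2) (nat_lit 5) (nat_lit 2) (nat_lit 4) (nat_lit 401) (nat_lit 293) (nat_lit 206)) (XT.lf (nat_lit 0) (nat_lit 504164806059) (nat_lit 76) (nat_lit 977850757245) (nat_lit 76) (nat_lit 970748730427) (nat_lit 1) (nat_lit 4) (nat_lit 2) (nat_lit 5) (nat_lit 2) (nat_lit 4) (nat_lit 402) (nat_lit 293) (nat_lit 205))) (XT.nd (nat_lit 78) (nat_lit 0) (nat_lit 0) (XT.lf (nat_lit 0) (nat_lit 558651133609) (nat_lit 76) (nat_lit 1048434718968) (nat_lit 76) (nat_lit 1041332089236) (nat_lit 1) (nat_lit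 4) (nat_lit 2) (nat_lit 5) (nat_lit 2) (nat_lit 4) (nat_lit 403) (nat_lit 293) (nat_lit 204)) (XT.lf (nat_lit 0) (nat_lit 617494061084) (nat_lit 76) (nat_lit 1124666550558) (nat_lit 76) (nat_lit 1117563362573) (nat_lit 1) (nat_lit 4) (nat_lit 2) (nat_lit 5) (nat_lit 2) (nat_lit 4) (nat_lit 404) (nat_lit 293) (nat_lit 203)))) (XT.nd (nat_lit 156) (nat_lit 0) (nat_lit 0) (XT.nd (nat_lit 78) (nat_lit 0) (nat_lit 0) (XT.lf (nat_lit 0) (nat_lit 681042287314) (nat_lit 76) (nat_lit 1206997996204) (nat_lit 76) (nat_lit 1199894291316) (nat_lit 1) (nat_lit 4) (nat_lit 2) (nat_lit 5) (nat_lit 2) (nat_lit 4) (nat_lit 405) (nat_lit 293) (nat_lit 202)) (XT.lf (nat_lit 0) (nat_lit 749672394381) (nat_lit 76) (nat_lit 1295916945952) (nat_lit 76) (nat_lit 1288812762452) (nat_lit 1) (nat_lit 4) (nat_lit 2) (nat_lit 5) (nat_lit 2) (nat_lit 4) (nat_lit 406) (nat_lit 293) (nat_lit 201))) (XT.nd (nat_lit 78)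 (nat_lit 0) (nat_lit 0) (XT.lf (nat_lit 0) (nat_lit 823791079214) (nat_lit 76) (nat_lit 1391950326914) (nat_lit 76) (nat_lit 1384845700254) (nat_lit 1) (nat_lit 4) (nat_lit 2) (nat_lit 5) (nat_lit 2) (nat_lit 4) (nat_lit 407) (nat_lit 293) (nat_lit 200)) (XT.lf (nat_lit 0) (nat_lit 903837563650) (nat_lit 76) (nat_lit 1495667225790) (nat_lit 76) (nat_lit 1488562188797) (nat_lit 1) (nat_lit 4) (nat_lit 2) (nat_lit 5) (nat_lit 2) (nat_lit 4) (nat_lit 408) (nat_lit 293) (nat_lit 199))))) (XT.nd (nat_lit 312) (nat_lit 0) (nat_lit 0) (XT.nd (nat_lit 156) (nat_lit 0) (nat_lit 0) (XT.nd (nat_lit 78) (nat_lit 0) (nat_lit 0) (XT.lf (nat_lit 0) (nat_lit 990286197227) (nat_lit 76) (nat_lit 1607682261241) (nat_lit 76) (nat_lit 1600576844309) (nat_lit 1) (nat_lit 4) (nat_lit 2) (nat_lit 5) (nat_lit 2) (nat_lit 4) (nat_lit 409) (nat_lit 293) (nat_lit 198)) (XT.lf (nat_lit 0) (nat_lit 1083649268143) (nat_lit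 76) (nat_lit 1728659226069) (nat_lit 76) (nat_lit 1721553457343) (nat_lit 1) (nat_lit 4) (nat_lit 2) (nat_lit 5) (nat_lit 2) (nat_lit 4) (nat_lit 410) (nat_lit 293) (nat_lit 197))) (XT.nd (nat_lit 78) (nat_lit 0) (nat_lit 0) (XT.lf (nat_lit 0) (nat_lit 1184480039041) (nat_lit 76) (nat_lit 1859315020807) (nat_lit 76) (nat_lit 1852208926345) (nat_lit 1) (nat_lit 4) (nat_lit 2) (nat_lit 5) (nat_lit 2) (nat_lit 4) (nat_lit 411) (nat_lit 293) (nat_lit 196)) (XT.lf (nat_lit 0) (nat_lit 1293376025600) (nat_lit 76) (nat_lit 2000423902016) (nat_lit 76) (nat_lit 1993317505947) (nat_lit 1) (nat_lit 4) (nat_lit 2) (nat_lit 5) (nat_lit 2) (nat_lit 4) (nat_lit 412) (nat_lit 293) (nat_lit 195)))) (XT.nd (nat_lit 39078) (nat_lit 0) (nat_lit 3040) (XT.nd (nat_lit 39000) (nat_lit 0) (nat_lit 3648) (XT.lf (nat_lit 0) (nat_lit 1410982537370) (nat_lit 76) (nat_lit 2152822070474) (nat_lit 76) (nat_lit 2145715395139)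 (nat_lit 1) (nat_lit 4) (nat_lit 2) (nat_lit 5) (nat_lit 2) (nat_lit 4) (nat_lit 413) (nat_lit 293) (nat_lit 194)) (XT.lf (nat_lit 0) (nat_lit 1969739647) (nat_lit 304) (nat_lit 897031402) (nat_lit 304) (nat_lit 897031402) (nat_lit 49) (nat_lit 4) (nat_lit 53) (nat_lit 5) (nat_lit 53) (nat_lit 4) (nat_lit 312) (nat_lit 294) (nat_lit 294))) (XT.nd (nat_lit 78) (nat_lit 304) (nat_lit 0) (XT.lf (nat_lit 0) (nat_lit 1703041127) (nat_lit 304) (nat_lit 5646327149) (nat_lit 0) (nat_lit 376773871) (nat_lit 45) (nat_lit 5) (nat_lit 49) (nat_lit 4) (nat_lit 45) (nat_lit 4) (nat_lit 313) (nat_lit 294) (nat_lit 293)) (XT.nd (nat_lit 78) (nat_lit 76) (nat_lit 0) (XT.lf (nat_lit 0) (nat_lit 64310642) (nat_lit 228) (nat_lit 5217675256) (nat_lit 228) (nat_lit 2663382764) (nat_lit 42) (nat_lit 4) (nat_lit 45) (nat_lit 5) (nat_lit 45) (nat_lit 4) (nat_lit 314) (nat_lit 294) (nat_lit 292)) (XT.lf (nat_lit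 0) (nat_lit 829927582) (nat_lit 304) (nat_lit 1965103523) (nat_lit 76) (nat_lit 5392587150) (nat_lit 41) (nat_lit 5) (nat_lit 45) (nat_lit 5) (nat_lit 42) (nat_lit 4) (nat_lit 315) (nat_lit 294) (nat_lit 291))))))) (XT.nd (nat_lit 624) (nat_lit 608) (nat_lit 0) (XT.nd (nat_lit 312) (nat_lit 608) (nat_lit 0) (XT.nd (nat_lit 156) (nat_lit 228) (nat_lit 0) (XT.nd (nat_lit 78) (nat_lit 228) (nat_lit 0) (XT.lf (nat_lit 0) (nat_lit 4271388409) (nat_lit 152) (nat_lit 63022654) (nat_lit 228) (nat_lit 4119614915) (nat_lit 39) (nat_lit 5) (nat_lit 41) (nat_lit 5) (nat_lit 42) (nat_lit 4) (nat_lit 316) (nat_lit 294) (nat_lit 290)) (XT.lf (nat_lit 0) (nat_lit 2110145088) (nat_lit 228) (nat_lit 5965415499) (nat_lit 228) (nat_lit 670014917) (nat_lit 36) (nat_lit 4) (nat_lit 39) (nat_lit 5) (nat_lit 39) (nat_lit 4) (nat_lit 317) (nat_lit 294) (nat_lit 289))) (XT.nd (nat_lit 78) (nat_lit 152) (nat_lit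 0) (XT.lf (nat_lit 0) (nat_lit 2805968465) (nat_lit 304) (nat_lit 294759516) (nat_lit 76) (nat_lit 5961866957) (nat_lit 35) (nat_lit 5) (nat_lit 39) (nat_lit 5) (nat_lit 36) (nat_lit 4) (nat_lit 318) (nat_lit 294) (nat_lit 288)) (XT.lf (nat_lit 0) (nat_lit 6484619361) (nat_lit 228) (nat_lit 2831300785) (nat_lit 0) (nat_lit 91065538) (nat_lit 33) (nat_lit 5) (nat_lit 36) (nat_lit 4) (nat_lit 33) (nat_lit 4) (nat_lit 319) (nat_lit 294) (nat_lit 287)))) (XT.nd (nat_lit 156) (nat_lit 228) (nat_lit 0) (XT.nd (nat_lit 78) (nat_lit 152) (nat_lit 0) (XT.lf (nat_lit 0) (nat_lit 637051472) (nat_lit 228) (nat_lit 5731950584) (nat_lit 76) (nat_lit 3409457910) (nat_lit 30) (nat_lit 5) (nat_lit 33) (nat_lit 5) (nat_lit 31) (nat_lit 4) (nat_lit 320) (nat_lit 294) (nat_lit 286)) (XT.lf (nat_lit 0) (nat_lit 1145768444) (nat_lit 152) (nat_lit 3093224078) (nat_lit 228) (nat_lit 5941545272) (nat_lit 28) (nat_lit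 5) (nat_lit 30) (nat_lit 5) (nat_lit 31) (nat_lit 4) (nat_lit 321) (nat_lit 294) (nat_lit 285))) (XT.nd (nat_lit 78) (nat_lit 228) (nat_lit 0) (XT.lf (nat_lit 0) (nat_lit 8113983324) (nat_lit 228) (nat_lit 2017986265) (nat_lit 0) (nat_lit 484215457) (nat_lit 28) (nat_lit 5) (nat_lit 31) (nat_lit 4) (nat_lit 28) (nat_lit 4) (nat_lit 322) (nat_lit 294) (nat_lit 284)) (XT.lf (nat_lit 0) (nat_lit 1191749175) (nat_lit 228) (nat_lit 5638595298) (nat_lit 76) (nat_lit 4250965848) (nat_lit 25) (nat_lit 5) (nat_lit 28) (nat_lit 5) (nat_lit 26) (nat_lit 4) (nat_lit 323) (nat_lit 294) (nat_lit 283))))) (XT.nd (nat_lit 312) (nat_lit 228) (nat_lit 0) (XT.nd (nat_lit 156) (nat_lit 304) (nat_lit 0) (XT.nd (nat_lit 78) (nat_lit 0) (nat_lit 0) (XT.lf (nat_lit 0) (nat_lit 1777810067) (nat_lit 76) (nat_lit 3196606270) (nat_lit 152) (nat_lit 6609913778) (nat_lit 24) (nat_lit 5) (nat_lit 25) (nat_lit 5) (nat_lit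 26) (nat_lit 4) (nat_lit 324) (nat_lit 294) (nat_lit 282)) (XT.lf (nat_lit 0) (nat_lit 9067874285) (nat_lit 152) (nat_lit 2312693608) (nat_lit 0) (nat_lit 746512557) (nat_lit 24) (nat_lit 5) (nat_lit 26) (nat_lit 4) (nat_lit 24) (nat_lit 4) (nat_lit 325) (nat_lit 294) (nat_lit 281))) (XT.nd (nat_lit 78) (nat_lit 76) (nat_lit 0) (XT.lf (nat_lit 0) (nat_lit 803856064) (nat_lit 228) (nat_lit 7007789973) (nat_lit 76) (nat_lit 4894867761) (nat_lit 21) (nat_lit 5) (nat_lit 24) (nat_lit 5) (nat_lit 22) (nat_lit 4) (nat_lit 326) (nat_lit 294) (nat_lit 280)) (XT.lf (nat_lit 0) (nat_lit 852235023) (nat_lit 76) (nat_lit 3890045123) (nat_lit 152) (nat_lit 8589251038) (nat_lit 20) (nat_lit 5) (nat_lit 21) (nat_lit 5) (nat_lit 22) (nat_lit 4) (nat_lit 327) (nat_lit 294) (nat_lit 279)))) (XT.nd (nat_lit 156) (nat_lit 152) (nat_lit 0) (XT.nd (nat_lit 78) (nat_lit 76) (nat_lit 0) (XT.lf (nat_lit 0) (nat_lit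 9049444099) (nat_lit 152) (nat_lit 4532195747) (nat_lit 0) (nat_lit 420722057) (nat_lit 20) (nat_lit 5) (nat_lit 22) (nat_lit 4) (nat_lit 20) (nat_lit 4) (nat_lit 328) (nat_lit 294) (nat_lit 278)) (XT.lf (nat_lit 0) (nat_lit 3897085555) (nat_lit 76) (nat_lit 9858841949) (nat_lit 76) (nat_lit 966649295) (nat_lit 19) (nat_lit 4) (nat_lit 20) (nat_lit 5) (nat_lit 20) (nat_lit 4) (nat_lit 329) (nat_lit 294) (nat_lit 277))) (XT.nd (nat_lit 78) (nat_lit 76) (nat_lit 0) (XT.lf (nat_lit 0) (nat_lit 3159598841) (nat_lit 152) (nat_lit 2564181335) (nat_lit 76) (nat_lit 9771242159) (nat_lit 18) (nat_lit 5) (nat_lit 20) (nat_lit 5) (nat_lit 19) (nat_lit 4) (nat_lit 330) (nat_lit 294) (nat_lit 276)) (XT.nd (nat_lit 78) (nat_lit 0) (nat_lit 0) (XT.lf (nat_lit 0) (nat_lit 6424065690) (nat_lit 76) (nat_lit 1165403636) (nat_lit 152) (nat_lit 8735803172) (nat_lit 17) (nat_lit 5) (nat_lit 18) (nat_lit 5)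 (nat_lit 19) (nat_lit 4) (nat_lit 331) (nat_lit 294) (nat_lit 275)) (XT.lf (nat_lit 0) (nat_lit 12409019850) (nat_lit 152) (nat_lit 1263356889) (nat_lit 0) (nat_lit 3546814315) (nat_lit 17) (nat_lit 5) (nat_lit 19) (nat_lit 4) (nat_lit 17) (nat_lit 4) (nat_lit 332) (nat_lit 294) (nat_lit 274))))))))
noncomputable def xc77 : XT := (XT.nd (nat_lit 1326) (nat_lit 380) (nat_lit 0) (XT.nd (nat_lit 624) (nat_lit 304) (nat_lit 0) (XT.nd (nat_lit 312) (nat_lit 228) (nat_lit 0) (XT.nd (nat_lit 156) (nat_lit 76) (nat_lit 0) (XT.nd (nat_lit 78) (nat_lit 76) (nat_lit 0) (XT.lf (nat_lit 0) (nat_lit 8232216777) (nat_lit 76) (nat_lit 9492569827) (nat_lit 76) (nat_lit 451050620) (nat_lit 16) (nat_lit 4) (nat_lit 17) (nat_lit 5) (nat_lit 17) (nat_lit 4) (nat_lit 333) (nat_lit 294) (nat_lit 273)) (XT.lf (nat_lit 0) (nat_lit 3962351512) (nat_lit 152) (nat_lit 965859239) (nat_lit 76) (nat_lit 14279191553)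 (nat_lit 15) (nat_lit 5) (nat_lit 17) (nat_lit 5) (nat_lit 16) (nat_lit 4) (nat_lit 334) (nat_lit 294) (nat_lit 272))) (XT.nd (nat_lit 78) (nat_lit 0) (nat_lit 0) (XT.lf (nat_lit 0) (nat_lit 8815579305) (nat_lit 152) (nat_lit 11348414204) (nat_lit 0) (nat_lit 147724715) (nat_lit 14) (nat_lit 5) (nat_lit 16) (nat_lit 4) (nat_lit 14) (nat_lit 4) (nat_lit 335) (nat_lit 294) (nat_lit 271)) (XT.lf (nat_lit 0) (nat_lit 14105067164) (nat_lit 152) (nat_lit 2090109170) (nat_lit 0) (nat_lit 5305411672) (nat_lit 14) (nat_lit 5) (nat_lit 16) (nat_lit 4) (nat_lit 14) (nat_lit 4) (nat_lit 336) (nat_lit 294) (nat_lit 270)))) (XT.nd (nat_lit 156) (nat_lit 76) (nat_lit 0) (XT.nd (nat_lit 78) (nat_lit 76) (nat_lit 0) (XT.lf (nat_lit 0) (nat_lit 8129531793) (nat_lit 76) (nat_lit 11784533005) (nat_lit 76) (nat_lit 2862839640) (nat_lit 13) (nat_lit 4) (nat_lit 14) (nat_lit 5) (nat_lit 14) (nat_lit 4) (nat_lit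 337) (nat_lit 294) (nat_lit 269)) (XT.lf (nat_lit 0) (nat_lit 1890698925) (nat_lit 152) (nat_lit 5102037629) (nat_lit 76) (nat_lit 17161924706) (nat_lit 12) (nat_lit 5) (nat_lit 14) (nat_lit 5) (nat_lit 13) (nat_lit 4) (nat_lit 338) (nat_lit 294) (nat_lit 268))) (XT.nd (nat_lit 78) (nat_lit 0) (nat_lit 0) (XT.lf (nat_lit 0) (nat_lit 5221030065) (nat_lit 76) (nat_lit 1682984004) (nat_lit 152) (nat_lit 18729978729) (nat_lit 11) (nat_lit 5) (nat_lit 12) (nat_lit 5) (nat_lit 13) (nat_lit 4) (nat_lit 339) (nat_lit 294) (nat_lit 267)) (XT.lf (nat_lit 0) (nat_lit 12468358068) (nat_lit 152) (nat_lit 10835024872) (nat_lit 0) (nat_lit 3916323997) (nat_lit 11) (nat_lit 5) (nat_lit 13) (nat_lit 4) (nat_lit 11) (nat_lit 4) (nat_lit 340) (nat_lit 294) (nat_lit 266))))) (XT.nd (nat_lit 312) (nat_lit 76) (nat_lit 0) (XT.nd (nat_lit 156) (nat_lit 152) (nat_lit 0) (XT.nd (nat_lit 78) (nat_lit 76) (nat_lit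 0) (XT.lf (nat_lit 0) (nat_lit 18437676146) (nat_lit 152) (nat_lit 695261500) (nat_lit 0) (nat_lit 9802585149) (nat_lit 11) (nat_lit 5) (nat_lit 13) (nat_lit 4) (nat_lit 11) (nat_lit 4) (nat_lit 341) (nat_lit 294) (nat_lit 265)) (XT.lf (nat_lit 0) (nat_lit 10639101625) (nat_lit 76) (nat_lit 14423635258) (nat_lit 76) (nat_lit 5711639700) (nat_lit 10) (nat_lit 4) (nat_lit 11) (nat_lit 5) (nat_lit 11) (nat_lit 4) (nat_lit 342) (nat_lit 294) (nat_lit 264))) (XT.nd (nat_lit 78) (nat_lit 152) (nat_lit 0) (XT.lf (nat_lit 0) (nat_lit 22774728565) (nat_lit 76) (nat_lit 9386675883) (nat_lit 76) (nat_lit 603472399) (nat_lit 10) (nat_lit 4) (nat_lit 11) (nat_lit 5) (nat_lit 11) (nat_lit 4) (nat_lit 343) (nat_lit 294) (nat_lit 263)) (XT.lf (nat_lit 0) (nat_lit 747749073) (nat_lit 76) (nat_lit 3866138341) (nat_lit 152) (nat_lit 30295593025) (nat_lit 8) (nat_lit 5) (nat_lit 9) (nat_lit 5) (nat_lit 10)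 (nat_lit 4) (nat_lit 344) (nat_lit 294) (nat_lit 262)))) (XT.nd (nat_lit 156) (nat_lit 76) (nat_lit 0) (XT.nd (nat_lit 78) (nat_lit 0) (nat_lit 0) (XT.lf (nat_lit 0) (nat_lit 10475535315) (nat_lit 152) (nat_lit 24502760707) (nat_lit 0) (nat_lit 2225363030) (nat_lit 8) (nat_lit 5) (nat_lit 10) (nat_lit 4) (nat_lit 8) (nat_lit 4) (nat_lit 345) (nat_lit 294) (nat_lit 261)) (XT.lf (nat_lit 0) (nat_lit 16840654134) (nat_lit 152) (nat_lit 14299832151) (nat_lit 0) (nat_lit 8538141897) (nat_lit 8) (nat_lit 5) (nat_lit 10) (nat_lit 4) (nat_lit 8) (nat_lit 4) (nat_lit 346) (nat_lit 294) (nat_lit 260))) (XT.nd (nat_lit 78) (nat_lit 76) (nat_lit 0) (XT.lf (nat_lit 0) (nat_lit 23653982373) (nat_lit 152) (nat_lit 3399503179) (nat_lit 0) (nat_lit 15303007218) (nat_lit 8) (nat_lit 5) (nat_lit 10) (nat_lit 4) (nat_lit 8) (nat_lit 4) (nat_lit 347) (nat_lit 294) (nat_lit 259)) (XT.nd (nat_lit 78) (nat_lit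 0) (nat_lit 0) (XT.lf (nat_lit 0) (nat_lit 8697926247) (nat_lit 76) (nat_lit 22467154399) (nat_lit 76) (nat_lit 14071306171) (nat_lit 7) (nat_lit 4) (nat_lit 8) (nat_lit 5) (nat_lit 8) (nat_lit 4) (nat_lit 348) (nat_lit 294) (nat_lit 258)) (XT.lf (nat_lit 0) (nat_lit 21849237032) (nat_lit 76) (nat_lit 17465901187) (nat_lit 76) (nat_lit 9028503818) (nat_lit 7) (nat_lit 4) (nat_lit 8) (nat_lit 5) (nat_lit 8) (nat_lit 4) (nat_lit 349) (nat_lit 294) (nat_lit 257))))))) (XT.nd (nat_lit 702) (nat_lit 152) (nat_lit 0) (XT.nd (nat_lit 312) (nat_lit 76) (nat_lit 0) (XT.nd (nat_lit 156) (nat_lit 76) (nat_lit 0) (XT.nd (nat_lit 78) (nat_lit 76) (nat_lit 0) (XT.lf (nat_lit 0) (nat_lit 35953351053) (nat_lit 76) (nat_lit 12113037302) (nat_lit 76) (nat_lit 3637168506) (nat_lit 7) (nat_lit 4) (nat_lit 8) (nat_lit 5) (nat_lit 8) (nat_lit 4) (nat_lit 350) (nat_lit 294) (nat_lit 256)) (XT.lf (nat_lit 0)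 (nat_lit 2027864657) (nat_lit 152) (nat_lit 4293532000) (nat_lit 76) (nat_lit 49010538176) (nat_lit 6) (nat_lit 5) (nat_lit 8) (nat_lit 5) (nat_lit 7) (nat_lit 4) (nat_lit 351) (nat_lit 294) (nat_lit 255))) (XT.nd (nat_lit 78) (nat_lit 0) (nat_lit 0) (XT.lf (nat_lit 0) (nat_lit 8109854913) (nat_lit 152) (nat_lit 50922055844) (nat_lit 0) (nat_lit 198305343) (nat_lit 5) (nat_lit 5) (nat_lit 7) (nat_lit 4) (nat_lit 5) (nat_lit 4) (nat_lit 352) (nat_lit 294) (nat_lit 254)) (XT.lf (nat_lit 0) (nat_lit 14918586430) (nat_lit 152) (nat_lit 41523810120) (nat_lit 0) (nat_lit 6978759213) (nat_lit 5) (nat_lit 5) (nat_lit 7) (nat_lit 4) (nat_lit 5) (nat_lit 4) (nat_lit 353) (nat_lit 294) (nat_lit 253)))) (XT.nd (nat_lit 156) (nat_lit 76) (nat_lit 0) (XT.nd (nat_lit 78) (nat_lit 0) (nat_lit 0) (XT.lf (nat_lit 0) (nat_lit 22230857193) (nat_lit 152) (nat_lit 31454968861) (nat_lit 0) (nat_lit 14264846969)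 (nat_lit 5) (nat_lit 5) (nat_lit 7) (nat_lit 4) (nat_lit 5) (nat_lit 4) (nat_lit 354) (nat_lit 294) (nat_lit 252)) (XT.lf (nat_lit 0) (nat_lit 30089999176) (nat_lit 152) (nat_lit 20655864860) (nat_lit 0) (nat_lit 22099745427) (nat_lit 5) (nat_lit 5) (nat_lit 7) (nat_lit 4) (nat_lit 5) (nat_lit 4) (nat_lit 355) (nat_lit 294) (nat_lit 251))) (XT.nd (nat_lit 78) (nat_lit 76) (nat_lit 0) (XT.lf (nat_lit 0) (nat_lit 38542585073) (nat_lit 152) (nat_lit 9062503426) (nat_lit 0) (nat_lit 30529883616) (nat_lit 5) (nat_lit 5) (nat_lit 7) (nat_lit 4) (nat_lit 5) (nat_lit 4) (nat_lit 356) (nat_lit 294) (nat_lit 250)) (XT.nd (nat_lit 78) (nat_lit 0) (nat_lit 0) (XT.lf (nat_lit 0) (nat_lit 3572529222) (nat_lit 76) (nat_lit 44152094473) (nat_lit 76) (nat_lit 36118608101) (nat_lit 4) (nat_lit 4) (nat_lit 5) (nat_lit 5) (nat_lit 5) (nat_lit 4) (nat_lit 357) (nat_lit 294) (nat_lit 249)) (XT.lf (nat_lit 0)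 (nat_lit 17670880168) (nat_lit 76) (nat_lit 40186364655) (nat_lit 76) (nat_lit 32133632992) (nat_lit 4) (nat_lit 4) (nat_lit 5) (nat_lit 5) (nat_lit 5) (nat_lit 4) (nat_lit 358) (nat_lit 294) (nat_lit 248)))))) (XT.nd (nat_lit 312) (nat_lit 152) (nat_lit 0) (XT.nd (nat_lit 156) (nat_lit 0) (nat_lit 0) (XT.nd (nat_lit 78) (nat_lit 0) (nat_lit 0) (XT.lf (nat_lit 0) (nat_lit 32838879825) (nat_lit 76) (nat_lit 35932183328) (nat_lit 76) (nat_lit 27861631951) (nat_lit 4) (nat_lit 4) (nat_lit 5) (nat_lit 5) (nat_lit 5) (nat_lit 4) (nat_lit 359) (nat_lit 294) (nat_lit 247)) (XT.lf (nat_lit 0) (nat_lit 49166412635) (nat_lit 76) (nat_lit 31364340529) (nat_lit 76) (nat_lit 23277289416) (nat_lit 4) (nat_lit 4) (nat_lit 5) (nat_lit 5) (nat_lit 5) (nat_lit 4) (nat_lit 360) (nat_lit 294) (nat_lit 246))) (XT.nd (nat_lit 78) (nat_lit 0) (nat_lit 0) (XT.lf (nat_lit 0) (nat_lit 66750234347) (nat_lit 76)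 (nat_lit 26455767560) (nat_lit 76) (nat_lit 18353438914) (nat_lit 4) (nat_lit 4) (nat_lit 5) (nat_lit 5) (nat_lit 5) (nat_lit 4) (nat_lit 361) (nat_lit 294) (nat_lit 245)) (XT.lf (nat_lit 0) (nat_lit 85694545388) (nat_lit 76) (nat_lit 21177376580) (nat_lit 76) (nat_lit 13060902071) (nat_lit 4) (nat_lit 4) (nat_lit 5) (nat_lit 5) (nat_lit 5) (nat_lit 4) (nat_lit 362) (nat_lit 294) (nat_lit 244)))) (XT.nd (nat_lit 156) (nat_lit 152) (nat_lit 0) (XT.nd (nat_lit 78) (nat_lit 0) (nat_lit 0) (XT.lf (nat_lit 0) (nat_lit 106111608341) (nat_lit 76) (nat_lit 15497888237) (nat_lit 76) (nat_lit 7368315705) (nat_lit 4) (nat_lit 4) (nat_lit 5) (nat_lit 5) (nat_lit 5) (nat_lit 4) (nat_lit 363) (nat_lit 294) (nat_lit 243)) (XT.lf (nat_lit 0) (nat_lit 128122413209) (nat_lit 76) (nat_lit 9383646301) (nat_lit 76) (nat_lit 1241945971) (nat_lit 4) (nat_lit 4) (nat_lit 5) (nat_lit 5) (nat_lit 5) (nat_lit 4)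 (nat_lit 364) (nat_lit 294) (nat_lit 242))) (XT.nd (nat_lit 78) (nat_lit 0) (nat_lit 0) (XT.lf (nat_lit 0) (nat_lit 2555135401) (nat_lit 76) (nat_lit 2592972855) (nat_lit 152) (nat_lit 144137974645) (nat_lit 2) (nat_lit 5) (nat_lit 3) (nat_lit 5) (nat_lit 4) (nat_lit 4) (nat_lit 365) (nat_lit 294) (nat_lit 241)) (XT.nd (nat_lit 78) (nat_lit 0) (nat_lit 0) (XT.lf (nat_lit 0) (nat_lit 12375424438) (nat_lit 152) (nat_lit 143440964622) (nat_lit 0) (nat_lit 4816787952) (nat_lit 2) (nat_lit 5) (nat_lit 4) (nat_lit 4) (nat_lit 2) (nat_lit 4) (nat_lit 366) (nat_lit 294) (nat_lit 240)) (XT.lf (nat_lit 0) (nat_lit 20230744676) (nat_lit 152) (nat_lit 139990117874) (nat_lit 0) (nat_lit 12663193896) (nat_lit 2) (nat_lit 5) (nat_lit 4) (nat_lit 4) (nat_lit 2) (nat_lit 4) (nat_lit 367) (nat_lit 294) (nat_lit 239))))))))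
noncomputable def xc78 : XT := (XT.nd (nat_lit 1326) (nat_lit 76) (nat_lit 0) (XT.nd (nat_lit 624) (nat_lit 0) (nat_lit 0) (XT.nd (nat_lit 312) (nat_lit 0) (nat_lit 0) (XT.nd (nat_lit 156) (nat_lit 0) (nat_lit 0) (XT.nd (nat_lit 78) (nat_lit 0) (nat_lit 0) (XT.lf (nat_lit 0) (nat_lit 28698257957) (nat_lit 152) (nat_lit 136295596734) (nat_lit 0) (nat_lit 21122453201) (nat_lit 2) (nat_lit 5) (nat_lit 4) (nat_lit 4) (nat_lit 2) (nat_lit 4) (nat_lit 368) (nat_lit 294) (nat_lit 238)) (XT.lf (nat_lit 0) (nat_lit 37828142138) (nat_lit 152) (nat_lit 132335507744) (nat_lit 0) (nat_lit 30244694812) (nat_lit 2) (nat_lit 5) (nat_lit 4) (nat_lit 4) (nat_lit 2) (nat_lit 4) (nat_lit 369) (nat_lit 294) (nat_lit 237))) (XT.nd (nat_lit 78) (nat_lit 0) (nat_lit 0) (XT.lf (nat_lit 0) (nat_lit 47674500236) (nat_lit 152) (nat_lit 128086383711) (nat_lit 0) (nat_lit 40083976456) (nat_lit 2) (nat_lit 5) (nat_lit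 4) (nat_lit 4) (nat_lit 2) (nat_lit 4) (nat_lit 370) (nat_lit 294) (nat_lit 236)) (XT.lf (nat_lit 0) (nat_lit 58295681039) (nat_lit 152) (nat_lit 123523044639) (nat_lit 0) (nat_lit 50698604987) (nat_lit 2) (nat_lit 5) (nat_lit 4) (nat_lit 4) (nat_lit 2) (nat_lit 4) (nat_lit 371) (nat_lit 294) (nat_lit 235)))) (XT.nd (nat_lit 156) (nat_lit 0) (nat_lit 0) (XT.nd (nat_lit 78) (nat_lit 0) (nat_lit 0) (XT.lf (nat_lit 0) (nat_lit 69754624879) (nat_lit 152) (nat_lit 118618448520) (nat_lit 0) (nat_lit 62151481909) (nat_lit 2) (nat_lit 5) (nat_lit 4) (nat_lit 4) (nat_lit 2) (nat_lit 4) (nat_lit 372) (nat_lit 294) (nat_lit 234)) (XT.lf (nat_lit 0) (nat_lit 82119236607) (nat_lit 152) (nat_lit 113343531080) (nat_lit 0) (nat_lit 74510476120) (nat_lit 2) (nat_lit 5) (nat_lit 4) (nat_lit 4) (nat_lit 2) (nat_lit 4) (nat_lit 373) (nat_lit 294) (nat_lit 233))) (XT.nd (nat_lit 78) (nat_lit 0) (nat_lit 0)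 (XT.lf (nat_lit 0) (nat_lit 95462787998) (nat_lit 152) (nat_lit 107667033549) (nat_lit 0) (nat_lit 87848826106) (nat_lit 2) (nat_lit 5) (nat_lit 4) (nat_lit 4) (nat_lit 2) (nat_lit 4) (nat_lit 374) (nat_lit 294) (nat_lit 232)) (XT.lf (nat_lit 0) (nat_lit 109864351948) (nat_lit 152) (nat_lit 101555317423) (nat_lit 0) (nat_lit 102245573940) (nat_lit 2) (nat_lit 5) (nat_lit 4) (nat_lit 4) (nat_lit 2) (nat_lit 4) (nat_lit 375) (nat_lit 294) (nat_lit 231))))) (XT.nd (nat_lit 312) (nat_lit 0) (nat_lit 0) (XT.nd (nat_lit 156) (nat_lit 0) (nat_lit 0) (XT.nd (nat_lit 78) (nat_lit 0) (nat_lit 0) (XT.lf (nat_lit 0) (nat_lit 125409271058) (nat_lit 152) (nat_lit 94972165125) (nat_lit 0) (nat_lit 117786033684) (nat_lit 2) (nat_lit 5) (nat_lit 4) (nat_lit 4) (nat_lit 2) (nat_lit 4) (nat_lit 376) (nat_lit 294) (nat_lit 230)) (XT.lf (nat_lit 0) (nat_lit 142189663367) (nat_lit 152) (nat_lit 87878565383)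 (nat_lit 0) (nat_lit 134562296951) (nat_lit 2) (nat_lit 5) (nat_lit 4) (nat_lit 4) (nat_lit 2) (nat_lit 4) (nat_lit 377) (nat_lit 294) (nat_lit 229))) (XT.nd (nat_lit 78) (nat_lit 0) (nat_lit 0) (XT.lf (nat_lit 0) (nat_lit 160304968238) (nat_lit 152) (nat_lit 80232482049) (nat_lit 0) (nat_lit 152673778633) (nat_lit 2) (nat_lit 5) (nat_lit 4) (nat_lit 4) (nat_lit 2) (nat_lit 4) (nat_lit 378) (nat_lit 294) (nat_lit 228)) (XT.lf (nat_lit 0) (nat_lit 179862535625) (nat_lit 152) (nat_lit 71988605001) (nat_lit 0) (nat_lit 172227806032) (nat_lit 2) (nat_lit 5) (nat_lit 4) (nat_lit 4) (nat_lit 2) (nat_lit 4) (nat_lit 379) (nat_lit 294) (nat_lit 227)))) (XT.nd (nat_lit 156) (nat_lit 0) (nat_lit 0) (XT.nd (nat_lit 78) (nat_lit 0) (nat_lit 0) (XT.lf (nat_lit 0) (nat_lit 200978262223) (nat_lit 152) (nat_lit 63098081633) (nat_lit 0) (nat_lit 193340254863) (nat_lit 2) (nat_lit 5) (nat_lit 4) (nat_lit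 4) (nat_lit 2) (nat_lit 4) (nat_lit 380) (nat_lit 294) (nat_lit 226)) (XT.lf (nat_lit 0) (nat_lit 223777278265) (nat_lit 152) (nat_lit 53508227363) (nat_lit 0) (nat_lit 216136235935) (nat_lit 2) (nat_lit 5) (nat_lit 4) (nat_lit 4) (nat_lit 2) (nat_lit 4) (nat_lit 381) (nat_lit 294) (nat_lit 225))) (XT.nd (nat_lit 78) (nat_lit 0) (nat_lit 0) (XT.lf (nat_lit 0) (nat_lit 248394689031) (nat_lit 152) (nat_lit 43162213424) (nat_lit 0) (nat_lit 240750836543) (nat_lit 2) (nat_lit 5) (nat_lit 4) (nat_lit 4) (nat_lit 2) (nat_lit 4) (nat_lit 382) (nat_lit 294) (nat_lit 224)) (XT.nd (nat_lit 78) (nat_lit 0) (nat_lit 0) (XT.lf (nat_lit 0) (nat_lit 274976375473) (nat_lit 152) (nat_lit 31998730105) (nat_lit 0) (nat_lit 267329920988) (nat_lit 2) (nat_lit 5) (nat_lit 4) (nat_lit 4) (nat_lit 2) (nat_lit 4) (nat_lit 383) (nat_lit 294) (nat_lit 223)) (XT.lf (nat_lit 0) (nat_lit 303679858696) (nat_lit 152)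 (nat_lit 19951623429) (nat_lit 0) (nat_lit 296030994954) (nat_lit 2) (nat_lit 5) (nat_lit 4) (nat_lit 4) (nat_lit 2) (nat_lit 4) (nat_lit 384) (nat_lit 294) (nat_lit 222))))))) (XT.nd (nat_lit 624) (nat_lit 0) (nat_lit 0) (XT.nd (nat_lit 312) (nat_lit 0) (nat_lit 0) (XT.nd (nat_lit 156) (nat_lit 0) (nat_lit 0) (XT.nd (nat_lit 78) (nat_lit 76) (nat_lit 0) (XT.lf (nat_lit 0) (nat_lit 334675233415) (nat_lit 152) (nat_lit 6949503136) (nat_lit 0) (nat_lit 327024138880) (nat_lit 2) (nat_lit 5) (nat_lit 4) (nat_lit 4) (nat_lit 2) (nat_lit 4) (nat_lit 385) (nat_lit 294) (nat_lit 221)) (XT.lf (nat_lit 0) (nat_lit 7457747089) (nat_lit 76) (nat_lit 360867787834) (nat_lit 76) (nat_lit 353214627749) (nat_lit 1) (nat_lit 4) (nat_lit 2) (nat_lit 5) (nat_lit 2) (nat_lit 4) (nat_lit 386) (nat_lit 294) (nat_lit 220))) (XT.nd (nat_lit 78) (nat_lit 0) (nat_lit 0) (XT.lf (nat_lit 0) (nat_lit 23404900555) (nat_lit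 76) (nat_lit 381449020419) (nat_lit 76) (nat_lit 373793947790) (nat_lit 1) (nat_lit 4) (nat_lit 2) (nat_lit 5) (nat_lit 2) (nat_lit 4) (nat_lit 387) (nat_lit 294) (nat_lit 219)) (XT.lf (nat_lit 0) (nat_lit 40620510393) (nat_lit 76) (nat_lit 403680408901) (nat_lit 76) (nat_lit 396023565395) (nat_lit 1) (nat_lit 4) (nat_lit 2) (nat_lit 5) (nat_lit 2) (nat_lit 4) (nat_lit 388) (nat_lit 294) (nat_lit 218)))) (XT.nd (nat_lit 156) (nat_lit 0) (nat_lit 0) (XT.nd (nat_lit 78) (nat_lit 0) (nat_lit 0) (XT.lf (nat_lit 0) (nat_lit 59206595031) (nat_lit 76) (nat_lit 427693694838) (nat_lit 76) (nat_lit 420035211633) (nat_lit 1) (nat_lit 4) (nat_lit 2) (nat_lit 5) (nat_lit 2) (nat_lit 4) (nat_lit 389) (nat_lit 294) (nat_lit 217)) (XT.lf (nat_lit 0) (nat_lit 79273294229) (nat_lit 76) (nat_lit 453631179186) (nat_lit 76) (nat_lit 445971177740) (nat_lit 1) (nat_lit 4) (nat_lit 2) (nat_lit 5) (nat_lit 2)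 (nat_lit 4) (nat_lit 390) (nat_lit 294) (nat_lit 216))) (XT.nd (nat_lit 78) (nat_lit 0) (nat_lit 0) (XT.lf (nat_lit 0) (nat_lit 100939521762) (nat_lit 76) (nat_lit 481646565555) (nat_lit 76) (nat_lit 473985158331) (nat_lit 1) (nat_lit 4) (nat_lit 2) (nat_lit 5) (nat_lit 2) (nat_lit 4) (nat_lit 391) (nat_lit 294) (nat_lit 215)) (XT.lf (nat_lit 0) (nat_lit 124333670087) (nat_lit 76) (nat_lit 511905871050) (nat_lit 76) (nat_lit 504243162179) (nat_lit 1) (nat_lit 4) (nat_lit 2) (nat_lit 5) (nat_lit 2) (nat_lit 4) (nat_lit 392) (nat_lit 294) (nat_lit 214))))) (XT.nd (nat_lit 312) (nat_lit 0) (nat_lit 0) (XT.nd (nat_lit 156) (nat_lit 0) (nat_lit 0) (XT.nd (nat_lit 78) (nat_lit 0) (nat_lit 0) (XT.lf (nat_lit 0) (nat_lit 149594371196) (nat_lit 76) (nat_lit 544588410073) (nat_lit 76) (nat_lit 536924495974) (nat_lit 1) (nat_lit 4) (nat_lit 2) (nat_lit 5) (nat_lit 2) (nat_lit 4) (nat_lit 393) (nat_lit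 294) (nat_lit 213)) (XT.lf (nat_lit 0) (nat_lit 176871318131) (nat_lit 76) (nat_lit 579887856930) (nat_lit 76) (nat_lit 572222826879) (nat_lit 1) (nat_lit 4) (nat_lit 2) (nat_lit 5) (nat_lit 2) (nat_lit 4) (nat_lit 394) (nat_lit 294) (nat_lit 212))) (XT.nd (nat_lit 78) (nat_lit 0) (nat_lit 0) (XT.lf (nat_lit 0) (nat_lit 206326152060) (nat_lit 76) (nat_lit 618013393529) (nat_lit 76) (nat_lit 610347330189) (nat_lit 1) (nat_lit 4) (nat_lit 2) (nat_lit 5) (nat_lit 2) (nat_lit 4) (nat_lit 395) (nat_lit 294) (nat_lit 211)) (XT.lf (nat_lit 0) (nat_lit 238133420148) (nat_lit 76) (nat_lit 659190948974) (nat_lit 76) (nat_lit 651523928885) (nat_lit 1) (nat_lit 4) (nat_lit 2) (nat_lit 5) (nat_lit 2) (nat_lit 4) (nat_lit 396) (nat_lit 294) (nat_lit 210)))) (XT.nd (nat_lit 156) (nat_lit 0) (nat_lit 0) (XT.nd (nat_lit 78) (nat_lit 0) (nat_lit 0) (XT.lf (nat_lit 0) (nat_lit 272481609908) (nat_lit 76)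 (nat_lit 703664538409) (nat_lit 76) (nat_lit 695996632442) (nat_lit 1) (nat_lit 4) (nat_lit 2) (nat_lit 5) (nat_lit 2) (nat_lit 4) (nat_lit 397) (nat_lit 294) (nat_lit 209)) (XT.lf (nat_lit 0) (nat_lit 309574266168) (nat_lit 76) (nat_lit 751697709032) (nat_lit 76) (nat_lit 744028982806) (nat_lit 1) (nat_lit 4) (nat_lit 2) (nat_lit 5) (nat_lit 2) (nat_lit 4) (nat_lit 398) (nat_lit 294) (nat_lit 208))) (XT.nd (nat_lit 78) (nat_lit 0) (nat_lit 0) (XT.lf (nat_lit 0) (nat_lit 349631197263) (nat_lit 76) (nat_lit 803575101853) (nat_lit 76) (nat_lit 795905616129) (nat_lit 1) (nat_lit 4) (nat_lit 2) (nat_lit 5) (nat_lit 2) (nat_lit 4) (nat_lit 399) (nat_lit 294) (nat_lit 207)) (XT.nd (nat_lit 78) (nat_lit 0) (nat_lit 0) (XT.lf (nat_lit 0) (nat_lit 392889777598) (nat_lit 76) (nat_lit 859604138459) (nat_lit 76) (nat_lit 851933949496) (nat_lit 1) (nat_lit 4) (nat_lit 2) (nat_lit 5) (nat_lit 2) (nat_lit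 4) (nat_lit 400) (nat_lit 294) (nat_lit 206)) (XT.lf (nat_lit 0) (nat_lit 439606354317) (nat_lit 76) (nat_lit 920116842770) (nat_lit 76) (nat_lit 912446002660) (nat_lit 1) (nat_lit 4) (nat_lit 2) (nat_lit 5) (nat_lit 2) (nat_lit 4) (nat_lit 401) (nat_lit 294) (nat_lit 205))))))))
noncomputable def xc79 : XT := (XT.nd (nat_lit 40092) (nat_lit 0) (nat_lit 1216) (XT.nd (nat_lit 624) (nat_lit 0) (nat_lit 0) (XT.nd (nat_lit 312) (nat_lit 0) (nat_lit 0) (XT.nd (nat_lit 156) (nat_lit 0) (nat_lit 0) (XT.nd (nat_lit 78) (nat_lit 0) (nat_lit 0) (XT.lf (nat_lit 0) (nat_lit 490057766392) (nat_lit 76) (nat_lit 985471808591) (nat_lit 76) (nat_lit 977800365566) (nat_lit 1) (nat_lit 4) (nat_lit 2) (nat_lit 5) (nat_lit 2) (nat_lit 4) (nat_lit 402) (nat_lit 294) (nat_lit 204)) (XT.lf (nat_lit 0) (nat_lit 544542985154) (nat_lit 76) (nat_lit 1056056324607) (nat_lit 76) (nat_lit 1048384323329) (nat_lit 1)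 (nat_lit 4) (nat_lit 2) (nat_lit 5) (nat_lit 2) (nat_lit 4) (nat_lit 403) (nat_lit 294) (nat_lit 203))) (XT.nd (nat_lit 78) (nat_lit 0) (nat_lit 0) (XT.lf (nat_lit 0) (nat_lit 603384885974) (nat_lit 76) (nat_lit 1132288669432) (nat_lit 76) (nat_lit 1124616151252) (nat_lit 1) (nat_lit 4) (nat_lit 2) (nat_lit 5) (nat_lit 2) (nat_lit 4) (nat_lit 404) (nat_lit 294) (nat_lit 202)) (XT.lf (nat_lit 0) (nat_lit 666932161597) (nat_lit 76) (nat_lit 1214620590295) (nat_lit 76) (nat_lit 1206947593502) (nat_lit 1) (nat_lit 4) (nat_lit 2) (nat_lit 5) (nat_lit 2) (nat_lit 4) (nat_lit 405) (nat_lit 294) (nat_lit 201)))) (XT.nd (nat_lit 156) (nat_lit 0) (nat_lit 0) (XT.nd (nat_lit 78) (nat_lit 0) (nat_lit 0) (XT.lf (nat_lit 0) (nat_lit 735561388472) (nat_lit 76) (nat_lit 1303539980059) (nat_lit 76) (nat_lit 1295866540107) (nat_lit 1) (nat_lit 4) (nat_lit 2) (nat_lit 5) (nat_lit 2) (nat_lit 4) (nat_lit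 406) (nat_lit 294) (nat_lit 200)) (XT.lf (nat_lit 0) (nat_lit 809679258313) (nat_lit 76) (nat_lit 1399573768443) (nat_lit 76) (nat_lit 1391899918157) (nat_lit 1) (nat_lit 4) (nat_lit 2) (nat_lit 5) (nat_lit 2) (nat_lit 4) (nat_lit 407) (nat_lit 294) (nat_lit 199))) (XT.nd (nat_lit 78) (nat_lit 0) (nat_lit 0) (XT.lf (nat_lit 0) (nat_lit 889724988127) (nat_lit 76) (nat_lit 1503291044561) (nat_lit 76) (nat_lit 1495616814337) (nat_lit 1) (nat_lit 4) (nat_lit 2) (nat_lit 5) (nat_lit 2) (nat_lit 4) (nat_lit 408) (nat_lit 294) (nat_lit 198)) (XT.lf (nat_lit 0) (nat_lit 976172922980) (nat_lit 76) (nat_lit 1615306429311) (nat_lit 76) (nat_lit 1607631847292) (nat_lit 1) (nat_lit 4) (nat_lit 2) (nat_lit 5) (nat_lit 2) (nat_lit 4) (nat_lit 409) (nat_lit 294) (nat_lit 197))))) (XT.nd (nat_lit 39078) (nat_lit 0) (nat_lit 3344) (XT.nd (nat_lit 156) (nat_lit 0) (nat_lit 0) (XT.nd (nat_lit 78) (nat_lit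 0) (nat_lit 0) (XT.lf (nat_lit 0) (nat_lit 1069535346928) (nat_lit 76) (nat_lit 1736283717564) (nat_lit 76) (nat_lit 1728608809809) (nat_lit 1) (nat_lit 4) (nat_lit 2) (nat_lit 5) (nat_lit 2) (nat_lit 4) (nat_lit 410) (nat_lit 294) (nat_lit 196)) (XT.lf (nat_lit 0) (nat_lit 1170365518783) (nat_lit 76) (nat_lit 1866939811769) (nat_lit 76) (nat_lit 1859264602408) (nat_lit 1) (nat_lit 4) (nat_lit 2) (nat_lit 5) (nat_lit 2) (nat_lit 4) (nat_lit 411) (nat_lit 294) (nat_lit 195))) (XT.nd (nat_lit 78) (nat_lit 0) (nat_lit 0) (XT.lf (nat_lit 0) (nat_lit 1279260950672) (nat_lit 76) (nat_lit 2008048970263) (nat_lit 76) (nat_lit 2000373481636) (nat_lit 1) (nat_lit 4) (nat_lit 2) (nat_lit 5) (nat_lit 2) (nat_lit 4) (nat_lit 412) (nat_lit 294) (nat_lit 194)) (XT.lf (nat_lit 0) (nat_lit 1396866948859) (nat_lit 76) (nat_lit 2160447395466) (nat_lit 76) (nat_lit 2152771648259) (nat_lit 1) (nat_lit 4) (nat_lit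 2) (nat_lit 5) (nat_lit 2) (nat_lit 4) (nat_lit 413) (nat_lit 294) (nat_lit 193)))) (XT.nd (nat_lit 156) (nat_lit 608) (nat_lit 0) (XT.nd (nat_lit 78) (nat_lit 0) (nat_lit 0) (XT.lf (nat_lit 0) (nat_lit 112156298) (nat_lit 532) (nat_lit 3371984130) (nat_lit 0) (nat_lit 112156298) (nat_lit 53) (nat_lit 5) (nat_lit 60) (nat_lit 4) (nat_lit 53) (nat_lit 4) (nat_lit 310) (nat_lit 295) (nat_lit 295)) (XT.lf (nat_lit 0) (nat_lit 3632762209) (nat_lit 532) (nat_lit 1633674003) (nat_lit 0) (nat_lit 2085804082) (nat_lit 53) (nat_lit 5) (nat_lit 60) (nat_lit 4) (nat_lit 53) (nat_lit 4) (nat_lit 311) (nat_lit 295) (nat_lit 294))) (XT.nd (nat_lit 78) (nat_lit 304) (nat_lit 0) (XT.lf (nat_lit 0) (nat_lit 3800067181) (nat_lit 304) (nat_lit 3358439313) (nat_lit 304) (nat_lit 379112551) (nat_lit 49) (nat_lit 4) (nat_lit 53) (nat_lit 5) (nat_lit 53) (nat_lit 4) (nat_lit 312) (nat_lit 295) (nat_lit 293))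 (XT.nd (nat_lit 78) (nat_lit 0) (nat_lit 0) (XT.lf (nat_lit 0) (nat_lit 1754451466) (nat_lit 228) (nat_lit 1159031939) (nat_lit 304) (nat_lit 4830866948) (nat_lit 45) (nat_lit 5) (nat_lit 48) (nat_lit 5) (nat_lit 49) (nat_lit 4) (nat_lit 313) (nat_lit 295) (nat_lit 292)) (XT.lf (nat_lit 0) (nat_lit 6351806126) (nat_lit 304) (nat_lit 395138057) (nat_lit 0) (nat_lit 1228084594) (nat_lit 45) (nat_lit 5) (nat_lit 49) (nat_lit 4) (nat_lit 45) (nat_lit 4) (nat_lit 314) (nat_lit 295) (nat_lit 291))))))) (XT.nd (nat_lit 702) (nat_lit 608) (nat_lit 0) (XT.nd (nat_lit 312) (nat_lit 760) (nat_lit 0) (XT.nd (nat_lit 156) (nat_lit 304) (nat_lit 0) (XT.nd (nat_lit 78) (nat_lit 152) (nat_lit 0) (XT.lf (nat_lit 0) (nat_lit 1698595752) (nat_lit 304) (nat_lit 2643476074) (nat_lit 76) (nat_lit 3882935293) (nat_lit 41) (nat_lit 5) (nat_lit 45) (nat_lit 5) (nat_lit 42) (nat_lit 4) (nat_lit 315) (nat_lit 295)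 (nat_lit 290)) (XT.lf (nat_lit 0) (nat_lit 3418011544) (nat_lit 152) (nat_lit 1663436921) (nat_lit 228) (nat_lit 3419857306) (nat_lit 39) (nat_lit 5) (nat_lit 41) (nat_lit 5) (nat_lit 42) (nat_lit 4) (nat_lit 316) (nat_lit 295) (nat_lit 289))) (XT.nd (nat_lit 78) (nat_lit 76) (nat_lit 0) (XT.lf (nat_lit 0) (nat_lit 1059336946) (nat_lit 228) (nat_lit 7602004325) (nat_lit 228) (nat_lit 144563146) (nat_lit 36) (nat_lit 4) (nat_lit 39) (nat_lit 5) (nat_lit 39) (nat_lit 4) (nat_lit 317) (nat_lit 295) (nat_lit 288)) (XT.lf (nat_lit 0) (nat_lit 3209114016) (nat_lit 304) (nat_lit 1556348229) (nat_lit 76) (nat_lit 4364259699) (nat_lit 35) (nat_lit 5) (nat_lit 39) (nat_lit 5) (nat_lit 36) (nat_lit 4) (nat_lit 318) (nat_lit 295) (nat_lit 287)))) (XT.nd (nat_lit 156) (nat_lit 380) (nat_lit 0) (XT.nd (nat_lit 78) (nat_lit 228) (nat_lit 0) (XT.lf (nat_lit 0) (nat_lit 5115827499) (nat_lit 152) (nat_lit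 1645554141) (nat_lit 228) (nat_lit 2722959661) (nat_lit 33) (nat_lit 5) (nat_lit 35) (nat_lit 5) (nat_lit 36) (nat_lit 4) (nat_lit 319) (nat_lit 295) (nat_lit 286)) (XT.lf (nat_lit 0) (nat_lit 654996248) (nat_lit 228) (nat_lit 7536969044) (nat_lit 76) (nat_lit 1677286697) (nat_lit 30) (nat_lit 5) (nat_lit 33) (nat_lit 5) (nat_lit 31) (nat_lit 4) (nat_lit 320) (nat_lit 295) (nat_lit 285))) (XT.nd (nat_lit 78) (nat_lit 380) (nat_lit 0) (XT.lf (nat_lit 0) (nat_lit 4144211603) (nat_lit 228) (nat_lit 848214397) (nat_lit 76) (nat_lit 5288015503) (nat_lit 30) (nat_lit 5) (nat_lit 33) (nat_lit 5) (nat_lit 31) (nat_lit 4) (nat_lit 321) (nat_lit 295) (nat_lit 284)) (XT.nd (nat_lit 78) (nat_lit 228) (nat_lit 0) (XT.lf (nat_lit 0) (nat_lit 6444474247) (nat_lit 152) (nat_lit 1459048711) (nat_lit 228) (nat_lit 2821906848) (nat_lit 28) (nat_lit 5) (nat_lit 30) (nat_lit 5) (nat_lit 31) (nat_lit 4) (nat_lit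 322) (nat_lit 295) (nat_lit 283)) (XT.lf (nat_lit 0) (nat_lit 711966134) (nat_lit 228) (nat_lit 8225146758) (nat_lit 76) (nat_lit 2268217299) (nat_lit 25) (nat_lit 5) (nat_lit 28) (nat_lit 5) (nat_lit 26) (nat_lit 4) (nat_lit 323) (nat_lit 295) (nat_lit 282)))))) (XT.nd (nat_lit 312) (nat_lit 304) (nat_lit 0) (XT.nd (nat_lit 156) (nat_lit 228) (nat_lit 0) (XT.nd (nat_lit 78) (nat_lit 76) (nat_lit 0) (XT.lf (nat_lit 0) (nat_lit 4375763698) (nat_lit 228) (nat_lit 1022542576) (nat_lit 76) (nat_lit 6319622101) (nat_lit 25) (nat_lit 5) (nat_lit 28) (nat_lit 5) (nat_lit 26) (nat_lit 4) (nat_lit 324) (nat_lit 295) (nat_lit 281)) (XT.lf (nat_lit 0) (nat_lit 6858893184) (nat_lit 76) (nat_lit 1492140000) (nat_lit 152) (nat_lit 3919164328) (nat_lit 24) (nat_lit 5) (nat_lit 25) (nat_lit 5) (nat_lit 26) (nat_lit 4) (nat_lit 325) (nat_lit 295) (nat_lit 280))) (XT.nd (nat_lit 78) (nat_lit 76) (nat_lit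 0) (XT.lf (nat_lit 0) (nat_lit 2373421458) (nat_lit 152) (nat_lit 10278636086) (nat_lit 152) (nat_lit 214094697) (nat_lit 22) (nat_lit 4) (nat_lit 24) (nat_lit 5) (nat_lit 24) (nat_lit 4) (nat_lit 326) (nat_lit 295) (nat_lit 279)) (XT.lf (nat_lit 0) (nat_lit 3646087525) (nat_lit 228) (nat_lit 2787991459) (nat_lit 76) (nat_lit 7064669286) (nat_lit 21) (nat_lit 5) (nat_lit 24) (nat_lit 5) (nat_lit 22) (nat_lit 4) (nat_lit 327) (nat_lit 295) (nat_lit 278)))) (XT.nd (nat_lit 156) (nat_lit 228) (nat_lit 0) (XT.nd (nat_lit 78) (nat_lit 0) (nat_lit 0) (XT.lf (nat_lit 0) (nat_lit 5579812202) (nat_lit 76) (nat_lit 2226059901) (nat_lit 152) (nat_lit 6375544075) (nat_lit 20) (nat_lit 5) (nat_lit 21) (nat_lit 5) (nat_lit 22) (nat_lit 4) (nat_lit 328) (nat_lit 295) (nat_lit 277)) (XT.lf (nat_lit 0) (nat_lit 12302763409) (nat_lit 152) (nat_lit 423907946) (nat_lit 0) (nat_lit 2191770458) (nat_lit 20)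 (nat_lit 5) (nat_lit 22) (nat_lit 4) (nat_lit 20) (nat_lit 4) (nat_lit 329) (nat_lit 295) (nat_lit 276))) (XT.nd (nat_lit 78) (nat_lit 76) (nat_lit 0) (XT.lf (nat_lit 0) (nat_lit 1520150122) (nat_lit 152) (nat_lit 7174964280) (nat_lit 76) (nat_lit 7004815722) (nat_lit 18) (nat_lit 5) (nat_lit 20) (nat_lit 5) (nat_lit 19) (nat_lit 4) (nat_lit 330) (nat_lit 295) (nat_lit 275)) (XT.nd (nat_lit 78) (nat_lit 0) (nat_lit 0) (XT.lf (nat_lit 0) (nat_lit 1462607573) (nat_lit 76) (nat_lit 4310774915) (nat_lit 152) (nat_lit 10770963277) (nat_lit 17) (nat_lit 5) (nat_lit 18) (nat_lit 5) (nat_lit 19) (nat_lit 4) (nat_lit 331) (nat_lit 295) (nat_lit 274)) (XT.lf (nat_lit 0) (nat_lit 10460746830) (nat_lit 152) (nat_lit 6471531848) (nat_lit 0) (nat_lit 516592415) (nat_lit 17) (nat_lit 5) (nat_lit 19) (nat_lit 4) (nat_lit 17) (nat_lit 4) (nat_lit 332) (nat_lit 295) (nat_lit 273))))))))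
noncomputable def xc80 : XT := (XT.nd (nat_lit 1326) (nat_lit 380) (nat_lit 0) (XT.nd (nat_lit 624) (nat_lit 304) (nat_lit 0) (XT.nd (nat_lit 312) (nat_lit 228) (nat_lit 0) (XT.nd (nat_lit 156) (nat_lit 76) (nat_lit 0) (XT.nd (nat_lit 78) (nat_lit 76) (nat_lit 0) (XT.lf (nat_lit 0) (nat_lit 2649113658) (nat_lit 76) (nat_lit 12940774380) (nat_lit 76) (nat_lit 2830588786) (nat_lit 16) (nat_lit 4) (nat_lit 17) (nat_lit 5) (nat_lit 17) (nat_lit 4) (nat_lit 333) (nat_lit 295) (nat_lit 272)) (XT.lf (nat_lit 0) (nat_lit 1649788470) (nat_lit 152) (nat_lit 6832358147) (nat_lit 76) (nat_lit 10978663550) (nat_lit 15) (nat_lit 5) (nat_lit 17) (nat_lit 5) (nat_lit 16) (nat_lit 4) (nat_lit 334) (nat_lit 295) (nat_lit 271))) (XT.nd (nat_lit 78) (nat_lit 0) (nat_lit 0) (XT.lf (nat_lit 0) (nat_lit 2698370571) (nat_lit 76) (nat_lit 3601934097) (nat_lit 152) (nat_lit 14281061776) (nat_lit 14) (nat_lit 5)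 (nat_lit 15) (nat_lit 5) (nat_lit 16) (nat_lit 4) (nat_lit 335) (nat_lit 295) (nat_lit 270)) (XT.lf (nat_lit 0) (nat_lit 11455490595) (nat_lit 152) (nat_lit 8627487593) (nat_lit 0) (nat_lit 1698023889) (nat_lit 14) (nat_lit 5) (nat_lit 16) (nat_lit 4) (nat_lit 14) (nat_lit 4) (nat_lit 336) (nat_lit 295) (nat_lit 269)))) (XT.nd (nat_lit 156) (nat_lit 152) (nat_lit 0) (XT.nd (nat_lit 78) (nat_lit 0) (nat_lit 0) (XT.lf (nat_lit 0) (nat_lit 1160747134) (nat_lit 76) (nat_lit 15891997830) (nat_lit 76) (nat_lit 6021533094) (nat_lit 13) (nat_lit 4) (nat_lit 14) (nat_lit 5) (nat_lit 14) (nat_lit 4) (nat_lit 337) (nat_lit 295) (nat_lit 268)) (XT.lf (nat_lit 0) (nat_lit 12054830817) (nat_lit 76) (nat_lit 11189784828) (nat_lit 76) (nat_lit 1214692287) (nat_lit 13) (nat_lit 4) (nat_lit 14) (nat_lit 5) (nat_lit 14) (nat_lit 4) (nat_lit 338) (nat_lit 295) (nat_lit 267))) (XT.nd (nat_lit 78) (nat_lit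 76) (nat_lit 0) (XT.lf (nat_lit 0) (nat_lit 3693131369) (nat_lit 152) (nat_lit 2390256889) (nat_lit 76) (nat_lit 19870904653) (nat_lit 12) (nat_lit 5) (nat_lit 14) (nat_lit 5) (nat_lit 13) (nat_lit 4) (nat_lit 339) (nat_lit 295) (nat_lit 266)) (XT.lf (nat_lit 0) (nat_lit 8679670302) (nat_lit 76) (nat_lit 378667159) (nat_lit 152) (nat_lit 18497615388) (nat_lit 11) (nat_lit 5) (nat_lit 12) (nat_lit 5) (nat_lit 13) (nat_lit 4) (nat_lit 340) (nat_lit 295) (nat_lit 265))))) (XT.nd (nat_lit 312) (nat_lit 152) (nat_lit 0) (XT.nd (nat_lit 156) (nat_lit 76) (nat_lit 0) (XT.nd (nat_lit 78) (nat_lit 76) (nat_lit 0) (XT.lf (nat_lit 0) (nat_lit 14981205586) (nat_lit 152) (nat_lit 8798946965) (nat_lit 0) (nat_lit 5495345824) (nat_lit 11) (nat_lit 5) (nat_lit 13) (nat_lit 4) (nat_lit 11) (nat_lit 4) (nat_lit 341) (nat_lit 295) (nat_lit 264)) (XT.lf (nat_lit 0) (nat_lit 2038966707) (nat_lit 76) (nat_lit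 19325889314) (nat_lit 76) (nat_lit 9768821625) (nat_lit 10) (nat_lit 4) (nat_lit 11) (nat_lit 5) (nat_lit 11) (nat_lit 4) (nat_lit 342) (nat_lit 295) (nat_lit 263))) (XT.nd (nat_lit 78) (nat_lit 76) (nat_lit 0) (XT.lf (nat_lit 0) (nat_lit 14110034631) (nat_lit 76) (nat_lit 14319920707) (nat_lit 76) (nat_lit 4696919753) (nat_lit 10) (nat_lit 4) (nat_lit 11) (nat_lit 5) (nat_lit 11) (nat_lit 4) (nat_lit 343) (nat_lit 295) (nat_lit 262)) (XT.lf (nat_lit 0) (nat_lit 675328153) (nat_lit 152) (nat_lit 8279367714) (nat_lit 76) (nat_lit 26328659284) (nat_lit 9) (nat_lit 5) (nat_lit 11) (nat_lit 5) (nat_lit 10) (nat_lit 4) (nat_lit 344) (nat_lit 295) (nat_lit 261)))) (XT.nd (nat_lit 156) (nat_lit 76) (nat_lit 0) (XT.nd (nat_lit 78) (nat_lit 0) (nat_lit 0) (XT.lf (nat_lit 0) (nat_lit 3238739535) (nat_lit 76) (nat_lit 3001316693) (nat_lit 152) (nat_lit 31361240428) (nat_lit 8) (nat_lit 5) (nat_lit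 9) (nat_lit 5) (nat_lit 10) (nat_lit 4) (nat_lit 345) (nat_lit 295) (nat_lit 260)) (XT.lf (nat_lit 0) (nat_lit 12503666345) (nat_lit 152) (nat_lit 24144578494) (nat_lit 0) (nat_lit 3436150259) (nat_lit 8) (nat_lit 5) (nat_lit 10) (nat_lit 4) (nat_lit 8) (nat_lit 4) (nat_lit 346) (nat_lit 295) (nat_lit 259))) (XT.nd (nat_lit 78) (nat_lit 76) (nat_lit 0) (XT.lf (nat_lit 0) (nat_lit 19289839988) (nat_lit 152) (nat_lit 13297149214) (nat_lit 0) (nat_lit 10177450829) (nat_lit 8) (nat_lit 5) (nat_lit 10) (nat_lit 4) (nat_lit 8) (nat_lit 4) (nat_lit 347) (nat_lit 295) (nat_lit 258)) (XT.nd (nat_lit 78) (nat_lit 76) (nat_lit 0) (XT.lf (nat_lit 0) (nat_lit 26566609780) (nat_lit 152) (nat_lit 1683806481) (nat_lit 0) (nat_lit 17412671481) (nat_lit 8) (nat_lit 5) (nat_lit 10) (nat_lit 4) (nat_lit 8) (nat_lit 4) (nat_lit 348) (nat_lit 295) (nat_lit 257)) (XT.lf (nat_lit 0) (nat_lit 11331096871) (nat_lit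 76) (nat_lit 23318513603) (nat_lit 76) (nat_lit 14126103877) (nat_lit 7) (nat_lit 4) (nat_lit 8) (nat_lit 5) (nat_lit 8) (nat_lit 4) (nat_lit 349) (nat_lit 295) (nat_lit 256))))))) (XT.nd (nat_lit 624) (nat_lit 228) (nat_lit 0) (XT.nd (nat_lit 312) (nat_lit 0) (nat_lit 0) (XT.nd (nat_lit 156) (nat_lit 152) (nat_lit 0) (XT.nd (nat_lit 78) (nat_lit 0) (nat_lit 0) (XT.lf (nat_lit 0) (nat_lit 25391006108) (nat_lit 76) (nat_lit 17987235182) (nat_lit 76) (nat_lit 8759203764) (nat_lit 7) (nat_lit 4) (nat_lit 8) (nat_lit 5) (nat_lit 8) (nat_lit 4) (nat_lit 350) (nat_lit 295) (nat_lit 255)) (XT.lf (nat_lit 0) (nat_lit 40490572947) (nat_lit 76) (nat_lit 12271026491) (nat_lit 76) (nat_lit 3010012025) (nat_lit 7) (nat_lit 4) (nat_lit 8) (nat_lit 5) (nat_lit 8) (nat_lit 4) (nat_lit 351) (nat_lit 295) (nat_lit 254))) (XT.nd (nat_lit 78) (nat_lit 76) (nat_lit 0) (XT.lf (nat_lit 0) (nat_lit 2997687702)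 (nat_lit 152) (nat_lit 3056363903) (nat_lit 76) (nat_lit 53639626503) (nat_lit 6) (nat_lit 5) (nat_lit 8) (nat_lit 5) (nat_lit 7) (nat_lit 4) (nat_lit 352) (nat_lit 295) (nat_lit 253)) (XT.lf (nat_lit 0) (nat_lit 9561644944) (nat_lit 152) (nat_lit 53410388528) (nat_lit 0) (nat_lit 932170895) (nat_lit 5) (nat_lit 5) (nat_lit 7) (nat_lit 4) (nat_lit 5) (nat_lit 4) (nat_lit 353) (nat_lit 295) (nat_lit 252)))) (XT.nd (nat_lit 156) (nat_lit 0) (nat_lit 0) (XT.nd (nat_lit 78) (nat_lit 0) (nat_lit 0) (XT.lf (nat_lit 0) (nat_lit 16855593379) (nat_lit 152) (nat_lit 43377722538) (nat_lit 0) (nat_lit 8201875806) (nat_lit 5) (nat_lit 5) (nat_lit 7) (nat_lit 4) (nat_lit 5) (nat_lit 4) (nat_lit 354) (nat_lit 295) (nat_lit 251)) (XT.lf (nat_lit 0) (nat_lit 24697770245) (nat_lit 152) (nat_lit 32612114155) (nat_lit 0) (nat_lit 16021604964) (nat_lit 5) (nat_lit 5) (nat_lit 7) (nat_lit 4) (nat_lit 5) (nat_lit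 4) (nat_lit 355) (nat_lit 295) (nat_lit 250))) (XT.nd (nat_lit 78) (nat_lit 0) (nat_lit 0) (XT.lf (nat_lit 0) (nat_lit 33134647699) (nat_lit 152) (nat_lit 21049767183) (nat_lit 0) (nat_lit 24437697503) (nat_lit 5) (nat_lit 5) (nat_lit 7) (nat_lit 4) (nat_lit 5) (nat_lit 4) (nat_lit 356) (nat_lit 295) (nat_lit 249)) (XT.lf (nat_lit 0) (nat_lit 42216222054) (nat_lit 152) (nat_lit 8622164010) (nat_lit 0) (nat_lit 33500026566) (nat_lit 5) (nat_lit 5) (nat_lit 7) (nat_lit 4) (nat_lit 5) (nat_lit 4) (nat_lit 357) (nat_lit 295) (nat_lit 248))))) (XT.nd (nat_lit 312) (nat_lit 152) (nat_lit 0) (XT.nd (nat_lit 156) (nat_lit 0) (nat_lit 0) (XT.nd (nat_lit 78) (nat_lit 0) (nat_lit 0) (XT.lf (nat_lit 0) (nat_lit 4994168979) (nat_lit 76) (nat_lit 47122250950) (nat_lit 76) (nat_lit 38388235748) (nat_lit 4) (nat_lit 4) (nat_lit 5) (nat_lit 5) (nat_lit 5) (nat_lit 4) (nat_lit 358) (nat_lit 295) (nat_lit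 247)) (XT.lf (nat_lit 0) (nat_lit 20136251896) (nat_lit 76) (nat_lit 42880893197) (nat_lit 76) (nat_lit 34130378260) (nat_lit 4) (nat_lit 4) (nat_lit 5) (nat_lit 5) (nat_lit 5) (nat_lit 4) (nat_lit 359) (nat_lit 295) (nat_lit 246))) (XT.nd (nat_lit 78) (nat_lit 0) (nat_lit 0) (XT.lf (nat_lit 0) (nat_lit 36439787724) (nat_lit 76) (nat_lit 38324924078) (nat_lit 76) (nat_lit 29559131607) (nat_lit 4) (nat_lit 4) (nat_lit 5) (nat_lit 5) (nat_lit 5) (nat_lit 4) (nat_lit 360) (nat_lit 295) (nat_lit 245)) (XT.lf (nat_lit 0) (nat_lit 54001390010) (nat_lit 76) (nat_lit 33427345256) (nat_lit 76) (nat_lit 24647406922) (nat_lit 4) (nat_lit 4) (nat_lit 5) (nat_lit 5) (nat_lit 5) (nat_lit 4) (nat_lit 361) (nat_lit 295) (nat_lit 244)))) (XT.nd (nat_lit 156) (nat_lit 152) (nat_lit 0) (XT.nd (nat_lit 78) (nat_lit 0) (nat_lit 0) (XT.lf (nat_lit 0) (nat_lit 72925127507) (nat_lit 76) (nat_lit 28159134043)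 (nat_lit 76) (nat_lit 19366097687) (nat_lit 4) (nat_lit 4) (nat_lit 5) (nat_lit 5) (nat_lit 5) (nat_lit 4) (nat_lit 362) (nat_lit 295) (nat_lit 243)) (XT.lf (nat_lit 0) (nat_lit 93323140882) (nat_lit 76) (nat_lit 22489071409) (nat_lit 76) (nat_lit 13683907254) (nat_lit 4) (nat_lit 4) (nat_lit 5) (nat_lit 5) (nat_lit 5) (nat_lit 4) (nat_lit 363) (nat_lit 295) (nat_lit 242))) (XT.nd (nat_lit 78) (nat_lit 152) (nat_lit 0) (XT.lf (nat_lit 0) (nat_lit 115316307251) (nat_lit 76) (nat_lit 16383556983) (nat_lit 76) (nat_lit 7567163385) (nat_lit 4) (nat_lit 4) (nat_lit 5) (nat_lit 5) (nat_lit 5) (nat_lit 4) (nat_lit 364) (nat_lit 295) (nat_lit 241)) (XT.nd (nat_lit 78) (nat_lit 152) (nat_lit 0) (XT.lf (nat_lit 0) (nat_lit 139034956490) (nat_lit 76) (nat_lit 9806409938) (nat_lit 76) (nat_lit 979618708) (nat_lit 4) (nat_lit 4) (nat_lit 5) (nat_lit 5) (nat_lit 5) (nat_lit 4) (nat_lit 365) (nat_lit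 295) (nat_lit 240)) (XT.lf (nat_lit 0) (nat_lit 3423220467) (nat_lit 76) (nat_lit 2470836808) (nat_lit 152) (nat_lit 155308119920) (nat_lit 2) (nat_lit 5) (nat_lit 3) (nat_lit 5) (nat_lit 4) (nat_lit 4) (nat_lit 366) (nat_lit 295) (nat_lit 239))))))))
noncomputable def xc81 : XT := (XT.nd (nat_lit 1326) (nat_lit 76) (nat_lit 0) (XT.nd (nat_lit 624) (nat_lit 0) (nat_lit 0) (XT.nd (nat_lit 312) (nat_lit 0) (nat_lit 0) (XT.nd (nat_lit 156) (nat_lit 0) (nat_lit 0) (XT.nd (nat_lit 78) (nat_lit 0) (nat_lit 0) (XT.lf (nat_lit 0) (nat_lit 13682149706) (nat_lit 152) (nat_lit 154284260021) (nat_lit 0) (nat_lit 5492026594) (nat_lit 2) (nat_lit 5) (nat_lit 4) (nat_lit 4) (nat_lit 2) (nat_lit 4) (nat_lit 367) (nat_lit 295) (nat_lit 238)) (XT.lf (nat_lit 0) (nat_lit 22142436947) (nat_lit 152) (nat_lit 150604158998) (nat_lit 0) (nat_lit 13944671265) (nat_lit 2) (nat_lit 5) (nat_lit 4) (nat_lit 4) (nat_lit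 2) (nat_lit 4) (nat_lit 368) (nat_lit 295) (nat_lit 237))) (XT.nd (nat_lit 78) (nat_lit 0) (nat_lit 0) (XT.lf (nat_lit 0) (nat_lit 31265630350) (nat_lit 152) (nat_lit 146657421967) (nat_lit 0) (nat_lit 23060788215) (nat_lit 2) (nat_lit 5) (nat_lit 4) (nat_lit 4) (nat_lit 2) (nat_lit 4) (nat_lit 369) (nat_lit 295) (nat_lit 236)) (XT.lf (nat_lit 0) (nat_lit 41105793284) (nat_lit 152) (nat_lit 142420660859) (nat_lit 0) (nat_lit 32894398876) (nat_lit 2) (nat_lit 5) (nat_lit 4) (nat_lit 4) (nat_lit 2) (nat_lit 4) (nat_lit 370) (nat_lit 295) (nat_lit 235)))) (XT.nd (nat_lit 156) (nat_lit 0) (nat_lit 0) (XT.nd (nat_lit 78) (nat_lit 0) (nat_lit 0) (XT.lf (nat_lit 0) (nat_lit 51721237824) (nat_lit 152) (nat_lit 137868768940) (nat_lit 0) (nat_lit 43503776497) (nat_lit 2) (nat_lit 5) (nat_lit 4) (nat_lit 4) (nat_lit 2) (nat_lit 4) (nat_lit 371) (nat_lit 295) (nat_lit 234)) (XT.lf (nat_lit 0) (nat_lit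 63174870308) (nat_lit 152) (nat_lit 132974772037) (nat_lit 0) (nat_lit 54951791465) (nat_lit 2) (nat_lit 5) (nat_lit 4) (nat_lit 4) (nat_lit 2) (nat_lit 4) (nat_lit 372) (nat_lit 295) (nat_lit 233))) (XT.nd (nat_lit 78) (nat_lit 0) (nat_lit 0) (XT.lf (nat_lit 0) (nat_lit 75534564116) (nat_lit 152) (nat_lit 127709668685) (nat_lit 0) (nat_lit 67306283868) (nat_lit 2) (nat_lit 5) (nat_lit 4) (nat_lit 4) (nat_lit 2) (nat_lit 4) (nat_lit 373) (nat_lit 295) (nat_lit 232)) (XT.lf (nat_lit 0) (nat_lit 88873561875) (nat_lit 152) (nat_lit 122042258273) (nat_lit 0) (nat_lit 80640465512) (nat_lit 2) (nat_lit 5) (nat_lit 4) (nat_lit 4) (nat_lit 2) (nat_lit 4) (nat_lit 374) (nat_lit 295) (nat_lit 231))))) (XT.nd (nat_lit 312) (nat_lit 0) (nat_lit 0) (XT.nd (nat_lit 156) (nat_lit 0) (nat_lit 0) (XT.nd (nat_lit 78) (nat_lit 0) (nat_lit 0) (XT.lf (nat_lit 0) (nat_lit 103270909500) (nat_lit 152) (nat_lit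 115938956147) (nat_lit 0) (nat_lit 95033353770) (nat_lit 2) (nat_lit 5) (nat_lit 4) (nat_lit 4) (nat_lit 2) (nat_lit 4) (nat_lit 375) (nat_lit 295) (nat_lit 230)) (XT.lf (nat_lit 0) (nat_lit 118811924606) (nat_lit 152) (nat_lit 109363594589) (nat_lit 0) (nat_lit 110570239833) (nat_lit 2) (nat_lit 5) (nat_lit 4) (nat_lit 4) (nat_lit 2) (nat_lit 4) (nat_lit 376) (nat_lit 295) (nat_lit 229))) (XT.nd (nat_lit 78) (nat_lit 0) (nat_lit 0) (XT.lf (nat_lit 0) (nat_lit 135588702096) (nat_lit 152) (nat_lit 102277208495) (nat_lit 0) (nat_lit 127343194136) (nat_lit 2) (nat_lit 5) (nat_lit 4) (nat_lit 4) (nat_lit 2) (nat_lit 4) (nat_lit 377) (nat_lit 295) (nat_lit 228)) (XT.lf (nat_lit 0) (nat_lit 153700659912) (nat_lit 152) (nat_lit 94637804465) (nat_lit 0) (nat_lit 145451611963) (nat_lit 2) (nat_lit 5) (nat_lit 4) (nat_lit 4) (nat_lit 2) (nat_lit 4) (nat_lit 378) (nat_lit 295) (nat_lit 227)))) (XT.nd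 (nat_lit 156) (nat_lit 0) (nat_lit 0) (XT.nd (nat_lit 78) (nat_lit 0) (nat_lit 0) (XT.lf (nat_lit 0) (nat_lit 173255128174) (nat_lit 152) (nat_lit 86400111957) (nat_lit 0) (nat_lit 165002802458) (nat_lit 2) (nat_lit 5) (nat_lit 4) (nat_lit 4) (nat_lit 2) (nat_lit 4) (nat_lit 379) (nat_lit 295) (nat_lit 226)) (XT.lf (nat_lit 0) (nat_lit 194367985213) (nat_lit 152) (nat_lit 77515315016) (nat_lit 0) (nat_lit 186112624527) (nat_lit 2) (nat_lit 5) (nat_lit 4) (nat_lit 4) (nat_lit 2) (nat_lit 4) (nat_lit 380) (nat_lit 295) (nat_lit 225))) (XT.nd (nat_lit 78) (nat_lit 0) (nat_lit 0) (XT.lf (nat_lit 0) (nat_lit 217164344255) (nat_lit 152) (nat_lit 67930762992) (nat_lit 0) (nat_lit 208906173412) (nat_lit 2) (nat_lit 5) (nat_lit 4) (nat_lit 4) (nat_lit 2) (nat_lit 4) (nat_lit 381) (nat_lit 295) (nat_lit 224)) (XT.nd (nat_lit 78) (nat_lit 0) (nat_lit 0) (XT.lf (nat_lit 0) (nat_lit 241779294836) (nat_lit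 152) (nat_lit 57589658541) (nat_lit 0) (nat_lit 233518521995) (nat_lit 2) (nat_lit 5) (nat_lit 4) (nat_lit 4) (nat_lit 2) (nat_lit 4) (nat_lit 382) (nat_lit 295) (nat_lit 223)) (XT.lf (nat_lit 0) (nat_lit 268358703329) (nat_lit 152) (nat_lit 46430721044) (nat_lit 0) (nat_lit 260095521231) (nat_lit 2) (nat_lit 5) (nat_lit 4) (nat_lit 4) (nat_lit 2) (nat_lit 4) (nat_lit 383) (nat_lit 295) (nat_lit 222))))))) (XT.nd (nat_lit 624) (nat_lit 0) (nat_lit 0) (XT.nd (nat_lit 312) (nat_lit 0) (nat_lit 0) (XT.nd (nat_lit 156) (nat_lit 76) (nat_lit 0) (XT.nd (nat_lit 78) (nat_lit 0) (nat_lit 0) (XT.lf (nat_lit 0) (nat_lit 297060077339) (nat_lit 152) (nat_lit 34387823463) (nat_lit 0) (nat_lit 288794664449) (nat_lit 2) (nat_lit 5) (nat_lit 4) (nat_lit 4) (nat_lit 2) (nat_lit 4) (nat_lit 384) (nat_lit 295) (nat_lit 221)) (XT.lf (nat_lit 0) (nat_lit 328053499085) (nat_lit 152) (nat_lit 21389600479) (nat_lit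 0) (nat_lit 319786020645) (nat_lit 2) (nat_lit 5) (nat_lit 4) (nat_lit 4) (nat_lit 2) (nat_lit 4) (nat_lit 385) (nat_lit 295) (nat_lit 220))) (XT.nd (nat_lit 78) (nat_lit 76) (nat_lit 0) (XT.lf (nat_lit 0) (nat_lit 361522633286) (nat_lit 152) (nat_lit 7359025587) (nat_lit 0) (nat_lit 353253242300) (nat_lit 2) (nat_lit 5) (nat_lit 4) (nat_lit 4) (nat_lit 2) (nat_lit 4) (nat_lit 386) (nat_lit 295) (nat_lit 219)) (XT.lf (nat_lit 0) (nat_lit 8197097370) (nat_lit 76) (nat_lit 389665858572) (nat_lit 76) (nat_lit 381394696710) (nat_lit 1) (nat_lit 4) (nat_lit 2) (nat_lit 5) (nat_lit 2) (nat_lit 4) (nat_lit 387) (nat_lit 295) (nat_lit 218)))) (XT.nd (nat_lit 156) (nat_lit 0) (nat_lit 0) (XT.nd (nat_lit 78) (nat_lit 0) (nat_lit 0) (XT.lf (nat_lit 0) (nat_lit 25409450484) (nat_lit 76) (nat_lit 411898875119) (nat_lit 76) (nat_lit 403626073558) (nat_lit 1) (nat_lit 4) (nat_lit 2) (nat_lit 5) (nat_lit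 2) (nat_lit 4) (nat_lit 388) (nat_lit 295) (nat_lit 217)) (XT.lf (nat_lit 0) (nat_lit 43992519636) (nat_lit 76) (nat_lit 435913668526) (nat_lit 76) (nat_lit 427639348724) (nat_lit 1) (nat_lit 4) (nat_lit 2) (nat_lit 5) (nat_lit 2) (nat_lit 4) (nat_lit 389) (nat_lit 295) (nat_lit 216))) (XT.nd (nat_lit 78) (nat_lit 0) (nat_lit 0) (XT.lf (nat_lit 0) (nat_lit 64056426718) (nat_lit 76) (nat_lit 461852548678) (nat_lit 76) (nat_lit 453576823098) (nat_lit 1) (nat_lit 4) (nat_lit 2) (nat_lit 5) (nat_lit 2) (nat_lit 4) (nat_lit 390) (nat_lit 295) (nat_lit 215)) (XT.lf (nat_lit 0) (nat_lit 85720068957) (nat_lit 76) (nat_lit 489869227459) (nat_lit 76) (nat_lit 481592200232) (nat_lit 1) (nat_lit 4) (nat_lit 2) (nat_lit 5) (nat_lit 2) (nat_lit 4) (nat_lit 391) (nat_lit 295) (nat_lit 214))))) (XT.nd (nat_lit 312) (nat_lit 0) (nat_lit 0) (XT.nd (nat_lit 156) (nat_lit 0) (nat_lit 0) (XT.nd (nat_lit 78)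 (nat_lit 0) (nat_lit 0) (XT.lf (nat_lit 0) (nat_lit 109111823492) (nat_lit 76) (nat_lit 520129729631) (nat_lit 76) (nat_lit 511851497176) (nat_lit 1) (nat_lit 4) (nat_lit 2) (nat_lit 5) (nat_lit 2) (nat_lit 4) (nat_lit 392) (nat_lit 295) (nat_lit 213)) (XT.lf (nat_lit 0) (nat_lit 134370308129) (nat_lit 76) (nat_lit 552813376689) (nat_lit 76) (nat_lit 544534028282) (nat_lit 1) (nat_lit 4) (nat_lit 2) (nat_lit 5) (nat_lit 2) (nat_lit 4) (nat_lit 393) (nat_lit 295) (nat_lit 212))) (XT.nd (nat_lit 78) (nat_lit 0) (nat_lit 0) (XT.lf (nat_lit 0) (nat_lit 161645202775) (nat_lit 76) (nat_lit 588113849504) (nat_lit 76) (nat_lit 579833467808) (nat_lit 1) (nat_lit 4) (nat_lit 2) (nat_lit 5) (nat_lit 2) (nat_lit 4) (nat_lit 394) (nat_lit 295) (nat_lit 211)) (XT.lf (nat_lit 0) (nat_lit 191098136437) (nat_lit 76) (nat_lit 626240336063) (nat_lit 76) (nat_lit 617958997618) (nat_lit 1) (nat_lit 4) (nat_lit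 2) (nat_lit 5) (nat_lit 2) (nat_lit 4) (nat_lit 395) (nat_lit 295) (nat_lit 210)))) (XT.nd (nat_lit 156) (nat_lit 0) (nat_lit 0) (XT.nd (nat_lit 78) (nat_lit 0) (nat_lit 0) (XT.lf (nat_lit 0) (nat_lit 222903645018) (nat_lit 76) (nat_lit 667418771102) (nat_lit 76) (nat_lit 659136546779) (nat_lit 1) (nat_lit 4) (nat_lit 2) (nat_lit 5) (nat_lit 2) (nat_lit 4) (nat_lit 396) (nat_lit 295) (nat_lit 209)) (XT.lf (nat_lit 0) (nat_lit 257250205604) (nat_lit 76) (nat_lit 711893174976) (nat_lit 76) (nat_lit 703610130395) (nat_lit 1) (nat_lit 4) (nat_lit 2) (nat_lit 5) (nat_lit 2) (nat_lit 4) (nat_lit 397) (nat_lit 295) (nat_lit 208))) (XT.nd (nat_lit 78) (nat_lit 0) (nat_lit 0) (XT.lf (nat_lit 0) (nat_lit 294341353371) (nat_lit 76) (nat_lit 759927099709) (nat_lit 76) (nat_lit 751643295629) (nat_lit 1) (nat_lit 4) (nat_lit 2) (nat_lit 5) (nat_lit 2) (nat_lit 4) (nat_lit 398) (nat_lit 295) (nat_lit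 207)) (XT.nd (nat_lit 78) (nat_lit 0) (nat_lit 0) (XT.lf (nat_lit 0) (nat_lit 334396887713) (nat_lit 76) (nat_lit 811805190779) (nat_lit 76) (nat_lit 803520683460) (nat_lit 1) (nat_lit 4) (nat_lit 2) (nat_lit 5) (nat_lit 2) (nat_lit 4) (nat_lit 399) (nat_lit 295) (nat_lit 206)) (XT.lf (nat_lit 0) (nat_lit 377654174758) (nat_lit 76) (nat_lit 867834873913) (nat_lit 76) (nat_lit 859549715446) (nat_lit 1) (nat_lit 4) (nat_lit 2) (nat_lit 5) (nat_lit 2) (nat_lit 4) (nat_lit 400) (nat_lit 295) (nat_lit 205))))))))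
noncomputable def xc82 : XT := (XT.nd (nat_lit 39936) (nat_lit 0) (nat_lit 1444) (XT.nd (nat_lit 624) (nat_lit 0) (nat_lit 0) (XT.nd (nat_lit 312) (nat_lit 0) (nat_lit 0) (XT.nd (nat_lit 156) (nat_lit 0) (nat_lit 0) (XT.nd (nat_lit 78) (nat_lit 0) (nat_lit 0) (XT.lf (nat_lit 0) (nat_lit 424369553985) (nat_lit 76) (nat_lit 928348176861) (nat_lit 76) (nat_lit 920062415480) (nat_lit 1) (nat_lit 4) (nat_lit 2) (nat_lit 5) (nat_lit 2) (nat_lit 4) (nat_lit 401) (nat_lit 295) (nat_lit 204)) (XT.lf (nat_lit 0) (nat_lit 474819857273) (nat_lit 76) (nat_lit 993703696975) (nat_lit 76) (nat_lit 985417377340) (nat_lit 1) (nat_lit 4) (nat_lit 2) (nat_lit 5) (nat_lit 2) (nat_lit 4) (nat_lit 402) (nat_lit 295) (nat_lit 203))) (XT.nd (nat_lit 78) (nat_lit 0) (nat_lit 0) (XT.lf (nat_lit 0) (nat_lit 529304049380) (nat_lit 76) (nat_lit 1064288726225) (nat_lit 76) (nat_lit 1056001889689) (nat_lit 1) (nat_lit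 4) (nat_lit 2) (nat_lit 5) (nat_lit 2) (nat_lit 4) (nat_lit 403) (nat_lit 295) (nat_lit 202)) (XT.lf (nat_lit 0) (nat_lit 588144999593) (nat_lit 76) (nat_lit 1140521546268) (nat_lit 76) (nat_lit 1132234231119) (nat_lit 1) (nat_lit 4) (nat_lit 2) (nat_lit 5) (nat_lit 2) (nat_lit 4) (nat_lit 404) (nat_lit 295) (nat_lit 201)))) (XT.nd (nat_lit 156) (nat_lit 0) (nat_lit 0) (XT.nd (nat_lit 78) (nat_lit 0) (nat_lit 0) (XT.lf (nat_lit 0) (nat_lit 651691395025) (nat_lit 76) (nat_lit 1222853907146) (nat_lit 76) (nat_lit 1214566148837) (nat_lit 1) (nat_lit 4) (nat_lit 2) (nat_lit 5) (nat_lit 2) (nat_lit 4) (nat_lit 405) (nat_lit 295) (nat_lit 200)) (XT.lf (nat_lit 0) (nat_lit 720319806907) (nat_lit 76) (nat_lit 1311773704332) (nat_lit 76) (nat_lit 1303485535690) (nat_lit 1) (nat_lit 4) (nat_lit 2) (nat_lit 5) (nat_lit 2) (nat_lit 4) (nat_lit 406) (nat_lit 295) (nat_lit 199))) (XT.nd (nat_lit 78)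 (nat_lit 0) (nat_lit 0) (XT.lf (nat_lit 0) (nat_lit 794436922126) (nat_lit 76) (nat_lit 1407807869958) (nat_lit 76) (nat_lit 1399519321378) (nat_lit 1) (nat_lit 4) (nat_lit 2) (nat_lit 5) (nat_lit 2) (nat_lit 4) (nat_lit 407) (nat_lit 295) (nat_lit 198)) (XT.lf (nat_lit 0) (nat_lit 874481953216) (nat_lit 76) (nat_lit 1511525495376) (nat_lit 76) (nat_lit 1503236595001) (nat_lit 1) (nat_lit 4) (nat_lit 2) (nat_lit 5) (nat_lit 2) (nat_lit 4) (nat_lit 408) (nat_lit 295) (nat_lit 197))))) (XT.nd (nat_lit 312) (nat_lit 0) (nat_lit 0) (XT.nd (nat_lit 156) (nat_lit 0) (nat_lit 0) (XT.nd (nat_lit 78) (nat_lit 0) (nat_lit 0) (XT.lf (nat_lit 0) (nat_lit 960929241101) (nat_lit 76) (nat_lit 1623541203550) (nat_lit 76) (nat_lit 1615251977440) (nat_lit 1) (nat_lit 4) (nat_lit 2) (nat_lit 5) (nat_lit 2) (nat_lit 4) (nat_lit 409) (nat_lit 295) (nat_lit 196)) (XT.lf (nat_lit 0) (nat_lit 1054291066006) (nat_lit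 76) (nat_lit 1744518791271) (nat_lit 76) (nat_lit 1736229263553) (nat_lit 1) (nat_lit 4) (nat_lit 2) (nat_lit 5) (nat_lit 2) (nat_lit 4) (nat_lit 410) (nat_lit 295) (nat_lit 195))) (XT.nd (nat_lit 78) (nat_lit 0) (nat_lit 0) (XT.lf (nat_lit 0) (nat_lit 1155120683190) (nat_lit 76) (nat_lit 1875175162761) (nat_lit 76) (nat_lit 1866885355777) (nat_lit 1) (nat_lit 4) (nat_lit 2) (nat_lit 5) (nat_lit 2) (nat_lit 4) (nat_lit 411) (nat_lit 295) (nat_lit 194)) (XT.lf (nat_lit 0) (nat_lit 1264015601496) (nat_lit 76) (nat_lit 2016284577999) (nat_lit 76) (nat_lit 2007994512436) (nat_lit 1) (nat_lit 4) (nat_lit 2) (nat_lit 5) (nat_lit 2) (nat_lit 4) (nat_lit 412) (nat_lit 295) (nat_lit 193)))) (XT.nd (nat_lit 38766) (nat_lit 0) (nat_lit 3952) (XT.nd (nat_lit 38688) (nat_lit 0) (nat_lit 4864) (XT.lf (nat_lit 0) (nat_lit 1381621124143) (nat_lit 76) (nat_lit 2168683240929) (nat_lit 76) (nat_lit 2160392935940)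 (nat_lit 1) (nat_lit 4) (nat_lit 2) (nat_lit 5) (nat_lit 2) (nat_lit 4) (nat_lit 413) (nat_lit 295) (nat_lit 192)) (XT.lf (nat_lit 0) (nat_lit 1156370389) (nat_lit 380) (nat_lit 1145003734) (nat_lit 0) (nat_lit 1156370389) (nat_lit 65) (nat_lit 5) (nat_lit 70) (nat_lit 4) (nat_lit 65) (nat_lit 4) (nat_lit 308) (nat_lit 296) (nat_lit 296))) (XT.nd (nat_lit 78) (nat_lit 532) (nat_lit 0) (XT.lf (nat_lit 0) (nat_lit 2479251900) (nat_lit 380) (nat_lit 3185942510) (nat_lit 380) (nat_lit 1381570551) (nat_lit 60) (nat_lit 4) (nat_lit 65) (nat_lit 5) (nat_lit 65) (nat_lit 4) (nat_lit 309) (nat_lit 296) (nat_lit 295)) (XT.nd (nat_lit 78) (nat_lit 0) (nat_lit 0) (XT.lf (nat_lit 0) (nat_lit 276450738) (nat_lit 456) (nat_lit 1527173047) (nat_lit 532) (nat_lit 5396556970) (nat_lit 53) (nat_lit 5) (nat_lit 59) (nat_lit 5) (nat_lit 60) (nat_lit 4) (nat_lit 310) (nat_lit 296) (nat_lit 294)) (XT.lf (nat_lit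 0) (nat_lit 5056703983) (nat_lit 532) (nat_lit 1909145367) (nat_lit 0) (nat_lit 406662443) (nat_lit 53) (nat_lit 5) (nat_lit 60) (nat_lit 4) (nat_lit 53) (nat_lit 4) (nat_lit 311) (nat_lit 296) (nat_lit 293))))))) (XT.nd (nat_lit 624) (nat_lit 988) (nat_lit 0) (XT.nd (nat_lit 312) (nat_lit 608) (nat_lit 0) (XT.nd (nat_lit 156) (nat_lit 304) (nat_lit 0) (XT.nd (nat_lit 78) (nat_lit 228) (nat_lit 0) (XT.lf (nat_lit 0) (nat_lit 850034999) (nat_lit 380) (nat_lit 4208235995) (nat_lit 76) (nat_lit 2507728230) (nat_lit 48) (nat_lit 5) (nat_lit 53) (nat_lit 5) (nat_lit 49) (nat_lit 4) (nat_lit 312) (nat_lit 296) (nat_lit 292)) (XT.lf (nat_lit 0) (nat_lit 1117394440) (nat_lit 228) (nat_lit 2883436555) (nat_lit 304) (nat_lit 3781199084) (nat_lit 45) (nat_lit 5) (nat_lit 48) (nat_lit 5) (nat_lit 49) (nat_lit 4) (nat_lit 313) (nat_lit 296) (nat_lit 291))) (XT.nd (nat_lit 78) (nat_lit 304) (nat_lit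 0) (XT.lf (nat_lit 0) (nat_lit 6854199002) (nat_lit 228) (nat_lit 451374765) (nat_lit 304) (nat_lit 718008302) (nat_lit 45) (nat_lit 5) (nat_lit 48) (nat_lit 5) (nat_lit 49) (nat_lit 4) (nat_lit 314) (nat_lit 296) (nat_lit 290)) (XT.lf (nat_lit 0) (nat_lit 2426454745) (nat_lit 304) (nat_lit 3651333520) (nat_lit 76) (nat_lit 2204756811) (nat_lit 41) (nat_lit 5) (nat_lit 45) (nat_lit 5) (nat_lit 42) (nat_lit 4) (nat_lit 315) (nat_lit 296) (nat_lit 289)))) (XT.nd (nat_lit 156) (nat_lit 380) (nat_lit 0) (XT.nd (nat_lit 78) (nat_lit 76) (nat_lit 0) (XT.lf (nat_lit 0) (nat_lit 2228116909) (nat_lit 152) (nat_lit 3458955931) (nat_lit 228) (nat_lit 2881698239) (nat_lit 39) (nat_lit 5) (nat_lit 41) (nat_lit 5) (nat_lit 42) (nat_lit 4) (nat_lit 316) (nat_lit 296) (nat_lit 288)) (XT.lf (nat_lit 0) (nat_lit 225147802) (nat_lit 228) (nat_lit 353595959) (nat_lit 76) (nat_lit 8305896778) (nat_lit 38)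 (nat_lit 5) (nat_lit 41) (nat_lit 5) (nat_lit 39) (nat_lit 5) (nat_lit 317) (nat_lit 296) (nat_lit 287))) (XT.nd (nat_lit 78) (nat_lit 152) (nat_lit 0) (XT.lf (nat_lit 0) (nat_lit 3459581891) (nat_lit 304) (nat_lit 3184284615) (nat_lit 76) (nat_lit 2573392285) (nat_lit 35) (nat_lit 5) (nat_lit 39) (nat_lit 5) (nat_lit 36) (nat_lit 4) (nat_lit 318) (nat_lit 296) (nat_lit 286)) (XT.lf (nat_lit 0) (nat_lit 3277791354) (nat_lit 152) (nat_lit 3607530823) (nat_lit 228) (nat_lit 2696787371) (nat_lit 33) (nat_lit 5) (nat_lit 35) (nat_lit 5) (nat_lit 36) (nat_lit 4) (nat_lit 319) (nat_lit 296) (nat_lit 285))))) (XT.nd (nat_lit 312) (nat_lit 380) (nat_lit 0) (XT.nd (nat_lit 156) (nat_lit 380) (nat_lit 0) (XT.nd (nat_lit 78) (nat_lit 0) (nat_lit 0) (XT.lf (nat_lit 0) (nat_lit 213916800) (nat_lit 152) (nat_lit 290287764) (nat_lit 228) (nat_lit 9476911324) (nat_lit 30) (nat_lit 5) (nat_lit 32) (nat_lit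 5) (nat_lit 33) (nat_lit 5) (nat_lit 320) (nat_lit 296) (nat_lit 284)) (XT.lf (nat_lit 0) (nat_lit 3907577441) (nat_lit 228) (nat_lit 3193359685) (nat_lit 76) (nat_lit 3298322373) (nat_lit 30) (nat_lit 5) (nat_lit 33) (nat_lit 5) (nat_lit 31) (nat_lit 4) (nat_lit 321) (nat_lit 296) (nat_lit 283))) (XT.nd (nat_lit 78) (nat_lit 228) (nat_lit 0) (XT.lf (nat_lit 0) (nat_lit 3857027086) (nat_lit 152) (nat_lit 3674614051) (nat_lit 228) (nat_lit 3323506751) (nat_lit 28) (nat_lit 5) (nat_lit 30) (nat_lit 5) (nat_lit 31) (nat_lit 4) (nat_lit 322) (nat_lit 296) (nat_lit 282)) (XT.lf (nat_lit 0) (nat_lit 35484946) (nat_lit 228) (nat_lit 11278347617) (nat_lit 76) (nat_lit 38247480) (nat_lit 25) (nat_lit 5) (nat_lit 28) (nat_lit 5) (nat_lit 26) (nat_lit 4) (nat_lit 323) (nat_lit 296) (nat_lit 281)))) (XT.nd (nat_lit 156) (nat_lit 304) (nat_lit 0) (XT.nd (nat_lit 78) (nat_lit 76) (nat_lit 0) (XT.lf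 (nat_lit 0) (nat_lit 3628807304) (nat_lit 228) (nat_lit 4191361883) (nat_lit 76) (nat_lit 4050210781) (nat_lit 25) (nat_lit 5) (nat_lit 28) (nat_lit 5) (nat_lit 26) (nat_lit 4) (nat_lit 324) (nat_lit 296) (nat_lit 280)) (XT.lf (nat_lit 0) (nat_lit 3410518070) (nat_lit 76) (nat_lit 4045370394) (nat_lit 152) (nat_lit 4978674709) (nat_lit 24) (nat_lit 5) (nat_lit 25) (nat_lit 5) (nat_lit 26) (nat_lit 4) (nat_lit 325) (nat_lit 296) (nat_lit 279))) (XT.nd (nat_lit 78) (nat_lit 304) (nat_lit 0) (XT.lf (nat_lit 0) (nat_lit 11574500135) (nat_lit 152) (nat_lit 1405079197) (nat_lit 0) (nat_lit 65586219) (nat_lit 24) (nat_lit 5) (nat_lit 26) (nat_lit 4) (nat_lit 24) (nat_lit 4) (nat_lit 326) (nat_lit 296) (nat_lit 278)) (XT.nd (nat_lit 78) (nat_lit 76) (nat_lit 0) (XT.lf (nat_lit 0) (nat_lit 2352495304) (nat_lit 228) (nat_lit 6900271945) (nat_lit 76) (nat_lit 4435449236) (nat_lit 21) (nat_lit 5)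 (nat_lit 24) (nat_lit 5) (nat_lit 22) (nat_lit 4) (nat_lit 327) (nat_lit 296) (nat_lit 277)) (XT.lf (nat_lit 0) (nat_lit 1144671435) (nat_lit 76) (nat_lit 5202253673) (nat_lit 152) (nat_lit 8037231036) (nat_lit 20) (nat_lit 5) (nat_lit 21) (nat_lit 5) (nat_lit 22) (nat_lit 4) (nat_lit 328) (nat_lit 296) (nat_lit 276))))))))
noncomputable def xc83 : XT := (XT.nd (nat_lit 1326) (nat_lit 380) (nat_lit 0) (XT.nd (nat_lit 624) (nat_lit 380) (nat_lit 0) (XT.nd (nat_lit 312) (nat_lit 228) (nat_lit 0) (XT.nd (nat_lit 156) (nat_lit 152) (nat_lit 0) (XT.nd (nat_lit 78) (nat_lit 76) (nat_lit 0) (XT.lf (nat_lit 0) (nat_lit 10020880286) (nat_lit 76) (nat_lit 710738631) (nat_lit 152) (nat_lit 4398578818) (nat_lit 20) (nat_lit 5) (nat_lit 21) (nat_lit 5) (nat_lit 22) (nat_lit 4) (nat_lit 329) (nat_lit 296) (nat_lit 275)) (XT.lf (nat_lit 0) (nat_lit 3552957549) (nat_lit 76) (nat_lit 11987997408) (nat_lit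 76) (nat_lit 389135697) (nat_lit 19) (nat_lit 4) (nat_lit 20) (nat_lit 5) (nat_lit 20) (nat_lit 4) (nat_lit 330) (nat_lit 296) (nat_lit 274))) (XT.nd (nat_lit 78) (nat_lit 76) (nat_lit 0) (XT.lf (nat_lit 0) (nat_lit 3795317681) (nat_lit 152) (nat_lit 3898259698) (nat_lit 76) (nat_lit 9088769102) (nat_lit 18) (nat_lit 5) (nat_lit 20) (nat_lit 5) (nat_lit 19) (nat_lit 4) (nat_lit 331) (nat_lit 296) (nat_lit 273)) (XT.lf (nat_lit 0) (nat_lit 5332831783) (nat_lit 76) (nat_lit 2986719145) (nat_lit 152) (nat_lit 9380400885) (nat_lit 17) (nat_lit 5) (nat_lit 18) (nat_lit 5) (nat_lit 19) (nat_lit 4) (nat_lit 332) (nat_lit 296) (nat_lit 272)))) (XT.nd (nat_lit 156) (nat_lit 152) (nat_lit 0) (XT.nd (nat_lit 78) (nat_lit 76) (nat_lit 0) (XT.lf (nat_lit 0) (nat_lit 13264676349) (nat_lit 152) (nat_lit 3395717632) (nat_lit 0) (nat_lit 2025912157) (nat_lit 17) (nat_lit 5) (nat_lit 19) (nat_lit 4) (nat_lit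 17) (nat_lit 4) (nat_lit 333) (nat_lit 296) (nat_lit 271)) (XT.lf (nat_lit 0) (nat_lit 6363603900) (nat_lit 76) (nat_lit 12379072761) (nat_lit 76) (nat_lit 997963595) (nat_lit 16) (nat_lit 4) (nat_lit 17) (nat_lit 5) (nat_lit 17) (nat_lit 4) (nat_lit 334) (nat_lit 296) (nat_lit 270))) (XT.nd (nat_lit 78) (nat_lit 76) (nat_lit 0) (XT.lf (nat_lit 0) (nat_lit 3592946695) (nat_lit 152) (nat_lit 4039580941) (nat_lit 76) (nat_lit 13239372924) (nat_lit 15) (nat_lit 5) (nat_lit 17) (nat_lit 5) (nat_lit 16) (nat_lit 4) (nat_lit 335) (nat_lit 296) (nat_lit 269)) (XT.lf (nat_lit 0) (nat_lit 6169065167) (nat_lit 76) (nat_lit 2390556519) (nat_lit 152) (nat_lit 13527015471) (nat_lit 14) (nat_lit 5) (nat_lit 15) (nat_lit 5) (nat_lit 16) (nat_lit 4) (nat_lit 336) (nat_lit 296) (nat_lit 268))))) (XT.nd (nat_lit 312) (nat_lit 152) (nat_lit 0) (XT.nd (nat_lit 156) (nat_lit 152) (nat_lit 0) (XT.nd (nat_lit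 78) (nat_lit 76) (nat_lit 0) (XT.lf (nat_lit 0) (nat_lit 14030593205) (nat_lit 152) (nat_lit 6206575706) (nat_lit 0) (nat_lit 3152865455) (nat_lit 14) (nat_lit 5) (nat_lit 16) (nat_lit 4) (nat_lit 14) (nat_lit 4) (nat_lit 337) (nat_lit 296) (nat_lit 267)) (XT.lf (nat_lit 0) (nat_lit 4285955498) (nat_lit 76) (nat_lit 15739736530) (nat_lit 76) (nat_lit 4765131182) (nat_lit 13) (nat_lit 4) (nat_lit 14) (nat_lit 5) (nat_lit 14) (nat_lit 4) (nat_lit 338) (nat_lit 296) (nat_lit 266))) (XT.nd (nat_lit 78) (nat_lit 76) (nat_lit 0) (XT.lf (nat_lit 0) (nat_lit 282624421) (nat_lit 152) (nat_lit 10476448030) (nat_lit 76) (nat_lit 15536595587) (nat_lit 12) (nat_lit 5) (nat_lit 14) (nat_lit 5) (nat_lit 13) (nat_lit 4) (nat_lit 339) (nat_lit 296) (nat_lit 265)) (XT.lf (nat_lit 0) (nat_lit 98288227) (nat_lit 76) (nat_lit 5308275224) (nat_lit 152) (nat_lit 22510079562) (nat_lit 11) (nat_lit 5) (nat_lit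 12) (nat_lit 5) (nat_lit 13) (nat_lit 4) (nat_lit 340) (nat_lit 296) (nat_lit 264)))) (XT.nd (nat_lit 156) (nat_lit 152) (nat_lit 0) (XT.nd (nat_lit 78) (nat_lit 0) (nat_lit 0) (XT.lf (nat_lit 0) (nat_lit 11176297534) (nat_lit 152) (nat_lit 17688697885) (nat_lit 0) (nat_lit 783456503) (nat_lit 11) (nat_lit 5) (nat_lit 13) (nat_lit 4) (nat_lit 11) (nat_lit 4) (nat_lit 341) (nat_lit 296) (nat_lit 263)) (XT.lf (nat_lit 0) (nat_lit 17478895168) (nat_lit 152) (nat_lit 7014111097) (nat_lit 0) (nat_lit 7020120873) (nat_lit 11) (nat_lit 5) (nat_lit 13) (nat_lit 4) (nat_lit 11) (nat_lit 4) (nat_lit 342) (nat_lit 296) (nat_lit 262))) (XT.nd (nat_lit 78) (nat_lit 76) (nat_lit 0) (XT.lf (nat_lit 0) (nat_lit 4627829300) (nat_lit 76) (nat_lit 19707511042) (nat_lit 76) (nat_lit 9187687427) (nat_lit 10) (nat_lit 4) (nat_lit 11) (nat_lit 5) (nat_lit 11) (nat_lit 4) (nat_lit 343) (nat_lit 296) (nat_lit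 261)) (XT.nd (nat_lit 78) (nat_lit 76) (nat_lit 0) (XT.lf (nat_lit 0) (nat_lit 17484897824) (nat_lit 76) (nat_lit 14387320459) (nat_lit 76) (nat_lit 3810969696) (nat_lit 10) (nat_lit 4) (nat_lit 11) (nat_lit 5) (nat_lit 11) (nat_lit 4) (nat_lit 344) (nat_lit 296) (nat_lit 260)) (XT.lf (nat_lit 0) (nat_lit 1839158212) (nat_lit 152) (nat_lit 6803241631) (nat_lit 76) (nat_lit 29374489793) (nat_lit 9) (nat_lit 5) (nat_lit 11) (nat_lit 5) (nat_lit 10) (nat_lit 4) (nat_lit 345) (nat_lit 296) (nat_lit 259))))))) (XT.nd (nat_lit 702) (nat_lit 76) (nat_lit 0) (XT.nd (nat_lit 312) (nat_lit 228) (nat_lit 0) (XT.nd (nat_lit 156) (nat_lit 0) (nat_lit 0) (XT.nd (nat_lit 78) (nat_lit 0) (nat_lit 0) (XT.lf (nat_lit 0) (nat_lit 5582175578) (nat_lit 76) (nat_lit 2234809619) (nat_lit 152) (nat_lit 32705873510) (nat_lit 8) (nat_lit 5) (nat_lit 9) (nat_lit 5) (nat_lit 10) (nat_lit 4) (nat_lit 346) (nat_lit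 296) (nat_lit 258)) (XT.lf (nat_lit 0) (nat_lit 14524268470) (nat_lit 152) (nat_lit 24088487821) (nat_lit 0) (nat_lit 4596465965) (nat_lit 8) (nat_lit 5) (nat_lit 10) (nat_lit 4) (nat_lit 8) (nat_lit 4) (nat_lit 347) (nat_lit 296) (nat_lit 257))) (XT.nd (nat_lit 78) (nat_lit 0) (nat_lit 0) (XT.lf (nat_lit 0) (nat_lit 21777757573) (nat_lit 152) (nat_lit 12520498047) (nat_lit 0) (nat_lit 11811483641) (nat_lit 8) (nat_lit 5) (nat_lit 10) (nat_lit 4) (nat_lit 8) (nat_lit 4) (nat_lit 348) (nat_lit 296) (nat_lit 256)) (XT.lf (nat_lit 0) (nat_lit 29566688921) (nat_lit 152) (nat_lit 114415532) (nat_lit 0) (nat_lit 19564793298) (nat_lit 8) (nat_lit 5) (nat_lit 10) (nat_lit 4) (nat_lit 8) (nat_lit 4) (nat_lit 349) (nat_lit 296) (nat_lit 255)))) (XT.nd (nat_lit 156) (nat_lit 152) (nat_lit 0) (XT.nd (nat_lit 78) (nat_lit 0) (nat_lit 0) (XT.lf (nat_lit 0) (nat_lit 13898538430) (nat_lit 76) (nat_lit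 24372940896) (nat_lit 76) (nat_lit 14338062225) (nat_lit 7) (nat_lit 4) (nat_lit 8) (nat_lit 5) (nat_lit 8) (nat_lit 4) (nat_lit 350) (nat_lit 296) (nat_lit 254)) (XT.lf (nat_lit 0) (nat_lit 28960206791) (nat_lit 76) (nat_lit 18675238260) (nat_lit 76) (nat_lit 8609819730) (nat_lit 7) (nat_lit 4) (nat_lit 8) (nat_lit 5) (nat_lit 8) (nat_lit 4) (nat_lit 351) (nat_lit 296) (nat_lit 253))) (XT.nd (nat_lit 78) (nat_lit 152) (nat_lit 0) (XT.lf (nat_lit 0) (nat_lit 45153818962) (nat_lit 76) (nat_lit 12557360706) (nat_lit 76) (nat_lit 2463664528) (nat_lit 7) (nat_lit 4) (nat_lit 8) (nat_lit 5) (nat_lit 8) (nat_lit 4) (nat_lit 352) (nat_lit 296) (nat_lit 252)) (XT.nd (nat_lit 78) (nat_lit 76) (nat_lit 0) (XT.lf (nat_lit 0) (nat_lit 3929884297) (nat_lit 152) (nat_lit 1945719845) (nat_lit 76) (nat_lit 58538002790) (nat_lit 6) (nat_lit 5) (nat_lit 8) (nat_lit 5) (nat_lit 7) (nat_lit 4) (nat_lit 353)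 (nat_lit 296) (nat_lit 251)) (XT.lf (nat_lit 0) (nat_lit 11015021016) (nat_lit 152) (nat_lit 56323967396) (nat_lit 0) (nat_lit 1622314804) (nat_lit 5) (nat_lit 5) (nat_lit 7) (nat_lit 4) (nat_lit 5) (nat_lit 4) (nat_lit 354) (nat_lit 296) (nat_lit 250)))))) (XT.nd (nat_lit 312) (nat_lit 76) (nat_lit 0) (XT.nd (nat_lit 156) (nat_lit 0) (nat_lit 0) (XT.nd (nat_lit 78) (nat_lit 0) (nat_lit 0) (XT.lf (nat_lit 0) (nat_lit 18841489439) (nat_lit 152) (nat_lit 45589373475) (nat_lit 0) (nat_lit 9427998312) (nat_lit 5) (nat_lit 5) (nat_lit 7) (nat_lit 4) (nat_lit 5) (nat_lit 4) (nat_lit 355) (nat_lit 296) (nat_lit 249)) (XT.lf (nat_lit 0) (nat_lit 27263822040) (nat_lit 152) (nat_lit 34055743598) (nat_lit 0) (nat_lit 17831085621) (nat_lit 5) (nat_lit 5) (nat_lit 7) (nat_lit 4) (nat_lit 5) (nat_lit 4) (nat_lit 356) (nat_lit 296) (nat_lit 248))) (XT.nd (nat_lit 78) (nat_lit 0) (nat_lit 0) (XT.lf (nat_lit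 0) (nat_lit 36331928937) (nat_lit 152) (nat_lit 21654730326) (nat_lit 0) (nat_lit 26881372804) (nat_lit 5) (nat_lit 5) (nat_lit 7) (nat_lit 4) (nat_lit 5) (nat_lit 4) (nat_lit 357) (nat_lit 296) (nat_lit 247)) (XT.lf (nat_lit 0) (nat_lit 46099547061) (nat_lit 152) (nat_lit 8312846175) (nat_lit 0) (nat_lit 36632491192) (nat_lit 5) (nat_lit 5) (nat_lit 7) (nat_lit 4) (nat_lit 5) (nat_lit 4) (nat_lit 358) (nat_lit 296) (nat_lit 246)))) (XT.nd (nat_lit 156) (nat_lit 0) (nat_lit 0) (XT.nd (nat_lit 78) (nat_lit 0) (nat_lit 0) (XT.lf (nat_lit 0) (nat_lit 6367500011) (nat_lit 76) (nat_lit 50410197109) (nat_lit 76) (nat_lit 40927863708) (nat_lit 4) (nat_lit 4) (nat_lit 5) (nat_lit 5) (nat_lit 5) (nat_lit 4) (nat_lit 359) (nat_lit 296) (nat_lit 245)) (XT.lf (nat_lit 0) (nat_lit 22648816412) (nat_lit 76) (nat_lit 45865222138) (nat_lit 76) (nat_lit 36368742873) (nat_lit 4) (nat_lit 4) (nat_lit 5)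 (nat_lit 5) (nat_lit 5) (nat_lit 4) (nat_lit 360) (nat_lit 296) (nat_lit 244))) (XT.nd (nat_lit 78) (nat_lit 0) (nat_lit 0) (XT.lf (nat_lit 0) (nat_lit 40189845153) (nat_lit 76) (nat_lit 40977823082) (nat_lit 76) (nat_lit 31468245795) (nat_lit 4) (nat_lit 4) (nat_lit 5) (nat_lit 5) (nat_lit 5) (nat_lit 4) (nat_lit 361) (nat_lit 296) (nat_lit 243)) (XT.nd (nat_lit 78) (nat_lit 0) (nat_lit 0) (XT.lf (nat_lit 0) (nat_lit 59094533073) (nat_lit 76) (nat_lit 35719037579) (nat_lit 76) (nat_lit 26197332494) (nat_lit 4) (nat_lit 4) (nat_lit 5) (nat_lit 5) (nat_lit 5) (nat_lit 4) (nat_lit 362) (nat_lit 296) (nat_lit 242)) (XT.lf (nat_lit 0) (nat_lit 79474907950) (nat_lit 76) (nat_lit 30057702454) (nat_lit 76) (nat_lit 20524767926) (nat_lit 4) (nat_lit 4) (nat_lit 5) (nat_lit 5) (nat_lit 5) (nat_lit 4) (nat_lit 363) (nat_lit 296) (nat_lit 241))))))))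
noncomputable def xc84 : XT := (XT.nd (nat_lit 1326) (nat_lit 76) (nat_lit 0) (XT.nd (nat_lit 624) (nat_lit 0) (nat_lit 0) (XT.nd (nat_lit 312) (nat_lit 0) (nat_lit 0) (XT.nd (nat_lit 156) (nat_lit 152) (nat_lit 0) (XT.nd (nat_lit 78) (nat_lit 0) (nat_lit 0) (XT.lf (nat_lit 0) (nat_lit 101451742377) (nat_lit 76) (nat_lit 23960269054) (nat_lit 76) (nat_lit 14416936894) (nat_lit 4) (nat_lit 4) (nat_lit 5) (nat_lit 5) (nat_lit 5) (nat_lit 4) (nat_lit 364) (nat_lit 296) (nat_lit 240)) (XT.lf (nat_lit 0) (nat_lit 125155269447) (nat_lit 76) (nat_lit 17390604442) (nat_lit 76) (nat_lit 7837644844) (nat_lit 4) (nat_lit 4) (nat_lit 5) (nat_lit 5) (nat_lit 5) (nat_lit 4) (nat_lit 365) (nat_lit 296) (nat_lit 239))) (XT.nd (nat_lit 78) (nat_lit 152) (nat_lit 0) (XT.lf (nat_lit 0) (nat_lit 150725954506) (nat_lit 76) (nat_lit 10309777271) (nat_lit 76) (nat_lit 747903379) (nat_lit 4) (nat_lit 4) (nat_lit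 5) (nat_lit 5) (nat_lit 5) (nat_lit 4) (nat_lit 366) (nat_lit 296) (nat_lit 238)) (XT.lf (nat_lit 0) (nat_lit 4266071788) (nat_lit 76) (nat_lit 2385947276) (nat_lit 152) (nat_lit 167423362195) (nat_lit 2) (nat_lit 5) (nat_lit 3) (nat_lit 5) (nat_lit 4) (nat_lit 4) (nat_lit 367) (nat_lit 296) (nat_lit 237)))) (XT.nd (nat_lit 156) (nat_lit 0) (nat_lit 0) (XT.nd (nat_lit 78) (nat_lit 0) (nat_lit 0) (XT.lf (nat_lit 0) (nat_lit 15048233439) (nat_lit 152) (nat_lit 166085178318) (nat_lit 0) (nat_lit 6179927479) (nat_lit 2) (nat_lit 5) (nat_lit 4) (nat_lit 4) (nat_lit 2) (nat_lit 4) (nat_lit 368) (nat_lit 296) (nat_lit 236)) (XT.lf (nat_lit 0) (nat_lit 24165231678) (nat_lit 152) (nat_lit 162150804213) (nat_lit 0) (nat_lit 15290373445) (nat_lit 2) (nat_lit 5) (nat_lit 4) (nat_lit 4) (nat_lit 2) (nat_lit 4) (nat_lit 369) (nat_lit 296) (nat_lit 235))) (XT.nd (nat_lit 78) (nat_lit 0) (nat_lit 0) (XT.lf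 (nat_lit 0) (nat_lit 33999658347) (nat_lit 152) (nat_lit 157925490257) (nat_lit 0) (nat_lit 25118733197) (nat_lit 2) (nat_lit 5) (nat_lit 4) (nat_lit 4) (nat_lit 2) (nat_lit 4) (nat_lit 370) (nat_lit 296) (nat_lit 234)) (XT.lf (nat_lit 0) (nat_lit 44609791532) (nat_lit 152) (nat_lit 153384197554) (nat_lit 0) (nat_lit 35723248864) (nat_lit 2) (nat_lit 5) (nat_lit 4) (nat_lit 4) (nat_lit 2) (nat_lit 4) (nat_lit 371) (nat_lit 296) (nat_lit 233))))) (XT.nd (nat_lit 312) (nat_lit 0) (nat_lit 0) (XT.nd (nat_lit 156) (nat_lit 0) (nat_lit 0) (XT.nd (nat_lit 78) (nat_lit 0) (nat_lit 0) (XT.lf (nat_lit 0) (nat_lit 56058506096) (nat_lit 152) (nat_lit 148500014739) (nat_lit 0) (nat_lit 47166762023) (nat_lit 2) (nat_lit 5) (nat_lit 4) (nat_lit 4) (nat_lit 2) (nat_lit 4) (nat_lit 372) (nat_lit 296) (nat_lit 232)) (XT.lf (nat_lit 0) (nat_lit 68413646272) (nat_lit 152) (nat_lit 143243998507) (nat_lit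 0) (nat_lit 59517086084) (nat_lit 2) (nat_lit 5) (nat_lit 4) (nat_lit 4) (nat_lit 2) (nat_lit 4) (nat_lit 373) (nat_lit 296) (nat_lit 231))) (XT.nd (nat_lit 78) (nat_lit 0) (nat_lit 0) (XT.lf (nat_lit 0) (nat_lit 81748427707) (nat_lit 152) (nat_lit 137585002094) (nat_lit 0) (nat_lit 72847408153) (nat_lit 2) (nat_lit 5) (nat_lit 4) (nat_lit 4) (nat_lit 2) (nat_lit 4) (nat_lit 374) (nat_lit 296) (nat_lit 230)) (XT.lf (nat_lit 0) (nat_lit 96141871328) (nat_lit 152) (nat_lit 131489490707) (nat_lit 0) (nat_lit 87236722730) (nat_lit 2) (nat_lit 5) (nat_lit 4) (nat_lit 4) (nat_lit 2) (nat_lit 4) (nat_lit 375) (nat_lit 296) (nat_lit 229)))) (XT.nd (nat_lit 156) (nat_lit 0) (nat_lit 0) (XT.nd (nat_lit 78) (nat_lit 0) (nat_lit 0) (XT.lf (nat_lit 0) (nat_lit 111679271614) (nat_lit 152) (nat_lit 124921342798) (nat_lit 0) (nat_lit 102770299829) (nat_lit 2) (nat_lit 5) (nat_lit 4) (nat_lit 4) (nat_lit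 2) (nat_lit 4) (nat_lit 376) (nat_lit 296) (nat_lit 228)) (XT.lf (nat_lit 0) (nat_lit 128452702050) (nat_lit 152) (nat_lit 117841636007) (nat_lit 0) (nat_lit 119540190276) (nat_lit 2) (nat_lit 5) (nat_lit 4) (nat_lit 4) (nat_lit 2) (nat_lit 4) (nat_lit 377) (nat_lit 296) (nat_lit 227))) (XT.nd (nat_lit 78) (nat_lit 0) (nat_lit 0) (XT.lf (nat_lit 0) (nat_lit 146561560742) (nat_lit 152) (nat_lit 110208416518) (nat_lit 0) (nat_lit 137645771200) (nat_lit 2) (nat_lit 5) (nat_lit 4) (nat_lit 4) (nat_lit 2) (nat_lit 4) (nat_lit 378) (nat_lit 296) (nat_lit 226)) (XT.nd (nat_lit 78) (nat_lit 0) (nat_lit 0) (XT.lf (nat_lit 0) (nat_lit 166113159444) (nat_lit 152) (nat_lit 101976450437) (nat_lit 0) (nat_lit 157194334933) (nat_lit 2) (nat_lit 5) (nat_lit 4) (nat_lit 4) (nat_lit 2) (nat_lit 4) (nat_lit 379) (nat_lit 296) (nat_lit 225)) (XT.lf (nat_lit 0) (nat_lit 187223359483) (nat_lit 152) (nat_lit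 93096955742) (nat_lit 0) (nat_lit 178301724815) (nat_lit 2) (nat_lit 5) (nat_lit 4) (nat_lit 4) (nat_lit 2) (nat_lit 4) (nat_lit 380) (nat_lit 296) (nat_lit 224))))))) (XT.nd (nat_lit 624) (nat_lit 0) (nat_lit 0) (XT.nd (nat_lit 312) (nat_lit 76) (nat_lit 0) (XT.nd (nat_lit 156) (nat_lit 0) (nat_lit 0) (XT.nd (nat_lit 78) (nat_lit 0) (nat_lit 0) (XT.lf (nat_lit 0) (nat_lit 210017258340) (nat_lit 152) (nat_lit 83517313206) (nat_lit 0) (nat_lit 201093021674) (nat_lit 2) (nat_lit 5) (nat_lit 4) (nat_lit 4) (nat_lit 2) (nat_lit 4) (nat_lit 381) (nat_lit 296) (nat_lit 223)) (XT.lf (nat_lit 0) (nat_lit 234629930971) (nat_lit 152) (nat_lit 73180754577) (nat_lit 0) (nat_lit 225703285049) (nat_lit 2) (nat_lit 5) (nat_lit 4) (nat_lit 4) (nat_lit 2) (nat_lit 4) (nat_lit 382) (nat_lit 296) (nat_lit 222))) (XT.nd (nat_lit 78) (nat_lit 0) (nat_lit 0) (XT.lf (nat_lit 0) (nat_lit 261207230252) (nat_lit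 152) (nat_lit 62026026174) (nat_lit 0) (nat_lit 252278353536) (nat_lit 2) (nat_lit 5) (nat_lit 4) (nat_lit 4) (nat_lit 2) (nat_lit 4) (nat_lit 383) (nat_lit 296) (nat_lit 221)) (XT.lf (nat_lit 0) (nat_lit 289906651288) (nat_lit 152) (nat_lit 49987025903) (nat_lit 0) (nat_lit 280975709023) (nat_lit 2) (nat_lit 5) (nat_lit 4) (nat_lit 4) (nat_lit 2) (nat_lit 4) (nat_lit 384) (nat_lit 296) (nat_lit 220)))) (XT.nd (nat_lit 156) (nat_lit 76) (nat_lit 0) (XT.nd (nat_lit 78) (nat_lit 0) (nat_lit 0) (XT.lf (nat_lit 0) (nat_lit 320898264724) (nat_lit 152) (nat_lit 36992411539) (nat_lit 0) (nat_lit 311965409914) (nat_lit 2) (nat_lit 5) (nat_lit 4) (nat_lit 4) (nat_lit 2) (nat_lit 4) (nat_lit 385) (nat_lit 296) (nat_lit 219)) (XT.lf (nat_lit 0) (nat_lit 354365724565) (nat_lit 152) (nat_lit 22965177962) (nat_lit 0) (nat_lit 345431098879) (nat_lit 2) (nat_lit 5) (nat_lit 4) (nat_lit 4) (nat_lit 2)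 (nat_lit 4) (nat_lit 386) (nat_lit 296) (nat_lit 218))) (XT.nd (nat_lit 78) (nat_lit 76) (nat_lit 0) (XT.lf (nat_lit 0) (nat_lit 390507356499) (nat_lit 152) (nat_lit 7822200823) (nat_lit 0) (nat_lit 381571091113) (nat_lit 2) (nat_lit 5) (nat_lit 4) (nat_lit 4) (nat_lit 2) (nat_lit 4) (nat_lit 387) (nat_lit 296) (nat_lit 217)) (XT.lf (nat_lit 0) (nat_lit 8975233571) (nat_lit 76) (nat_lit 420777954171) (nat_lit 76) (nat_lit 411840170544) (nat_lit 1) (nat_lit 4) (nat_lit 2) (nat_lit 5) (nat_lit 2) (nat_lit 4) (nat_lit 388) (nat_lit 296) (nat_lit 216))))) (XT.nd (nat_lit 312) (nat_lit 0) (nat_lit 0) (XT.nd (nat_lit 156) (nat_lit 0) (nat_lit 0) (XT.nd (nat_lit 78) (nat_lit 0) (nat_lit 0) (XT.lf (nat_lit 0) (nat_lit 27555510606) (nat_lit 76) (nat_lit 444794143382) (nat_lit 76) (nat_lit 435854953977) (nat_lit 1) (nat_lit 4) (nat_lit 2) (nat_lit 5) (nat_lit 2) (nat_lit 4) (nat_lit 389) (nat_lit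 296) (nat_lit 215)) (XT.lf (nat_lit 0) (nat_lit 47616832395) (nat_lit 76) (nat_lit 470734315946) (nat_lit 76) (nat_lit 461793824894) (nat_lit 1) (nat_lit 4) (nat_lit 2) (nat_lit 5) (nat_lit 2) (nat_lit 4) (nat_lit 390) (nat_lit 296) (nat_lit 214))) (XT.nd (nat_lit 78) (nat_lit 0) (nat_lit 0) (XT.lf (nat_lit 0) (nat_lit 69278080845) (nat_lit 76) (nat_lit 498752191404) (nat_lit 76) (nat_lit 489810495124) (nat_lit 1) (nat_lit 4) (nat_lit 2) (nat_lit 5) (nat_lit 2) (nat_lit 4) (nat_lit 391) (nat_lit 296) (nat_lit 213)) (XT.lf (nat_lit 0) (nat_lit 92667618908) (nat_lit 76) (nat_lit 529013801611) (nat_lit 76) (nat_lit 520070989379) (nat_lit 1) (nat_lit 4) (nat_lit 2) (nat_lit 5) (nat_lit 2) (nat_lit 4) (nat_lit 392) (nat_lit 296) (nat_lit 212)))) (XT.nd (nat_lit 156) (nat_lit 0) (nat_lit 0) (XT.nd (nat_lit 78) (nat_lit 0) (nat_lit 0) (XT.lf (nat_lit 0) (nat_lit 117924051256) (nat_lit 76) (nat_lit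 561698474626) (nat_lit 76) (nat_lit 552754629106) (nat_lit 1) (nat_lit 4) (nat_lit 2) (nat_lit 5) (nat_lit 2) (nat_lit 4) (nat_lit 393) (nat_lit 296) (nat_lit 211)) (XT.lf (nat_lit 0) (nat_lit 145197045635) (nat_lit 76) (nat_lit 596999897403) (nat_lit 76) (nat_lit 588055095133) (nat_lit 1) (nat_lit 4) (nat_lit 2) (nat_lit 5) (nat_lit 2) (nat_lit 4) (nat_lit 394) (nat_lit 296) (nat_lit 210))) (XT.nd (nat_lit 78) (nat_lit 0) (nat_lit 0) (XT.lf (nat_lit 0) (nat_lit 174648219790) (nat_lit 76) (nat_lit 635127263556) (nat_lit 76) (nat_lit 626181575407) (nat_lit 1) (nat_lit 4) (nat_lit 2) (nat_lit 5) (nat_lit 2) (nat_lit 4) (nat_lit 395) (nat_lit 296) (nat_lit 209)) (XT.nd (nat_lit 78) (nat_lit 0) (nat_lit 0) (XT.lf (nat_lit 0) (nat_lit 206452099197) (nat_lit 76) (nat_lit 676306513033) (nat_lit 76) (nat_lit 667360004627) (nat_lit 1) (nat_lit 4) (nat_lit 2) (nat_lit 5) (nat_lit 2) (nat_lit 4)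 (nat_lit 396) (nat_lit 296) (nat_lit 208)) (XT.lf (nat_lit 0) (nat_lit 240797151290) (nat_lit 76) (nat_lit 720781671017) (nat_lit 76) (nat_lit 711834403112) (nat_lit 1) (nat_lit 4) (nat_lit 2) (nat_lit 5) (nat_lit 2) (nat_lit 4) (nat_lit 397) (nat_lit 296) (nat_lit 207))))))))
noncomputable def xc85 : XT := (XT.nd (nat_lit 39780) (nat_lit 0) (nat_lit 1824) (XT.nd (nat_lit 624) (nat_lit 0) (nat_lit 0) (XT.nd (nat_lit 312) (nat_lit 0) (nat_lit 0) (XT.nd (nat_lit 156) (nat_lit 0) (nat_lit 0) (XT.nd (nat_lit 78) (nat_lit 0) (nat_lit 0) (XT.lf (nat_lit 0) (nat_lit 277886902304) (nat_lit 76) (nat_lit 768816293999) (nat_lit 76) (nat_lit 759868322855) (nat_lit 1) (nat_lit 4) (nat_lit 2) (nat_lit 5) (nat_lit 2) (nat_lit 4) (nat_lit 398) (nat_lit 296) (nat_lit 206)) (XT.lf (nat_lit 0) (nat_lit 317941143355) (nat_lit 76) (nat_lit 820695031597) (nat_lit 76) (nat_lit 811746409306) (nat_lit 1) (nat_lit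 4) (nat_lit 2) (nat_lit 5) (nat_lit 2) (nat_lit 4) (nat_lit 399) (nat_lit 296) (nat_lit 205))) (XT.nd (nat_lit 78) (nat_lit 0) (nat_lit 0) (XT.lf (nat_lit 0) (nat_lit 361197232909) (nat_lit 76) (nat_lit 876725313367) (nat_lit 76) (nat_lit 867776088162) (nat_lit 1) (nat_lit 4) (nat_lit 2) (nat_lit 5) (nat_lit 2) (nat_lit 4) (nat_lit 400) (nat_lit 296) (nat_lit 204)) (XT.lf (nat_lit 0) (nat_lit 407911503349) (nat_lit 76) (nat_lit 937239170609) (nat_lit 76) (nat_lit 928289387149) (nat_lit 1) (nat_lit 4) (nat_lit 2) (nat_lit 5) (nat_lit 2) (nat_lit 4) (nat_lit 401) (nat_lit 296) (nat_lit 203)))) (XT.nd (nat_lit 156) (nat_lit 0) (nat_lit 0) (XT.nd (nat_lit 78) (nat_lit 0) (nat_lit 0) (XT.lf (nat_lit 0) (nat_lit 458360779981) (nat_lit 76) (nat_lit 1002595203957) (nat_lit 76) (nat_lit 993644903596) (nat_lit 1) (nat_lit 4) (nat_lit 2) (nat_lit 5) (nat_lit 2) (nat_lit 4) (nat_lit 402) (nat_lit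 296) (nat_lit 202)) (XT.lf (nat_lit 0) (nat_lit 512844021481) (nat_lit 76) (nat_lit 1073180708425) (nat_lit 76) (nat_lit 1064229929451) (nat_lit 1) (nat_lit 4) (nat_lit 2) (nat_lit 5) (nat_lit 2) (nat_lit 4) (nat_lit 403) (nat_lit 296) (nat_lit 201))) (XT.nd (nat_lit 78) (nat_lit 0) (nat_lit 0) (XT.lf (nat_lit 0) (nat_lit 571684091503) (nat_lit 76) (nat_lit 1149413968482) (nat_lit 76) (nat_lit 1140462746349) (nat_lit 1) (nat_lit 4) (nat_lit 2) (nat_lit 5) (nat_lit 2) (nat_lit 4) (nat_lit 404) (nat_lit 296) (nat_lit 200)) (XT.lf (nat_lit 0) (nat_lit 635229671942) (nat_lit 76) (nat_lit 1231746736783) (nat_lit 76) (nat_lit 1222795104316) (nat_lit 1) (nat_lit 4) (nat_lit 2) (nat_lit 5) (nat_lit 2) (nat_lit 4) (nat_lit 405) (nat_lit 296) (nat_lit 199))))) (XT.nd (nat_lit 312) (nat_lit 0) (nat_lit 0) (XT.nd (nat_lit 156) (nat_lit 0) (nat_lit 0) (XT.nd (nat_lit 78) (nat_lit 0) (nat_lit 0) (XT.lf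 (nat_lit 0) (nat_lit 703857329203) (nat_lit 76) (nat_lit 1320666911212) (nat_lit 76) (nat_lit 1311714898807) (nat_lit 1) (nat_lit 4) (nat_lit 2) (nat_lit 5) (nat_lit 2) (nat_lit 4) (nat_lit 406) (nat_lit 296) (nat_lit 198)) (XT.lf (nat_lit 0) (nat_lit 777973745697) (nat_lit 76) (nat_lit 1416701426137) (nat_lit 76) (nat_lit 1407749061937) (nat_lit 1) (nat_lit 4) (nat_lit 2) (nat_lit 5) (nat_lit 2) (nat_lit 4) (nat_lit 407) (nat_lit 296) (nat_lit 197))) (XT.nd (nat_lit 78) (nat_lit 0) (nat_lit 0) (XT.lf (nat_lit 0) (nat_lit 858018129819) (nat_lit 76) (nat_lit 1520419374979) (nat_lit 76) (nat_lit 1511466685044) (nat_lit 1) (nat_lit 4) (nat_lit 2) (nat_lit 5) (nat_lit 2) (nat_lit 4) (nat_lit 408) (nat_lit 296) (nat_lit 196)) (XT.lf (nat_lit 0) (nat_lit 944464818661) (nat_lit 76) (nat_lit 1632435382621) (nat_lit 76) (nat_lit 1623482391078) (nat_lit 1) (nat_lit 4) (nat_lit 2) (nat_lit 5) (nat_lit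 2) (nat_lit 4) (nat_lit 409) (nat_lit 296) (nat_lit 195)))) (XT.nd (nat_lit 156) (nat_lit 0) (nat_lit 0) (XT.nd (nat_lit 78) (nat_lit 0) (nat_lit 0) (XT.lf (nat_lit 0) (nat_lit 1037826088896) (nat_lit 76) (nat_lit 1753413247626) (nat_lit 76) (nat_lit 1744459976817) (nat_lit 1) (nat_lit 4) (nat_lit 2) (nat_lit 5) (nat_lit 2) (nat_lit 4) (nat_lit 410) (nat_lit 296) (nat_lit 194)) (XT.lf (nat_lit 0) (nat_lit 1138655192497) (nat_lit 76) (nat_lit 1884069875861) (nat_lit 76) (nat_lit 1875116346473) (nat_lit 1) (nat_lit 4) (nat_lit 2) (nat_lit 5) (nat_lit 2) (nat_lit 4) (nat_lit 411) (nat_lit 296) (nat_lit 193))) (XT.nd (nat_lit 78) (nat_lit 0) (nat_lit 0) (XT.lf (nat_lit 0) (nat_lit 1247549635263) (nat_lit 76) (nat_lit 2025179528826) (nat_lit 76) (nat_lit 2016225760013) (nat_lit 1) (nat_lit 4) (nat_lit 2) (nat_lit 5) (nat_lit 2) (nat_lit 4) (nat_lit 412) (nat_lit 296) (nat_lit 192)) (XT.nd (nat_lit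 38532) (nat_lit 0) (nat_lit 5244) (XT.lf (nat_lit 0) (nat_lit 1365154717595) (nat_lit 76) (nat_lit 2177578411873) (nat_lit 76) (nat_lit 2168624421370) (nat_lit 1) (nat_lit 4) (nat_lit 2) (nat_lit 5) (nat_lit 2) (nat_lit 4) (nat_lit 413) (nat_lit 296) (nat_lit 191)) (XT.lf (nat_lit 0) (nat_lit 1195350938) (nat_lit 228) (nat_lit 1078662984) (nat_lit 228) (nat_lit 1078662984) (nat_lit 70) (nat_lit 4) (nat_lit 73) (nat_lit 5) (nat_lit 73) (nat_lit 4) (nat_lit 306) (nat_lit 297) (nat_lit 297))))))) (XT.nd (nat_lit 702) (nat_lit 1216) (nat_lit 0) (XT.nd (nat_lit 312) (nat_lit 1368) (nat_lit 0) (XT.nd (nat_lit 156) (nat_lit 456) (nat_lit 0) (XT.nd (nat_lit 78) (nat_lit 304) (nat_lit 0) (XT.lf (nat_lit 0) (nat_lit 991930843) (nat_lit 304) (nat_lit 41403297) (nat_lit 76) (nat_lit 5774453521) (nat_lit 69) (nat_lit 5) (nat_lit 73) (nat_lit 5) (nat_lit 70) (nat_lit 4) (nat_lit 307) (nat_lit 297) (nat_lit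 296)) (XT.lf (nat_lit 0) (nat_lit 4133449076) (nat_lit 380) (nat_lit 2412246399) (nat_lit 0) (nat_lit 380355401) (nat_lit 65) (nat_lit 5) (nat_lit 70) (nat_lit 4) (nat_lit 65) (nat_lit 4) (nat_lit 308) (nat_lit 297) (nat_lit 295))) (XT.nd (nat_lit 78) (nat_lit 0) (nat_lit 0) (XT.lf (nat_lit 0) (nat_lit 279130080) (nat_lit 456) (nat_lit 4843217883) (nat_lit 76) (nat_lit 1944669819) (nat_lit 59) (nat_lit 5) (nat_lit 65) (nat_lit 5) (nat_lit 60) (nat_lit 4) (nat_lit 309) (nat_lit 297) (nat_lit 294)) (XT.lf (nat_lit 0) (nat_lit 3272979131) (nat_lit 456) (nat_lit 162969985) (nat_lit 76) (nat_lit 3791859642) (nat_lit 59) (nat_lit 5) (nat_lit 65) (nat_lit 5) (nat_lit 60) (nat_lit 4) (nat_lit 310) (nat_lit 297) (nat_lit 293)))) (XT.nd (nat_lit 156) (nat_lit 532) (nat_lit 0) (XT.nd (nat_lit 78) (nat_lit 380) (nat_lit 0) (XT.lf (nat_lit 0) (nat_lit 4912776369) (nat_lit 456) (nat_lit 1489104199)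 (nat_lit 532) (nat_lit 1008429309) (nat_lit 53) (nat_lit 5) (nat_lit 59) (nat_lit 5) (nat_lit 60) (nat_lit 4) (nat_lit 311) (nat_lit 297) (nat_lit 292)) (XT.lf (nat_lit 0) (nat_lit 1933403353) (nat_lit 380) (nat_lit 4987227014) (nat_lit 76) (nat_lit 693542469) (nat_lit 48) (nat_lit 5) (nat_lit 53) (nat_lit 5) (nat_lit 49) (nat_lit 4) (nat_lit 312) (nat_lit 297) (nat_lit 291))) (XT.nd (nat_lit 78) (nat_lit 304) (nat_lit 0) (XT.lf (nat_lit 0) (nat_lit 175170433) (nat_lit 228) (nat_lit 4786818426) (nat_lit 304) (nat_lit 2878178843) (nat_lit 45) (nat_lit 5) (nat_lit 48) (nat_lit 5) (nat_lit 49) (nat_lit 4) (nat_lit 313) (nat_lit 297) (nat_lit 290)) (XT.nd (nat_lit 78) (nat_lit 228) (nat_lit 0) (XT.lf (nat_lit 0) (nat_lit 78229981) (nat_lit 304) (nat_lit 2292650210) (nat_lit 76) (nat_lit 5718446158) (nat_lit 44) (nat_lit 5) (nat_lit 48) (nat_lit 5) (nat_lit 45) (nat_lit 5) (nat_lit 314) (nat_lit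 297) (nat_lit 289)) (XT.lf (nat_lit 0) (nat_lit 3017817801) (nat_lit 304) (nat_lit 4994648349) (nat_lit 76) (nat_lit 348106942) (nat_lit 41) (nat_lit 5) (nat_lit 45) (nat_lit 5) (nat_lit 42) (nat_lit 4) (nat_lit 315) (nat_lit 297) (nat_lit 288)))))) (XT.nd (nat_lit 312) (nat_lit 608) (nat_lit 0) (XT.nd (nat_lit 156) (nat_lit 380) (nat_lit 0) (XT.nd (nat_lit 78) (nat_lit 76) (nat_lit 0) (XT.lf (nat_lit 0) (nat_lit 694653278) (nat_lit 152) (nat_lit 5460219796) (nat_lit 228) (nat_lit 2501948623) (nat_lit 39) (nat_lit 5) (nat_lit 41) (nat_lit 5) (nat_lit 42) (nat_lit 4) (nat_lit 316) (nat_lit 297) (nat_lit 287)) (XT.lf (nat_lit 0) (nat_lit 500704836) (nat_lit 228) (nat_lit 2099414287) (nat_lit 76) (nat_lit 6378775021) (nat_lit 38) (nat_lit 5) (nat_lit 41) (nat_lit 5) (nat_lit 39) (nat_lit 5) (nat_lit 317) (nat_lit 297) (nat_lit 286))) (XT.nd (nat_lit 78) (nat_lit 152) (nat_lit 0) (XT.lf (nat_lit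 0) (nat_lit 3558856344) (nat_lit 304) (nat_lit 5188215706) (nat_lit 76) (nat_lit 578652166) (nat_lit 35) (nat_lit 5) (nat_lit 39) (nat_lit 5) (nat_lit 36) (nat_lit 4) (nat_lit 318) (nat_lit 297) (nat_lit 285)) (XT.lf (nat_lit 0) (nat_lit 1053174291) (nat_lit 152) (nat_lit 5801695684) (nat_lit 228) (nat_lit 2846184252) (nat_lit 33) (nat_lit 5) (nat_lit 35) (nat_lit 5) (nat_lit 36) (nat_lit 4) (nat_lit 319) (nat_lit 297) (nat_lit 284)))) (XT.nd (nat_lit 156) (nat_lit 380) (nat_lit 0) (XT.nd (nat_lit 78) (nat_lit 152) (nat_lit 0) (XT.lf (nat_lit 0) (nat_lit 282004858) (nat_lit 228) (nat_lit 2247427874) (nat_lit 76) (nat_lit 7577424072) (nat_lit 32) (nat_lit 5) (nat_lit 35) (nat_lit 5) (nat_lit 33) (nat_lit 5) (nat_lit 320) (nat_lit 297) (nat_lit 283)) (XT.lf (nat_lit 0) (nat_lit 3500132001) (nat_lit 228) (nat_lit 5960880553) (nat_lit 76) (nat_lit 1078887794) (nat_lit 30) (nat_lit 5) (nat_lit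 33) (nat_lit 5) (nat_lit 31) (nat_lit 4) (nat_lit 321) (nat_lit 297) (nat_lit 282))) (XT.nd (nat_lit 78) (nat_lit 228) (nat_lit 0) (XT.lf (nat_lit 0) (nat_lit 833763586) (nat_lit 152) (nat_lit 6150111910) (nat_lit 228) (nat_lit 4023213185) (nat_lit 28) (nat_lit 5) (nat_lit 30) (nat_lit 5) (nat_lit 31) (nat_lit 4) (nat_lit 322) (nat_lit 297) (nat_lit 281)) (XT.nd (nat_lit 78) (nat_lit 228) (nat_lit 0) (XT.lf (nat_lit 0) (nat_lit 8299108922) (nat_lit 152) (nat_lit 2474882000) (nat_lit 228) (nat_lit 735590514) (nat_lit 28) (nat_lit 5) (nat_lit 30) (nat_lit 5) (nat_lit 31) (nat_lit 4) (nat_lit 323) (nat_lit 297) (nat_lit 280)) (XT.lf (nat_lit 0) (nat_lit 2686364370) (nat_lit 228) (nat_lit 7836359300) (nat_lit 76) (nat_lit 1523285147) (nat_lit 25) (nat_lit 5) (nat_lit 28) (nat_lit 5) (nat_lit 26) (nat_lit 4) (nat_lit 324) (nat_lit 297) (nat_lit 279))))))))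
noncomputable def xc86 : XT := (XT.nd (nat_lit 1326) (nat_lit 456) (nat_lit 0) (XT.nd (nat_lit 624) (nat_lit 532) (nat_lit 0) (XT.nd (nat_lit 312) (nat_lit 228) (nat_lit 0) (XT.nd (nat_lit 156) (nat_lit 228) (nat_lit 0) (XT.nd (nat_lit 78) (nat_lit 76) (nat_lit 0) (XT.lf (nat_lit 0) (nat_lit 6371001359) (nat_lit 228) (nat_lit 504211457) (nat_lit 76) (nat_lit 5746429374) (nat_lit 25) (nat_lit 5) (nat_lit 28) (nat_lit 5) (nat_lit 26) (nat_lit 4) (nat_lit 325) (nat_lit 297) (nat_lit 278)) (XT.lf (nat_lit 0) (nat_lit 7603984477) (nat_lit 76) (nat_lit 2812934217) (nat_lit 152) (nat_lit 2821192006) (nat_lit 24) (nat_lit 5) (nat_lit 25) (nat_lit 5) (nat_lit 26) (nat_lit 4) (nat_lit 326) (nat_lit 297) (nat_lit 277))) (XT.nd (nat_lit 78) (nat_lit 0) (nat_lit 0) (XT.lf (nat_lit 0) (nat_lit 833341479) (nat_lit 228) (nat_lit 11551607751) (nat_lit 76) (nat_lit 1517749074) (nat_lit 21) (nat_lit 5) (nat_lit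 24) (nat_lit 5) (nat_lit 22) (nat_lit 4) (nat_lit 327) (nat_lit 297) (nat_lit 276)) (XT.lf (nat_lit 0) (nat_lit 4745899749) (nat_lit 228) (nat_lit 3657440820) (nat_lit 76) (nat_lit 6201887274) (nat_lit 21) (nat_lit 5) (nat_lit 24) (nat_lit 5) (nat_lit 22) (nat_lit 4) (nat_lit 328) (nat_lit 297) (nat_lit 275)))) (XT.nd (nat_lit 156) (nat_lit 152) (nat_lit 0) (XT.nd (nat_lit 78) (nat_lit 0) (nat_lit 0) (XT.lf (nat_lit 0) (nat_lit 4935025806) (nat_lit 76) (nat_lit 4050465390) (nat_lit 152) (nat_lit 6377423609) (nat_lit 20) (nat_lit 5) (nat_lit 21) (nat_lit 5) (nat_lit 22) (nat_lit 4) (nat_lit 329) (nat_lit 297) (nat_lit 274)) (XT.lf (nat_lit 0) (nat_lit 13579578207) (nat_lit 152) (nat_lit 1950486541) (nat_lit 0) (nat_lit 649997326) (nat_lit 20) (nat_lit 5) (nat_lit 22) (nat_lit 4) (nat_lit 20) (nat_lit 4) (nat_lit 330) (nat_lit 297) (nat_lit 273))) (XT.nd (nat_lit 78) (nat_lit 0) (nat_lit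 0) (XT.lf (nat_lit 0) (nat_lit 1594789797) (nat_lit 152) (nat_lit 9791731774) (nat_lit 76) (nat_lit 5658064510) (nat_lit 18) (nat_lit 5) (nat_lit 20) (nat_lit 5) (nat_lit 19) (nat_lit 4) (nat_lit 331) (nat_lit 297) (nat_lit 272)) (XT.lf (nat_lit 0) (nat_lit 5945269869) (nat_lit 152) (nat_lit 908764401) (nat_lit 76) (nat_lit 11122084727) (nat_lit 18) (nat_lit 5) (nat_lit 20) (nat_lit 5) (nat_lit 19) (nat_lit 4) (nat_lit 332) (nat_lit 297) (nat_lit 271))))) (XT.nd (nat_lit 312) (nat_lit 304) (nat_lit 0) (XT.nd (nat_lit 156) (nat_lit 152) (nat_lit 0) (XT.nd (nat_lit 78) (nat_lit 0) (nat_lit 0) (XT.lf (nat_lit 0) (nat_lit 8977235764) (nat_lit 76) (nat_lit 1794828691) (nat_lit 152) (nat_lit 8199900640) (nat_lit 17) (nat_lit 5) (nat_lit 18) (nat_lit 5) (nat_lit 19) (nat_lit 4) (nat_lit 333) (nat_lit 297) (nat_lit 270)) (XT.lf (nat_lit 0) (nat_lit 16012295734) (nat_lit 152) (nat_lit 586496473)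 (nat_lit 0) (nat_lit 3446551959) (nat_lit 17) (nat_lit 5) (nat_lit 19) (nat_lit 4) (nat_lit 17) (nat_lit 4) (nat_lit 334) (nat_lit 297) (nat_lit 269))) (XT.nd (nat_lit 78) (nat_lit 0) (nat_lit 0) (XT.lf (nat_lit 0) (nat_lit 653129297) (nat_lit 152) (nat_lit 11329272709) (nat_lit 76) (nat_lit 9204586846) (nat_lit 15) (nat_lit 5) (nat_lit 17) (nat_lit 5) (nat_lit 16) (nat_lit 4) (nat_lit 335) (nat_lit 297) (nat_lit 268)) (XT.lf (nat_lit 0) (nat_lit 5433173194) (nat_lit 152) (nat_lit 1499779432) (nat_lit 76) (nat_lit 15483721909) (nat_lit 15) (nat_lit 5) (nat_lit 17) (nat_lit 5) (nat_lit 16) (nat_lit 4) (nat_lit 336) (nat_lit 297) (nat_lit 267)))) (XT.nd (nat_lit 156) (nat_lit 228) (nat_lit 0) (XT.nd (nat_lit 78) (nat_lit 0) (nat_lit 0) (XT.lf (nat_lit 0) (nat_lit 9453078162) (nat_lit 76) (nat_lit 1296193782) (nat_lit 152) (nat_lit 12983206846) (nat_lit 14) (nat_lit 5) (nat_lit 15) (nat_lit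 5) (nat_lit 16) (nat_lit 4) (nat_lit 337) (nat_lit 297) (nat_lit 266)) (XT.lf (nat_lit 0) (nat_lit 16575077152) (nat_lit 152) (nat_lit 4035825619) (nat_lit 0) (nat_lit 4535924299) (nat_lit 14) (nat_lit 5) (nat_lit 16) (nat_lit 4) (nat_lit 14) (nat_lit 4) (nat_lit 338) (nat_lit 297) (nat_lit 265))) (XT.nd (nat_lit 78) (nat_lit 152) (nat_lit 0) (XT.lf (nat_lit 0) (nat_lit 7228582104) (nat_lit 76) (nat_lit 15778389794) (nat_lit 76) (nat_lit 3656180017) (nat_lit 13) (nat_lit 4) (nat_lit 14) (nat_lit 5) (nat_lit 14) (nat_lit 4) (nat_lit 339) (nat_lit 297) (nat_lit 264)) (XT.nd (nat_lit 78) (nat_lit 76) (nat_lit 0) (XT.lf (nat_lit 0) (nat_lit 1615991540) (nat_lit 152) (nat_lit 8837851934) (nat_lit 76) (nat_lit 17840103725) (nat_lit 12) (nat_lit 5) (nat_lit 14) (nat_lit 5) (nat_lit 13) (nat_lit 4) (nat_lit 340) (nat_lit 297) (nat_lit 263)) (XT.lf (nat_lit 0) (nat_lit 2520161656) (nat_lit 76)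 (nat_lit 4590647920) (nat_lit 152) (nat_lit 22936951536) (nat_lit 11) (nat_lit 5) (nat_lit 12) (nat_lit 5) (nat_lit 13) (nat_lit 4) (nat_lit 341) (nat_lit 297) (nat_lit 262))))))) (XT.nd (nat_lit 624) (nat_lit 228) (nat_lit 0) (XT.nd (nat_lit 312) (nat_lit 152) (nat_lit 0) (XT.nd (nat_lit 156) (nat_lit 76) (nat_lit 0) (XT.nd (nat_lit 78) (nat_lit 0) (nat_lit 0) (XT.lf (nat_lit 0) (nat_lit 13273357943) (nat_lit 152) (nat_lit 16799394062) (nat_lit 0) (nat_lit 1850899119) (nat_lit 11) (nat_lit 5) (nat_lit 13) (nat_lit 4) (nat_lit 11) (nat_lit 4) (nat_lit 342) (nat_lit 297) (nat_lit 261)) (XT.lf (nat_lit 0) (nat_lit 19991055492) (nat_lit 152) (nat_lit 5441536601) (nat_lit 0) (nat_lit 8512069520) (nat_lit 11) (nat_lit 5) (nat_lit 13) (nat_lit 4) (nat_lit 11) (nat_lit 4) (nat_lit 343) (nat_lit 297) (nat_lit 260))) (XT.nd (nat_lit 78) (nat_lit 0) (nat_lit 0) (XT.lf (nat_lit 0) (nat_lit 7077741219)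 (nat_lit 76) (nat_lit 20285784235) (nat_lit 76) (nat_lit 8754458312) (nat_lit 10) (nat_lit 4) (nat_lit 11) (nat_lit 5) (nat_lit 11) (nat_lit 4) (nat_lit 344) (nat_lit 297) (nat_lit 259)) (XT.lf (nat_lit 0) (nat_lit 20809324442) (nat_lit 76) (nat_lit 14613928605) (nat_lit 76) (nat_lit 3034139763) (nat_lit 10) (nat_lit 4) (nat_lit 11) (nat_lit 5) (nat_lit 11) (nat_lit 4) (nat_lit 345) (nat_lit 297) (nat_lit 258)))) (XT.nd (nat_lit 156) (nat_lit 0) (nat_lit 0) (XT.nd (nat_lit 78) (nat_lit 76) (nat_lit 0) (XT.lf (nat_lit 0) (nat_lit 2937768756) (nat_lit 152) (nat_lit 5514102899) (nat_lit 76) (nat_lit 32529951177) (nat_lit 9) (nat_lit 5) (nat_lit 11) (nat_lit 5) (nat_lit 10) (nat_lit 4) (nat_lit 346) (nat_lit 297) (nat_lit 257)) (XT.lf (nat_lit 0) (nat_lit 7815732546) (nat_lit 76) (nat_lit 1550586492) (nat_lit 152) (nat_lit 34324172822) (nat_lit 8) (nat_lit 5) (nat_lit 9) (nat_lit 5) (nat_lit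 10) (nat_lit 4) (nat_lit 347) (nat_lit 297) (nat_lit 256))) (XT.nd (nat_lit 78) (nat_lit 0) (nat_lit 0) (XT.lf (nat_lit 0) (nat_lit 16560960305) (nat_lit 152) (nat_lit 24311471380) (nat_lit 0) (nat_lit 5723291340) (nat_lit 8) (nat_lit 5) (nat_lit 10) (nat_lit 4) (nat_lit 8) (nat_lit 4) (nat_lit 348) (nat_lit 297) (nat_lit 255)) (XT.lf (nat_lit 0) (nat_lit 24329932214) (nat_lit 152) (nat_lit 11944271718) (nat_lit 0) (nat_lit 13459280201) (nat_lit 8) (nat_lit 5) (nat_lit 10) (nat_lit 4) (nat_lit 8) (nat_lit 4) (nat_lit 349) (nat_lit 297) (nat_lit 254))))) (XT.nd (nat_lit 312) (nat_lit 152) (nat_lit 0) (XT.nd (nat_lit 156) (nat_lit 0) (nat_lit 0) (XT.nd (nat_lit 78) (nat_lit 0) (nat_lit 0) (XT.lf (nat_lit 0) (nat_lit 1407844505) (nat_lit 76) (nat_lit 31307995662) (nat_lit 76) (nat_lit 20406803791) (nat_lit 7) (nat_lit 4) (nat_lit 8) (nat_lit 5) (nat_lit 8) (nat_lit 4) (nat_lit 350) (nat_lit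 297) (nat_lit 253)) (XT.lf (nat_lit 0) (nat_lit 16434421684) (nat_lit 76) (nat_lit 25627428263) (nat_lit 76) (nat_lit 14697958745) (nat_lit 7) (nat_lit 4) (nat_lit 8) (nat_lit 5) (nat_lit 8) (nat_lit 4) (nat_lit 351) (nat_lit 297) (nat_lit 252))) (XT.nd (nat_lit 78) (nat_lit 0) (nat_lit 0) (XT.lf (nat_lit 0) (nat_lit 32595542020) (nat_lit 76) (nat_lit 19525416669) (nat_lit 76) (nat_lit 8569764143) (nat_lit 7) (nat_lit 4) (nat_lit 8) (nat_lit 5) (nat_lit 8) (nat_lit 4) (nat_lit 352) (nat_lit 297) (nat_lit 251)) (XT.lf (nat_lit 0) (nat_lit 49986975113) (nat_lit 76) (nat_lit 12965800810) (nat_lit 76) (nat_lit 1985904760) (nat_lit 7) (nat_lit 4) (nat_lit 8) (nat_lit 5) (nat_lit 8) (nat_lit 4) (nat_lit 353) (nat_lit 297) (nat_lit 250)))) (XT.nd (nat_lit 156) (nat_lit 0) (nat_lit 0) (XT.nd (nat_lit 78) (nat_lit 76) (nat_lit 0) (XT.lf (nat_lit 0) (nat_lit 4837880646) (nat_lit 152) (nat_lit 939552012)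 (nat_lit 76) (nat_lit 63741624433) (nat_lit 6) (nat_lit 5) (nat_lit 8) (nat_lit 5) (nat_lit 7) (nat_lit 4) (nat_lit 354) (nat_lit 297) (nat_lit 249)) (XT.lf (nat_lit 0) (nat_lit 12486452873) (nat_lit 152) (nat_lit 59664545097) (nat_lit 0) (nat_lit 2279852249) (nat_lit 5) (nat_lit 5) (nat_lit 7) (nat_lit 4) (nat_lit 5) (nat_lit 4) (nat_lit 355) (nat_lit 297) (nat_lit 248))) (XT.nd (nat_lit 78) (nat_lit 0) (nat_lit 0) (XT.lf (nat_lit 0) (nat_lit 20895318016) (nat_lit 152) (nat_lit 48157505122) (nat_lit 0) (nat_lit 10670897678) (nat_lit 5) (nat_lit 5) (nat_lit 7) (nat_lit 4) (nat_lit 5) (nat_lit 4) (nat_lit 356) (nat_lit 297) (nat_lit 247)) (XT.nd (nat_lit 78) (nat_lit 0) (nat_lit 0) (XT.lf (nat_lit 0) (nat_lit 29950955045) (nat_lit 152) (nat_lit 35781112130) (nat_lit 0) (nat_lit 19710034972) (nat_lit 5) (nat_lit 5) (nat_lit 7) (nat_lit 4) (nat_lit 5) (nat_lit 4) (nat_lit 357) (nat_lit 297)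 (nat_lit 246)) (XT.lf (nat_lit 0) (nat_lit 39707026995) (nat_lit 152) (nat_lit 22462024535) (nat_lit 0) (nat_lit 29450829389) (nat_lit 5) (nat_lit 5) (nat_lit 7) (nat_lit 4) (nat_lit 5) (nat_lit 4) (nat_lit 358) (nat_lit 297) (nat_lit 245))))))))
noncomputable def xc87 : XT := (XT.nd (nat_lit 1326) (nat_lit 76) (nat_lit 0) (XT.nd (nat_lit 624) (nat_lit 152) (nat_lit 0) (XT.nd (nat_lit 312) (nat_lit 0) (nat_lit 0) (XT.nd (nat_lit 156) (nat_lit 0) (nat_lit 0) (XT.nd (nat_lit 78) (nat_lit 76) (nat_lit 0) (XT.lf (nat_lit 0) (nat_lit 50221347625) (nat_lit 152) (nat_lit 8121314408) (nat_lit 0) (nat_lit 39951004154) (nat_lit 5) (nat_lit 5) (nat_lit 7) (nat_lit 4) (nat_lit 5) (nat_lit 4) (nat_lit 359) (nat_lit 297) (nat_lit 244)) (XT.lf (nat_lit 0) (nat_lit 7711774423) (nat_lit 76) (nat_lit 54029917956) (nat_lit 76) (nat_lit 43746476464) (nat_lit 4) (nat_lit 4) (nat_lit 5) (nat_lit 5) (nat_lit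 5) (nat_lit 4) (nat_lit 360) (nat_lit 297) (nat_lit 243))) (XT.nd (nat_lit 78) (nat_lit 0) (nat_lit 0) (XT.lf (nat_lit 0) (nat_lit 25233753587) (nat_lit 76) (nat_lit 49151944611) (nat_lit 76) (nat_lit 38856375320) (nat_lit 4) (nat_lit 4) (nat_lit 5) (nat_lit 5) (nat_lit 5) (nat_lit 4) (nat_lit 361) (nat_lit 297) (nat_lit 242)) (XT.lf (nat_lit 0) (nat_lit 44120803008) (nat_lit 76) (nat_lit 43901886616) (nat_lit 76) (nat_lit 33595087883) (nat_lit 4) (nat_lit 4) (nat_lit 5) (nat_lit 5) (nat_lit 5) (nat_lit 4) (nat_lit 362) (nat_lit 297) (nat_lit 241)))) (XT.nd (nat_lit 156) (nat_lit 0) (nat_lit 0) (XT.nd (nat_lit 78) (nat_lit 0) (nat_lit 0) (XT.lf (nat_lit 0) (nat_lit 64484845943) (nat_lit 76) (nat_lit 38248632518) (nat_lit 76) (nat_lit 27931436152) (nat_lit 4) (nat_lit 4) (nat_lit 5) (nat_lit 5) (nat_lit 5) (nat_lit 4) (nat_lit 363) (nat_lit 297) (nat_lit 240)) (XT.lf (nat_lit 0) (nat_lit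 86446558202) (nat_lit 76) (nat_lit 32158681551) (nat_lit 76) (nat_lit 21831857748) (nat_lit 4) (nat_lit 4) (nat_lit 5) (nat_lit 5) (nat_lit 5) (nat_lit 4) (nat_lit 364) (nat_lit 297) (nat_lit 239))) (XT.nd (nat_lit 78) (nat_lit 0) (nat_lit 0) (XT.lf (nat_lit 0) (nat_lit 110136083263) (nat_lit 76) (nat_lit 25595945116) (nat_lit 76) (nat_lit 15260207020) (nat_lit 4) (nat_lit 4) (nat_lit 5) (nat_lit 5) (nat_lit 5) (nat_lit 4) (nat_lit 365) (nat_lit 297) (nat_lit 238)) (XT.lf (nat_lit 0) (nat_lit 135693803499) (nat_lit 76) (nat_lit 18521532924) (nat_lit 76) (nat_lit 8177540852) (nat_lit 4) (nat_lit 4) (nat_lit 5) (nat_lit 5) (nat_lit 5) (nat_lit 4) (nat_lit 366) (nat_lit 297) (nat_lit 237))))) (XT.nd (nat_lit 312) (nat_lit 0) (nat_lit 0) (XT.nd (nat_lit 156) (nat_lit 0) (nat_lit 0) (XT.nd (nat_lit 78) (nat_lit 152) (nat_lit 0) (XT.lf (nat_lit 0) (nat_lit 163271172066) (nat_lit 76) (nat_lit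 10893522533) (nat_lit 76) (nat_lit 541887891) (nat_lit 4) (nat_lit 4) (nat_lit 5) (nat_lit 5) (nat_lit 5) (nat_lit 4) (nat_lit 367) (nat_lit 297) (nat_lit 236)) (XT.lf (nat_lit 0) (nat_lit 5095177905) (nat_lit 76) (nat_lit 2334576422) (nat_lit 152) (nat_lit 180551964265) (nat_lit 2) (nat_lit 5) (nat_lit 3) (nat_lit 5) (nat_lit 4) (nat_lit 4) (nat_lit 368) (nat_lit 297) (nat_lit 235))) (XT.nd (nat_lit 78) (nat_lit 0) (nat_lit 0) (XT.lf (nat_lit 0) (nat_lit 16484869683) (nat_lit 152) (nat_lit 178907467116) (nat_lit 0) (nat_lit 6887403602) (nat_lit 2) (nat_lit 5) (nat_lit 4) (nat_lit 4) (nat_lit 2) (nat_lit 4) (nat_lit 369) (nat_lit 297) (nat_lit 234)) (XT.lf (nat_lit 0) (nat_lit 26313984998) (nat_lit 152) (nat_lit 174692752376) (nat_lit 0) (nat_lit 16710901399) (nat_lit 2) (nat_lit 5) (nat_lit 4) (nat_lit 4) (nat_lit 2) (nat_lit 4) (nat_lit 370) (nat_lit 297) (nat_lit 233)))) (XT.nd (nat_lit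 156) (nat_lit 0) (nat_lit 0) (XT.nd (nat_lit 78) (nat_lit 0) (nat_lit 0) (XT.lf (nat_lit 0) (nat_lit 36919200262) (nat_lit 152) (nat_lit 170161273762) (nat_lit 0) (nat_lit 27310915258) (nat_lit 2) (nat_lit 5) (nat_lit 4) (nat_lit 4) (nat_lit 2) (nat_lit 4) (nat_lit 371) (nat_lit 297) (nat_lit 232)) (XT.lf (nat_lit 0) (nat_lit 48363361194) (nat_lit 152) (nat_lit 165286178066) (nat_lit 0) (nat_lit 38750260076) (nat_lit 2) (nat_lit 5) (nat_lit 4) (nat_lit 4) (nat_lit 2) (nat_lit 4) (nat_lit 372) (nat_lit 297) (nat_lit 231))) (XT.nd (nat_lit 78) (nat_lit 0) (nat_lit 0) (XT.lf (nat_lit 0) (nat_lit 60714285046) (nat_lit 152) (nat_lit 160038575832) (nat_lit 0) (nat_lit 51096724561) (nat_lit 2) (nat_lit 5) (nat_lit 4) (nat_lit 4) (nat_lit 2) (nat_lit 4) (nat_lit 373) (nat_lit 297) (nat_lit 230)) (XT.nd (nat_lit 78) (nat_lit 0) (nat_lit 0) (XT.lf (nat_lit 0) (nat_lit 74045162476) (nat_lit 152)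 (nat_lit 154387370160) (nat_lit 0) (nat_lit 64423472949) (nat_lit 2) (nat_lit 5) (nat_lit 4) (nat_lit 4) (nat_lit 2) (nat_lit 4) (nat_lit 374) (nat_lit 297) (nat_lit 229)) (XT.lf (nat_lit 0) (nat_lit 88434991278) (nat_lit 152) (nat_lit 148299072421) (nat_lit 0) (nat_lit 78809478562) (nat_lit 2) (nat_lit 5) (nat_lit 4) (nat_lit 4) (nat_lit 2) (nat_lit 4) (nat_lit 375) (nat_lit 297) (nat_lit 228))))))) (XT.nd (nat_lit 702) (nat_lit 76) (nat_lit 0) (XT.nd (nat_lit 312) (nat_lit 0) (nat_lit 0) (XT.nd (nat_lit 156) (nat_lit 0) (nat_lit 0) (XT.nd (nat_lit 78) (nat_lit 0) (nat_lit 0) (XT.lf (nat_lit 0) (nat_lit 103969044510) (nat_lit 152) (nat_lit 141737603815) (nat_lit 0) (nat_lit 94339991805) (nat_lit 2) (nat_lit 5) (nat_lit 4) (nat_lit 4) (nat_lit 2) (nat_lit 4) (nat_lit 376) (nat_lit 297) (nat_lit 227)) (XT.lf (nat_lit 0) (nat_lit 120739375821) (nat_lit 152) (nat_lit 134664081566) (nat_lit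 0) (nat_lit 111107045349) (nat_lit 2) (nat_lit 5) (nat_lit 4) (nat_lit 4) (nat_lit 2) (nat_lit 4) (nat_lit 377) (nat_lit 297) (nat_lit 226))) (XT.nd (nat_lit 78) (nat_lit 0) (nat_lit 0) (XT.lf (nat_lit 0) (nat_lit 138845364953) (nat_lit 152) (nat_lit 127036588503) (nat_lit 0) (nat_lit 129209999511) (nat_lit 2) (nat_lit 5) (nat_lit 4) (nat_lit 4) (nat_lit 2) (nat_lit 4) (nat_lit 378) (nat_lit 297) (nat_lit 225)) (XT.lf (nat_lit 0) (nat_lit 158394306655) (nat_lit 152) (nat_lit 118809924668) (nat_lit 0) (nat_lit 148756131056) (nat_lit 2) (nat_lit 5) (nat_lit 4) (nat_lit 4) (nat_lit 2) (nat_lit 4) (nat_lit 379) (nat_lit 297) (nat_lit 224)))) (XT.nd (nat_lit 156) (nat_lit 0) (nat_lit 0) (XT.nd (nat_lit 78) (nat_lit 0) (nat_lit 0) (XT.lf (nat_lit 0) (nat_lit 179502046509) (nat_lit 152) (nat_lit 109935339461) (nat_lit 0) (nat_lit 169861268913) (nat_lit 2) (nat_lit 5) (nat_lit 4) (nat_lit 4) (nat_lit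 2) (nat_lit 4) (nat_lit 380) (nat_lit 297) (nat_lit 223)) (XT.lf (nat_lit 0) (nat_lit 202293667417) (nat_lit 152) (nat_lit 100360242747) (nat_lit 0) (nat_lit 192650480564) (nat_lit 2) (nat_lit 5) (nat_lit 4) (nat_lit 4) (nat_lit 2) (nat_lit 4) (nat_lit 381) (nat_lit 297) (nat_lit 222))) (XT.nd (nat_lit 78) (nat_lit 0) (nat_lit 0) (XT.lf (nat_lit 0) (nat_lit 226904230836) (nat_lit 152) (nat_lit 90027893212) (nat_lit 0) (nat_lit 217258813190) (nat_lit 2) (nat_lit 5) (nat_lit 4) (nat_lit 4) (nat_lit 2) (nat_lit 4) (nat_lit 382) (nat_lit 297) (nat_lit 221)) (XT.nd (nat_lit 78) (nat_lit 0) (nat_lit 0) (XT.lf (nat_lit 0) (nat_lit 253479577142) (nat_lit 152) (nat_lit 78877062119) (nat_lit 0) (nat_lit 243832093947) (nat_lit 2) (nat_lit 5) (nat_lit 4) (nat_lit 4) (nat_lit 2) (nat_lit 4) (nat_lit 383) (nat_lit 297) (nat_lit 220)) (XT.lf (nat_lit 0) (nat_lit 282177189870) (nat_lit 152) (nat_lit 66841670468)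 (nat_lit 0) (nat_lit 272527794128) (nat_lit 2) (nat_lit 5) (nat_lit 4) (nat_lit 4) (nat_lit 2) (nat_lit 4) (nat_lit 384) (nat_lit 297) (nat_lit 219)))))) (XT.nd (nat_lit 312) (nat_lit 76) (nat_lit 0) (XT.nd (nat_lit 156) (nat_lit 0) (nat_lit 0) (XT.nd (nat_lit 78) (nat_lit 0) (nat_lit 0) (XT.lf (nat_lit 0) (nat_lit 313167128945) (nat_lit 152) (nat_lit 53850397419) (nat_lit 0) (nat_lit 303515962328) (nat_lit 2) (nat_lit 5) (nat_lit 4) (nat_lit 4) (nat_lit 2) (nat_lit 4) (nat_lit 385) (nat_lit 297) (nat_lit 218)) (XT.lf (nat_lit 0) (nat_lit 346633038452) (nat_lit 152) (nat_lit 39826257651) (nat_lit 0) (nat_lit 336980232135) (nat_lit 2) (nat_lit 5) (nat_lit 4) (nat_lit 4) (nat_lit 2) (nat_lit 4) (nat_lit 386) (nat_lit 297) (nat_lit 217))) (XT.nd (nat_lit 78) (nat_lit 0) (nat_lit 0) (XT.lf (nat_lit 0) (nat_lit 382773234891) (nat_lit 152) (nat_lit 24686145151) (nat_lit 0) (nat_lit 373118910334)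 (nat_lit 2) (nat_lit 5) (nat_lit 4) (nat_lit 4) (nat_lit 2) (nat_lit 4) (nat_lit 387) (nat_lit 297) (nat_lit 216)) (XT.lf (nat_lit 0) (nat_lit 421801882390) (nat_lit 152) (nat_lit 8340340734) (nat_lit 0) (nat_lit 412146152054) (nat_lit 2) (nat_lit 5) (nat_lit 4) (nat_lit 4) (nat_lit 2) (nat_lit 4) (nat_lit 388) (nat_lit 297) (nat_lit 215)))) (XT.nd (nat_lit 156) (nat_lit 0) (nat_lit 0) (XT.nd (nat_lit 78) (nat_lit 0) (nat_lit 0) (XT.lf (nat_lit 0) (nat_lit 9798163445) (nat_lit 76) (nat_lit 454387744442) (nat_lit 76) (nat_lit 444730712460) (nat_lit 1) (nat_lit 4) (nat_lit 2) (nat_lit 5) (nat_lit 2) (nat_lit 4) (nat_lit 389) (nat_lit 297) (nat_lit 214)) (XT.lf (nat_lit 0) (nat_lit 29857091445) (nat_lit 76) (nat_lit 480329113684) (nat_lit 76) (nat_lit 470670876474) (nat_lit 1) (nat_lit 4) (nat_lit 2) (nat_lit 5) (nat_lit 2) (nat_lit 4) (nat_lit 390) (nat_lit 297) (nat_lit 213))) (XT.nd (nat_lit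 78) (nat_lit 0) (nat_lit 0) (XT.lf (nat_lit 0) (nat_lit 51516123422) (nat_lit 76) (nat_lit 508348097176) (nat_lit 76) (nat_lit 498688744014) (nat_lit 1) (nat_lit 4) (nat_lit 2) (nat_lit 5) (nat_lit 2) (nat_lit 4) (nat_lit 391) (nat_lit 297) (nat_lit 212)) (XT.nd (nat_lit 78) (nat_lit 0) (nat_lit 0) (XT.lf (nat_lit 0) (nat_lit 74903609197) (nat_lit 76) (nat_lit 538610733341) (nat_lit 76) (nat_lit 528950346890) (nat_lit 1) (nat_lit 4) (nat_lit 2) (nat_lit 5) (nat_lit 2) (nat_lit 4) (nat_lit 392) (nat_lit 297) (nat_lit 211)) (XT.lf (nat_lit 0) (nat_lit 100158141277) (nat_lit 76) (nat_lit 571296356318) (nat_lit 76) (nat_lit 561635013118) (nat_lit 1) (nat_lit 4) (nat_lit 2) (nat_lit 5) (nat_lit 2) (nat_lit 4) (nat_lit 393) (nat_lit 297) (nat_lit 210))))))))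
noncomputable def xc88 : XT := (XT.nd (nat_lit 1326) (nat_lit 0) (nat_lit 0) (XT.nd (nat_lit 624) (nat_lit 0) (nat_lit 0) (XT.nd (nat_lit 312) (nat_lit 0) (nat_lit 0) (XT.nd (nat_lit 156) (nat_lit 0) (nat_lit 0) (XT.nd (nat_lit 78) (nat_lit 0) (nat_lit 0) (XT.lf (nat_lit 0) (nat_lit 127429376149) (nat_lit 76) (nat_lit 606598658688) (nat_lit 76) (nat_lit 596936429609) (nat_lit 1) (nat_lit 4) (nat_lit 2) (nat_lit 5) (nat_lit 2) (nat_lit 4) (nat_lit 394) (nat_lit 297) (nat_lit 209)) (XT.lf (nat_lit 0) (nat_lit 156878921131) (nat_lit 76) (nat_lit 644726839280) (nat_lit 76) (nat_lit 635063789943) (nat_lit 1) (nat_lit 4) (nat_lit 2) (nat_lit 5) (nat_lit 2) (nat_lit 4) (nat_lit 395) (nat_lit 297) (nat_lit 208))) (XT.nd (nat_lit 78) (nat_lit 0) (nat_lit 0) (XT.lf (nat_lit 0) (nat_lit 188681292044) (nat_lit 76) (nat_lit 685906842867) (nat_lit 76) (nat_lit 676243034031) (nat_lit 1) (nat_lit 4) (nat_lit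 2) (nat_lit 5) (nat_lit 2) (nat_lit 4) (nat_lit 396) (nat_lit 297) (nat_lit 207)) (XT.lf (nat_lit 0) (nat_lit 223024947384) (nat_lit 76) (nat_lit 730382699100) (nat_lit 76) (nat_lit 720718187026) (nat_lit 1) (nat_lit 4) (nat_lit 2) (nat_lit 5) (nat_lit 2) (nat_lit 4) (nat_lit 397) (nat_lit 297) (nat_lit 206)))) (XT.nd (nat_lit 156) (nat_lit 0) (nat_lit 0) (XT.nd (nat_lit 78) (nat_lit 0) (nat_lit 0) (XT.lf (nat_lit 0) (nat_lit 260113405107) (nat_lit 76) (nat_lit 778417968610) (nat_lit 76) (nat_lit 768752805388) (nat_lit 1) (nat_lit 4) (nat_lit 2) (nat_lit 5) (nat_lit 2) (nat_lit 4) (nat_lit 398) (nat_lit 297) (nat_lit 205)) (XT.lf (nat_lit 0) (nat_lit 300166448668) (nat_lit 76) (nat_lit 830297304845) (nat_lit 76) (nat_lit 820631538709) (nat_lit 1) (nat_lit 4) (nat_lit 2) (nat_lit 5) (nat_lit 2) (nat_lit 4) (nat_lit 399) (nat_lit 297) (nat_lit 204))) (XT.nd (nat_lit 78) (nat_lit 0) (nat_lit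 0) (XT.lf (nat_lit 0) (nat_lit 343421429434) (nat_lit 76) (nat_lit 886328140908) (nat_lit 76) (nat_lit 876661816518) (nat_lit 1) (nat_lit 4) (nat_lit 2) (nat_lit 5) (nat_lit 2) (nat_lit 4) (nat_lit 400) (nat_lit 297) (nat_lit 203)) (XT.lf (nat_lit 0) (nat_lit 390134673219) (nat_lit 76) (nat_lit 946842511384) (nat_lit 76) (nat_lit 937175670092) (nat_lit 1) (nat_lit 4) (nat_lit 2) (nat_lit 5) (nat_lit 2) (nat_lit 4) (nat_lit 401) (nat_lit 297) (nat_lit 202))))) (XT.nd (nat_lit 312) (nat_lit 0) (nat_lit 0) (XT.nd (nat_lit 156) (nat_lit 0) (nat_lit 0) (XT.nd (nat_lit 78) (nat_lit 0) (nat_lit 0) (XT.lf (nat_lit 0) (nat_lit 440582999243) (nat_lit 76) (nat_lit 1012199019949) (nat_lit 76) (nat_lit 1002531700045) (nat_lit 1) (nat_lit 4) (nat_lit 2) (nat_lit 5) (nat_lit 2) (nat_lit 4) (nat_lit 402) (nat_lit 297) (nat_lit 201)) (XT.lf (nat_lit 0) (nat_lit 495065360552) (nat_lit 76) (nat_lit 1082784964433)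 (nat_lit 76) (nat_lit 1073117201368) (nat_lit 1) (nat_lit 4) (nat_lit 2) (nat_lit 5) (nat_lit 2) (nat_lit 4) (nat_lit 403) (nat_lit 297) (nat_lit 200))) (XT.nd (nat_lit 78) (nat_lit 0) (nat_lit 0) (XT.lf (nat_lit 0) (nat_lit 553904615581) (nat_lit 76) (nat_lit 1159018631912) (nat_lit 76) (nat_lit 1149350458515) (nat_lit 1) (nat_lit 4) (nat_lit 2) (nat_lit 5) (nat_lit 2) (nat_lit 4) (nat_lit 404) (nat_lit 297) (nat_lit 199)) (XT.lf (nat_lit 0) (nat_lit 617449441399) (nat_lit 76) (nat_lit 1241351777456) (nat_lit 76) (nat_lit 1231683224120) (nat_lit 1) (nat_lit 4) (nat_lit 2) (nat_lit 5) (nat_lit 2) (nat_lit 4) (nat_lit 405) (nat_lit 297) (nat_lit 198)))) (XT.nd (nat_lit 156) (nat_lit 0) (nat_lit 0) (XT.nd (nat_lit 78) (nat_lit 0) (nat_lit 0) (XT.lf (nat_lit 0) (nat_lit 686076399935) (nat_lit 76) (nat_lit 1330272301183) (nat_lit 76) (nat_lit 1320603396053) (nat_lit 1) (nat_lit 4) (nat_lit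 2) (nat_lit 5) (nat_lit 2) (nat_lit 4) (nat_lit 406) (nat_lit 297) (nat_lit 197)) (XT.lf (nat_lit 0) (nat_lit 760192169462) (nat_lit 76) (nat_lit 1426307139533) (nat_lit 76) (nat_lit 1416637908667) (nat_lit 1) (nat_lit 4) (nat_lit 2) (nat_lit 5) (nat_lit 2) (nat_lit 4) (nat_lit 407) (nat_lit 297) (nat_lit 196))) (XT.nd (nat_lit 78) (nat_lit 0) (nat_lit 0) (XT.lf (nat_lit 0) (nat_lit 840235954541) (nat_lit 76) (nat_lit 1530025387842) (nat_lit 76) (nat_lit 1520355855369) (nat_lit 1) (nat_lit 4) (nat_lit 2) (nat_lit 5) (nat_lit 2) (nat_lit 4) (nat_lit 408) (nat_lit 297) (nat_lit 195)) (XT.nd (nat_lit 78) (nat_lit 0) (nat_lit 0) (XT.lf (nat_lit 0) (nat_lit 926682088712) (nat_lit 76) (nat_lit 1642041672769) (nat_lit 76) (nat_lit 1632371861030) (nat_lit 1) (nat_lit 4) (nat_lit 2) (nat_lit 5) (nat_lit 2) (nat_lit 4) (nat_lit 409) (nat_lit 297) (nat_lit 194)) (XT.lf (nat_lit 0) (nat_lit 1020042845365)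 (nat_lit 76) (nat_lit 1763019794519) (nat_lit 76) (nat_lit 1753349724200) (nat_lit 1) (nat_lit 4) (nat_lit 2) (nat_lit 5) (nat_lit 2) (nat_lit 4) (nat_lit 410) (nat_lit 297) (nat_lit 193))))))) (XT.nd (nat_lit 38922) (nat_lit 0) (nat_lit 2812) (XT.nd (nat_lit 38610) (nat_lit 0) (nat_lit 4864) (XT.nd (nat_lit 156) (nat_lit 0) (nat_lit 0) (XT.nd (nat_lit 78) (nat_lit 0) (nat_lit 0) (XT.lf (nat_lit 0) (nat_lit 1120871473425) (nat_lit 76) (nat_lit 1893676660481) (nat_lit 76) (nat_lit 1884006350736) (nat_lit 1) (nat_lit 4) (nat_lit 2) (nat_lit 5) (nat_lit 2) (nat_lit 4) (nat_lit 411) (nat_lit 297) (nat_lit 192)) (XT.lf (nat_lit 0) (nat_lit 1229765475876) (nat_lit 76) (nat_lit 2034786533564) (nat_lit 76) (nat_lit 2025116002129) (nat_lit 1) (nat_lit 4) (nat_lit 2) (nat_lit 5) (nat_lit 2) (nat_lit 4) (nat_lit 412) (nat_lit 297) (nat_lit 191))) (XT.nd (nat_lit 38376) (nat_lit 0) (nat_lit 5472)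 (XT.lf (nat_lit 0) (nat_lit 1347370150509) (nat_lit 76) (nat_lit 2187185620423) (nat_lit 76) (nat_lit 2177514883720) (nat_lit 1) (nat_lit 4) (nat_lit 2) (nat_lit 5) (nat_lit 2) (nat_lit 4) (nat_lit 413) (nat_lit 297) (nat_lit 190)) (XT.lf (nat_lit 0) (nat_lit 223662935) (nat_lit 228) (nat_lit 2832240910) (nat_lit 0) (nat_lit 223662935) (nat_lit 73) (nat_lit 5) (nat_lit 76) (nat_lit 4) (nat_lit 73) (nat_lit 4) (nat_lit 304) (nat_lit 298) (nat_lit 298)))) (XT.nd (nat_lit 156) (nat_lit 380) (nat_lit 0) (XT.nd (nat_lit 78) (nat_lit 228) (nat_lit 0) (XT.lf (nat_lit 0) (nat_lit 3551179083) (nat_lit 228) (nat_lit 1796702036) (nat_lit 0) (nat_lit 1278190073) (nat_lit 73) (nat_lit 5) (nat_lit 76) (nat_lit 4) (nat_lit 73) (nat_lit 4) (nat_lit 305) (nat_lit 298) (nat_lit 297)) (XT.lf (nat_lit 0) (nat_lit 2284080421) (nat_lit 228) (nat_lit 4404909098) (nat_lit 228) (nat_lit 27300636) (nat_lit 70)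 (nat_lit 4) (nat_lit 73) (nat_lit 5) (nat_lit 73) (nat_lit 4) (nat_lit 306) (nat_lit 298) (nat_lit 296))) (XT.nd (nat_lit 78) (nat_lit 304) (nat_lit 0) (XT.lf (nat_lit 0) (nat_lit 2889651780) (nat_lit 304) (nat_lit 315854474) (nat_lit 76) (nat_lit 3619500506) (nat_lit 69) (nat_lit 5) (nat_lit 73) (nat_lit 5) (nat_lit 70) (nat_lit 4) (nat_lit 307) (nat_lit 298) (nat_lit 295)) (XT.lf (nat_lit 0) (nat_lit 4132309654) (nat_lit 304) (nat_lit 1763369090) (nat_lit 380) (nat_lit 1058727547) (nat_lit 65) (nat_lit 5) (nat_lit 69) (nat_lit 5) (nat_lit 70) (nat_lit 4) (nat_lit 308) (nat_lit 298) (nat_lit 294))))) (XT.nd (nat_lit 312) (nat_lit 760) (nat_lit 0) (XT.nd (nat_lit 156) (nat_lit 836) (nat_lit 0) (XT.nd (nat_lit 78) (nat_lit 0) (nat_lit 0) (XT.lf (nat_lit 0) (nat_lit 1684315168) (nat_lit 380) (nat_lit 75121001) (nat_lit 456) (nat_lit 5346202315) (nat_lit 59) (nat_lit 5) (nat_lit 64) (nat_lit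 5) (nat_lit 65) (nat_lit 5) (nat_lit 309) (nat_lit 298) (nat_lit 293)) (XT.lf (nat_lit 0) (nat_lit 4644455516) (nat_lit 456) (nat_lit 847287192) (nat_lit 76) (nat_lit 1783628908) (nat_lit 59) (nat_lit 5) (nat_lit 65) (nat_lit 5) (nat_lit 60) (nat_lit 4) (nat_lit 310) (nat_lit 298) (nat_lit 292))) (XT.nd (nat_lit 78) (nat_lit 304) (nat_lit 0) (XT.lf (nat_lit 0) (nat_lit 177453389) (nat_lit 532) (nat_lit 3384959262) (nat_lit 76) (nat_lit 3904835159) (nat_lit 52) (nat_lit 5) (nat_lit 59) (nat_lit 5) (nat_lit 53) (nat_lit 5) (nat_lit 311) (nat_lit 298) (nat_lit 291)) (XT.lf (nat_lit 0) (nat_lit 1578045052) (nat_lit 304) (nat_lit 1350819402) (nat_lit 380) (nat_lit 4751691336) (nat_lit 48) (nat_lit 5) (nat_lit 52) (nat_lit 5) (nat_lit 53) (nat_lit 5) (nat_lit 312) (nat_lit 298) (nat_lit 290)))) (XT.nd (nat_lit 156) (nat_lit 456) (nat_lit 0) (XT.nd (nat_lit 78) (nat_lit 304) (nat_lit 0) (XT.lf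 (nat_lit 0) (nat_lit 5828573961) (nat_lit 380) (nat_lit 1023887977) (nat_lit 76) (nat_lit 1064572103) (nat_lit 48) (nat_lit 5) (nat_lit 53) (nat_lit 5) (nat_lit 49) (nat_lit 4) (nat_lit 313) (nat_lit 298) (nat_lit 289)) (XT.lf (nat_lit 0) (nat_lit 711546625) (nat_lit 304) (nat_lit 3752565716) (nat_lit 76) (nat_lit 3710061285) (nat_lit 44) (nat_lit 5) (nat_lit 48) (nat_lit 5) (nat_lit 45) (nat_lit 5) (nat_lit 314) (nat_lit 298) (nat_lit 288))) (XT.nd (nat_lit 78) (nat_lit 228) (nat_lit 0) (XT.lf (nat_lit 0) (nat_lit 1731745826) (nat_lit 228) (nat_lit 1787431231) (nat_lit 304) (nat_lit 4936937478) (nat_lit 41) (nat_lit 5) (nat_lit 44) (nat_lit 5) (nat_lit 45) (nat_lit 5) (nat_lit 315) (nat_lit 298) (nat_lit 287)) (XT.nd (nat_lit 78) (nat_lit 228) (nat_lit 0) (XT.lf (nat_lit 0) (nat_lit 6516276116) (nat_lit 304) (nat_lit 1131864559) (nat_lit 76) (nat_lit 1115546347) (nat_lit 41) (nat_lit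 5) (nat_lit 45) (nat_lit 5) (nat_lit 42) (nat_lit 4) (nat_lit 316) (nat_lit 298) (nat_lit 286)) (XT.lf (nat_lit 0) (nat_lit 634225310) (nat_lit 228) (nat_lit 4206709074) (nat_lit 76) (nat_lit 4253107305) (nat_lit 38) (nat_lit 5) (nat_lit 41) (nat_lit 5) (nat_lit 39) (nat_lit 5) (nat_lit 317) (nat_lit 298) (nat_lit 285))))))))
noncomputable def xc89 : XT := (XT.nd (nat_lit 1326) (nat_lit 760) (nat_lit 0) (XT.nd (nat_lit 624) (nat_lit 608) (nat_lit 0) (XT.nd (nat_lit 312) (nat_lit 380) (nat_lit 0) (XT.nd (nat_lit 156) (nat_lit 380) (nat_lit 0) (XT.nd (nat_lit 78) (nat_lit 0) (nat_lit 0) (XT.lf (nat_lit 0) (nat_lit 1831128535) (nat_lit 228) (nat_lit 1717708051) (nat_lit 304) (nat_lit 5903619516) (nat_lit 35) (nat_lit 5) (nat_lit 38) (nat_lit 5) (nat_lit 39) (nat_lit 5) (nat_lit 318) (nat_lit 298) (nat_lit 284)) (XT.lf (nat_lit 0) (nat_lit 6707632134) (nat_lit 304) (nat_lit 1492608487) (nat_lit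 76) (nat_lit 1638616570) (nat_lit 35) (nat_lit 5) (nat_lit 39) (nat_lit 5) (nat_lit 36) (nat_lit 4) (nat_lit 319) (nat_lit 298) (nat_lit 283))) (XT.nd (nat_lit 78) (nat_lit 228) (nat_lit 0) (XT.lf (nat_lit 0) (nat_lit 5144025254) (nat_lit 152) (nat_lit 5007507224) (nat_lit 228) (nat_lit 102226125) (nat_lit 33) (nat_lit 5) (nat_lit 35) (nat_lit 5) (nat_lit 36) (nat_lit 4) (nat_lit 320) (nat_lit 298) (nat_lit 282)) (XT.lf (nat_lit 0) (nat_lit 1498194639) (nat_lit 152) (nat_lit 1456289961) (nat_lit 228) (nat_lit 7745910973) (nat_lit 30) (nat_lit 5) (nat_lit 32) (nat_lit 5) (nat_lit 33) (nat_lit 5) (nat_lit 321) (nat_lit 298) (nat_lit 281)))) (XT.nd (nat_lit 156) (nat_lit 228) (nat_lit 0) (XT.nd (nat_lit 78) (nat_lit 152) (nat_lit 0) (XT.lf (nat_lit 0) (nat_lit 6320549807) (nat_lit 228) (nat_lit 2511006724) (nat_lit 76) (nat_lit 2345510460) (nat_lit 30) (nat_lit 5) (nat_lit 33) (nat_lit 5)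 (nat_lit 31) (nat_lit 4) (nat_lit 322) (nat_lit 298) (nat_lit 280)) (XT.lf (nat_lit 0) (nat_lit 4727797699) (nat_lit 152) (nat_lit 5259064220) (nat_lit 228) (nat_lit 1702665817) (nat_lit 28) (nat_lit 5) (nat_lit 30) (nat_lit 5) (nat_lit 31) (nat_lit 4) (nat_lit 323) (nat_lit 298) (nat_lit 279))) (XT.nd (nat_lit 78) (nat_lit 0) (nat_lit 0) (XT.lf (nat_lit 0) (nat_lit 231829242) (nat_lit 152) (nat_lit 1343327876) (nat_lit 228) (nat_lit 10668114004) (nat_lit 25) (nat_lit 5) (nat_lit 27) (nat_lit 5) (nat_lit 28) (nat_lit 5) (nat_lit 324) (nat_lit 298) (nat_lit 278)) (XT.lf (nat_lit 0) (nat_lit 5171541548) (nat_lit 228) (nat_lit 4738768621) (nat_lit 76) (nat_lit 2915705116) (nat_lit 25) (nat_lit 5) (nat_lit 28) (nat_lit 5) (nat_lit 26) (nat_lit 4) (nat_lit 325) (nat_lit 298) (nat_lit 277))))) (XT.nd (nat_lit 312) (nat_lit 304) (nat_lit 0) (XT.nd (nat_lit 156) (nat_lit 228) (nat_lit 0) (XT.nd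 (nat_lit 78) (nat_lit 0) (nat_lit 0) (XT.lf (nat_lit 0) (nat_lit 3056984971) (nat_lit 76) (nat_lit 5999317084) (nat_lit 152) (nat_lit 4399121127) (nat_lit 24) (nat_lit 5) (nat_lit 25) (nat_lit 5) (nat_lit 26) (nat_lit 4) (nat_lit 326) (nat_lit 298) (nat_lit 276)) (XT.lf (nat_lit 0) (nat_lit 11573607215) (nat_lit 76) (nat_lit 1703893329) (nat_lit 152) (nat_lit 855720803) (nat_lit 24) (nat_lit 5) (nat_lit 25) (nat_lit 5) (nat_lit 26) (nat_lit 4) (nat_lit 327) (nat_lit 298) (nat_lit 275))) (XT.nd (nat_lit 78) (nat_lit 0) (nat_lit 0) (XT.lf (nat_lit 0) (nat_lit 2941865113) (nat_lit 228) (nat_lit 8961983704) (nat_lit 76) (nat_lit 2946207981) (nat_lit 21) (nat_lit 5) (nat_lit 24) (nat_lit 5) (nat_lit 22) (nat_lit 4) (nat_lit 328) (nat_lit 298) (nat_lit 274)) (XT.lf (nat_lit 0) (nat_lit 7016179428) (nat_lit 228) (nat_lit 696561394) (nat_lit 76) (nat_lit 7908259535) (nat_lit 21) (nat_lit 5) (nat_lit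 24) (nat_lit 5) (nat_lit 22) (nat_lit 4) (nat_lit 329) (nat_lit 298) (nat_lit 273)))) (XT.nd (nat_lit 156) (nat_lit 152) (nat_lit 0) (XT.nd (nat_lit 78) (nat_lit 76) (nat_lit 0) (XT.lf (nat_lit 0) (nat_lit 8500936114) (nat_lit 76) (nat_lit 3030222292) (nat_lit 152) (nat_lit 4913349741) (nat_lit 20) (nat_lit 5) (nat_lit 21) (nat_lit 5) (nat_lit 22) (nat_lit 4) (nat_lit 330) (nat_lit 298) (nat_lit 272)) (XT.lf (nat_lit 0) (nat_lit 985571353) (nat_lit 76) (nat_lit 15425518614) (nat_lit 76) (nat_lit 922567647) (nat_lit 19) (nat_lit 4) (nat_lit 20) (nat_lit 5) (nat_lit 20) (nat_lit 4) (nat_lit 331) (nat_lit 298) (nat_lit 271))) (XT.nd (nat_lit 78) (nat_lit 76) (nat_lit 0) (XT.lf (nat_lit 0) (nat_lit 3431934808) (nat_lit 152) (nat_lit 7518259138) (nat_lit 76) (nat_lit 7320167168) (nat_lit 18) (nat_lit 5) (nat_lit 20) (nat_lit 5) (nat_lit 19) (nat_lit 4) (nat_lit 332) (nat_lit 298) (nat_lit 270))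 (XT.nd (nat_lit 78) (nat_lit 0) (nat_lit 0) (XT.lf (nat_lit 0) (nat_lit 1946275763) (nat_lit 76) (nat_lit 6104351292) (nat_lit 152) (nat_lit 11232251773) (nat_lit 17) (nat_lit 5) (nat_lit 18) (nat_lit 5) (nat_lit 19) (nat_lit 4) (nat_lit 333) (nat_lit 298) (nat_lit 269)) (XT.lf (nat_lit 0) (nat_lit 12454140138) (nat_lit 76) (nat_lit 711710608) (nat_lit 152) (nat_lit 7200429456) (nat_lit 17) (nat_lit 5) (nat_lit 18) (nat_lit 5) (nat_lit 19) (nat_lit 4) (nat_lit 334) (nat_lit 298) (nat_lit 268))))))) (XT.nd (nat_lit 624) (nat_lit 304) (nat_lit 0) (XT.nd (nat_lit 312) (nat_lit 228) (nat_lit 0) (XT.nd (nat_lit 156) (nat_lit 76) (nat_lit 0) (XT.nd (nat_lit 78) (nat_lit 76) (nat_lit 0) (XT.lf (nat_lit 0) (nat_lit 2113675201) (nat_lit 76) (nat_lit 16676293136) (nat_lit 76) (nat_lit 2738453054) (nat_lit 16) (nat_lit 4) (nat_lit 17) (nat_lit 5) (nat_lit 17) (nat_lit 4) (nat_lit 335) (nat_lit 298)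 (nat_lit 267)) (XT.lf (nat_lit 0) (nat_lit 2143148866) (nat_lit 152) (nat_lit 9584718243) (nat_lit 76) (nat_lit 11038360415) (nat_lit 15) (nat_lit 5) (nat_lit 17) (nat_lit 5) (nat_lit 16) (nat_lit 4) (nat_lit 336) (nat_lit 298) (nat_lit 266))) (XT.nd (nat_lit 78) (nat_lit 0) (nat_lit 0) (XT.lf (nat_lit 0) (nat_lit 878729411) (nat_lit 76) (nat_lit 6341498903) (nat_lit 152) (nat_lit 16880940956) (nat_lit 14) (nat_lit 5) (nat_lit 15) (nat_lit 5) (nat_lit 16) (nat_lit 4) (nat_lit 337) (nat_lit 298) (nat_lit 265)) (XT.lf (nat_lit 0) (nat_lit 12601717919) (nat_lit 76) (nat_lit 297688274) (nat_lit 152) (nat_lit 12627856310) (nat_lit 14) (nat_lit 5) (nat_lit 15) (nat_lit 5) (nat_lit 16) (nat_lit 4) (nat_lit 338) (nat_lit 298) (nat_lit 264)))) (XT.nd (nat_lit 156) (nat_lit 152) (nat_lit 0) (XT.nd (nat_lit 78) (nat_lit 76) (nat_lit 0) (XT.lf (nat_lit 0) (nat_lit 19120250411) (nat_lit 152) (nat_lit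 2071932285) (nat_lit 0) (nat_lit 5868302365) (nat_lit 14) (nat_lit 5) (nat_lit 16) (nat_lit 4) (nat_lit 14) (nat_lit 4) (nat_lit 339) (nat_lit 298) (nat_lit 263)) (XT.lf (nat_lit 0) (nat_lit 10035735412) (nat_lit 76) (nat_lit 15994256951) (nat_lit 76) (nat_lit 2671100979) (nat_lit 13) (nat_lit 4) (nat_lit 14) (nat_lit 5) (nat_lit 14) (nat_lit 4) (nat_lit 340) (nat_lit 298) (nat_lit 262))) (XT.nd (nat_lit 78) (nat_lit 76) (nat_lit 0) (XT.lf (nat_lit 0) (nat_lit 2869033865) (nat_lit 152) (nat_lit 7421498797) (nat_lit 76) (nat_lit 20176588849) (nat_lit 12) (nat_lit 5) (nat_lit 14) (nat_lit 5) (nat_lit 13) (nat_lit 4) (nat_lit 341) (nat_lit 298) (nat_lit 261)) (XT.lf (nat_lit 0) (nat_lit 4791399392) (nat_lit 76) (nat_lit 3978570775) (nat_lit 152) (nat_lit 23593980369) (nat_lit 11) (nat_lit 5) (nat_lit 12) (nat_lit 5) (nat_lit 13) (nat_lit 4) (nat_lit 342) (nat_lit 298) (nat_lit 260))))) (XT.nd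 (nat_lit 312) (nat_lit 228) (nat_lit 0) (XT.nd (nat_lit 156) (nat_lit 76) (nat_lit 0) (XT.nd (nat_lit 78) (nat_lit 0) (nat_lit 0) (XT.lf (nat_lit 0) (nat_lit 15366567976) (nat_lit 152) (nat_lit 16167694306) (nat_lit 0) (nat_lit 2860396027) (nat_lit 11) (nat_lit 5) (nat_lit 13) (nat_lit 4) (nat_lit 11) (nat_lit 4) (nat_lit 343) (nat_lit 298) (nat_lit 259)) (XT.lf (nat_lit 0) (nat_lit 22545285670) (nat_lit 152) (nat_lit 4047552788) (nat_lit 0) (nat_lit 9990650803) (nat_lit 11) (nat_lit 5) (nat_lit 13) (nat_lit 4) (nat_lit 11) (nat_lit 4) (nat_lit 344) (nat_lit 298) (nat_lit 258))) (XT.nd (nat_lit 78) (nat_lit 0) (nat_lit 0) (XT.lf (nat_lit 0) (nat_lit 9426955695) (nat_lit 76) (nat_lit 21052741890) (nat_lit 76) (nat_lit 8453233951) (nat_lit 10) (nat_lit 4) (nat_lit 11) (nat_lit 5) (nat_lit 11) (nat_lit 4) (nat_lit 345) (nat_lit 298) (nat_lit 257)) (XT.lf (nat_lit 0) (nat_lit 24124991859)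 (nat_lit 76) (nat_lit 14990538186) (nat_lit 76) (nat_lit 2349481106) (nat_lit 10) (nat_lit 4) (nat_lit 11) (nat_lit 5) (nat_lit 11) (nat_lit 4) (nat_lit 346) (nat_lit 298) (nat_lit 256)))) (XT.nd (nat_lit 156) (nat_lit 76) (nat_lit 0) (XT.nd (nat_lit 78) (nat_lit 76) (nat_lit 0) (XT.lf (nat_lit 0) (nat_lit 3988529186) (nat_lit 152) (nat_lit 4383387799) (nat_lit 76) (nat_lit 35822935577) (nat_lit 9) (nat_lit 5) (nat_lit 11) (nat_lit 5) (nat_lit 10) (nat_lit 4) (nat_lit 347) (nat_lit 298) (nat_lit 255)) (XT.lf (nat_lit 0) (nat_lit 9973040979) (nat_lit 76) (nat_lit 934743240) (nat_lit 152) (nat_lit 36214336270) (nat_lit 8) (nat_lit 5) (nat_lit 9) (nat_lit 5) (nat_lit 10) (nat_lit 4) (nat_lit 348) (nat_lit 298) (nat_lit 254))) (XT.nd (nat_lit 78) (nat_lit 76) (nat_lit 0) (XT.lf (nat_lit 0) (nat_lit 18635794569) (nat_lit 152) (nat_lit 24795401893) (nat_lit 0) (nat_lit 6831967489) (nat_lit 8)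 (nat_lit 5) (nat_lit 10) (nat_lit 4) (nat_lit 8) (nat_lit 4) (nat_lit 349) (nat_lit 298) (nat_lit 253)) (XT.nd (nat_lit 78) (nat_lit 76) (nat_lit 0) (XT.lf (nat_lit 0) (nat_lit 26970731827) (nat_lit 152) (nat_lit 11547047532) (nat_lit 0) (nat_lit 15138627100) (nat_lit 8) (nat_lit 5) (nat_lit 10) (nat_lit 4) (nat_lit 8) (nat_lit 4) (nat_lit 350) (nat_lit 298) (nat_lit 252)) (XT.lf (nat_lit 0) (nat_lit 2838990751) (nat_lit 76) (nat_lit 33168794663) (nat_lit 76) (nat_lit 21310506929) (nat_lit 7) (nat_lit 4) (nat_lit 8) (nat_lit 5) (nat_lit 8) (nat_lit 4) (nat_lit 351) (nat_lit 298) (nat_lit 251))))))))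
noncomputable def xc90 : XT := (XT.nd (nat_lit 1326) (nat_lit 152) (nat_lit 0) (XT.nd (nat_lit 624) (nat_lit 76) (nat_lit 0) (XT.nd (nat_lit 312) (nat_lit 76) (nat_lit 0) (XT.nd (nat_lit 156) (nat_lit 76) (nat_lit 0) (XT.nd (nat_lit 78) (nat_lit 0) (nat_lit 0) (XT.lf (nat_lit 0) (nat_lit 18970026053) (nat_lit 76) (nat_lit 27081473772) (nat_lit 76) (nat_lit 15198942513) (nat_lit 7) (nat_lit 4) (nat_lit 8) (nat_lit 5) (nat_lit 8) (nat_lit 4) (nat_lit 352) (nat_lit 298) (nat_lit 250)) (XT.lf (nat_lit 0) (nat_lit 36333602635) (nat_lit 76) (nat_lit 20535460417) (nat_lit 76) (nat_lit 8630481450) (nat_lit 7) (nat_lit 4) (nat_lit 8) (nat_lit 5) (nat_lit 8) (nat_lit 4) (nat_lit 353) (nat_lit 298) (nat_lit 249))) (XT.nd (nat_lit 78) (nat_lit 76) (nat_lit 0) (XT.lf (nat_lit 0) (nat_lit 55032615765) (nat_lit 76) (nat_lit 13491963407) (nat_lit 76) (nat_lit 1566199525) (nat_lit 7) (nat_lit 4) (nat_lit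 8) (nat_lit 5) (nat_lit 8) (nat_lit 4) (nat_lit 354) (nat_lit 298) (nat_lit 248)) (XT.lf (nat_lit 0) (nat_lit 5733832228) (nat_lit 152) (nat_lit 18638138) (nat_lit 76) (nat_lit 69287269047) (nat_lit 6) (nat_lit 5) (nat_lit 8) (nat_lit 5) (nat_lit 7) (nat_lit 4) (nat_lit 355) (nat_lit 298) (nat_lit 247)))) (XT.nd (nat_lit 156) (nat_lit 0) (nat_lit 0) (XT.nd (nat_lit 78) (nat_lit 0) (nat_lit 0) (XT.lf (nat_lit 0) (nat_lit 13991396345) (nat_lit 152) (nat_lit 63438617750) (nat_lit 0) (nat_lit 2914702930) (nat_lit 5) (nat_lit 5) (nat_lit 7) (nat_lit 4) (nat_lit 5) (nat_lit 4) (nat_lit 356) (nat_lit 298) (nat_lit 246)) (XT.lf (nat_lit 0) (nat_lit 23035487200) (nat_lit 152) (nat_lit 51085021314) (nat_lit 0) (nat_lit 11943516252) (nat_lit 5) (nat_lit 5) (nat_lit 7) (nat_lit 4) (nat_lit 5) (nat_lit 4) (nat_lit 357) (nat_lit 298) (nat_lit 245))) (XT.nd (nat_lit 78) (nat_lit 0) (nat_lit 0) (XT.lf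 (nat_lit 0) (nat_lit 32780868248) (nat_lit 152) (nat_lit 37787041640) (nat_lit 0) (nat_lit 21674751436) (nat_lit 5) (nat_lit 5) (nat_lit 7) (nat_lit 4) (nat_lit 5) (nat_lit 4) (nat_lit 358) (nat_lit 298) (nat_lit 244)) (XT.lf (nat_lit 0) (nat_lit 43285289894) (nat_lit 152) (nat_lit 23465875886) (nat_lit 0) (nat_lit 32166075061) (nat_lit 5) (nat_lit 5) (nat_lit 7) (nat_lit 4) (nat_lit 5) (nat_lit 4) (nat_lit 359) (nat_lit 298) (nat_lit 243))))) (XT.nd (nat_lit 312) (nat_lit 0) (nat_lit 0) (XT.nd (nat_lit 156) (nat_lit 0) (nat_lit 0) (XT.nd (nat_lit 78) (nat_lit 76) (nat_lit 0) (XT.lf (nat_lit 0) (nat_lit 54611000564) (nat_lit 152) (nat_lit 8036657883) (nat_lit 0) (nat_lit 43479657932) (nat_lit 5) (nat_lit 5) (nat_lit 7) (nat_lit 4) (nat_lit 5) (nat_lit 4) (nat_lit 360) (nat_lit 298) (nat_lit 242)) (XT.lf (nat_lit 0) (nat_lit 9044486620) (nat_lit 76) (nat_lit 57998149080) (nat_lit 76) (nat_lit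 46855577005) (nat_lit 4) (nat_lit 4) (nat_lit 5) (nat_lit 5) (nat_lit 5) (nat_lit 4) (nat_lit 361) (nat_lit 298) (nat_lit 241))) (XT.nd (nat_lit 78) (nat_lit 0) (nat_lit 0) (XT.lf (nat_lit 0) (nat_lit 27915204099) (nat_lit 76) (nat_lit 52756172112) (nat_lit 76) (nat_lit 41603202405) (nat_lit 4) (nat_lit 4) (nat_lit 5) (nat_lit 5) (nat_lit 5) (nat_lit 4) (nat_lit 362) (nat_lit 298) (nat_lit 240)) (XT.lf (nat_lit 0) (nat_lit 48264124865) (nat_lit 76) (nat_lit 47110400446) (nat_lit 76) (nat_lit 35947803302) (nat_lit 4) (nat_lit 4) (nat_lit 5) (nat_lit 5) (nat_lit 5) (nat_lit 4) (nat_lit 363) (nat_lit 298) (nat_lit 239)))) (XT.nd (nat_lit 156) (nat_lit 0) (nat_lit 0) (XT.nd (nat_lit 78) (nat_lit 0) (nat_lit 0) (XT.lf (nat_lit 0) (nat_lit 70211835115) (nat_lit 76) (nat_lit 41027377657) (nat_lit 76) (nat_lit 29855866219) (nat_lit 4) (nat_lit 4) (nat_lit 5) (nat_lit 5) (nat_lit 5) (nat_lit 4)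 (nat_lit 364) (nat_lit 298) (nat_lit 238)) (XT.lf (nat_lit 0) (nat_lit 93888395354) (nat_lit 76) (nat_lit 34471056202) (nat_lit 76) (nat_lit 23291290788) (nat_lit 4) (nat_lit 4) (nat_lit 5) (nat_lit 5) (nat_lit 5) (nat_lit 4) (nat_lit 365) (nat_lit 298) (nat_lit 237))) (XT.nd (nat_lit 78) (nat_lit 0) (nat_lit 0) (XT.lf (nat_lit 0) (nat_lit 119434111125) (nat_lit 76) (nat_lit 27402583806) (nat_lit 76) (nat_lit 16215175823) (nat_lit 4) (nat_lit 4) (nat_lit 5) (nat_lit 5) (nat_lit 5) (nat_lit 4) (nat_lit 366) (nat_lit 298) (nat_lit 236)) (XT.nd (nat_lit 78) (nat_lit 0) (nat_lit 0) (XT.lf (nat_lit 0) (nat_lit 147000364446) (nat_lit 76) (nat_lit 19780073226) (nat_lit 76) (nat_lit 8585588788) (nat_lit 4) (nat_lit 4) (nat_lit 5) (nat_lit 5) (nat_lit 5) (nat_lit 4) (nat_lit 367) (nat_lit 298) (nat_lit 235)) (XT.lf (nat_lit 0) (nat_lit 176750510894) (nat_lit 76) (nat_lit 11558354028) (nat_lit 76)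 (nat_lit 357317318) (nat_lit 4) (nat_lit 4) (nat_lit 5) (nat_lit 5) (nat_lit 5) (nat_lit 4) (nat_lit 368) (nat_lit 298) (nat_lit 234))))))) (XT.nd (nat_lit 624) (nat_lit 0) (nat_lit 0) (XT.nd (nat_lit 312) (nat_lit 0) (nat_lit 0) (XT.nd (nat_lit 156) (nat_lit 0) (nat_lit 0) (XT.nd (nat_lit 78) (nat_lit 0) (nat_lit 0) (XT.lf (nat_lit 0) (nat_lit 5921019481) (nat_lit 76) (nat_lit 2313655090) (nat_lit 152) (nat_lit 194768697790) (nat_lit 2) (nat_lit 5) (nat_lit 3) (nat_lit 5) (nat_lit 4) (nat_lit 4) (nat_lit 369) (nat_lit 298) (nat_lit 233)) (XT.lf (nat_lit 0) (nat_lit 18003228504) (nat_lit 152) (nat_lit 192821808769) (nat_lit 0) (nat_lit 7621079296) (nat_lit 2) (nat_lit 5) (nat_lit 4) (nat_lit 4) (nat_lit 2) (nat_lit 4) (nat_lit 370) (nat_lit 298) (nat_lit 232))) (XT.nd (nat_lit 78) (nat_lit 0) (nat_lit 0) (XT.lf (nat_lit 0) (nat_lit 28603890137) (nat_lit 152) (nat_lit 188299417273) (nat_lit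 0) (nat_lit 18216924813) (nat_lit 2) (nat_lit 5) (nat_lit 4) (nat_lit 4) (nat_lit 2) (nat_lit 4) (nat_lit 371) (nat_lit 298) (nat_lit 231)) (XT.lf (nat_lit 0) (nat_lit 40043834745) (nat_lit 152) (nat_lit 183432735577) (nat_lit 0) (nat_lit 29652410055) (nat_lit 2) (nat_lit 5) (nat_lit 4) (nat_lit 4) (nat_lit 2) (nat_lit 4) (nat_lit 372) (nat_lit 298) (nat_lit 230)))) (XT.nd (nat_lit 156) (nat_lit 0) (nat_lit 0) (XT.nd (nat_lit 78) (nat_lit 0) (nat_lit 0) (XT.lf (nat_lit 0) (nat_lit 52390854592) (nat_lit 152) (nat_lit 178192924083) (nat_lit 0) (nat_lit 41995300859) (nat_lit 2) (nat_lit 5) (nat_lit 4) (nat_lit 4) (nat_lit 2) (nat_lit 4) (nat_lit 373) (nat_lit 298) (nat_lit 229)) (XT.lf (nat_lit 0) (nat_lit 65718117204) (nat_lit 152) (nat_lit 172548932059) (nat_lit 0) (nat_lit 55318740283) (nat_lit 2) (nat_lit 5) (nat_lit 4) (nat_lit 4) (nat_lit 2) (nat_lit 4) (nat_lit 374) (nat_lit 298) (nat_lit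 228))) (XT.nd (nat_lit 78) (nat_lit 0) (nat_lit 0) (XT.lf (nat_lit 0) (nat_lit 80104598950) (nat_lit 152) (nat_lit 166467313624) (nat_lit 0) (nat_lit 69701682041) (nat_lit 2) (nat_lit 5) (nat_lit 4) (nat_lit 4) (nat_lit 2) (nat_lit 4) (nat_lit 375) (nat_lit 298) (nat_lit 227)) (XT.lf (nat_lit 0) (nat_lit 95635553058) (nat_lit 152) (nat_lit 159912029559) (nat_lit 0) (nat_lit 85229358381) (nat_lit 2) (nat_lit 5) (nat_lit 4) (nat_lit 4) (nat_lit 2) (nat_lit 4) (nat_lit 376) (nat_lit 298) (nat_lit 226))))) (XT.nd (nat_lit 312) (nat_lit 0) (nat_lit 0) (XT.nd (nat_lit 156) (nat_lit 0) (nat_lit 0) (XT.nd (nat_lit 78) (nat_lit 0) (nat_lit 0) (XT.lf (nat_lit 0) (nat_lit 112403014809) (nat_lit 152) (nat_lit 152844233735) (nat_lit 0) (nat_lit 101993785163) (nat_lit 2) (nat_lit 5) (nat_lit 4) (nat_lit 4) (nat_lit 2) (nat_lit 4) (nat_lit 377) (nat_lit 298) (nat_lit 225)) (XT.lf (nat_lit 0) (nat_lit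 130506346941) (nat_lit 152) (nat_lit 145222042919) (nat_lit 0) (nat_lit 120094307137) (nat_lit 2) (nat_lit 5) (nat_lit 4) (nat_lit 4) (nat_lit 2) (nat_lit 4) (nat_lit 378) (nat_lit 298) (nat_lit 224))) (XT.nd (nat_lit 78) (nat_lit 0) (nat_lit 0) (XT.lf (nat_lit 0) (nat_lit 150052828458) (nat_lit 152) (nat_lit 137000288572) (nat_lit 0) (nat_lit 139638186657) (nat_lit 2) (nat_lit 5) (nat_lit 4) (nat_lit 4) (nat_lit 2) (nat_lit 4) (nat_lit 379) (nat_lit 298) (nat_lit 223)) (XT.lf (nat_lit 0) (nat_lit 171158290363) (nat_lit 152) (nat_lit 128130249187) (nat_lit 0) (nat_lit 160741239305) (nat_lit 2) (nat_lit 5) (nat_lit 4) (nat_lit 4) (nat_lit 2) (nat_lit 4) (nat_lit 380) (nat_lit 298) (nat_lit 222)))) (XT.nd (nat_lit 156) (nat_lit 0) (nat_lit 0) (XT.nd (nat_lit 78) (nat_lit 0) (nat_lit 0) (XT.lf (nat_lit 0) (nat_lit 193947802059) (nat_lit 152) (nat_lit 118559361568) (nat_lit 0) (nat_lit 183528520207)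 (nat_lit 2) (nat_lit 5) (nat_lit 4) (nat_lit 4) (nat_lit 2) (nat_lit 4) (nat_lit 381) (nat_lit 298) (nat_lit 221)) (XT.lf (nat_lit 0) (nat_lit 218556412504) (nat_lit 152) (nat_lit 108230909343) (nat_lit 0) (nat_lit 208135065103) (nat_lit 2) (nat_lit 5) (nat_lit 4) (nat_lit 4) (nat_lit 2) (nat_lit 4) (nat_lit 382) (nat_lit 298) (nat_lit 220))) (XT.nd (nat_lit 78) (nat_lit 0) (nat_lit 0) (XT.lf (nat_lit 0) (nat_lit 245129950501) (nat_lit 152) (nat_lit 97083686869) (nat_lit 0) (nat_lit 234706690554) (nat_lit 2) (nat_lit 5) (nat_lit 4) (nat_lit 4) (nat_lit 2) (nat_lit 4) (nat_lit 383) (nat_lit 298) (nat_lit 219)) (XT.nd (nat_lit 78) (nat_lit 0) (nat_lit 0) (XT.lf (nat_lit 0) (nat_lit 273825888867) (nat_lit 152) (nat_lit 85051636533) (nat_lit 0) (nat_lit 263400858045) (nat_lit 2) (nat_lit 5) (nat_lit 4) (nat_lit 4) (nat_lit 2) (nat_lit 4) (nat_lit 384) (nat_lit 298) (nat_lit 218)) (XT.lf (nat_lit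 0) (nat_lit 304814277609) (nat_lit 152) (nat_lit 72063457294) (nat_lit 0) (nat_lit 294387607087) (nat_lit 2) (nat_lit 5) (nat_lit 4) (nat_lit 4) (nat_lit 2) (nat_lit 4) (nat_lit 385) (nat_lit 298) (nat_lit 217))))))))
noncomputable def xc91 : XT := (XT.nd (nat_lit 1326) (nat_lit 0) (nat_lit 0) (XT.nd (nat_lit 624) (nat_lit 0) (nat_lit 0) (XT.nd (nat_lit 312) (nat_lit 76) (nat_lit 0) (XT.nd (nat_lit 156) (nat_lit 0) (nat_lit 0) (XT.nd (nat_lit 78) (nat_lit 0) (nat_lit 0) (XT.lf (nat_lit 0) (nat_lit 338278751621) (nat_lit 152) (nat_lit 58042182165) (nat_lit 0) (nat_lit 327850562859) (nat_lit 2) (nat_lit 5) (nat_lit 4) (nat_lit 4) (nat_lit 2) (nat_lit 4) (nat_lit 386) (nat_lit 298) (nat_lit 216)) (XT.lf (nat_lit 0) (nat_lit 374417618899) (nat_lit 152) (nat_lit 42904722109) (nat_lit 0) (nat_lit 363988024359) (nat_lit 2) (nat_lit 5) (nat_lit 4) (nat_lit 4) (nat_lit 2) (nat_lit 4) (nat_lit 387)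 (nat_lit 298) (nat_lit 215))) (XT.nd (nat_lit 78) (nat_lit 0) (nat_lit 0) (XT.lf (nat_lit 0) (nat_lit 413445035693) (nat_lit 152) (nat_lit 26561373657) (nat_lit 0) (nat_lit 403014139506) (nat_lit 2) (nat_lit 5) (nat_lit 4) (nat_lit 4) (nat_lit 2) (nat_lit 4) (nat_lit 388) (nat_lit 298) (nat_lit 214)) (XT.lf (nat_lit 0) (nat_lit 455592275583) (nat_lit 152) (nat_lit 8915287338) (nat_lit 0) (nat_lit 445160174168) (nat_lit 2) (nat_lit 5) (nat_lit 4) (nat_lit 4) (nat_lit 2) (nat_lit 4) (nat_lit 389) (nat_lit 298) (nat_lit 213)))) (XT.nd (nat_lit 156) (nat_lit 0) (nat_lit 0) (XT.nd (nat_lit 78) (nat_lit 0) (nat_lit 0) (XT.lf (nat_lit 0) (nat_lit 10671960956) (nat_lit 76) (nat_lit 490693799953) (nat_lit 76) (nat_lit 480260582586) (nat_lit 1) (nat_lit 4) (nat_lit 2) (nat_lit 5) (nat_lit 2) (nat_lit 4) (nat_lit 390) (nat_lit 298) (nat_lit 212)) (XT.lf (nat_lit 0) (nat_lit 32328940644) (nat_lit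 76) (nat_lit 518713809403) (nat_lit 76) (nat_lit 508279558747) (nat_lit 1) (nat_lit 4) (nat_lit 2) (nat_lit 5) (nat_lit 2) (nat_lit 4) (nat_lit 391) (nat_lit 298) (nat_lit 211))) (XT.nd (nat_lit 78) (nat_lit 0) (nat_lit 0) (XT.lf (nat_lit 0) (nat_lit 55714526151) (nat_lit 76) (nat_lit 548977395529) (nat_lit 76) (nat_lit 538542188124) (nat_lit 1) (nat_lit 4) (nat_lit 2) (nat_lit 5) (nat_lit 2) (nat_lit 4) (nat_lit 392) (nat_lit 298) (nat_lit 210)) (XT.lf (nat_lit 0) (nat_lit 80967298725) (nat_lit 76) (nat_lit 581663898100) (nat_lit 76) (nat_lit 571227804816) (nat_lit 1) (nat_lit 4) (nat_lit 2) (nat_lit 5) (nat_lit 2) (nat_lit 4) (nat_lit 393) (nat_lit 298) (nat_lit 209))))) (XT.nd (nat_lit 312) (nat_lit 0) (nat_lit 0) (XT.nd (nat_lit 156) (nat_lit 0) (nat_lit 0) (XT.nd (nat_lit 78) (nat_lit 0) (nat_lit 0) (XT.lf (nat_lit 0) (nat_lit 108236904424) (nat_lit 76) (nat_lit 616967014908) (nat_lit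 76) (nat_lit 606530101366) (nat_lit 1) (nat_lit 4) (nat_lit 2) (nat_lit 5) (nat_lit 2) (nat_lit 4) (nat_lit 394) (nat_lit 298) (nat_lit 208)) (XT.lf (nat_lit 0) (nat_lit 137684940912) (nat_lit 76) (nat_lit 655095949610) (nat_lit 76) (nat_lit 644658276569) (nat_lit 1) (nat_lit 4) (nat_lit 2) (nat_lit 5) (nat_lit 2) (nat_lit 4) (nat_lit 395) (nat_lit 298) (nat_lit 207))) (XT.nd (nat_lit 78) (nat_lit 0) (nat_lit 0) (XT.lf (nat_lit 0) (nat_lit 169485915072) (nat_lit 76) (nat_lit 696276651446) (nat_lit 76) (nat_lit 685838275167) (nat_lit 1) (nat_lit 4) (nat_lit 2) (nat_lit 5) (nat_lit 2) (nat_lit 4) (nat_lit 396) (nat_lit 298) (nat_lit 206)) (XT.lf (nat_lit 0) (nat_lit 203828277122) (nat_lit 76) (nat_lit 740753154208) (nat_lit 76) (nat_lit 730314126781) (nat_lit 1) (nat_lit 4) (nat_lit 2) (nat_lit 5) (nat_lit 2) (nat_lit 4) (nat_lit 397) (nat_lit 298) (nat_lit 205)))) (XT.nd (nat_lit 156) (nat_lit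 0) (nat_lit 0) (XT.nd (nat_lit 78) (nat_lit 0) (nat_lit 0) (XT.lf (nat_lit 0) (nat_lit 240915537354) (nat_lit 76) (nat_lit 788789022354) (nat_lit 76) (nat_lit 778349392013) (nat_lit 1) (nat_lit 4) (nat_lit 2) (nat_lit 5) (nat_lit 2) (nat_lit 4) (nat_lit 398) (nat_lit 298) (nat_lit 204)) (XT.lf (nat_lit 0) (nat_lit 280967472127) (nat_lit 76) (nat_lit 840668912882) (nat_lit 76) (nat_lit 830228724287) (nat_lit 1) (nat_lit 4) (nat_lit 2) (nat_lit 5) (nat_lit 2) (nat_lit 4) (nat_lit 399) (nat_lit 298) (nat_lit 203))) (XT.nd (nat_lit 78) (nat_lit 0) (nat_lit 0) (XT.lf (nat_lit 0) (nat_lit 324221426238) (nat_lit 76) (nat_lit 896700262179) (nat_lit 76) (nat_lit 886259556683) (nat_lit 1) (nat_lit 4) (nat_lit 2) (nat_lit 5) (nat_lit 2) (nat_lit 4) (nat_lit 400) (nat_lit 298) (nat_lit 202)) (XT.nd (nat_lit 78) (nat_lit 0) (nat_lit 0) (XT.lf (nat_lit 0) (nat_lit 370933719415) (nat_lit 76) (nat_lit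 957215107872) (nat_lit 76) (nat_lit 946773923763) (nat_lit 1) (nat_lit 4) (nat_lit 2) (nat_lit 5) (nat_lit 2) (nat_lit 4) (nat_lit 401) (nat_lit 298) (nat_lit 201)) (XT.lf (nat_lit 0) (nat_lit 421381165249) (nat_lit 76) (nat_lit 1022572056453) (nat_lit 76) (nat_lit 1012130429184) (nat_lit 1) (nat_lit 4) (nat_lit 2) (nat_lit 5) (nat_lit 2) (nat_lit 4) (nat_lit 402) (nat_lit 298) (nat_lit 200))))))) (XT.nd (nat_lit 702) (nat_lit 0) (nat_lit 0) (XT.nd (nat_lit 312) (nat_lit 0) (nat_lit 0) (XT.nd (nat_lit 156) (nat_lit 0) (nat_lit 0) (XT.nd (nat_lit 78) (nat_lit 0) (nat_lit 0) (XT.lf (nat_lit 0) (nat_lit 475862711565) (nat_lit 76) (nat_lit 1093158408359) (nat_lit 76) (nat_lit 1082716370757) (nat_lit 1) (nat_lit 4) (nat_lit 2) (nat_lit 5) (nat_lit 2) (nat_lit 4) (nat_lit 403) (nat_lit 298) (nat_lit 199)) (XT.lf (nat_lit 0) (nat_lit 534701211972) (nat_lit 76) (nat_lit 1169392453082) (nat_lit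 76) (nat_lit 1158950035541) (nat_lit 1) (nat_lit 4) (nat_lit 2) (nat_lit 5) (nat_lit 2) (nat_lit 4) (nat_lit 404) (nat_lit 298) (nat_lit 198))) (XT.nd (nat_lit 78) (nat_lit 0) (nat_lit 0) (XT.lf (nat_lit 0) (nat_lit 598245339065) (nat_lit 76) (nat_lit 1251725947923) (nat_lit 76) (nat_lit 1241283178588) (nat_lit 1) (nat_lit 4) (nat_lit 2) (nat_lit 5) (nat_lit 2) (nat_lit 4) (nat_lit 405) (nat_lit 298) (nat_lit 197)) (XT.lf (nat_lit 0) (nat_lit 666871650634) (nat_lit 76) (nat_lit 1340646795076) (nat_lit 76) (nat_lit 1330203700005) (nat_lit 1) (nat_lit 4) (nat_lit 2) (nat_lit 5) (nat_lit 2) (nat_lit 4) (nat_lit 406) (nat_lit 298) (nat_lit 196)))) (XT.nd (nat_lit 156) (nat_lit 0) (nat_lit 0) (XT.nd (nat_lit 78) (nat_lit 0) (nat_lit 0) (XT.lf (nat_lit 0) (nat_lit 740986821118) (nat_lit 76) (nat_lit 1436681932893) (nat_lit 76) (nat_lit 1426238536215) (nat_lit 1) (nat_lit 4) (nat_lit 2) (nat_lit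 5) (nat_lit 2) (nat_lit 4) (nat_lit 407) (nat_lit 298) (nat_lit 195)) (XT.lf (nat_lit 0) (nat_lit 821030051527) (nat_lit 76) (nat_lit 1540400458487) (nat_lit 76) (nat_lit 1529956782543) (nat_lit 1) (nat_lit 4) (nat_lit 2) (nat_lit 5) (nat_lit 2) (nat_lit 4) (nat_lit 408) (nat_lit 298) (nat_lit 194))) (XT.nd (nat_lit 78) (nat_lit 0) (nat_lit 0) (XT.lf (nat_lit 0) (nat_lit 907475672115) (nat_lit 76) (nat_lit 1652417000158) (nat_lit 76) (nat_lit 1641973065635) (nat_lit 1) (nat_lit 4) (nat_lit 2) (nat_lit 5) (nat_lit 2) (nat_lit 4) (nat_lit 409) (nat_lit 298) (nat_lit 193)) (XT.nd (nat_lit 78) (nat_lit 0) (nat_lit 0) (XT.lf (nat_lit 0) (nat_lit 1000835953227) (nat_lit 76) (nat_lit 1773395359635) (nat_lit 76) (nat_lit 1762951185686) (nat_lit 1) (nat_lit 4) (nat_lit 2) (nat_lit 5) (nat_lit 2) (nat_lit 4) (nat_lit 410) (nat_lit 298) (nat_lit 192)) (XT.lf (nat_lit 0) (nat_lit 1101664140973) (nat_lit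 76) (nat_lit 1904052445714) (nat_lit 76) (nat_lit 1893608050075) (nat_lit 1) (nat_lit 4) (nat_lit 2) (nat_lit 5) (nat_lit 2) (nat_lit 4) (nat_lit 411) (nat_lit 298) (nat_lit 191)))))) (XT.nd (nat_lit 38454) (nat_lit 0) (nat_lit 4788) (XT.nd (nat_lit 38298) (nat_lit 0) (nat_lit 5700) (XT.nd (nat_lit 78) (nat_lit 0) (nat_lit 0) (XT.lf (nat_lit 0) (nat_lit 1210557735724) (nat_lit 76) (nat_lit 2045162522610) (nat_lit 76) (nat_lit 2034717921702) (nat_lit 1) (nat_lit 4) (nat_lit 2) (nat_lit 5) (nat_lit 2) (nat_lit 4) (nat_lit 412) (nat_lit 298) (nat_lit 190)) (XT.lf (nat_lit 0) (nat_lit 1328162032858) (nat_lit 76) (nat_lit 2197561798185) (nat_lit 76) (nat_lit 2187117007213) (nat_lit 1) (nat_lit 4) (nat_lit 2) (nat_lit 5) (nat_lit 2) (nat_lit 4) (nat_lit 413) (nat_lit 298) (nat_lit 189))) (XT.nd (nat_lit 78) (nat_lit 0) (nat_lit 0) (XT.lf (nat_lit 0) (nat_lit 26379893) (nat_lit 76) (nat_lit 1603977095)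 (nat_lit 76) (nat_lit 1603977095) (nat_lit 76) (nat_lit 4) (nat_lit 77) (nat_lit 5) (nat_lit 77) (nat_lit 4) (nat_lit 302) (nat_lit 299) (nat_lit 299)) (XT.lf (nat_lit 0) (nat_lit 3645409838) (nat_lit 76) (nat_lit 2756911886) (nat_lit 76) (nat_lit 105697506) (nat_lit 76) (nat_lit 4) (nat_lit 77) (nat_lit 5) (nat_lit 77) (nat_lit 4) (nat_lit 303) (nat_lit 299) (nat_lit 298)))) (XT.nd (nat_lit 156) (nat_lit 684) (nat_lit 0) (XT.nd (nat_lit 78) (nat_lit 0) (nat_lit 0) (XT.lf (nat_lit 0) (nat_lit 743110801) (nat_lit 152) (nat_lit 2068982136) (nat_lit 228) (nat_lit 3754649597) (nat_lit 73) (nat_lit 5) (nat_lit 75) (nat_lit 5) (nat_lit 76) (nat_lit 4) (nat_lit 304) (nat_lit 299) (nat_lit 297)) (XT.lf (nat_lit 0) (nat_lit 4611052669) (nat_lit 152) (nat_lit 1153410882) (nat_lit 228) (nat_lit 881709375) (nat_lit 73) (nat_lit 5) (nat_lit 75) (nat_lit 5) (nat_lit 76) (nat_lit 4) (nat_lit 305) (nat_lit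 299) (nat_lit 296))) (XT.nd (nat_lit 78) (nat_lit 380) (nat_lit 0) (XT.lf (nat_lit 0) (nat_lit 1897851760) (nat_lit 304) (nat_lit 4833626644) (nat_lit 76) (nat_lit 13841833) (nat_lit 69) (nat_lit 5) (nat_lit 73) (nat_lit 5) (nat_lit 70) (nat_lit 4) (nat_lit 306) (nat_lit 299) (nat_lit 295)) (XT.nd (nat_lit 78) (nat_lit 380) (nat_lit 0) (XT.lf (nat_lit 0) (nat_lit 4697001543) (nat_lit 304) (nat_lit 815767055) (nat_lit 76) (nat_lit 1350827688) (nat_lit 69) (nat_lit 5) (nat_lit 73) (nat_lit 5) (nat_lit 70) (nat_lit 4) (nat_lit 307) (nat_lit 299) (nat_lit 294)) (XT.lf (nat_lit 0) (nat_lit 548302646) (nat_lit 380) (nat_lit 3506262422) (nat_lit 76) (nat_lit 2947416196) (nat_lit 64) (nat_lit 5) (nat_lit 69) (nat_lit 5) (nat_lit 65) (nat_lit 5) (nat_lit 308) (nat_lit 299) (nat_lit 293))))))))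
noncomputable def xc92 : XT := (XT.nd (nat_lit 1326) (nat_lit 988) (nat_lit 0) (XT.nd (nat_lit 624) (nat_lit 1216) (nat_lit 0) (XT.nd (nat_lit 312) (nat_lit 532) (nat_lit 0) (XT.nd (nat_lit 156) (nat_lit 836) (nat_lit 0) (XT.nd (nat_lit 78) (nat_lit 0) (nat_lit 0) (XT.lf (nat_lit 0) (nat_lit 838311712) (nat_lit 380) (nat_lit 2350006973) (nat_lit 456) (nat_lit 3973108425) (nat_lit 59) (nat_lit 5) (nat_lit 64) (nat_lit 5) (nat_lit 65) (nat_lit 5) (nat_lit 309) (nat_lit 299) (nat_lit 292)) (XT.lf (nat_lit 0) (nat_lit 5539174947) (nat_lit 380) (nat_lit 389729621) (nat_lit 456) (nat_lit 1414028667) (nat_lit 59) (nat_lit 5) (nat_lit 64) (nat_lit 5) (nat_lit 65) (nat_lit 5) (nat_lit 310) (nat_lit 299) (nat_lit 291))) (XT.nd (nat_lit 78) (nat_lit 304) (nat_lit 0) (XT.lf (nat_lit 0) (nat_lit 1202515072) (nat_lit 532) (nat_lit 4583325519) (nat_lit 76) (nat_lit 1757290884) (nat_lit 52) (nat_lit 5)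 (nat_lit 59) (nat_lit 5) (nat_lit 53) (nat_lit 5) (nat_lit 311) (nat_lit 299) (nat_lit 290)) (XT.lf (nat_lit 0) (nat_lit 216410532) (nat_lit 304) (nat_lit 3615198170) (nat_lit 380) (nat_lit 3934789454) (nat_lit 48) (nat_lit 5) (nat_lit 52) (nat_lit 5) (nat_lit 53) (nat_lit 5) (nat_lit 312) (nat_lit 299) (nat_lit 289)))) (XT.nd (nat_lit 156) (nat_lit 228) (nat_lit 0) (XT.nd (nat_lit 78) (nat_lit 304) (nat_lit 0) (XT.lf (nat_lit 0) (nat_lit 5467873998) (nat_lit 304) (nat_lit 1151327231) (nat_lit 380) (nat_lit 1392805004) (nat_lit 48) (nat_lit 5) (nat_lit 52) (nat_lit 5) (nat_lit 53) (nat_lit 5) (nat_lit 313) (nat_lit 299) (nat_lit 288)) (XT.lf (nat_lit 0) (nat_lit 1221612299) (nat_lit 304) (nat_lit 5540512820) (nat_lit 76) (nat_lit 1517883027) (nat_lit 44) (nat_lit 5) (nat_lit 48) (nat_lit 5) (nat_lit 45) (nat_lit 5) (nat_lit 314) (nat_lit 299) (nat_lit 287))) (XT.nd (nat_lit 78) (nat_lit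 228) (nat_lit 0) (XT.lf (nat_lit 0) (nat_lit 3910174197) (nat_lit 304) (nat_lit 236864386) (nat_lit 76) (nat_lit 4424563339) (nat_lit 44) (nat_lit 5) (nat_lit 48) (nat_lit 5) (nat_lit 45) (nat_lit 5) (nat_lit 315) (nat_lit 299) (nat_lit 286)) (XT.lf (nat_lit 0) (nat_lit 5589586848) (nat_lit 228) (nat_lit 1209558699) (nat_lit 304) (nat_lit 2088797029) (nat_lit 41) (nat_lit 5) (nat_lit 44) (nat_lit 5) (nat_lit 45) (nat_lit 5) (nat_lit 316) (nat_lit 299) (nat_lit 285))))) (XT.nd (nat_lit 312) (nat_lit 608) (nat_lit 0) (XT.nd (nat_lit 156) (nat_lit 380) (nat_lit 0) (XT.nd (nat_lit 78) (nat_lit 0) (nat_lit 0) (XT.lf (nat_lit 0) (nat_lit 626500455) (nat_lit 228) (nat_lit 6687967992) (nat_lit 76) (nat_lit 1916297083) (nat_lit 38) (nat_lit 5) (nat_lit 41) (nat_lit 5) (nat_lit 39) (nat_lit 5) (nat_lit 317) (nat_lit 299) (nat_lit 284)) (XT.lf (nat_lit 0) (nat_lit 3429441740) (nat_lit 228) (nat_lit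 833157374) (nat_lit 76) (nat_lit 5335608059) (nat_lit 38) (nat_lit 5) (nat_lit 41) (nat_lit 5) (nat_lit 39) (nat_lit 5) (nat_lit 318) (nat_lit 299) (nat_lit 283))) (XT.nd (nat_lit 78) (nat_lit 152) (nat_lit 0) (XT.lf (nat_lit 0) (nat_lit 5593780955) (nat_lit 228) (nat_lit 867115053) (nat_lit 304) (nat_lit 3533986254) (nat_lit 35) (nat_lit 5) (nat_lit 38) (nat_lit 5) (nat_lit 39) (nat_lit 5) (nat_lit 319) (nat_lit 299) (nat_lit 282)) (XT.lf (nat_lit 0) (nat_lit 2012908921) (nat_lit 152) (nat_lit 7735220357) (nat_lit 228) (nat_lit 674268036) (nat_lit 33) (nat_lit 5) (nat_lit 35) (nat_lit 5) (nat_lit 36) (nat_lit 4) (nat_lit 320) (nat_lit 299) (nat_lit 281)))) (XT.nd (nat_lit 156) (nat_lit 380) (nat_lit 0) (XT.nd (nat_lit 78) (nat_lit 152) (nat_lit 0) (XT.lf (nat_lit 0) (nat_lit 2315385072) (nat_lit 228) (nat_lit 1950605887) (nat_lit 76) (nat_lit 6611866633) (nat_lit 32) (nat_lit 5) (nat_lit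 35) (nat_lit 5) (nat_lit 33) (nat_lit 5) (nat_lit 321) (nat_lit 299) (nat_lit 280)) (XT.lf (nat_lit 0) (nat_lit 5093041600) (nat_lit 152) (nat_lit 422362822) (nat_lit 228) (nat_lit 5852471982) (nat_lit 30) (nat_lit 5) (nat_lit 32) (nat_lit 5) (nat_lit 33) (nat_lit 5) (nat_lit 322) (nat_lit 299) (nat_lit 279))) (XT.nd (nat_lit 78) (nat_lit 228) (nat_lit 0) (XT.lf (nat_lit 0) (nat_lit 689136436) (nat_lit 152) (nat_lit 8331620855) (nat_lit 228) (nat_lit 2872515600) (nat_lit 28) (nat_lit 5) (nat_lit 30) (nat_lit 5) (nat_lit 31) (nat_lit 4) (nat_lit 323) (nat_lit 299) (nat_lit 278)) (XT.nd (nat_lit 78) (nat_lit 152) (nat_lit 0) (XT.lf (nat_lit 0) (nat_lit 405218709) (nat_lit 228) (nat_lit 4077743099) (nat_lit 76) (nat_lit 7971044589) (nat_lit 27) (nat_lit 5) (nat_lit 30) (nat_lit 5) (nat_lit 28) (nat_lit 5) (nat_lit 324) (nat_lit 299) (nat_lit 277)) (XT.lf (nat_lit 0) (nat_lit 3561083424) (nat_lit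 152) (nat_lit 212402953) (nat_lit 228) (nat_lit 9281560364) (nat_lit 25) (nat_lit 5) (nat_lit 27) (nat_lit 5) (nat_lit 28) (nat_lit 5) (nat_lit 325) (nat_lit 299) (nat_lit 276))))))) (XT.nd (nat_lit 624) (nat_lit 456) (nat_lit 0) (XT.nd (nat_lit 312) (nat_lit 228) (nat_lit 0) (XT.nd (nat_lit 156) (nat_lit 228) (nat_lit 0) (XT.nd (nat_lit 78) (nat_lit 76) (nat_lit 0) (XT.lf (nat_lit 0) (nat_lit 7531653786) (nat_lit 228) (nat_lit 1924712170) (nat_lit 76) (nat_lit 4238259500) (nat_lit 25) (nat_lit 5) (nat_lit 28) (nat_lit 5) (nat_lit 26) (nat_lit 4) (nat_lit 326) (nat_lit 299) (nat_lit 275)) (XT.lf (nat_lit 0) (nat_lit 6413862269) (nat_lit 76) (nat_lit 5244007243) (nat_lit 152) (nat_lit 2722192888) (nat_lit 24) (nat_lit 5) (nat_lit 25) (nat_lit 5) (nat_lit 26) (nat_lit 4) (nat_lit 327) (nat_lit 299) (nat_lit 274))) (XT.nd (nat_lit 78) (nat_lit 0) (nat_lit 0) (XT.lf (nat_lit 0) (nat_lit 247364707)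 (nat_lit 152) (nat_lit 665235470) (nat_lit 228) (nat_lit 14208416103) (nat_lit 21) (nat_lit 5) (nat_lit 23) (nat_lit 5) (nat_lit 24) (nat_lit 5) (nat_lit 328) (nat_lit 299) (nat_lit 273)) (XT.lf (nat_lit 0) (nat_lit 4927777006) (nat_lit 228) (nat_lit 6666465834) (nat_lit 76) (nat_lit 4302479877) (nat_lit 21) (nat_lit 5) (nat_lit 24) (nat_lit 5) (nat_lit 22) (nat_lit 4) (nat_lit 329) (nat_lit 299) (nat_lit 272)))) (XT.nd (nat_lit 156) (nat_lit 152) (nat_lit 0) (XT.nd (nat_lit 78) (nat_lit 0) (nat_lit 0) (XT.lf (nat_lit 0) (nat_lit 2144310967) (nat_lit 76) (nat_lit 7105624921) (nat_lit 152) (nat_lit 7485749745) (nat_lit 20) (nat_lit 5) (nat_lit 21) (nat_lit 5) (nat_lit 22) (nat_lit 4) (nat_lit 330) (nat_lit 299) (nat_lit 271)) (XT.lf (nat_lit 0) (nat_lit 11899725204) (nat_lit 76) (nat_lit 2120136364) (nat_lit 152) (nat_lit 3613801332) (nat_lit 20) (nat_lit 5) (nat_lit 21) (nat_lit 5) (nat_lit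 22) (nat_lit 4) (nat_lit 331) (nat_lit 299) (nat_lit 270))) (XT.nd (nat_lit 78) (nat_lit 0) (nat_lit 0) (XT.lf (nat_lit 0) (nat_lit 636397174) (nat_lit 152) (nat_lit 14801589646) (nat_lit 76) (nat_lit 3156695377) (nat_lit 18) (nat_lit 5) (nat_lit 20) (nat_lit 5) (nat_lit 19) (nat_lit 4) (nat_lit 332) (nat_lit 299) (nat_lit 269)) (XT.lf (nat_lit 0) (nat_lit 5172163313) (nat_lit 152) (nat_lit 5498996979) (nat_lit 76) (nat_lit 8942695405) (nat_lit 18) (nat_lit 5) (nat_lit 20) (nat_lit 5) (nat_lit 19) (nat_lit 4) (nat_lit 333) (nat_lit 299) (nat_lit 268))))) (XT.nd (nat_lit 312) (nat_lit 228) (nat_lit 0) (XT.nd (nat_lit 156) (nat_lit 152) (nat_lit 0) (XT.nd (nat_lit 78) (nat_lit 0) (nat_lit 0) (XT.lf (nat_lit 0) (nat_lit 4656353299) (nat_lit 76) (nat_lit 5456862009) (nat_lit 152) (nat_lit 10597995587) (nat_lit 17) (nat_lit 5) (nat_lit 18) (nat_lit 5) (nat_lit 19) (nat_lit 4) (nat_lit 334)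 (nat_lit 299) (nat_lit 267)) (XT.lf (nat_lit 0) (nat_lit 15539387451) (nat_lit 152) (nat_lit 6080924541) (nat_lit 0) (nat_lit 268894327) (nat_lit 17) (nat_lit 5) (nat_lit 19) (nat_lit 4) (nat_lit 17) (nat_lit 4) (nat_lit 335) (nat_lit 299) (nat_lit 266))) (XT.nd (nat_lit 78) (nat_lit 76) (nat_lit 0) (XT.lf (nat_lit 0) (nat_lit 4666553482) (nat_lit 76) (nat_lit 16923530015) (nat_lit 76) (nat_lit 1556159294) (nat_lit 16) (nat_lit 4) (nat_lit 17) (nat_lit 5) (nat_lit 17) (nat_lit 4) (nat_lit 336) (nat_lit 299) (nat_lit 265)) (XT.lf (nat_lit 0) (nat_lit 3547256148) (nat_lit 152) (nat_lit 8078779412) (nat_lit 76) (nat_lit 12862278547) (nat_lit 15) (nat_lit 5) (nat_lit 17) (nat_lit 5) (nat_lit 16) (nat_lit 4) (nat_lit 337) (nat_lit 299) (nat_lit 264)))) (XT.nd (nat_lit 156) (nat_lit 152) (nat_lit 0) (XT.nd (nat_lit 78) (nat_lit 0) (nat_lit 0) (XT.lf (nat_lit 0) (nat_lit 3164206934) (nat_lit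 76) (nat_lit 5828262325) (nat_lit 152) (nat_lit 16940668933) (nat_lit 14) (nat_lit 5) (nat_lit 15) (nat_lit 5) (nat_lit 16) (nat_lit 4) (nat_lit 338) (nat_lit 299) (nat_lit 263)) (XT.lf (nat_lit 0) (nat_lit 15052484940) (nat_lit 152) (nat_lit 11834486189) (nat_lit 0) (nat_lit 592268564) (nat_lit 14) (nat_lit 5) (nat_lit 16) (nat_lit 4) (nat_lit 14) (nat_lit 4) (nat_lit 339) (nat_lit 299) (nat_lit 262))) (XT.nd (nat_lit 78) (nat_lit 152) (nat_lit 0) (XT.lf (nat_lit 0) (nat_lit 21695109716) (nat_lit 152) (nat_lit 277159277) (nat_lit 0) (nat_lit 7168960075) (nat_lit 14) (nat_lit 5) (nat_lit 16) (nat_lit 4) (nat_lit 14) (nat_lit 4) (nat_lit 340) (nat_lit 299) (nat_lit 261)) (XT.nd (nat_lit 78) (nat_lit 76) (nat_lit 0) (XT.lf (nat_lit 0) (nat_lit 12749488227) (nat_lit 76) (nat_lit 16376674712) (nat_lit 76) (nat_lit 1789475751) (nat_lit 13) (nat_lit 4) (nat_lit 14) (nat_lit 5) (nat_lit 14) (nat_lit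 4) (nat_lit 341) (nat_lit 299) (nat_lit 260)) (XT.lf (nat_lit 0) (nat_lit 4062002220) (nat_lit 152) (nat_lit 6194761489) (nat_lit 76) (nat_lit 22570274279) (nat_lit 12) (nat_lit 5) (nat_lit 14) (nat_lit 5) (nat_lit 13) (nat_lit 4) (nat_lit 342) (nat_lit 299) (nat_lit 259))))))))
noncomputable def xc93 : XT := (XT.nd (nat_lit 1326) (nat_lit 228) (nat_lit 0) (XT.nd (nat_lit 624) (nat_lit 228) (nat_lit 0) (XT.nd (nat_lit 312) (nat_lit 152) (nat_lit 0) (XT.nd (nat_lit 156) (nat_lit 76) (nat_lit 0) (XT.nd (nat_lit 78) (nat_lit 0) (nat_lit 0) (XT.lf (nat_lit 0) (nat_lit 6949081030) (nat_lit 76) (nat_lit 3457239686) (nat_lit 152) (nat_lit 24471616006) (nat_lit 11) (nat_lit 5) (nat_lit 12) (nat_lit 5) (nat_lit 13) (nat_lit 4) (nat_lit 343) (nat_lit 299) (nat_lit 258)) (XT.lf (nat_lit 0) (nat_lit 17480102432) (nat_lit 152) (nat_lit 15767307312) (nat_lit 0) (nat_lit 3827760785) (nat_lit 11) (nat_lit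 5) (nat_lit 13) (nat_lit 4) (nat_lit 11) (nat_lit 4) (nat_lit 344) (nat_lit 299) (nat_lit 257))) (XT.nd (nat_lit 78) (nat_lit 76) (nat_lit 0) (XT.lf (nat_lit 0) (nat_lit 25167620576) (nat_lit 152) (nat_lit 2803021327) (nat_lit 0) (nat_lit 11473729789) (nat_lit 11) (nat_lit 5) (nat_lit 13) (nat_lit 4) (nat_lit 11) (nat_lit 4) (nat_lit 345) (nat_lit 299) (nat_lit 256)) (XT.lf (nat_lit 0) (nat_lit 11709743134) (nat_lit 76) (nat_lit 22003160586) (nat_lit 76) (nat_lit 8270798372) (nat_lit 10) (nat_lit 4) (nat_lit 11) (nat_lit 5) (nat_lit 11) (nat_lit 4) (nat_lit 346) (nat_lit 299) (nat_lit 255)))) (XT.nd (nat_lit 156) (nat_lit 76) (nat_lit 0) (XT.nd (nat_lit 78) (nat_lit 76) (nat_lit 0) (XT.lf (nat_lit 0) (nat_lit 27470390266) (nat_lit 76) (nat_lit 15510336190) (nat_lit 76) (nat_lit 1742352284) (nat_lit 10) (nat_lit 4) (nat_lit 11) (nat_lit 5) (nat_lit 11) (nat_lit 4) (nat_lit 347) (nat_lit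 299) (nat_lit 254)) (XT.lf (nat_lit 0) (nat_lit 5006976172) (nat_lit 152) (nat_lit 3386456515) (nat_lit 76) (nat_lit 39280838586) (nat_lit 9) (nat_lit 5) (nat_lit 11) (nat_lit 5) (nat_lit 10) (nat_lit 4) (nat_lit 348) (nat_lit 299) (nat_lit 253))) (XT.nd (nat_lit 78) (nat_lit 0) (nat_lit 0) (XT.lf (nat_lit 0) (nat_lit 12084370051) (nat_lit 76) (nat_lit 375186133) (nat_lit 152) (nat_lit 38377798005) (nat_lit 8) (nat_lit 5) (nat_lit 9) (nat_lit 5) (nat_lit 10) (nat_lit 4) (nat_lit 349) (nat_lit 299) (nat_lit 252)) (XT.lf (nat_lit 0) (nat_lit 20769625761) (nat_lit 152) (nat_lit 25526473004) (nat_lit 0) (nat_lit 7936492002) (nat_lit 8) (nat_lit 5) (nat_lit 10) (nat_lit 4) (nat_lit 8) (nat_lit 4) (nat_lit 350) (nat_lit 299) (nat_lit 251))))) (XT.nd (nat_lit 312) (nat_lit 152) (nat_lit 0) (XT.nd (nat_lit 156) (nat_lit 0) (nat_lit 0) (XT.nd (nat_lit 78) (nat_lit 76) (nat_lit 0) (XT.lf (nat_lit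 0) (nat_lit 29723730769) (nat_lit 152) (nat_lit 11311032594) (nat_lit 0) (nat_lit 16866353484) (nat_lit 8) (nat_lit 5) (nat_lit 10) (nat_lit 4) (nat_lit 8) (nat_lit 4) (nat_lit 351) (nat_lit 299) (nat_lit 250)) (XT.lf (nat_lit 0) (nat_lit 4196527265) (nat_lit 76) (nat_lit 35270308651) (nat_lit 76) (nat_lit 22390483659) (nat_lit 7) (nat_lit 4) (nat_lit 8) (nat_lit 5) (nat_lit 8) (nat_lit 4) (nat_lit 352) (nat_lit 299) (nat_lit 249))) (XT.nd (nat_lit 78) (nat_lit 0) (nat_lit 0) (XT.lf (nat_lit 0) (nat_lit 21534310780) (nat_lit 76) (nat_lit 28736890206) (nat_lit 76) (nat_lit 15836280299) (nat_lit 7) (nat_lit 4) (nat_lit 8) (nat_lit 5) (nat_lit 8) (nat_lit 4) (nat_lit 353) (nat_lit 299) (nat_lit 248)) (XT.lf (nat_lit 0) (nat_lit 40209441441) (nat_lit 76) (nat_lit 21705055150) (nat_lit 76) (nat_lit 8785199951) (nat_lit 7) (nat_lit 4) (nat_lit 8) (nat_lit 5) (nat_lit 8) (nat_lit 4) (nat_lit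 354) (nat_lit 299) (nat_lit 247)))) (XT.nd (nat_lit 156) (nat_lit 0) (nat_lit 0) (XT.nd (nat_lit 78) (nat_lit 152) (nat_lit 0) (XT.lf (nat_lit 0) (nat_lit 60332586688) (nat_lit 76) (nat_lit 14133133350) (nat_lit 76) (nat_lit 1195458437) (nat_lit 7) (nat_lit 4) (nat_lit 8) (nat_lit 5) (nat_lit 8) (nat_lit 4) (nat_lit 355) (nat_lit 299) (nat_lit 246)) (XT.lf (nat_lit 0) (nat_lit 877756092) (nat_lit 76) (nat_lit 5772210610) (nat_lit 152) (nat_lit 74356247418) (nat_lit 5) (nat_lit 5) (nat_lit 6) (nat_lit 5) (nat_lit 7) (nat_lit 4) (nat_lit 356) (nat_lit 299) (nat_lit 245))) (XT.nd (nat_lit 78) (nat_lit 0) (nat_lit 0) (XT.lf (nat_lit 0) (nat_lit 15544544851) (nat_lit 152) (nat_lit 67657147709) (nat_lit 0) (nat_lit 3535792831) (nat_lit 5) (nat_lit 5) (nat_lit 7) (nat_lit 4) (nat_lit 5) (nat_lit 4) (nat_lit 357) (nat_lit 299) (nat_lit 244)) (XT.nd (nat_lit 78) (nat_lit 0) (nat_lit 0) (XT.lf (nat_lit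 0) (nat_lit 25280026916) (nat_lit 152) (nat_lit 54378712407) (nat_lit 0) (nat_lit 13258176873) (nat_lit 5) (nat_lit 5) (nat_lit 7) (nat_lit 4) (nat_lit 5) (nat_lit 4) (nat_lit 358) (nat_lit 299) (nat_lit 243)) (XT.lf (nat_lit 0) (nat_lit 35775282837) (nat_lit 152) (nat_lit 40075643294) (nat_lit 0) (nat_lit 23741304997) (nat_lit 5) (nat_lit 5) (nat_lit 7) (nat_lit 4) (nat_lit 5) (nat_lit 4) (nat_lit 359) (nat_lit 299) (nat_lit 242))))))) (XT.nd (nat_lit 702) (nat_lit 152) (nat_lit 0) (XT.nd (nat_lit 312) (nat_lit 0) (nat_lit 0) (XT.nd (nat_lit 156) (nat_lit 76) (nat_lit 0) (XT.nd (nat_lit 78) (nat_lit 0) (nat_lit 0) (XT.lf (nat_lit 0) (nat_lit 47092506724) (nat_lit 152) (nat_lit 24663181440) (nat_lit 0) (nat_lit 35047299441) (nat_lit 5) (nat_lit 5) (nat_lit 7) (nat_lit 4) (nat_lit 5) (nat_lit 4) (nat_lit 360) (nat_lit 299) (nat_lit 241)) (XT.lf (nat_lit 0) (nat_lit 59298763608) (nat_lit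 152) (nat_lit 8049993740) (nat_lit 0) (nat_lit 47243158692) (nat_lit 5) (nat_lit 5) (nat_lit 7) (nat_lit 4) (nat_lit 5) (nat_lit 4) (nat_lit 361) (nat_lit 299) (nat_lit 240))) (XT.nd (nat_lit 78) (nat_lit 0) (nat_lit 0) (XT.lf (nat_lit 0) (nat_lit 10381703165) (nat_lit 76) (nat_lit 62334363907) (nat_lit 76) (nat_lit 50269131554) (nat_lit 4) (nat_lit 4) (nat_lit 5) (nat_lit 5) (nat_lit 5) (nat_lit 4) (nat_lit 362) (nat_lit 299) (nat_lit 239)) (XT.lf (nat_lit 0) (nat_lit 30716621923) (nat_lit 76) (nat_lit 56695520419) (nat_lit 76) (nat_lit 44621373772) (nat_lit 4) (nat_lit 4) (nat_lit 5) (nat_lit 5) (nat_lit 5) (nat_lit 4) (nat_lit 363) (nat_lit 299) (nat_lit 238)))) (XT.nd (nat_lit 156) (nat_lit 0) (nat_lit 0) (XT.nd (nat_lit 78) (nat_lit 0) (nat_lit 0) (XT.lf (nat_lit 0) (nat_lit 52651367350) (nat_lit 76) (nat_lit 50618912609) (nat_lit 76) (nat_lit 38536511987) (nat_lit 4) (nat_lit 4)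 (nat_lit 5) (nat_lit 5) (nat_lit 5) (nat_lit 4) (nat_lit 364) (nat_lit 299) (nat_lit 237)) (XT.lf (nat_lit 0) (nat_lit 76315923124) (nat_lit 76) (nat_lit 44068530950) (nat_lit 76) (nat_lit 31978487758) (nat_lit 4) (nat_lit 4) (nat_lit 5) (nat_lit 5) (nat_lit 5) (nat_lit 4) (nat_lit 365) (nat_lit 299) (nat_lit 236))) (XT.nd (nat_lit 78) (nat_lit 0) (nat_lit 0) (XT.lf (nat_lit 0) (nat_lit 101850523649) (nat_lit 76) (nat_lit 37005558365) (nat_lit 76) (nat_lit 24908438719) (nat_lit 4) (nat_lit 4) (nat_lit 5) (nat_lit 5) (nat_lit 5) (nat_lit 4) (nat_lit 366) (nat_lit 299) (nat_lit 235)) (XT.nd (nat_lit 78) (nat_lit 0) (nat_lit 0) (XT.lf (nat_lit 0) (nat_lit 129406485077) (nat_lit 76) (nat_lit 29388140203) (nat_lit 76) (nat_lit 17284468285) (nat_lit 4) (nat_lit 4) (nat_lit 5) (nat_lit 5) (nat_lit 5) (nat_lit 4) (nat_lit 367) (nat_lit 299) (nat_lit 234)) (XT.lf (nat_lit 0) (nat_lit 159147101992)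 (nat_lit 76) (nat_lit 21171136206) (nat_lit 76) (nat_lit 9061397370) (nat_lit 4) (nat_lit 4) (nat_lit 5) (nat_lit 5) (nat_lit 5) (nat_lit 4) (nat_lit 368) (nat_lit 299) (nat_lit 233)))))) (XT.nd (nat_lit 312) (nat_lit 0) (nat_lit 0) (XT.nd (nat_lit 156) (nat_lit 0) (nat_lit 0) (XT.nd (nat_lit 78) (nat_lit 152) (nat_lit 0) (XT.lf (nat_lit 0) (nat_lit 191248615090) (nat_lit 76) (nat_lit 12305853019) (nat_lit 76) (nat_lit 190496665) (nat_lit 4) (nat_lit 4) (nat_lit 5) (nat_lit 5) (nat_lit 5) (nat_lit 4) (nat_lit 369) (nat_lit 299) (nat_lit 232)) (XT.lf (nat_lit 0) (nat_lit 6753263577) (nat_lit 76) (nat_lit 2320688987) (nat_lit 152) (nat_lit 210155214519) (nat_lit 2) (nat_lit 5) (nat_lit 3) (nat_lit 5) (nat_lit 4) (nat_lit 4) (nat_lit 370) (nat_lit 299) (nat_lit 231))) (XT.nd (nat_lit 78) (nat_lit 0) (nat_lit 0) (XT.lf (nat_lit 0) (nat_lit 19614585247) (nat_lit 152) (nat_lit 207906113384)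 (nat_lit 0) (nat_lit 8387387215) (nat_lit 2) (nat_lit 5) (nat_lit 4) (nat_lit 4) (nat_lit 2) (nat_lit 4) (nat_lit 371) (nat_lit 299) (nat_lit 230)) (XT.lf (nat_lit 0) (nat_lit 31050625850) (nat_lit 152) (nat_lit 203047222428) (nat_lit 0) (nat_lit 19819298776) (nat_lit 2) (nat_lit 5) (nat_lit 4) (nat_lit 4) (nat_lit 2) (nat_lit 4) (nat_lit 372) (nat_lit 299) (nat_lit 229)))) (XT.nd (nat_lit 156) (nat_lit 0) (nat_lit 0) (XT.nd (nat_lit 78) (nat_lit 0) (nat_lit 0) (XT.lf (nat_lit 0) (nat_lit 43394030879) (nat_lit 152) (nat_lit 197814624582) (nat_lit 0) (nat_lit 32158880616) (nat_lit 2) (nat_lit 5) (nat_lit 4) (nat_lit 4) (nat_lit 2) (nat_lit 4) (nat_lit 373) (nat_lit 299) (nat_lit 228)) (XT.lf (nat_lit 0) (nat_lit 56717946435) (nat_lit 152) (nat_lit 192177311861) (nat_lit 0) (nat_lit 45479256185) (nat_lit 2) (nat_lit 5) (nat_lit 4) (nat_lit 4) (nat_lit 2) (nat_lit 4) (nat_lit 374) (nat_lit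 299) (nat_lit 227))) (XT.nd (nat_lit 78) (nat_lit 0) (nat_lit 0) (XT.lf (nat_lit 0) (nat_lit 71101329058) (nat_lit 152) (nat_lit 186101877967) (nat_lit 0) (nat_lit 59859361039) (nat_lit 2) (nat_lit 5) (nat_lit 4) (nat_lit 4) (nat_lit 2) (nat_lit 4) (nat_lit 375) (nat_lit 299) (nat_lit 226)) (XT.nd (nat_lit 78) (nat_lit 0) (nat_lit 0) (XT.lf (nat_lit 0) (nat_lit 86629413605) (nat_lit 152) (nat_lit 179552320328) (nat_lit 0) (nat_lit 75384410617) (nat_lit 2) (nat_lit 5) (nat_lit 4) (nat_lit 4) (nat_lit 2) (nat_lit 4) (nat_lit 376) (nat_lit 299) (nat_lit 225)) (XT.lf (nat_lit 0) (nat_lit 103394218357) (nat_lit 152) (nat_lit 172489826752) (nat_lit 0) (nat_lit 92146405211) (nat_lit 2) (nat_lit 5) (nat_lit 4) (nat_lit 4) (nat_lit 2) (nat_lit 4) (nat_lit 377) (nat_lit 299) (nat_lit 224))))))))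
noncomputable def xc94 : XT := (XT.nd (nat_lit 1326) (nat_lit 0) (nat_lit 0) (XT.nd (nat_lit 624) (nat_lit 76) (nat_lit 0) (XT.nd (nat_lit 312) (nat_lit 0) (nat_lit 0) (XT.nd (nat_lit 156) (nat_lit 0) (nat_lit 0) (XT.nd (nat_lit 78) (nat_lit 0) (nat_lit 0) (XT.lf (nat_lit 0) (nat_lit 121495090303) (nat_lit 152) (nat_lit 164872545423) (nat_lit 0) (nat_lit 110244675161) (nat_lit 2) (nat_lit 5) (nat_lit 4) (nat_lit 4) (nat_lit 2) (nat_lit 4) (nat_lit 378) (nat_lit 299) (nat_lit 223)) (XT.lf (nat_lit 0) (nat_lit 141039293872) (nat_lit 152) (nat_lit 156655336898) (nat_lit 0) (nat_lit 129786469472) (nat_lit 2) (nat_lit 5) (nat_lit 4) (nat_lit 4) (nat_lit 2) (nat_lit 4) (nat_lit 379) (nat_lit 299) (nat_lit 222))) (XT.nd (nat_lit 78) (nat_lit 0) (nat_lit 0) (XT.lf (nat_lit 0) (nat_lit 162142646564) (nat_lit 152) (nat_lit 147789506608) (nat_lit 0) (nat_lit 150887591371) (nat_lit 2) (nat_lit 5)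 (nat_lit 4) (nat_lit 4) (nat_lit 2) (nat_lit 4) (nat_lit 380) (nat_lit 299) (nat_lit 221)) (XT.lf (nat_lit 0) (nat_lit 184930205286) (nat_lit 152) (nat_lit 138222516298) (nat_lit 0) (nat_lit 173673084544) (nat_lit 2) (nat_lit 5) (nat_lit 4) (nat_lit 4) (nat_lit 2) (nat_lit 4) (nat_lit 381) (nat_lit 299) (nat_lit 220)))) (XT.nd (nat_lit 156) (nat_lit 0) (nat_lit 0) (XT.nd (nat_lit 78) (nat_lit 0) (nat_lit 0) (XT.lf (nat_lit 0) (nat_lit 209537007421) (nat_lit 152) (nat_lit 127897672693) (nat_lit 0) (nat_lit 198277974133) (nat_lit 2) (nat_lit 5) (nat_lit 4) (nat_lit 4) (nat_lit 2) (nat_lit 4) (nat_lit 382) (nat_lit 299) (nat_lit 219)) (XT.lf (nat_lit 0) (nat_lit 236108871058) (nat_lit 152) (nat_lit 116753791534) (nat_lit 0) (nat_lit 224848066894) (nat_lit 2) (nat_lit 5) (nat_lit 4) (nat_lit 4) (nat_lit 2) (nat_lit 4) (nat_lit 383) (nat_lit 299) (nat_lit 218))) (XT.nd (nat_lit 78) (nat_lit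 0) (nat_lit 0) (XT.lf (nat_lit 0) (nat_lit 264803259090) (nat_lit 152) (nat_lit 104724835008) (nat_lit 0) (nat_lit 253540815227) (nat_lit 2) (nat_lit 5) (nat_lit 4) (nat_lit 4) (nat_lit 2) (nat_lit 4) (nat_lit 384) (nat_lit 299) (nat_lit 217)) (XT.lf (nat_lit 0) (nat_lit 295790212337) (nat_lit 152) (nat_lit 91739520408) (nat_lit 0) (nat_lit 284526250234) (nat_lit 2) (nat_lit 5) (nat_lit 4) (nat_lit 4) (nat_lit 2) (nat_lit 4) (nat_lit 385) (nat_lit 299) (nat_lit 216))))) (XT.nd (nat_lit 312) (nat_lit 76) (nat_lit 0) (XT.nd (nat_lit 156) (nat_lit 0) (nat_lit 0) (XT.nd (nat_lit 78) (nat_lit 0) (nat_lit 0) (XT.lf (nat_lit 0) (nat_lit 329253357189) (nat_lit 152) (nat_lit 77720897723) (nat_lit 0) (nat_lit 317987989307) (nat_lit 2) (nat_lit 5) (nat_lit 4) (nat_lit 4) (nat_lit 2) (nat_lit 4) (nat_lit 386) (nat_lit 299) (nat_lit 215)) (XT.lf (nat_lit 0) (nat_lit 365390993761) (nat_lit 152) (nat_lit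 62585893632) (nat_lit 0) (nat_lit 354124324233) (nat_lit 2) (nat_lit 5) (nat_lit 4) (nat_lit 4) (nat_lit 2) (nat_lit 4) (nat_lit 387) (nat_lit 299) (nat_lit 214))) (XT.nd (nat_lit 78) (nat_lit 0) (nat_lit 0) (XT.lf (nat_lit 0) (nat_lit 404417271013) (nat_lit 152) (nat_lit 46244819223) (nat_lit 0) (nat_lit 393149396256) (nat_lit 2) (nat_lit 5) (nat_lit 4) (nat_lit 4) (nat_lit 2) (nat_lit 4) (nat_lit 388) (nat_lit 299) (nat_lit 213)) (XT.lf (nat_lit 0) (nat_lit 446563455772) (nat_lit 152) (nat_lit 28600838500) (nat_lit 0) (nat_lit 435294465063) (nat_lit 2) (nat_lit 5) (nat_lit 4) (nat_lit 4) (nat_lit 2) (nat_lit 4) (nat_lit 389) (nat_lit 299) (nat_lit 212)))) (XT.nd (nat_lit 156) (nat_lit 0) (nat_lit 0) (XT.nd (nat_lit 78) (nat_lit 76) (nat_lit 0) (XT.lf (nat_lit 0) (nat_lit 492079303207) (nat_lit 152) (nat_lit 9549394538) (nat_lit 0) (nat_lit 480809279210) (nat_lit 2) (nat_lit 5) (nat_lit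 4) (nat_lit 4) (nat_lit 2) (nat_lit 4) (nat_lit 390) (nat_lit 299) (nat_lit 211)) (XT.lf (nat_lit 0) (nat_lit 11602830688) (nat_lit 76) (nat_lit 529910754528) (nat_lit 76) (nat_lit 518639773781) (nat_lit 1) (nat_lit 4) (nat_lit 2) (nat_lit 5) (nat_lit 2) (nat_lit 4) (nat_lit 391) (nat_lit 299) (nat_lit 210))) (XT.nd (nat_lit 78) (nat_lit 0) (nat_lit 0) (XT.lf (nat_lit 0) (nat_lit 34986656688) (nat_lit 76) (nat_lit 560175220247) (nat_lit 76) (nat_lit 548903353622) (nat_lit 1) (nat_lit 4) (nat_lit 2) (nat_lit 5) (nat_lit 2) (nat_lit 4) (nat_lit 392) (nat_lit 299) (nat_lit 209)) (XT.nd (nat_lit 78) (nat_lit 0) (nat_lit 0) (XT.lf (nat_lit 0) (nat_lit 60237800088) (nat_lit 76) (nat_lit 592862537256) (nat_lit 76) (nat_lit 581589850373) (nat_lit 1) (nat_lit 4) (nat_lit 2) (nat_lit 5) (nat_lit 2) (nat_lit 4) (nat_lit 393) (nat_lit 299) (nat_lit 208)) (XT.lf (nat_lit 0) (nat_lit 87505897294) (nat_lit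 76) (nat_lit 628166408174) (nat_lit 76) (nat_lit 616892961793) (nat_lit 1) (nat_lit 4) (nat_lit 2) (nat_lit 5) (nat_lit 2) (nat_lit 4) (nat_lit 394) (nat_lit 299) (nat_lit 207))))))) (XT.nd (nat_lit 624) (nat_lit 0) (nat_lit 0) (XT.nd (nat_lit 312) (nat_lit 0) (nat_lit 0) (XT.nd (nat_lit 156) (nat_lit 0) (nat_lit 0) (XT.nd (nat_lit 78) (nat_lit 0) (nat_lit 0) (XT.lf (nat_lit 0) (nat_lit 116952537029) (nat_lit 76) (nat_lit 666296041125) (nat_lit 76) (nat_lit 655021891505) (nat_lit 1) (nat_lit 4) (nat_lit 2) (nat_lit 5) (nat_lit 2) (nat_lit 4) (nat_lit 395) (nat_lit 299) (nat_lit 206)) (XT.lf (nat_lit 0) (nat_lit 148752217899) (nat_lit 76) (nat_lit 707477389490) (nat_lit 76) (nat_lit 696202588722) (nat_lit 1) (nat_lit 4) (nat_lit 2) (nat_lit 5) (nat_lit 2) (nat_lit 4) (nat_lit 396) (nat_lit 299) (nat_lit 205))) (XT.nd (nat_lit 78) (nat_lit 0) (nat_lit 0) (XT.lf (nat_lit 0) (nat_lit 183093382457)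 (nat_lit 76) (nat_lit 751954490888) (nat_lit 76) (nat_lit 740679087205) (nat_lit 1) (nat_lit 4) (nat_lit 2) (nat_lit 5) (nat_lit 2) (nat_lit 4) (nat_lit 397) (nat_lit 299) (nat_lit 204)) (XT.lf (nat_lit 0) (nat_lit 220179533902) (nat_lit 76) (nat_lit 799990913327) (nat_lit 76) (nat_lit 788714951391) (nat_lit 1) (nat_lit 4) (nat_lit 2) (nat_lit 5) (nat_lit 2) (nat_lit 4) (nat_lit 398) (nat_lit 299) (nat_lit 203)))) (XT.nd (nat_lit 156) (nat_lit 0) (nat_lit 0) (XT.nd (nat_lit 78) (nat_lit 0) (nat_lit 0) (XT.lf (nat_lit 0) (nat_lit 260230442019) (nat_lit 76) (nat_lit 851871317089) (nat_lit 76) (nat_lit 840594838251) (nat_lit 1) (nat_lit 4) (nat_lit 2) (nat_lit 5) (nat_lit 2) (nat_lit 4) (nat_lit 399) (nat_lit 299) (nat_lit 202)) (XT.lf (nat_lit 0) (nat_lit 303483445523) (nat_lit 76) (nat_lit 907903141604) (nat_lit 76) (nat_lit 896626184153) (nat_lit 1) (nat_lit 4) (nat_lit 2) (nat_lit 5)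 (nat_lit 2) (nat_lit 4) (nat_lit 400) (nat_lit 299) (nat_lit 201))) (XT.nd (nat_lit 78) (nat_lit 0) (nat_lit 0) (XT.lf (nat_lit 0) (nat_lit 350194858509) (nat_lit 76) (nat_lit 968418427313) (nat_lit 76) (nat_lit 957141026702) (nat_lit 1) (nat_lit 4) (nat_lit 2) (nat_lit 5) (nat_lit 2) (nat_lit 4) (nat_lit 401) (nat_lit 299) (nat_lit 200)) (XT.lf (nat_lit 0) (nat_lit 400641489351) (nat_lit 76) (nat_lit 1033775783316) (nat_lit 76) (nat_lit 1022497972372) (nat_lit 1) (nat_lit 4) (nat_lit 2) (nat_lit 5) (nat_lit 2) (nat_lit 4) (nat_lit 402) (nat_lit 299) (nat_lit 199))))) (XT.nd (nat_lit 312) (nat_lit 0) (nat_lit 0) (XT.nd (nat_lit 156) (nat_lit 0) (nat_lit 0) (XT.nd (nat_lit 78) (nat_lit 0) (nat_lit 0) (XT.lf (nat_lit 0) (nat_lit 455122281045) (nat_lit 76) (nat_lit 1104362512464) (nat_lit 76) (nat_lit 1093084321582) (nat_lit 1) (nat_lit 4) (nat_lit 2) (nat_lit 5) (nat_lit 2) (nat_lit 4) (nat_lit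 403) (nat_lit 299) (nat_lit 198)) (XT.lf (nat_lit 0) (nat_lit 513960082727) (nat_lit 76) (nat_lit 1180596906485) (nat_lit 76) (nat_lit 1169318363809) (nat_lit 1) (nat_lit 4) (nat_lit 2) (nat_lit 5) (nat_lit 2) (nat_lit 4) (nat_lit 404) (nat_lit 299) (nat_lit 197))) (XT.nd (nat_lit 78) (nat_lit 0) (nat_lit 0) (XT.lf (nat_lit 0) (nat_lit 577503562853) (nat_lit 76) (nat_lit 1262930724752) (nat_lit 76) (nat_lit 1251651856340) (nat_lit 1) (nat_lit 4) (nat_lit 2) (nat_lit 5) (nat_lit 2) (nat_lit 4) (nat_lit 405) (nat_lit 299) (nat_lit 196)) (XT.lf (nat_lit 0) (nat_lit 646129275378) (nat_lit 76) (nat_lit 1351851871372) (nat_lit 76) (nat_lit 1340572701352) (nat_lit 1) (nat_lit 4) (nat_lit 2) (nat_lit 5) (nat_lit 2) (nat_lit 4) (nat_lit 406) (nat_lit 299) (nat_lit 195)))) (XT.nd (nat_lit 156) (nat_lit 0) (nat_lit 0) (XT.nd (nat_lit 78) (nat_lit 0) (nat_lit 0) (XT.lf (nat_lit 0) (nat_lit 720243891192)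 (nat_lit 76) (nat_lit 1447887286473) (nat_lit 76) (nat_lit 1436607837188) (nat_lit 1) (nat_lit 4) (nat_lit 2) (nat_lit 5) (nat_lit 2) (nat_lit 4) (nat_lit 407) (nat_lit 299) (nat_lit 194)) (XT.lf (nat_lit 0) (nat_lit 800286608018) (nat_lit 76) (nat_lit 1551606068813) (nat_lit 76) (nat_lit 1540326360947) (nat_lit 1) (nat_lit 4) (nat_lit 2) (nat_lit 5) (nat_lit 2) (nat_lit 4) (nat_lit 408) (nat_lit 299) (nat_lit 193))) (XT.nd (nat_lit 78) (nat_lit 0) (nat_lit 0) (XT.lf (nat_lit 0) (nat_lit 886731753066) (nat_lit 76) (nat_lit 1663622848211) (nat_lit 76) (nat_lit 1652342900920) (nat_lit 1) (nat_lit 4) (nat_lit 2) (nat_lit 5) (nat_lit 2) (nat_lit 4) (nat_lit 409) (nat_lit 299) (nat_lit 192)) (XT.nd (nat_lit 78) (nat_lit 0) (nat_lit 0) (XT.lf (nat_lit 0) (nat_lit 980091593863) (nat_lit 76) (nat_lit 1784601427805) (nat_lit 76) (nat_lit 1773321258824) (nat_lit 1) (nat_lit 4) (nat_lit 2) (nat_lit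 5) (nat_lit 2) (nat_lit 4) (nat_lit 410) (nat_lit 299) (nat_lit 191)) (XT.lf (nat_lit 0) (nat_lit 1080919373910) (nat_lit 76) (nat_lit 1915258717697) (nat_lit 76) (nat_lit 1903978343447) (nat_lit 1) (nat_lit 4) (nat_lit 2) (nat_lit 5) (nat_lit 2) (nat_lit 4) (nat_lit 411) (nat_lit 299) (nat_lit 190))))))))
noncomputable def xc95 : XT := (XT.nd (nat_lit 39312) (nat_lit 0) (nat_lit 1444) (XT.nd (nat_lit 38610) (nat_lit 0) (nat_lit 3268) (XT.nd (nat_lit 38298) (nat_lit 0) (nat_lit 5396) (XT.nd (nat_lit 38142) (nat_lit 0) (nat_lit 5776) (XT.nd (nat_lit 78) (nat_lit 0) (nat_lit 0) (XT.lf (nat_lit 0) (nat_lit 1189812591163) (nat_lit 76) (nat_lit 2056368983307) (nat_lit 76) (nat_lit 2045088418994) (nat_lit 1) (nat_lit 4) (nat_lit 2) (nat_lit 5) (nat_lit 2) (nat_lit 4) (nat_lit 412) (nat_lit 299) (nat_lit 189)) (XT.lf (nat_lit 0) (nat_lit 1307416538760) (nat_lit 76) (nat_lit 2208768433619) (nat_lit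 76) (nat_lit 2197487693320) (nat_lit 1) (nat_lit 4) (nat_lit 2) (nat_lit 5) (nat_lit 2) (nat_lit 4) (nat_lit 413) (nat_lit 299) (nat_lit 188))) (XT.nd (nat_lit 78) (nat_lit 76) (nat_lit 0) (XT.lf (nat_lit 0) (nat_lit 1073741823) (nat_lit 0) (nat_lit 0) (nat_lit 0) (nat_lit 0) (nat_lit 78) (nat_lit 0) (nat_lit 1) (nat_lit 0) (nat_lit 1) (nat_lit 0) (nat_lit 300) (nat_lit 300) (nat_lit 300)) (XT.lf (nat_lit 0) (nat_lit 3018004725) (nat_lit 76) (nat_lit 3276211795) (nat_lit 0) (nat_lit 154693194) (nat_lit 77) (nat_lit 5) (nat_lit 78) (nat_lit 0) (nat_lit 77) (nat_lit 4) (nat_lit 301) (nat_lit 300) (nat_lit 299)))) (XT.nd (nat_lit 156) (nat_lit 228) (nat_lit 0) (XT.nd (nat_lit 78) (nat_lit 152) (nat_lit 0) (XT.lf (nat_lit 0) (nat_lit 5979522194) (nat_lit 76) (nat_lit 36181281) (nat_lit 0) (nat_lit 464996283) (nat_lit 77) (nat_lit 5) (nat_lit 78) (nat_lit 0) (nat_lit 77) (nat_lit 4) (nat_lit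 302) (nat_lit 300) (nat_lit 298)) (XT.lf (nat_lit 0) (nat_lit 2331463417) (nat_lit 152) (nat_lit 3119910132) (nat_lit 76) (nat_lit 1075236814) (nat_lit 75) (nat_lit 5) (nat_lit 77) (nat_lit 5) (nat_lit 76) (nat_lit 4) (nat_lit 303) (nat_lit 300) (nat_lit 297))) (XT.nd (nat_lit 78) (nat_lit 76) (nat_lit 0) (XT.lf (nat_lit 0) (nat_lit 380092330) (nat_lit 152) (nat_lit 4726847756) (nat_lit 228) (nat_lit 1489526483) (nat_lit 73) (nat_lit 5) (nat_lit 75) (nat_lit 5) (nat_lit 76) (nat_lit 4) (nat_lit 304) (nat_lit 300) (nat_lit 296)) (XT.lf (nat_lit 0) (nat_lit 1189958151) (nat_lit 228) (nat_lit 2550861290) (nat_lit 76) (nat_lit 2942676736) (nat_lit 72) (nat_lit 5) (nat_lit 75) (nat_lit 5) (nat_lit 73) (nat_lit 5) (nat_lit 305) (nat_lit 300) (nat_lit 295))))) (XT.nd (nat_lit 312) (nat_lit 1520) (nat_lit 0) (XT.nd (nat_lit 156) (nat_lit 380) (nat_lit 0) (XT.nd (nat_lit 78) (nat_lit 0) (nat_lit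 0) (XT.lf (nat_lit 0) (nat_lit 1259395443) (nat_lit 228) (nat_lit 2534922051) (nat_lit 304) (nat_lit 2997414210) (nat_lit 69) (nat_lit 5) (nat_lit 72) (nat_lit 5) (nat_lit 73) (nat_lit 5) (nat_lit 306) (nat_lit 300) (nat_lit 294)) (XT.lf (nat_lit 0) (nat_lit 5351109038) (nat_lit 228) (nat_lit 1100037237) (nat_lit 304) (nat_lit 470522172) (nat_lit 69) (nat_lit 5) (nat_lit 72) (nat_lit 5) (nat_lit 73) (nat_lit 5) (nat_lit 307) (nat_lit 300) (nat_lit 293))) (XT.nd (nat_lit 78) (nat_lit 0) (nat_lit 0) (XT.lf (nat_lit 0) (nat_lit 2008630446) (nat_lit 380) (nat_lit 4468294723) (nat_lit 76) (nat_lit 592172819) (nat_lit 64) (nat_lit 5) (nat_lit 69) (nat_lit 5) (nat_lit 65) (nat_lit 5) (nat_lit 308) (nat_lit 300) (nat_lit 292)) (XT.lf (nat_lit 0) (nat_lit 4531411519) (nat_lit 380) (nat_lit 252744047) (nat_lit 76) (nat_lit 2453985380) (nat_lit 64) (nat_lit 5) (nat_lit 69) (nat_lit 5) (nat_lit 65)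 (nat_lit 5) (nat_lit 309) (nat_lit 300) (nat_lit 291)))) (XT.nd (nat_lit 156) (nat_lit 608) (nat_lit 0) (XT.nd (nat_lit 78) (nat_lit 532) (nat_lit 0) (XT.lf (nat_lit 0) (nat_lit 4349927173) (nat_lit 380) (nat_lit 2823747290) (nat_lit 456) (nat_lit 254040587) (nat_lit 59) (nat_lit 5) (nat_lit 64) (nat_lit 5) (nat_lit 65) (nat_lit 5) (nat_lit 310) (nat_lit 300) (nat_lit 290)) (XT.lf (nat_lit 0) (nat_lit 1549602002) (nat_lit 456) (nat_lit 587810758) (nat_lit 532) (nat_lit 5501807064) (nat_lit 52) (nat_lit 5) (nat_lit 58) (nat_lit 5) (nat_lit 59) (nat_lit 5) (nat_lit 311) (nat_lit 300) (nat_lit 289))) (XT.nd (nat_lit 78) (nat_lit 608) (nat_lit 0) (XT.lf (nat_lit 0) (nat_lit 4664229578) (nat_lit 532) (nat_lit 1374676000) (nat_lit 76) (nat_lit 1831923540) (nat_lit 52) (nat_lit 5) (nat_lit 59) (nat_lit 5) (nat_lit 53) (nat_lit 5) (nat_lit 312) (nat_lit 300) (nat_lit 288)) (XT.nd (nat_lit 78)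 (nat_lit 304) (nat_lit 0) (XT.lf (nat_lit 0) (nat_lit 3718524617) (nat_lit 304) (nat_lit 3619638354) (nat_lit 380) (nat_lit 787515538) (nat_lit 48) (nat_lit 5) (nat_lit 52) (nat_lit 5) (nat_lit 53) (nat_lit 5) (nat_lit 313) (nat_lit 300) (nat_lit 287)) (XT.lf (nat_lit 0) (nat_lit 716553461) (nat_lit 228) (nat_lit 916948793) (nat_lit 304) (nat_lit 6772190611) (nat_lit 44) (nat_lit 5) (nat_lit 47) (nat_lit 5) (nat_lit 48) (nat_lit 5) (nat_lit 314) (nat_lit 300) (nat_lit 286))))))) (XT.nd (nat_lit 702) (nat_lit 760) (nat_lit 0) (XT.nd (nat_lit 312) (nat_lit 608) (nat_lit 0) (XT.nd (nat_lit 156) (nat_lit 228) (nat_lit 0) (XT.nd (nat_lit 78) (nat_lit 228) (nat_lit 0) (XT.lf (nat_lit 0) (nat_lit 4228326321) (nat_lit 304) (nat_lit 2450507006) (nat_lit 76) (nat_lit 2026070291) (nat_lit 44) (nat_lit 5) (nat_lit 48) (nat_lit 5) (nat_lit 45) (nat_lit 5) (nat_lit 315) (nat_lit 300) (nat_lit 285))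 (XT.lf (nat_lit 0) (nat_lit 3174513326) (nat_lit 228) (nat_lit 3818326593) (nat_lit 304) (nat_lit 2038470185) (nat_lit 41) (nat_lit 5) (nat_lit 44) (nat_lit 5) (nat_lit 45) (nat_lit 5) (nat_lit 316) (nat_lit 300) (nat_lit 284))) (XT.nd (nat_lit 78) (nat_lit 152) (nat_lit 0) (XT.lf (nat_lit 0) (nat_lit 498291676) (nat_lit 304) (nat_lit 176380251) (nat_lit 76) (nat_lit 8713539380) (nat_lit 40) (nat_lit 5) (nat_lit 44) (nat_lit 5) (nat_lit 41) (nat_lit 5) (nat_lit 317) (nat_lit 300) (nat_lit 283)) (XT.lf (nat_lit 0) (nat_lit 3217804200) (nat_lit 228) (nat_lit 3787738370) (nat_lit 76) (nat_lit 2756871377) (nat_lit 38) (nat_lit 5) (nat_lit 41) (nat_lit 5) (nat_lit 39) (nat_lit 5) (nat_lit 318) (nat_lit 300) (nat_lit 282)))) (XT.nd (nat_lit 156) (nat_lit 380) (nat_lit 0) (XT.nd (nat_lit 78) (nat_lit 0) (nat_lit 0) (XT.lf (nat_lit 0) (nat_lit 2401105912) (nat_lit 228) (nat_lit 3713385700) (nat_lit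 304) (nat_lit 4055459046) (nat_lit 35) (nat_lit 5) (nat_lit 38) (nat_lit 5) (nat_lit 39) (nat_lit 5) (nat_lit 319) (nat_lit 300) (nat_lit 281)) (XT.lf (nat_lit 0) (nat_lit 9141559612) (nat_lit 228) (nat_lit 89425236) (nat_lit 304) (nat_lit 1380214393) (nat_lit 35) (nat_lit 5) (nat_lit 38) (nat_lit 5) (nat_lit 39) (nat_lit 5) (nat_lit 320) (nat_lit 300) (nat_lit 280))) (XT.nd (nat_lit 78) (nat_lit 152) (nat_lit 0) (XT.lf (nat_lit 0) (nat_lit 1549205935) (nat_lit 228) (nat_lit 5763575762) (nat_lit 76) (nat_lit 3762943554) (nat_lit 32) (nat_lit 5) (nat_lit 35) (nat_lit 5) (nat_lit 33) (nat_lit 5) (nat_lit 321) (nat_lit 300) (nat_lit 279)) (XT.nd (nat_lit 78) (nat_lit 0) (nat_lit 0) (XT.lf (nat_lit 0) (nat_lit 999997577) (nat_lit 152) (nat_lit 3599656626) (nat_lit 228) (nat_lit 6978114552) (nat_lit 30) (nat_lit 5) (nat_lit 32) (nat_lit 5) (nat_lit 33) (nat_lit 5) (nat_lit 322) (nat_lit 300)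 (nat_lit 278)) (XT.lf (nat_lit 0) (nat_lit 7962323491) (nat_lit 228) (nat_lit 3648674919) (nat_lit 76) (nat_lit 503636151) (nat_lit 30) (nat_lit 5) (nat_lit 33) (nat_lit 5) (nat_lit 31) (nat_lit 4) (nat_lit 323) (nat_lit 300) (nat_lit 277)))))) (XT.nd (nat_lit 312) (nat_lit 304) (nat_lit 0) (XT.nd (nat_lit 156) (nat_lit 228) (nat_lit 0) (XT.nd (nat_lit 78) (nat_lit 76) (nat_lit 0) (XT.lf (nat_lit 0) (nat_lit 3782527704) (nat_lit 152) (nat_lit 7900235569) (nat_lit 228) (nat_lit 1004691023) (nat_lit 28) (nat_lit 5) (nat_lit 30) (nat_lit 5) (nat_lit 31) (nat_lit 4) (nat_lit 324) (nat_lit 300) (nat_lit 276)) (XT.lf (nat_lit 0) (nat_lit 2282723323) (nat_lit 228) (nat_lit 1491839558) (nat_lit 76) (nat_lit 9526397119) (nat_lit 27) (nat_lit 5) (nat_lit 30) (nat_lit 5) (nat_lit 28) (nat_lit 5) (nat_lit 325) (nat_lit 300) (nat_lit 275))) (XT.nd (nat_lit 78) (nat_lit 76) (nat_lit 0) (XT.lf (nat_lit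 0) (nat_lit 5872060285) (nat_lit 228) (nat_lit 7291335700) (nat_lit 76) (nat_lit 790689322) (nat_lit 25) (nat_lit 5) (nat_lit 28) (nat_lit 5) (nat_lit 26) (nat_lit 4) (nat_lit 326) (nat_lit 300) (nat_lit 274)) (XT.lf (nat_lit 0) (nat_lit 693627157) (nat_lit 76) (nat_lit 9125955455) (nat_lit 152) (nat_lit 4834272292) (nat_lit 24) (nat_lit 5) (nat_lit 25) (nat_lit 5) (nat_lit 26) (nat_lit 4) (nat_lit 327) (nat_lit 300) (nat_lit 273)))) (XT.nd (nat_lit 156) (nat_lit 76) (nat_lit 0) (XT.nd (nat_lit 78) (nat_lit 228) (nat_lit 0) (XT.lf (nat_lit 0) (nat_lit 9595282721) (nat_lit 76) (nat_lit 4604495580) (nat_lit 152) (nat_lit 1200549655) (nat_lit 24) (nat_lit 5) (nat_lit 25) (nat_lit 5) (nat_lit 26) (nat_lit 4) (nat_lit 328) (nat_lit 300) (nat_lit 272)) (XT.lf (nat_lit 0) (nat_lit 2589220723) (nat_lit 228) (nat_lit 13256934701) (nat_lit 76) (nat_lit 355055370) (nat_lit 21) (nat_lit 5) (nat_lit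 24) (nat_lit 5) (nat_lit 22) (nat_lit 4) (nat_lit 329) (nat_lit 300) (nat_lit 271))) (XT.nd (nat_lit 78) (nat_lit 76) (nat_lit 0) (XT.lf (nat_lit 0) (nat_lit 6822824514) (nat_lit 228) (nat_lit 4617069995) (nat_lit 76) (nat_lit 5607390938) (nat_lit 21) (nat_lit 5) (nat_lit 24) (nat_lit 5) (nat_lit 22) (nat_lit 4) (nat_lit 330) (nat_lit 300) (nat_lit 270)) (XT.nd (nat_lit 78) (nat_lit 0) (nat_lit 0) (XT.lf (nat_lit 0) (nat_lit 4833183808) (nat_lit 76) (nat_lit 6606941848) (nat_lit 152) (nat_lit 6517372327) (nat_lit 20) (nat_lit 5) (nat_lit 21) (nat_lit 5) (nat_lit 22) (nat_lit 4) (nat_lit 331) (nat_lit 300) (nat_lit 269)) (XT.lf (nat_lit 0) (nat_lit 15182562446) (nat_lit 76) (nat_lit 1301661100) (nat_lit 152) (nat_lit 2451759700) (nat_lit 20) (nat_lit 5) (nat_lit 21) (nat_lit 5) (nat_lit 22) (nat_lit 4) (nat_lit 332) (nat_lit 300) (nat_lit 268))))))))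
noncomputable def xc96 : XT := (XT.nd (nat_lit 1326) (nat_lit 380) (nat_lit 0) (XT.nd (nat_lit 624) (nat_lit 380) (nat_lit 0) (XT.nd (nat_lit 312) (nat_lit 228) (nat_lit 0) (XT.nd (nat_lit 156) (nat_lit 76) (nat_lit 0) (XT.nd (nat_lit 78) (nat_lit 0) (nat_lit 0) (XT.lf (nat_lit 0) (nat_lit 2044414245) (nat_lit 152) (nat_lit 13559121549) (nat_lit 76) (nat_lit 4369337363) (nat_lit 18) (nat_lit 5) (nat_lit 20) (nat_lit 5) (nat_lit 19) (nat_lit 4) (nat_lit 333) (nat_lit 300) (nat_lit 267)) (XT.lf (nat_lit 0) (nat_lit 6842515356) (nat_lit 152) (nat_lit 3692069266) (nat_lit 76) (nat_lit 10547098403) (nat_lit 18) (nat_lit 5) (nat_lit 20) (nat_lit 5) (nat_lit 19) (nat_lit 4) (nat_lit 334) (nat_lit 300) (nat_lit 266))) (XT.nd (nat_lit 78) (nat_lit 0) (nat_lit 0) (XT.lf (nat_lit 0) (nat_lit 7218826819) (nat_lit 76) (nat_lit 4919613485) (nat_lit 152) (nat_lit 10131675144) (nat_lit 17) (nat_lit 5)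 (nat_lit 18) (nat_lit 5) (nat_lit 19) (nat_lit 4) (nat_lit 335) (nat_lit 300) (nat_lit 265)) (XT.lf (nat_lit 0) (nat_lit 17930304765) (nat_lit 152) (nat_lit 4470604318) (nat_lit 0) (nat_lit 1146965309) (nat_lit 17) (nat_lit 5) (nat_lit 19) (nat_lit 4) (nat_lit 17) (nat_lit 4) (nat_lit 336) (nat_lit 300) (nat_lit 264)))) (XT.nd (nat_lit 156) (nat_lit 76) (nat_lit 0) (XT.nd (nat_lit 78) (nat_lit 76) (nat_lit 0) (XT.lf (nat_lit 0) (nat_lit 7083588550) (nat_lit 76) (nat_lit 17345599511) (nat_lit 76) (nat_lit 479203130) (nat_lit 16) (nat_lit 4) (nat_lit 17) (nat_lit 5) (nat_lit 17) (nat_lit 4) (nat_lit 337) (nat_lit 300) (nat_lit 263)) (XT.lf (nat_lit 0) (nat_lit 4887839942) (nat_lit 152) (nat_lit 6776593860) (nat_lit 76) (nat_lit 14697887458) (nat_lit 15) (nat_lit 5) (nat_lit 17) (nat_lit 5) (nat_lit 16) (nat_lit 4) (nat_lit 338) (nat_lit 300) (nat_lit 262))) (XT.nd (nat_lit 78) (nat_lit 0)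 (nat_lit 0) (XT.lf (nat_lit 0) (nat_lit 5316502585) (nat_lit 76) (nat_lit 5419560613) (nat_lit 152) (nat_lit 17189314680) (nat_lit 14) (nat_lit 5) (nat_lit 15) (nat_lit 5) (nat_lit 16) (nat_lit 4) (nat_lit 339) (nat_lit 300) (nat_lit 261)) (XT.lf (nat_lit 0) (nat_lit 17224497876) (nat_lit 152) (nat_lit 10965941759) (nat_lit 0) (nat_lit 1409273679) (nat_lit 14) (nat_lit 5) (nat_lit 16) (nat_lit 4) (nat_lit 14) (nat_lit 4) (nat_lit 340) (nat_lit 300) (nat_lit 260))))) (XT.nd (nat_lit 312) (nat_lit 152) (nat_lit 0) (XT.nd (nat_lit 156) (nat_lit 152) (nat_lit 0) (XT.nd (nat_lit 78) (nat_lit 0) (nat_lit 0) (XT.lf (nat_lit 0) (nat_lit 1454251966) (nat_lit 76) (nat_lit 22907565527) (nat_lit 76) (nat_lit 7035814182) (nat_lit 13) (nat_lit 4) (nat_lit 14) (nat_lit 5) (nat_lit 14) (nat_lit 4) (nat_lit 341) (nat_lit 300) (nat_lit 259)) (XT.lf (nat_lit 0) (nat_lit 15407730877) (nat_lit 76) (nat_lit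 16917670491) (nat_lit 76) (nat_lit 993579194) (nat_lit 13) (nat_lit 4) (nat_lit 14) (nat_lit 5) (nat_lit 14) (nat_lit 4) (nat_lit 342) (nat_lit 300) (nat_lit 258))) (XT.nd (nat_lit 78) (nat_lit 76) (nat_lit 0) (XT.lf (nat_lit 0) (nat_lit 5212961752) (nat_lit 152) (nat_lit 5129593770) (nat_lit 76) (nat_lit 25044241833) (nat_lit 12) (nat_lit 5) (nat_lit 14) (nat_lit 5) (nat_lit 13) (nat_lit 4) (nat_lit 343) (nat_lit 300) (nat_lit 257)) (XT.lf (nat_lit 0) (nat_lit 9026243527) (nat_lit 76) (nat_lit 3013982825) (nat_lit 152) (nat_lit 25563533565) (nat_lit 11) (nat_lit 5) (nat_lit 12) (nat_lit 5) (nat_lit 13) (nat_lit 4) (nat_lit 344) (nat_lit 300) (nat_lit 256)))) (XT.nd (nat_lit 156) (nat_lit 152) (nat_lit 0) (XT.nd (nat_lit 78) (nat_lit 0) (nat_lit 0) (XT.lf (nat_lit 0) (nat_lit 19636577342) (nat_lit 152) (nat_lit 15576529227) (nat_lit 0) (nat_lit 4767154723) (nat_lit 11) (nat_lit 5) (nat_lit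 13) (nat_lit 4) (nat_lit 11) (nat_lit 4) (nat_lit 345) (nat_lit 300) (nat_lit 255)) (XT.lf (nat_lit 0) (nat_lit 27882943848) (nat_lit 152) (nat_lit 1682667969) (nat_lit 0) (nat_lit 12977899538) (nat_lit 11) (nat_lit 5) (nat_lit 13) (nat_lit 4) (nat_lit 11) (nat_lit 4) (nat_lit 346) (nat_lit 300) (nat_lit 254))) (XT.nd (nat_lit 78) (nat_lit 76) (nat_lit 0) (XT.lf (nat_lit 0) (nat_lit 13957077268) (nat_lit 76) (nat_lit 23134297645) (nat_lit 76) (nat_lit 8196270287) (nat_lit 10) (nat_lit 4) (nat_lit 11) (nat_lit 5) (nat_lit 11) (nat_lit 4) (nat_lit 347) (nat_lit 300) (nat_lit 253)) (XT.nd (nat_lit 78) (nat_lit 76) (nat_lit 0) (XT.lf (nat_lit 0) (nat_lit 30881498046) (nat_lit 76) (nat_lit 16168648467) (nat_lit 76) (nat_lit 1200081249) (nat_lit 10) (nat_lit 4) (nat_lit 11) (nat_lit 5) (nat_lit 11) (nat_lit 4) (nat_lit 348) (nat_lit 300) (nat_lit 252)) (XT.lf (nat_lit 0) (nat_lit 6007126731)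 (nat_lit 152) (nat_lit 2502021263) (nat_lit 76) (nat_lit 42930908694) (nat_lit 9) (nat_lit 5) (nat_lit 11) (nat_lit 5) (nat_lit 10) (nat_lit 4) (nat_lit 349) (nat_lit 300) (nat_lit 251))))))) (XT.nd (nat_lit 624) (nat_lit 76) (nat_lit 0) (XT.nd (nat_lit 312) (nat_lit 152) (nat_lit 0) (XT.nd (nat_lit 156) (nat_lit 76) (nat_lit 0) (XT.nd (nat_lit 78) (nat_lit 0) (nat_lit 0) (XT.lf (nat_lit 0) (nat_lit 14041915980) (nat_lit 152) (nat_lit 40683699034) (nat_lit 0) (nat_lit 131704988) (nat_lit 8) (nat_lit 5) (nat_lit 10) (nat_lit 4) (nat_lit 8) (nat_lit 4) (nat_lit 350) (nat_lit 300) (nat_lit 250)) (XT.lf (nat_lit 0) (nat_lit 22982436929) (nat_lit 152) (nat_lit 26494721640) (nat_lit 0) (nat_lit 9049778229) (nat_lit 8) (nat_lit 5) (nat_lit 10) (nat_lit 4) (nat_lit 8) (nat_lit 4) (nat_lit 351) (nat_lit 300) (nat_lit 249))) (XT.nd (nat_lit 78) (nat_lit 76) (nat_lit 0) (XT.lf (nat_lit 0) (nat_lit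 32612037662) (nat_lit 152) (nat_lit 11221591863) (nat_lit 0) (nat_lit 18658594047) (nat_lit 8) (nat_lit 5) (nat_lit 10) (nat_lit 4) (nat_lit 8) (nat_lit 4) (nat_lit 352) (nat_lit 300) (nat_lit 248)) (XT.lf (nat_lit 0) (nat_lit 5501400041) (nat_lit 76) (nat_lit 37618691243) (nat_lit 76) (nat_lit 23646002337) (nat_lit 7) (nat_lit 4) (nat_lit 8) (nat_lit 5) (nat_lit 8) (nat_lit 4) (nat_lit 353) (nat_lit 300) (nat_lit 247)))) (XT.nd (nat_lit 156) (nat_lit 152) (nat_lit 0) (XT.nd (nat_lit 78) (nat_lit 0) (nat_lit 0) (XT.lf (nat_lit 0) (nat_lit 24154417304) (nat_lit 76) (nat_lit 30597654293) (nat_lit 76) (nat_lit 16607145672) (nat_lit 7) (nat_lit 4) (nat_lit 8) (nat_lit 5) (nat_lit 8) (nat_lit 4) (nat_lit 354) (nat_lit 300) (nat_lit 246)) (XT.lf (nat_lit 0) (nat_lit 44257087184) (nat_lit 76) (nat_lit 23035730739) (nat_lit 76) (nat_lit 9028722382) (nat_lit 7) (nat_lit 4) (nat_lit 8) (nat_lit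 5) (nat_lit 8) (nat_lit 4) (nat_lit 355) (nat_lit 300) (nat_lit 245))) (XT.nd (nat_lit 78) (nat_lit 152) (nat_lit 0) (XT.lf (nat_lit 0) (nat_lit 65928536612) (nat_lit 76) (nat_lit 14888109181) (nat_lit 76) (nat_lit 865823292) (nat_lit 7) (nat_lit 4) (nat_lit 8) (nat_lit 5) (nat_lit 8) (nat_lit 4) (nat_lit 356) (nat_lit 300) (nat_lit 244)) (XT.lf (nat_lit 0) (nat_lit 1718677239) (nat_lit 76) (nat_lit 5855894391) (nat_lit 152) (nat_lit 79880636519) (nat_lit 5) (nat_lit 5) (nat_lit 6) (nat_lit 5) (nat_lit 7) (nat_lit 4) (nat_lit 357) (nat_lit 300) (nat_lit 243))))) (XT.nd (nat_lit 312) (nat_lit 76) (nat_lit 0) (XT.nd (nat_lit 156) (nat_lit 0) (nat_lit 0) (XT.nd (nat_lit 78) (nat_lit 0) (nat_lit 0) (XT.lf (nat_lit 0) (nat_lit 17160053569) (nat_lit 152) (nat_lit 72335357848) (nat_lit 0) (nat_lit 4151229703) (nat_lit 5) (nat_lit 5) (nat_lit 7) (nat_lit 4) (nat_lit 5) (nat_lit 4) (nat_lit 358)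 (nat_lit 300) (nat_lit 242)) (XT.lf (nat_lit 0) (nat_lit 27646822708) (nat_lit 152) (nat_lit 58049044883) (nat_lit 0) (nat_lit 14626769399) (nat_lit 5) (nat_lit 5) (nat_lit 7) (nat_lit 4) (nat_lit 5) (nat_lit 4) (nat_lit 359) (nat_lit 300) (nat_lit 241))) (XT.nd (nat_lit 78) (nat_lit 0) (nat_lit 0) (XT.lf (nat_lit 0) (nat_lit 38956188463) (nat_lit 152) (nat_lit 42652097983) (nat_lit 0) (nat_lit 25925737522) (nat_lit 5) (nat_lit 5) (nat_lit 7) (nat_lit 4) (nat_lit 5) (nat_lit 4) (nat_lit 360) (nat_lit 300) (nat_lit 240)) (XT.lf (nat_lit 0) (nat_lit 51155169298) (nat_lit 152) (nat_lit 26053275979) (nat_lit 0) (nat_lit 38115090919) (nat_lit 5) (nat_lit 5) (nat_lit 7) (nat_lit 4) (nat_lit 5) (nat_lit 4) (nat_lit 361) (nat_lit 300) (nat_lit 239)))) (XT.nd (nat_lit 156) (nat_lit 0) (nat_lit 0) (XT.nd (nat_lit 78) (nat_lit 76) (nat_lit 0) (XT.lf (nat_lit 0) (nat_lit 64316055470) (nat_lit 152)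 (nat_lit 8154215483) (nat_lit 0) (nat_lit 51267062798) (nat_lit 5) (nat_lit 5) (nat_lit 7) (nat_lit 4) (nat_lit 5) (nat_lit 4) (nat_lit 362) (nat_lit 300) (nat_lit 238)) (XT.lf (nat_lit 0) (nat_lit 11738351914) (nat_lit 76) (nat_lit 67060793147) (nat_lit 76) (nat_lit 54003546499) (nat_lit 4) (nat_lit 4) (nat_lit 5) (nat_lit 5) (nat_lit 5) (nat_lit 4) (nat_lit 363) (nat_lit 300) (nat_lit 237))) (XT.nd (nat_lit 78) (nat_lit 0) (nat_lit 0) (XT.lf (nat_lit 0) (nat_lit 33661092877) (nat_lit 76) (nat_lit 60990125133) (nat_lit 76) (nat_lit 47925235915) (nat_lit 4) (nat_lit 4) (nat_lit 5) (nat_lit 5) (nat_lit 5) (nat_lit 4) (nat_lit 364) (nat_lit 300) (nat_lit 236)) (XT.nd (nat_lit 78) (nat_lit 0) (nat_lit 0) (XT.lf (nat_lit 0) (nat_lit 57314533405) (nat_lit 76) (nat_lit 54445243285) (nat_lit 76) (nat_lit 41373277614) (nat_lit 4) (nat_lit 4) (nat_lit 5) (nat_lit 5) (nat_lit 5) (nat_lit 4) (nat_lit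 365) (nat_lit 300) (nat_lit 235)) (XT.lf (nat_lit 0) (nat_lit 82838842036) (nat_lit 76) (nat_lit 47387363118) (nat_lit 76) (nat_lit 34308845175) (nat_lit 4) (nat_lit 4) (nat_lit 5) (nat_lit 5) (nat_lit 5) (nat_lit 4) (nat_lit 366) (nat_lit 300) (nat_lit 234))))))))
noncomputable def xc97 : XT := (XT.nd (nat_lit 1326) (nat_lit 76) (nat_lit 0) (XT.nd (nat_lit 624) (nat_lit 0) (nat_lit 0) (XT.nd (nat_lit 312) (nat_lit 152) (nat_lit 0) (XT.nd (nat_lit 156) (nat_lit 0) (nat_lit 0) (XT.nd (nat_lit 78) (nat_lit 0) (nat_lit 0) (XT.lf (nat_lit 0) (nat_lit 110385273932) (nat_lit 76) (nat_lit 39774660157) (nat_lit 76) (nat_lit 26690075295) (nat_lit 4) (nat_lit 4) (nat_lit 5) (nat_lit 5) (nat_lit 5) (nat_lit 4) (nat_lit 367) (nat_lit 300) (nat_lit 233)) (XT.lf (nat_lit 0) (nat_lit 140117067207) (nat_lit 76) (nat_lit 31562022088) (nat_lit 76) (nat_lit 18471819708) (nat_lit 4) (nat_lit 4) (nat_lit 5)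 (nat_lit 5) (nat_lit 5) (nat_lit 4) (nat_lit 368) (nat_lit 300) (nat_lit 232))) (XT.nd (nat_lit 78) (nat_lit 0) (nat_lit 0) (XT.lf (nat_lit 0) (nat_lit 172210410267) (nat_lit 76) (nat_lit 22700781426) (nat_lit 76) (nat_lit 9605377642) (nat_lit 4) (nat_lit 4) (nat_lit 5) (nat_lit 5) (nat_lit 5) (nat_lit 4) (nat_lit 369) (nat_lit 300) (nat_lit 231)) (XT.lf (nat_lit 0) (nat_lit 206855485885) (nat_lit 76) (nat_lit 13138427115) (nat_lit 76) (nat_lit 38207215) (nat_lit 4) (nat_lit 4) (nat_lit 5) (nat_lit 5) (nat_lit 5) (nat_lit 4) (nat_lit 370) (nat_lit 300) (nat_lit 230)))) (XT.nd (nat_lit 156) (nat_lit 0) (nat_lit 0) (XT.nd (nat_lit 78) (nat_lit 0) (nat_lit 0) (XT.lf (nat_lit 0) (nat_lit 7600934246) (nat_lit 76) (nat_lit 2353687634) (nat_lit 152) (nat_lit 226800468533) (nat_lit 2) (nat_lit 5) (nat_lit 3) (nat_lit 5) (nat_lit 4) (nat_lit 4) (nat_lit 371) (nat_lit 300) (nat_lit 229)) (XT.lf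 (nat_lit 0) (nat_lit 21330441421) (nat_lit 152) (nat_lit 224245872615) (nat_lit 0) (nat_lit 9192655950) (nat_lit 2) (nat_lit 5) (nat_lit 4) (nat_lit 4) (nat_lit 2) (nat_lit 4) (nat_lit 372) (nat_lit 300) (nat_lit 228))) (XT.nd (nat_lit 78) (nat_lit 0) (nat_lit 0) (XT.lf (nat_lit 0) (nat_lit 33670499394) (nat_lit 152) (nat_lit 219019954073) (nat_lit 0) (nat_lit 21529173935) (nat_lit 2) (nat_lit 5) (nat_lit 4) (nat_lit 4) (nat_lit 2) (nat_lit 4) (nat_lit 373) (nat_lit 300) (nat_lit 227)) (XT.lf (nat_lit 0) (nat_lit 46991315827) (nat_lit 152) (nat_lit 213388825893) (nat_lit 0) (nat_lit 34846712600) (nat_lit 2) (nat_lit 5) (nat_lit 4) (nat_lit 4) (nat_lit 2) (nat_lit 4) (nat_lit 374) (nat_lit 300) (nat_lit 226))))) (XT.nd (nat_lit 312) (nat_lit 0) (nat_lit 0) (XT.nd (nat_lit 156) (nat_lit 0) (nat_lit 0) (XT.nd (nat_lit 78) (nat_lit 0) (nat_lit 0) (XT.lf (nat_lit 0) (nat_lit 61371828889) (nat_lit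 152) (nat_lit 207319118425) (nat_lit 0) (nat_lit 49224190692) (nat_lit 2) (nat_lit 5) (nat_lit 4) (nat_lit 4) (nat_lit 2) (nat_lit 4) (nat_lit 375) (nat_lit 300) (nat_lit 225)) (XT.lf (nat_lit 0) (nat_lit 76897256436) (nat_lit 152) (nat_lit 200774863033) (nat_lit 0) (nat_lit 64746808083) (nat_lit 2) (nat_lit 5) (nat_lit 4) (nat_lit 4) (nat_lit 2) (nat_lit 4) (nat_lit 376) (nat_lit 300) (nat_lit 224))) (XT.nd (nat_lit 78) (nat_lit 0) (nat_lit 0) (XT.lf (nat_lit 0) (nat_lit 93659601003) (nat_lit 152) (nat_lit 193717278944) (nat_lit 0) (nat_lit 81506550652) (nat_lit 2) (nat_lit 5) (nat_lit 4) (nat_lit 4) (nat_lit 2) (nat_lit 4) (nat_lit 377) (nat_lit 300) (nat_lit 223)) (XT.lf (nat_lit 0) (nat_lit 111758195000) (nat_lit 152) (nat_lit 186104543438) (nat_lit 0) (nat_lit 99602735392) (nat_lit 2) (nat_lit 5) (nat_lit 4) (nat_lit 4) (nat_lit 2) (nat_lit 4) (nat_lit 378) (nat_lit 300) (nat_lit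 222)))) (XT.nd (nat_lit 156) (nat_lit 0) (nat_lit 0) (XT.nd (nat_lit 78) (nat_lit 0) (nat_lit 0) (XT.lf (nat_lit 0) (nat_lit 131300289357) (nat_lit 152) (nat_lit 177891544007) (nat_lit 0) (nat_lit 119142598955) (nat_lit 2) (nat_lit 5) (nat_lit 4) (nat_lit 4) (nat_lit 2) (nat_lit 4) (nat_lit 379) (nat_lit 300) (nat_lit 221)) (XT.lf (nat_lit 0) (nat_lit 152401689075) (nat_lit 152) (nat_lit 169029611026) (nat_lit 0) (nat_lit 140241933124) (nat_lit 2) (nat_lit 5) (nat_lit 4) (nat_lit 4) (nat_lit 2) (nat_lit 4) (nat_lit 380) (nat_lit 300) (nat_lit 220))) (XT.nd (nat_lit 78) (nat_lit 0) (nat_lit 0) (XT.lf (nat_lit 0) (nat_lit 175187439487) (nat_lit 152) (nat_lit 159466229336) (nat_lit 0) (nat_lit 163025770990) (nat_lit 2) (nat_lit 5) (nat_lit 4) (nat_lit 4) (nat_lit 2) (nat_lit 4) (nat_lit 381) (nat_lit 300) (nat_lit 219)) (XT.nd (nat_lit 78) (nat_lit 0) (nat_lit 0) (XT.lf (nat_lit 0) (nat_lit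 199792567262) (nat_lit 152) (nat_lit 149144727046) (nat_lit 0) (nat_lit 187629127890) (nat_lit 2) (nat_lit 5) (nat_lit 4) (nat_lit 4) (nat_lit 2) (nat_lit 4) (nat_lit 382) (nat_lit 300) (nat_lit 218)) (XT.lf (nat_lit 0) (nat_lit 226362880564) (nat_lit 152) (nat_lit 138003939697) (nat_lit 0) (nat_lit 214197801492) (nat_lit 2) (nat_lit 5) (nat_lit 4) (nat_lit 4) (nat_lit 2) (nat_lit 4) (nat_lit 383) (nat_lit 300) (nat_lit 217))))))) (XT.nd (nat_lit 624) (nat_lit 76) (nat_lit 0) (XT.nd (nat_lit 312) (nat_lit 0) (nat_lit 0) (XT.nd (nat_lit 156) (nat_lit 0) (nat_lit 0) (XT.nd (nat_lit 78) (nat_lit 0) (nat_lit 0) (XT.lf (nat_lit 0) (nat_lit 255055833103) (nat_lit 152) (nat_lit 125977847810) (nat_lit 0) (nat_lit 242889235790) (nat_lit 2) (nat_lit 5) (nat_lit 4) (nat_lit 4) (nat_lit 2) (nat_lit 4) (nat_lit 384) (nat_lit 300) (nat_lit 216)) (XT.lf (nat_lit 0) (nat_lit 286041457189) (nat_lit 152)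 (nat_lit 112995185653) (nat_lit 0) (nat_lit 273873454098) (nat_lit 2) (nat_lit 5) (nat_lit 4) (nat_lit 4) (nat_lit 2) (nat_lit 4) (nat_lit 385) (nat_lit 300) (nat_lit 215))) (XT.nd (nat_lit 78) (nat_lit 0) (nat_lit 0) (XT.lf (nat_lit 0) (nat_lit 319503371335) (nat_lit 152) (nat_lit 98979018934) (nat_lit 0) (nat_lit 307334066597) (nat_lit 2) (nat_lit 5) (nat_lit 4) (nat_lit 4) (nat_lit 2) (nat_lit 4) (nat_lit 386) (nat_lit 300) (nat_lit 214)) (XT.lf (nat_lit 0) (nat_lit 355639868366) (nat_lit 152) (nat_lit 83846288887) (nat_lit 0) (nat_lit 343469358400) (nat_lit 2) (nat_lit 5) (nat_lit 4) (nat_lit 4) (nat_lit 2) (nat_lit 4) (nat_lit 387) (nat_lit 300) (nat_lit 213)))) (XT.nd (nat_lit 156) (nat_lit 0) (nat_lit 0) (XT.nd (nat_lit 78) (nat_lit 0) (nat_lit 0) (XT.lf (nat_lit 0) (nat_lit 394665090486) (nat_lit 152) (nat_lit 67507320073) (nat_lit 0) (nat_lit 382493464569) (nat_lit 2) (nat_lit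 5) (nat_lit 4) (nat_lit 4) (nat_lit 2) (nat_lit 4) (nat_lit 388) (nat_lit 300) (nat_lit 212)) (XT.lf (nat_lit 0) (nat_lit 436810298272) (nat_lit 152) (nat_lit 49865288974) (nat_lit 0) (nat_lit 424637639066) (nat_lit 2) (nat_lit 5) (nat_lit 4) (nat_lit 4) (nat_lit 2) (nat_lit 4) (nat_lit 389) (nat_lit 300) (nat_lit 211))) (XT.nd (nat_lit 78) (nat_lit 0) (nat_lit 0) (XT.lf (nat_lit 0) (nat_lit 482325241102) (nat_lit 152) (nat_lit 30815650221) (nat_lit 0) (nat_lit 470151625147) (nat_lit 2) (nat_lit 5) (nat_lit 4) (nat_lit 4) (nat_lit 2) (nat_lit 4) (nat_lit 390) (nat_lit 300) (nat_lit 210)) (XT.lf (nat_lit 0) (nat_lit 531479637157) (nat_lit 152) (nat_lit 10245517066) (nat_lit 0) (nat_lit 519305135323) (nat_lit 2) (nat_lit 5) (nat_lit 4) (nat_lit 4) (nat_lit 2) (nat_lit 4) (nat_lit 391) (nat_lit 300) (nat_lit 209))))) (XT.nd (nat_lit 312) (nat_lit 0) (nat_lit 0) (XT.nd (nat_lit 156) (nat_lit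 0) (nat_lit 0) (XT.nd (nat_lit 78) (nat_lit 0) (nat_lit 0) (XT.lf (nat_lit 0) (nat_lit 12597168988) (nat_lit 76) (nat_lit 572270564975) (nat_lit 76) (nat_lit 560095242882) (nat_lit 1) (nat_lit 4) (nat_lit 2) (nat_lit 5) (nat_lit 2) (nat_lit 4) (nat_lit 392) (nat_lit 300) (nat_lit 208)) (XT.lf (nat_lit 0) (nat_lit 37846803895) (nat_lit 76) (nat_lit 604958636093) (nat_lit 76) (nat_lit 592782554503) (nat_lit 1) (nat_lit 4) (nat_lit 2) (nat_lit 5) (nat_lit 2) (nat_lit 4) (nat_lit 393) (nat_lit 300) (nat_lit 207))) (XT.nd (nat_lit 78) (nat_lit 0) (nat_lit 0) (XT.lf (nat_lit 0) (nat_lit 65113504347) (nat_lit 76) (nat_lit 640263205261) (nat_lit 76) (nat_lit 628086420432) (nat_lit 1) (nat_lit 4) (nat_lit 2) (nat_lit 5) (nat_lit 2) (nat_lit 4) (nat_lit 394) (nat_lit 300) (nat_lit 206)) (XT.lf (nat_lit 0) (nat_lit 94558850791) (nat_lit 76) (nat_lit 678393484740) (nat_lit 76) (nat_lit 666216048763)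 (nat_lit 1) (nat_lit 4) (nat_lit 2) (nat_lit 5) (nat_lit 2) (nat_lit 4) (nat_lit 395) (nat_lit 300) (nat_lit 205)))) (XT.nd (nat_lit 156) (nat_lit 0) (nat_lit 0) (XT.nd (nat_lit 78) (nat_lit 0) (nat_lit 0) (XT.lf (nat_lit 0) (nat_lit 126357334170) (nat_lit 76) (nat_lit 719575431741) (nat_lit 76) (nat_lit 707397392850) (nat_lit 1) (nat_lit 4) (nat_lit 2) (nat_lit 5) (nat_lit 2) (nat_lit 4) (nat_lit 396) (nat_lit 300) (nat_lit 204)) (XT.lf (nat_lit 0) (nat_lit 160697389941) (nat_lit 76) (nat_lit 764053087432) (nat_lit 76) (nat_lit 751874490287) (nat_lit 1) (nat_lit 4) (nat_lit 2) (nat_lit 5) (nat_lit 2) (nat_lit 4) (nat_lit 397) (nat_lit 300) (nat_lit 203))) (XT.nd (nat_lit 78) (nat_lit 0) (nat_lit 0) (XT.lf (nat_lit 0) (nat_lit 197782514731) (nat_lit 76) (nat_lit 812090023106) (nat_lit 76) (nat_lit 799910909059) (nat_lit 1) (nat_lit 4) (nat_lit 2) (nat_lit 5) (nat_lit 2) (nat_lit 4) (nat_lit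 398) (nat_lit 300) (nat_lit 202)) (XT.nd (nat_lit 78) (nat_lit 0) (nat_lit 0) (XT.lf (nat_lit 0) (nat_lit 237832472241) (nat_lit 76) (nat_lit 863970902085) (nat_lit 76) (nat_lit 851791309426) (nat_lit 1) (nat_lit 4) (nat_lit 2) (nat_lit 5) (nat_lit 2) (nat_lit 4) (nat_lit 399) (nat_lit 300) (nat_lit 201)) (XT.lf (nat_lit 0) (nat_lit 281084595553) (nat_lit 76) (nat_lit 920003166616) (nat_lit 76) (nat_lit 907823130796) (nat_lit 1) (nat_lit 4) (nat_lit 2) (nat_lit 5) (nat_lit 2) (nat_lit 4) (nat_lit 400) (nat_lit 300) (nat_lit 200))))))))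
noncomputable def xc98 : XT := (XT.nd (nat_lit 39390) (nat_lit 0) (nat_lit 2356) (XT.nd (nat_lit 624) (nat_lit 0) (nat_lit 0) (XT.nd (nat_lit 312) (nat_lit 0) (nat_lit 0) (XT.nd (nat_lit 156) (nat_lit 0) (nat_lit 0) (XT.nd (nat_lit 78) (nat_lit 0) (nat_lit 0) (XT.lf (nat_lit 0) (nat_lit 327795193547) (nat_lit 76) (nat_lit 980518859746) (nat_lit 76) (nat_lit 968338413594) (nat_lit 1) (nat_lit 4) (nat_lit 2) (nat_lit 5) (nat_lit 2) (nat_lit 4) (nat_lit 401) (nat_lit 300) (nat_lit 199)) (XT.lf (nat_lit 0) (nat_lit 378241069766) (nat_lit 76) (nat_lit 1045876592992) (nat_lit 76) (nat_lit 1033695766901) (nat_lit 1) (nat_lit 4) (nat_lit 2) (nat_lit 5) (nat_lit 2) (nat_lit 4) (nat_lit 402) (nat_lit 300) (nat_lit 198))) (XT.nd (nat_lit 78) (nat_lit 0) (nat_lit 0) (XT.lf (nat_lit 0) (nat_lit 432721162736) (nat_lit 76) (nat_lit 1116463671439) (nat_lit 76) (nat_lit 1104282493554) (nat_lit 1) (nat_lit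 4) (nat_lit 2) (nat_lit 5) (nat_lit 2) (nat_lit 4) (nat_lit 403) (nat_lit 300) (nat_lit 197)) (XT.lf (nat_lit 0) (nat_lit 491558317451) (nat_lit 76) (nat_lit 1192698388885) (nat_lit 76) (nat_lit 1180516885264) (nat_lit 1) (nat_lit 4) (nat_lit 2) (nat_lit 5) (nat_lit 2) (nat_lit 4) (nat_lit 404) (nat_lit 300) (nat_lit 196)))) (XT.nd (nat_lit 156) (nat_lit 0) (nat_lit 0) (XT.nd (nat_lit 78) (nat_lit 0) (nat_lit 0) (XT.lf (nat_lit 0) (nat_lit 555101198534) (nat_lit 76) (nat_lit 1275032506619) (nat_lit 76) (nat_lit 1262850701391) (nat_lit 1) (nat_lit 4) (nat_lit 2) (nat_lit 5) (nat_lit 2) (nat_lit 4) (nat_lit 405) (nat_lit 300) (nat_lit 195)) (XT.lf (nat_lit 0) (nat_lit 623726356389) (nat_lit 76) (nat_lit 1363953930524) (nat_lit 76) (nat_lit 1351771846029) (nat_lit 1) (nat_lit 4) (nat_lit 2) (nat_lit 5) (nat_lit 2) (nat_lit 4) (nat_lit 406) (nat_lit 300) (nat_lit 194))) (XT.nd (nat_lit 78)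 (nat_lit 0) (nat_lit 0) (XT.lf (nat_lit 0) (nat_lit 697840458619) (nat_lit 76) (nat_lit 1459989602370) (nat_lit 76) (nat_lit 1447807259296) (nat_lit 1) (nat_lit 4) (nat_lit 2) (nat_lit 5) (nat_lit 2) (nat_lit 4) (nat_lit 407) (nat_lit 300) (nat_lit 193)) (XT.lf (nat_lit 0) (nat_lit 777882699905) (nat_lit 76) (nat_lit 1563708622436) (nat_lit 76) (nat_lit 1551526039937) (nat_lit 1) (nat_lit 4) (nat_lit 2) (nat_lit 5) (nat_lit 2) (nat_lit 4) (nat_lit 408) (nat_lit 300) (nat_lit 192))))) (XT.nd (nat_lit 312) (nat_lit 0) (nat_lit 0) (XT.nd (nat_lit 156) (nat_lit 0) (nat_lit 0) (XT.nd (nat_lit 78) (nat_lit 0) (nat_lit 0) (XT.lf (nat_lit 0) (nat_lit 864327404638) (nat_lit 76) (nat_lit 1675725621952) (nat_lit 76) (nat_lit 1663542817762) (nat_lit 1) (nat_lit 4) (nat_lit 2) (nat_lit 5) (nat_lit 2) (nat_lit 4) (nat_lit 409) (nat_lit 300) (nat_lit 191)) (XT.lf (nat_lit 0) (nat_lit 957686837736) (nat_lit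 76) (nat_lit 1796704405358) (nat_lit 76) (nat_lit 1784521395900) (nat_lit 1) (nat_lit 4) (nat_lit 2) (nat_lit 5) (nat_lit 2) (nat_lit 4) (nat_lit 410) (nat_lit 300) (nat_lit 190))) (XT.nd (nat_lit 78) (nat_lit 0) (nat_lit 0) (XT.lf (nat_lit 0) (nat_lit 1058514240284) (nat_lit 76) (nat_lit 1927361883965) (nat_lit 76) (nat_lit 1915178684443) (nat_lit 1) (nat_lit 4) (nat_lit 2) (nat_lit 5) (nat_lit 2) (nat_lit 4) (nat_lit 411) (nat_lit 300) (nat_lit 189)) (XT.lf (nat_lit 0) (nat_lit 1167407108001) (nat_lit 76) (nat_lit 2068472324312) (nat_lit 76) (nat_lit 2056288948805) (nat_lit 1) (nat_lit 4) (nat_lit 2) (nat_lit 5) (nat_lit 2) (nat_lit 4) (nat_lit 412) (nat_lit 300) (nat_lit 188)))) (XT.nd (nat_lit 38220) (nat_lit 0) (nat_lit 5320) (XT.nd (nat_lit 38142) (nat_lit 0) (nat_lit 5776) (XT.lf (nat_lit 0) (nat_lit 1285010731954) (nat_lit 76) (nat_lit 2220871936416) (nat_lit 76) (nat_lit 2208688397960)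 (nat_lit 1) (nat_lit 4) (nat_lit 2) (nat_lit 5) (nat_lit 2) (nat_lit 4) (nat_lit 413) (nat_lit 300) (nat_lit 187)) (XT.lf (nat_lit 0) (nat_lit 1470799771) (nat_lit 0) (nat_lit 1470799771) (nat_lit 76) (nat_lit 292432779) (nat_lit 77) (nat_lit 5) (nat_lit 77) (nat_lit 3) (nat_lit 78) (nat_lit 0) (nat_lit 301) (nat_lit 301) (nat_lit 298))) (XT.nd (nat_lit 78) (nat_lit 228) (nat_lit 0) (XT.lf (nat_lit 0) (nat_lit 2081362553) (nat_lit 228) (nat_lit 409566396) (nat_lit 228) (nat_lit 4016514291) (nat_lit 74) (nat_lit 3) (nat_lit 77) (nat_lit 3) (nat_lit 77) (nat_lit 5) (nat_lit 302) (nat_lit 301) (nat_lit 297)) (XT.nd (nat_lit 78) (nat_lit 228) (nat_lit 0) (XT.lf (nat_lit 76) (nat_lit 2944746301) (nat_lit 0) (nat_lit 1789318484) (nat_lit 228) (nat_lit 1831088373) (nat_lit 75) (nat_lit 5) (nat_lit 74) (nat_lit 3) (nat_lit 77) (nat_lit 5) (nat_lit 303) (nat_lit 301) (nat_lit 296)) (XT.lf (nat_lit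 0) (nat_lit 677506215) (nat_lit 228) (nat_lit 214145371) (nat_lit 304) (nat_lit 5754258212) (nat_lit 71) (nat_lit 5) (nat_lit 74) (nat_lit 3) (nat_lit 75) (nat_lit 5) (nat_lit 304) (nat_lit 301) (nat_lit 295))))))) (XT.nd (nat_lit 624) (nat_lit 1520) (nat_lit 0) (XT.nd (nat_lit 312) (nat_lit 912) (nat_lit 0) (XT.nd (nat_lit 156) (nat_lit 380) (nat_lit 0) (XT.nd (nat_lit 78) (nat_lit 228) (nat_lit 0) (XT.lf (nat_lit 0) (nat_lit 3140424438) (nat_lit 228) (nat_lit 3303571460) (nat_lit 76) (nat_lit 297739015) (nat_lit 72) (nat_lit 5) (nat_lit 75) (nat_lit 5) (nat_lit 73) (nat_lit 5) (nat_lit 305) (nat_lit 301) (nat_lit 294)) (XT.lf (nat_lit 0) (nat_lit 386071284) (nat_lit 228) (nat_lit 5231183285) (nat_lit 304) (nat_lit 1243193222) (nat_lit 69) (nat_lit 5) (nat_lit 72) (nat_lit 5) (nat_lit 73) (nat_lit 5) (nat_lit 306) (nat_lit 301) (nat_lit 293))) (XT.nd (nat_lit 78) (nat_lit 304) (nat_lit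 0) (XT.lf (nat_lit 0) (nat_lit 1116194109) (nat_lit 304) (nat_lit 2624126698) (nat_lit 76) (nat_lit 3256092781) (nat_lit 68) (nat_lit 5) (nat_lit 72) (nat_lit 5) (nat_lit 69) (nat_lit 5) (nat_lit 307) (nat_lit 301) (nat_lit 292)) (XT.lf (nat_lit 0) (nat_lit 1417423911) (nat_lit 304) (nat_lit 2014906115) (nat_lit 380) (nat_lit 3721984474) (nat_lit 64) (nat_lit 5) (nat_lit 68) (nat_lit 5) (nat_lit 69) (nat_lit 5) (nat_lit 308) (nat_lit 301) (nat_lit 291)))) (XT.nd (nat_lit 156) (nat_lit 456) (nat_lit 0) (XT.nd (nat_lit 78) (nat_lit 456) (nat_lit 0) (XT.lf (nat_lit 0) (nat_lit 5780133744) (nat_lit 304) (nat_lit 37538704) (nat_lit 380) (nat_lit 1516882247) (nat_lit 64) (nat_lit 5) (nat_lit 68) (nat_lit 5) (nat_lit 69) (nat_lit 5) (nat_lit 309) (nat_lit 301) (nat_lit 290)) (XT.lf (nat_lit 0) (nat_lit 766777428) (nat_lit 456) (nat_lit 4651182687) (nat_lit 76) (nat_lit 2114318802) (nat_lit 58)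 (nat_lit 5) (nat_lit 64) (nat_lit 5) (nat_lit 59) (nat_lit 5) (nat_lit 310) (nat_lit 301) (nat_lit 289))) (XT.nd (nat_lit 78) (nat_lit 456) (nat_lit 0) (XT.lf (nat_lit 0) (nat_lit 3027232697) (nat_lit 456) (nat_lit 184620257) (nat_lit 76) (nat_lit 4541065627) (nat_lit 58) (nat_lit 5) (nat_lit 64) (nat_lit 5) (nat_lit 59) (nat_lit 5) (nat_lit 311) (nat_lit 301) (nat_lit 288)) (XT.lf (nat_lit 0) (nat_lit 4727051160) (nat_lit 456) (nat_lit 699116598) (nat_lit 532) (nat_lit 2568739239) (nat_lit 52) (nat_lit 5) (nat_lit 58) (nat_lit 5) (nat_lit 59) (nat_lit 5) (nat_lit 312) (nat_lit 301) (nat_lit 287))))) (XT.nd (nat_lit 312) (nat_lit 684) (nat_lit 0) (XT.nd (nat_lit 156) (nat_lit 456) (nat_lit 0) (XT.nd (nat_lit 78) (nat_lit 76) (nat_lit 0) (XT.lf (nat_lit 0) (nat_lit 1663838693) (nat_lit 304) (nat_lit 6298929814) (nat_lit 380) (nat_lit 298112068) (nat_lit 48) (nat_lit 5) (nat_lit 52) (nat_lit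 5) (nat_lit 53) (nat_lit 5) (nat_lit 313) (nat_lit 301) (nat_lit 286)) (XT.lf (nat_lit 0) (nat_lit 2011706258) (nat_lit 380) (nat_lit 1598350312) (nat_lit 76) (nat_lit 4936952099) (nat_lit 47) (nat_lit 5) (nat_lit 52) (nat_lit 5) (nat_lit 48) (nat_lit 5) (nat_lit 314) (nat_lit 301) (nat_lit 285))) (XT.nd (nat_lit 78) (nat_lit 228) (nat_lit 0) (XT.lf (nat_lit 0) (nat_lit 3835281694) (nat_lit 228) (nat_lit 613339381) (nat_lit 304) (nat_lit 4410340299) (nat_lit 44) (nat_lit 5) (nat_lit 47) (nat_lit 5) (nat_lit 48) (nat_lit 5) (nat_lit 315) (nat_lit 301) (nat_lit 284)) (XT.lf (nat_lit 0) (nat_lit 402791365) (nat_lit 228) (nat_lit 6667474005) (nat_lit 304) (nat_lit 2126633157) (nat_lit 41) (nat_lit 5) (nat_lit 44) (nat_lit 5) (nat_lit 45) (nat_lit 5) (nat_lit 316) (nat_lit 301) (nat_lit 283)))) (XT.nd (nat_lit 156) (nat_lit 456) (nat_lit 0) (XT.nd (nat_lit 78) (nat_lit 152) (nat_lit 0) (XT.lf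 (nat_lit 0) (nat_lit 354270660) (nat_lit 304) (nat_lit 3187588181) (nat_lit 76) (nat_lit 6017018675) (nat_lit 40) (nat_lit 5) (nat_lit 44) (nat_lit 5) (nat_lit 41) (nat_lit 5) (nat_lit 317) (nat_lit 301) (nat_lit 282)) (XT.lf (nat_lit 0) (nat_lit 2806187158) (nat_lit 152) (nat_lit 63982761) (nat_lit 228) (nat_lit 7079279573) (nat_lit 38) (nat_lit 5) (nat_lit 40) (nat_lit 5) (nat_lit 41) (nat_lit 5) (nat_lit 318) (nat_lit 301) (nat_lit 281))) (XT.nd (nat_lit 78) (nat_lit 456) (nat_lit 0) (XT.lf (nat_lit 0) (nat_lit 5653883979) (nat_lit 228) (nat_lit 1145569630) (nat_lit 76) (nat_lit 3566644790) (nat_lit 38) (nat_lit 5) (nat_lit 41) (nat_lit 5) (nat_lit 39) (nat_lit 5) (nat_lit 319) (nat_lit 301) (nat_lit 280)) (XT.nd (nat_lit 78) (nat_lit 228) (nat_lit 0) (XT.lf (nat_lit 0) (nat_lit 5463820479) (nat_lit 228) (nat_lit 3226142647) (nat_lit 304) (nat_lit 2123885805) (nat_lit 35) (nat_lit 5)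 (nat_lit 38) (nat_lit 5) (nat_lit 39) (nat_lit 5) (nat_lit 320) (nat_lit 301) (nat_lit 279)) (XT.lf (nat_lit 0) (nat_lit 615375253) (nat_lit 228) (nat_lit 10038256127) (nat_lit 76) (nat_lit 644422249) (nat_lit 32) (nat_lit 5) (nat_lit 35) (nat_lit 5) (nat_lit 33) (nat_lit 5) (nat_lit 321) (nat_lit 301) (nat_lit 278))))))))
noncomputable def xc99 : XT := (XT.nd (nat_lit 1326) (nat_lit 608) (nat_lit 0) (XT.nd (nat_lit 624) (nat_lit 608) (nat_lit 0) (XT.nd (nat_lit 312) (nat_lit 304) (nat_lit 0) (XT.nd (nat_lit 156) (nat_lit 228) (nat_lit 0) (XT.nd (nat_lit 78) (nat_lit 152) (nat_lit 0) (XT.lf (nat_lit 0) (nat_lit 3594427928) (nat_lit 228) (nat_lit 3394450706) (nat_lit 76) (nat_lit 4816984778) (nat_lit 32) (nat_lit 5) (nat_lit 35) (nat_lit 5) (nat_lit 33) (nat_lit 5) (nat_lit 322) (nat_lit 301) (nat_lit 277)) (XT.lf (nat_lit 0) (nat_lit 3838557586) (nat_lit 152) (nat_lit 2974380464) (nat_lit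 228) (nat_lit 5541374489) (nat_lit 30) (nat_lit 5) (nat_lit 32) (nat_lit 5) (nat_lit 33) (nat_lit 5) (nat_lit 323) (nat_lit 301) (nat_lit 276))) (XT.nd (nat_lit 78) (nat_lit 228) (nat_lit 0) (XT.lf (nat_lit 0) (nat_lit 10328267856) (nat_lit 228) (nat_lit 1268092741) (nat_lit 76) (nat_lit 1347227315) (nat_lit 30) (nat_lit 5) (nat_lit 33) (nat_lit 5) (nat_lit 31) (nat_lit 4) (nat_lit 324) (nat_lit 301) (nat_lit 275)) (XT.lf (nat_lit 0) (nat_lit 677627102) (nat_lit 228) (nat_lit 6894814675) (nat_lit 76) (nat_lit 5993793839) (nat_lit 27) (nat_lit 5) (nat_lit 30) (nat_lit 5) (nat_lit 28) (nat_lit 5) (nat_lit 325) (nat_lit 301) (nat_lit 274)))) (XT.nd (nat_lit 156) (nat_lit 152) (nat_lit 0) (XT.nd (nat_lit 78) (nat_lit 0) (nat_lit 0) (XT.lf (nat_lit 0) (nat_lit 932117664) (nat_lit 152) (nat_lit 3137505788) (nat_lit 228) (nat_lit 10165561902) (nat_lit 25) (nat_lit 5) (nat_lit 27) (nat_lit 5)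 (nat_lit 28) (nat_lit 5) (nat_lit 326) (nat_lit 301) (nat_lit 273)) (XT.lf (nat_lit 0) (nat_lit 7886931380) (nat_lit 228) (nat_lit 5339810832) (nat_lit 76) (nat_lit 1718664320) (nat_lit 25) (nat_lit 5) (nat_lit 28) (nat_lit 5) (nat_lit 26) (nat_lit 4) (nat_lit 327) (nat_lit 301) (nat_lit 272))) (XT.nd (nat_lit 78) (nat_lit 76) (nat_lit 0) (XT.lf (nat_lit 0) (nat_lit 3219776099) (nat_lit 76) (nat_lit 8875446482) (nat_lit 152) (nat_lit 3610441239) (nat_lit 24) (nat_lit 5) (nat_lit 25) (nat_lit 5) (nat_lit 26) (nat_lit 4) (nat_lit 328) (nat_lit 301) (nat_lit 271)) (XT.lf (nat_lit 0) (nat_lit 184938959) (nat_lit 152) (nat_lit 3874910254) (nat_lit 76) (nat_lit 12460556829) (nat_lit 23) (nat_lit 5) (nat_lit 25) (nat_lit 5) (nat_lit 24) (nat_lit 5) (nat_lit 329) (nat_lit 301) (nat_lit 270))))) (XT.nd (nat_lit 312) (nat_lit 380) (nat_lit 0) (XT.nd (nat_lit 156) (nat_lit 76) (nat_lit 0) (XT.nd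 (nat_lit 78) (nat_lit 0) (nat_lit 0) (XT.lf (nat_lit 0) (nat_lit 4186011480) (nat_lit 228) (nat_lit 11926088454) (nat_lit 76) (nat_lit 1273008568) (nat_lit 21) (nat_lit 5) (nat_lit 24) (nat_lit 5) (nat_lit 22) (nat_lit 4) (nat_lit 330) (nat_lit 301) (nat_lit 269)) (XT.lf (nat_lit 0) (nat_lit 8655366308) (nat_lit 228) (nat_lit 2772175387) (nat_lit 76) (nat_lit 6879638480) (nat_lit 21) (nat_lit 5) (nat_lit 24) (nat_lit 5) (nat_lit 22) (nat_lit 4) (nat_lit 331) (nat_lit 301) (nat_lit 268))) (XT.nd (nat_lit 78) (nat_lit 0) (nat_lit 0) (XT.lf (nat_lit 0) (nat_lit 7378041499) (nat_lit 76) (nat_lit 6220602591) (nat_lit 152) (nat_lit 5695108652) (nat_lit 20) (nat_lit 5) (nat_lit 21) (nat_lit 5) (nat_lit 22) (nat_lit 4) (nat_lit 332) (nat_lit 301) (nat_lit 267)) (XT.lf (nat_lit 0) (nat_lit 18395503541) (nat_lit 76) (nat_lit 558669354) (nat_lit 152) (nat_lit 1403776901) (nat_lit 20) (nat_lit 5)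 (nat_lit 21) (nat_lit 5) (nat_lit 22) (nat_lit 4) (nat_lit 333) (nat_lit 301) (nat_lit 266)))) (XT.nd (nat_lit 156) (nat_lit 228) (nat_lit 0) (XT.nd (nat_lit 78) (nat_lit 0) (nat_lit 0) (XT.lf (nat_lit 0) (nat_lit 3371466438) (nat_lit 152) (nat_lit 12563436948) (nat_lit 76) (nat_lit 5542020801) (nat_lit 18) (nat_lit 5) (nat_lit 20) (nat_lit 5) (nat_lit 19) (nat_lit 4) (nat_lit 334) (nat_lit 301) (nat_lit 265)) (XT.lf (nat_lit 0) (nat_lit 8467230524) (nat_lit 152) (nat_lit 2061125248) (nat_lit 76) (nat_lit 12153029655) (nat_lit 18) (nat_lit 5) (nat_lit 20) (nat_lit 5) (nat_lit 19) (nat_lit 4) (nat_lit 335) (nat_lit 301) (nat_lit 264))) (XT.nd (nat_lit 78) (nat_lit 152) (nat_lit 0) (XT.lf (nat_lit 0) (nat_lit 9673875194) (nat_lit 76) (nat_lit 4478308176) (nat_lit 152) (nat_lit 9815528695) (nat_lit 17) (nat_lit 5) (nat_lit 18) (nat_lit 5) (nat_lit 19) (nat_lit 4) (nat_lit 336) (nat_lit 301)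 (nat_lit 263)) (XT.nd (nat_lit 78) (nat_lit 152) (nat_lit 0) (XT.lf (nat_lit 0) (nat_lit 20348753768) (nat_lit 152) (nat_lit 3030589609) (nat_lit 0) (nat_lit 1973084191) (nat_lit 17) (nat_lit 5) (nat_lit 19) (nat_lit 4) (nat_lit 17) (nat_lit 4) (nat_lit 337) (nat_lit 301) (nat_lit 262)) (XT.lf (nat_lit 0) (nat_lit 486871611) (nat_lit 152) (nat_lit 17434184552) (nat_lit 76) (nat_lit 8902244687) (nat_lit 15) (nat_lit 5) (nat_lit 17) (nat_lit 5) (nat_lit 16) (nat_lit 4) (nat_lit 338) (nat_lit 301) (nat_lit 261))))))) (XT.nd (nat_lit 702) (nat_lit 304) (nat_lit 0) (XT.nd (nat_lit 312) (nat_lit 152) (nat_lit 0) (XT.nd (nat_lit 156) (nat_lit 76) (nat_lit 0) (XT.nd (nat_lit 78) (nat_lit 76) (nat_lit 0) (XT.lf (nat_lit 0) (nat_lit 6184905634) (nat_lit 152) (nat_lit 5648207048) (nat_lit 76) (nat_lit 16565270776) (nat_lit 15) (nat_lit 5) (nat_lit 17) (nat_lit 5) (nat_lit 16) (nat_lit 4) (nat_lit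 339) (nat_lit 301) (nat_lit 260)) (XT.lf (nat_lit 0) (nat_lit 7370045611) (nat_lit 76) (nat_lit 5102985974) (nat_lit 152) (nat_lit 17615722057) (nat_lit 14) (nat_lit 5) (nat_lit 15) (nat_lit 5) (nat_lit 16) (nat_lit 4) (nat_lit 340) (nat_lit 301) (nat_lit 259))) (XT.nd (nat_lit 78) (nat_lit 76) (nat_lit 0) (XT.lf (nat_lit 0) (nat_lit 19432202340) (nat_lit 152) (nat_lit 10286887088) (nat_lit 0) (nat_lit 2181843788) (nat_lit 14) (nat_lit 5) (nat_lit 16) (nat_lit 4) (nat_lit 14) (nat_lit 4) (nat_lit 341) (nat_lit 301) (nat_lit 258)) (XT.lf (nat_lit 0) (nat_lit 3087521375) (nat_lit 76) (nat_lit 24028005771) (nat_lit 76) (nat_lit 6729184301) (nat_lit 13) (nat_lit 4) (nat_lit 14) (nat_lit 5) (nat_lit 14) (nat_lit 4) (nat_lit 342) (nat_lit 301) (nat_lit 257)))) (XT.nd (nat_lit 156) (nat_lit 76) (nat_lit 0) (XT.nd (nat_lit 78) (nat_lit 76) (nat_lit 0) (XT.lf (nat_lit 0) (nat_lit 18044913469) (nat_lit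 76) (nat_lit 17611672095) (nat_lit 76) (nat_lit 267977552) (nat_lit 13) (nat_lit 4) (nat_lit 14) (nat_lit 5) (nat_lit 14) (nat_lit 4) (nat_lit 343) (nat_lit 301) (nat_lit 256)) (XT.lf (nat_lit 0) (nat_lit 6338160003) (nat_lit 152) (nat_lit 4201870875) (nat_lit 76) (nat_lit 27620779818) (nat_lit 12) (nat_lit 5) (nat_lit 14) (nat_lit 5) (nat_lit 13) (nat_lit 4) (nat_lit 344) (nat_lit 301) (nat_lit 255))) (XT.nd (nat_lit 78) (nat_lit 0) (nat_lit 0) (XT.lf (nat_lit 0) (nat_lit 11052557700) (nat_lit 76) (nat_lit 2637958074) (nat_lit 152) (nat_lit 26866322249) (nat_lit 11) (nat_lit 5) (nat_lit 12) (nat_lit 5) (nat_lit 13) (nat_lit 4) (nat_lit 345) (nat_lit 301) (nat_lit 254)) (XT.nd (nat_lit 78) (nat_lit 0) (nat_lit 0) (XT.lf (nat_lit 0) (nat_lit 21857423553) (nat_lit 152) (nat_lit 15577656135) (nat_lit 0) (nat_lit 5691370959) (nat_lit 11) (nat_lit 5) (nat_lit 13) (nat_lit 4) (nat_lit 11) (nat_lit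 4) (nat_lit 346) (nat_lit 301) (nat_lit 253)) (XT.lf (nat_lit 0) (nat_lit 30715357156) (nat_lit 152) (nat_lit 664507860) (nat_lit 0) (nat_lit 14518764702) (nat_lit 11) (nat_lit 5) (nat_lit 13) (nat_lit 4) (nat_lit 11) (nat_lit 4) (nat_lit 347) (nat_lit 301) (nat_lit 252)))))) (XT.nd (nat_lit 312) (nat_lit 76) (nat_lit 0) (XT.nd (nat_lit 156) (nat_lit 152) (nat_lit 0) (XT.nd (nat_lit 78) (nat_lit 0) (nat_lit 0) (XT.lf (nat_lit 0) (nat_lit 16197232856) (nat_lit 76) (nat_lit 24445676070) (nat_lit 76) (nat_lit 8220805969) (nat_lit 10) (nat_lit 4) (nat_lit 11) (nat_lit 5) (nat_lit 11) (nat_lit 4) (nat_lit 348) (nat_lit 301) (nat_lit 251)) (XT.lf (nat_lit 0) (nat_lit 34392378451) (nat_lit 76) (nat_lit 16962727948) (nat_lit 76) (nat_lit 711674841) (nat_lit 10) (nat_lit 4) (nat_lit 11) (nat_lit 5) (nat_lit 11) (nat_lit 4) (nat_lit 349) (nat_lit 301) (nat_lit 250))) (XT.nd (nat_lit 78) (nat_lit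 76) (nat_lit 0) (XT.lf (nat_lit 0) (nat_lit 7001750766) (nat_lit 152) (nat_lit 1711655039) (nat_lit 76) (nat_lit 46800569164) (nat_lit 9) (nat_lit 5) (nat_lit 11) (nat_lit 5) (nat_lit 10) (nat_lit 4) (nat_lit 350) (nat_lit 301) (nat_lit 249)) (XT.lf (nat_lit 0) (nat_lit 15675677690) (nat_lit 152) (nat_lit 42944071619) (nat_lit 0) (nat_lit 585173671) (nat_lit 8) (nat_lit 5) (nat_lit 10) (nat_lit 4) (nat_lit 8) (nat_lit 4) (nat_lit 351) (nat_lit 301) (nat_lit 248)))) (XT.nd (nat_lit 156) (nat_lit 76) (nat_lit 0) (XT.nd (nat_lit 78) (nat_lit 0) (nat_lit 0) (XT.lf (nat_lit 0) (nat_lit 25293632283) (nat_lit 152) (nat_lit 27693629614) (nat_lit 0) (nat_lit 10183882972) (nat_lit 8) (nat_lit 5) (nat_lit 10) (nat_lit 4) (nat_lit 8) (nat_lit 4) (nat_lit 352) (nat_lit 301) (nat_lit 247)) (XT.lf (nat_lit 0) (nat_lit 35658593638) (nat_lit 152) (nat_lit 11266847215) (nat_lit 0) (nat_lit 20531024613)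 (nat_lit 8) (nat_lit 5) (nat_lit 10) (nat_lit 4) (nat_lit 8) (nat_lit 4) (nat_lit 353) (nat_lit 301) (nat_lit 246))) (XT.nd (nat_lit 78) (nat_lit 0) (nat_lit 0) (XT.lf (nat_lit 0) (nat_lit 6772402472) (nat_lit 76) (nat_lit 40222457719) (nat_lit 76) (nat_lit 25078388959) (nat_lit 7) (nat_lit 4) (nat_lit 8) (nat_lit 5) (nat_lit 8) (nat_lit 4) (nat_lit 354) (nat_lit 301) (nat_lit 245)) (XT.nd (nat_lit 78) (nat_lit 0) (nat_lit 0) (XT.lf (nat_lit 0) (nat_lit 26856113677) (nat_lit 76) (nat_lit 32669791800) (nat_lit 76) (nat_lit 17510445507) (nat_lit 7) (nat_lit 4) (nat_lit 8) (nat_lit 5) (nat_lit 8) (nat_lit 4) (nat_lit 355) (nat_lit 301) (nat_lit 244)) (XT.lf (nat_lit 0) (nat_lit 48510008777) (nat_lit 76) (nat_lit 24530742127) (nat_lit 76) (nat_lit 9357249970) (nat_lit 7) (nat_lit 4) (nat_lit 8) (nat_lit 5) (nat_lit 8) (nat_lit 4) (nat_lit 356) (nat_lit 301) (nat_lit 243))))))))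
noncomputable def xc100 : XT := (XT.nd (nat_lit 1326) (nat_lit 0) (nat_lit 0) (XT.nd (nat_lit 624) (nat_lit 152) (nat_lit 0) (XT.nd (nat_lit 312) (nat_lit 76) (nat_lit 0) (XT.nd (nat_lit 156) (nat_lit 0) (nat_lit 0) (XT.nd (nat_lit 78) (nat_lit 152) (nat_lit 0) (XT.lf (nat_lit 0) (nat_lit 71862407151) (nat_lit 76) (nat_lit 15757077295) (nat_lit 76) (nat_lit 570487115) (nat_lit 7) (nat_lit 4) (nat_lit 8) (nat_lit 5) (nat_lit 8) (nat_lit 4) (nat_lit 357) (nat_lit 301) (nat_lit 242)) (XT.lf (nat_lit 0) (nat_lit 2516923013) (nat_lit 76) (nat_lit 6000212078) (nat_lit 152) (nat_lit 85907480881) (nat_lit 5) (nat_lit 5) (nat_lit 6) (nat_lit 5) (nat_lit 7) (nat_lit 4) (nat_lit 358) (nat_lit 301) (nat_lit 241))) (XT.nd (nat_lit 78) (nat_lit 0) (nat_lit 0) (XT.lf (nat_lit 0) (nat_lit 18851740853) (nat_lit 152) (nat_lit 77492589702) (nat_lit 0) (nat_lit 4768456204) (nat_lit 5) (nat_lit 5) (nat_lit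 7) (nat_lit 4) (nat_lit 5) (nat_lit 4) (nat_lit 359) (nat_lit 301) (nat_lit 240)) (XT.lf (nat_lit 0) (nat_lit 30153830560) (nat_lit 152) (nat_lit 62110008498) (nat_lit 0) (nat_lit 16060918474) (nat_lit 5) (nat_lit 5) (nat_lit 7) (nat_lit 4) (nat_lit 5) (nat_lit 4) (nat_lit 360) (nat_lit 301) (nat_lit 239)))) (XT.nd (nat_lit 156) (nat_lit 76) (nat_lit 0) (XT.nd (nat_lit 78) (nat_lit 0) (nat_lit 0) (XT.lf (nat_lit 0) (nat_lit 42346074313) (nat_lit 152) (nat_lit 45524488065) (nat_lit 0) (nat_lit 28244247934) (nat_lit 5) (nat_lit 5) (nat_lit 7) (nat_lit 4) (nat_lit 5) (nat_lit 4) (nat_lit 361) (nat_lit 301) (nat_lit 238)) (XT.lf (nat_lit 0) (nat_lit 55500722447) (nat_lit 152) (nat_lit 27637743839) (nat_lit 0) (nat_lit 41390642092) (nat_lit 5) (nat_lit 5) (nat_lit 7) (nat_lit 4) (nat_lit 5) (nat_lit 4) (nat_lit 362) (nat_lit 301) (nat_lit 237))) (XT.nd (nat_lit 78) (nat_lit 76) (nat_lit 0)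 (XT.lf (nat_lit 0) (nat_lit 69695728431) (nat_lit 152) (nat_lit 8343780297) (nat_lit 0) (nat_lit 55578005506) (nat_lit 5) (nat_lit 5) (nat_lit 7) (nat_lit 4) (nat_lit 5) (nat_lit 4) (nat_lit 363) (nat_lit 301) (nat_lit 236)) (XT.lf (nat_lit 0) (nat_lit 13128476734) (nat_lit 76) (nat_lit 72202474266) (nat_lit 76) (nat_lit 58077674887) (nat_lit 4) (nat_lit 4) (nat_lit 5) (nat_lit 5) (nat_lit 5) (nat_lit 4) (nat_lit 364) (nat_lit 301) (nat_lit 235))))) (XT.nd (nat_lit 312) (nat_lit 152) (nat_lit 0) (XT.nd (nat_lit 156) (nat_lit 0) (nat_lit 0) (XT.nd (nat_lit 78) (nat_lit 0) (nat_lit 0) (XT.lf (nat_lit 0) (nat_lit 36771625369) (nat_lit 76) (nat_lit 65662684836) (nat_lit 76) (nat_lit 51531333185) (nat_lit 4) (nat_lit 4) (nat_lit 5) (nat_lit 5) (nat_lit 5) (nat_lit 4) (nat_lit 365) (nat_lit 301) (nat_lit 234)) (XT.lf (nat_lit 0) (nat_lit 62286404468) (nat_lit 76) (nat_lit 58609519870) (nat_lit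 76) (nat_lit 44472101301) (nat_lit 4) (nat_lit 4) (nat_lit 5) (nat_lit 5) (nat_lit 5) (nat_lit 4) (nat_lit 366) (nat_lit 301) (nat_lit 233))) (XT.nd (nat_lit 78) (nat_lit 0) (nat_lit 0) (XT.lf (nat_lit 0) (nat_lit 89824012724) (nat_lit 76) (nat_lit 51001182836) (nat_lit 76) (nat_lit 36858146750) (nat_lit 4) (nat_lit 4) (nat_lit 5) (nat_lit 5) (nat_lit 5) (nat_lit 4) (nat_lit 367) (nat_lit 301) (nat_lit 232)) (XT.lf (nat_lit 0) (nat_lit 119547635962) (nat_lit 76) (nat_lit 42792587293) (nat_lit 76) (nat_lit 28644349801) (nat_lit 4) (nat_lit 4) (nat_lit 5) (nat_lit 5) (nat_lit 5) (nat_lit 4) (nat_lit 368) (nat_lit 301) (nat_lit 231)))) (XT.nd (nat_lit 156) (nat_lit 152) (nat_lit 0) (XT.nd (nat_lit 78) (nat_lit 0) (nat_lit 0) (XT.lf (nat_lit 0) (nat_lit 151633414172) (nat_lit 76) (nat_lit 33935089709) (nat_lit 76) (nat_lit 19782036102) (nat_lit 4) (nat_lit 4) (nat_lit 5) (nat_lit 5) (nat_lit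 5) (nat_lit 4) (nat_lit 369) (nat_lit 301) (nat_lit 230)) (XT.lf (nat_lit 0) (nat_lit 186271485300) (nat_lit 76) (nat_lit 24376201213) (nat_lit 76) (nat_lit 10218688239) (nat_lit 4) (nat_lit 4) (nat_lit 5) (nat_lit 5) (nat_lit 5) (nat_lit 4) (nat_lit 370) (nat_lit 301) (nat_lit 229))) (XT.nd (nat_lit 78) (nat_lit 76) (nat_lit 0) (XT.lf (nat_lit 0) (nat_lit 97244743) (nat_lit 152) (nat_lit 13959372950) (nat_lit 76) (nat_lit 223567208402) (nat_lit 3) (nat_lit 5) (nat_lit 5) (nat_lit 5) (nat_lit 4) (nat_lit 4) (nat_lit 371) (nat_lit 301) (nat_lit 228)) (XT.nd (nat_lit 78) (nat_lit 0) (nat_lit 0) (XT.lf (nat_lit 0) (nat_lit 8472563155) (nat_lit 76) (nat_lit 2411104324) (nat_lit 152) (nat_lit 244801190561) (nat_lit 2) (nat_lit 5) (nat_lit 3) (nat_lit 5) (nat_lit 4) (nat_lit 4) (nat_lit 372) (nat_lit 301) (nat_lit 227)) (XT.lf (nat_lit 0) (nat_lit 23162639212) (nat_lit 152) (nat_lit 241934573768)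 (nat_lit 0) (nat_lit 10043189960) (nat_lit 2) (nat_lit 5) (nat_lit 4) (nat_lit 4) (nat_lit 2) (nat_lit 4) (nat_lit 373) (nat_lit 301) (nat_lit 226))))))) (XT.nd (nat_lit 624) (nat_lit 0) (nat_lit 0) (XT.nd (nat_lit 312) (nat_lit 0) (nat_lit 0) (XT.nd (nat_lit 156) (nat_lit 0) (nat_lit 0) (XT.nd (nat_lit 78) (nat_lit 0) (nat_lit 0) (XT.lf (nat_lit 0) (nat_lit 36480586084) (nat_lit 152) (nat_lit 236309172014) (nat_lit 0) (nat_lit 23358101862) (nat_lit 2) (nat_lit 5) (nat_lit 4) (nat_lit 4) (nat_lit 2) (nat_lit 4) (nat_lit 374) (nat_lit 301) (nat_lit 225)) (XT.lf (nat_lit 0) (nat_lit 50858442147) (nat_lit 152) (nat_lit 230244766793) (nat_lit 0) (nat_lit 37733147768) (nat_lit 2) (nat_lit 5) (nat_lit 4) (nat_lit 4) (nat_lit 2) (nat_lit 4) (nat_lit 375) (nat_lit 301) (nat_lit 224))) (XT.nd (nat_lit 78) (nat_lit 0) (nat_lit 0) (XT.lf (nat_lit 0) (nat_lit 66381409509) (nat_lit 152) (nat_lit 223705420888)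 (nat_lit 0) (nat_lit 53253513133) (nat_lit 2) (nat_lit 5) (nat_lit 4) (nat_lit 4) (nat_lit 2) (nat_lit 4) (nat_lit 376) (nat_lit 301) (nat_lit 223)) (XT.lf (nat_lit 0) (nat_lit 83141476127) (nat_lit 152) (nat_lit 216652382621) (nat_lit 0) (nat_lit 70011170493) (nat_lit 2) (nat_lit 5) (nat_lit 4) (nat_lit 4) (nat_lit 2) (nat_lit 4) (nat_lit 377) (nat_lit 301) (nat_lit 222)))) (XT.nd (nat_lit 156) (nat_lit 0) (nat_lit 0) (XT.nd (nat_lit 78) (nat_lit 0) (nat_lit 0) (XT.lf (nat_lit 0) (nat_lit 101237960912) (nat_lit 152) (nat_lit 209043856209) (nat_lit 0) (nat_lit 88105424485) (nat_lit 2) (nat_lit 5) (nat_lit 4) (nat_lit 4) (nat_lit 2) (nat_lit 4) (nat_lit 378) (nat_lit 301) (nat_lit 221)) (XT.lf (nat_lit 0) (nat_lit 120778102294) (nat_lit 152) (nat_lit 200834754088) (nat_lit 0) (nat_lit 107643500318) (nat_lit 2) (nat_lit 5) (nat_lit 4) (nat_lit 4) (nat_lit 2) (nat_lit 4) (nat_lit 379) (nat_lit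 301) (nat_lit 220))) (XT.nd (nat_lit 78) (nat_lit 0) (nat_lit 0) (XT.lf (nat_lit 0) (nat_lit 141877693703) (nat_lit 152) (nat_lit 191976429727) (nat_lit 0) (nat_lit 128741179181) (nat_lit 2) (nat_lit 5) (nat_lit 4) (nat_lit 4) (nat_lit 2) (nat_lit 4) (nat_lit 380) (nat_lit 301) (nat_lit 219)) (XT.lf (nat_lit 0) (nat_lit 164661769754) (nat_lit 152) (nat_lit 182416389352) (nat_lit 0) (nat_lit 151523484357) (nat_lit 2) (nat_lit 5) (nat_lit 4) (nat_lit 4) (nat_lit 2) (nat_lit 4) (nat_lit 381) (nat_lit 301) (nat_lit 218))))) (XT.nd (nat_lit 312) (nat_lit 0) (nat_lit 0) (XT.nd (nat_lit 156) (nat_lit 0) (nat_lit 0) (XT.nd (nat_lit 78) (nat_lit 0) (nat_lit 0) (XT.lf (nat_lit 0) (nat_lit 189265347195) (nat_lit 152) (nat_lit 172097980872) (nat_lit 0) (nat_lit 176125422098) (nat_lit 2) (nat_lit 5) (nat_lit 4) (nat_lit 4) (nat_lit 2) (nat_lit 4) (nat_lit 382) (nat_lit 301) (nat_lit 217)) (XT.lf (nat_lit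 0) (nat_lit 215834225004) (nat_lit 152) (nat_lit 160960058162) (nat_lit 0) (nat_lit 202692781666) (nat_lit 2) (nat_lit 5) (nat_lit 4) (nat_lit 4) (nat_lit 2) (nat_lit 4) (nat_lit 383) (nat_lit 301) (nat_lit 216))) (XT.nd (nat_lit 78) (nat_lit 0) (nat_lit 0) (XT.lf (nat_lit 0) (nat_lit 244525848381) (nat_lit 152) (nat_lit 148936618718) (nat_lit 0) (nat_lit 231382999264) (nat_lit 2) (nat_lit 5) (nat_lit 4) (nat_lit 4) (nat_lit 2) (nat_lit 4) (nat_lit 384) (nat_lit 301) (nat_lit 215)) (XT.lf (nat_lit 0) (nat_lit 275510241761) (nat_lit 152) (nat_lit 135956412528) (nat_lit 0) (nat_lit 262366090999) (nat_lit 2) (nat_lit 5) (nat_lit 4) (nat_lit 4) (nat_lit 2) (nat_lit 4) (nat_lit 385) (nat_lit 301) (nat_lit 214)))) (XT.nd (nat_lit 156) (nat_lit 0) (nat_lit 0) (XT.nd (nat_lit 78) (nat_lit 0) (nat_lit 0) (XT.lf (nat_lit 0) (nat_lit 308971016366) (nat_lit 152) (nat_lit 121942519852) (nat_lit 0)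 (nat_lit 295825660375) (nat_lit 2) (nat_lit 5) (nat_lit 4) (nat_lit 4) (nat_lit 2) (nat_lit 4) (nat_lit 386) (nat_lit 301) (nat_lit 213)) (XT.lf (nat_lit 0) (nat_lit 345106458265) (nat_lit 152) (nat_lit 106811895399) (nat_lit 0) (nat_lit 331959986323) (nat_lit 2) (nat_lit 5) (nat_lit 4) (nat_lit 4) (nat_lit 2) (nat_lit 4) (nat_lit 387) (nat_lit 301) (nat_lit 212))) (XT.nd (nat_lit 78) (nat_lit 0) (nat_lit 0) (XT.lf (nat_lit 0) (nat_lit 384130703413) (nat_lit 152) (nat_lit 90474876210) (nat_lit 0) (nat_lit 370983198181) (nat_lit 2) (nat_lit 5) (nat_lit 4) (nat_lit 4) (nat_lit 2) (nat_lit 4) (nat_lit 388) (nat_lit 301) (nat_lit 211)) (XT.nd (nat_lit 78) (nat_lit 0) (nat_lit 0) (XT.lf (nat_lit 0) (nat_lit 426275006594) (nat_lit 152) (nat_lit 72834650320) (nat_lit 0) (nat_lit 413126544613) (nat_lit 2) (nat_lit 5) (nat_lit 4) (nat_lit 4) (nat_lit 2) (nat_lit 4) (nat_lit 389) (nat_lit 301) (nat_lit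 210)) (XT.lf (nat_lit 0) (nat_lit 471789111827) (nat_lit 152) (nat_lit 53786683057) (nat_lit 0) (nat_lit 458639763967) (nat_lit 2) (nat_lit 5) (nat_lit 4) (nat_lit 4) (nat_lit 2) (nat_lit 4) (nat_lit 390) (nat_lit 301) (nat_lit 209))))))))
noncomputable def xc101 : XT := (XT.nd (nat_lit 1326) (nat_lit 0) (nat_lit 0) (XT.nd (nat_lit 624) (nat_lit 0) (nat_lit 0) (XT.nd (nat_lit 312) (nat_lit 0) (nat_lit 0) (XT.nd (nat_lit 156) (nat_lit 76) (nat_lit 0) (XT.nd (nat_lit 78) (nat_lit 0) (nat_lit 0) (XT.lf (nat_lit 0) (nat_lit 520942732329) (nat_lit 152) (nat_lit 33218097576) (nat_lit 0) (nat_lit 507792564211) (nat_lit 2) (nat_lit 5) (nat_lit 4) (nat_lit 4) (nat_lit 2) (nat_lit 4) (nat_lit 391) (nat_lit 301) (nat_lit 208)) (XT.lf (nat_lit 0) (nat_lit 574027148813) (nat_lit 152) (nat_lit 11007005966) (nat_lit 0) (nat_lit 560876221197) (nat_lit 2) (nat_lit 5) (nat_lit 4) (nat_lit 4) (nat_lit 2)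 (nat_lit 4) (nat_lit 392) (nat_lit 301) (nat_lit 207))) (XT.nd (nat_lit 78) (nat_lit 0) (nat_lit 0) (XT.lf (nat_lit 0) (nat_lit 13661622758) (nat_lit 76) (nat_lit 618023875197) (nat_lit 76) (nat_lit 604872244342) (nat_lit 1) (nat_lit 4) (nat_lit 2) (nat_lit 5) (nat_lit 2) (nat_lit 4) (nat_lit 393) (nat_lit 301) (nat_lit 206)) (XT.lf (nat_lit 0) (nat_lit 40927029920) (nat_lit 76) (nat_lit 653329090893) (nat_lit 76) (nat_lit 640176808890) (nat_lit 1) (nat_lit 4) (nat_lit 2) (nat_lit 5) (nat_lit 2) (nat_lit 4) (nat_lit 394) (nat_lit 301) (nat_lit 205)))) (XT.nd (nat_lit 156) (nat_lit 0) (nat_lit 0) (XT.nd (nat_lit 78) (nat_lit 0) (nat_lit 0) (XT.lf (nat_lit 0) (nat_lit 70371178874) (nat_lit 76) (nat_lit 691459969008) (nat_lit 76) (nat_lit 678307084091) (nat_lit 1) (nat_lit 4) (nat_lit 2) (nat_lit 5) (nat_lit 2) (nat_lit 4) (nat_lit 395) (nat_lit 301) (nat_lit 204)) (XT.lf (nat_lit 0) (nat_lit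 102168553465) (nat_lit 76) (nat_lit 732642470302) (nat_lit 76) (nat_lit 719489027132) (nat_lit 1) (nat_lit 4) (nat_lit 2) (nat_lit 5) (nat_lit 2) (nat_lit 4) (nat_lit 396) (nat_lit 301) (nat_lit 203))) (XT.nd (nat_lit 78) (nat_lit 0) (nat_lit 0) (XT.lf (nat_lit 0) (nat_lit 136507582581) (nat_lit 76) (nat_lit 777120639228) (nat_lit 76) (nat_lit 763966679155) (nat_lit 1) (nat_lit 4) (nat_lit 2) (nat_lit 5) (nat_lit 2) (nat_lit 4) (nat_lit 397) (nat_lit 301) (nat_lit 202)) (XT.lf (nat_lit 0) (nat_lit 173591756763) (nat_lit 76) (nat_lit 825158050118) (nat_lit 76) (nat_lit 812003611434) (nat_lit 1) (nat_lit 4) (nat_lit 2) (nat_lit 5) (nat_lit 2) (nat_lit 4) (nat_lit 398) (nat_lit 301) (nat_lit 201))))) (XT.nd (nat_lit 312) (nat_lit 0) (nat_lit 0) (XT.nd (nat_lit 156) (nat_lit 0) (nat_lit 0) (XT.nd (nat_lit 78) (nat_lit 0) (nat_lit 0) (XT.lf (nat_lit 0) (nat_lit 213640834082) (nat_lit 76) (nat_lit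 877039369114) (nat_lit 76) (nat_lit 863884487269) (nat_lit 1) (nat_lit 4) (nat_lit 2) (nat_lit 5) (nat_lit 2) (nat_lit 4) (nat_lit 399) (nat_lit 301) (nat_lit 200)) (XT.lf (nat_lit 0) (nat_lit 256892142402) (nat_lit 76) (nat_lit 933072041066) (nat_lit 76) (nat_lit 919916748888) (nat_lit 1) (nat_lit 4) (nat_lit 2) (nat_lit 5) (nat_lit 2) (nat_lit 4) (nat_lit 400) (nat_lit 301) (nat_lit 199))) (XT.nd (nat_lit 78) (nat_lit 0) (nat_lit 0) (XT.lf (nat_lit 0) (nat_lit 303601985774) (nat_lit 76) (nat_lit 993588111439) (nat_lit 76) (nat_lit 980432439323) (nat_lit 1) (nat_lit 4) (nat_lit 2) (nat_lit 5) (nat_lit 2) (nat_lit 4) (nat_lit 401) (nat_lit 301) (nat_lit 198)) (XT.lf (nat_lit 0) (nat_lit 354047163268) (nat_lit 76) (nat_lit 1058946193984) (nat_lit 76) (nat_lit 1045790170073) (nat_lit 1) (nat_lit 4) (nat_lit 2) (nat_lit 5) (nat_lit 2) (nat_lit 4) (nat_lit 402) (nat_lit 301) (nat_lit 197))))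 (XT.nd (nat_lit 156) (nat_lit 0) (nat_lit 0) (XT.nd (nat_lit 78) (nat_lit 0) (nat_lit 0) (XT.lf (nat_lit 0) (nat_lit 408526609271) (nat_lit 76) (nat_lit 1129533595856) (nat_lit 76) (nat_lit 1116377246209) (nat_lit 1) (nat_lit 4) (nat_lit 2) (nat_lit 5) (nat_lit 2) (nat_lit 4) (nat_lit 403) (nat_lit 301) (nat_lit 196)) (XT.lf (nat_lit 0) (nat_lit 467363164943) (nat_lit 76) (nat_lit 1205768612769) (nat_lit 76) (nat_lit 1192611961515) (nat_lit 1) (nat_lit 4) (nat_lit 2) (nat_lit 5) (nat_lit 2) (nat_lit 4) (nat_lit 404) (nat_lit 301) (nat_lit 195))) (XT.nd (nat_lit 78) (nat_lit 0) (nat_lit 0) (XT.lf (nat_lit 0) (nat_lit 530905491355) (nat_lit 76) (nat_lit 1288103007787) (nat_lit 76) (nat_lit 1274946077268) (nat_lit 1) (nat_lit 4) (nat_lit 2) (nat_lit 5) (nat_lit 2) (nat_lit 4) (nat_lit 405) (nat_lit 301) (nat_lit 194)) (XT.nd (nat_lit 78) (nat_lit 0) (nat_lit 0) (XT.lf (nat_lit 0) (nat_lit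 599530135627) (nat_lit 76) (nat_lit 1377024688437) (nat_lit 76) (nat_lit 1363867499338) (nat_lit 1) (nat_lit 4) (nat_lit 2) (nat_lit 5) (nat_lit 2) (nat_lit 4) (nat_lit 406) (nat_lit 301) (nat_lit 193)) (XT.lf (nat_lit 0) (nat_lit 673643762317) (nat_lit 76) (nat_lit 1473060598010) (nat_lit 76) (nat_lit 1459903169485) (nat_lit 1) (nat_lit 4) (nat_lit 2) (nat_lit 5) (nat_lit 2) (nat_lit 4) (nat_lit 407) (nat_lit 301) (nat_lit 192))))))) (XT.nd (nat_lit 38766) (nat_lit 0) (nat_lit 3876) (XT.nd (nat_lit 312) (nat_lit 0) (nat_lit 0) (XT.nd (nat_lit 156) (nat_lit 0) (nat_lit 0) (XT.nd (nat_lit 78) (nat_lit 0) (nat_lit 0) (XT.lf (nat_lit 0) (nat_lit 753685563288) (nat_lit 76) (nat_lit 1576779838194) (nat_lit 76) (nat_lit 1563622187979) (nat_lit 1) (nat_lit 4) (nat_lit 2) (nat_lit 5) (nat_lit 2) (nat_lit 4) (nat_lit 408) (nat_lit 301) (nat_lit 191)) (XT.lf (nat_lit 0) (nat_lit 840129860322) (nat_lit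 76) (nat_lit 1688797041522) (nat_lit 76) (nat_lit 1675639186038) (nat_lit 1) (nat_lit 4) (nat_lit 2) (nat_lit 5) (nat_lit 2) (nat_lit 4) (nat_lit 409) (nat_lit 301) (nat_lit 190))) (XT.nd (nat_lit 78) (nat_lit 0) (nat_lit 0) (XT.lf (nat_lit 0) (nat_lit 933488915921) (nat_lit 76) (nat_lit 1809776013644) (nat_lit 76) (nat_lit 1796617968096) (nat_lit 1) (nat_lit 4) (nat_lit 2) (nat_lit 5) (nat_lit 2) (nat_lit 4) (nat_lit 410) (nat_lit 301) (nat_lit 189)) (XT.lf (nat_lit 0) (nat_lit 1034315968933) (nat_lit 76) (nat_lit 1940433666987) (nat_lit 76) (nat_lit 1927275445454) (nat_lit 1) (nat_lit 4) (nat_lit 2) (nat_lit 5) (nat_lit 2) (nat_lit 4) (nat_lit 411) (nat_lit 301) (nat_lit 188)))) (XT.nd (nat_lit 38298) (nat_lit 0) (nat_lit 5320) (XT.nd (nat_lit 78) (nat_lit 0) (nat_lit 0) (XT.lf (nat_lit 0) (nat_lit 1143208513005) (nat_lit 76) (nat_lit 2081544269127) (nat_lit 76) (nat_lit 2068385884645)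 (nat_lit 1) (nat_lit 4) (nat_lit 2) (nat_lit 5) (nat_lit 2) (nat_lit 4) (nat_lit 412) (nat_lit 301) (nat_lit 187)) (XT.lf (nat_lit 0) (nat_lit 1260811837287) (nat_lit 76) (nat_lit 2233944031039) (nat_lit 76) (nat_lit 2220785495679) (nat_lit 1) (nat_lit 4) (nat_lit 2) (nat_lit 5) (nat_lit 2) (nat_lit 4) (nat_lit 413) (nat_lit 301) (nat_lit 186))) (XT.nd (nat_lit 78) (nat_lit 228) (nat_lit 0) (XT.lf (nat_lit 0) (nat_lit 2295212955) (nat_lit 228) (nat_lit 491469348) (nat_lit 228) (nat_lit 491469348) (nat_lit 74) (nat_lit 3) (nat_lit 77) (nat_lit 3) (nat_lit 77) (nat_lit 5) (nat_lit 302) (nat_lit 302) (nat_lit 296)) (XT.lf (nat_lit 0) (nat_lit 459247547) (nat_lit 228) (nat_lit 4363074447) (nat_lit 304) (nat_lit 1801873306) (nat_lit 71) (nat_lit 5) (nat_lit 74) (nat_lit 3) (nat_lit 75) (nat_lit 5) (nat_lit 303) (nat_lit 302) (nat_lit 295))))) (XT.nd (nat_lit 312) (nat_lit 1140) (nat_lit 0)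 (XT.nd (nat_lit 156) (nat_lit 304) (nat_lit 0) (XT.nd (nat_lit 78) (nat_lit 0) (nat_lit 0) (XT.lf (nat_lit 0) (nat_lit 2761888394) (nat_lit 228) (nat_lit 1069672903) (nat_lit 304) (nat_lit 2879313065) (nat_lit 71) (nat_lit 5) (nat_lit 74) (nat_lit 3) (nat_lit 75) (nat_lit 5) (nat_lit 304) (nat_lit 302) (nat_lit 294)) (XT.lf (nat_lit 76) (nat_lit 2478646184) (nat_lit 0) (nat_lit 2609466014) (nat_lit 304) (nat_lit 1729797846) (nat_lit 72) (nat_lit 5) (nat_lit 71) (nat_lit 5) (nat_lit 75) (nat_lit 5) (nat_lit 305) (nat_lit 302) (nat_lit 293))) (XT.nd (nat_lit 78) (nat_lit 0) (nat_lit 76) (XT.lf (nat_lit 0) (nat_lit 450655996) (nat_lit 304) (nat_lit 717196986) (nat_lit 380) (nat_lit 5779495419) (nat_lit 67) (nat_lit 5) (nat_lit 71) (nat_lit 5) (nat_lit 72) (nat_lit 5) (nat_lit 306) (nat_lit 302) (nat_lit 292)) (XT.lf (nat_lit 0) (nat_lit 2605500520) (nat_lit 304) (nat_lit 3929534460) (nat_lit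 76) (nat_lit 557493888) (nat_lit 68) (nat_lit 5) (nat_lit 72) (nat_lit 5) (nat_lit 69) (nat_lit 5) (nat_lit 307) (nat_lit 302) (nat_lit 291)))) (XT.nd (nat_lit 156) (nat_lit 912) (nat_lit 0) (XT.nd (nat_lit 78) (nat_lit 304) (nat_lit 0) (XT.lf (nat_lit 0) (nat_lit 4798993781) (nat_lit 304) (nat_lit 28036987) (nat_lit 76) (nat_lit 2433412568) (nat_lit 68) (nat_lit 5) (nat_lit 72) (nat_lit 5) (nat_lit 69) (nat_lit 5) (nat_lit 308) (nat_lit 302) (nat_lit 290)) (XT.lf (nat_lit 0) (nat_lit 4265799194) (nat_lit 304) (nat_lit 2834212254) (nat_lit 380) (nat_lit 347605235) (nat_lit 64) (nat_lit 5) (nat_lit 68) (nat_lit 5) (nat_lit 69) (nat_lit 5) (nat_lit 309) (nat_lit 302) (nat_lit 289))) (XT.nd (nat_lit 78) (nat_lit 456) (nat_lit 0) (XT.lf (nat_lit 0) (nat_lit 1125939074) (nat_lit 380) (nat_lit 574897615) (nat_lit 456) (nat_lit 5956553056) (nat_lit 58) (nat_lit 5) (nat_lit 63) (nat_lit 5) (nat_lit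 64) (nat_lit 5) (nat_lit 310) (nat_lit 302) (nat_lit 288)) (XT.nd (nat_lit 78) (nat_lit 456) (nat_lit 0) (XT.lf (nat_lit 0) (nat_lit 3872445309) (nat_lit 456) (nat_lit 2122543790) (nat_lit 76) (nat_lit 1890296622) (nat_lit 58) (nat_lit 5) (nat_lit 64) (nat_lit 5) (nat_lit 59) (nat_lit 5) (nat_lit 311) (nat_lit 302) (nat_lit 287)) (XT.lf (nat_lit 0) (nat_lit 2617407824) (nat_lit 456) (nat_lit 3533772288) (nat_lit 532) (nat_lit 1985847622) (nat_lit 52) (nat_lit 5) (nat_lit 58) (nat_lit 5) (nat_lit 59) (nat_lit 5) (nat_lit 312) (nat_lit 302) (nat_lit 286))))))))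
noncomputable def xc102 : XT := (XT.nd (nat_lit 1326) (nat_lit 988) (nat_lit 0) (XT.nd (nat_lit 624) (nat_lit 836) (nat_lit 0) (XT.nd (nat_lit 312) (nat_lit 684) (nat_lit 0) (XT.nd (nat_lit 156) (nat_lit 228) (nat_lit 0) (XT.nd (nat_lit 78) (nat_lit 304) (nat_lit 0) (XT.lf (nat_lit 0) (nat_lit 111857343) (nat_lit 532) (nat_lit 695240783) (nat_lit 76) (nat_lit 7608167329) (nat_lit 51) (nat_lit 5) (nat_lit 58) (nat_lit 5) (nat_lit 52) (nat_lit 5) (nat_lit 313) (nat_lit 302) (nat_lit 285)) (XT.lf (nat_lit 0) (nat_lit 2304956562) (nat_lit 380) (nat_lit 4208801931) (nat_lit 76) (nat_lit 2195315208) (nat_lit 47) (nat_lit 5) (nat_lit 52) (nat_lit 5) (nat_lit 48) (nat_lit 5) (nat_lit 314) (nat_lit 302) (nat_lit 284))) (XT.nd (nat_lit 78) (nat_lit 0) (nat_lit 0) (XT.lf (nat_lit 0) (nat_lit 1017515355) (nat_lit 228) (nat_lit 3597017007) (nat_lit 304) (nat_lit 4416782288) (nat_lit 44) (nat_lit 5)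 (nat_lit 47) (nat_lit 5) (nat_lit 48) (nat_lit 5) (nat_lit 315) (nat_lit 302) (nat_lit 283)) (XT.lf (nat_lit 0) (nat_lit 6766764686) (nat_lit 228) (nat_lit 339219533) (nat_lit 304) (nat_lit 2273776611) (nat_lit 44) (nat_lit 5) (nat_lit 47) (nat_lit 5) (nat_lit 48) (nat_lit 5) (nat_lit 316) (nat_lit 302) (nat_lit 282)))) (XT.nd (nat_lit 156) (nat_lit 380) (nat_lit 0) (XT.nd (nat_lit 78) (nat_lit 0) (nat_lit 0) (XT.lf (nat_lit 0) (nat_lit 82655658) (nat_lit 304) (nat_lit 6586097527) (nat_lit 76) (nat_lit 3083896592) (nat_lit 40) (nat_lit 5) (nat_lit 44) (nat_lit 5) (nat_lit 41) (nat_lit 5) (nat_lit 317) (nat_lit 302) (nat_lit 281)) (XT.lf (nat_lit 0) (nat_lit 2479395685) (nat_lit 304) (nat_lit 797872102) (nat_lit 76) (nat_lit 6875561033) (nat_lit 40) (nat_lit 5) (nat_lit 44) (nat_lit 5) (nat_lit 41) (nat_lit 5) (nat_lit 318) (nat_lit 302) (nat_lit 280))) (XT.nd (nat_lit 78) (nat_lit 228)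 (nat_lit 0) (XT.lf (nat_lit 0) (nat_lit 5115395182) (nat_lit 228) (nat_lit 4986035681) (nat_lit 76) (nat_lit 479932851) (nat_lit 38) (nat_lit 5) (nat_lit 41) (nat_lit 5) (nat_lit 39) (nat_lit 5) (nat_lit 319) (nat_lit 302) (nat_lit 279)) (XT.lf (nat_lit 0) (nat_lit 1355622362) (nat_lit 228) (nat_lit 6651020973) (nat_lit 304) (nat_lit 3034121115) (nat_lit 35) (nat_lit 5) (nat_lit 38) (nat_lit 5) (nat_lit 39) (nat_lit 5) (nat_lit 320) (nat_lit 302) (nat_lit 278))))) (XT.nd (nat_lit 312) (nat_lit 456) (nat_lit 0) (XT.nd (nat_lit 156) (nat_lit 152) (nat_lit 0) (XT.nd (nat_lit 78) (nat_lit 228) (nat_lit 0) (XT.lf (nat_lit 0) (nat_lit 8362025305) (nat_lit 228) (nat_lit 2811811298) (nat_lit 304) (nat_lit 359631749) (nat_lit 35) (nat_lit 5) (nat_lit 38) (nat_lit 5) (nat_lit 39) (nat_lit 5) (nat_lit 321) (nat_lit 302) (nat_lit 277)) (XT.lf (nat_lit 0) (nat_lit 2443573345) (nat_lit 228) (nat_lit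 8220750768) (nat_lit 76) (nat_lit 1393203566) (nat_lit 32) (nat_lit 5) (nat_lit 35) (nat_lit 5) (nat_lit 33) (nat_lit 5) (nat_lit 322) (nat_lit 302) (nat_lit 276))) (XT.nd (nat_lit 78) (nat_lit 152) (nat_lit 0) (XT.lf (nat_lit 0) (nat_lit 5529174822) (nat_lit 228) (nat_lit 1239556902) (nat_lit 76) (nat_lit 5847924614) (nat_lit 32) (nat_lit 5) (nat_lit 35) (nat_lit 5) (nat_lit 33) (nat_lit 5) (nat_lit 323) (nat_lit 302) (nat_lit 275)) (XT.lf (nat_lit 0) (nat_lit 6510662943) (nat_lit 152) (nat_lit 2429367345) (nat_lit 228) (nat_lit 4274302738) (nat_lit 30) (nat_lit 5) (nat_lit 32) (nat_lit 5) (nat_lit 33) (nat_lit 5) (nat_lit 324) (nat_lit 302) (nat_lit 274)))) (XT.nd (nat_lit 156) (nat_lit 228) (nat_lit 0) (XT.nd (nat_lit 78) (nat_lit 76) (nat_lit 0) (XT.lf (nat_lit 0) (nat_lit 970211306) (nat_lit 152) (nat_lit 11689954812) (nat_lit 228) (nat_lit 1196828306) (nat_lit 28) (nat_lit 5) (nat_lit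 30) (nat_lit 5) (nat_lit 31) (nat_lit 4) (nat_lit 325) (nat_lit 302) (nat_lit 273)) (XT.lf (nat_lit 0) (nat_lit 2196526911) (nat_lit 228) (nat_lit 5134662730) (nat_lit 76) (nat_lit 7201772556) (nat_lit 27) (nat_lit 5) (nat_lit 30) (nat_lit 5) (nat_lit 28) (nat_lit 5) (nat_lit 326) (nat_lit 302) (nat_lit 272))) (XT.nd (nat_lit 78) (nat_lit 76) (nat_lit 0) (XT.lf (nat_lit 0) (nat_lit 3259899206) (nat_lit 152) (nat_lit 2545678041) (nat_lit 228) (nat_lit 9454298614) (nat_lit 25) (nat_lit 5) (nat_lit 27) (nat_lit 5) (nat_lit 28) (nat_lit 5) (nat_lit 327) (nat_lit 302) (nat_lit 271)) (XT.nd (nat_lit 78) (nat_lit 76) (nat_lit 0) (XT.lf (nat_lit 0) (nat_lit 9842565480) (nat_lit 228) (nat_lit 3593786058) (nat_lit 76) (nat_lit 2597515364) (nat_lit 25) (nat_lit 5) (nat_lit 28) (nat_lit 5) (nat_lit 26) (nat_lit 4) (nat_lit 328) (nat_lit 302) (nat_lit 270)) (XT.lf (nat_lit 0) (nat_lit 5595549862) (nat_lit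 76) (nat_lit 8744788261) (nat_lit 152) (nat_lit 2518469923) (nat_lit 24) (nat_lit 5) (nat_lit 25) (nat_lit 5) (nat_lit 26) (nat_lit 4) (nat_lit 329) (nat_lit 302) (nat_lit 269))))))) (XT.nd (nat_lit 624) (nat_lit 456) (nat_lit 0) (XT.nd (nat_lit 312) (nat_lit 228) (nat_lit 0) (XT.nd (nat_lit 156) (nat_lit 76) (nat_lit 0) (XT.nd (nat_lit 78) (nat_lit 152) (nat_lit 0) (XT.lf (nat_lit 0) (nat_lit 1414301739) (nat_lit 152) (nat_lit 2158706665) (nat_lit 76) (nat_lit 14170913868) (nat_lit 23) (nat_lit 5) (nat_lit 25) (nat_lit 5) (nat_lit 24) (nat_lit 5) (nat_lit 330) (nat_lit 302) (nat_lit 268)) (XT.lf (nat_lit 0) (nat_lit 5712295947) (nat_lit 228) (nat_lit 10829934597) (nat_lit 76) (nat_lit 2137493945) (nat_lit 21) (nat_lit 5) (nat_lit 24) (nat_lit 5) (nat_lit 22) (nat_lit 4) (nat_lit 331) (nat_lit 302) (nat_lit 267))) (XT.nd (nat_lit 78) (nat_lit 76) (nat_lit 0) (XT.lf (nat_lit 0) (nat_lit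 10450947046) (nat_lit 228) (nat_lit 1095578184) (nat_lit 76) (nat_lit 8136162050) (nat_lit 21) (nat_lit 5) (nat_lit 24) (nat_lit 5) (nat_lit 22) (nat_lit 4) (nat_lit 332) (nat_lit 302) (nat_lit 266)) (XT.lf (nat_lit 0) (nat_lit 9818596022) (nat_lit 76) (nat_lit 5933876138) (nat_lit 152) (nat_lit 4998751071) (nat_lit 20) (nat_lit 5) (nat_lit 21) (nat_lit 5) (nat_lit 22) (nat_lit 4) (nat_lit 333) (nat_lit 302) (nat_lit 265)))) (XT.nd (nat_lit 156) (nat_lit 76) (nat_lit 0) (XT.nd (nat_lit 78) (nat_lit 152) (nat_lit 0) (XT.lf (nat_lit 0) (nat_lit 21460440994) (nat_lit 152) (nat_lit 329489670) (nat_lit 0) (nat_lit 116761478) (nat_lit 20) (nat_lit 5) (nat_lit 22) (nat_lit 4) (nat_lit 20) (nat_lit 4) (nat_lit 334) (nat_lit 302) (nat_lit 264)) (XT.lf (nat_lit 0) (nat_lit 4638696660) (nat_lit 152) (nat_lit 11784891941) (nat_lit 76) (nat_lit 6691089299) (nat_lit 18) (nat_lit 5) (nat_lit 20) (nat_lit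 5) (nat_lit 19) (nat_lit 4) (nat_lit 335) (nat_lit 302) (nat_lit 263))) (XT.nd (nat_lit 78) (nat_lit 76) (nat_lit 0) (XT.lf (nat_lit 0) (nat_lit 10068232027) (nat_lit 152) (nat_lit 574515302) (nat_lit 76) (nat_lit 13778704280) (nat_lit 18) (nat_lit 5) (nat_lit 20) (nat_lit 5) (nat_lit 19) (nat_lit 4) (nat_lit 336) (nat_lit 302) (nat_lit 262)) (XT.lf (nat_lit 0) (nat_lit 12057475050) (nat_lit 76) (nat_lit 4120802608) (nat_lit 152) (nat_lit 9634824094) (nat_lit 17) (nat_lit 5) (nat_lit 18) (nat_lit 5) (nat_lit 19) (nat_lit 4) (nat_lit 337) (nat_lit 302) (nat_lit 261))))) (XT.nd (nat_lit 312) (nat_lit 228) (nat_lit 0) (XT.nd (nat_lit 156) (nat_lit 76) (nat_lit 0) (XT.nd (nat_lit 78) (nat_lit 152) (nat_lit 0) (XT.lf (nat_lit 0) (nat_lit 22820296578) (nat_lit 152) (nat_lit 1731830456) (nat_lit 0) (nat_lit 2760527682) (nat_lit 17) (nat_lit 5) (nat_lit 19) (nat_lit 4) (nat_lit 17) (nat_lit 4)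 (nat_lit 338) (nat_lit 302) (nat_lit 260)) (XT.lf (nat_lit 0) (nat_lit 1364745873) (nat_lit 152) (nat_lit 17282146797) (nat_lit 76) (nat_lit 10254750486) (nat_lit 15) (nat_lit 5) (nat_lit 17) (nat_lit 5) (nat_lit 16) (nat_lit 4) (nat_lit 339) (nat_lit 302) (nat_lit 259))) (XT.nd (nat_lit 78) (nat_lit 76) (nat_lit 0) (XT.lf (nat_lit 0) (nat_lit 7456480061) (nat_lit 152) (nat_lit 4667866835) (nat_lit 76) (nat_lit 18483387090) (nat_lit 15) (nat_lit 5) (nat_lit 17) (nat_lit 5) (nat_lit 16) (nat_lit 4) (nat_lit 340) (nat_lit 302) (nat_lit 258)) (XT.lf (nat_lit 0) (nat_lit 9355587891) (nat_lit 76) (nat_lit 4868101149) (nat_lit 152) (nat_lit 18211590077) (nat_lit 14) (nat_lit 5) (nat_lit 15) (nat_lit 5) (nat_lit 16) (nat_lit 4) (nat_lit 341) (nat_lit 302) (nat_lit 257)))) (XT.nd (nat_lit 156) (nat_lit 152) (nat_lit 0) (XT.nd (nat_lit 78) (nat_lit 76) (nat_lit 0) (XT.lf (nat_lit 0) (nat_lit 21698150813)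 (nat_lit 152) (nat_lit 9775535919) (nat_lit 0) (nat_lit 2922087635) (nat_lit 14) (nat_lit 5) (nat_lit 16) (nat_lit 4) (nat_lit 14) (nat_lit 4) (nat_lit 342) (nat_lit 302) (nat_lit 256)) (XT.lf (nat_lit 0) (nat_lit 4635045420) (nat_lit 76) (nat_lit 25339679533) (nat_lit 76) (nat_lit 6522067213) (nat_lit 13) (nat_lit 4) (nat_lit 14) (nat_lit 5) (nat_lit 14) (nat_lit 4) (nat_lit 343) (nat_lit 302) (nat_lit 255))) (XT.nd (nat_lit 78) (nat_lit 76) (nat_lit 0) (XT.lf (nat_lit 0) (nat_lit 380766909) (nat_lit 152) (nat_lit 18064088574) (nat_lit 76) (nat_lit 20301516143) (nat_lit 12) (nat_lit 5) (nat_lit 14) (nat_lit 5) (nat_lit 13) (nat_lit 4) (nat_lit 344) (nat_lit 302) (nat_lit 254)) (XT.nd (nat_lit 78) (nat_lit 76) (nat_lit 0) (XT.lf (nat_lit 0) (nat_lit 7452346987) (nat_lit 152) (nat_lit 3390823704) (nat_lit 76) (nat_lit 30321696180) (nat_lit 12) (nat_lit 5) (nat_lit 14) (nat_lit 5) (nat_lit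 13) (nat_lit 4) (nat_lit 345) (nat_lit 302) (nat_lit 253)) (XT.lf (nat_lit 0) (nat_lit 13054916199) (nat_lit 76) (nat_lit 2319893745) (nat_lit 152) (nat_lit 28379230566) (nat_lit 11) (nat_lit 5) (nat_lit 12) (nat_lit 5) (nat_lit 13) (nat_lit 4) (nat_lit 346) (nat_lit 302) (nat_lit 252))))))))
noncomputable def xc103 : XT := (XT.nd (nat_lit 1326) (nat_lit 228) (nat_lit 0) (XT.nd (nat_lit 624) (nat_lit 228) (nat_lit 0) (XT.nd (nat_lit 312) (nat_lit 152) (nat_lit 0) (XT.nd (nat_lit 156) (nat_lit 0) (nat_lit 0) (XT.nd (nat_lit 78) (nat_lit 76) (nat_lit 0) (XT.lf (nat_lit 0) (nat_lit 24163219104) (nat_lit 152) (nat_lit 15756485713) (nat_lit 0) (nat_lit 6612081748) (nat_lit 11) (nat_lit 5) (nat_lit 13) (nat_lit 4) (nat_lit 11) (nat_lit 4) (nat_lit 347) (nat_lit 302) (nat_lit 251)) (XT.lf (nat_lit 0) (nat_lit 284900921) (nat_lit 76) (nat_lit 33410464150) (nat_lit 76) (nat_lit 15833143787) (nat_lit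 10) (nat_lit 4) (nat_lit 11) (nat_lit 5) (nat_lit 11) (nat_lit 4) (nat_lit 348) (nat_lit 302) (nat_lit 250))) (XT.nd (nat_lit 78) (nat_lit 0) (nat_lit 0) (XT.lf (nat_lit 0) (nat_lit 18456308300) (nat_lit 76) (nat_lit 25938911270) (nat_lit 76) (nat_lit 8337347382) (nat_lit 10) (nat_lit 4) (nat_lit 11) (nat_lit 5) (nat_lit 11) (nat_lit 4) (nat_lit 349) (nat_lit 302) (nat_lit 249)) (XT.lf (nat_lit 0) (nat_lit 38035710224) (nat_lit 76) (nat_lit 17891580550) (nat_lit 76) (nat_lit 267568954) (nat_lit 10) (nat_lit 4) (nat_lit 11) (nat_lit 5) (nat_lit 11) (nat_lit 4) (nat_lit 350) (nat_lit 302) (nat_lit 248)))) (XT.nd (nat_lit 156) (nat_lit 0) (nat_lit 0) (XT.nd (nat_lit 78) (nat_lit 76) (nat_lit 0) (XT.lf (nat_lit 0) (nat_lit 8002609188) (nat_lit 152) (nat_lit 999369398) (nat_lit 76) (nat_lit 50917718071) (nat_lit 9) (nat_lit 5) (nat_lit 11) (nat_lit 5) (nat_lit 10) (nat_lit 4) (nat_lit 351)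 (nat_lit 302) (nat_lit 247)) (XT.lf (nat_lit 0) (nat_lit 17367324868) (nat_lit 152) (nat_lit 45527125351) (nat_lit 0) (nat_lit 1011730607) (nat_lit 8) (nat_lit 5) (nat_lit 10) (nat_lit 4) (nat_lit 8) (nat_lit 4) (nat_lit 352) (nat_lit 302) (nat_lit 246))) (XT.nd (nat_lit 78) (nat_lit 0) (nat_lit 0) (XT.lf (nat_lit 0) (nat_lit 27722301535) (nat_lit 152) (nat_lit 29119794060) (nat_lit 0) (nat_lit 11350207538) (nat_lit 8) (nat_lit 5) (nat_lit 10) (nat_lit 4) (nat_lit 8) (nat_lit 4) (nat_lit 353) (nat_lit 302) (nat_lit 245)) (XT.lf (nat_lit 0) (nat_lit 38886446564) (nat_lit 152) (nat_lit 11437337656) (nat_lit 0) (nat_lit 22499075034) (nat_lit 8) (nat_lit 5) (nat_lit 10) (nat_lit 4) (nat_lit 8) (nat_lit 4) (nat_lit 354) (nat_lit 302) (nat_lit 244))))) (XT.nd (nat_lit 312) (nat_lit 152) (nat_lit 0) (XT.nd (nat_lit 156) (nat_lit 0) (nat_lit 0) (XT.nd (nat_lit 78) (nat_lit 0) (nat_lit 0) (XT.lf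 (nat_lit 0) (nat_lit 8026549288) (nat_lit 76) (nat_lit 43092407266) (nat_lit 76) (nat_lit 26690889872) (nat_lit 7) (nat_lit 4) (nat_lit 8) (nat_lit 5) (nat_lit 8) (nat_lit 4) (nat_lit 355) (nat_lit 302) (nat_lit 243)) (XT.lf (nat_lit 0) (nat_lit 29664190382) (nat_lit 76) (nat_lit 34961294523) (nat_lit 76) (nat_lit 18546679107) (nat_lit 7) (nat_lit 4) (nat_lit 8) (nat_lit 5) (nat_lit 8) (nat_lit 4) (nat_lit 356) (nat_lit 302) (nat_lit 242))) (XT.nd (nat_lit 78) (nat_lit 0) (nat_lit 0) (XT.lf (nat_lit 0) (nat_lit 53001538748) (nat_lit 76) (nat_lit 26194978700) (nat_lit 76) (nat_lit 9768235486) (nat_lit 7) (nat_lit 4) (nat_lit 8) (nat_lit 5) (nat_lit 8) (nat_lit 4) (nat_lit 357) (nat_lit 302) (nat_lit 241)) (XT.lf (nat_lit 0) (nat_lit 78176889787) (nat_lit 76) (nat_lit 16741511258) (nat_lit 76) (nat_lit 303538602) (nat_lit 7) (nat_lit 4) (nat_lit 8) (nat_lit 5) (nat_lit 8) (nat_lit 4) (nat_lit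 358) (nat_lit 302) (nat_lit 240)))) (XT.nd (nat_lit 156) (nat_lit 0) (nat_lit 0) (XT.nd (nat_lit 78) (nat_lit 0) (nat_lit 0) (XT.lf (nat_lit 0) (nat_lit 3284764846) (nat_lit 76) (nat_lit 6202319353) (nat_lit 152) (nat_lit 92468345332) (nat_lit 5) (nat_lit 5) (nat_lit 6) (nat_lit 5) (nat_lit 7) (nat_lit 4) (nat_lit 359) (nat_lit 302) (nat_lit 239)) (XT.lf (nat_lit 0) (nat_lit 20633270895) (nat_lit 152) (nat_lit 83152219122) (nat_lit 0) (nat_lit 5394384111) (nat_lit 5) (nat_lit 5) (nat_lit 7) (nat_lit 4) (nat_lit 5) (nat_lit 4) (nat_lit 360) (nat_lit 302) (nat_lit 238))) (XT.nd (nat_lit 78) (nat_lit 0) (nat_lit 0) (XT.lf (nat_lit 0) (nat_lit 32819276610) (nat_lit 152) (nat_lit 66579014959) (nat_lit 0) (nat_lit 17572135851) (nat_lit 5) (nat_lit 5) (nat_lit 7) (nat_lit 4) (nat_lit 5) (nat_lit 4) (nat_lit 361) (nat_lit 302) (nat_lit 237)) (XT.nd (nat_lit 78) (nat_lit 0) (nat_lit 0) (XT.lf (nat_lit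 0) (nat_lit 45968148782) (nat_lit 152) (nat_lit 48703674686) (nat_lit 0) (nat_lit 30713365452) (nat_lit 5) (nat_lit 5) (nat_lit 7) (nat_lit 4) (nat_lit 5) (nat_lit 4) (nat_lit 362) (nat_lit 302) (nat_lit 236)) (XT.lf (nat_lit 0) (nat_lit 60157806653) (nat_lit 152) (nat_lit 29420270361) (nat_lit 0) (nat_lit 44895946870) (nat_lit 5) (nat_lit 5) (nat_lit 7) (nat_lit 4) (nat_lit 5) (nat_lit 4) (nat_lit 363) (nat_lit 302) (nat_lit 235))))))) (XT.nd (nat_lit 702) (nat_lit 76) (nat_lit 0) (XT.nd (nat_lit 312) (nat_lit 76) (nat_lit 0) (XT.nd (nat_lit 156) (nat_lit 0) (nat_lit 0) (XT.nd (nat_lit 78) (nat_lit 76) (nat_lit 0) (XT.lf (nat_lit 0) (nat_lit 75472337086) (nat_lit 152) (nat_lit 8614529957) (nat_lit 0) (nat_lit 60203925031) (nat_lit 5) (nat_lit 5) (nat_lit 7) (nat_lit 4) (nat_lit 5) (nat_lit 4) (nat_lit 364) (nat_lit 302) (nat_lit 234)) (XT.lf (nat_lit 0) (nat_lit 14565463264) (nat_lit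 76) (nat_lit 77787329330) (nat_lit 76) (nat_lit 62512850356) (nat_lit 4) (nat_lit 4) (nat_lit 5) (nat_lit 5) (nat_lit 5) (nat_lit 4) (nat_lit 365) (nat_lit 302) (nat_lit 233))) (XT.nd (nat_lit 78) (nat_lit 0) (nat_lit 0) (XT.lf (nat_lit 0) (nat_lit 40071418723) (nat_lit 76) (nat_lit 70738530291) (nat_lit 76) (nat_lit 55458433801) (nat_lit 4) (nat_lit 4) (nat_lit 5) (nat_lit 5) (nat_lit 5) (nat_lit 4) (nat_lit 366) (nat_lit 302) (nat_lit 232)) (XT.lf (nat_lit 0) (nat_lit 67600856941) (nat_lit 76) (nat_lit 63134235783) (nat_lit 76) (nat_lit 47848937887) (nat_lit 4) (nat_lit 4) (nat_lit 5) (nat_lit 5) (nat_lit 5) (nat_lit 4) (nat_lit 367) (nat_lit 302) (nat_lit 231)))) (XT.nd (nat_lit 156) (nat_lit 76) (nat_lit 0) (XT.nd (nat_lit 78) (nat_lit 0) (nat_lit 0) (XT.lf (nat_lit 0) (nat_lit 97316915330) (nat_lit 76) (nat_lit 54929383318) (nat_lit 76) (nat_lit 39639269307) (nat_lit 4) (nat_lit 4)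 (nat_lit 5) (nat_lit 5) (nat_lit 5) (nat_lit 4) (nat_lit 368) (nat_lit 302) (nat_lit 230)) (XT.lf (nat_lit 0) (nat_lit 129395689050) (nat_lit 76) (nat_lit 46075351549) (nat_lit 76) (nat_lit 30780778171) (nat_lit 4) (nat_lit 4) (nat_lit 5) (nat_lit 5) (nat_lit 5) (nat_lit 4) (nat_lit 369) (nat_lit 302) (nat_lit 229))) (XT.nd (nat_lit 78) (nat_lit 76) (nat_lit 0) (XT.lf (nat_lit 0) (nat_lit 164027274539) (nat_lit 76) (nat_lit 36519672139) (nat_lit 76) (nat_lit 21220969719) (nat_lit 4) (nat_lit 4) (nat_lit 5) (nat_lit 5) (nat_lit 5) (nat_lit 4) (nat_lit 370) (nat_lit 302) (nat_lit 228)) (XT.nd (nat_lit 78) (nat_lit 76) (nat_lit 0) (XT.lf (nat_lit 0) (nat_lit 201416896006) (nat_lit 76) (nat_lit 26205718840) (nat_lit 76) (nat_lit 10903193232) (nat_lit 4) (nat_lit 4) (nat_lit 5) (nat_lit 5) (nat_lit 5) (nat_lit 4) (nat_lit 371) (nat_lit 302) (nat_lit 227)) (XT.lf (nat_lit 0) (nat_lit 222003364)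 (nat_lit 152) (nat_lit 14844298599) (nat_lit 76) (nat_lit 241558048250) (nat_lit 3) (nat_lit 5) (nat_lit 5) (nat_lit 5) (nat_lit 4) (nat_lit 4) (nat_lit 372) (nat_lit 302) (nat_lit 226)))))) (XT.nd (nat_lit 312) (nat_lit 0) (nat_lit 0) (XT.nd (nat_lit 156) (nat_lit 0) (nat_lit 0) (XT.nd (nat_lit 78) (nat_lit 0) (nat_lit 0) (XT.lf (nat_lit 0) (nat_lit 9376323428) (nat_lit 76) (nat_lit 2491785606) (nat_lit 152) (nat_lit 264262415902) (nat_lit 2) (nat_lit 5) (nat_lit 3) (nat_lit 5) (nat_lit 4) (nat_lit 4) (nat_lit 373) (nat_lit 302) (nat_lit 225)) (XT.lf (nat_lit 0) (nat_lit 25123471403) (nat_lit 152) (nat_lit 261074174497) (nat_lit 0) (nat_lit 10945343316) (nat_lit 2) (nat_lit 5) (nat_lit 4) (nat_lit 4) (nat_lit 2) (nat_lit 4) (nat_lit 374) (nat_lit 302) (nat_lit 224))) (XT.nd (nat_lit 78) (nat_lit 0) (nat_lit 0) (XT.lf (nat_lit 0) (nat_lit 39498867281) (nat_lit 152) (nat_lit 255014678764)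 (nat_lit 0) (nat_lit 25318137196) (nat_lit 2) (nat_lit 5) (nat_lit 4) (nat_lit 4) (nat_lit 2) (nat_lit 4) (nat_lit 375) (nat_lit 302) (nat_lit 223)) (XT.lf (nat_lit 0) (nat_lit 55019556694) (nat_lit 152) (nat_lit 248479878682) (nat_lit 0) (nat_lit 40836417353) (nat_lit 2) (nat_lit 5) (nat_lit 4) (nat_lit 4) (nat_lit 2) (nat_lit 4) (nat_lit 376) (nat_lit 302) (nat_lit 222)))) (XT.nd (nat_lit 156) (nat_lit 0) (nat_lit 0) (XT.nd (nat_lit 78) (nat_lit 0) (nat_lit 0) (XT.lf (nat_lit 0) (nat_lit 71777514099) (nat_lit 152) (nat_lit 241431049509) (nat_lit 0) (nat_lit 57592143965) (nat_lit 2) (nat_lit 5) (nat_lit 4) (nat_lit 4) (nat_lit 2) (nat_lit 4) (nat_lit 377) (nat_lit 302) (nat_lit 221)) (XT.lf (nat_lit 0) (nat_lit 89872045911) (nat_lit 152) (nat_lit 233826420407) (nat_lit 0) (nat_lit 75684610227) (nat_lit 2) (nat_lit 5) (nat_lit 4) (nat_lit 4) (nat_lit 2) (nat_lit 4) (nat_lit 378) (nat_lit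 302) (nat_lit 220))) (XT.nd (nat_lit 78) (nat_lit 0) (nat_lit 0) (XT.lf (nat_lit 0) (nat_lit 109410378983) (nat_lit 152) (nat_lit 225620926906) (nat_lit 0) (nat_lit 95221030753) (nat_lit 2) (nat_lit 5) (nat_lit 4) (nat_lit 4) (nat_lit 2) (nat_lit 4) (nat_lit 379) (nat_lit 302) (nat_lit 219)) (XT.nd (nat_lit 78) (nat_lit 0) (nat_lit 0) (XT.lf (nat_lit 0) (nat_lit 130508296031) (nat_lit 152) (nat_lit 216765943859) (nat_lit 0) (nat_lit 116317176926) (nat_lit 2) (nat_lit 5) (nat_lit 4) (nat_lit 4) (nat_lit 2) (nat_lit 4) (nat_lit 380) (nat_lit 302) (nat_lit 218)) (XT.lf (nat_lit 0) (nat_lit 153290821749) (nat_lit 152) (nat_lit 207208997294) (nat_lit 0) (nat_lit 139098062944) (nat_lit 2) (nat_lit 5) (nat_lit 4) (nat_lit 4) (nat_lit 2) (nat_lit 4) (nat_lit 381) (nat_lit 302) (nat_lit 217))))))))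
noncomputable def xc104 : XT := (XT.nd (nat_lit 1326) (nat_lit 0) (nat_lit 0) (XT.nd (nat_lit 624) (nat_lit 76) (nat_lit 0) (XT.nd (nat_lit 312) (nat_lit 0) (nat_lit 0) (XT.nd (nat_lit 156) (nat_lit 0) (nat_lit 0) (XT.nd (nat_lit 78) (nat_lit 0) (nat_lit 0) (XT.lf (nat_lit 0) (nat_lit 177892963695) (nat_lit 152) (nat_lit 196893453453) (nat_lit 0) (nat_lit 163698686650) (nat_lit 2) (nat_lit 5) (nat_lit 4) (nat_lit 4) (nat_lit 2) (nat_lit 4) (nat_lit 382) (nat_lit 302) (nat_lit 216)) (XT.lf (nat_lit 0) (nat_lit 204460512342) (nat_lit 152) (nat_lit 185758183187) (nat_lit 0) (nat_lit 190264829519) (nat_lit 2) (nat_lit 5) (nat_lit 4) (nat_lit 4) (nat_lit 2) (nat_lit 4) (nat_lit 383) (nat_lit 302) (nat_lit 215))) (XT.nd (nat_lit 78) (nat_lit 0) (nat_lit 0) (XT.lf (nat_lit 0) (nat_lit 233150905014) (nat_lit 152) (nat_lit 173737199709) (nat_lit 0) (nat_lit 218953920544) (nat_lit 2) (nat_lit 5)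 (nat_lit 4) (nat_lit 4) (nat_lit 2) (nat_lit 4) (nat_lit 384) (nat_lit 302) (nat_lit 214)) (XT.lf (nat_lit 0) (nat_lit 264134158853) (nat_lit 152) (nat_lit 160759267562) (nat_lit 0) (nat_lit 249935969155) (nat_lit 2) (nat_lit 5) (nat_lit 4) (nat_lit 4) (nat_lit 2) (nat_lit 4) (nat_lit 385) (nat_lit 302) (nat_lit 213)))) (XT.nd (nat_lit 156) (nat_lit 0) (nat_lit 0) (XT.nd (nat_lit 78) (nat_lit 0) (nat_lit 0) (XT.lf (nat_lit 0) (nat_lit 297593878326) (nat_lit 152) (nat_lit 146747480480) (nat_lit 0) (nat_lit 283394572676) (nat_lit 2) (nat_lit 5) (nat_lit 4) (nat_lit 4) (nat_lit 2) (nat_lit 4) (nat_lit 386) (nat_lit 302) (nat_lit 212)) (XT.lf (nat_lit 0) (nat_lit 333728343253) (nat_lit 152) (nat_lit 131618805653) (nat_lit 0) (nat_lit 319528004313) (nat_lit 2) (nat_lit 5) (nat_lit 4) (nat_lit 4) (nat_lit 2) (nat_lit 4) (nat_lit 387) (nat_lit 302) (nat_lit 211))) (XT.nd (nat_lit 78) (nat_lit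 0) (nat_lit 0) (XT.lf (nat_lit 0) (nat_lit 372751683795) (nat_lit 152) (nat_lit 115283591673) (nat_lit 0) (nat_lit 358550388107) (nat_lit 2) (nat_lit 5) (nat_lit 4) (nat_lit 4) (nat_lit 2) (nat_lit 4) (nat_lit 388) (nat_lit 302) (nat_lit 210)) (XT.lf (nat_lit 0) (nat_lit 414895149379) (nat_lit 152) (nat_lit 97645037272) (nat_lit 0) (nat_lit 400692967812) (nat_lit 2) (nat_lit 5) (nat_lit 4) (nat_lit 4) (nat_lit 2) (nat_lit 4) (nat_lit 389) (nat_lit 302) (nat_lit 209))))) (XT.nd (nat_lit 312) (nat_lit 76) (nat_lit 0) (XT.nd (nat_lit 156) (nat_lit 0) (nat_lit 0) (XT.nd (nat_lit 78) (nat_lit 0) (nat_lit 0) (XT.lf (nat_lit 0) (nat_lit 460408479059) (nat_lit 152) (nat_lit 78598617683) (nat_lit 0) (nat_lit 446205477234) (nat_lit 2) (nat_lit 5) (nat_lit 4) (nat_lit 4) (nat_lit 2) (nat_lit 4) (nat_lit 390) (nat_lit 302) (nat_lit 208)) (XT.lf (nat_lit 0) (nat_lit 509561381456) (nat_lit 152) (nat_lit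 58031465236) (nat_lit 0) (nat_lit 495357620133) (nat_lit 2) (nat_lit 5) (nat_lit 4) (nat_lit 4) (nat_lit 2) (nat_lit 4) (nat_lit 391) (nat_lit 302) (nat_lit 207))) (XT.nd (nat_lit 78) (nat_lit 0) (nat_lit 0) (XT.lf (nat_lit 0) (nat_lit 562645133029) (nat_lit 152) (nat_lit 35821700507) (nat_lit 0) (nat_lit 548440668466) (nat_lit 2) (nat_lit 5) (nat_lit 4) (nat_lit 4) (nat_lit 2) (nat_lit 4) (nat_lit 392) (nat_lit 302) (nat_lit 206)) (XT.lf (nat_lit 0) (nat_lit 619974304157) (nat_lit 152) (nat_lit 11837710077) (nat_lit 0) (nat_lit 605769188447) (nat_lit 2) (nat_lit 5) (nat_lit 4) (nat_lit 4) (nat_lit 2) (nat_lit 4) (nat_lit 393) (nat_lit 302) (nat_lit 205)))) (XT.nd (nat_lit 156) (nat_lit 0) (nat_lit 0) (XT.nd (nat_lit 78) (nat_lit 0) (nat_lit 0) (XT.lf (nat_lit 0) (nat_lit 14803146758) (nat_lit 76) (nat_lit 667441492538) (nat_lit 76) (nat_lit 653235773914) (nat_lit 1) (nat_lit 4) (nat_lit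 2) (nat_lit 5) (nat_lit 2) (nat_lit 4) (nat_lit 394) (nat_lit 302) (nat_lit 204)) (XT.lf (nat_lit 0) (nat_lit 44246186924) (nat_lit 76) (nat_lit 705572924947) (nat_lit 76) (nat_lit 691366648069) (nat_lit 1) (nat_lit 4) (nat_lit 2) (nat_lit 5) (nat_lit 2) (nat_lit 4) (nat_lit 395) (nat_lit 302) (nat_lit 203))) (XT.nd (nat_lit 78) (nat_lit 0) (nat_lit 0) (XT.lf (nat_lit 0) (nat_lit 76042534860) (nat_lit 76) (nat_lit 746755939476) (nat_lit 76) (nat_lit 732549145696) (nat_lit 1) (nat_lit 4) (nat_lit 2) (nat_lit 5) (nat_lit 2) (nat_lit 4) (nat_lit 396) (nat_lit 302) (nat_lit 202)) (XT.nd (nat_lit 78) (nat_lit 0) (nat_lit 0) (XT.lf (nat_lit 0) (nat_lit 110380613369) (nat_lit 76) (nat_lit 791234583618) (nat_lit 76) (nat_lit 777027311226) (nat_lit 1) (nat_lit 4) (nat_lit 2) (nat_lit 5) (nat_lit 2) (nat_lit 4) (nat_lit 397) (nat_lit 302) (nat_lit 201)) (XT.lf (nat_lit 0) (nat_lit 147463907360)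 (nat_lit 76) (nat_lit 839272434525) (nat_lit 76) (nat_lit 825064718973) (nat_lit 1) (nat_lit 4) (nat_lit 2) (nat_lit 5) (nat_lit 2) (nat_lit 4) (nat_lit 398) (nat_lit 302) (nat_lit 200))))))) (XT.nd (nat_lit 624) (nat_lit 0) (nat_lit 0) (XT.nd (nat_lit 312) (nat_lit 0) (nat_lit 0) (XT.nd (nat_lit 156) (nat_lit 0) (nat_lit 0) (XT.nd (nat_lit 78) (nat_lit 0) (nat_lit 0) (XT.lf (nat_lit 0) (nat_lit 187512169686) (nat_lit 76) (nat_lit 891154160942) (nat_lit 76) (nat_lit 876946035056) (nat_lit 1) (nat_lit 4) (nat_lit 2) (nat_lit 5) (nat_lit 2) (nat_lit 4) (nat_lit 399) (nat_lit 302) (nat_lit 199)) (XT.lf (nat_lit 0) (nat_lit 230762723384) (nat_lit 76) (nat_lit 947187210137) (nat_lit 76) (nat_lit 932978704313) (nat_lit 1) (nat_lit 4) (nat_lit 2) (nat_lit 5) (nat_lit 2) (nat_lit 4) (nat_lit 400) (nat_lit 302) (nat_lit 198))) (XT.nd (nat_lit 78) (nat_lit 0) (nat_lit 0) (XT.lf (nat_lit 0) (nat_lit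 277471868031) (nat_lit 76) (nat_lit 1007703629809) (nat_lit 76) (nat_lit 993494772191) (nat_lit 1) (nat_lit 4) (nat_lit 2) (nat_lit 5) (nat_lit 2) (nat_lit 4) (nat_lit 401) (nat_lit 302) (nat_lit 197)) (XT.lf (nat_lit 0) (nat_lit 327916398559) (nat_lit 76) (nat_lit 1073062035778) (nat_lit 76) (nat_lit 1058852852424) (nat_lit 1) (nat_lit 4) (nat_lit 2) (nat_lit 5) (nat_lit 2) (nat_lit 4) (nat_lit 402) (nat_lit 302) (nat_lit 196)))) (XT.nd (nat_lit 156) (nat_lit 0) (nat_lit 0) (XT.nd (nat_lit 78) (nat_lit 0) (nat_lit 0) (XT.lf (nat_lit 0) (nat_lit 382395245518) (nat_lit 76) (nat_lit 1143649737117) (nat_lit 76) (nat_lit 1129440252156) (nat_lit 1) (nat_lit 4) (nat_lit 2) (nat_lit 5) (nat_lit 2) (nat_lit 4) (nat_lit 403) (nat_lit 302) (nat_lit 195)) (XT.lf (nat_lit 0) (nat_lit 441231246520) (nat_lit 76) (nat_lit 1219885031315) (nat_lit 76) (nat_lit 1205675267088) (nat_lit 1) (nat_lit 4) (nat_lit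 2) (nat_lit 5) (nat_lit 2) (nat_lit 4) (nat_lit 404) (nat_lit 302) (nat_lit 194))) (XT.nd (nat_lit 78) (nat_lit 0) (nat_lit 0) (XT.lf (nat_lit 0) (nat_lit 504773059349) (nat_lit 76) (nat_lit 1302219683079) (nat_lit 76) (nat_lit 1288009660272) (nat_lit 1) (nat_lit 4) (nat_lit 2) (nat_lit 5) (nat_lit 2) (nat_lit 4) (nat_lit 405) (nat_lit 302) (nat_lit 193)) (XT.lf (nat_lit 0) (nat_lit 573397228081) (nat_lit 76) (nat_lit 1391141601455) (nat_lit 76) (nat_lit 1376931339223) (nat_lit 1) (nat_lit 4) (nat_lit 2) (nat_lit 5) (nat_lit 2) (nat_lit 4) (nat_lit 406) (nat_lit 302) (nat_lit 192))))) (XT.nd (nat_lit 312) (nat_lit 0) (nat_lit 0) (XT.nd (nat_lit 156) (nat_lit 0) (nat_lit 0) (XT.nd (nat_lit 78) (nat_lit 0) (nat_lit 0) (XT.lf (nat_lit 0) (nat_lit 647510414456) (nat_lit 76) (nat_lit 1487177731146) (nat_lit 76) (nat_lit 1472967247223) (nat_lit 1) (nat_lit 4) (nat_lit 2) (nat_lit 5) (nat_lit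 2) (nat_lit 4) (nat_lit 407) (nat_lit 302) (nat_lit 191)) (XT.lf (nat_lit 0) (nat_lit 727551807728) (nat_lit 76) (nat_lit 1590897175142) (nat_lit 76) (nat_lit 1576686485950) (nat_lit 1) (nat_lit 4) (nat_lit 2) (nat_lit 5) (nat_lit 2) (nat_lit 4) (nat_lit 408) (nat_lit 302) (nat_lit 190))) (XT.nd (nat_lit 78) (nat_lit 0) (nat_lit 0) (XT.lf (nat_lit 0) (nat_lit 813995727263) (nat_lit 76) (nat_lit 1702914567185) (nat_lit 76) (nat_lit 1688703687930) (nat_lit 1) (nat_lit 4) (nat_lit 2) (nat_lit 5) (nat_lit 2) (nat_lit 4) (nat_lit 409) (nat_lit 302) (nat_lit 189)) (XT.lf (nat_lit 0) (nat_lit 907354433326) (nat_lit 76) (nat_lit 1823893714043) (nat_lit 76) (nat_lit 1809682658803) (nat_lit 1) (nat_lit 4) (nat_lit 2) (nat_lit 5) (nat_lit 2) (nat_lit 4) (nat_lit 410) (nat_lit 302) (nat_lit 188)))) (XT.nd (nat_lit 38454) (nat_lit 0) (nat_lit 5016) (XT.nd (nat_lit 78) (nat_lit 0) (nat_lit 0) (XT.lf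 (nat_lit 0) (nat_lit 1008181162693) (nat_lit 76) (nat_lit 1954551529180) (nat_lit 76) (nat_lit 1940340310991) (nat_lit 1) (nat_lit 4) (nat_lit 2) (nat_lit 5) (nat_lit 2) (nat_lit 4) (nat_lit 411) (nat_lit 302) (nat_lit 187)) (XT.lf (nat_lit 0) (nat_lit 1117073407094) (nat_lit 76) (nat_lit 2095662281128) (nat_lit 76) (nat_lit 2081450912060) (nat_lit 1) (nat_lit 4) (nat_lit 2) (nat_lit 5) (nat_lit 2) (nat_lit 4) (nat_lit 412) (nat_lit 302) (nat_lit 186))) (XT.nd (nat_lit 78) (nat_lit 304) (nat_lit 0) (XT.lf (nat_lit 0) (nat_lit 656905550) (nat_lit 0) (nat_lit 656905550) (nat_lit 228) (nat_lit 2036826245) (nat_lit 71) (nat_lit 5) (nat_lit 71) (nat_lit 3) (nat_lit 74) (nat_lit 3) (nat_lit 303) (nat_lit 303) (nat_lit 294)) (XT.nd (nat_lit 78) (nat_lit 304) (nat_lit 0) (XT.lf (nat_lit 0) (nat_lit 4669764178) (nat_lit 0) (nat_lit 126048631) (nat_lit 228) (nat_lit 2003171979) (nat_lit 71) (nat_lit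 5) (nat_lit 71) (nat_lit 3) (nat_lit 74) (nat_lit 3) (nat_lit 304) (nat_lit 303) (nat_lit 293)) (XT.lf (nat_lit 0) (nat_lit 72295721) (nat_lit 304) (nat_lit 5614065813) (nat_lit 380) (nat_lit 1230112254) (nat_lit 67) (nat_lit 5) (nat_lit 71) (nat_lit 5) (nat_lit 72) (nat_lit 5) (nat_lit 305) (nat_lit 303) (nat_lit 292))))))))
noncomputable def xc105 : XT := (XT.nd (nat_lit 1326) (nat_lit 1292) (nat_lit 0) (XT.nd (nat_lit 624) (nat_lit 1292) (nat_lit 0) (XT.nd (nat_lit 312) (nat_lit 912) (nat_lit 0) (XT.nd (nat_lit 156) (nat_lit 304) (nat_lit 0) (XT.nd (nat_lit 78) (nat_lit 0) (nat_lit 0) (XT.lf (nat_lit 0) (nat_lit 2071438231) (nat_lit 304) (nat_lit 2096320063) (nat_lit 380) (nat_lit 2882626420) (nat_lit 67) (nat_lit 5) (nat_lit 71) (nat_lit 5) (nat_lit 72) (nat_lit 5) (nat_lit 306) (nat_lit 303) (nat_lit 291)) (XT.lf (nat_lit 76) (nat_lit 1665360413) (nat_lit 0) (nat_lit 2422664736) (nat_lit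 380) (nat_lit 3118802785) (nat_lit 68) (nat_lit 5) (nat_lit 67) (nat_lit 5) (nat_lit 72) (nat_lit 5) (nat_lit 307) (nat_lit 303) (nat_lit 290))) (XT.nd (nat_lit 78) (nat_lit 304) (nat_lit 0) (XT.lf (nat_lit 76) (nat_lit 5729459952) (nat_lit 0) (nat_lit 421947098) (nat_lit 380) (nat_lit 1233931431) (nat_lit 68) (nat_lit 5) (nat_lit 67) (nat_lit 5) (nat_lit 72) (nat_lit 5) (nat_lit 308) (nat_lit 303) (nat_lit 289)) (XT.lf (nat_lit 0) (nat_lit 703869810) (nat_lit 380) (nat_lit 5100270770) (nat_lit 76) (nat_lit 1777400863) (nat_lit 63) (nat_lit 5) (nat_lit 68) (nat_lit 5) (nat_lit 64) (nat_lit 5) (nat_lit 309) (nat_lit 303) (nat_lit 288)))) (XT.nd (nat_lit 156) (nat_lit 532) (nat_lit 0) (XT.nd (nat_lit 78) (nat_lit 380) (nat_lit 0) (XT.lf (nat_lit 0) (nat_lit 2634143477) (nat_lit 380) (nat_lit 919009986) (nat_lit 76) (nat_lit 4245703202) (nat_lit 63) (nat_lit 5) (nat_lit 68) (nat_lit 5) (nat_lit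 64) (nat_lit 5) (nat_lit 310) (nat_lit 303) (nat_lit 287)) (XT.lf (nat_lit 0) (nat_lit 3660836516) (nat_lit 380) (nat_lit 1004103495) (nat_lit 456) (nat_lit 3373215174) (nat_lit 58) (nat_lit 5) (nat_lit 63) (nat_lit 5) (nat_lit 64) (nat_lit 5) (nat_lit 311) (nat_lit 303) (nat_lit 286))) (XT.nd (nat_lit 78) (nat_lit 76) (nat_lit 0) (XT.lf (nat_lit 0) (nat_lit 204809556) (nat_lit 456) (nat_lit 6592375644) (nat_lit 532) (nat_lit 1504558552) (nat_lit 52) (nat_lit 5) (nat_lit 58) (nat_lit 5) (nat_lit 59) (nat_lit 5) (nat_lit 312) (nat_lit 303) (nat_lit 285)) (XT.lf (nat_lit 0) (nat_lit 506384033) (nat_lit 532) (nat_lit 3347272915) (nat_lit 76) (nat_lit 4730522644) (nat_lit 51) (nat_lit 5) (nat_lit 58) (nat_lit 5) (nat_lit 52) (nat_lit 5) (nat_lit 313) (nat_lit 303) (nat_lit 284))))) (XT.nd (nat_lit 312) (nat_lit 760) (nat_lit 0) (XT.nd (nat_lit 156) (nat_lit 228) (nat_lit 0) (XT.nd (nat_lit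 78) (nat_lit 0) (nat_lit 0) (XT.lf (nat_lit 0) (nat_lit 1707067855) (nat_lit 304) (nat_lit 810174684) (nat_lit 380) (nat_lit 6375425678) (nat_lit 47) (nat_lit 5) (nat_lit 51) (nat_lit 5) (nat_lit 52) (nat_lit 5) (nat_lit 314) (nat_lit 303) (nat_lit 283)) (XT.lf (nat_lit 0) (nat_lit 4727703397) (nat_lit 380) (nat_lit 2052141775) (nat_lit 76) (nat_lit 2443086820) (nat_lit 47) (nat_lit 5) (nat_lit 52) (nat_lit 5) (nat_lit 48) (nat_lit 5) (nat_lit 315) (nat_lit 303) (nat_lit 282))) (XT.nd (nat_lit 78) (nat_lit 0) (nat_lit 0) (XT.lf (nat_lit 0) (nat_lit 3529157747) (nat_lit 228) (nat_lit 3585531146) (nat_lit 304) (nat_lit 2465133285) (nat_lit 44) (nat_lit 5) (nat_lit 47) (nat_lit 5) (nat_lit 48) (nat_lit 5) (nat_lit 316) (nat_lit 303) (nat_lit 281)) (XT.lf (nat_lit 0) (nat_lit 9558329160) (nat_lit 228) (nat_lit 89276335) (nat_lit 304) (nat_lit 321427271) (nat_lit 44) (nat_lit 5) (nat_lit 47)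 (nat_lit 5) (nat_lit 48) (nat_lit 5) (nat_lit 317) (nat_lit 303) (nat_lit 280)))) (XT.nd (nat_lit 156) (nat_lit 304) (nat_lit 0) (XT.nd (nat_lit 78) (nat_lit 152) (nat_lit 0) (XT.lf (nat_lit 0) (nat_lit 2030734195) (nat_lit 304) (nat_lit 4664167614) (nat_lit 76) (nat_lit 3679849860) (nat_lit 40) (nat_lit 5) (nat_lit 44) (nat_lit 5) (nat_lit 41) (nat_lit 5) (nat_lit 318) (nat_lit 303) (nat_lit 279)) (XT.lf (nat_lit 0) (nat_lit 1479744765) (nat_lit 152) (nat_lit 3031244253) (nat_lit 228) (nat_lit 6304820843) (nat_lit 38) (nat_lit 5) (nat_lit 40) (nat_lit 5) (nat_lit 41) (nat_lit 5) (nat_lit 319) (nat_lit 303) (nat_lit 278))) (XT.nd (nat_lit 78) (nat_lit 304) (nat_lit 0) (XT.lf (nat_lit 0) (nat_lit 7254113729) (nat_lit 228) (nat_lit 3046933496) (nat_lit 76) (nat_lit 986072252) (nat_lit 38) (nat_lit 5) (nat_lit 41) (nat_lit 5) (nat_lit 39) (nat_lit 5) (nat_lit 320) (nat_lit 303) (nat_lit 277))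 (XT.nd (nat_lit 78) (nat_lit 76) (nat_lit 0) (XT.lf (nat_lit 0) (nat_lit 3742867696) (nat_lit 228) (nat_lit 6560488983) (nat_lit 304) (nat_lit 1485957359) (nat_lit 35) (nat_lit 5) (nat_lit 38) (nat_lit 5) (nat_lit 39) (nat_lit 5) (nat_lit 321) (nat_lit 303) (nat_lit 276)) (XT.lf (nat_lit 0) (nat_lit 1206310223) (nat_lit 304) (nat_lit 1220969183) (nat_lit 76) (nat_lit 9901690321) (nat_lit 34) (nat_lit 5) (nat_lit 38) (nat_lit 5) (nat_lit 35) (nat_lit 5) (nat_lit 322) (nat_lit 303) (nat_lit 275))))))) (XT.nd (nat_lit 624) (nat_lit 532) (nat_lit 0) (XT.nd (nat_lit 312) (nat_lit 228) (nat_lit 0) (XT.nd (nat_lit 156) (nat_lit 228) (nat_lit 0) (XT.nd (nat_lit 78) (nat_lit 152) (nat_lit 0) (XT.lf (nat_lit 0) (nat_lit 4164237601) (nat_lit 228) (nat_lit 6631697995) (nat_lit 76) (nat_lit 2102420086) (nat_lit 32) (nat_lit 5) (nat_lit 35) (nat_lit 5) (nat_lit 33) (nat_lit 5) (nat_lit 323) (nat_lit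 303) (nat_lit 274)) (XT.lf (nat_lit 0) (nat_lit 780617874) (nat_lit 152) (nat_lit 6621867024) (nat_lit 228) (nat_lit 6107396285) (nat_lit 30) (nat_lit 5) (nat_lit 32) (nat_lit 5) (nat_lit 33) (nat_lit 5) (nat_lit 324) (nat_lit 303) (nat_lit 273))) (XT.nd (nat_lit 78) (nat_lit 228) (nat_lit 0) (XT.lf (nat_lit 0) (nat_lit 9059140078) (nat_lit 152) (nat_lit 1952451682) (nat_lit 228) (nat_lit 3149870320) (nat_lit 30) (nat_lit 5) (nat_lit 32) (nat_lit 5) (nat_lit 33) (nat_lit 5) (nat_lit 325) (nat_lit 303) (nat_lit 272)) (XT.lf (nat_lit 0) (nat_lit 128279355) (nat_lit 228) (nat_lit 11746141987) (nat_lit 76) (nat_lit 2983830414) (nat_lit 27) (nat_lit 5) (nat_lit 30) (nat_lit 5) (nat_lit 28) (nat_lit 5) (nat_lit 326) (nat_lit 303) (nat_lit 271)))) (XT.nd (nat_lit 156) (nat_lit 76) (nat_lit 0) (XT.nd (nat_lit 78) (nat_lit 152) (nat_lit 0) (XT.lf (nat_lit 0) (nat_lit 3627984353) (nat_lit 228) (nat_lit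 3563493775) (nat_lit 76) (nat_lit 8402464436) (nat_lit 27) (nat_lit 5) (nat_lit 30) (nat_lit 5) (nat_lit 28) (nat_lit 5) (nat_lit 327) (nat_lit 303) (nat_lit 270)) (XT.lf (nat_lit 0) (nat_lit 5452457370) (nat_lit 152) (nat_lit 2026742940) (nat_lit 228) (nat_lit 8903622408) (nat_lit 25) (nat_lit 5) (nat_lit 27) (nat_lit 5) (nat_lit 28) (nat_lit 5) (nat_lit 328) (nat_lit 303) (nat_lit 269))) (XT.nd (nat_lit 78) (nat_lit 76) (nat_lit 0) (XT.lf (nat_lit 0) (nat_lit 11765669955) (nat_lit 228) (nat_lit 2018111953) (nat_lit 76) (nat_lit 3440911499) (nat_lit 25) (nat_lit 5) (nat_lit 28) (nat_lit 5) (nat_lit 26) (nat_lit 4) (nat_lit 329) (nat_lit 303) (nat_lit 268)) (XT.lf (nat_lit 0) (nat_lit 7859201802) (nat_lit 76) (nat_lit 8723611773) (nat_lit 152) (nat_lit 1536128401) (nat_lit 24) (nat_lit 5) (nat_lit 25) (nat_lit 5) (nat_lit 26) (nat_lit 4) (nat_lit 330) (nat_lit 303) (nat_lit 267))))) (XT.nd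 (nat_lit 312) (nat_lit 228) (nat_lit 0) (XT.nd (nat_lit 156) (nat_lit 76) (nat_lit 0) (XT.nd (nat_lit 78) (nat_lit 152) (nat_lit 0) (XT.lf (nat_lit 0) (nat_lit 2568741886) (nat_lit 152) (nat_lit 594266359) (nat_lit 76) (nat_lit 15916308935) (nat_lit 23) (nat_lit 5) (nat_lit 25) (nat_lit 5) (nat_lit 24) (nat_lit 5) (nat_lit 331) (nat_lit 303) (nat_lit 266)) (XT.lf (nat_lit 0) (nat_lit 7190716136) (nat_lit 228) (nat_lit 9938578223) (nat_lit 76) (nat_lit 2962338361) (nat_lit 21) (nat_lit 5) (nat_lit 24) (nat_lit 5) (nat_lit 22) (nat_lit 4) (nat_lit 332) (nat_lit 303) (nat_lit 265))) (XT.nd (nat_lit 78) (nat_lit 0) (nat_lit 0) (XT.lf (nat_lit 0) (nat_lit 467720172) (nat_lit 76) (nat_lit 11776325868) (nat_lit 152) (nat_lit 8935995469) (nat_lit 20) (nat_lit 5) (nat_lit 21) (nat_lit 5) (nat_lit 22) (nat_lit 4) (nat_lit 333) (nat_lit 303) (nat_lit 264)) (XT.lf (nat_lit 0) (nat_lit 12190427327)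 (nat_lit 76) (nat_lit 5736111382) (nat_lit 152) (nat_lit 4411025750) (nat_lit 20) (nat_lit 5) (nat_lit 21) (nat_lit 5) (nat_lit 22) (nat_lit 4) (nat_lit 334) (nat_lit 303) (nat_lit 263)))) (XT.nd (nat_lit 156) (nat_lit 76) (nat_lit 0) (XT.nd (nat_lit 78) (nat_lit 0) (nat_lit 0) (XT.lf (nat_lit 0) (nat_lit 456538146) (nat_lit 152) (nat_lit 22371210535) (nat_lit 76) (nat_lit 758700883) (nat_lit 18) (nat_lit 5) (nat_lit 20) (nat_lit 5) (nat_lit 19) (nat_lit 4) (nat_lit 335) (nat_lit 303) (nat_lit 262)) (XT.lf (nat_lit 0) (nat_lit 5864998931) (nat_lit 152) (nat_lit 11198516661) (nat_lit 76) (nat_lit 7831406306) (nat_lit 18) (nat_lit 5) (nat_lit 20) (nat_lit 5) (nat_lit 19) (nat_lit 4) (nat_lit 336) (nat_lit 303) (nat_lit 261))) (XT.nd (nat_lit 78) (nat_lit 0) (nat_lit 0) (XT.lf (nat_lit 0) (nat_lit 837303834) (nat_lit 76) (nat_lit 10848381838) (nat_lit 152) (nat_lit 14624046802) (nat_lit 17)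 (nat_lit 5) (nat_lit 18) (nat_lit 5) (nat_lit 19) (nat_lit 4) (nat_lit 337) (nat_lit 303) (nat_lit 260)) (XT.nd (nat_lit 78) (nat_lit 0) (nat_lit 0) (XT.lf (nat_lit 0) (nat_lit 14402122642) (nat_lit 76) (nat_lit 3836809219) (nat_lit 152) (nat_lit 9577466248) (nat_lit 17) (nat_lit 5) (nat_lit 18) (nat_lit 5) (nat_lit 19) (nat_lit 4) (nat_lit 338) (nat_lit 303) (nat_lit 259)) (XT.lf (nat_lit 0) (nat_lit 25369207777) (nat_lit 152) (nat_lit 549040882) (nat_lit 0) (nat_lit 3521147637) (nat_lit 17) (nat_lit 5) (nat_lit 19) (nat_lit 4) (nat_lit 17) (nat_lit 4) (nat_lit 339) (nat_lit 303) (nat_lit 258))))))))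
noncomputable def xc106 : XT := (XT.nd (nat_lit 1326) (nat_lit 304) (nat_lit 0) (XT.nd (nat_lit 624) (nat_lit 304) (nat_lit 0) (XT.nd (nat_lit 312) (nat_lit 228) (nat_lit 0) (XT.nd (nat_lit 156) (nat_lit 76) (nat_lit 0) (XT.nd (nat_lit 78) (nat_lit 0) (nat_lit 0) (XT.lf (nat_lit 0) (nat_lit 2193168113) (nat_lit 152) (nat_lit 17338610414) (nat_lit 76) (nat_lit 11624107054) (nat_lit 15) (nat_lit 5) (nat_lit 17) (nat_lit 5) (nat_lit 16) (nat_lit 4) (nat_lit 340) (nat_lit 303) (nat_lit 257)) (XT.lf (nat_lit 0) (nat_lit 8718963808) (nat_lit 152) (nat_lit 3813418286) (nat_lit 76) (nat_lit 20470369658) (nat_lit 15) (nat_lit 5) (nat_lit 17) (nat_lit 5) (nat_lit 16) (nat_lit 4) (nat_lit 341) (nat_lit 303) (nat_lit 256))) (XT.nd (nat_lit 78) (nat_lit 0) (nat_lit 0) (XT.lf (nat_lit 0) (nat_lit 11300827302) (nat_lit 76) (nat_lit 4706174324) (nat_lit 152) (nat_lit 18971166679) (nat_lit 14) (nat_lit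 5) (nat_lit 15) (nat_lit 5) (nat_lit 16) (nat_lit 4) (nat_lit 342) (nat_lit 303) (nat_lit 255)) (XT.lf (nat_lit 0) (nat_lit 24043889954) (nat_lit 152) (nat_lit 9413629773) (nat_lit 0) (nat_lit 3640848081) (nat_lit 14) (nat_lit 5) (nat_lit 16) (nat_lit 4) (nat_lit 14) (nat_lit 4) (nat_lit 343) (nat_lit 303) (nat_lit 254)))) (XT.nd (nat_lit 156) (nat_lit 76) (nat_lit 0) (XT.nd (nat_lit 78) (nat_lit 76) (nat_lit 0) (XT.lf (nat_lit 0) (nat_lit 6120837338) (nat_lit 76) (nat_lit 26843391362) (nat_lit 76) (nat_lit 6404727797) (nat_lit 13) (nat_lit 4) (nat_lit 14) (nat_lit 5) (nat_lit 14) (nat_lit 4) (nat_lit 344) (nat_lit 303) (nat_lit 253)) (XT.lf (nat_lit 0) (nat_lit 973389543) (nat_lit 152) (nat_lit 18446996362) (nat_lit 76) (nat_lit 22380502227) (nat_lit 12) (nat_lit 5) (nat_lit 14) (nat_lit 5) (nat_lit 13) (nat_lit 4) (nat_lit 345) (nat_lit 303) (nat_lit 252))) (XT.nd (nat_lit 78) (nat_lit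 76) (nat_lit 0) (XT.lf (nat_lit 0) (nat_lit 8569054450) (nat_lit 152) (nat_lit 2678553213) (nat_lit 76) (nat_lit 33168602980) (nat_lit 12) (nat_lit 5) (nat_lit 14) (nat_lit 5) (nat_lit 13) (nat_lit 4) (nat_lit 346) (nat_lit 303) (nat_lit 251)) (XT.lf (nat_lit 0) (nat_lit 15057946227) (nat_lit 76) (nat_lit 2051866438) (nat_lit 152) (nat_lit 30103960762) (nat_lit 11) (nat_lit 5) (nat_lit 12) (nat_lit 5) (nat_lit 13) (nat_lit 4) (nat_lit 347) (nat_lit 303) (nat_lit 250))))) (XT.nd (nat_lit 312) (nat_lit 152) (nat_lit 0) (XT.nd (nat_lit 156) (nat_lit 76) (nat_lit 0) (XT.nd (nat_lit 78) (nat_lit 76) (nat_lit 0) (XT.lf (nat_lit 0) (nat_lit 26573987252) (nat_lit 152) (nat_lit 16101895762) (nat_lit 0) (nat_lit 7540054728) (nat_lit 11) (nat_lit 5) (nat_lit 13) (nat_lit 4) (nat_lit 11) (nat_lit 4) (nat_lit 348) (nat_lit 303) (nat_lit 249)) (XT.lf (nat_lit 0) (nat_lit 1199634491) (nat_lit 76) (nat_lit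 35655135648) (nat_lit 76) (nat_lit 16598755417) (nat_lit 10) (nat_lit 4) (nat_lit 11) (nat_lit 5) (nat_lit 11) (nat_lit 4) (nat_lit 349) (nat_lit 303) (nat_lit 248))) (XT.nd (nat_lit 78) (nat_lit 76) (nat_lit 0) (XT.lf (nat_lit 0) (nat_lit 20758684720) (nat_lit 76) (nat_lit 27617574511) (nat_lit 76) (nat_lit 8540409364) (nat_lit 10) (nat_lit 4) (nat_lit 11) (nat_lit 5) (nat_lit 11) (nat_lit 4) (nat_lit 350) (nat_lit 303) (nat_lit 247)) (XT.lf (nat_lit 0) (nat_lit 133553759) (nat_lit 152) (nat_lit 18818618619) (nat_lit 76) (nat_lit 41706057756) (nat_lit 9) (nat_lit 5) (nat_lit 11) (nat_lit 5) (nat_lit 10) (nat_lit 4) (nat_lit 351) (nat_lit 303) (nat_lit 246)))) (XT.nd (nat_lit 156) (nat_lit 76) (nat_lit 0) (XT.nd (nat_lit 78) (nat_lit 76) (nat_lit 0) (XT.lf (nat_lit 0) (nat_lit 9020662883) (nat_lit 152) (nat_lit 351251354) (nat_lit 76) (nat_lit 55311011523) (nat_lit 9) (nat_lit 5) (nat_lit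 11) (nat_lit 5) (nat_lit 10) (nat_lit 4) (nat_lit 352) (nat_lit 303) (nat_lit 245)) (XT.lf (nat_lit 0) (nat_lit 19131876293) (nat_lit 152) (nat_lit 48438438043) (nat_lit 0) (nat_lit 1418237507) (nat_lit 8) (nat_lit 5) (nat_lit 10) (nat_lit 4) (nat_lit 8) (nat_lit 4) (nat_lit 353) (nat_lit 303) (nat_lit 244))) (XT.nd (nat_lit 78) (nat_lit 76) (nat_lit 0) (XT.lf (nat_lit 0) (nat_lit 30287461060) (nat_lit 152) (nat_lit 30772657829) (nat_lit 0) (nat_lit 12559676411) (nat_lit 8) (nat_lit 5) (nat_lit 10) (nat_lit 4) (nat_lit 8) (nat_lit 4) (nat_lit 354) (nat_lit 303) (nat_lit 243)) (XT.nd (nat_lit 78) (nat_lit 76) (nat_lit 0) (XT.lf (nat_lit 0) (nat_lit 42319006180) (nat_lit 152) (nat_lit 11725732302) (nat_lit 0) (nat_lit 24578123509) (nat_lit 8) (nat_lit 5) (nat_lit 10) (nat_lit 4) (nat_lit 8) (nat_lit 4) (nat_lit 355) (nat_lit 303) (nat_lit 242)) (XT.lf (nat_lit 0) (nat_lit 9279402500) (nat_lit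 76) (nat_lit 46241577050) (nat_lit 76) (nat_lit 28488566580) (nat_lit 7) (nat_lit 4) (nat_lit 8) (nat_lit 5) (nat_lit 8) (nat_lit 4) (nat_lit 356) (nat_lit 303) (nat_lit 241))))))) (XT.nd (nat_lit 624) (nat_lit 152) (nat_lit 0) (XT.nd (nat_lit 312) (nat_lit 0) (nat_lit 0) (XT.nd (nat_lit 156) (nat_lit 152) (nat_lit 0) (XT.nd (nat_lit 78) (nat_lit 0) (nat_lit 0) (XT.lf (nat_lit 0) (nat_lit 32602815676) (nat_lit 76) (nat_lit 37482065865) (nat_lit 76) (nat_lit 19717825953) (nat_lit 7) (nat_lit 4) (nat_lit 8) (nat_lit 5) (nat_lit 8) (nat_lit 4) (nat_lit 357) (nat_lit 303) (nat_lit 240)) (XT.lf (nat_lit 0) (nat_lit 57765263759) (nat_lit 76) (nat_lit 28034899014) (nat_lit 76) (nat_lit 10260261470) (nat_lit 7) (nat_lit 4) (nat_lit 8) (nat_lit 5) (nat_lit 8) (nat_lit 4) (nat_lit 358) (nat_lit 303) (nat_lit 239))) (XT.nd (nat_lit 78) (nat_lit 152) (nat_lit 0) (XT.lf (nat_lit 0) (nat_lit 84915857554)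 (nat_lit 76) (nat_lit 17844093288) (nat_lit 76) (nat_lit 59828306) (nat_lit 7) (nat_lit 4) (nat_lit 8) (nat_lit 5) (nat_lit 8) (nat_lit 4) (nat_lit 359) (nat_lit 303) (nat_lit 238)) (XT.lf (nat_lit 0) (nat_lit 4033218181) (nat_lit 76) (nat_lit 6460242134) (nat_lit 152) (nat_lit 99598551282) (nat_lit 5) (nat_lit 5) (nat_lit 6) (nat_lit 5) (nat_lit 7) (nat_lit 4) (nat_lit 360) (nat_lit 303) (nat_lit 237)))) (XT.nd (nat_lit 156) (nat_lit 0) (nat_lit 0) (XT.nd (nat_lit 78) (nat_lit 0) (nat_lit 0) (XT.lf (nat_lit 0) (nat_lit 22518321090) (nat_lit 152) (nat_lit 89341624228) (nat_lit 0) (nat_lit 6035512524) (nat_lit 5) (nat_lit 5) (nat_lit 7) (nat_lit 4) (nat_lit 5) (nat_lit 4) (nat_lit 361) (nat_lit 303) (nat_lit 236)) (XT.lf (nat_lit 0) (nat_lit 35661845149) (nat_lit 152) (nat_lit 71476843171) (nat_lit 0) (nat_lit 19171960130) (nat_lit 5) (nat_lit 5) (nat_lit 7) (nat_lit 4) (nat_lit 5) (nat_lit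 4) (nat_lit 362) (nat_lit 303) (nat_lit 235))) (XT.nd (nat_lit 78) (nat_lit 0) (nat_lit 0) (XT.lf (nat_lit 0) (nat_lit 49846551065) (nat_lit 152) (nat_lit 52203215897) (nat_lit 0) (nat_lit 33350113773) (nat_lit 5) (nat_lit 5) (nat_lit 7) (nat_lit 4) (nat_lit 5) (nat_lit 4) (nat_lit 363) (nat_lit 303) (nat_lit 234)) (XT.lf (nat_lit 0) (nat_lit 65156496352) (nat_lit 152) (nat_lit 31406528319) (nat_lit 0) (nat_lit 48653992142) (nat_lit 5) (nat_lit 5) (nat_lit 7) (nat_lit 4) (nat_lit 5) (nat_lit 4) (nat_lit 364) (nat_lit 303) (nat_lit 233))))) (XT.nd (nat_lit 312) (nat_lit 76) (nat_lit 0) (XT.nd (nat_lit 156) (nat_lit 0) (nat_lit 0) (XT.nd (nat_lit 78) (nat_lit 76) (nat_lit 0) (XT.lf (nat_lit 0) (nat_lit 81682406615) (nat_lit 152) (nat_lit 8963540806) (nat_lit 0) (nat_lit 65174284887) (nat_lit 5) (nat_lit 5) (nat_lit 7) (nat_lit 4) (nat_lit 5) (nat_lit 4) (nat_lit 365) (nat_lit 303) (nat_lit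 232)) (XT.lf (nat_lit 0) (nat_lit 16062240440) (nat_lit 76) (nat_lit 83846269999) (nat_lit 76) (nat_lit 67332946867) (nat_lit 4) (nat_lit 4) (nat_lit 5) (nat_lit 5) (nat_lit 5) (nat_lit 4) (nat_lit 366) (nat_lit 303) (nat_lit 231))) (XT.nd (nat_lit 78) (nat_lit 0) (nat_lit 0) (XT.lf (nat_lit 0) (nat_lit 43584113809) (nat_lit 76) (nat_lit 76245718569) (nat_lit 76) (nat_lit 59727579322) (nat_lit 4) (nat_lit 4) (nat_lit 5) (nat_lit 5) (nat_lit 5) (nat_lit 4) (nat_lit 367) (nat_lit 303) (nat_lit 230)) (XT.lf (nat_lit 0) (nat_lit 73293167708) (nat_lit 76) (nat_lit 68044331918) (nat_lit 76) (nat_lit 51521733304) (nat_lit 4) (nat_lit 4) (nat_lit 5) (nat_lit 5) (nat_lit 5) (nat_lit 4) (nat_lit 368) (nat_lit 303) (nat_lit 229)))) (XT.nd (nat_lit 156) (nat_lit 76) (nat_lit 0) (XT.nd (nat_lit 78) (nat_lit 0) (nat_lit 0) (XT.lf (nat_lit 0) (nat_lit 105365455789) (nat_lit 76) (nat_lit 59193509236)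 (nat_lit 76) (nat_lit 42666781579) (nat_lit 4) (nat_lit 4) (nat_lit 5) (nat_lit 5) (nat_lit 5) (nat_lit 4) (nat_lit 369) (nat_lit 303) (nat_lit 228)) (XT.lf (nat_lit 0) (nat_lit 139991036057) (nat_lit 76) (nat_lit 49640801203) (nat_lit 76) (nat_lit 33110250358) (nat_lit 4) (nat_lit 4) (nat_lit 5) (nat_lit 5) (nat_lit 5) (nat_lit 4) (nat_lit 370) (nat_lit 303) (nat_lit 227))) (XT.nd (nat_lit 78) (nat_lit 76) (nat_lit 0) (XT.lf (nat_lit 0) (nat_lit 177375097134) (nat_lit 76) (nat_lit 39329599179) (nat_lit 76) (nat_lit 22795508345) (nat_lit 4) (nat_lit 4) (nat_lit 5) (nat_lit 5) (nat_lit 5) (nat_lit 4) (nat_lit 371) (nat_lit 303) (nat_lit 226)) (XT.nd (nat_lit 78) (nat_lit 76) (nat_lit 0) (XT.lf (nat_lit 0) (nat_lit 217739174198) (nat_lit 76) (nat_lit 28198799744) (nat_lit 76) (nat_lit 11661431143) (nat_lit 4) (nat_lit 4) (nat_lit 5) (nat_lit 5) (nat_lit 5) (nat_lit 4) (nat_lit 372) (nat_lit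 303) (nat_lit 225)) (XT.lf (nat_lit 0) (nat_lit 340054306) (nat_lit 152) (nat_lit 15833090611) (nat_lit 76) (nat_lit 260973109785) (nat_lit 3) (nat_lit 5) (nat_lit 5) (nat_lit 5) (nat_lit 4) (nat_lit 4) (nat_lit 373) (nat_lit 303) (nat_lit 224))))))))
noncomputable def xc107 : XT := (XT.nd (nat_lit 1326) (nat_lit 76) (nat_lit 0) (XT.nd (nat_lit 624) (nat_lit 0) (nat_lit 0) (XT.nd (nat_lit 312) (nat_lit 0) (nat_lit 0) (XT.nd (nat_lit 156) (nat_lit 0) (nat_lit 0) (XT.nd (nat_lit 78) (nat_lit 0) (nat_lit 0) (XT.lf (nat_lit 0) (nat_lit 10320149485) (nat_lit 76) (nat_lit 2594928982) (nat_lit 152) (nat_lit 285298068036) (nat_lit 2) (nat_lit 5) (nat_lit 3) (nat_lit 5) (nat_lit 4) (nat_lit 4) (nat_lit 374) (nat_lit 303) (nat_lit 223)) (XT.lf (nat_lit 0) (nat_lit 27225788291) (nat_lit 152) (nat_lit 281775639003) (nat_lit 0) (nat_lit 11905588546) (nat_lit 2) (nat_lit 5) (nat_lit 4) (nat_lit 4) (nat_lit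 2) (nat_lit 4) (nat_lit 375) (nat_lit 303) (nat_lit 222))) (XT.nd (nat_lit 78) (nat_lit 0) (nat_lit 0) (XT.lf (nat_lit 0) (nat_lit 42744368492) (nat_lit 152) (nat_lit 275245048015) (nat_lit 0) (nat_lit 27421937954) (nat_lit 2) (nat_lit 5) (nat_lit 4) (nat_lit 4) (nat_lit 2) (nat_lit 4) (nat_lit 376) (nat_lit 303) (nat_lit 221)) (XT.lf (nat_lit 0) (nat_lit 59500372923) (nat_lit 152) (nat_lit 268200116152) (nat_lit 0) (nat_lit 44175876835) (nat_lit 2) (nat_lit 5) (nat_lit 4) (nat_lit 4) (nat_lit 2) (nat_lit 4) (nat_lit 377) (nat_lit 303) (nat_lit 220)))) (XT.nd (nat_lit 156) (nat_lit 0) (nat_lit 0) (XT.nd (nat_lit 78) (nat_lit 0) (nat_lit 0) (XT.lf (nat_lit 0) (nat_lit 77593096425) (nat_lit 152) (nat_lit 260599095669) (nat_lit 0) (nat_lit 62266687791) (nat_lit 2) (nat_lit 5) (nat_lit 4) (nat_lit 4) (nat_lit 2) (nat_lit 4) (nat_lit 378) (nat_lit 303) (nat_lit 219)) (XT.lf (nat_lit 0) (nat_lit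 97129755137) (nat_lit 152) (nat_lit 252396943483) (nat_lit 0) (nat_lit 81801575628) (nat_lit 2) (nat_lit 5) (nat_lit 4) (nat_lit 4) (nat_lit 2) (nat_lit 4) (nat_lit 379) (nat_lit 303) (nat_lit 218))) (XT.nd (nat_lit 78) (nat_lit 0) (nat_lit 0) (XT.lf (nat_lit 0) (nat_lit 118226121851) (nat_lit 152) (nat_lit 243545054247) (nat_lit 0) (nat_lit 102896302642) (nat_lit 2) (nat_lit 5) (nat_lit 4) (nat_lit 4) (nat_lit 2) (nat_lit 4) (nat_lit 380) (nat_lit 303) (nat_lit 217)) (XT.lf (nat_lit 0) (nat_lit 141007212074) (nat_lit 152) (nat_lit 233990972321) (nat_lit 0) (nat_lit 125675874625) (nat_lit 2) (nat_lit 5) (nat_lit 4) (nat_lit 4) (nat_lit 2) (nat_lit 4) (nat_lit 381) (nat_lit 303) (nat_lit 216))))) (XT.nd (nat_lit 312) (nat_lit 0) (nat_lit 0) (XT.nd (nat_lit 156) (nat_lit 0) (nat_lit 0) (XT.nd (nat_lit 78) (nat_lit 0) (nat_lit 0) (XT.lf (nat_lit 0) (nat_lit 165608024860) (nat_lit 152) (nat_lit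 223678080923) (nat_lit 0) (nat_lit 150275281632) (nat_lit 2) (nat_lit 5) (nat_lit 4) (nat_lit 4) (nat_lit 2) (nat_lit 4) (nat_lit 382) (nat_lit 303) (nat_lit 215)) (XT.lf (nat_lit 0) (nat_lit 192174342801) (nat_lit 152) (nat_lit 212545266623) (nat_lit 0) (nat_lit 176840297927) (nat_lit 2) (nat_lit 5) (nat_lit 4) (nat_lit 4) (nat_lit 2) (nat_lit 4) (nat_lit 383) (nat_lit 303) (nat_lit 214))) (XT.nd (nat_lit 78) (nat_lit 0) (nat_lit 0) (XT.lf (nat_lit 0) (nat_lit 220863595932) (nat_lit 152) (nat_lit 200526557188) (nat_lit 0) (nat_lit 205528345829) (nat_lit 2) (nat_lit 5) (nat_lit 4) (nat_lit 4) (nat_lit 2) (nat_lit 4) (nat_lit 384) (nat_lit 303) (nat_lit 213)) (XT.lf (nat_lit 0) (nat_lit 251845794639) (nat_lit 152) (nat_lit 187550730636) (nat_lit 0) (nat_lit 236509428585) (nat_lit 2) (nat_lit 5) (nat_lit 4) (nat_lit 4) (nat_lit 2) (nat_lit 4) (nat_lit 385) (nat_lit 303) (nat_lit 212))))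 (XT.nd (nat_lit 156) (nat_lit 0) (nat_lit 0) (XT.nd (nat_lit 78) (nat_lit 0) (nat_lit 0) (XT.lf (nat_lit 0) (nat_lit 285304537139) (nat_lit 152) (nat_lit 173540893179) (nat_lit 0) (nat_lit 269967137796) (nat_lit 2) (nat_lit 5) (nat_lit 4) (nat_lit 4) (nat_lit 2) (nat_lit 4) (nat_lit 386) (nat_lit 303) (nat_lit 211)) (XT.lf (nat_lit 0) (nat_lit 321438097461) (nat_lit 152) (nat_lit 158414023560) (nat_lit 0) (nat_lit 306099741368) (nat_lit 2) (nat_lit 5) (nat_lit 4) (nat_lit 4) (nat_lit 2) (nat_lit 4) (nat_lit 387) (nat_lit 303) (nat_lit 210))) (XT.nd (nat_lit 78) (nat_lit 0) (nat_lit 0) (XT.lf (nat_lit 0) (nat_lit 360460600406) (nat_lit 152) (nat_lit 142080481069) (nat_lit 0) (nat_lit 345121358435) (nat_lit 2) (nat_lit 5) (nat_lit 4) (nat_lit 4) (nat_lit 2) (nat_lit 4) (nat_lit 388) (nat_lit 303) (nat_lit 209)) (XT.nd (nat_lit 78) (nat_lit 0) (nat_lit 0) (XT.lf (nat_lit 0) (nat_lit 402603290437)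 (nat_lit 152) (nat_lit 124443474344) (nat_lit 0) (nat_lit 387263228207) (nat_lit 2) (nat_lit 5) (nat_lit 4) (nat_lit 4) (nat_lit 2) (nat_lit 4) (nat_lit 389) (nat_lit 303) (nat_lit 208)) (XT.lf (nat_lit 0) (nat_lit 448115902012) (nat_lit 152) (nat_lit 105398487788) (nat_lit 0) (nat_lit 432775080285) (nat_lit 2) (nat_lit 5) (nat_lit 4) (nat_lit 4) (nat_lit 2) (nat_lit 4) (nat_lit 390) (nat_lit 303) (nat_lit 207))))))) (XT.nd (nat_lit 702) (nat_lit 0) (nat_lit 0) (XT.nd (nat_lit 312) (nat_lit 76) (nat_lit 0) (XT.nd (nat_lit 156) (nat_lit 0) (nat_lit 0) (XT.nd (nat_lit 78) (nat_lit 0) (nat_lit 0) (XT.lf (nat_lit 0) (nat_lit 497268139498) (nat_lit 152) (nat_lit 84832662223) (nat_lit 0) (nat_lit 481926614531) (nat_lit 2) (nat_lit 5) (nat_lit 4) (nat_lit 4) (nat_lit 2) (nat_lit 4) (nat_lit 391) (nat_lit 303) (nat_lit 206)) (XT.lf (nat_lit 0) (nat_lit 550351275412) (nat_lit 152) (nat_lit 62624126089)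 (nat_lit 0) (nat_lit 535009099298) (nat_lit 2) (nat_lit 5) (nat_lit 4) (nat_lit 4) (nat_lit 2) (nat_lit 4) (nat_lit 392) (nat_lit 303) (nat_lit 205))) (XT.nd (nat_lit 78) (nat_lit 0) (nat_lit 0) (XT.lf (nat_lit 0) (nat_lit 607679876485) (nat_lit 152) (nat_lit 38641273246) (nat_lit 0) (nat_lit 592337097457) (nat_lit 2) (nat_lit 5) (nat_lit 4) (nat_lit 4) (nat_lit 2) (nat_lit 4) (nat_lit 393) (nat_lit 303) (nat_lit 204)) (XT.lf (nat_lit 0) (nat_lit 669593667762) (nat_lit 152) (nat_lit 12741983085) (nat_lit 0) (nat_lit 654250330480) (nat_lit 2) (nat_lit 5) (nat_lit 4) (nat_lit 4) (nat_lit 2) (nat_lit 4) (nat_lit 394) (nat_lit 303) (nat_lit 203)))) (XT.nd (nat_lit 156) (nat_lit 0) (nat_lit 0) (XT.nd (nat_lit 78) (nat_lit 0) (nat_lit 0) (XT.lf (nat_lit 0) (nat_lit 16029060176) (nat_lit 76) (nat_lit 720815984889) (nat_lit 76) (nat_lit 705472130705) (nat_lit 1) (nat_lit 4) (nat_lit 2) (nat_lit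 5) (nat_lit 2) (nat_lit 4) (nat_lit 395) (nat_lit 303) (nat_lit 202)) (XT.lf (nat_lit 0) (nat_lit 47824457505) (nat_lit 76) (nat_lit 761999474635) (nat_lit 76) (nat_lit 746655141838) (nat_lit 1) (nat_lit 4) (nat_lit 2) (nat_lit 5) (nat_lit 2) (nat_lit 4) (nat_lit 396) (nat_lit 303) (nat_lit 201))) (XT.nd (nat_lit 78) (nat_lit 0) (nat_lit 0) (XT.lf (nat_lit 0) (nat_lit 82161655822) (nat_lit 76) (nat_lit 806478558793) (nat_lit 76) (nat_lit 791133782836) (nat_lit 1) (nat_lit 4) (nat_lit 2) (nat_lit 5) (nat_lit 2) (nat_lit 4) (nat_lit 397) (nat_lit 303) (nat_lit 200)) (XT.nd (nat_lit 78) (nat_lit 0) (nat_lit 0) (XT.lf (nat_lit 0) (nat_lit 119244134821) (nat_lit 76) (nat_lit 854516817122) (nat_lit 76) (nat_lit 839171630832) (nat_lit 1) (nat_lit 4) (nat_lit 2) (nat_lit 5) (nat_lit 2) (nat_lit 4) (nat_lit 398) (nat_lit 303) (nat_lit 199)) (XT.lf (nat_lit 0) (nat_lit 159291642525) (nat_lit 76)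 (nat_lit 906398920781) (nat_lit 76) (nat_lit 891053354553) (nat_lit 1) (nat_lit 4) (nat_lit 2) (nat_lit 5) (nat_lit 2) (nat_lit 4) (nat_lit 399) (nat_lit 303) (nat_lit 198)))))) (XT.nd (nat_lit 312) (nat_lit 0) (nat_lit 0) (XT.nd (nat_lit 156) (nat_lit 0) (nat_lit 0) (XT.nd (nat_lit 78) (nat_lit 0) (nat_lit 0) (XT.lf (nat_lit 0) (nat_lit 202541497498) (nat_lit 76) (nat_lit 962432319275) (nat_lit 76) (nat_lit 947086401253) (nat_lit 1) (nat_lit 4) (nat_lit 2) (nat_lit 5) (nat_lit 2) (nat_lit 4) (nat_lit 400) (nat_lit 303) (nat_lit 197)) (XT.lf (nat_lit 0) (nat_lit 249249995178) (nat_lit 76) (nat_lit 1022949062372) (nat_lit 76) (nat_lit 1007602818614) (nat_lit 1) (nat_lit 4) (nat_lit 2) (nat_lit 5) (nat_lit 2) (nat_lit 4) (nat_lit 401) (nat_lit 303) (nat_lit 196))) (XT.nd (nat_lit 78) (nat_lit 0) (nat_lit 0) (XT.lf (nat_lit 0) (nat_lit 299693926662) (nat_lit 76) (nat_lit 1088307767809) (nat_lit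 76) (nat_lit 1072961222443) (nat_lit 1) (nat_lit 4) (nat_lit 2) (nat_lit 5) (nat_lit 2) (nat_lit 4) (nat_lit 402) (nat_lit 303) (nat_lit 195)) (XT.lf (nat_lit 0) (nat_lit 354172218951) (nat_lit 76) (nat_lit 1158895746432) (nat_lit 76) (nat_lit 1143548921801) (nat_lit 1) (nat_lit 4) (nat_lit 2) (nat_lit 5) (nat_lit 2) (nat_lit 4) (nat_lit 403) (nat_lit 303) (nat_lit 194)))) (XT.nd (nat_lit 156) (nat_lit 0) (nat_lit 0) (XT.nd (nat_lit 78) (nat_lit 0) (nat_lit 0) (XT.lf (nat_lit 0) (nat_lit 413007706370) (nat_lit 76) (nat_lit 1235131297375) (nat_lit 76) (nat_lit 1219784214164) (nat_lit 1) (nat_lit 4) (nat_lit 2) (nat_lit 5) (nat_lit 2) (nat_lit 4) (nat_lit 404) (nat_lit 303) (nat_lit 193)) (XT.lf (nat_lit 0) (nat_lit 476549043659) (nat_lit 76) (nat_lit 1317466186865) (nat_lit 76) (nat_lit 1302118864229) (nat_lit 1) (nat_lit 4) (nat_lit 2) (nat_lit 5) (nat_lit 2) (nat_lit 4) (nat_lit 405)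 (nat_lit 303) (nat_lit 192))) (XT.nd (nat_lit 78) (nat_lit 0) (nat_lit 0) (XT.lf (nat_lit 0) (nat_lit 545172772076) (nat_lit 76) (nat_lit 1406388325359) (nat_lit 76) (nat_lit 1391040781032) (nat_lit 1) (nat_lit 4) (nat_lit 2) (nat_lit 5) (nat_lit 2) (nat_lit 4) (nat_lit 406) (nat_lit 303) (nat_lit 191)) (XT.nd (nat_lit 78) (nat_lit 0) (nat_lit 0) (XT.lf (nat_lit 0) (nat_lit 619285550752) (nat_lit 76) (nat_lit 1502424658862) (nat_lit 76) (nat_lit 1487076909267) (nat_lit 1) (nat_lit 4) (nat_lit 2) (nat_lit 5) (nat_lit 2) (nat_lit 4) (nat_lit 407) (nat_lit 303) (nat_lit 190)) (XT.lf (nat_lit 0) (nat_lit 699326566525) (nat_lit 76) (nat_lit 1606144291574) (nat_lit 76) (nat_lit 1590796351914) (nat_lit 1) (nat_lit 4) (nat_lit 2) (nat_lit 5) (nat_lit 2) (nat_lit 4) (nat_lit 408) (nat_lit 303) (nat_lit 189))))))))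
noncomputable def xc108 : XT := (XT.nd (nat_lit 39702) (nat_lit 0) (nat_lit 1520) (XT.nd (nat_lit 39000) (nat_lit 0) (nat_lit 3496) (XT.nd (nat_lit 38688) (nat_lit 0) (nat_lit 4940) (XT.nd (nat_lit 156) (nat_lit 0) (nat_lit 0) (XT.nd (nat_lit 78) (nat_lit 0) (nat_lit 0) (XT.lf (nat_lit 0) (nat_lit 785770136524) (nat_lit 76) (nat_lit 1718161858353) (nat_lit 76) (nat_lit 1702813742709) (nat_lit 1) (nat_lit 4) (nat_lit 2) (nat_lit 5) (nat_lit 2) (nat_lit 4) (nat_lit 409) (nat_lit 303) (nat_lit 188)) (XT.lf (nat_lit 0) (nat_lit 879128518942) (nat_lit 76) (nat_lit 1839141167004) (nat_lit 76) (nat_lit 1823792888411) (nat_lit 1) (nat_lit 4) (nat_lit 2) (nat_lit 5) (nat_lit 2) (nat_lit 4) (nat_lit 410) (nat_lit 303) (nat_lit 187))) (XT.nd (nat_lit 78) (nat_lit 0) (nat_lit 0) (XT.lf (nat_lit 0) (nat_lit 979954948638) (nat_lit 76) (nat_lit 1969799131949) (nat_lit 76) (nat_lit 1954450702477) (nat_lit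 1) (nat_lit 4) (nat_lit 2) (nat_lit 5) (nat_lit 2) (nat_lit 4) (nat_lit 411) (nat_lit 303) (nat_lit 186)) (XT.lf (nat_lit 0) (nat_lit 1088846915566) (nat_lit 76) (nat_lit 2110910022608) (nat_lit 76) (nat_lit 2095561453434) (nat_lit 1) (nat_lit 4) (nat_lit 2) (nat_lit 5) (nat_lit 2) (nat_lit 4) (nat_lit 412) (nat_lit 303) (nat_lit 185)))) (XT.nd (nat_lit 156) (nat_lit 0) (nat_lit 0) (XT.nd (nat_lit 78) (nat_lit 380) (nat_lit 0) (XT.lf (nat_lit 0) (nat_lit 1716192223) (nat_lit 0) (nat_lit 1716192223) (nat_lit 228) (nat_lit 20059697) (nat_lit 71) (nat_lit 5) (nat_lit 71) (nat_lit 3) (nat_lit 74) (nat_lit 3) (nat_lit 304) (nat_lit 304) (nat_lit 292)) (XT.lf (nat_lit 0) (nat_lit 1779380158) (nat_lit 380) (nat_lit 172423602) (nat_lit 380) (nat_lit 5079636393) (nat_lit 66) (nat_lit 3) (nat_lit 71) (nat_lit 3) (nat_lit 71) (nat_lit 5) (nat_lit 305) (nat_lit 304) (nat_lit 291))) (XT.nd (nat_lit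 78) (nat_lit 0) (nat_lit 76) (XT.lf (nat_lit 76) (nat_lit 3465494671) (nat_lit 0) (nat_lit 178133539) (nat_lit 380) (nat_lit 3532716570) (nat_lit 67) (nat_lit 5) (nat_lit 66) (nat_lit 3) (nat_lit 71) (nat_lit 5) (nat_lit 306) (nat_lit 304) (nat_lit 290)) (XT.lf (nat_lit 0) (nat_lit 5534620618) (nat_lit 304) (nat_lit 81965404) (nat_lit 380) (nat_lit 1726436707) (nat_lit 67) (nat_lit 5) (nat_lit 71) (nat_lit 5) (nat_lit 72) (nat_lit 5) (nat_lit 307) (nat_lit 304) (nat_lit 289))))) (XT.nd (nat_lit 312) (nat_lit 836) (nat_lit 0) (XT.nd (nat_lit 156) (nat_lit 304) (nat_lit 0) (XT.nd (nat_lit 78) (nat_lit 380) (nat_lit 0) (XT.lf (nat_lit 76) (nat_lit 3925407478) (nat_lit 0) (nat_lit 3594020202) (nat_lit 380) (nat_lit 8564891) (nat_lit 68) (nat_lit 5) (nat_lit 67) (nat_lit 5) (nat_lit 72) (nat_lit 5) (nat_lit 308) (nat_lit 304) (nat_lit 288)) (XT.lf (nat_lit 76) (nat_lit 394352491) (nat_lit 0)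 (nat_lit 1304403993) (nat_lit 456) (nat_lit 6036764588) (nat_lit 63) (nat_lit 5) (nat_lit 62) (nat_lit 5) (nat_lit 68) (nat_lit 5) (nat_lit 309) (nat_lit 304) (nat_lit 287))) (XT.nd (nat_lit 78) (nat_lit 380) (nat_lit 0) (XT.lf (nat_lit 0) (nat_lit 3529417747) (nat_lit 380) (nat_lit 3185770029) (nat_lit 76) (nat_lit 1245755086) (nat_lit 63) (nat_lit 5) (nat_lit 68) (nat_lit 5) (nat_lit 64) (nat_lit 5) (nat_lit 310) (nat_lit 304) (nat_lit 286)) (XT.lf (nat_lit 0) (nat_lit 1218928668) (nat_lit 380) (nat_lit 4219371135) (nat_lit 456) (nat_lit 2771822122) (nat_lit 58) (nat_lit 5) (nat_lit 63) (nat_lit 5) (nat_lit 64) (nat_lit 5) (nat_lit 311) (nat_lit 304) (nat_lit 285)))) (XT.nd (nat_lit 156) (nat_lit 304) (nat_lit 0) (XT.nd (nat_lit 78) (nat_lit 532) (nat_lit 0) (XT.lf (nat_lit 0) (nat_lit 6049744518) (nat_lit 380) (nat_lit 1412976074) (nat_lit 456) (nat_lit 1019733802) (nat_lit 58) (nat_lit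 5) (nat_lit 63) (nat_lit 5) (nat_lit 64) (nat_lit 5) (nat_lit 312) (nat_lit 304) (nat_lit 284)) (XT.lf (nat_lit 0) (nat_lit 811743590) (nat_lit 532) (nat_lit 6333076035) (nat_lit 76) (nat_lit 1631655910) (nat_lit 51) (nat_lit 5) (nat_lit 58) (nat_lit 5) (nat_lit 52) (nat_lit 5) (nat_lit 313) (nat_lit 304) (nat_lit 283))) (XT.nd (nat_lit 78) (nat_lit 304) (nat_lit 0) (XT.lf (nat_lit 0) (nat_lit 2727803632) (nat_lit 532) (nat_lit 1418264512) (nat_lit 76) (nat_lit 4946573525) (nat_lit 51) (nat_lit 5) (nat_lit 58) (nat_lit 5) (nat_lit 52) (nat_lit 5) (nat_lit 314) (nat_lit 304) (nat_lit 282)) (XT.nd (nat_lit 78) (nat_lit 0) (nat_lit 0) (XT.lf (nat_lit 0) (nat_lit 3984808577) (nat_lit 304) (nat_lit 804668753) (nat_lit 380) (nat_lit 4645417784) (nat_lit 47) (nat_lit 5) (nat_lit 51) (nat_lit 5) (nat_lit 52) (nat_lit 5) (nat_lit 315) (nat_lit 304) (nat_lit 281)) (XT.lf (nat_lit 0) (nat_lit 7024944284)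 (nat_lit 380) (nat_lit 78655101) (nat_lit 76) (nat_lit 2700387672) (nat_lit 47) (nat_lit 5) (nat_lit 52) (nat_lit 5) (nat_lit 48) (nat_lit 5) (nat_lit 316) (nat_lit 304) (nat_lit 280))))))) (XT.nd (nat_lit 624) (nat_lit 836) (nat_lit 0) (XT.nd (nat_lit 312) (nat_lit 456) (nat_lit 0) (XT.nd (nat_lit 156) (nat_lit 152) (nat_lit 0) (XT.nd (nat_lit 78) (nat_lit 304) (nat_lit 0) (XT.lf (nat_lit 0) (nat_lit 5895030458) (nat_lit 228) (nat_lit 3615817378) (nat_lit 304) (nat_lit 686185180) (nat_lit 44) (nat_lit 5) (nat_lit 47) (nat_lit 5) (nat_lit 48) (nat_lit 5) (nat_lit 317) (nat_lit 304) (nat_lit 279)) (XT.lf (nat_lit 0) (nat_lit 1454037848) (nat_lit 304) (nat_lit 8955987602) (nat_lit 76) (nat_lit 211906798) (nat_lit 40) (nat_lit 5) (nat_lit 44) (nat_lit 5) (nat_lit 41) (nat_lit 5) (nat_lit 318) (nat_lit 304) (nat_lit 278))) (XT.nd (nat_lit 78) (nat_lit 152) (nat_lit 0) (XT.lf (nat_lit 0) (nat_lit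 3857687173) (nat_lit 304) (nat_lit 2937834531) (nat_lit 76) (nat_lit 4273656179) (nat_lit 40) (nat_lit 5) (nat_lit 44) (nat_lit 5) (nat_lit 41) (nat_lit 5) (nat_lit 319) (nat_lit 304) (nat_lit 277)) (XT.lf (nat_lit 0) (nat_lit 3644439788) (nat_lit 152) (nat_lit 2817840660) (nat_lit 228) (nat_lit 5089344200) (nat_lit 38) (nat_lit 5) (nat_lit 40) (nat_lit 5) (nat_lit 41) (nat_lit 5) (nat_lit 320) (nat_lit 304) (nat_lit 276)))) (XT.nd (nat_lit 156) (nat_lit 228) (nat_lit 0) (XT.nd (nat_lit 78) (nat_lit 228) (nat_lit 0) (XT.lf (nat_lit 0) (nat_lit 9317199114) (nat_lit 228) (nat_lit 1286242840) (nat_lit 76) (nat_lit 1465973784) (nat_lit 38) (nat_lit 5) (nat_lit 41) (nat_lit 5) (nat_lit 39) (nat_lit 5) (nat_lit 321) (nat_lit 304) (nat_lit 275)) (XT.lf (nat_lit 0) (nat_lit 5995996996) (nat_lit 228) (nat_lit 6551537234) (nat_lit 304) (nat_lit 69431474) (nat_lit 35) (nat_lit 5) (nat_lit 38) (nat_lit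 5) (nat_lit 39) (nat_lit 5) (nat_lit 322) (nat_lit 304) (nat_lit 274))) (XT.nd (nat_lit 78) (nat_lit 0) (nat_lit 0) (XT.lf (nat_lit 0) (nat_lit 592732762) (nat_lit 152) (nat_lit 2074888833) (nat_lit 228) (nat_lit 10536851611) (nat_lit 32) (nat_lit 5) (nat_lit 34) (nat_lit 5) (nat_lit 35) (nat_lit 5) (nat_lit 323) (nat_lit 304) (nat_lit 273)) (XT.lf (nat_lit 0) (nat_lit 5804971250) (nat_lit 228) (nat_lit 5236039704) (nat_lit 76) (nat_lit 2783096747) (nat_lit 32) (nat_lit 5) (nat_lit 35) (nat_lit 5) (nat_lit 33) (nat_lit 5) (nat_lit 324) (nat_lit 304) (nat_lit 272))))) (XT.nd (nat_lit 312) (nat_lit 456) (nat_lit 0) (XT.nd (nat_lit 156) (nat_lit 228) (nat_lit 0) (XT.nd (nat_lit 78) (nat_lit 0) (nat_lit 0) (XT.lf (nat_lit 0) (nat_lit 2720497026) (nat_lit 152) (nat_lit 6530074671) (nat_lit 228) (nat_lit 5238231842) (nat_lit 30) (nat_lit 5) (nat_lit 32) (nat_lit 5) (nat_lit 33) (nat_lit 5) (nat_lit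 325) (nat_lit 304) (nat_lit 271)) (XT.lf (nat_lit 0) (nat_lit 11522232139) (nat_lit 152) (nat_lit 1533146229) (nat_lit 228) (nat_lit 2144678329) (nat_lit 30) (nat_lit 5) (nat_lit 32) (nat_lit 5) (nat_lit 33) (nat_lit 5) (nat_lit 326) (nat_lit 304) (nat_lit 270))) (XT.nd (nat_lit 78) (nat_lit 0) (nat_lit 0) (XT.lf (nat_lit 0) (nat_lit 1301259564) (nat_lit 228) (nat_lit 10850701888) (nat_lit 76) (nat_lit 3800823955) (nat_lit 27) (nat_lit 5) (nat_lit 30) (nat_lit 5) (nat_lit 28) (nat_lit 5) (nat_lit 327) (nat_lit 304) (nat_lit 269)) (XT.lf (nat_lit 0) (nat_lit 4994813712) (nat_lit 228) (nat_lit 2149377483) (nat_lit 76) (nat_lit 9610112617) (nat_lit 27) (nat_lit 5) (nat_lit 30) (nat_lit 5) (nat_lit 28) (nat_lit 5) (nat_lit 328) (nat_lit 304) (nat_lit 268)))) (XT.nd (nat_lit 156) (nat_lit 304) (nat_lit 0) (XT.nd (nat_lit 78) (nat_lit 0) (nat_lit 0) (XT.lf (nat_lit 0) (nat_lit 7544832138) (nat_lit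 152) (nat_lit 1569378480) (nat_lit 228) (nat_lit 8495353133) (nat_lit 25) (nat_lit 5) (nat_lit 27) (nat_lit 5) (nat_lit 28) (nat_lit 5) (nat_lit 329) (nat_lit 304) (nat_lit 267)) (XT.lf (nat_lit 0) (nat_lit 13680602595) (nat_lit 228) (nat_lit 582186948) (nat_lit 76) (nat_lit 4261104605) (nat_lit 25) (nat_lit 5) (nat_lit 28) (nat_lit 5) (nat_lit 26) (nat_lit 4) (nat_lit 330) (nat_lit 304) (nat_lit 266))) (XT.nd (nat_lit 78) (nat_lit 228) (nat_lit 0) (XT.lf (nat_lit 0) (nat_lit 10044872061) (nat_lit 76) (nat_lit 8803565573) (nat_lit 152) (nat_lit 644084590) (nat_lit 24) (nat_lit 5) (nat_lit 25) (nat_lit 5) (nat_lit 26) (nat_lit 4) (nat_lit 331) (nat_lit 304) (nat_lit 265)) (XT.nd (nat_lit 78) (nat_lit 0) (nat_lit 0) (XT.lf (nat_lit 0) (nat_lit 892135406) (nat_lit 152) (nat_lit 2796305199) (nat_lit 228) (nat_lit 16843387103) (nat_lit 21) (nat_lit 5) (nat_lit 23) (nat_lit 5) (nat_lit 24) (nat_lit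 5) (nat_lit 332) (nat_lit 304) (nat_lit 264)) (XT.lf (nat_lit 0) (nat_lit 8641690602) (nat_lit 228) (nat_lit 9226676190) (nat_lit 76) (nat_lit 3759892045) (nat_lit 21) (nat_lit 5) (nat_lit 24) (nat_lit 5) (nat_lit 22) (nat_lit 4) (nat_lit 333) (nat_lit 304) (nat_lit 263))))))))
noncomputable def xc109 : XT := (XT.nd (nat_lit 1326) (nat_lit 456) (nat_lit 0) (XT.nd (nat_lit 624) (nat_lit 380) (nat_lit 0) (XT.nd (nat_lit 312) (nat_lit 228) (nat_lit 0) (XT.nd (nat_lit 156) (nat_lit 152) (nat_lit 0) (XT.nd (nat_lit 78) (nat_lit 0) (nat_lit 0) (XT.lf (nat_lit 0) (nat_lit 1973974474) (nat_lit 76) (nat_lit 12095770043) (nat_lit 152) (nat_lit 8736407138) (nat_lit 20) (nat_lit 5) (nat_lit 21) (nat_lit 5) (nat_lit 22) (nat_lit 4) (nat_lit 334) (nat_lit 304) (nat_lit 262)) (XT.lf (nat_lit 0) (nat_lit 14525695484) (nat_lit 76) (nat_lit 5618461501) (nat_lit 152) (nat_lit 3917178210) (nat_lit 20) (nat_lit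 5) (nat_lit 21) (nat_lit 5) (nat_lit 22) (nat_lit 4) (nat_lit 335) (nat_lit 304) (nat_lit 261))) (XT.nd (nat_lit 78) (nat_lit 0) (nat_lit 0) (XT.lf (nat_lit 0) (nat_lit 1284919103) (nat_lit 152) (nat_lit 22745012345) (nat_lit 76) (nat_lit 1379609790) (nat_lit 18) (nat_lit 5) (nat_lit 20) (nat_lit 5) (nat_lit 19) (nat_lit 4) (nat_lit 336) (nat_lit 304) (nat_lit 260)) (XT.lf (nat_lit 0) (nat_lit 7067400610) (nat_lit 152) (nat_lit 10783384075) (nat_lit 76) (nat_lit 8976634400) (nat_lit 18) (nat_lit 5) (nat_lit 20) (nat_lit 5) (nat_lit 19) (nat_lit 4) (nat_lit 337) (nat_lit 304) (nat_lit 259)))) (XT.nd (nat_lit 156) (nat_lit 152) (nat_lit 0) (XT.nd (nat_lit 78) (nat_lit 0) (nat_lit 0) (XT.lf (nat_lit 0) (nat_lit 2182111834) (nat_lit 76) (nat_lit 11148050906) (nat_lit 152) (nat_lit 15027170756) (nat_lit 17) (nat_lit 5) (nat_lit 18) (nat_lit 5) (nat_lit 19) (nat_lit 4) (nat_lit 338) (nat_lit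 304) (nat_lit 258)) (XT.lf (nat_lit 0) (nat_lit 16737462540) (nat_lit 76) (nat_lit 3617641476) (nat_lit 152) (nat_lit 9633663742) (nat_lit 17) (nat_lit 5) (nat_lit 18) (nat_lit 5) (nat_lit 19) (nat_lit 4) (nat_lit 339) (nat_lit 304) (nat_lit 257))) (XT.nd (nat_lit 78) (nat_lit 76) (nat_lit 0) (XT.lf (nat_lit 0) (nat_lit 568297021) (nat_lit 76) (nat_lit 27464217363) (nat_lit 76) (nat_lit 3710982394) (nat_lit 16) (nat_lit 4) (nat_lit 17) (nat_lit 5) (nat_lit 17) (nat_lit 4) (nat_lit 340) (nat_lit 304) (nat_lit 256)) (XT.lf (nat_lit 0) (nat_lit 2985256139) (nat_lit 152) (nat_lit 17588775269) (nat_lit 76) (nat_lit 13024694508) (nat_lit 15) (nat_lit 5) (nat_lit 17) (nat_lit 5) (nat_lit 16) (nat_lit 4) (nat_lit 341) (nat_lit 304) (nat_lit 255))))) (XT.nd (nat_lit 312) (nat_lit 228) (nat_lit 0) (XT.nd (nat_lit 156) (nat_lit 76) (nat_lit 0) (XT.nd (nat_lit 78) (nat_lit 76) (nat_lit 0) (XT.lf (nat_lit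 0) (nat_lit 9987438854) (nat_lit 152) (nat_lit 3065784363) (nat_lit 76) (nat_lit 22543794499) (nat_lit 15) (nat_lit 5) (nat_lit 17) (nat_lit 5) (nat_lit 16) (nat_lit 4) (nat_lit 342) (nat_lit 304) (nat_lit 254)) (XT.lf (nat_lit 0) (nat_lit 13230950052) (nat_lit 76) (nat_lit 4609953149) (nat_lit 152) (nat_lit 19890994270) (nat_lit 14) (nat_lit 5) (nat_lit 15) (nat_lit 5) (nat_lit 16) (nat_lit 4) (nat_lit 343) (nat_lit 304) (nat_lit 253))) (XT.nd (nat_lit 78) (nat_lit 76) (nat_lit 0) (XT.lf (nat_lit 0) (nat_lit 26490281017) (nat_lit 152) (nat_lit 9185968253) (nat_lit 0) (nat_lit 4347919628) (nat_lit 14) (nat_lit 5) (nat_lit 16) (nat_lit 4) (nat_lit 14) (nat_lit 4) (nat_lit 344) (nat_lit 304) (nat_lit 252)) (XT.lf (nat_lit 0) (nat_lit 7566427066) (nat_lit 76) (nat_lit 28542077919) (nat_lit 76) (nat_lit 6369176671) (nat_lit 13) (nat_lit 4) (nat_lit 14) (nat_lit 5) (nat_lit 14) (nat_lit 4)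 (nat_lit 345) (nat_lit 304) (nat_lit 251)))) (XT.nd (nat_lit 156) (nat_lit 152) (nat_lit 0) (XT.nd (nat_lit 78) (nat_lit 0) (nat_lit 0) (XT.lf (nat_lit 0) (nat_lit 1533223395) (nat_lit 152) (nat_lit 19012074232) (nat_lit 76) (nat_lit 24560915651) (nat_lit 12) (nat_lit 5) (nat_lit 14) (nat_lit 5) (nat_lit 13) (nat_lit 4) (nat_lit 346) (nat_lit 304) (nat_lit 250)) (XT.lf (nat_lit 0) (nat_lit 9700840556) (nat_lit 152) (nat_lit 2049613544) (nat_lit 76) (nat_lit 36183177556) (nat_lit 12) (nat_lit 5) (nat_lit 14) (nat_lit 5) (nat_lit 13) (nat_lit 4) (nat_lit 347) (nat_lit 304) (nat_lit 249))) (XT.nd (nat_lit 78) (nat_lit 76) (nat_lit 0) (XT.lf (nat_lit 0) (nat_lit 17084458410) (nat_lit 76) (nat_lit 1827110742) (nat_lit 152) (nat_lit 32044506490) (nat_lit 11) (nat_lit 5) (nat_lit 12) (nat_lit 5) (nat_lit 13) (nat_lit 4) (nat_lit 348) (nat_lit 304) (nat_lit 248)) (XT.nd (nat_lit 78) (nat_lit 76)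 (nat_lit 0) (XT.lf (nat_lit 0) (nat_lit 29109466091) (nat_lit 152) (nat_lit 16605489117) (nat_lit 0) (nat_lit 8485342818) (nat_lit 11) (nat_lit 5) (nat_lit 13) (nat_lit 4) (nat_lit 11) (nat_lit 4) (nat_lit 349) (nat_lit 304) (nat_lit 247)) (XT.lf (nat_lit 0) (nat_lit 2060301320) (nat_lit 76) (nat_lit 38140463480) (nat_lit 76) (nat_lit 17497094916) (nat_lit 10) (nat_lit 4) (nat_lit 11) (nat_lit 5) (nat_lit 11) (nat_lit 4) (nat_lit 350) (nat_lit 304) (nat_lit 246))))))) (XT.nd (nat_lit 702) (nat_lit 228) (nat_lit 0) (XT.nd (nat_lit 312) (nat_lit 76) (nat_lit 0) (XT.nd (nat_lit 156) (nat_lit 76) (nat_lit 0) (XT.nd (nat_lit 78) (nat_lit 76) (nat_lit 0) (XT.lf (nat_lit 0) (nat_lit 23127431415) (nat_lit 76) (nat_lit 29487088786) (nat_lit 76) (nat_lit 8825900507) (nat_lit 10) (nat_lit 4) (nat_lit 11) (nat_lit 5) (nat_lit 11) (nat_lit 4) (nat_lit 351) (nat_lit 304) (nat_lit 245)) (XT.lf (nat_lit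 0) (nat_lit 494094504) (nat_lit 152) (nat_lit 19649971445) (nat_lit 76) (nat_lit 45338723864) (nat_lit 9) (nat_lit 5) (nat_lit 11) (nat_lit 5) (nat_lit 10) (nat_lit 4) (nat_lit 352) (nat_lit 304) (nat_lit 244))) (XT.nd (nat_lit 78) (nat_lit 0) (nat_lit 0) (XT.lf (nat_lit 0) (nat_lit 257742472) (nat_lit 76) (nat_lit 9814713306) (nat_lit 152) (nat_lit 59758590803) (nat_lit 8) (nat_lit 5) (nat_lit 9) (nat_lit 5) (nat_lit 10) (nat_lit 4) (nat_lit 353) (nat_lit 304) (nat_lit 243)) (XT.lf (nat_lit 0) (nat_lit 20984070287) (nat_lit 152) (nat_lit 51686920720) (nat_lit 0) (nat_lit 1810818980) (nat_lit 8) (nat_lit 5) (nat_lit 10) (nat_lit 4) (nat_lit 8) (nat_lit 4) (nat_lit 354) (nat_lit 304) (nat_lit 242)))) (XT.nd (nat_lit 156) (nat_lit 76) (nat_lit 0) (XT.nd (nat_lit 78) (nat_lit 0) (nat_lit 0) (XT.lf (nat_lit 0) (nat_lit 33008276363) (nat_lit 152) (nat_lit 32654292338) (nat_lit 0) (nat_lit 13822897257)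 (nat_lit 8) (nat_lit 5) (nat_lit 10) (nat_lit 4) (nat_lit 8) (nat_lit 4) (nat_lit 355) (nat_lit 304) (nat_lit 241)) (XT.lf (nat_lit 0) (nat_lit 45980284468) (nat_lit 152) (nat_lit 12126588926) (nat_lit 0) (nat_lit 26783675920) (nat_lit 8) (nat_lit 5) (nat_lit 10) (nat_lit 4) (nat_lit 8) (nat_lit 4) (nat_lit 356) (nat_lit 304) (nat_lit 240))) (XT.nd (nat_lit 78) (nat_lit 0) (nat_lit 0) (XT.lf (nat_lit 0) (nat_lit 10545356611) (nat_lit 76) (nat_lit 49685225232) (nat_lit 76) (nat_lit 30478219052) (nat_lit 7) (nat_lit 4) (nat_lit 8) (nat_lit 5) (nat_lit 8) (nat_lit 4) (nat_lit 357) (nat_lit 304) (nat_lit 239)) (XT.nd (nat_lit 78) (nat_lit 0) (nat_lit 0) (XT.lf (nat_lit 0) (nat_lit 35695857514) (nat_lit 76) (nat_lit 40243892262) (nat_lit 76) (nat_lit 21027258645) (nat_lit 7) (nat_lit 4) (nat_lit 8) (nat_lit 5) (nat_lit 8) (nat_lit 4) (nat_lit 358) (nat_lit 304) (nat_lit 238)) (XT.lf (nat_lit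 0) (nat_lit 62835389105) (nat_lit 76) (nat_lit 30058488277) (nat_lit 76) (nat_lit 10832940366) (nat_lit 7) (nat_lit 4) (nat_lit 8) (nat_lit 5) (nat_lit 8) (nat_lit 4) (nat_lit 359) (nat_lit 304) (nat_lit 237)))))) (XT.nd (nat_lit 312) (nat_lit 76) (nat_lit 0) (XT.nd (nat_lit 156) (nat_lit 0) (nat_lit 0) (XT.nd (nat_lit 78) (nat_lit 76) (nat_lit 0) (XT.lf (nat_lit 0) (nat_lit 156885260) (nat_lit 152) (nat_lit 18907480544) (nat_lit 76) (nat_lit 91963603454) (nat_lit 6) (nat_lit 5) (nat_lit 8) (nat_lit 5) (nat_lit 7) (nat_lit 4) (nat_lit 360) (nat_lit 304) (nat_lit 236)) (XT.lf (nat_lit 0) (nat_lit 4772261221) (nat_lit 76) (nat_lit 6772789585) (nat_lit 152) (nat_lit 107337301574) (nat_lit 5) (nat_lit 5) (nat_lit 6) (nat_lit 5) (nat_lit 7) (nat_lit 4) (nat_lit 361) (nat_lit 304) (nat_lit 235))) (XT.nd (nat_lit 78) (nat_lit 0) (nat_lit 0) (XT.lf (nat_lit 0) (nat_lit 24520737157) (nat_lit 152)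 (nat_lit 96092201402) (nat_lit 0) (nat_lit 6698032610) (nat_lit 5) (nat_lit 5) (nat_lit 7) (nat_lit 4) (nat_lit 5) (nat_lit 4) (nat_lit 362) (nat_lit 304) (nat_lit 234)) (XT.lf (nat_lit 0) (nat_lit 38700857928) (nat_lit 152) (nat_lit 76827626954) (nat_lit 0) (nat_lit 20872086463) (nat_lit 5) (nat_lit 5) (nat_lit 7) (nat_lit 4) (nat_lit 5) (nat_lit 4) (nat_lit 363) (nat_lit 304) (nat_lit 233)))) (XT.nd (nat_lit 156) (nat_lit 76) (nat_lit 0) (XT.nd (nat_lit 78) (nat_lit 0) (nat_lit 0) (XT.lf (nat_lit 0) (nat_lit 54006557712) (nat_lit 152) (nat_lit 56039321622) (nat_lit 0) (nat_lit 36172168729) (nat_lit 5) (nat_lit 5) (nat_lit 7) (nat_lit 4) (nat_lit 5) (nat_lit 4) (nat_lit 364) (nat_lit 304) (nat_lit 232)) (XT.lf (nat_lit 0) (nat_lit 70528536951) (nat_lit 152) (nat_lit 33604095448) (nat_lit 0) (nat_lit 52688946564) (nat_lit 5) (nat_lit 5) (nat_lit 7) (nat_lit 4) (nat_lit 5) (nat_lit 4) (nat_lit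 365) (nat_lit 304) (nat_lit 231))) (XT.nd (nat_lit 78) (nat_lit 76) (nat_lit 0) (XT.lf (nat_lit 0) (nat_lit 88364703672) (nat_lit 152) (nat_lit 9388998945) (nat_lit 0) (nat_lit 70520297169) (nat_lit 5) (nat_lit 5) (nat_lit 7) (nat_lit 4) (nat_lit 5) (nat_lit 4) (nat_lit 366) (nat_lit 304) (nat_lit 230)) (XT.nd (nat_lit 78) (nat_lit 0) (nat_lit 0) (XT.lf (nat_lit 0) (nat_lit 17631461887) (nat_lit 76) (nat_lit 90413328872) (nat_lit 76) (nat_lit 72564463002) (nat_lit 4) (nat_lit 4) (nat_lit 5) (nat_lit 5) (nat_lit 5) (nat_lit 4) (nat_lit 367) (nat_lit 304) (nat_lit 229)) (XT.lf (nat_lit 0) (nat_lit 47334030147) (nat_lit 76) (nat_lit 82215151308) (nat_lit 76) (nat_lit 64362156395) (nat_lit 4) (nat_lit 4) (nat_lit 5) (nat_lit 5) (nat_lit 5) (nat_lit 4) (nat_lit 368) (nat_lit 304) (nat_lit 228))))))))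
noncomputable def xc110 : XT := (XT.nd (nat_lit 1326) (nat_lit 76) (nat_lit 0) (XT.nd (nat_lit 624) (nat_lit 0) (nat_lit 0) (XT.nd (nat_lit 312) (nat_lit 152) (nat_lit 0) (XT.nd (nat_lit 156) (nat_lit 0) (nat_lit 0) (XT.nd (nat_lit 78) (nat_lit 0) (nat_lit 0) (XT.lf (nat_lit 0) (nat_lit 79400313007) (nat_lit 76) (nat_lit 73367300002) (nat_lit 76) (nat_lit 55510481902) (nat_lit 4) (nat_lit 4) (nat_lit 5) (nat_lit 5) (nat_lit 5) (nat_lit 4) (nat_lit 369) (nat_lit 304) (nat_lit 227)) (XT.lf (nat_lit 0) (nat_lit 114020332884) (nat_lit 76) (nat_lit 63817343244) (nat_lit 76) (nat_lit 45956985155) (nat_lit 4) (nat_lit 4) (nat_lit 5) (nat_lit 5) (nat_lit 5) (nat_lit 4) (nat_lit 370) (nat_lit 304) (nat_lit 226))) (XT.nd (nat_lit 78) (nat_lit 0) (nat_lit 0) (XT.lf (nat_lit 0) (nat_lit 151399245452) (nat_lit 76) (nat_lit 53508688696) (nat_lit 76) (nat_lit 35645052840) (nat_lit 4) (nat_lit 4) (nat_lit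 5) (nat_lit 5) (nat_lit 5) (nat_lit 4) (nat_lit 371) (nat_lit 304) (nat_lit 225)) (XT.lf (nat_lit 0) (nat_lit 191758555378) (nat_lit 76) (nat_lit 42380248036) (nat_lit 76) (nat_lit 24513577210) (nat_lit 4) (nat_lit 4) (nat_lit 5) (nat_lit 5) (nat_lit 5) (nat_lit 4) (nat_lit 372) (nat_lit 304) (nat_lit 224)))) (XT.nd (nat_lit 156) (nat_lit 76) (nat_lit 0) (XT.nd (nat_lit 78) (nat_lit 76) (nat_lit 0) (XT.lf (nat_lit 0) (nat_lit 235337428942) (nat_lit 76) (nat_lit 30366074948) (nat_lit 76) (nat_lit 12496593966) (nat_lit 4) (nat_lit 4) (nat_lit 5) (nat_lit 5) (nat_lit 5) (nat_lit 4) (nat_lit 373) (nat_lit 304) (nat_lit 223)) (XT.lf (nat_lit 0) (nat_lit 453241739) (nat_lit 152) (nat_lit 16929340162) (nat_lit 76) (nat_lit 281928477150) (nat_lit 3) (nat_lit 5) (nat_lit 5) (nat_lit 5) (nat_lit 4) (nat_lit 4) (nat_lit 374) (nat_lit 304) (nat_lit 222))) (XT.nd (nat_lit 78) (nat_lit 0) (nat_lit 0)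 (XT.lf (nat_lit 0) (nat_lit 11311845276) (nat_lit 76) (nat_lit 2720047758) (nat_lit 152) (nat_lit 308031600432) (nat_lit 2) (nat_lit 5) (nat_lit 3) (nat_lit 5) (nat_lit 4) (nat_lit 4) (nat_lit 375) (nat_lit 304) (nat_lit 221)) (XT.lf (nat_lit 0) (nat_lit 29483103048) (nat_lit 152) (nat_lit 304159537299) (nat_lit 0) (nat_lit 12930581724) (nat_lit 2) (nat_lit 5) (nat_lit 4) (nat_lit 4) (nat_lit 2) (nat_lit 4) (nat_lit 376) (nat_lit 304) (nat_lit 220))))) (XT.nd (nat_lit 312) (nat_lit 0) (nat_lit 0) (XT.nd (nat_lit 156) (nat_lit 0) (nat_lit 0) (XT.nd (nat_lit 78) (nat_lit 0) (nat_lit 0) (XT.lf (nat_lit 0) (nat_lit 46237299169) (nat_lit 152) (nat_lit 297118214056) (nat_lit 0) (nat_lit 29682865299) (nat_lit 2) (nat_lit 5) (nat_lit 4) (nat_lit 4) (nat_lit 2) (nat_lit 4) (nat_lit 377) (nat_lit 304) (nat_lit 219)) (XT.lf (nat_lit 0) (nat_lit 64328348311) (nat_lit 152) (nat_lit 289520534888) (nat_lit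 0) (nat_lit 47772143565) (nat_lit 2) (nat_lit 5) (nat_lit 4) (nat_lit 4) (nat_lit 2) (nat_lit 4) (nat_lit 378) (nat_lit 304) (nat_lit 218))) (XT.nd (nat_lit 78) (nat_lit 0) (nat_lit 0) (XT.lf (nat_lit 0) (nat_lit 83863456689) (nat_lit 152) (nat_lit 281321476512) (nat_lit 0) (nat_lit 67305612243) (nat_lit 2) (nat_lit 5) (nat_lit 4) (nat_lit 4) (nat_lit 2) (nat_lit 4) (nat_lit 379) (nat_lit 304) (nat_lit 217)) (XT.lf (nat_lit 0) (nat_lit 104958387909) (nat_lit 152) (nat_lit 272472451915) (nat_lit 0) (nat_lit 88399025223) (nat_lit 2) (nat_lit 5) (nat_lit 4) (nat_lit 4) (nat_lit 2) (nat_lit 4) (nat_lit 380) (nat_lit 304) (nat_lit 216)))) (XT.nd (nat_lit 156) (nat_lit 0) (nat_lit 0) (XT.nd (nat_lit 78) (nat_lit 0) (nat_lit 0) (XT.lf (nat_lit 0) (nat_lit 127738148970) (nat_lit 152) (nat_lit 262921022432) (nat_lit 0) (nat_lit 111177380506) (nat_lit 2) (nat_lit 5) (nat_lit 4) (nat_lit 4) (nat_lit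 2) (nat_lit 4) (nat_lit 381) (nat_lit 304) (nat_lit 215)) (XT.lf (nat_lit 0) (nat_lit 152337731051) (nat_lit 152) (nat_lit 252610587000) (nat_lit 0) (nat_lit 135775660940) (nat_lit 2) (nat_lit 5) (nat_lit 4) (nat_lit 4) (nat_lit 2) (nat_lit 4) (nat_lit 382) (nat_lit 304) (nat_lit 214))) (XT.nd (nat_lit 78) (nat_lit 0) (nat_lit 0) (XT.lf (nat_lit 0) (nat_lit 178902909451) (nat_lit 152) (nat_lit 241480046743) (nat_lit 0) (nat_lit 162339634112) (nat_lit 2) (nat_lit 5) (nat_lit 4) (nat_lit 4) (nat_lit 2) (nat_lit 4) (nat_lit 383) (nat_lit 304) (nat_lit 213)) (XT.nd (nat_lit 78) (nat_lit 0) (nat_lit 0) (XT.lf (nat_lit 0) (nat_lit 207591107450) (nat_lit 152) (nat_lit 229463442903) (nat_lit 0) (nat_lit 191026716159) (nat_lit 2) (nat_lit 5) (nat_lit 4) (nat_lit 4) (nat_lit 2) (nat_lit 4) (nat_lit 384) (nat_lit 304) (nat_lit 212)) (XT.lf (nat_lit 0) (nat_lit 238572329184) (nat_lit 152) (nat_lit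 216489565976) (nat_lit 0) (nat_lit 222006904604) (nat_lit 2) (nat_lit 5) (nat_lit 4) (nat_lit 4) (nat_lit 2) (nat_lit 4) (nat_lit 385) (nat_lit 304) (nat_lit 211))))))) (XT.nd (nat_lit 624) (nat_lit 76) (nat_lit 0) (XT.nd (nat_lit 312) (nat_lit 0) (nat_lit 0) (XT.nd (nat_lit 156) (nat_lit 0) (nat_lit 0) (XT.nd (nat_lit 78) (nat_lit 0) (nat_lit 0) (XT.lf (nat_lit 0) (nat_lit 272030167079) (nat_lit 152) (nat_lit 202481533728) (nat_lit 0) (nat_lit 255463785750) (nat_lit 2) (nat_lit 5) (nat_lit 4) (nat_lit 4) (nat_lit 2) (nat_lit 4) (nat_lit 386) (nat_lit 304) (nat_lit 210)) (XT.lf (nat_lit 0) (nat_lit 308162889803) (nat_lit 152) (nat_lit 187356335598) (nat_lit 0) (nat_lit 291595622596) (nat_lit 2) (nat_lit 5) (nat_lit 4) (nat_lit 4) (nat_lit 2) (nat_lit 4) (nat_lit 387) (nat_lit 304) (nat_lit 209))) (XT.nd (nat_lit 78) (nat_lit 0) (nat_lit 0) (XT.lf (nat_lit 0) (nat_lit 347184617196) (nat_lit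 152) (nat_lit 171024340783) (nat_lit 0) (nat_lit 330616529730) (nat_lit 2) (nat_lit 5) (nat_lit 4) (nat_lit 4) (nat_lit 2) (nat_lit 4) (nat_lit 388) (nat_lit 304) (nat_lit 208)) (XT.lf (nat_lit 0) (nat_lit 389326589122) (nat_lit 152) (nat_lit 153388767090) (nat_lit 0) (nat_lit 372757742158) (nat_lit 2) (nat_lit 5) (nat_lit 4) (nat_lit 4) (nat_lit 2) (nat_lit 4) (nat_lit 389) (nat_lit 304) (nat_lit 207)))) (XT.nd (nat_lit 156) (nat_lit 0) (nat_lit 0) (XT.nd (nat_lit 78) (nat_lit 0) (nat_lit 0) (XT.lf (nat_lit 0) (nat_lit 434838535786) (nat_lit 152) (nat_lit 134345107416) (nat_lit 0) (nat_lit 418268985583) (nat_lit 2) (nat_lit 5) (nat_lit 4) (nat_lit 4) (nat_lit 2) (nat_lit 4) (nat_lit 390) (nat_lit 304) (nat_lit 206)) (XT.lf (nat_lit 0) (nat_lit 483990157612) (nat_lit 152) (nat_lit 113780510445) (nat_lit 0) (nat_lit 467419956262) (nat_lit 2) (nat_lit 5) (nat_lit 4) (nat_lit 4) (nat_lit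 2) (nat_lit 4) (nat_lit 391) (nat_lit 304) (nat_lit 205))) (XT.nd (nat_lit 78) (nat_lit 0) (nat_lit 0) (XT.lf (nat_lit 0) (nat_lit 537072723472) (nat_lit 152) (nat_lit 91573111899) (nat_lit 0) (nat_lit 520501919207) (nat_lit 2) (nat_lit 5) (nat_lit 4) (nat_lit 4) (nat_lit 2) (nat_lit 4) (nat_lit 392) (nat_lit 304) (nat_lit 204)) (XT.lf (nat_lit 0) (nat_lit 594400796717) (nat_lit 152) (nat_lit 67591312378) (nat_lit 0) (nat_lit 577829434198) (nat_lit 2) (nat_lit 5) (nat_lit 4) (nat_lit 4) (nat_lit 2) (nat_lit 4) (nat_lit 393) (nat_lit 304) (nat_lit 203))))) (XT.nd (nat_lit 312) (nat_lit 0) (nat_lit 0) (XT.nd (nat_lit 156) (nat_lit 76) (nat_lit 0) (XT.nd (nat_lit 78) (nat_lit 0) (nat_lit 0) (XT.lf (nat_lit 0) (nat_lit 656314099263) (nat_lit 152) (nat_lit 41692997515) (nat_lit 0) (nat_lit 639742219843) (nat_lit 2) (nat_lit 5) (nat_lit 4) (nat_lit 4) (nat_lit 2) (nat_lit 4) (nat_lit 394) (nat_lit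 304) (nat_lit 202)) (XT.lf (nat_lit 0) (nat_lit 723179524756) (nat_lit 152) (nat_lit 13724695815) (nat_lit 0) (nat_lit 706607166723) (nat_lit 2) (nat_lit 5) (nat_lit 4) (nat_lit 4) (nat_lit 2) (nat_lit 4) (nat_lit 395) (nat_lit 304) (nat_lit 201))) (XT.nd (nat_lit 78) (nat_lit 0) (nat_lit 0) (XT.lf (nat_lit 0) (nat_lit 17347103162) (nat_lit 76) (nat_lit 778463407839) (nat_lit 76) (nat_lit 761890606646) (nat_lit 1) (nat_lit 4) (nat_lit 2) (nat_lit 5) (nat_lit 2) (nat_lit 4) (nat_lit 396) (nat_lit 304) (nat_lit 200)) (XT.lf (nat_lit 0) (nat_lit 51683486487) (nat_lit 76) (nat_lit 822942899419) (nat_lit 76) (nat_lit 806369687893) (nat_lit 1) (nat_lit 4) (nat_lit 2) (nat_lit 5) (nat_lit 2) (nat_lit 4) (nat_lit 397) (nat_lit 304) (nat_lit 199)))) (XT.nd (nat_lit 156) (nat_lit 0) (nat_lit 0) (XT.nd (nat_lit 78) (nat_lit 0) (nat_lit 0) (XT.lf (nat_lit 0) (nat_lit 88765210864) (nat_lit 76) (nat_lit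 870981534991) (nat_lit 76) (nat_lit 854407943526) (nat_lit 1) (nat_lit 4) (nat_lit 2) (nat_lit 5) (nat_lit 2) (nat_lit 4) (nat_lit 398) (nat_lit 304) (nat_lit 198)) (XT.lf (nat_lit 0) (nat_lit 128812019843) (nat_lit 76) (nat_lit 922863987949) (nat_lit 76) (nat_lit 906290044690) (nat_lit 1) (nat_lit 4) (nat_lit 2) (nat_lit 5) (nat_lit 2) (nat_lit 4) (nat_lit 399) (nat_lit 304) (nat_lit 197))) (XT.nd (nat_lit 78) (nat_lit 0) (nat_lit 0) (XT.lf (nat_lit 0) (nat_lit 172061227850) (nat_lit 76) (nat_lit 978897709868) (nat_lit 76) (nat_lit 962323440873) (nat_lit 1) (nat_lit 4) (nat_lit 2) (nat_lit 5) (nat_lit 2) (nat_lit 4) (nat_lit 400) (nat_lit 304) (nat_lit 196)) (XT.nd (nat_lit 78) (nat_lit 0) (nat_lit 0) (XT.lf (nat_lit 0) (nat_lit 218769126486) (nat_lit 76) (nat_lit 1039414752432) (nat_lit 76) (nat_lit 1022840181830) (nat_lit 1) (nat_lit 4) (nat_lit 2) (nat_lit 5) (nat_lit 2) (nat_lit 4)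 (nat_lit 401) (nat_lit 304) (nat_lit 195)) (XT.lf (nat_lit 0) (nat_lit 269212503300) (nat_lit 76) (nat_lit 1104773735153) (nat_lit 76) (nat_lit 1088198885285) (nat_lit 1) (nat_lit 4) (nat_lit 2) (nat_lit 5) (nat_lit 2) (nat_lit 4) (nat_lit 402) (nat_lit 304) (nat_lit 194))))))))
noncomputable def xc111 : XT := (XT.nd (nat_lit 39780) (nat_lit 0) (nat_lit 1976) (XT.nd (nat_lit 624) (nat_lit 0) (nat_lit 0) (XT.nd (nat_lit 312) (nat_lit 0) (nat_lit 0) (XT.nd (nat_lit 156) (nat_lit 0) (nat_lit 0) (XT.nd (nat_lit 78) (nat_lit 0) (nat_lit 0) (XT.lf (nat_lit 0) (nat_lit 323690282006) (nat_lit 76) (nat_lit 1175361970522) (nat_lit 76) (nat_lit 1158786862074) (nat_lit 1) (nat_lit 4) (nat_lit 2) (nat_lit 5) (nat_lit 2) (nat_lit 4) (nat_lit 403) (nat_lit 304) (nat_lit 193)) (XT.lf (nat_lit 0) (nat_lit 382525293884) (nat_lit 76) (nat_lit 1251597759192) (nat_lit 76) (nat_lit 1235022411319) (nat_lit 1)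 (nat_lit 4) (nat_lit 2) (nat_lit 5) (nat_lit 2) (nat_lit 4) (nat_lit 404) (nat_lit 304) (nat_lit 192))) (XT.nd (nat_lit 78) (nat_lit 0) (nat_lit 0) (XT.lf (nat_lit 0) (nat_lit 446066190858) (nat_lit 76) (nat_lit 1333932868799) (nat_lit 76) (nat_lit 1317357299236) (nat_lit 1) (nat_lit 4) (nat_lit 2) (nat_lit 5) (nat_lit 2) (nat_lit 4) (nat_lit 405) (nat_lit 304) (nat_lit 191)) (XT.lf (nat_lit 0) (nat_lit 514689511576) (nat_lit 76) (nat_lit 1422855211105) (nat_lit 76) (nat_lit 1406279436274) (nat_lit 1) (nat_lit 4) (nat_lit 2) (nat_lit 5) (nat_lit 2) (nat_lit 4) (nat_lit 406) (nat_lit 304) (nat_lit 190)))) (XT.nd (nat_lit 156) (nat_lit 0) (nat_lit 0) (XT.nd (nat_lit 78) (nat_lit 0) (nat_lit 0) (XT.lf (nat_lit 0) (nat_lit 588801912754) (nat_lit 76) (nat_lit 1518891733324) (nat_lit 76) (nat_lit 1502315768428) (nat_lit 1) (nat_lit 4) (nat_lit 2) (nat_lit 5) (nat_lit 2) (nat_lit 4) (nat_lit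 407) (nat_lit 304) (nat_lit 189)) (XT.lf (nat_lit 0) (nat_lit 668842578990) (nat_lit 76) (nat_lit 1622611540771) (nat_lit 76) (nat_lit 1606035399891) (nat_lit 1) (nat_lit 4) (nat_lit 2) (nat_lit 5) (nat_lit 2) (nat_lit 4) (nat_lit 408) (nat_lit 304) (nat_lit 188))) (XT.nd (nat_lit 78) (nat_lit 0) (nat_lit 0) (XT.lf (nat_lit 0) (nat_lit 755285825345) (nat_lit 76) (nat_lit 1734629269344) (nat_lit 76) (nat_lit 1718052965514) (nat_lit 1) (nat_lit 4) (nat_lit 2) (nat_lit 5) (nat_lit 2) (nat_lit 4) (nat_lit 409) (nat_lit 304) (nat_lit 187)) (XT.lf (nat_lit 0) (nat_lit 848643908092) (nat_lit 76) (nat_lit 1855608727803) (nat_lit 76) (nat_lit 1839032273095) (nat_lit 1) (nat_lit 4) (nat_lit 2) (nat_lit 5) (nat_lit 2) (nat_lit 4) (nat_lit 410) (nat_lit 304) (nat_lit 186))))) (XT.nd (nat_lit 38766) (nat_lit 0) (nat_lit 4636) (XT.nd (nat_lit 38610) (nat_lit 0) (nat_lit 4940) (XT.nd (nat_lit 78) (nat_lit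 0) (nat_lit 0) (XT.lf (nat_lit 0) (nat_lit 949470060315) (nat_lit 76) (nat_lit 1986266831459) (nat_lit 76) (nat_lit 1969690237048) (nat_lit 1) (nat_lit 4) (nat_lit 2) (nat_lit 5) (nat_lit 2) (nat_lit 4) (nat_lit 411) (nat_lit 304) (nat_lit 185)) (XT.lf (nat_lit 0) (nat_lit 1058361770323) (nat_lit 76) (nat_lit 2127377850555) (nat_lit 76) (nat_lit 2110801126790) (nat_lit 1) (nat_lit 4) (nat_lit 2) (nat_lit 5) (nat_lit 2) (nat_lit 4) (nat_lit 412) (nat_lit 304) (nat_lit 184))) (XT.nd (nat_lit 78) (nat_lit 0) (nat_lit 0) (XT.lf (nat_lit 0) (nat_lit 1754688983) (nat_lit 380) (nat_lit 913934647) (nat_lit 380) (nat_lit 913934647) (nat_lit 66) (nat_lit 3) (nat_lit 71) (nat_lit 3) (nat_lit 71) (nat_lit 5) (nat_lit 305) (nat_lit 305) (nat_lit 290)) (XT.lf (nat_lit 76) (nat_lit 1676726562) (nat_lit 0) (nat_lit 3572865826) (nat_lit 380) (nat_lit 2070538655) (nat_lit 67) (nat_lit 5) (nat_lit 66) (nat_lit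 3) (nat_lit 71) (nat_lit 5) (nat_lit 306) (nat_lit 305) (nat_lit 289)))) (XT.nd (nat_lit 156) (nat_lit 0) (nat_lit 0) (XT.nd (nat_lit 78) (nat_lit 304) (nat_lit 0) (XT.lf (nat_lit 76) (nat_lit 5476761964) (nat_lit 0) (nat_lit 1544075192) (nat_lit 380) (nat_lit 475724954) (nat_lit 67) (nat_lit 5) (nat_lit 66) (nat_lit 3) (nat_lit 71) (nat_lit 5) (nat_lit 307) (nat_lit 305) (nat_lit 288)) (XT.lf (nat_lit 0) (nat_lit 1097581012) (nat_lit 380) (nat_lit 5845874195) (nat_lit 456) (nat_lit 748501236) (nat_lit 62) (nat_lit 5) (nat_lit 67) (nat_lit 5) (nat_lit 68) (nat_lit 5) (nat_lit 308) (nat_lit 305) (nat_lit 287))) (XT.nd (nat_lit 78) (nat_lit 0) (nat_lit 0) (XT.lf (nat_lit 0) (nat_lit 2727558845) (nat_lit 380) (nat_lit 1917491631) (nat_lit 456) (nat_lit 3260708773) (nat_lit 62) (nat_lit 5) (nat_lit 67) (nat_lit 5) (nat_lit 68) (nat_lit 5) (nat_lit 309) (nat_lit 305) (nat_lit 286)) (XT.nd (nat_lit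 78) (nat_lit 0) (nat_lit 76) (XT.lf (nat_lit 76) (nat_lit 2349027158) (nat_lit 0) (nat_lit 2065534973) (nat_lit 456) (nat_lit 3728238931) (nat_lit 63) (nat_lit 5) (nat_lit 62) (nat_lit 5) (nat_lit 68) (nat_lit 5) (nat_lit 310) (nat_lit 305) (nat_lit 285)) (XT.lf (nat_lit 0) (nat_lit 6185946708) (nat_lit 380) (nat_lit 1449443015) (nat_lit 76) (nat_lit 767708149) (nat_lit 63) (nat_lit 5) (nat_lit 68) (nat_lit 5) (nat_lit 64) (nat_lit 5) (nat_lit 311) (nat_lit 305) (nat_lit 284))))))) (XT.nd (nat_lit 702) (nat_lit 988) (nat_lit 0) (XT.nd (nat_lit 312) (nat_lit 532) (nat_lit 0) (XT.nd (nat_lit 156) (nat_lit 760) (nat_lit 0) (XT.nd (nat_lit 78) (nat_lit 76) (nat_lit 0) (XT.lf (nat_lit 0) (nat_lit 3257221740) (nat_lit 380) (nat_lit 4861128511) (nat_lit 456) (nat_lit 564550682) (nat_lit 58) (nat_lit 5) (nat_lit 63) (nat_lit 5) (nat_lit 64) (nat_lit 5) (nat_lit 312) (nat_lit 305) (nat_lit 283))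 (XT.lf (nat_lit 0) (nat_lit 1090361022) (nat_lit 456) (nat_lit 687514517) (nat_lit 76) (nat_lit 7210568041) (nat_lit 57) (nat_lit 5) (nat_lit 63) (nat_lit 5) (nat_lit 58) (nat_lit 5) (nat_lit 313) (nat_lit 305) (nat_lit 282))) (XT.nd (nat_lit 78) (nat_lit 304) (nat_lit 0) (XT.lf (nat_lit 0) (nat_lit 2896043148) (nat_lit 532) (nat_lit 4805657084) (nat_lit 76) (nat_lit 1611826411) (nat_lit 51) (nat_lit 5) (nat_lit 58) (nat_lit 5) (nat_lit 52) (nat_lit 5) (nat_lit 314) (nat_lit 305) (nat_lit 281)) (XT.lf (nat_lit 0) (nat_lit 370186082) (nat_lit 304) (nat_lit 4454522668) (nat_lit 380) (nat_lit 4841792261) (nat_lit 47) (nat_lit 5) (nat_lit 51) (nat_lit 5) (nat_lit 52) (nat_lit 5) (nat_lit 315) (nat_lit 305) (nat_lit 280)))) (XT.nd (nat_lit 156) (nat_lit 304) (nat_lit 0) (XT.nd (nat_lit 78) (nat_lit 228) (nat_lit 0) (XT.lf (nat_lit 0) (nat_lit 6139305963) (nat_lit 304) (nat_lit 808754269) (nat_lit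 380) (nat_lit 3096576286) (nat_lit 47) (nat_lit 5) (nat_lit 51) (nat_lit 5) (nat_lit 52) (nat_lit 5) (nat_lit 316) (nat_lit 305) (nat_lit 279)) (XT.lf (nat_lit 0) (nat_lit 1839783093) (nat_lit 228) (nat_lit 7436657859) (nat_lit 304) (nat_lit 1173912175) (nat_lit 44) (nat_lit 5) (nat_lit 47) (nat_lit 5) (nat_lit 48) (nat_lit 5) (nat_lit 317) (nat_lit 305) (nat_lit 278))) (XT.nd (nat_lit 78) (nat_lit 228) (nat_lit 0) (XT.lf (nat_lit 0) (nat_lit 905476826) (nat_lit 304) (nat_lit 2754892960) (nat_lit 76) (nat_lit 7222698532) (nat_lit 43) (nat_lit 5) (nat_lit 47) (nat_lit 5) (nat_lit 44) (nat_lit 5) (nat_lit 318) (nat_lit 305) (nat_lit 277)) (XT.nd (nat_lit 78) (nat_lit 0) (nat_lit 0) (XT.lf (nat_lit 0) (nat_lit 3111559248) (nat_lit 304) (nat_lit 7728516155) (nat_lit 76) (nat_lit 506098537) (nat_lit 40) (nat_lit 5) (nat_lit 44) (nat_lit 5) (nat_lit 41) (nat_lit 5) (nat_lit 319) (nat_lit 305)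 (nat_lit 276)) (XT.lf (nat_lit 0) (nat_lit 5593337677) (nat_lit 304) (nat_lit 1372907169) (nat_lit 76) (nat_lit 4872251632) (nat_lit 40) (nat_lit 5) (nat_lit 44) (nat_lit 5) (nat_lit 41) (nat_lit 5) (nat_lit 320) (nat_lit 305) (nat_lit 275)))))) (XT.nd (nat_lit 312) (nat_lit 380) (nat_lit 0) (XT.nd (nat_lit 156) (nat_lit 228) (nat_lit 0) (XT.nd (nat_lit 78) (nat_lit 228) (nat_lit 0) (XT.lf (nat_lit 0) (nat_lit 5690380637) (nat_lit 152) (nat_lit 2652404459) (nat_lit 228) (nat_lit 4021987011) (nat_lit 38) (nat_lit 5) (nat_lit 40) (nat_lit 5) (nat_lit 41) (nat_lit 5) (nat_lit 321) (nat_lit 305) (nat_lit 274)) (XT.lf (nat_lit 0) (nat_lit 346689336) (nat_lit 228) (nat_lit 10995448120) (nat_lit 304) (nat_lit 1588706608) (nat_lit 35) (nat_lit 5) (nat_lit 38) (nat_lit 5) (nat_lit 39) (nat_lit 5) (nat_lit 322) (nat_lit 305) (nat_lit 273))) (XT.nd (nat_lit 78) (nat_lit 152) (nat_lit 0) (XT.lf (nat_lit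 0) (nat_lit 1179275589) (nat_lit 304) (nat_lit 5406501506) (nat_lit 76) (nat_lit 6939140435) (nat_lit 34) (nat_lit 5) (nat_lit 38) (nat_lit 5) (nat_lit 35) (nat_lit 5) (nat_lit 323) (nat_lit 305) (nat_lit 272)) (XT.lf (nat_lit 0) (nat_lit 2338382762) (nat_lit 152) (nat_lit 1741371141) (nat_lit 228) (nat_lit 10083782257) (nat_lit 32) (nat_lit 5) (nat_lit 34) (nat_lit 5) (nat_lit 35) (nat_lit 5) (nat_lit 324) (nat_lit 305) (nat_lit 271)))) (XT.nd (nat_lit 156) (nat_lit 228) (nat_lit 0) (XT.nd (nat_lit 78) (nat_lit 152) (nat_lit 0) (XT.lf (nat_lit 0) (nat_lit 7390420596) (nat_lit 228) (nat_lit 4003521877) (nat_lit 76) (nat_lit 3445116104) (nat_lit 32) (nat_lit 5) (nat_lit 35) (nat_lit 5) (nat_lit 33) (nat_lit 5) (nat_lit 325) (nat_lit 305) (nat_lit 270)) (XT.lf (nat_lit 0) (nat_lit 4547730171) (nat_lit 152) (nat_lit 6519608805) (nat_lit 228) (nat_lit 4493233337) (nat_lit 30) (nat_lit 5) (nat_lit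 32) (nat_lit 5) (nat_lit 33) (nat_lit 5) (nat_lit 326) (nat_lit 305) (nat_lit 269))) (XT.nd (nat_lit 78) (nat_lit 228) (nat_lit 0) (XT.lf (nat_lit 0) (nat_lit 13934374954) (nat_lit 152) (nat_lit 1162398075) (nat_lit 228) (nat_lit 1238421991) (nat_lit 30) (nat_lit 5) (nat_lit 32) (nat_lit 5) (nat_lit 33) (nat_lit 5) (nat_lit 327) (nat_lit 305) (nat_lit 268)) (XT.nd (nat_lit 78) (nat_lit 0) (nat_lit 0) (XT.lf (nat_lit 0) (nat_lit 2402203487) (nat_lit 228) (nat_lit 10145428601) (nat_lit 76) (nat_lit 4600677858) (nat_lit 27) (nat_lit 5) (nat_lit 30) (nat_lit 5) (nat_lit 28) (nat_lit 5) (nat_lit 328) (nat_lit 305) (nat_lit 267)) (XT.lf (nat_lit 0) (nat_lit 6317401733) (nat_lit 228) (nat_lit 864541164) (nat_lit 76) (nat_lit 10837984577) (nat_lit 27) (nat_lit 5) (nat_lit 30) (nat_lit 5) (nat_lit 28) (nat_lit 5) (nat_lit 329) (nat_lit 305) (nat_lit 266))))))))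
noncomputable def xc112 : XT := (XT.nd (nat_lit 1326) (nat_lit 608) (nat_lit 0) (XT.nd (nat_lit 624) (nat_lit 380) (nat_lit 0) (XT.nd (nat_lit 312) (nat_lit 228) (nat_lit 0) (XT.nd (nat_lit 156) (nat_lit 228) (nat_lit 0) (XT.nd (nat_lit 78) (nat_lit 76) (nat_lit 0) (XT.lf (nat_lit 0) (nat_lit 9568324556) (nat_lit 152) (nat_lit 1163804020) (nat_lit 228) (nat_lit 8214282595) (nat_lit 25) (nat_lit 5) (nat_lit 27) (nat_lit 5) (nat_lit 28) (nat_lit 5) (nat_lit 330) (nat_lit 305) (nat_lit 265)) (XT.lf (nat_lit 0) (nat_lit 779734270) (nat_lit 76) (nat_lit 14848842003) (nat_lit 152) (nat_lit 4308192562) (nat_lit 24) (nat_lit 5) (nat_lit 25) (nat_lit 5) (nat_lit 26) (nat_lit 4) (nat_lit 331) (nat_lit 305) (nat_lit 264))) (XT.nd (nat_lit 78) (nat_lit 152) (nat_lit 0) (XT.lf (nat_lit 0) (nat_lit 165800283) (nat_lit 152) (nat_lit 8807737476) (nat_lit 76) (nat_lit 12012948327) (nat_lit 23) (nat_lit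 5) (nat_lit 25) (nat_lit 5) (nat_lit 24) (nat_lit 5) (nat_lit 332) (nat_lit 305) (nat_lit 263)) (XT.lf (nat_lit 0) (nat_lit 2307590197) (nat_lit 152) (nat_lit 2473634559) (nat_lit 228) (nat_lit 17328733265) (nat_lit 21) (nat_lit 5) (nat_lit 23) (nat_lit 5) (nat_lit 24) (nat_lit 5) (nat_lit 333) (nat_lit 305) (nat_lit 262)))) (XT.nd (nat_lit 156) (nat_lit 152) (nat_lit 0) (XT.nd (nat_lit 78) (nat_lit 76) (nat_lit 0) (XT.lf (nat_lit 0) (nat_lit 10083812180) (nat_lit 228) (nat_lit 8672810721) (nat_lit 76) (nat_lit 4541278930) (nat_lit 21) (nat_lit 5) (nat_lit 24) (nat_lit 5) (nat_lit 22) (nat_lit 4) (nat_lit 334) (nat_lit 305) (nat_lit 261)) (XT.lf (nat_lit 0) (nat_lit 3391183146) (nat_lit 76) (nat_lit 12529599432) (nat_lit 152) (nat_lit 8651310820) (nat_lit 20) (nat_lit 5) (nat_lit 21) (nat_lit 5) (nat_lit 22) (nat_lit 4) (nat_lit 335) (nat_lit 305) (nat_lit 260))) (XT.nd (nat_lit 78) (nat_lit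 152) (nat_lit 0) (XT.lf (nat_lit 0) (nat_lit 16853761043) (nat_lit 76) (nat_lit 5573649334) (nat_lit 152) (nat_lit 3504618310) (nat_lit 20) (nat_lit 5) (nat_lit 21) (nat_lit 5) (nat_lit 22) (nat_lit 4) (nat_lit 336) (nat_lit 305) (nat_lit 259)) (XT.lf (nat_lit 0) (nat_lit 2066603155) (nat_lit 152) (nat_lit 23350711556) (nat_lit 76) (nat_lit 1970270786) (nat_lit 18) (nat_lit 5) (nat_lit 20) (nat_lit 5) (nat_lit 19) (nat_lit 4) (nat_lit 337) (nat_lit 305) (nat_lit 258))))) (XT.nd (nat_lit 312) (nat_lit 228) (nat_lit 0) (XT.nd (nat_lit 156) (nat_lit 76) (nat_lit 0) (XT.nd (nat_lit 78) (nat_lit 76) (nat_lit 0) (XT.lf (nat_lit 0) (nat_lit 8261394995) (nat_lit 152) (nat_lit 10522071675) (nat_lit 76) (nat_lit 10139480164) (nat_lit 18) (nat_lit 5) (nat_lit 20) (nat_lit 5) (nat_lit 19) (nat_lit 4) (nat_lit 338) (nat_lit 305) (nat_lit 257)) (XT.lf (nat_lit 0) (nat_lit 3452208638) (nat_lit 76) (nat_lit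 11552753792) (nat_lit 152) (nat_lit 15571937189) (nat_lit 17) (nat_lit 5) (nat_lit 18) (nat_lit 5) (nat_lit 19) (nat_lit 4) (nat_lit 339) (nat_lit 305) (nat_lit 256))) (XT.nd (nat_lit 78) (nat_lit 76) (nat_lit 0) (XT.lf (nat_lit 0) (nat_lit 19090837189) (nat_lit 76) (nat_lit 3455996140) (nat_lit 152) (nat_lit 9795646446) (nat_lit 17) (nat_lit 5) (nat_lit 18) (nat_lit 5) (nat_lit 19) (nat_lit 4) (nat_lit 340) (nat_lit 305) (nat_lit 255)) (XT.lf (nat_lit 0) (nat_lit 1636124995) (nat_lit 76) (nat_lit 29195216309) (nat_lit 76) (nat_lit 3406837411) (nat_lit 16) (nat_lit 4) (nat_lit 17) (nat_lit 5) (nat_lit 17) (nat_lit 4) (nat_lit 341) (nat_lit 305) (nat_lit 254)))) (XT.nd (nat_lit 156) (nat_lit 152) (nat_lit 0) (XT.nd (nat_lit 78) (nat_lit 0) (nat_lit 0) (XT.lf (nat_lit 0) (nat_lit 3752741391) (nat_lit 152) (nat_lit 18021148230) (nat_lit 76) (nat_lit 14470184206) (nat_lit 15) (nat_lit 5) (nat_lit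 17) (nat_lit 5) (nat_lit 16) (nat_lit 4) (nat_lit 342) (nat_lit 305) (nat_lit 253)) (XT.lf (nat_lit 0) (nat_lit 11275938371) (nat_lit 152) (nat_lit 2408520203) (nat_lit 76) (nat_lit 24720922260) (nat_lit 15) (nat_lit 5) (nat_lit 17) (nat_lit 5) (nat_lit 16) (nat_lit 4) (nat_lit 343) (nat_lit 305) (nat_lit 252))) (XT.nd (nat_lit 78) (nat_lit 76) (nat_lit 0) (XT.lf (nat_lit 0) (nat_lit 15169104183) (nat_lit 76) (nat_lit 4573472377) (nat_lit 152) (nat_lit 20969700299) (nat_lit 14) (nat_lit 5) (nat_lit 15) (nat_lit 5) (nat_lit 16) (nat_lit 4) (nat_lit 344) (nat_lit 305) (nat_lit 251)) (XT.nd (nat_lit 78) (nat_lit 76) (nat_lit 0) (XT.lf (nat_lit 0) (nat_lit 29057788706) (nat_lit 152) (nat_lit 9080009034) (nat_lit 0) (nat_lit 5052237852) (nat_lit 14) (nat_lit 5) (nat_lit 16) (nat_lit 4) (nat_lit 14) (nat_lit 4) (nat_lit 345) (nat_lit 305) (nat_lit 250)) (XT.lf (nat_lit 0) (nat_lit 8991290906)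 (nat_lit 76) (nat_lit 30440683564) (nat_lit 76) (nat_lit 6408949703) (nat_lit 13) (nat_lit 4) (nat_lit 14) (nat_lit 5) (nat_lit 14) (nat_lit 4) (nat_lit 346) (nat_lit 305) (nat_lit 249))))))) (XT.nd (nat_lit 624) (nat_lit 228) (nat_lit 0) (XT.nd (nat_lit 312) (nat_lit 228) (nat_lit 0) (XT.nd (nat_lit 156) (nat_lit 76) (nat_lit 0) (XT.nd (nat_lit 78) (nat_lit 0) (nat_lit 0) (XT.lf (nat_lit 0) (nat_lit 2069086591) (nat_lit 152) (nat_lit 19752277276) (nat_lit 76) (nat_lit 26860128105) (nat_lit 12) (nat_lit 5) (nat_lit 14) (nat_lit 5) (nat_lit 13) (nat_lit 4) (nat_lit 347) (nat_lit 305) (nat_lit 248)) (XT.lf (nat_lit 0) (nat_lit 10859505322) (nat_lit 152) (nat_lit 1490654022) (nat_lit 76) (nat_lit 39387405096) (nat_lit 12) (nat_lit 5) (nat_lit 14) (nat_lit 5) (nat_lit 13) (nat_lit 4) (nat_lit 348) (nat_lit 305) (nat_lit 247))) (XT.nd (nat_lit 78) (nat_lit 0) (nat_lit 0) (XT.lf (nat_lit 0)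 (nat_lit 19155841698) (nat_lit 76) (nat_lit 1639856237) (nat_lit 152) (nat_lit 34207028657) (nat_lit 11) (nat_lit 5) (nat_lit 12) (nat_lit 5) (nat_lit 13) (nat_lit 4) (nat_lit 349) (nat_lit 305) (nat_lit 246)) (XT.lf (nat_lit 0) (nat_lit 31789354945) (nat_lit 152) (nat_lit 17261295954) (nat_lit 0) (nat_lit 9457451889) (nat_lit 11) (nat_lit 5) (nat_lit 13) (nat_lit 4) (nat_lit 11) (nat_lit 4) (nat_lit 350) (nat_lit 305) (nat_lit 245)))) (XT.nd (nat_lit 156) (nat_lit 152) (nat_lit 0) (XT.nd (nat_lit 78) (nat_lit 0) (nat_lit 0) (XT.lf (nat_lit 0) (nat_lit 2880729053) (nat_lit 76) (nat_lit 40876986036) (nat_lit 76) (nat_lit 18528583244) (nat_lit 10) (nat_lit 4) (nat_lit 11) (nat_lit 5) (nat_lit 11) (nat_lit 4) (nat_lit 351) (nat_lit 305) (nat_lit 244)) (XT.lf (nat_lit 0) (nat_lit 25584666323) (nat_lit 76) (nat_lit 31554653553) (nat_lit 76) (nat_lit 9190973229) (nat_lit 10) (nat_lit 4) (nat_lit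 11) (nat_lit 5) (nat_lit 11) (nat_lit 4) (nat_lit 352) (nat_lit 305) (nat_lit 243))) (XT.nd (nat_lit 78) (nat_lit 76) (nat_lit 0) (XT.lf (nat_lit 0) (nat_lit 833567575) (nat_lit 152) (nat_lit 20644005630) (nat_lit 76) (nat_lit 49219749660) (nat_lit 9) (nat_lit 5) (nat_lit 11) (nat_lit 5) (nat_lit 10) (nat_lit 4) (nat_lit 353) (nat_lit 305) (nat_lit 242)) (XT.lf (nat_lit 0) (nat_lit 841693413) (nat_lit 76) (nat_lit 10327834290) (nat_lit 152) (nat_lit 64224613075) (nat_lit 8) (nat_lit 5) (nat_lit 9) (nat_lit 5) (nat_lit 10) (nat_lit 4) (nat_lit 354) (nat_lit 305) (nat_lit 241))))) (XT.nd (nat_lit 312) (nat_lit 152) (nat_lit 0) (XT.nd (nat_lit 156) (nat_lit 76) (nat_lit 0) (XT.nd (nat_lit 78) (nat_lit 0) (nat_lit 0) (XT.lf (nat_lit 0) (nat_lit 22938553704) (nat_lit 152) (nat_lit 55284672417) (nat_lit 0) (nat_lit 2194987030) (nat_lit 8) (nat_lit 5) (nat_lit 10) (nat_lit 4) (nat_lit 8) (nat_lit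 4) (nat_lit 355) (nat_lit 305) (nat_lit 240)) (XT.lf (nat_lit 0) (nat_lit 35904269763) (nat_lit 152) (nat_lit 34769226502) (nat_lit 0) (nat_lit 15150305456) (nat_lit 8) (nat_lit 5) (nat_lit 10) (nat_lit 4) (nat_lit 8) (nat_lit 4) (nat_lit 356) (nat_lit 305) (nat_lit 239))) (XT.nd (nat_lit 78) (nat_lit 76) (nat_lit 0) (XT.lf (nat_lit 0) (nat_lit 49895125088) (nat_lit 152) (nat_lit 12636151945) (nat_lit 0) (nat_lit 29131533344) (nat_lit 8) (nat_lit 5) (nat_lit 10) (nat_lit 4) (nat_lit 8) (nat_lit 4) (nat_lit 357) (nat_lit 305) (nat_lit 238)) (XT.lf (nat_lit 0) (nat_lit 11837889385) (nat_lit 76) (nat_lit 53440840592) (nat_lit 76) (nat_lit 32668334554) (nat_lit 7) (nat_lit 4) (nat_lit 8) (nat_lit 5) (nat_lit 8) (nat_lit 4) (nat_lit 358) (nat_lit 305) (nat_lit 237)))) (XT.nd (nat_lit 156) (nat_lit 152) (nat_lit 0) (XT.nd (nat_lit 78) (nat_lit 0) (nat_lit 0) (XT.lf (nat_lit 0) (nat_lit 38967178193)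 (nat_lit 76) (nat_lit 43260438219) (nat_lit 76) (nat_lit 22479678205) (nat_lit 7) (nat_lit 4) (nat_lit 8) (nat_lit 5) (nat_lit 8) (nat_lit 4) (nat_lit 359) (nat_lit 305) (nat_lit 236)) (XT.lf (nat_lit 0) (nat_lit 68247083268) (nat_lit 76) (nat_lit 32275236390) (nat_lit 76) (nat_lit 11486833806) (nat_lit 7) (nat_lit 4) (nat_lit 8) (nat_lit 5) (nat_lit 8) (nat_lit 4) (nat_lit 360) (nat_lit 305) (nat_lit 235))) (XT.nd (nat_lit 78) (nat_lit 76) (nat_lit 0) (XT.lf (nat_lit 0) (nat_lit 356565325) (nat_lit 152) (nat_lit 20053823161) (nat_lit 76) (nat_lit 99484800705) (nat_lit 6) (nat_lit 5) (nat_lit 8) (nat_lit 5) (nat_lit 7) (nat_lit 4) (nat_lit 361) (nat_lit 305) (nat_lit 234)) (XT.nd (nat_lit 78) (nat_lit 0) (nat_lit 0) (XT.lf (nat_lit 0) (nat_lit 5511025646) (nat_lit 76) (nat_lit 7139482505) (nat_lit 152) (nat_lit 115727840389) (nat_lit 5) (nat_lit 5) (nat_lit 6) (nat_lit 5) (nat_lit 7) (nat_lit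 4) (nat_lit 362) (nat_lit 305) (nat_lit 233)) (XT.lf (nat_lit 0) (nat_lit 26654678692) (nat_lit 152) (nat_lit 103439425967) (nat_lit 0) (nat_lit 7387921073) (nat_lit 5) (nat_lit 5) (nat_lit 7) (nat_lit 4) (nat_lit 5) (nat_lit 4) (nat_lit 363) (nat_lit 305) (nat_lit 232))))))))
noncomputable def xc113 : XT := (XT.nd (nat_lit 1326) (nat_lit 76) (nat_lit 0) (XT.nd (nat_lit 624) (nat_lit 152) (nat_lit 0) (XT.nd (nat_lit 312) (nat_lit 76) (nat_lit 0) (XT.nd (nat_lit 156) (nat_lit 0) (nat_lit 0) (XT.nd (nat_lit 78) (nat_lit 0) (nat_lit 0) (XT.lf (nat_lit 0) (nat_lit 41956447453) (nat_lit 152) (nat_lit 82658881974) (nat_lit 0) (nat_lit 22684488430) (nat_lit 5) (nat_lit 5) (nat_lit 7) (nat_lit 4) (nat_lit 5) (nat_lit 4) (nat_lit 364) (nat_lit 305) (nat_lit 231)) (XT.lf (nat_lit 0) (nat_lit 58474786857) (nat_lit 152) (nat_lit 60230842225) (nat_lit 0) (nat_lit 39198011718) (nat_lit 5) (nat_lit 5)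 (nat_lit 7) (nat_lit 4) (nat_lit 5) (nat_lit 4) (nat_lit 365) (nat_lit 305) (nat_lit 230))) (XT.nd (nat_lit 78) (nat_lit 0) (nat_lit 0) (XT.lf (nat_lit 0) (nat_lit 76307583360) (nat_lit 152) (nat_lit 36022399819) (nat_lit 0) (nat_lit 57026348855) (nat_lit 5) (nat_lit 5) (nat_lit 7) (nat_lit 4) (nat_lit 5) (nat_lit 4) (nat_lit 366) (nat_lit 305) (nat_lit 229)) (XT.lf (nat_lit 0) (nat_lit 95560512792) (nat_lit 152) (nat_lit 9890097319) (nat_lit 0) (nat_lit 76275149244) (nat_lit 5) (nat_lit 5) (nat_lit 7) (nat_lit 4) (nat_lit 5) (nat_lit 4) (nat_lit 367) (nat_lit 305) (nat_lit 228)))) (XT.nd (nat_lit 156) (nat_lit 0) (nat_lit 0) (XT.nd (nat_lit 78) (nat_lit 0) (nat_lit 0) (XT.lf (nat_lit 0) (nat_lit 19285670720) (nat_lit 76) (nat_lit 97525816712) (nat_lit 76) (nat_lit 78236629976) (nat_lit 4) (nat_lit 4) (nat_lit 5) (nat_lit 5) (nat_lit 5) (nat_lit 4) (nat_lit 368) (nat_lit 305) (nat_lit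 227)) (XT.lf (nat_lit 0) (nat_lit 51346393190) (nat_lit 76) (nat_lit 88680716681) (nat_lit 76) (nat_lit 69387989956) (nat_lit 4) (nat_lit 4) (nat_lit 5) (nat_lit 5) (nat_lit 5) (nat_lit 4) (nat_lit 369) (nat_lit 305) (nat_lit 226))) (XT.nd (nat_lit 78) (nat_lit 0) (nat_lit 0) (XT.lf (nat_lit 0) (nat_lit 85961264558) (nat_lit 76) (nat_lit 79133307399) (nat_lit 76) (nat_lit 59837302907) (nat_lit 4) (nat_lit 4) (nat_lit 5) (nat_lit 5) (nat_lit 5) (nat_lit 4) (nat_lit 370) (nat_lit 305) (nat_lit 225)) (XT.lf (nat_lit 0) (nat_lit 123335409988) (nat_lit 76) (nat_lit 68827011626) (nat_lit 76) (nat_lit 49527972165) (nat_lit 4) (nat_lit 4) (nat_lit 5) (nat_lit 5) (nat_lit 5) (nat_lit 4) (nat_lit 371) (nat_lit 305) (nat_lit 224))))) (XT.nd (nat_lit 312) (nat_lit 76) (nat_lit 0) (XT.nd (nat_lit 156) (nat_lit 76) (nat_lit 0) (XT.nd (nat_lit 78) (nat_lit 0) (nat_lit 0) (XT.lf (nat_lit 0) (nat_lit 163690305896)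 (nat_lit 76) (nat_lit 57700755017) (nat_lit 76) (nat_lit 38398905398) (nat_lit 4) (nat_lit 4) (nat_lit 5) (nat_lit 5) (nat_lit 5) (nat_lit 4) (nat_lit 372) (nat_lit 305) (nat_lit 223)) (XT.lf (nat_lit 0) (nat_lit 207265092408) (nat_lit 76) (nat_lit 45688604198) (nat_lit 76) (nat_lit 26384152582) (nat_lit 4) (nat_lit 4) (nat_lit 5) (nat_lit 5) (nat_lit 5) (nat_lit 4) (nat_lit 373) (nat_lit 305) (nat_lit 222))) (XT.nd (nat_lit 78) (nat_lit 76) (nat_lit 0) (XT.lf (nat_lit 0) (nat_lit 254317990480) (nat_lit 76) (nat_lit 32719376055) (nat_lit 76) (nat_lit 13412515182) (nat_lit 4) (nat_lit 4) (nat_lit 5) (nat_lit 5) (nat_lit 5) (nat_lit 4) (nat_lit 374) (nat_lit 305) (nat_lit 221)) (XT.lf (nat_lit 0) (nat_lit 563217717) (nat_lit 152) (nat_lit 18137598814) (nat_lit 76) (nat_lit 304549215013) (nat_lit 3) (nat_lit 5) (nat_lit 5) (nat_lit 5) (nat_lit 4) (nat_lit 4) (nat_lit 375) (nat_lit 305) (nat_lit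 220)))) (XT.nd (nat_lit 156) (nat_lit 0) (nat_lit 0) (XT.nd (nat_lit 78) (nat_lit 0) (nat_lit 0) (XT.lf (nat_lit 0) (nat_lit 12359183015) (nat_lit 76) (nat_lit 2866942095) (nat_lit 152) (nat_lit 332596699586) (nat_lit 2) (nat_lit 5) (nat_lit 3) (nat_lit 5) (nat_lit 4) (nat_lit 4) (nat_lit 376) (nat_lit 305) (nat_lit 219)) (XT.lf (nat_lit 0) (nat_lit 31909696845) (nat_lit 152) (nat_lit 328356709727) (nat_lit 0) (nat_lit 14027224844) (nat_lit 2) (nat_lit 5) (nat_lit 4) (nat_lit 4) (nat_lit 2) (nat_lit 4) (nat_lit 377) (nat_lit 305) (nat_lit 218))) (XT.nd (nat_lit 78) (nat_lit 0) (nat_lit 0) (XT.lf (nat_lit 0) (nat_lit 49999195653) (nat_lit 152) (nat_lit 320762124369) (nat_lit 0) (nat_lit 32115083952) (nat_lit 2) (nat_lit 5) (nat_lit 4) (nat_lit 4) (nat_lit 2) (nat_lit 4) (nat_lit 378) (nat_lit 305) (nat_lit 217)) (XT.nd (nat_lit 78) (nat_lit 0) (nat_lit 0) (XT.lf (nat_lit 0) (nat_lit 69532868536)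 (nat_lit 152) (nat_lit 312565930632) (nat_lit 0) (nat_lit 51647238595) (nat_lit 2) (nat_lit 5) (nat_lit 4) (nat_lit 4) (nat_lit 2) (nat_lit 4) (nat_lit 379) (nat_lit 305) (nat_lit 216)) (XT.lf (nat_lit 0) (nat_lit 90626470595) (nat_lit 152) (nat_lit 303719558478) (nat_lit 0) (nat_lit 72739434875) (nat_lit 2) (nat_lit 5) (nat_lit 4) (nat_lit 4) (nat_lit 2) (nat_lit 4) (nat_lit 380) (nat_lit 305) (nat_lit 215))))))) (XT.nd (nat_lit 624) (nat_lit 76) (nat_lit 0) (XT.nd (nat_lit 312) (nat_lit 0) (nat_lit 0) (XT.nd (nat_lit 156) (nat_lit 0) (nat_lit 0) (XT.nd (nat_lit 78) (nat_lit 0) (nat_lit 0) (XT.lf (nat_lit 0) (nat_lit 113405000951) (nat_lit 152) (nat_lit 294170584962) (nat_lit 0) (nat_lit 95516663585) (nat_lit 2) (nat_lit 5) (nat_lit 4) (nat_lit 4) (nat_lit 2) (nat_lit 4) (nat_lit 381) (nat_lit 305) (nat_lit 214)) (XT.lf (nat_lit 0) (nat_lit 138003443490) (nat_lit 152) (nat_lit 283862423573)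 (nat_lit 0) (nat_lit 120113900896) (nat_lit 2) (nat_lit 5) (nat_lit 4) (nat_lit 4) (nat_lit 2) (nat_lit 4) (nat_lit 382) (nat_lit 305) (nat_lit 213))) (XT.nd (nat_lit 78) (nat_lit 0) (nat_lit 0) (XT.lf (nat_lit 0) (nat_lit 164567566759) (nat_lit 152) (nat_lit 272733988910) (nat_lit 0) (nat_lit 146676908212) (nat_lit 2) (nat_lit 5) (nat_lit 4) (nat_lit 4) (nat_lit 2) (nat_lit 4) (nat_lit 383) (nat_lit 305) (nat_lit 212)) (XT.lf (nat_lit 0) (nat_lit 193254787784) (nat_lit 152) (nat_lit 260719334695) (nat_lit 0) (nat_lit 175363095949) (nat_lit 2) (nat_lit 5) (nat_lit 4) (nat_lit 4) (nat_lit 2) (nat_lit 4) (nat_lit 384) (nat_lit 305) (nat_lit 211)))) (XT.nd (nat_lit 156) (nat_lit 0) (nat_lit 0) (XT.nd (nat_lit 78) (nat_lit 0) (nat_lit 0) (XT.lf (nat_lit 0) (nat_lit 224235104914) (nat_lit 152) (nat_lit 247747262977) (nat_lit 0) (nat_lit 206342456330) (nat_lit 2) (nat_lit 5) (nat_lit 4) (nat_lit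 4) (nat_lit 2) (nat_lit 4) (nat_lit 385) (nat_lit 305) (nat_lit 210)) (XT.lf (nat_lit 0) (nat_lit 257692105212) (nat_lit 152) (nat_lit 233740902218) (nat_lit 0) (nat_lit 239798570749) (nat_lit 2) (nat_lit 5) (nat_lit 4) (nat_lit 4) (nat_lit 2) (nat_lit 4) (nat_lit 386) (nat_lit 305) (nat_lit 209))) (XT.nd (nat_lit 78) (nat_lit 0) (nat_lit 0) (XT.lf (nat_lit 0) (nat_lit 293824052383) (nat_lit 152) (nat_lit 218617251764) (nat_lit 0) (nat_lit 275929697662) (nat_lit 2) (nat_lit 5) (nat_lit 4) (nat_lit 4) (nat_lit 2) (nat_lit 4) (nat_lit 387) (nat_lit 305) (nat_lit 208)) (XT.lf (nat_lit 0) (nat_lit 332845061671) (nat_lit 152) (nat_lit 202286689981) (nat_lit 0) (nat_lit 314949947452) (nat_lit 2) (nat_lit 5) (nat_lit 4) (nat_lit 4) (nat_lit 2) (nat_lit 4) (nat_lit 388) (nat_lit 305) (nat_lit 207))))) (XT.nd (nat_lit 312) (nat_lit 76) (nat_lit 0) (XT.nd (nat_lit 156) (nat_lit 0) (nat_lit 0) (XT.nd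 (nat_lit 78) (nat_lit 0) (nat_lit 0) (XT.lf (nat_lit 0) (nat_lit 374986368685) (nat_lit 152) (nat_lit 184652443170) (nat_lit 0) (nat_lit 357090551227) (nat_lit 2) (nat_lit 5) (nat_lit 4) (nat_lit 4) (nat_lit 2) (nat_lit 4) (nat_lit 389) (nat_lit 305) (nat_lit 206)) (XT.lf (nat_lit 0) (nat_lit 420497699691) (nat_lit 152) (nat_lit 165610012091) (nat_lit 0) (nat_lit 402601231085) (nat_lit 2) (nat_lit 5) (nat_lit 4) (nat_lit 4) (nat_lit 2) (nat_lit 4) (nat_lit 390) (nat_lit 305) (nat_lit 205))) (XT.nd (nat_lit 78) (nat_lit 0) (nat_lit 0) (XT.lf (nat_lit 0) (nat_lit 469648751463) (nat_lit 152) (nat_lit 145046552708) (nat_lit 0) (nat_lit 451751679943) (nat_lit 2) (nat_lit 5) (nat_lit 4) (nat_lit 4) (nat_lit 2) (nat_lit 4) (nat_lit 391) (nat_lit 305) (nat_lit 204)) (XT.lf (nat_lit 0) (nat_lit 522730789494) (nat_lit 152) (nat_lit 122840207483) (nat_lit 0) (nat_lit 504833159720) (nat_lit 2) (nat_lit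 5) (nat_lit 4) (nat_lit 4) (nat_lit 2) (nat_lit 4) (nat_lit 392) (nat_lit 305) (nat_lit 203)))) (XT.nd (nat_lit 156) (nat_lit 76) (nat_lit 0) (XT.nd (nat_lit 78) (nat_lit 0) (nat_lit 0) (XT.lf (nat_lit 0) (nat_lit 580058374009) (nat_lit 152) (nat_lit 98859383260) (nat_lit 0) (nat_lit 562160227333) (nat_lit 2) (nat_lit 5) (nat_lit 4) (nat_lit 4) (nat_lit 2) (nat_lit 4) (nat_lit 393) (nat_lit 305) (nat_lit 202)) (XT.lf (nat_lit 0) (nat_lit 641971224028) (nat_lit 152) (nat_lit 72961971451) (nat_lit 0) (nat_lit 624072598740) (nat_lit 2) (nat_lit 5) (nat_lit 4) (nat_lit 4) (nat_lit 2) (nat_lit 4) (nat_lit 394) (nat_lit 305) (nat_lit 201))) (XT.nd (nat_lit 78) (nat_lit 76) (nat_lit 0) (XT.lf (nat_lit 0) (nat_lit 708836230513) (nat_lit 152) (nat_lit 44994505911) (nat_lit 0) (nat_lit 690937162065) (nat_lit 2) (nat_lit 5) (nat_lit 4) (nat_lit 4) (nat_lit 2) (nat_lit 4) (nat_lit 395) (nat_lit 305)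 (nat_lit 200)) (XT.nd (nat_lit 78) (nat_lit 76) (nat_lit 0) (XT.lf (nat_lit 0) (nat_lit 781049630541) (nat_lit 152) (nat_lit 14791253513) (nat_lit 0) (nat_lit 763150151760) (nat_lit 2) (nat_lit 5) (nat_lit 4) (nat_lit 4) (nat_lit 2) (nat_lit 4) (nat_lit 396) (nat_lit 305) (nat_lit 199)) (XT.lf (nat_lit 0) (nat_lit 18765493991) (nat_lit 76) (nat_lit 840725171961) (nat_lit 76) (nat_lit 822825313241) (nat_lit 1) (nat_lit 4) (nat_lit 2) (nat_lit 5) (nat_lit 2) (nat_lit 4) (nat_lit 397) (nat_lit 305) (nat_lit 198))))))))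
noncomputable def xc114 : XT := (XT.nd (nat_lit 39858) (nat_lit 0) (nat_lit 2508) (XT.nd (nat_lit 624) (nat_lit 0) (nat_lit 0) (XT.nd (nat_lit 312) (nat_lit 0) (nat_lit 0) (XT.nd (nat_lit 156) (nat_lit 0) (nat_lit 0) (XT.nd (nat_lit 78) (nat_lit 0) (nat_lit 0) (XT.lf (nat_lit 0) (nat_lit 55846519643) (nat_lit 76) (nat_lit 888764156831) (nat_lit 76) (nat_lit 870863946316) (nat_lit 1) (nat_lit 4) (nat_lit 2) (nat_lit 5) (nat_lit 2) (nat_lit 4) (nat_lit 398) (nat_lit 305) (nat_lit 197)) (XT.lf (nat_lit 0) (nat_lit 95892681656) (nat_lit 76) (nat_lit 940646933214) (nat_lit 76) (nat_lit 922746396964) (nat_lit 1) (nat_lit 4) (nat_lit 2) (nat_lit 5) (nat_lit 2) (nat_lit 4) (nat_lit 399) (nat_lit 305) (nat_lit 196))) (XT.nd (nat_lit 78) (nat_lit 0) (nat_lit 0) (XT.lf (nat_lit 0) (nat_lit 139141290619) (nat_lit 76) (nat_lit 996680954600) (nat_lit 76) (nat_lit 978780116743) (nat_lit 1) (nat_lit 4)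 (nat_lit 2) (nat_lit 5) (nat_lit 2) (nat_lit 4) (nat_lit 400) (nat_lit 305) (nat_lit 195)) (XT.lf (nat_lit 0) (nat_lit 185848634585) (nat_lit 76) (nat_lit 1057198274449) (nat_lit 76) (nat_lit 1039297157325) (nat_lit 1) (nat_lit 4) (nat_lit 2) (nat_lit 5) (nat_lit 2) (nat_lit 4) (nat_lit 401) (nat_lit 305) (nat_lit 194)))) (XT.nd (nat_lit 156) (nat_lit 0) (nat_lit 0) (XT.nd (nat_lit 78) (nat_lit 0) (nat_lit 0) (XT.lf (nat_lit 0) (nat_lit 236291497816) (nat_lit 76) (nat_lit 1122557513915) (nat_lit 76) (nat_lit 1104656138212) (nat_lit 1) (nat_lit 4) (nat_lit 2) (nat_lit 5) (nat_lit 2) (nat_lit 4) (nat_lit 402) (nat_lit 305) (nat_lit 193)) (XT.lf (nat_lit 0) (nat_lit 290768800981) (nat_lit 76) (nat_lit 1193145987010) (nat_lit 76) (nat_lit 1175244371882) (nat_lit 1) (nat_lit 4) (nat_lit 2) (nat_lit 5) (nat_lit 2) (nat_lit 4) (nat_lit 403) (nat_lit 305) (nat_lit 192))) (XT.nd (nat_lit 78) (nat_lit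 0) (nat_lit 0) (XT.lf (nat_lit 0) (nat_lit 349603372545) (nat_lit 76) (nat_lit 1269381995797) (nat_lit 76) (nat_lit 1251480158979) (nat_lit 1) (nat_lit 4) (nat_lit 2) (nat_lit 5) (nat_lit 2) (nat_lit 4) (nat_lit 404) (nat_lit 305) (nat_lit 191)) (XT.lf (nat_lit 0) (nat_lit 413143861820) (nat_lit 76) (nat_lit 1351717309218) (nat_lit 76) (nat_lit 1333815267130) (nat_lit 1) (nat_lit 4) (nat_lit 2) (nat_lit 5) (nat_lit 2) (nat_lit 4) (nat_lit 405) (nat_lit 305) (nat_lit 190))))) (XT.nd (nat_lit 312) (nat_lit 0) (nat_lit 0) (XT.nd (nat_lit 156) (nat_lit 0) (nat_lit 0) (XT.nd (nat_lit 78) (nat_lit 0) (nat_lit 0) (XT.lf (nat_lit 0) (nat_lit 481766805039) (nat_lit 76) (nat_lit 1440639840239) (nat_lit 76) (nat_lit 1422737608088) (nat_lit 1) (nat_lit 4) (nat_lit 2) (nat_lit 5) (nat_lit 2) (nat_lit 4) (nat_lit 406) (nat_lit 305) (nat_lit 189)) (XT.lf (nat_lit 0) (nat_lit 555878856680) (nat_lit 76)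 (nat_lit 1536676537194) (nat_lit 76) (nat_lit 1518774129058) (nat_lit 1) (nat_lit 4) (nat_lit 2) (nat_lit 5) (nat_lit 2) (nat_lit 4) (nat_lit 407) (nat_lit 305) (nat_lit 188))) (XT.nd (nat_lit 78) (nat_lit 0) (nat_lit 0) (XT.lf (nat_lit 0) (nat_lit 635919199272) (nat_lit 76) (nat_lit 1640396506434) (nat_lit 76) (nat_lit 1622493935349) (nat_lit 1) (nat_lit 4) (nat_lit 2) (nat_lit 5) (nat_lit 2) (nat_lit 4) (nat_lit 408) (nat_lit 305) (nat_lit 187)) (XT.lf (nat_lit 0) (nat_lit 722362145956) (nat_lit 76) (nat_lit 1752414384815) (nat_lit 76) (nat_lit 1734511662851) (nat_lit 1) (nat_lit 4) (nat_lit 2) (nat_lit 5) (nat_lit 2) (nat_lit 4) (nat_lit 409) (nat_lit 305) (nat_lit 186)))) (XT.nd (nat_lit 156) (nat_lit 0) (nat_lit 0) (XT.nd (nat_lit 78) (nat_lit 0) (nat_lit 0) (XT.lf (nat_lit 0) (nat_lit 815719951230) (nat_lit 76) (nat_lit 1873393981986) (nat_lit 76) (nat_lit 1855491120320) (nat_lit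 1) (nat_lit 4) (nat_lit 2) (nat_lit 5) (nat_lit 2) (nat_lit 4) (nat_lit 410) (nat_lit 305) (nat_lit 185)) (XT.lf (nat_lit 0) (nat_lit 916545846533) (nat_lit 76) (nat_lit 2004052214078) (nat_lit 76) (nat_lit 1986149223058) (nat_lit 1) (nat_lit 4) (nat_lit 2) (nat_lit 5) (nat_lit 2) (nat_lit 4) (nat_lit 411) (nat_lit 305) (nat_lit 184))) (XT.nd (nat_lit 38610) (nat_lit 0) (nat_lit 4560) (XT.lf (nat_lit 0) (nat_lit 1025437318653) (nat_lit 76) (nat_lit 2145163352096) (nat_lit 76) (nat_lit 2127260241304) (nat_lit 1) (nat_lit 4) (nat_lit 2) (nat_lit 5) (nat_lit 2) (nat_lit 4) (nat_lit 412) (nat_lit 305) (nat_lit 183)) (XT.nd (nat_lit 78) (nat_lit 380) (nat_lit 0) (XT.lf (nat_lit 0) (nat_lit 3417071742) (nat_lit 380) (nat_lit 163407104) (nat_lit 380) (nat_lit 163407104) (nat_lit 66) (nat_lit 3) (nat_lit 71) (nat_lit 3) (nat_lit 71) (nat_lit 5) (nat_lit 306) (nat_lit 306) (nat_lit 288)) (XT.lf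 (nat_lit 0) (nat_lit 813225726) (nat_lit 380) (nat_lit 4274800046) (nat_lit 456) (nat_lit 2580985149) (nat_lit 61) (nat_lit 5) (nat_lit 66) (nat_lit 3) (nat_lit 67) (nat_lit 5) (nat_lit 307) (nat_lit 306) (nat_lit 287))))))) (XT.nd (nat_lit 624) (nat_lit 1292) (nat_lit 0) (XT.nd (nat_lit 312) (nat_lit 760) (nat_lit 0) (XT.nd (nat_lit 156) (nat_lit 0) (nat_lit 76) (XT.nd (nat_lit 78) (nat_lit 0) (nat_lit 0) (XT.lf (nat_lit 0) (nat_lit 2231867263) (nat_lit 380) (nat_lit 533567880) (nat_lit 456) (nat_lit 5108661731) (nat_lit 61) (nat_lit 5) (nat_lit 66) (nat_lit 3) (nat_lit 67) (nat_lit 5) (nat_lit 308) (nat_lit 306) (nat_lit 286)) (XT.lf (nat_lit 76) (nat_lit 3609927148) (nat_lit 0) (nat_lit 111803102) (nat_lit 456) (nat_lit 4377506003) (nat_lit 62) (nat_lit 5) (nat_lit 61) (nat_lit 5) (nat_lit 67) (nat_lit 5) (nat_lit 309) (nat_lit 306) (nat_lit 285))) (XT.nd (nat_lit 78) (nat_lit 0) (nat_lit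 0) (XT.lf (nat_lit 0) (nat_lit 5291739376) (nat_lit 380) (nat_lit 379294765) (nat_lit 456) (nat_lit 2674721407) (nat_lit 62) (nat_lit 5) (nat_lit 67) (nat_lit 5) (nat_lit 68) (nat_lit 5) (nat_lit 310) (nat_lit 306) (nat_lit 284)) (XT.lf (nat_lit 76) (nat_lit 4185720308) (nat_lit 0) (nat_lit 2793859612) (nat_lit 456) (nat_lit 1633265173) (nat_lit 63) (nat_lit 5) (nat_lit 62) (nat_lit 5) (nat_lit 68) (nat_lit 5) (nat_lit 311) (nat_lit 306) (nat_lit 283)))) (XT.nd (nat_lit 156) (nat_lit 456) (nat_lit 0) (XT.nd (nat_lit 78) (nat_lit 76) (nat_lit 0) (XT.lf (nat_lit 0) (nat_lit 149187821) (nat_lit 380) (nat_lit 8570695452) (nat_lit 456) (nat_lit 188234017) (nat_lit 58) (nat_lit 5) (nat_lit 63) (nat_lit 5) (nat_lit 64) (nat_lit 5) (nat_lit 312) (nat_lit 306) (nat_lit 282)) (XT.lf (nat_lit 0) (nat_lit 1399101790) (nat_lit 456) (nat_lit 4073472136) (nat_lit 76) (nat_lit 3744348755) (nat_lit 57)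 (nat_lit 5) (nat_lit 63) (nat_lit 5) (nat_lit 58) (nat_lit 5) (nat_lit 313) (nat_lit 306) (nat_lit 281))) (XT.nd (nat_lit 78) (nat_lit 0) (nat_lit 0) (XT.lf (nat_lit 0) (nat_lit 945131924) (nat_lit 456) (nat_lit 2086962618) (nat_lit 532) (nat_lit 6523806628) (nat_lit 51) (nat_lit 5) (nat_lit 57) (nat_lit 5) (nat_lit 58) (nat_lit 5) (nat_lit 314) (nat_lit 306) (nat_lit 280)) (XT.lf (nat_lit 0) (nat_lit 4859002381) (nat_lit 532) (nat_lit 3446226735) (nat_lit 76) (nat_lit 1611861368) (nat_lit 51) (nat_lit 5) (nat_lit 58) (nat_lit 5) (nat_lit 52) (nat_lit 5) (nat_lit 315) (nat_lit 306) (nat_lit 279))))) (XT.nd (nat_lit 312) (nat_lit 684) (nat_lit 0) (XT.nd (nat_lit 156) (nat_lit 304) (nat_lit 0) (XT.nd (nat_lit 78) (nat_lit 0) (nat_lit 0) (XT.lf (nat_lit 0) (nat_lit 2099534950) (nat_lit 304) (nat_lit 4755062274) (nat_lit 380) (nat_lit 3450918122) (nat_lit 47) (nat_lit 5) (nat_lit 51) (nat_lit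 5) (nat_lit 52) (nat_lit 5) (nat_lit 316) (nat_lit 306) (nat_lit 278)) (XT.lf (nat_lit 0) (nat_lit 8204278200) (nat_lit 304) (nat_lit 821767382) (nat_lit 380) (nat_lit 1697804686) (nat_lit 47) (nat_lit 5) (nat_lit 51) (nat_lit 5) (nat_lit 52) (nat_lit 5) (nat_lit 317) (nat_lit 306) (nat_lit 277))) (XT.nd (nat_lit 78) (nat_lit 0) (nat_lit 0) (XT.lf (nat_lit 0) (nat_lit 285860486) (nat_lit 304) (nat_lit 7534251438) (nat_lit 76) (nat_lit 3347270622) (nat_lit 43) (nat_lit 5) (nat_lit 47) (nat_lit 5) (nat_lit 44) (nat_lit 5) (nat_lit 318) (nat_lit 306) (nat_lit 276)) (XT.lf (nat_lit 0) (nat_lit 2357788942) (nat_lit 304) (nat_lit 1369105718) (nat_lit 76) (nat_lit 7914376412) (nat_lit 43) (nat_lit 5) (nat_lit 47) (nat_lit 5) (nat_lit 44) (nat_lit 5) (nat_lit 319) (nat_lit 306) (nat_lit 275)))) (XT.nd (nat_lit 156) (nat_lit 304) (nat_lit 0) (XT.nd (nat_lit 78) (nat_lit 152) (nat_lit 0) (XT.lf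 (nat_lit 0) (nat_lit 4681813183) (nat_lit 304) (nat_lit 6680173257) (nat_lit 76) (nat_lit 784274344) (nat_lit 40) (nat_lit 5) (nat_lit 44) (nat_lit 5) (nat_lit 41) (nat_lit 5) (nat_lit 320) (nat_lit 306) (nat_lit 274)) (XT.lf (nat_lit 0) (nat_lit 63612982) (nat_lit 152) (nat_lit 7202174561) (nat_lit 228) (nat_lit 5420030085) (nat_lit 38) (nat_lit 5) (nat_lit 40) (nat_lit 5) (nat_lit 41) (nat_lit 5) (nat_lit 321) (nat_lit 306) (nat_lit 273))) (XT.nd (nat_lit 78) (nat_lit 304) (nat_lit 0) (XT.lf (nat_lit 0) (nat_lit 7649714025) (nat_lit 152) (nat_lit 2529494403) (nat_lit 228) (nat_lit 3079595831) (nat_lit 38) (nat_lit 5) (nat_lit 40) (nat_lit 5) (nat_lit 41) (nat_lit 5) (nat_lit 322) (nat_lit 306) (nat_lit 272)) (XT.nd (nat_lit 78) (nat_lit 76) (nat_lit 0) (XT.lf (nat_lit 0) (nat_lit 1925334440) (nat_lit 228) (nat_lit 11451343569) (nat_lit 304) (nat_lit 496951150) (nat_lit 35) (nat_lit 5)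 (nat_lit 38) (nat_lit 5) (nat_lit 39) (nat_lit 5) (nat_lit 323) (nat_lit 306) (nat_lit 271)) (XT.lf (nat_lit 0) (nat_lit 2345728816) (nat_lit 304) (nat_lit 4345244805) (nat_lit 76) (nat_lit 7828874809) (nat_lit 34) (nat_lit 5) (nat_lit 38) (nat_lit 5) (nat_lit 35) (nat_lit 5) (nat_lit 324) (nat_lit 306) (nat_lit 270))))))))
noncomputable def xc115 : XT := (XT.nd (nat_lit 1326) (nat_lit 760) (nat_lit 0) (XT.nd (nat_lit 624) (nat_lit 532) (nat_lit 0) (XT.nd (nat_lit 312) (nat_lit 456) (nat_lit 0) (XT.nd (nat_lit 156) (nat_lit 152) (nat_lit 0) (XT.nd (nat_lit 78) (nat_lit 0) (nat_lit 0) (XT.lf (nat_lit 0) (nat_lit 3981413070) (nat_lit 152) (nat_lit 1452432547) (nat_lit 228) (nat_lit 9779358738) (nat_lit 32) (nat_lit 5) (nat_lit 34) (nat_lit 5) (nat_lit 35) (nat_lit 5) (nat_lit 325) (nat_lit 306) (nat_lit 269)) (XT.lf (nat_lit 0) (nat_lit 8942775340) (nat_lit 228) (nat_lit 2907993439) (nat_lit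 76) (nat_lit 4097415736) (nat_lit 32) (nat_lit 5) (nat_lit 35) (nat_lit 5) (nat_lit 33) (nat_lit 5) (nat_lit 326) (nat_lit 306) (nat_lit 268))) (XT.nd (nat_lit 78) (nat_lit 0) (nat_lit 0) (XT.lf (nat_lit 0) (nat_lit 6291515477) (nat_lit 152) (nat_lit 6584325795) (nat_lit 228) (nat_lit 3854700704) (nat_lit 30) (nat_lit 5) (nat_lit 32) (nat_lit 5) (nat_lit 33) (nat_lit 5) (nat_lit 327) (nat_lit 306) (nat_lit 267)) (XT.lf (nat_lit 0) (nat_lit 16326872072) (nat_lit 152) (nat_lit 832379074) (nat_lit 228) (nat_lit 413429732) (nat_lit 30) (nat_lit 5) (nat_lit 32) (nat_lit 5) (nat_lit 33) (nat_lit 5) (nat_lit 328) (nat_lit 306) (nat_lit 266)))) (XT.nd (nat_lit 156) (nat_lit 76) (nat_lit 0) (XT.nd (nat_lit 78) (nat_lit 152) (nat_lit 0) (XT.lf (nat_lit 0) (nat_lit 3449012104) (nat_lit 228) (nat_lit 9608186484) (nat_lit 76) (nat_lit 5393790375) (nat_lit 27) (nat_lit 5) (nat_lit 30) (nat_lit 5) (nat_lit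 28) (nat_lit 5) (nat_lit 329) (nat_lit 306) (nat_lit 265)) (XT.lf (nat_lit 0) (nat_lit 331855955) (nat_lit 152) (nat_lit 7290245299) (nat_lit 228) (nat_lit 11774721020) (nat_lit 25) (nat_lit 5) (nat_lit 27) (nat_lit 5) (nat_lit 28) (nat_lit 5) (nat_lit 330) (nat_lit 306) (nat_lit 264))) (XT.nd (nat_lit 78) (nat_lit 76) (nat_lit 0) (XT.lf (nat_lit 0) (nat_lit 11551130923) (nat_lit 152) (nat_lit 801554484) (nat_lit 228) (nat_lit 8047780837) (nat_lit 25) (nat_lit 5) (nat_lit 27) (nat_lit 5) (nat_lit 28) (nat_lit 5) (nat_lit 331) (nat_lit 306) (nat_lit 263)) (XT.lf (nat_lit 0) (nat_lit 2078057509) (nat_lit 76) (nat_lit 15546212525) (nat_lit 152) (nat_lit 3847160569) (nat_lit 24) (nat_lit 5) (nat_lit 25) (nat_lit 5) (nat_lit 26) (nat_lit 4) (nat_lit 332) (nat_lit 306) (nat_lit 262))))) (XT.nd (nat_lit 312) (nat_lit 228) (nat_lit 0) (XT.nd (nat_lit 156) (nat_lit 76) (nat_lit 0) (XT.nd (nat_lit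 78) (nat_lit 152) (nat_lit 0) (XT.lf (nat_lit 0) (nat_lit 887752871) (nat_lit 152) (nat_lit 8330090331) (nat_lit 76) (nat_lit 13390311879) (nat_lit 23) (nat_lit 5) (nat_lit 25) (nat_lit 5) (nat_lit 24) (nat_lit 5) (nat_lit 333) (nat_lit 306) (nat_lit 261)) (XT.lf (nat_lit 0) (nat_lit 3644532768) (nat_lit 152) (nat_lit 2203096779) (nat_lit 228) (nat_lit 17975898862) (nat_lit 21) (nat_lit 5) (nat_lit 23) (nat_lit 5) (nat_lit 24) (nat_lit 5) (nat_lit 334) (nat_lit 306) (nat_lit 260))) (XT.nd (nat_lit 78) (nat_lit 76) (nat_lit 0) (XT.lf (nat_lit 0) (nat_lit 11534195420) (nat_lit 228) (nat_lit 8258954197) (nat_lit 76) (nat_lit 5316614441) (nat_lit 21) (nat_lit 5) (nat_lit 24) (nat_lit 5) (nat_lit 22) (nat_lit 4) (nat_lit 335) (nat_lit 306) (nat_lit 259)) (XT.lf (nat_lit 0) (nat_lit 4742116612) (nat_lit 76) (nat_lit 13074292306) (nat_lit 152) (nat_lit 8671254429) (nat_lit 20) (nat_lit 5) (nat_lit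 21) (nat_lit 5) (nat_lit 22) (nat_lit 4) (nat_lit 336) (nat_lit 306) (nat_lit 258)))) (XT.nd (nat_lit 156) (nat_lit 76) (nat_lit 0) (XT.nd (nat_lit 78) (nat_lit 152) (nat_lit 0) (XT.lf (nat_lit 0) (nat_lit 19201727496) (nat_lit 76) (nat_lit 5595768058) (nat_lit 152) (nat_lit 3162616242) (nat_lit 20) (nat_lit 5) (nat_lit 21) (nat_lit 5) (nat_lit 22) (nat_lit 4) (nat_lit 337) (nat_lit 306) (nat_lit 257)) (XT.lf (nat_lit 0) (nat_lit 2813970607) (nat_lit 152) (nat_lit 24178043363) (nat_lit 76) (nat_lit 2539665608) (nat_lit 18) (nat_lit 5) (nat_lit 20) (nat_lit 5) (nat_lit 19) (nat_lit 4) (nat_lit 338) (nat_lit 306) (nat_lit 256))) (XT.nd (nat_lit 78) (nat_lit 76) (nat_lit 0) (XT.lf (nat_lit 0) (nat_lit 9461231780) (nat_lit 152) (nat_lit 10400203041) (nat_lit 76) (nat_lit 11331910020) (nat_lit 18) (nat_lit 5) (nat_lit 20) (nat_lit 5) (nat_lit 19) (nat_lit 4) (nat_lit 339) (nat_lit 306) (nat_lit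 255)) (XT.nd (nat_lit 78) (nat_lit 0) (nat_lit 0) (XT.lf (nat_lit 0) (nat_lit 4667623890) (nat_lit 76) (nat_lit 12059329046) (nat_lit 152) (nat_lit 16254071427) (nat_lit 17) (nat_lit 5) (nat_lit 18) (nat_lit 5) (nat_lit 19) (nat_lit 4) (nat_lit 340) (nat_lit 306) (nat_lit 254)) (XT.lf (nat_lit 0) (nat_lit 21487769498) (nat_lit 76) (nat_lit 3345767452) (nat_lit 152) (nat_lit 10057427109) (nat_lit 17) (nat_lit 5) (nat_lit 18) (nat_lit 5) (nat_lit 19) (nat_lit 4) (nat_lit 341) (nat_lit 306) (nat_lit 253))))))) (XT.nd (nat_lit 702) (nat_lit 304) (nat_lit 0) (XT.nd (nat_lit 312) (nat_lit 228) (nat_lit 0) (XT.nd (nat_lit 156) (nat_lit 76) (nat_lit 0) (XT.nd (nat_lit 78) (nat_lit 76) (nat_lit 0) (XT.lf (nat_lit 0) (nat_lit 2643527522) (nat_lit 76) (nat_lit 31131195030) (nat_lit 76) (nat_lit 3164103562) (nat_lit 16) (nat_lit 4) (nat_lit 17) (nat_lit 5) (nat_lit 17) (nat_lit 4) (nat_lit 342) (nat_lit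 306) (nat_lit 252)) (XT.lf (nat_lit 0) (nat_lit 4506205524) (nat_lit 152) (nat_lit 18627167024) (nat_lit 76) (nat_lit 15973747277) (nat_lit 15) (nat_lit 5) (nat_lit 17) (nat_lit 5) (nat_lit 16) (nat_lit 4) (nat_lit 343) (nat_lit 306) (nat_lit 251))) (XT.nd (nat_lit 78) (nat_lit 76) (nat_lit 0) (XT.lf (nat_lit 0) (nat_lit 12597684572) (nat_lit 152) (nat_lit 1827430464) (nat_lit 76) (nat_lit 27018918573) (nat_lit 15) (nat_lit 5) (nat_lit 17) (nat_lit 5) (nat_lit 16) (nat_lit 4) (nat_lit 344) (nat_lit 306) (nat_lit 250)) (XT.lf (nat_lit 0) (nat_lit 17136814725) (nat_lit 76) (nat_lit 4591890442) (nat_lit 152) (nat_lit 22207827154) (nat_lit 14) (nat_lit 5) (nat_lit 15) (nat_lit 5) (nat_lit 16) (nat_lit 4) (nat_lit 345) (nat_lit 306) (nat_lit 249)))) (XT.nd (nat_lit 156) (nat_lit 152) (nat_lit 0) (XT.nd (nat_lit 78) (nat_lit 76) (nat_lit 0) (XT.lf (nat_lit 0) (nat_lit 31766744114) (nat_lit 152)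 (nat_lit 9085527830) (nat_lit 0) (nat_lit 5762045012) (nat_lit 14) (nat_lit 5) (nat_lit 16) (nat_lit 4) (nat_lit 14) (nat_lit 4) (nat_lit 346) (nat_lit 306) (nat_lit 248)) (XT.lf (nat_lit 0) (nat_lit 10413225929) (nat_lit 76) (nat_lit 32546068059) (nat_lit 76) (nat_lit 6518921249) (nat_lit 13) (nat_lit 4) (nat_lit 14) (nat_lit 5) (nat_lit 14) (nat_lit 4) (nat_lit 347) (nat_lit 306) (nat_lit 247))) (XT.nd (nat_lit 78) (nat_lit 76) (nat_lit 0) (XT.lf (nat_lit 0) (nat_lit 2588870483) (nat_lit 152) (nat_lit 20663081119) (nat_lit 76) (nat_lit 29295580331) (nat_lit 12) (nat_lit 5) (nat_lit 14) (nat_lit 5) (nat_lit 13) (nat_lit 4) (nat_lit 348) (nat_lit 306) (nat_lit 246)) (XT.nd (nat_lit 78) (nat_lit 76) (nat_lit 0) (XT.lf (nat_lit 0) (nat_lit 12056281456) (nat_lit 152) (nat_lit 990111586) (nat_lit 76) (nat_lit 42803806742) (nat_lit 12) (nat_lit 5) (nat_lit 14) (nat_lit 5) (nat_lit 13) (nat_lit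 4) (nat_lit 349) (nat_lit 306) (nat_lit 245)) (XT.lf (nat_lit 0) (nat_lit 21292412786) (nat_lit 76) (nat_lit 1485187942) (nat_lit 152) (nat_lit 36599765202) (nat_lit 11) (nat_lit 5) (nat_lit 12) (nat_lit 5) (nat_lit 13) (nat_lit 4) (nat_lit 350) (nat_lit 306) (nat_lit 244)))))) (XT.nd (nat_lit 312) (nat_lit 152) (nat_lit 0) (XT.nd (nat_lit 156) (nat_lit 76) (nat_lit 0) (XT.nd (nat_lit 78) (nat_lit 76) (nat_lit 0) (XT.lf (nat_lit 0) (nat_lit 34633542063) (nat_lit 152) (nat_lit 18065525854) (nat_lit 0) (nat_lit 10465489780) (nat_lit 11) (nat_lit 5) (nat_lit 13) (nat_lit 4) (nat_lit 11) (nat_lit 4) (nat_lit 351) (nat_lit 306) (nat_lit 243)) (XT.lf (nat_lit 0) (nat_lit 3673261817) (nat_lit 76) (nat_lit 43877327941) (nat_lit 76) (nat_lit 19695129793) (nat_lit 10) (nat_lit 4) (nat_lit 11) (nat_lit 5) (nat_lit 11) (nat_lit 4) (nat_lit 352) (nat_lit 306) (nat_lit 242))) (XT.nd (nat_lit 78) (nat_lit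 76) (nat_lit 0) (XT.lf (nat_lit 0) (nat_lit 28151878925) (nat_lit 76) (nat_lit 33829195302) (nat_lit 76) (nat_lit 9633899133) (nat_lit 10) (nat_lit 4) (nat_lit 11) (nat_lit 5) (nat_lit 11) (nat_lit 4) (nat_lit 353) (nat_lit 306) (nat_lit 241)) (XT.lf (nat_lit 0) (nat_lit 1157407912) (nat_lit 152) (nat_lit 21800015509) (nat_lit 76) (nat_lit 53375031868) (nat_lit 9) (nat_lit 5) (nat_lit 11) (nat_lit 5) (nat_lit 10) (nat_lit 4) (nat_lit 354) (nat_lit 306) (nat_lit 240)))) (XT.nd (nat_lit 156) (nat_lit 76) (nat_lit 0) (XT.nd (nat_lit 78) (nat_lit 0) (nat_lit 0) (XT.lf (nat_lit 0) (nat_lit 1391994886) (nat_lit 76) (nat_lit 10920816794) (nat_lit 152) (nat_lit 69092807608) (nat_lit 8) (nat_lit 5) (nat_lit 9) (nat_lit 5) (nat_lit 10) (nat_lit 4) (nat_lit 355) (nat_lit 306) (nat_lit 239)) (XT.lf (nat_lit 0) (nat_lit 25010055863) (nat_lit 152) (nat_lit 59246882115) (nat_lit 0) (nat_lit 2575749342)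 (nat_lit 8) (nat_lit 5) (nat_lit 10) (nat_lit 4) (nat_lit 8) (nat_lit 4) (nat_lit 356) (nat_lit 306) (nat_lit 238))) (XT.nd (nat_lit 78) (nat_lit 76) (nat_lit 0) (XT.lf (nat_lit 0) (nat_lit 38995516771) (nat_lit 152) (nat_lit 37124316386) (nat_lit 0) (nat_lit 16552295957) (nat_lit 8) (nat_lit 5) (nat_lit 10) (nat_lit 4) (nat_lit 8) (nat_lit 4) (nat_lit 357) (nat_lit 306) (nat_lit 237)) (XT.nd (nat_lit 78) (nat_lit 76) (nat_lit 0) (XT.lf (nat_lit 0) (nat_lit 54089425306) (nat_lit 152) (nat_lit 13252184623) (nat_lit 0) (nat_lit 31637950516) (nat_lit 8) (nat_lit 5) (nat_lit 10) (nat_lit 4) (nat_lit 8) (nat_lit 4) (nat_lit 358) (nat_lit 306) (nat_lit 236)) (XT.lf (nat_lit 0) (nat_lit 13169783571) (nat_lit 76) (nat_lit 57528176890) (nat_lit 76) (nat_lit 35069059530) (nat_lit 7) (nat_lit 4) (nat_lit 8) (nat_lit 5) (nat_lit 8) (nat_lit 4) (nat_lit 359) (nat_lit 306) (nat_lit 235))))))))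
noncomputable def xc116 : XT := (XT.nd (nat_lit 1326) (nat_lit 76) (nat_lit 0) (XT.nd (nat_lit 624) (nat_lit 152) (nat_lit 0) (XT.nd (nat_lit 312) (nat_lit 0) (nat_lit 0) (XT.nd (nat_lit 156) (nat_lit 152) (nat_lit 0) (XT.nd (nat_lit 78) (nat_lit 0) (nat_lit 0) (XT.lf (nat_lit 0) (nat_lit 42440907111) (nat_lit 76) (nat_lit 46547263138) (nat_lit 76) (nat_lit 24081069324) (nat_lit 7) (nat_lit 4) (nat_lit 8) (nat_lit 5) (nat_lit 8) (nat_lit 4) (nat_lit 360) (nat_lit 306) (nat_lit 234)) (XT.lf (nat_lit 0) (nat_lit 74036807951) (nat_lit 76) (nat_lit 34696134803) (nat_lit 76) (nat_lit 12223388717) (nat_lit 7) (nat_lit 4) (nat_lit 8) (nat_lit 5) (nat_lit 8) (nat_lit 4) (nat_lit 361) (nat_lit 306) (nat_lit 233))) (XT.nd (nat_lit 78) (nat_lit 76) (nat_lit 0) (XT.lf (nat_lit 0) (nat_lit 545523715) (nat_lit 152) (nat_lit 21344123676) (nat_lit 76) (nat_lit 107584281756) (nat_lit 6) (nat_lit 5) (nat_lit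 8) (nat_lit 5) (nat_lit 7) (nat_lit 4) (nat_lit 362) (nat_lit 306) (nat_lit 232)) (XT.lf (nat_lit 0) (nat_lit 6257963534) (nat_lit 76) (nat_lit 7560495146) (nat_lit 152) (nat_lit 124817647429) (nat_lit 5) (nat_lit 5) (nat_lit 6) (nat_lit 5) (nat_lit 7) (nat_lit 4) (nat_lit 363) (nat_lit 306) (nat_lit 231)))) (XT.nd (nat_lit 156) (nat_lit 0) (nat_lit 0) (XT.nd (nat_lit 78) (nat_lit 0) (nat_lit 0) (XT.lf (nat_lit 0) (nat_lit 28934757516) (nat_lit 152) (nat_lit 111422954918) (nat_lit 0) (nat_lit 8111024250) (nat_lit 5) (nat_lit 5) (nat_lit 7) (nat_lit 4) (nat_lit 5) (nat_lit 4) (nat_lit 364) (nat_lit 306) (nat_lit 230)) (XT.lf (nat_lit 0) (nat_lit 45449726702) (nat_lit 152) (nat_lit 89001569267) (nat_lit 0) (nat_lit 24621534070) (nat_lit 5) (nat_lit 5) (nat_lit 7) (nat_lit 4) (nat_lit 5) (nat_lit 4) (nat_lit 365) (nat_lit 306) (nat_lit 229))) (XT.nd (nat_lit 78) (nat_lit 0) (nat_lit 0) (XT.lf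 (nat_lit 0) (nat_lit 63279402632) (nat_lit 152) (nat_lit 64799288062) (nat_lit 0) (nat_lit 42447080957) (nat_lit 5) (nat_lit 5) (nat_lit 7) (nat_lit 4) (nat_lit 5) (nat_lit 4) (nat_lit 366) (nat_lit 306) (nat_lit 228)) (XT.lf (nat_lit 0) (nat_lit 82529442645) (nat_lit 152) (nat_lit 38672690377) (nat_lit 0) (nat_lit 61693297783) (nat_lit 5) (nat_lit 5) (nat_lit 7) (nat_lit 4) (nat_lit 5) (nat_lit 4) (nat_lit 367) (nat_lit 306) (nat_lit 227))))) (XT.nd (nat_lit 312) (nat_lit 76) (nat_lit 0) (XT.nd (nat_lit 156) (nat_lit 0) (nat_lit 0) (XT.nd (nat_lit 78) (nat_lit 76) (nat_lit 0) (XT.lf (nat_lit 0) (nat_lit 103313921053) (nat_lit 152) (nat_lit 10466951931) (nat_lit 0) (nat_lit 82474236202) (nat_lit 5) (nat_lit 5) (nat_lit 7) (nat_lit 4) (nat_lit 5) (nat_lit 4) (nat_lit 368) (nat_lit 306) (nat_lit 226)) (XT.lf (nat_lit 0) (nat_lit 21037450889) (nat_lit 76) (nat_lit 105224505445) (nat_lit 76)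 (nat_lit 84381542827) (nat_lit 4) (nat_lit 4) (nat_lit 5) (nat_lit 5) (nat_lit 5) (nat_lit 4) (nat_lit 369) (nat_lit 306) (nat_lit 225))) (XT.nd (nat_lit 78) (nat_lit 0) (nat_lit 0) (XT.lf (nat_lit 0) (nat_lit 55647555118) (nat_lit 76) (nat_lit 95679454938) (nat_lit 76) (nat_lit 74833457350) (nat_lit 4) (nat_lit 4) (nat_lit 5) (nat_lit 5) (nat_lit 5) (nat_lit 4) (nat_lit 370) (nat_lit 306) (nat_lit 224)) (XT.lf (nat_lit 0) (nat_lit 93017286531) (nat_lit 76) (nat_lit 85375343216) (nat_lit 76) (nat_lit 64526535471) (nat_lit 4) (nat_lit 4) (nat_lit 5) (nat_lit 5) (nat_lit 5) (nat_lit 4) (nat_lit 371) (nat_lit 306) (nat_lit 223)))) (XT.nd (nat_lit 156) (nat_lit 76) (nat_lit 0) (XT.nd (nat_lit 78) (nat_lit 0) (nat_lit 0) (XT.lf (nat_lit 0) (nat_lit 133368095387) (nat_lit 76) (nat_lit 74251108876) (nat_lit 76) (nat_lit 53399699133) (nat_lit 4) (nat_lit 4) (nat_lit 5) (nat_lit 5) (nat_lit 5)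 (nat_lit 4) (nat_lit 372) (nat_lit 306) (nat_lit 222)) (XT.lf (nat_lit 0) (nat_lit 176939097591) (nat_lit 76) (nat_lit 62240830529) (nat_lit 76) (nat_lit 41387011529) (nat_lit 4) (nat_lit 4) (nat_lit 5) (nat_lit 5) (nat_lit 5) (nat_lit 4) (nat_lit 373) (nat_lit 306) (nat_lit 221))) (XT.nd (nat_lit 78) (nat_lit 76) (nat_lit 0) (XT.lf (nat_lit 0) (nat_lit 223988491674) (nat_lit 76) (nat_lit 49273336155) (nat_lit 76) (nat_lit 28417286363) (nat_lit 4) (nat_lit 4) (nat_lit 5) (nat_lit 5) (nat_lit 5) (nat_lit 4) (nat_lit 374) (nat_lit 306) (nat_lit 220)) (XT.nd (nat_lit 78) (nat_lit 76) (nat_lit 0) (XT.lf (nat_lit 0) (nat_lit 274795088860) (nat_lit 76) (nat_lit 35271781344) (nat_lit 76) (nat_lit 14413666002) (nat_lit 4) (nat_lit 4) (nat_lit 5) (nat_lit 5) (nat_lit 5) (nat_lit 4) (nat_lit 375) (nat_lit 306) (nat_lit 219)) (XT.lf (nat_lit 0) (nat_lit 671475271) (nat_lit 152) (nat_lit 19463359324)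 (nat_lit 76) (nat_lit 328970130686) (nat_lit 3) (nat_lit 5) (nat_lit 5) (nat_lit 5) (nat_lit 4) (nat_lit 4) (nat_lit 376) (nat_lit 306) (nat_lit 218))))))) (XT.nd (nat_lit 624) (nat_lit 0) (nat_lit 0) (XT.nd (nat_lit 312) (nat_lit 0) (nat_lit 0) (XT.nd (nat_lit 156) (nat_lit 0) (nat_lit 0) (XT.nd (nat_lit 78) (nat_lit 0) (nat_lit 0) (XT.lf (nat_lit 0) (nat_lit 13469994232) (nat_lit 76) (nat_lit 3035675477) (nat_lit 152) (nat_lit 359138052767) (nat_lit 2) (nat_lit 5) (nat_lit 3) (nat_lit 5) (nat_lit 4) (nat_lit 4) (nat_lit 377) (nat_lit 306) (nat_lit 217)) (XT.lf (nat_lit 0) (nat_lit 34520724954) (nat_lit 152) (nat_lit 354508999458) (nat_lit 0) (nat_lit 15202726377) (nat_lit 2) (nat_lit 5) (nat_lit 4) (nat_lit 4) (nat_lit 2) (nat_lit 4) (nat_lit 378) (nat_lit 306) (nat_lit 216))) (XT.nd (nat_lit 78) (nat_lit 0) (nat_lit 0) (XT.lf (nat_lit 0) (nat_lit 54053068676) (nat_lit 152) (nat_lit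 346315458164) (nat_lit 0) (nat_lit 34733664320) (nat_lit 2) (nat_lit 5) (nat_lit 4) (nat_lit 4) (nat_lit 2) (nat_lit 4) (nat_lit 379) (nat_lit 306) (nat_lit 215)) (XT.lf (nat_lit 0) (nat_lit 75145440029) (nat_lit 152) (nat_lit 337471541976) (nat_lit 0) (nat_lit 55824734027) (nat_lit 2) (nat_lit 5) (nat_lit 4) (nat_lit 4) (nat_lit 2) (nat_lit 4) (nat_lit 380) (nat_lit 306) (nat_lit 214)))) (XT.nd (nat_lit 156) (nat_lit 0) (nat_lit 0) (XT.nd (nat_lit 78) (nat_lit 0) (nat_lit 0) (XT.lf (nat_lit 0) (nat_lit 97922830844) (nat_lit 152) (nat_lit 327924842502) (nat_lit 0) (nat_lit 78600919614) (nat_lit 2) (nat_lit 5) (nat_lit 4) (nat_lit 4) (nat_lit 2) (nat_lit 4) (nat_lit 381) (nat_lit 306) (nat_lit 213)) (XT.lf (nat_lit 0) (nat_lit 122520218252) (nat_lit 152) (nat_lit 317618786709) (nat_lit 0) (nat_lit 103197191070) (nat_lit 2) (nat_lit 5) (nat_lit 4) (nat_lit 4) (nat_lit 2) (nat_lit 4) (nat_lit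 382) (nat_lit 306) (nat_lit 212))) (XT.nd (nat_lit 78) (nat_lit 0) (nat_lit 0) (XT.lf (nat_lit 0) (nat_lit 149083364547) (nat_lit 152) (nat_lit 306492301671) (nat_lit 0) (nat_lit 129759304076) (nat_lit 2) (nat_lit 5) (nat_lit 4) (nat_lit 4) (nat_lit 2) (nat_lit 4) (nat_lit 383) (nat_lit 306) (nat_lit 211)) (XT.lf (nat_lit 0) (nat_lit 177769680968) (nat_lit 152) (nat_lit 294479452665) (nat_lit 0) (nat_lit 158444663748) (nat_lit 2) (nat_lit 5) (nat_lit 4) (nat_lit 4) (nat_lit 2) (nat_lit 4) (nat_lit 384) (nat_lit 306) (nat_lit 210))))) (XT.nd (nat_lit 312) (nat_lit 0) (nat_lit 0) (XT.nd (nat_lit 156) (nat_lit 0) (nat_lit 0) (XT.nd (nat_lit 78) (nat_lit 0) (nat_lit 0) (XT.lf (nat_lit 0) (nat_lit 208749160500) (nat_lit 152) (nat_lit 281509052435) (nat_lit 0) (nat_lit 189423257401) (nat_lit 2) (nat_lit 5) (nat_lit 4) (nat_lit 4) (nat_lit 2) (nat_lit 4) (nat_lit 385) (nat_lit 306) (nat_lit 209))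 (XT.lf (nat_lit 0) (nat_lit 242205385245) (nat_lit 152) (nat_lit 267504239352) (nat_lit 0) (nat_lit 222878661888) (nat_lit 2) (nat_lit 5) (nat_lit 4) (nat_lit 4) (nat_lit 2) (nat_lit 4) (nat_lit 386) (nat_lit 306) (nat_lit 208))) (XT.nd (nat_lit 78) (nat_lit 0) (nat_lit 0) (XT.lf (nat_lit 0) (nat_lit 278336614312) (nat_lit 152) (nat_lit 252382021931) (nat_lit 0) (nat_lit 259009131457) (nat_lit 2) (nat_lit 5) (nat_lit 4) (nat_lit 4) (nat_lit 2) (nat_lit 4) (nat_lit 387) (nat_lit 306) (nat_lit 207)) (XT.lf (nat_lit 0) (nat_lit 317356958688) (nat_lit 152) (nat_lit 236052787030) (nat_lit 0) (nat_lit 298028772594) (nat_lit 2) (nat_lit 5) (nat_lit 4) (nat_lit 4) (nat_lit 2) (nat_lit 4) (nat_lit 388) (nat_lit 306) (nat_lit 206)))) (XT.nd (nat_lit 156) (nat_lit 0) (nat_lit 0) (XT.nd (nat_lit 78) (nat_lit 0) (nat_lit 0) (XT.lf (nat_lit 0) (nat_lit 359497650044) (nat_lit 152) (nat_lit 218419768813)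 (nat_lit 0) (nat_lit 340168812802) (nat_lit 2) (nat_lit 5) (nat_lit 4) (nat_lit 4) (nat_lit 2) (nat_lit 4) (nat_lit 389) (nat_lit 306) (nat_lit 205)) (XT.lf (nat_lit 0) (nat_lit 405008410994) (nat_lit 152) (nat_lit 199378475322) (nat_lit 0) (nat_lit 385678970838) (nat_lit 2) (nat_lit 5) (nat_lit 4) (nat_lit 4) (nat_lit 2) (nat_lit 4) (nat_lit 390) (nat_lit 306) (nat_lit 204))) (XT.nd (nat_lit 78) (nat_lit 0) (nat_lit 0) (XT.lf (nat_lit 0) (nat_lit 454158934938) (nat_lit 152) (nat_lit 178816069260) (nat_lit 0) (nat_lit 434828936528) (nat_lit 2) (nat_lit 5) (nat_lit 4) (nat_lit 4) (nat_lit 2) (nat_lit 4) (nat_lit 391) (nat_lit 306) (nat_lit 203)) (XT.nd (nat_lit 78) (nat_lit 0) (nat_lit 0) (XT.lf (nat_lit 0) (nat_lit 507240484239) (nat_lit 152) (nat_lit 156610699334) (nat_lit 0) (nat_lit 487909968928) (nat_lit 2) (nat_lit 5) (nat_lit 4) (nat_lit 4) (nat_lit 2) (nat_lit 4) (nat_lit 392) (nat_lit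 306) (nat_lit 202)) (XT.lf (nat_lit 0) (nat_lit 564567616227) (nat_lit 152) (nat_lit 132630778164) (nat_lit 0) (nat_lit 545236622303) (nat_lit 2) (nat_lit 5) (nat_lit 4) (nat_lit 4) (nat_lit 2) (nat_lit 4) (nat_lit 393) (nat_lit 306) (nat_lit 201))))))))
noncomputable def xc117 : XT := (XT.nd (nat_lit 1326) (nat_lit 0) (nat_lit 0) (XT.nd (nat_lit 624) (nat_lit 0) (nat_lit 0) (XT.nd (nat_lit 312) (nat_lit 76) (nat_lit 0) (XT.nd (nat_lit 156) (nat_lit 0) (nat_lit 0) (XT.nd (nat_lit 78) (nat_lit 0) (nat_lit 0) (XT.lf (nat_lit 0) (nat_lit 626480047238) (nat_lit 152) (nat_lit 106734202516) (nat_lit 0) (nat_lit 607148610154) (nat_lit 2) (nat_lit 5) (nat_lit 4) (nat_lit 4) (nat_lit 2) (nat_lit 4) (nat_lit 394) (nat_lit 306) (nat_lit 200)) (XT.lf (nat_lit 0) (nat_lit 693344665754) (nat_lit 152) (nat_lit 78767511199) (nat_lit 0) (nat_lit 674012818337) (nat_lit 2) (nat_lit 5) (nat_lit 4) (nat_lit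 4) (nat_lit 2) (nat_lit 4) (nat_lit 395) (nat_lit 306) (nat_lit 199))) (XT.nd (nat_lit 78) (nat_lit 0) (nat_lit 0) (XT.lf (nat_lit 0) (nat_lit 765557706551) (nat_lit 152) (nat_lit 48564975674) (nat_lit 0) (nat_lit 746225479196) (nat_lit 2) (nat_lit 5) (nat_lit 4) (nat_lit 4) (nat_lit 2) (nat_lit 4) (nat_lit 396) (nat_lit 306) (nat_lit 198)) (XT.lf (nat_lit 0) (nat_lit 843547098759) (nat_lit 152) (nat_lit 15947617950) (nat_lit 0) (nat_lit 824214519609) (nat_lit 2) (nat_lit 5) (nat_lit 4) (nat_lit 4) (nat_lit 2) (nat_lit 4) (nat_lit 397) (nat_lit 306) (nat_lit 197)))) (XT.nd (nat_lit 156) (nat_lit 0) (nat_lit 0) (XT.nd (nat_lit 78) (nat_lit 0) (nat_lit 0) (XT.lf (nat_lit 0) (nat_lit 20292987434) (nat_lit 76) (nat_lit 907970061141) (nat_lit 76) (nat_lit 888637156255) (nat_lit 1) (nat_lit 4) (nat_lit 2) (nat_lit 5) (nat_lit 2) (nat_lit 4) (nat_lit 398) (nat_lit 306) (nat_lit 196)) (XT.lf (nat_lit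 0) (nat_lit 60338550403) (nat_lit 76) (nat_lit 959853136992) (nat_lit 76) (nat_lit 940519930499) (nat_lit 1) (nat_lit 4) (nat_lit 2) (nat_lit 5) (nat_lit 2) (nat_lit 4) (nat_lit 399) (nat_lit 306) (nat_lit 195))) (XT.nd (nat_lit 78) (nat_lit 0) (nat_lit 0) (XT.lf (nat_lit 0) (nat_lit 103586604696) (nat_lit 76) (nat_lit 1015887435662) (nat_lit 76) (nat_lit 996553949903) (nat_lit 1) (nat_lit 4) (nat_lit 2) (nat_lit 5) (nat_lit 2) (nat_lit 4) (nat_lit 400) (nat_lit 306) (nat_lit 194)) (XT.lf (nat_lit 0) (nat_lit 150293435079) (nat_lit 76) (nat_lit 1076405012256) (nat_lit 76) (nat_lit 1057071267918) (nat_lit 1) (nat_lit 4) (nat_lit 2) (nat_lit 5) (nat_lit 2) (nat_lit 4) (nat_lit 401) (nat_lit 306) (nat_lit 193))))) (XT.nd (nat_lit 312) (nat_lit 0) (nat_lit 0) (XT.nd (nat_lit 156) (nat_lit 0) (nat_lit 0) (XT.nd (nat_lit 78) (nat_lit 0) (nat_lit 0) (XT.lf (nat_lit 0) (nat_lit 200735822770) (nat_lit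 76) (nat_lit 1141764489449) (nat_lit 76) (nat_lit 1122430505685) (nat_lit 1) (nat_lit 4) (nat_lit 2) (nat_lit 5) (nat_lit 2) (nat_lit 4) (nat_lit 402) (nat_lit 306) (nat_lit 192)) (XT.lf (nat_lit 0) (nat_lit 255212685620) (nat_lit 76) (nat_lit 1212353182662) (nat_lit 76) (nat_lit 1193018977208) (nat_lit 1) (nat_lit 4) (nat_lit 2) (nat_lit 5) (nat_lit 2) (nat_lit 4) (nat_lit 403) (nat_lit 306) (nat_lit 191))) (XT.nd (nat_lit 78) (nat_lit 0) (nat_lit 0) (XT.lf (nat_lit 0) (nat_lit 314046849485) (nat_lit 76) (nat_lit 1288589395262) (nat_lit 76) (nat_lit 1269254984539) (nat_lit 1) (nat_lit 4) (nat_lit 2) (nat_lit 5) (nat_lit 2) (nat_lit 4) (nat_lit 404) (nat_lit 306) (nat_lit 190)) (XT.lf (nat_lit 0) (nat_lit 377586961261) (nat_lit 76) (nat_lit 1370924897397) (nat_lit 76) (nat_lit 1351590296610) (nat_lit 1) (nat_lit 4) (nat_lit 2) (nat_lit 5) (nat_lit 2) (nat_lit 4) (nat_lit 405) (nat_lit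 306) (nat_lit 189)))) (XT.nd (nat_lit 156) (nat_lit 0) (nat_lit 0) (XT.nd (nat_lit 78) (nat_lit 0) (nat_lit 0) (XT.lf (nat_lit 0) (nat_lit 446209554944) (nat_lit 76) (nat_lit 1459847603155) (nat_lit 76) (nat_lit 1440512826383) (nat_lit 1) (nat_lit 4) (nat_lit 2) (nat_lit 5) (nat_lit 2) (nat_lit 4) (nat_lit 406) (nat_lit 306) (nat_lit 188)) (XT.lf (nat_lit 0) (nat_lit 520321282940) (nat_lit 76) (nat_lit 1555884461903) (nat_lit 76) (nat_lit 1536549522182) (nat_lit 1) (nat_lit 4) (nat_lit 2) (nat_lit 5) (nat_lit 2) (nat_lit 4) (nat_lit 407) (nat_lit 306) (nat_lit 187))) (XT.nd (nat_lit 78) (nat_lit 0) (nat_lit 0) (XT.lf (nat_lit 0) (nat_lit 600361325861) (nat_lit 76) (nat_lit 1659604580951) (nat_lit 76) (nat_lit 1640269490352) (nat_lit 1) (nat_lit 4) (nat_lit 2) (nat_lit 5) (nat_lit 2) (nat_lit 4) (nat_lit 408) (nat_lit 306) (nat_lit 186)) (XT.nd (nat_lit 78) (nat_lit 0) (nat_lit 0) (XT.lf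 (nat_lit 0) (nat_lit 686803995072) (nat_lit 76) (nat_lit 1771622598043) (nat_lit 76) (nat_lit 1752287367741) (nat_lit 1) (nat_lit 4) (nat_lit 2) (nat_lit 5) (nat_lit 2) (nat_lit 4) (nat_lit 409) (nat_lit 306) (nat_lit 185)) (XT.lf (nat_lit 0) (nat_lit 780161543426) (nat_lit 76) (nat_lit 1892602323650) (nat_lit 76) (nat_lit 1873266963994) (nat_lit 1) (nat_lit 4) (nat_lit 2) (nat_lit 5) (nat_lit 2) (nat_lit 4) (nat_lit 410) (nat_lit 306) (nat_lit 184))))))) (XT.nd (nat_lit 39312) (nat_lit 0) (nat_lit 2812) (XT.nd (nat_lit 38922) (nat_lit 0) (nat_lit 4180) (XT.nd (nat_lit 38766) (nat_lit 0) (nat_lit 4560) (XT.nd (nat_lit 78) (nat_lit 0) (nat_lit 0) (XT.lf (nat_lit 0) (nat_lit 880987200841) (nat_lit 76) (nat_lit 2023260674665) (nat_lit 76) (nat_lit 2003925195237) (nat_lit 1) (nat_lit 4) (nat_lit 2) (nat_lit 5) (nat_lit 2) (nat_lit 4) (nat_lit 411) (nat_lit 306) (nat_lit 183)) (XT.lf (nat_lit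 0) (nat_lit 989878452694) (nat_lit 76) (nat_lit 2164371922797) (nat_lit 76) (nat_lit 2145036332468) (nat_lit 1) (nat_lit 4) (nat_lit 2) (nat_lit 5) (nat_lit 2) (nat_lit 4) (nat_lit 412) (nat_lit 306) (nat_lit 182))) (XT.nd (nat_lit 78) (nat_lit 0) (nat_lit 0) (XT.lf (nat_lit 0) (nat_lit 516251721) (nat_lit 0) (nat_lit 516251721) (nat_lit 380) (nat_lit 2899356557) (nat_lit 61) (nat_lit 5) (nat_lit 61) (nat_lit 3) (nat_lit 66) (nat_lit 3) (nat_lit 307) (nat_lit 307) (nat_lit 286)) (XT.lf (nat_lit 0) (nat_lit 3396754813) (nat_lit 380) (nat_lit 3102469433) (nat_lit 456) (nat_lit 1576660582) (nat_lit 61) (nat_lit 5) (nat_lit 66) (nat_lit 3) (nat_lit 67) (nat_lit 5) (nat_lit 308) (nat_lit 307) (nat_lit 285)))) (XT.nd (nat_lit 156) (nat_lit 380) (nat_lit 0) (XT.nd (nat_lit 78) (nat_lit 0) (nat_lit 0) (XT.lf (nat_lit 76) (nat_lit 869379748) (nat_lit 0) (nat_lit 3893863118) (nat_lit 456) (nat_lit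 3547769284) (nat_lit 62) (nat_lit 5) (nat_lit 61) (nat_lit 5) (nat_lit 67) (nat_lit 5) (nat_lit 309) (nat_lit 307) (nat_lit 284)) (XT.lf (nat_lit 76) (nat_lit 5265367189) (nat_lit 0) (nat_lit 946152327) (nat_lit 456) (nat_lit 2355859740) (nat_lit 62) (nat_lit 5) (nat_lit 61) (nat_lit 5) (nat_lit 67) (nat_lit 5) (nat_lit 310) (nat_lit 307) (nat_lit 283))) (XT.nd (nat_lit 78) (nat_lit 456) (nat_lit 0) (XT.lf (nat_lit 76) (nat_lit 1095430617) (nat_lit 0) (nat_lit 6657289186) (nat_lit 456) (nat_lit 1093581340) (nat_lit 63) (nat_lit 5) (nat_lit 62) (nat_lit 5) (nat_lit 68) (nat_lit 5) (nat_lit 311) (nat_lit 307) (nat_lit 282)) (XT.nd (nat_lit 78) (nat_lit 0) (nat_lit 76) (XT.lf (nat_lit 0) (nat_lit 273483884) (nat_lit 456) (nat_lit 3219158884) (nat_lit 532) (nat_lit 5653171878) (nat_lit 56) (nat_lit 5) (nat_lit 62) (nat_lit 5) (nat_lit 63) (nat_lit 5) (nat_lit 312) (nat_lit 307) (nat_lit 281))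 (XT.lf (nat_lit 0) (nat_lit 1638650978) (nat_lit 456) (nat_lit 7814386356) (nat_lit 76) (nat_lit 18321013) (nat_lit 57) (nat_lit 5) (nat_lit 63) (nat_lit 5) (nat_lit 58) (nat_lit 5) (nat_lit 313) (nat_lit 307) (nat_lit 280)))))) (XT.nd (nat_lit 312) (nat_lit 684) (nat_lit 0) (XT.nd (nat_lit 156) (nat_lit 304) (nat_lit 0) (XT.nd (nat_lit 78) (nat_lit 456) (nat_lit 0) (XT.lf (nat_lit 0) (nat_lit 3207117148) (nat_lit 456) (nat_lit 2880490392) (nat_lit 76) (nat_lit 3727965750) (nat_lit 57) (nat_lit 5) (nat_lit 63) (nat_lit 5) (nat_lit 58) (nat_lit 5) (nat_lit 314) (nat_lit 307) (nat_lit 279)) (XT.lf (nat_lit 0) (nat_lit 2501149853) (nat_lit 456) (nat_lit 2379567209) (nat_lit 532) (nat_lit 5308379000) (nat_lit 51) (nat_lit 5) (nat_lit 57) (nat_lit 5) (nat_lit 58) (nat_lit 5) (nat_lit 315) (nat_lit 307) (nat_lit 278))) (XT.nd (nat_lit 78) (nat_lit 304) (nat_lit 0) (XT.lf (nat_lit 0) (nat_lit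 6732012507) (nat_lit 532) (nat_lit 2226826352) (nat_lit 76) (nat_lit 1630289739) (nat_lit 51) (nat_lit 5) (nat_lit 58) (nat_lit 5) (nat_lit 52) (nat_lit 5) (nat_lit 316) (nat_lit 307) (nat_lit 277)) (XT.lf (nat_lit 0) (nat_lit 3724745672) (nat_lit 304) (nat_lit 5087608710) (nat_lit 380) (nat_lit 2202456662) (nat_lit 47) (nat_lit 5) (nat_lit 51) (nat_lit 5) (nat_lit 52) (nat_lit 5) (nat_lit 317) (nat_lit 307) (nat_lit 276)))) (XT.nd (nat_lit 156) (nat_lit 380) (nat_lit 0) (XT.nd (nat_lit 78) (nat_lit 304) (nat_lit 0) (XT.lf (nat_lit 0) (nat_lit 10209924092) (nat_lit 304) (nat_lit 843195304) (nat_lit 380) (nat_lit 422022662) (nat_lit 47) (nat_lit 5) (nat_lit 51) (nat_lit 5) (nat_lit 52) (nat_lit 5) (nat_lit 318) (nat_lit 307) (nat_lit 275)) (XT.lf (nat_lit 0) (nat_lit 1586390409) (nat_lit 304) (nat_lit 6649789072) (nat_lit 76) (nat_lit 3720480047) (nat_lit 43) (nat_lit 5) (nat_lit 47) (nat_lit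 5) (nat_lit 44) (nat_lit 5) (nat_lit 319) (nat_lit 307) (nat_lit 274))) (XT.nd (nat_lit 78) (nat_lit 380) (nat_lit 0) (XT.lf (nat_lit 0) (nat_lit 3729431578) (nat_lit 304) (nat_lit 101594841) (nat_lit 76) (nat_lit 8645144836) (nat_lit 43) (nat_lit 5) (nat_lit 47) (nat_lit 5) (nat_lit 44) (nat_lit 5) (nat_lit 320) (nat_lit 307) (nat_lit 273)) (XT.nd (nat_lit 78) (nat_lit 152) (nat_lit 0) (XT.lf (nat_lit 0) (nat_lit 6189185051) (nat_lit 304) (nat_lit 5785725501) (nat_lit 76) (nat_lit 1050795376) (nat_lit 40) (nat_lit 5) (nat_lit 44) (nat_lit 5) (nat_lit 41) (nat_lit 5) (nat_lit 321) (nat_lit 307) (nat_lit 272)) (XT.lf (nat_lit 0) (nat_lit 1461389926) (nat_lit 152) (nat_lit 7468068514) (nat_lit 228) (nat_lit 4683123102) (nat_lit 38) (nat_lit 5) (nat_lit 40) (nat_lit 5) (nat_lit 41) (nat_lit 5) (nat_lit 322) (nat_lit 307) (nat_lit 271))))))))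
noncomputable def xc118 : XT := (XT.nd (nat_lit 1326) (nat_lit 760) (nat_lit 0) (XT.nd (nat_lit 624) (nat_lit 684) (nat_lit 0) (XT.nd (nat_lit 312) (nat_lit 380) (nat_lit 0) (XT.nd (nat_lit 156) (nat_lit 152) (nat_lit 0) (XT.nd (nat_lit 78) (nat_lit 304) (nat_lit 0) (XT.lf (nat_lit 0) (nat_lit 9551216986) (nat_lit 152) (nat_lit 2444557648) (nat_lit 228) (nat_lit 2242158507) (nat_lit 38) (nat_lit 5) (nat_lit 40) (nat_lit 5) (nat_lit 41) (nat_lit 5) (nat_lit 323) (nat_lit 307) (nat_lit 270)) (XT.lf (nat_lit 0) (nat_lit 482836563) (nat_lit 304) (nat_lit 11508123789) (nat_lit 76) (nat_lit 2912978337) (nat_lit 34) (nat_lit 5) (nat_lit 38) (nat_lit 5) (nat_lit 35) (nat_lit 5) (nat_lit 324) (nat_lit 307) (nat_lit 269))) (XT.nd (nat_lit 78) (nat_lit 152) (nat_lit 0) (XT.lf (nat_lit 0) (nat_lit 3452549655) (nat_lit 304) (nat_lit 3412191532) (nat_lit 76) (nat_lit 8742053054) (nat_lit 34) (nat_lit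 5) (nat_lit 38) (nat_lit 5) (nat_lit 35) (nat_lit 5) (nat_lit 325) (nat_lit 307) (nat_lit 268)) (XT.lf (nat_lit 0) (nat_lit 5548176876) (nat_lit 152) (nat_lit 1201473272) (nat_lit 228) (nat_lit 9609095897) (nat_lit 32) (nat_lit 5) (nat_lit 34) (nat_lit 5) (nat_lit 35) (nat_lit 5) (nat_lit 326) (nat_lit 307) (nat_lit 267)))) (XT.nd (nat_lit 156) (nat_lit 228) (nat_lit 0) (XT.nd (nat_lit 78) (nat_lit 152) (nat_lit 0) (XT.lf (nat_lit 0) (nat_lit 10482203794) (nat_lit 228) (nat_lit 1926803878) (nat_lit 76) (nat_lit 4748160249) (nat_lit 32) (nat_lit 5) (nat_lit 35) (nat_lit 5) (nat_lit 33) (nat_lit 5) (nat_lit 327) (nat_lit 307) (nat_lit 266)) (XT.lf (nat_lit 0) (nat_lit 7977935903) (nat_lit 152) (nat_lit 6719395148) (nat_lit 228) (nat_lit 3307460077) (nat_lit 30) (nat_lit 5) (nat_lit 32) (nat_lit 5) (nat_lit 33) (nat_lit 5) (nat_lit 328) (nat_lit 307) (nat_lit 265))) (XT.nd (nat_lit 78) (nat_lit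 152) (nat_lit 0) (XT.lf (nat_lit 0) (nat_lit 328438566) (nat_lit 228) (nat_lit 198887121) (nat_lit 76) (nat_lit 18391065390) (nat_lit 29) (nat_lit 5) (nat_lit 32) (nat_lit 5) (nat_lit 30) (nat_lit 5) (nat_lit 329) (nat_lit 307) (nat_lit 264)) (XT.lf (nat_lit 0) (nat_lit 4457642552) (nat_lit 228) (nat_lit 9220397297) (nat_lit 76) (nat_lit 6189712576) (nat_lit 27) (nat_lit 5) (nat_lit 30) (nat_lit 5) (nat_lit 28) (nat_lit 5) (nat_lit 330) (nat_lit 307) (nat_lit 263))))) (XT.nd (nat_lit 312) (nat_lit 380) (nat_lit 0) (XT.nd (nat_lit 156) (nat_lit 152) (nat_lit 0) (XT.nd (nat_lit 78) (nat_lit 0) (nat_lit 0) (XT.lf (nat_lit 0) (nat_lit 1485571471) (nat_lit 152) (nat_lit 7451840981) (nat_lit 228) (nat_lit 11954065030) (nat_lit 25) (nat_lit 5) (nat_lit 27) (nat_lit 5) (nat_lit 28) (nat_lit 5) (nat_lit 331) (nat_lit 307) (nat_lit 262)) (XT.lf (nat_lit 0) (nat_lit 13518894582) (nat_lit 152) (nat_lit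 475286304) (nat_lit 228) (nat_lit 7985461014) (nat_lit 25) (nat_lit 5) (nat_lit 27) (nat_lit 5) (nat_lit 28) (nat_lit 5) (nat_lit 332) (nat_lit 307) (nat_lit 261))) (XT.nd (nat_lit 78) (nat_lit 76) (nat_lit 0) (XT.lf (nat_lit 0) (nat_lit 3303925307) (nat_lit 76) (nat_lit 16369353252) (nat_lit 152) (nat_lit 3464186331) (nat_lit 24) (nat_lit 5) (nat_lit 25) (nat_lit 5) (nat_lit 26) (nat_lit 4) (nat_lit 333) (nat_lit 307) (nat_lit 260)) (XT.lf (nat_lit 0) (nat_lit 1566359320) (nat_lit 152) (nat_lit 7982894896) (nat_lit 76) (nat_lit 14818470717) (nat_lit 23) (nat_lit 5) (nat_lit 25) (nat_lit 5) (nat_lit 24) (nat_lit 5) (nat_lit 334) (nat_lit 307) (nat_lit 259)))) (XT.nd (nat_lit 156) (nat_lit 228) (nat_lit 0) (XT.nd (nat_lit 78) (nat_lit 0) (nat_lit 0) (XT.lf (nat_lit 0) (nat_lit 4924037224) (nat_lit 152) (nat_lit 1977742544) (nat_lit 228) (nat_lit 18780283302) (nat_lit 21) (nat_lit 5) (nat_lit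 23) (nat_lit 5) (nat_lit 24) (nat_lit 5) (nat_lit 335) (nat_lit 307) (nat_lit 258)) (XT.lf (nat_lit 0) (nat_lit 13008781419) (nat_lit 228) (nat_lit 7970012284) (nat_lit 76) (nat_lit 6095195651) (nat_lit 21) (nat_lit 5) (nat_lit 24) (nat_lit 5) (nat_lit 22) (nat_lit 4) (nat_lit 336) (nat_lit 307) (nat_lit 257))) (XT.nd (nat_lit 78) (nat_lit 152) (nat_lit 0) (XT.lf (nat_lit 0) (nat_lit 6047102209) (nat_lit 76) (nat_lit 13727853076) (nat_lit 152) (nat_lit 8788684845) (nat_lit 20) (nat_lit 5) (nat_lit 21) (nat_lit 5) (nat_lit 22) (nat_lit 4) (nat_lit 337) (nat_lit 307) (nat_lit 256)) (XT.nd (nat_lit 78) (nat_lit 152) (nat_lit 0) (XT.lf (nat_lit 0) (nat_lit 21594917796) (nat_lit 76) (nat_lit 5680112267) (nat_lit 152) (nat_lit 2882042265) (nat_lit 20) (nat_lit 5) (nat_lit 21) (nat_lit 5) (nat_lit 22) (nat_lit 4) (nat_lit 338) (nat_lit 307) (nat_lit 255)) (XT.lf (nat_lit 0) (nat_lit 3538093057)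 (nat_lit 152) (nat_lit 25220032788) (nat_lit 76) (nat_lit 3095867970) (nat_lit 18) (nat_lit 5) (nat_lit 20) (nat_lit 5) (nat_lit 19) (nat_lit 4) (nat_lit 339) (nat_lit 307) (nat_lit 254))))))) (XT.nd (nat_lit 624) (nat_lit 456) (nat_lit 0) (XT.nd (nat_lit 312) (nat_lit 152) (nat_lit 0) (XT.nd (nat_lit 156) (nat_lit 76) (nat_lit 0) (XT.nd (nat_lit 78) (nat_lit 76) (nat_lit 0) (XT.lf (nat_lit 0) (nat_lit 10680171805) (nat_lit 152) (nat_lit 10406058133) (nat_lit 76) (nat_lit 12565341631) (nat_lit 18) (nat_lit 5) (nat_lit 20) (nat_lit 5) (nat_lit 19) (nat_lit 4) (nat_lit 340) (nat_lit 307) (nat_lit 253)) (XT.lf (nat_lit 0) (nat_lit 5846279482) (nat_lit 76) (nat_lit 12666012055) (nat_lit 152) (nat_lit 17071183204) (nat_lit 17) (nat_lit 5) (nat_lit 18) (nat_lit 5) (nat_lit 19) (nat_lit 4) (nat_lit 341) (nat_lit 307) (nat_lit 252))) (XT.nd (nat_lit 78) (nat_lit 76) (nat_lit 0) (XT.lf (nat_lit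 0) (nat_lit 23952388910) (nat_lit 76) (nat_lit 3281888742) (nat_lit 152) (nat_lit 10414600966) (nat_lit 17) (nat_lit 5) (nat_lit 18) (nat_lit 5) (nat_lit 19) (nat_lit 4) (nat_lit 342) (nat_lit 307) (nat_lit 251)) (XT.lf (nat_lit 0) (nat_lit 3606477939) (nat_lit 76) (nat_lit 33279064962) (nat_lit 76) (nat_lit 2975461577) (nat_lit 16) (nat_lit 4) (nat_lit 17) (nat_lit 5) (nat_lit 17) (nat_lit 4) (nat_lit 343) (nat_lit 307) (nat_lit 250)))) (XT.nd (nat_lit 156) (nat_lit 76) (nat_lit 0) (XT.nd (nat_lit 78) (nat_lit 0) (nat_lit 0) (XT.lf (nat_lit 0) (nat_lit 5255286347) (nat_lit 152) (nat_lit 19400885428) (nat_lit 76) (nat_lit 17548241996) (nat_lit 15) (nat_lit 5) (nat_lit 17) (nat_lit 5) (nat_lit 16) (nat_lit 4) (nat_lit 344) (nat_lit 307) (nat_lit 249)) (XT.lf (nat_lit 0) (nat_lit 13965299691) (nat_lit 152) (nat_lit 1310240681) (nat_lit 76) (nat_lit 29455057001) (nat_lit 15) (nat_lit 5) (nat_lit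 17) (nat_lit 5) (nat_lit 16) (nat_lit 4) (nat_lit 345) (nat_lit 307) (nat_lit 248))) (XT.nd (nat_lit 78) (nat_lit 0) (nat_lit 0) (XT.lf (nat_lit 0) (nat_lit 19154349586) (nat_lit 76) (nat_lit 4661350966) (nat_lit 152) (nat_lit 23607696493) (nat_lit 14) (nat_lit 5) (nat_lit 15) (nat_lit 5) (nat_lit 16) (nat_lit 4) (nat_lit 346) (nat_lit 307) (nat_lit 247)) (XT.lf (nat_lit 0) (nat_lit 34637586653) (nat_lit 152) (nat_lit 9194329995) (nat_lit 0) (nat_lit 6485035476) (nat_lit 14) (nat_lit 5) (nat_lit 16) (nat_lit 4) (nat_lit 14) (nat_lit 4) (nat_lit 347) (nat_lit 307) (nat_lit 246))))) (XT.nd (nat_lit 312) (nat_lit 228) (nat_lit 0) (XT.nd (nat_lit 156) (nat_lit 76) (nat_lit 0) (XT.nd (nat_lit 78) (nat_lit 76) (nat_lit 0) (XT.lf (nat_lit 0) (nat_lit 11848677480) (nat_lit 76) (nat_lit 34866942985) (nat_lit 76) (nat_lit 6695146516) (nat_lit 13) (nat_lit 4) (nat_lit 14) (nat_lit 5) (nat_lit 14)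 (nat_lit 4) (nat_lit 348) (nat_lit 307) (nat_lit 245)) (XT.lf (nat_lit 0) (nat_lit 3099698369) (nat_lit 152) (nat_lit 21742243574) (nat_lit 76) (nat_lit 31884976051) (nat_lit 12) (nat_lit 5) (nat_lit 14) (nat_lit 5) (nat_lit 13) (nat_lit 4) (nat_lit 349) (nat_lit 307) (nat_lit 244))) (XT.nd (nat_lit 78) (nat_lit 76) (nat_lit 0) (XT.lf (nat_lit 0) (nat_lit 13302004573) (nat_lit 152) (nat_lit 537946406) (nat_lit 76) (nat_lit 46455656924) (nat_lit 12) (nat_lit 5) (nat_lit 14) (nat_lit 5) (nat_lit 13) (nat_lit 4) (nat_lit 350) (nat_lit 307) (nat_lit 243)) (XT.lf (nat_lit 0) (nat_lit 23513727406) (nat_lit 76) (nat_lit 1358926852) (nat_lit 152) (nat_lit 39232971258) (nat_lit 11) (nat_lit 5) (nat_lit 12) (nat_lit 5) (nat_lit 13) (nat_lit 4) (nat_lit 351) (nat_lit 307) (nat_lit 242)))) (XT.nd (nat_lit 156) (nat_lit 152) (nat_lit 0) (XT.nd (nat_lit 78) (nat_lit 76) (nat_lit 0) (XT.lf (nat_lit 0)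 (nat_lit 37662317612) (nat_lit 152) (nat_lit 19016363108) (nat_lit 0) (nat_lit 11518299727) (nat_lit 11) (nat_lit 5) (nat_lit 13) (nat_lit 4) (nat_lit 11) (nat_lit 4) (nat_lit 352) (nat_lit 307) (nat_lit 241)) (XT.lf (nat_lit 0) (nat_lit 4449011000) (nat_lit 76) (nat_lit 47156189606) (nat_lit 76) (nat_lit 21000043923) (nat_lit 10) (nat_lit 4) (nat_lit 11) (nat_lit 5) (nat_lit 11) (nat_lit 4) (nat_lit 353) (nat_lit 307) (nat_lit 240))) (XT.nd (nat_lit 78) (nat_lit 152) (nat_lit 0) (XT.lf (nat_lit 0) (nat_lit 30850222051) (nat_lit 76) (nat_lit 36321341510) (nat_lit 76) (nat_lit 10153966384) (nat_lit 10) (nat_lit 4) (nat_lit 11) (nat_lit 5) (nat_lit 11) (nat_lit 4) (nat_lit 354) (nat_lit 307) (nat_lit 239)) (XT.nd (nat_lit 78) (nat_lit 76) (nat_lit 0) (XT.lf (nat_lit 0) (nat_lit 1470469450) (nat_lit 152) (nat_lit 23119196300) (nat_lit 76) (nat_lit 57831678994) (nat_lit 9) (nat_lit 5) (nat_lit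 11) (nat_lit 5) (nat_lit 10) (nat_lit 4) (nat_lit 355) (nat_lit 307) (nat_lit 238)) (XT.lf (nat_lit 0) (nat_lit 1917419978) (nat_lit 76) (nat_lit 11594512797) (nat_lit 152) (nat_lit 74388944054) (nat_lit 8) (nat_lit 5) (nat_lit 9) (nat_lit 5) (nat_lit 10) (nat_lit 4) (nat_lit 356) (nat_lit 307) (nat_lit 237))))))))
noncomputable def xc119 : XT := (XT.nd (nat_lit 1326) (nat_lit 152) (nat_lit 0) (XT.nd (nat_lit 624) (nat_lit 76) (nat_lit 0) (XT.nd (nat_lit 312) (nat_lit 152) (nat_lit 0) (XT.nd (nat_lit 156) (nat_lit 76) (nat_lit 0) (XT.nd (nat_lit 78) (nat_lit 0) (nat_lit 0) (XT.lf (nat_lit 0) (nat_lit 27213550542) (nat_lit 152) (nat_lit 63591773207) (nat_lit 0) (nat_lit 2957703793) (nat_lit 8) (nat_lit 5) (nat_lit 10) (nat_lit 4) (nat_lit 8) (nat_lit 4) (nat_lit 357) (nat_lit 307) (nat_lit 236)) (XT.lf (nat_lit 0) (nat_lit 42302834234) (nat_lit 152) (nat_lit 39728651069) (nat_lit 0) (nat_lit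 18039344915) (nat_lit 8) (nat_lit 5) (nat_lit 10) (nat_lit 4) (nat_lit 8) (nat_lit 4) (nat_lit 358) (nat_lit 307) (nat_lit 235))) (XT.nd (nat_lit 78) (nat_lit 76) (nat_lit 0) (XT.lf (nat_lit 0) (nat_lit 58590353517) (nat_lit 152) (nat_lit 13973831033) (nat_lit 0) (nat_lit 34319787744) (nat_lit 8) (nat_lit 5) (nat_lit 10) (nat_lit 4) (nat_lit 8) (nat_lit 4) (nat_lit 359) (nat_lit 307) (nat_lit 234)) (XT.lf (nat_lit 0) (nat_lit 14553324277) (nat_lit 76) (nat_lit 61969310544) (nat_lit 76) (nat_lit 37692192498) (nat_lit 7) (nat_lit 4) (nat_lit 8) (nat_lit 5) (nat_lit 8) (nat_lit 4) (nat_lit 360) (nat_lit 307) (nat_lit 233)))) (XT.nd (nat_lit 156) (nat_lit 152) (nat_lit 0) (XT.nd (nat_lit 78) (nat_lit 0) (nat_lit 0) (XT.lf (nat_lit 0) (nat_lit 46141696366) (nat_lit 76) (nat_lit 50121858543) (nat_lit 76) (nat_lit 25838673579) (nat_lit 7) (nat_lit 4) (nat_lit 8) (nat_lit 5) (nat_lit 8) (nat_lit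 4) (nat_lit 361) (nat_lit 307) (nat_lit 232)) (XT.lf (nat_lit 0) (nat_lit 80242638407) (nat_lit 76) (nat_lit 37333690730) (nat_lit 76) (nat_lit 13044888249) (nat_lit 7) (nat_lit 4) (nat_lit 8) (nat_lit 5) (nat_lit 8) (nat_lit 4) (nat_lit 362) (nat_lit 307) (nat_lit 231))) (XT.nd (nat_lit 78) (nat_lit 76) (nat_lit 0) (XT.lf (nat_lit 0) (nat_lit 726711192) (nat_lit 152) (nat_lit 22782444604) (nat_lit 76) (nat_lit 116311649291) (nat_lit 6) (nat_lit 5) (nat_lit 8) (nat_lit 5) (nat_lit 7) (nat_lit 4) (nat_lit 363) (nat_lit 307) (nat_lit 230)) (XT.lf (nat_lit 0) (nat_lit 7020994166) (nat_lit 76) (nat_lit 8036608798) (nat_lit 152) (nat_lit 134658666056) (nat_lit 5) (nat_lit 5) (nat_lit 6) (nat_lit 5) (nat_lit 7) (nat_lit 4) (nat_lit 364) (nat_lit 307) (nat_lit 229))))) (XT.nd (nat_lit 312) (nat_lit 76) (nat_lit 0) (XT.nd (nat_lit 156) (nat_lit 0) (nat_lit 0) (XT.nd (nat_lit 78) (nat_lit 0) (nat_lit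 0) (XT.lf (nat_lit 0) (nat_lit 31376170943) (nat_lit 152) (nat_lit 120086769770) (nat_lit 0) (nat_lit 8873134492) (nat_lit 5) (nat_lit 5) (nat_lit 7) (nat_lit 4) (nat_lit 5) (nat_lit 4) (nat_lit 365) (nat_lit 307) (nat_lit 228)) (XT.lf (nat_lit 0) (nat_lit 49202957454) (nat_lit 152) (nat_lit 95890193381) (nat_lit 0) (nat_lit 26696097815) (nat_lit 5) (nat_lit 5) (nat_lit 7) (nat_lit 4) (nat_lit 5) (nat_lit 4) (nat_lit 366) (nat_lit 307) (nat_lit 227))) (XT.nd (nat_lit 78) (nat_lit 0) (nat_lit 0) (XT.lf (nat_lit 0) (nat_lit 68450322080) (nat_lit 152) (nat_lit 69768877933) (nat_lit 0) (nat_lit 45939922452) (nat_lit 5) (nat_lit 5) (nat_lit 7) (nat_lit 4) (nat_lit 5) (nat_lit 4) (nat_lit 367) (nat_lit 307) (nat_lit 226)) (XT.lf (nat_lit 0) (nat_lit 89232323277) (nat_lit 152) (nat_lit 41568030447) (nat_lit 0) (nat_lit 66718645882) (nat_lit 5) (nat_lit 5) (nat_lit 7) (nat_lit 4) (nat_lit 5) (nat_lit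 4) (nat_lit 368) (nat_lit 307) (nat_lit 225)))) (XT.nd (nat_lit 156) (nat_lit 0) (nat_lit 0) (XT.nd (nat_lit 78) (nat_lit 76) (nat_lit 0) (XT.lf (nat_lit 0) (nat_lit 111672113645) (nat_lit 152) (nat_lit 11120534789) (nat_lit 0) (nat_lit 89155401280) (nat_lit 5) (nat_lit 5) (nat_lit 7) (nat_lit 4) (nat_lit 5) (nat_lit 4) (nat_lit 369) (nat_lit 307) (nat_lit 224)) (XT.lf (nat_lit 0) (nat_lit 22899567768) (nat_lit 76) (nat_lit 113553837106) (nat_lit 76) (nat_lit 91034314584) (nat_lit 4) (nat_lit 4) (nat_lit 5) (nat_lit 5) (nat_lit 5) (nat_lit 4) (nat_lit 370) (nat_lit 307) (nat_lit 223))) (XT.nd (nat_lit 78) (nat_lit 0) (nat_lit 0) (XT.lf (nat_lit 0) (nat_lit 60265212128) (nat_lit 76) (nat_lit 103251747653) (nat_lit 76) (nat_lit 80729623134) (nat_lit 4) (nat_lit 4) (nat_lit 5) (nat_lit 5) (nat_lit 5) (nat_lit 4) (nat_lit 371) (nat_lit 307) (nat_lit 222)) (XT.nd (nat_lit 78) (nat_lit 0) (nat_lit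 0) (XT.lf (nat_lit 0) (nat_lit 100612236676) (nat_lit 76) (nat_lit 92129385784) (nat_lit 76) (nat_lit 69604852008) (nat_lit 4) (nat_lit 4) (nat_lit 5) (nat_lit 5) (nat_lit 5) (nat_lit 4) (nat_lit 372) (nat_lit 307) (nat_lit 221)) (XT.lf (nat_lit 0) (nat_lit 144179734891) (nat_lit 76) (nat_lit 80120841207) (nat_lit 76) (nat_lit 57594076637) (nat_lit 4) (nat_lit 4) (nat_lit 5) (nat_lit 5) (nat_lit 5) (nat_lit 4) (nat_lit 373) (nat_lit 307) (nat_lit 220))))))) (XT.nd (nat_lit 702) (nat_lit 0) (nat_lit 0) (XT.nd (nat_lit 312) (nat_lit 76) (nat_lit 0) (XT.nd (nat_lit 156) (nat_lit 76) (nat_lit 0) (XT.nd (nat_lit 78) (nat_lit 0) (nat_lit 0) (XT.lf (nat_lit 0) (nat_lit 191225884539) (nat_lit 76) (nat_lit 67154952176) (nat_lit 76) (nat_lit 44626122057) (nat_lit 4) (nat_lit 4) (nat_lit 5) (nat_lit 5) (nat_lit 5) (nat_lit 4) (nat_lit 374) (nat_lit 307) (nat_lit 219)) (XT.lf (nat_lit 0) (nat_lit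 242029477620) (nat_lit 76) (nat_lit 53154883793) (nat_lit 76) (nat_lit 30624141128) (nat_lit 4) (nat_lit 4) (nat_lit 5) (nat_lit 5) (nat_lit 5) (nat_lit 4) (nat_lit 375) (nat_lit 307) (nat_lit 218))) (XT.nd (nat_lit 78) (nat_lit 76) (nat_lit 0) (XT.lf (nat_lit 0) (nat_lit 296891572462) (nat_lit 76) (nat_lit 38037672690) (nat_lit 76) (nat_lit 15505159149) (nat_lit 4) (nat_lit 4) (nat_lit 5) (nat_lit 5) (nat_lit 5) (nat_lit 4) (nat_lit 376) (nat_lit 307) (nat_lit 217)) (XT.lf (nat_lit 0) (nat_lit 779377223) (nat_lit 152) (nat_lit 20913048616) (nat_lit 76) (nat_lit 355336590997) (nat_lit 3) (nat_lit 5) (nat_lit 5) (nat_lit 5) (nat_lit 4) (nat_lit 4) (nat_lit 377) (nat_lit 307) (nat_lit 216)))) (XT.nd (nat_lit 156) (nat_lit 0) (nat_lit 0) (XT.nd (nat_lit 78) (nat_lit 0) (nat_lit 0) (XT.lf (nat_lit 0) (nat_lit 14652254757) (nat_lit 76) (nat_lit 3226555933) (nat_lit 152) (nat_lit 387812184449)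 (nat_lit 2) (nat_lit 5) (nat_lit 3) (nat_lit 5) (nat_lit 4) (nat_lit 4) (nat_lit 378) (nat_lit 307) (nat_lit 215)) (XT.lf (nat_lit 0) (nat_lit 37332324960) (nat_lit 152) (nat_lit 382770056308) (nat_lit 0) (nat_lit 16464660832) (nat_lit 2) (nat_lit 5) (nat_lit 4) (nat_lit 4) (nat_lit 2) (nat_lit 4) (nat_lit 379) (nat_lit 307) (nat_lit 214))) (XT.nd (nat_lit 78) (nat_lit 0) (nat_lit 0) (XT.lf (nat_lit 0) (nat_lit 58423556772) (nat_lit 152) (nat_lit 373928414163) (nat_lit 0) (nat_lit 37554687415) (nat_lit 2) (nat_lit 5) (nat_lit 4) (nat_lit 4) (nat_lit 2) (nat_lit 4) (nat_lit 380) (nat_lit 307) (nat_lit 213)) (XT.nd (nat_lit 78) (nat_lit 0) (nat_lit 0) (XT.lf (nat_lit 0) (nat_lit 81199892456) (nat_lit 152) (nat_lit 364383820284) (nat_lit 0) (nat_lit 60329907147) (nat_lit 2) (nat_lit 5) (nat_lit 4) (nat_lit 4) (nat_lit 2) (nat_lit 4) (nat_lit 381) (nat_lit 307) (nat_lit 212)) (XT.lf (nat_lit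 0) (nat_lit 105796302890) (nat_lit 152) (nat_lit 354079714116) (nat_lit 0) (nat_lit 84925284292) (nat_lit 2) (nat_lit 5) (nat_lit 4) (nat_lit 4) (nat_lit 2) (nat_lit 4) (nat_lit 382) (nat_lit 307) (nat_lit 211)))))) (XT.nd (nat_lit 312) (nat_lit 0) (nat_lit 0) (XT.nd (nat_lit 156) (nat_lit 0) (nat_lit 0) (XT.nd (nat_lit 78) (nat_lit 0) (nat_lit 0) (XT.lf (nat_lit 0) (nat_lit 132358544580) (nat_lit 152) (nat_lit 342955034287) (nat_lit 0) (nat_lit 111486569234) (nat_lit 2) (nat_lit 5) (nat_lit 4) (nat_lit 4) (nat_lit 2) (nat_lit 4) (nat_lit 383) (nat_lit 307) (nat_lit 210)) (XT.lf (nat_lit 0) (nat_lit 161044023404) (nat_lit 152) (nat_lit 330943856770) (nat_lit 0) (nat_lit 140171162178) (nat_lit 2) (nat_lit 5) (nat_lit 4) (nat_lit 4) (nat_lit 2) (nat_lit 4) (nat_lit 384) (nat_lit 307) (nat_lit 209))) (XT.nd (nat_lit 78) (nat_lit 0) (nat_lit 0) (XT.lf (nat_lit 0) (nat_lit 192022727383) (nat_lit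 152) (nat_lit 317975004216) (nat_lit 0) (nat_lit 171149045900) (nat_lit 2) (nat_lit 5) (nat_lit 4) (nat_lit 4) (nat_lit 2) (nat_lit 4) (nat_lit 385) (nat_lit 307) (nat_lit 208)) (XT.lf (nat_lit 0) (nat_lit 225478234024) (nat_lit 152) (nat_lit 303971624165) (nat_lit 0) (nat_lit 204603793042) (nat_lit 2) (nat_lit 5) (nat_lit 4) (nat_lit 4) (nat_lit 2) (nat_lit 4) (nat_lit 386) (nat_lit 307) (nat_lit 207)))) (XT.nd (nat_lit 156) (nat_lit 0) (nat_lit 0) (XT.nd (nat_lit 78) (nat_lit 0) (nat_lit 0) (XT.lf (nat_lit 0) (nat_lit 261608798179) (nat_lit 152) (nat_lit 288850733625) (nat_lit 0) (nat_lit 240733653958) (nat_lit 2) (nat_lit 5) (nat_lit 4) (nat_lit 4) (nat_lit 2) (nat_lit 4) (nat_lit 387) (nat_lit 307) (nat_lit 206)) (XT.lf (nat_lit 0) (nat_lit 300628526896) (nat_lit 152) (nat_lit 272522727319) (nat_lit 0) (nat_lit 279752731528) (nat_lit 2) (nat_lit 5) (nat_lit 4) (nat_lit 4) (nat_lit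 2) (nat_lit 4) (nat_lit 388) (nat_lit 307) (nat_lit 205))) (XT.nd (nat_lit 78) (nat_lit 0) (nat_lit 0) (XT.lf (nat_lit 0) (nat_lit 342768648197) (nat_lit 152) (nat_lit 254890846690) (nat_lit 0) (nat_lit 321892249915) (nat_lit 2) (nat_lit 5) (nat_lit 4) (nat_lit 4) (nat_lit 2) (nat_lit 4) (nat_lit 389) (nat_lit 307) (nat_lit 204)) (XT.nd (nat_lit 78) (nat_lit 0) (nat_lit 0) (XT.lf (nat_lit 0) (nat_lit 388278881319) (nat_lit 152) (nat_lit 235850606520) (nat_lit 0) (nat_lit 367401924783) (nat_lit 2) (nat_lit 5) (nat_lit 4) (nat_lit 4) (nat_lit 2) (nat_lit 4) (nat_lit 390) (nat_lit 307) (nat_lit 203)) (XT.lf (nat_lit 0) (nat_lit 437428916533) (nat_lit 152) (nat_lit 215289175757) (nat_lit 0) (nat_lit 416551443095) (nat_lit 2) (nat_lit 5) (nat_lit 4) (nat_lit 4) (nat_lit 2) (nat_lit 4) (nat_lit 391) (nat_lit 307) (nat_lit 202))))))))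
noncomputable def xc120 : XT := (XT.nd (nat_lit 1326) (nat_lit 0) (nat_lit 0) (XT.nd (nat_lit 624) (nat_lit 0) (nat_lit 0) (XT.nd (nat_lit 312) (nat_lit 76) (nat_lit 0) (XT.nd (nat_lit 156) (nat_lit 0) (nat_lit 0) (XT.nd (nat_lit 78) (nat_lit 0) (nat_lit 0) (XT.lf (nat_lit 0) (nat_lit 490510013307) (nat_lit 152) (nat_lit 193084708884) (nat_lit 0) (nat_lit 469632061256) (nat_lit 2) (nat_lit 5) (nat_lit 4) (nat_lit 4) (nat_lit 2) (nat_lit 4) (nat_lit 392) (nat_lit 307) (nat_lit 201)) (XT.lf (nat_lit 0) (nat_lit 547836726287) (nat_lit 152) (nat_lit 169105623875) (nat_lit 0) (nat_lit 526958331076) (nat_lit 2) (nat_lit 5) (nat_lit 4) (nat_lit 4) (nat_lit 2) (nat_lit 4) (nat_lit 393) (nat_lit 307) (nat_lit 200))) (XT.nd (nat_lit 78) (nat_lit 0) (nat_lit 0) (XT.lf (nat_lit 0) (nat_lit 609748769329) (nat_lit 152) (nat_lit 143209822450) (nat_lit 0) (nat_lit 588869963785) (nat_lit 2) (nat_lit 5)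 (nat_lit 4) (nat_lit 4) (nat_lit 2) (nat_lit 4) (nat_lit 394) (nat_lit 307) (nat_lit 199)) (XT.lf (nat_lit 0) (nat_lit 676613028614) (nat_lit 152) (nat_lit 115243848006) (nat_lit 0) (nat_lit 655733843132) (nat_lit 2) (nat_lit 5) (nat_lit 4) (nat_lit 4) (nat_lit 2) (nat_lit 4) (nat_lit 395) (nat_lit 307) (nat_lit 198)))) (XT.nd (nat_lit 156) (nat_lit 76) (nat_lit 0) (XT.nd (nat_lit 78) (nat_lit 0) (nat_lit 0) (XT.lf (nat_lit 0) (nat_lit 748825736790) (nat_lit 152) (nat_lit 85041976252) (nat_lit 0) (nat_lit 727946199513) (nat_lit 2) (nat_lit 5) (nat_lit 4) (nat_lit 4) (nat_lit 2) (nat_lit 4) (nat_lit 396) (nat_lit 307) (nat_lit 197)) (XT.lf (nat_lit 0) (nat_lit 826814821015) (nat_lit 152) (nat_lit 52425233132) (nat_lit 0) (nat_lit 805934958002) (nat_lit 2) (nat_lit 5) (nat_lit 4) (nat_lit 4) (nat_lit 2) (nat_lit 4) (nat_lit 397) (nat_lit 307) (nat_lit 196))) (XT.nd (nat_lit 78) (nat_lit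 76) (nat_lit 0) (XT.lf (nat_lit 0) (nat_lit 911042438826) (nat_lit 152) (nat_lit 17200334242) (nat_lit 0) (nat_lit 890162274207) (nat_lit 2) (nat_lit 5) (nat_lit 4) (nat_lit 4) (nat_lit 2) (nat_lit 4) (nat_lit 398) (nat_lit 307) (nat_lit 195)) (XT.lf (nat_lit 0) (nat_lit 21938934936) (nat_lit 76) (nat_lit 980596413824) (nat_lit 76) (nat_lit 959715969938) (nat_lit 1) (nat_lit 4) (nat_lit 2) (nat_lit 5) (nat_lit 2) (nat_lit 4) (nat_lit 399) (nat_lit 307) (nat_lit 194))))) (XT.nd (nat_lit 312) (nat_lit 0) (nat_lit 0) (XT.nd (nat_lit 156) (nat_lit 0) (nat_lit 0) (XT.nd (nat_lit 78) (nat_lit 0) (nat_lit 0) (XT.lf (nat_lit 0) (nat_lit 65186475646) (nat_lit 76) (nat_lit 1036630969240) (nat_lit 76) (nat_lit 1015750266774) (nat_lit 1) (nat_lit 4) (nat_lit 2) (nat_lit 5) (nat_lit 2) (nat_lit 4) (nat_lit 400) (nat_lit 307) (nat_lit 193)) (XT.lf (nat_lit 0) (nat_lit 111892830489) (nat_lit 76) (nat_lit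 1097148783560) (nat_lit 76) (nat_lit 1076267841669) (nat_lit 1) (nat_lit 4) (nat_lit 2) (nat_lit 5) (nat_lit 2) (nat_lit 4) (nat_lit 401) (nat_lit 307) (nat_lit 192))) (XT.nd (nat_lit 78) (nat_lit 0) (nat_lit 0) (XT.lf (nat_lit 0) (nat_lit 162334777864) (nat_lit 76) (nat_lit 1162508480871) (nat_lit 76) (nat_lit 1141627317290) (nat_lit 1) (nat_lit 4) (nat_lit 2) (nat_lit 5) (nat_lit 2) (nat_lit 4) (nat_lit 402) (nat_lit 307) (nat_lit 191)) (XT.lf (nat_lit 0) (nat_lit 216811233016) (nat_lit 76) (nat_lit 1233097377896) (nat_lit 76) (nat_lit 1212216009046) (nat_lit 1) (nat_lit 4) (nat_lit 2) (nat_lit 5) (nat_lit 2) (nat_lit 4) (nat_lit 403) (nat_lit 307) (nat_lit 190)))) (XT.nd (nat_lit 156) (nat_lit 0) (nat_lit 0) (XT.nd (nat_lit 78) (nat_lit 0) (nat_lit 0) (XT.lf (nat_lit 0) (nat_lit 275645019382) (nat_lit 76) (nat_lit 1309333779211) (nat_lit 76) (nat_lit 1288452220297) (nat_lit 1) (nat_lit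 4) (nat_lit 2) (nat_lit 5) (nat_lit 2) (nat_lit 4) (nat_lit 404) (nat_lit 307) (nat_lit 189)) (XT.lf (nat_lit 0) (nat_lit 339184781622) (nat_lit 76) (nat_lit 1391669456083) (nat_lit 76) (nat_lit 1370787721184) (nat_lit 1) (nat_lit 4) (nat_lit 2) (nat_lit 5) (nat_lit 2) (nat_lit 4) (nat_lit 405) (nat_lit 307) (nat_lit 188))) (XT.nd (nat_lit 78) (nat_lit 0) (nat_lit 0) (XT.lf (nat_lit 0) (nat_lit 407807051660) (nat_lit 76) (nat_lit 1480592323633) (nat_lit 76) (nat_lit 1459710425786) (nat_lit 1) (nat_lit 4) (nat_lit 2) (nat_lit 5) (nat_lit 2) (nat_lit 4) (nat_lit 406) (nat_lit 307) (nat_lit 187)) (XT.nd (nat_lit 78) (nat_lit 0) (nat_lit 0) (XT.lf (nat_lit 0) (nat_lit 481918479985) (nat_lit 76) (nat_lit 1576629332189) (nat_lit 76) (nat_lit 1555747283463) (nat_lit 1) (nat_lit 4) (nat_lit 2) (nat_lit 5) (nat_lit 2) (nat_lit 4) (nat_lit 407) (nat_lit 307) (nat_lit 186)) (XT.lf (nat_lit 0) (nat_lit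 561958245433) (nat_lit 76) (nat_lit 1680349589949) (nat_lit 76) (nat_lit 1659467401521) (nat_lit 1) (nat_lit 4) (nat_lit 2) (nat_lit 5) (nat_lit 2) (nat_lit 4) (nat_lit 408) (nat_lit 307) (nat_lit 185))))))) (XT.nd (nat_lit 39312) (nat_lit 0) (nat_lit 3192) (XT.nd (nat_lit 39000) (nat_lit 0) (nat_lit 4560) (XT.nd (nat_lit 156) (nat_lit 0) (nat_lit 0) (XT.nd (nat_lit 78) (nat_lit 0) (nat_lit 0) (XT.lf (nat_lit 0) (nat_lit 648400657724) (nat_lit 76) (nat_lit 1792367735478) (nat_lit 76) (nat_lit 1771485417695) (nat_lit 1) (nat_lit 4) (nat_lit 2) (nat_lit 5) (nat_lit 2) (nat_lit 4) (nat_lit 409) (nat_lit 307) (nat_lit 184)) (XT.lf (nat_lit 0) (nat_lit 741757968190) (nat_lit 76) (nat_lit 1913347580007) (nat_lit 76) (nat_lit 1892465142452) (nat_lit 1) (nat_lit 4) (nat_lit 2) (nat_lit 5) (nat_lit 2) (nat_lit 4) (nat_lit 410) (nat_lit 307) (nat_lit 183))) (XT.nd (nat_lit 78) (nat_lit 0) (nat_lit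 0) (XT.lf (nat_lit 0) (nat_lit 842583405338) (nat_lit 76) (nat_lit 2044006041136) (nat_lit 76) (nat_lit 2023123492680) (nat_lit 1) (nat_lit 4) (nat_lit 2) (nat_lit 5) (nat_lit 2) (nat_lit 4) (nat_lit 411) (nat_lit 307) (nat_lit 182)) (XT.lf (nat_lit 0) (nat_lit 951474453240) (nat_lit 76) (nat_lit 2185117391225) (nat_lit 76) (nat_lit 2164234740084) (nat_lit 1) (nat_lit 4) (nat_lit 2) (nat_lit 5) (nat_lit 2) (nat_lit 4) (nat_lit 412) (nat_lit 307) (nat_lit 181)))) (XT.nd (nat_lit 156) (nat_lit 0) (nat_lit 0) (XT.nd (nat_lit 78) (nat_lit 0) (nat_lit 0) (XT.lf (nat_lit 0) (nat_lit 1147626924) (nat_lit 0) (nat_lit 1147626924) (nat_lit 380) (nat_lit 1854349755) (nat_lit 61) (nat_lit 5) (nat_lit 61) (nat_lit 3) (nat_lit 66) (nat_lit 3) (nat_lit 308) (nat_lit 308) (nat_lit 284)) (XT.lf (nat_lit 0) (nat_lit 5827678178) (nat_lit 380) (nat_lit 2052386280) (nat_lit 456) (nat_lit 664724688) (nat_lit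 61) (nat_lit 5) (nat_lit 66) (nat_lit 3) (nat_lit 67) (nat_lit 5) (nat_lit 309) (nat_lit 308) (nat_lit 283))) (XT.nd (nat_lit 78) (nat_lit 0) (nat_lit 0) (XT.lf (nat_lit 76) (nat_lit 2204342970) (nat_lit 0) (nat_lit 4969636036) (nat_lit 456) (nat_lit 1635436435) (nat_lit 62) (nat_lit 5) (nat_lit 61) (nat_lit 5) (nat_lit 67) (nat_lit 5) (nat_lit 310) (nat_lit 308) (nat_lit 282)) (XT.lf (nat_lit 76) (nat_lit 6858275121) (nat_lit 0) (nat_lit 1729496244) (nat_lit 456) (nat_lit 510852230) (nat_lit 62) (nat_lit 5) (nat_lit 61) (nat_lit 5) (nat_lit 67) (nat_lit 5) (nat_lit 311) (nat_lit 308) (nat_lit 281))))) (XT.nd (nat_lit 312) (nat_lit 988) (nat_lit 0) (XT.nd (nat_lit 156) (nat_lit 0) (nat_lit 0) (XT.nd (nat_lit 78) (nat_lit 0) (nat_lit 0) (XT.lf (nat_lit 0) (nat_lit 682802402) (nat_lit 456) (nat_lit 6935393411) (nat_lit 532) (nat_lit 1790441196) (nat_lit 56) (nat_lit 5) (nat_lit 62) (nat_lit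 5) (nat_lit 63) (nat_lit 5) (nat_lit 312) (nat_lit 308) (nat_lit 280)) (XT.lf (nat_lit 0) (nat_lit 1966463015) (nat_lit 456) (nat_lit 2173782292) (nat_lit 532) (nat_lit 5600530250) (nat_lit 56) (nat_lit 5) (nat_lit 62) (nat_lit 5) (nat_lit 63) (nat_lit 5) (nat_lit 313) (nat_lit 308) (nat_lit 279))) (XT.nd (nat_lit 78) (nat_lit 0) (nat_lit 76) (XT.lf (nat_lit 76) (nat_lit 3059995013) (nat_lit 0) (nat_lit 287104027) (nat_lit 532) (nat_lit 6752986693) (nat_lit 57) (nat_lit 5) (nat_lit 56) (nat_lit 5) (nat_lit 63) (nat_lit 5) (nat_lit 314) (nat_lit 308) (nat_lit 278)) (XT.lf (nat_lit 0) (nat_lit 4917807932) (nat_lit 456) (nat_lit 1808752399) (nat_lit 76) (nat_lit 3755343180) (nat_lit 57) (nat_lit 5) (nat_lit 63) (nat_lit 5) (nat_lit 58) (nat_lit 5) (nat_lit 315) (nat_lit 308) (nat_lit 277)))) (XT.nd (nat_lit 156) (nat_lit 608) (nat_lit 0) (XT.nd (nat_lit 78) (nat_lit 0) (nat_lit 0) (XT.lf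 (nat_lit 0) (nat_lit 3970452554) (nat_lit 456) (nat_lit 2677655136) (nat_lit 532) (nat_lit 4243567016) (nat_lit 51) (nat_lit 5) (nat_lit 57) (nat_lit 5) (nat_lit 58) (nat_lit 5) (nat_lit 316) (nat_lit 308) (nat_lit 276)) (XT.lf (nat_lit 0) (nat_lit 8543112890) (nat_lit 532) (nat_lit 1123166458) (nat_lit 76) (nat_lit 1665959371) (nat_lit 51) (nat_lit 5) (nat_lit 58) (nat_lit 5) (nat_lit 52) (nat_lit 5) (nat_lit 317) (nat_lit 308) (nat_lit 275))) (XT.nd (nat_lit 78) (nat_lit 304) (nat_lit 0) (XT.lf (nat_lit 0) (nat_lit 5272080544) (nat_lit 304) (nat_lit 5453586417) (nat_lit 380) (nat_lit 1071610233) (nat_lit 47) (nat_lit 5) (nat_lit 51) (nat_lit 5) (nat_lit 52) (nat_lit 5) (nat_lit 318) (nat_lit 308) (nat_lit 274)) (XT.nd (nat_lit 78) (nat_lit 228) (nat_lit 0) (XT.lf (nat_lit 0) (nat_lit 716700320) (nat_lit 380) (nat_lit 136363095) (nat_lit 76) (nat_lit 11447232229) (nat_lit 46) (nat_lit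 5) (nat_lit 51) (nat_lit 5) (nat_lit 47) (nat_lit 5) (nat_lit 319) (nat_lit 308) (nat_lit 273)) (XT.lf (nat_lit 0) (nat_lit 2808690087) (nat_lit 304) (nat_lit 5906735778) (nat_lit 76) (nat_lit 4108505775) (nat_lit 43) (nat_lit 5) (nat_lit 47) (nat_lit 5) (nat_lit 44) (nat_lit 5) (nat_lit 320) (nat_lit 308) (nat_lit 272))))))))
noncomputable def xc121 : XT := (XT.nd (nat_lit 1326) (nat_lit 836) (nat_lit 0) (XT.nd (nat_lit 624) (nat_lit 836) (nat_lit 0) (XT.nd (nat_lit 312) (nat_lit 456) (nat_lit 0) (XT.nd (nat_lit 156) (nat_lit 152) (nat_lit 0) (XT.nd (nat_lit 78) (nat_lit 0) (nat_lit 0) (XT.lf (nat_lit 0) (nat_lit 1127256799) (nat_lit 228) (nat_lit 3941888419) (nat_lit 304) (nat_lit 8320302144) (nat_lit 40) (nat_lit 5) (nat_lit 43) (nat_lit 5) (nat_lit 44) (nat_lit 5) (nat_lit 321) (nat_lit 308) (nat_lit 271)) (XT.lf (nat_lit 0) (nat_lit 7655536258) (nat_lit 304) (nat_lit 5023565008) (nat_lit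 76) (nat_lit 1309566726) (nat_lit 40) (nat_lit 5) (nat_lit 44) (nat_lit 5) (nat_lit 41) (nat_lit 5) (nat_lit 322) (nat_lit 308) (nat_lit 270))) (XT.nd (nat_lit 78) (nat_lit 0) (nat_lit 0) (XT.lf (nat_lit 0) (nat_lit 2772306525) (nat_lit 152) (nat_lit 7799498896) (nat_lit 228) (nat_lit 4054249810) (nat_lit 38) (nat_lit 5) (nat_lit 40) (nat_lit 5) (nat_lit 41) (nat_lit 5) (nat_lit 323) (nat_lit 308) (nat_lit 269)) (XT.lf (nat_lit 0) (nat_lit 11420874905) (nat_lit 152) (nat_lit 2393811983) (nat_lit 228) (nat_lit 1492343095) (nat_lit 38) (nat_lit 5) (nat_lit 40) (nat_lit 5) (nat_lit 41) (nat_lit 5) (nat_lit 324) (nat_lit 308) (nat_lit 268)))) (XT.nd (nat_lit 156) (nat_lit 152) (nat_lit 0) (XT.nd (nat_lit 78) (nat_lit 0) (nat_lit 0) (XT.lf (nat_lit 0) (nat_lit 1372539908) (nat_lit 304) (nat_lit 11242965490) (nat_lit 76) (nat_lit 3411635364) (nat_lit 34) (nat_lit 5) (nat_lit 38) (nat_lit 5)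 (nat_lit 35) (nat_lit 5) (nat_lit 325) (nat_lit 308) (nat_lit 267)) (XT.lf (nat_lit 0) (nat_lit 4516787350) (nat_lit 304) (nat_lit 2587196297) (nat_lit 76) (nat_lit 9687360594) (nat_lit 34) (nat_lit 5) (nat_lit 38) (nat_lit 5) (nat_lit 35) (nat_lit 5) (nat_lit 326) (nat_lit 308) (nat_lit 266))) (XT.nd (nat_lit 78) (nat_lit 0) (nat_lit 0) (XT.lf (nat_lit 0) (nat_lit 7062204860) (nat_lit 152) (nat_lit 982815860) (nat_lit 228) (nat_lit 9561112715) (nat_lit 32) (nat_lit 5) (nat_lit 34) (nat_lit 5) (nat_lit 35) (nat_lit 5) (nat_lit 327) (nat_lit 308) (nat_lit 265)) (XT.lf (nat_lit 0) (nat_lit 12027232795) (nat_lit 228) (nat_lit 1040285434) (nat_lit 76) (nat_lit 5404891717) (nat_lit 32) (nat_lit 5) (nat_lit 35) (nat_lit 5) (nat_lit 33) (nat_lit 5) (nat_lit 328) (nat_lit 308) (nat_lit 264))))) (XT.nd (nat_lit 312) (nat_lit 304) (nat_lit 0) (XT.nd (nat_lit 156) (nat_lit 152) (nat_lit 0) (XT.nd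 (nat_lit 78) (nat_lit 228) (nat_lit 0) (XT.lf (nat_lit 0) (nat_lit 9630487637) (nat_lit 152) (nat_lit 6921147112) (nat_lit 228) (nat_lit 2838503485) (nat_lit 30) (nat_lit 5) (nat_lit 32) (nat_lit 5) (nat_lit 33) (nat_lit 5) (nat_lit 329) (nat_lit 308) (nat_lit 263)) (XT.lf (nat_lit 0) (nat_lit 798976495) (nat_lit 152) (nat_lit 220191529) (nat_lit 228) (nat_lit 19358890863) (nat_lit 27) (nat_lit 5) (nat_lit 29) (nat_lit 5) (nat_lit 30) (nat_lit 5) (nat_lit 330) (nat_lit 308) (nat_lit 262))) (XT.nd (nat_lit 78) (nat_lit 152) (nat_lit 0) (XT.lf (nat_lit 0) (nat_lit 5442434237) (nat_lit 228) (nat_lit 8966564655) (nat_lit 76) (nat_lit 6997320112) (nat_lit 27) (nat_lit 5) (nat_lit 30) (nat_lit 5) (nat_lit 28) (nat_lit 5) (nat_lit 331) (nat_lit 308) (nat_lit 261)) (XT.lf (nat_lit 0) (nat_lit 2570781249) (nat_lit 152) (nat_lit 7686513687) (nat_lit 228) (nat_lit 12256554779) (nat_lit 25) (nat_lit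 5) (nat_lit 27) (nat_lit 5) (nat_lit 28) (nat_lit 5) (nat_lit 332) (nat_lit 308) (nat_lit 260)))) (XT.nd (nat_lit 156) (nat_lit 228) (nat_lit 0) (XT.nd (nat_lit 78) (nat_lit 76) (nat_lit 0) (XT.lf (nat_lit 0) (nat_lit 15495187686) (nat_lit 152) (nat_lit 178610530) (nat_lit 228) (nat_lit 8018894698) (nat_lit 25) (nat_lit 5) (nat_lit 27) (nat_lit 5) (nat_lit 28) (nat_lit 5) (nat_lit 333) (nat_lit 308) (nat_lit 259)) (XT.lf (nat_lit 0) (nat_lit 4476695433) (nat_lit 76) (nat_lit 17318342292) (nat_lit 152) (nat_lit 3149116948) (nat_lit 24) (nat_lit 5) (nat_lit 25) (nat_lit 5) (nat_lit 26) (nat_lit 4) (nat_lit 334) (nat_lit 308) (nat_lit 258))) (XT.nd (nat_lit 78) (nat_lit 152) (nat_lit 0) (XT.lf (nat_lit 0) (nat_lit 2212575318) (nat_lit 152) (nat_lit 7752525578) (nat_lit 76) (nat_lit 16309961652) (nat_lit 23) (nat_lit 5) (nat_lit 25) (nat_lit 5) (nat_lit 24) (nat_lit 5) (nat_lit 335) (nat_lit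 308) (nat_lit 257)) (XT.nd (nat_lit 78) (nat_lit 0) (nat_lit 0) (XT.lf (nat_lit 0) (nat_lit 6164961088) (nat_lit 152) (nat_lit 1791652983) (nat_lit 228) (nat_lit 19739421099) (nat_lit 21) (nat_lit 5) (nat_lit 23) (nat_lit 5) (nat_lit 24) (nat_lit 5) (nat_lit 336) (nat_lit 308) (nat_lit 256)) (XT.lf (nat_lit 0) (nat_lit 14522606674) (nat_lit 228) (nat_lit 7793434384) (nat_lit 76) (nat_lit 6885668003) (nat_lit 21) (nat_lit 5) (nat_lit 24) (nat_lit 5) (nat_lit 22) (nat_lit 4) (nat_lit 337) (nat_lit 308) (nat_lit 255))))))) (XT.nd (nat_lit 624) (nat_lit 380) (nat_lit 0) (XT.nd (nat_lit 312) (nat_lit 228) (nat_lit 0) (XT.nd (nat_lit 156) (nat_lit 152) (nat_lit 0) (XT.nd (nat_lit 78) (nat_lit 0) (nat_lit 0) (XT.lf (nat_lit 0) (nat_lit 7324437145) (nat_lit 76) (nat_lit 14489676475) (nat_lit 152) (nat_lit 8997721043) (nat_lit 20) (nat_lit 5) (nat_lit 21) (nat_lit 5) (nat_lit 22) (nat_lit 4) (nat_lit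 338) (nat_lit 308) (nat_lit 254)) (XT.lf (nat_lit 0) (nat_lit 24057295256) (nat_lit 76) (nat_lit 5823035279) (nat_lit 152) (nat_lit 2655143989) (nat_lit 20) (nat_lit 5) (nat_lit 21) (nat_lit 5) (nat_lit 22) (nat_lit 4) (nat_lit 339) (nat_lit 308) (nat_lit 253))) (XT.nd (nat_lit 78) (nat_lit 0) (nat_lit 0) (XT.lf (nat_lit 0) (nat_lit 4248956689) (nat_lit 152) (nat_lit 26472671382) (nat_lit 76) (nat_lit 3646202972) (nat_lit 18) (nat_lit 5) (nat_lit 20) (nat_lit 5) (nat_lit 19) (nat_lit 4) (nat_lit 340) (nat_lit 308) (nat_lit 252)) (XT.lf (nat_lit 0) (nat_lit 11930711649) (nat_lit 152) (nat_lit 10530242756) (nat_lit 76) (nat_lit 13850814855) (nat_lit 18) (nat_lit 5) (nat_lit 20) (nat_lit 5) (nat_lit 19) (nat_lit 4) (nat_lit 341) (nat_lit 308) (nat_lit 251)))) (XT.nd (nat_lit 156) (nat_lit 152) (nat_lit 0) (XT.nd (nat_lit 78) (nat_lit 0) (nat_lit 0) (XT.lf (nat_lit 0) (nat_lit 7004350221)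 (nat_lit 76) (nat_lit 13372311440) (nat_lit 152) (nat_lit 18022599793) (nat_lit 17) (nat_lit 5) (nat_lit 18) (nat_lit 5) (nat_lit 19) (nat_lit 4) (nat_lit 342) (nat_lit 308) (nat_lit 250)) (XT.lf (nat_lit 0) (nat_lit 26507810005) (nat_lit 76) (nat_lit 3260197638) (nat_lit 152) (nat_lit 10864178240) (nat_lit 17) (nat_lit 5) (nat_lit 18) (nat_lit 5) (nat_lit 19) (nat_lit 4) (nat_lit 343) (nat_lit 308) (nat_lit 249))) (XT.nd (nat_lit 78) (nat_lit 76) (nat_lit 0) (XT.lf (nat_lit 0) (nat_lit 4539259048) (nat_lit 76) (nat_lit 35647643870) (nat_lit 76) (nat_lit 2834751701) (nat_lit 16) (nat_lit 4) (nat_lit 17) (nat_lit 5) (nat_lit 17) (nat_lit 4) (nat_lit 344) (nat_lit 308) (nat_lit 248)) (XT.lf (nat_lit 0) (nat_lit 6008857730) (nat_lit 152) (nat_lit 20338711613) (nat_lit 76) (nat_lit 19206383709) (nat_lit 15) (nat_lit 5) (nat_lit 17) (nat_lit 5) (nat_lit 16) (nat_lit 4) (nat_lit 345) (nat_lit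 308) (nat_lit 247))))) (XT.nd (nat_lit 312) (nat_lit 228) (nat_lit 0) (XT.nd (nat_lit 156) (nat_lit 76) (nat_lit 0) (XT.nd (nat_lit 78) (nat_lit 76) (nat_lit 0) (XT.lf (nat_lit 0) (nat_lit 15390994476) (nat_lit 152) (nat_lit 846314890) (nat_lit 76) (nat_lit 32046908184) (nat_lit 15) (nat_lit 5) (nat_lit 17) (nat_lit 5) (nat_lit 16) (nat_lit 4) (nat_lit 346) (nat_lit 308) (nat_lit 246)) (XT.lf (nat_lit 0) (nat_lit 21241043990) (nat_lit 76) (nat_lit 4778865772) (nat_lit 152) (nat_lit 25173303954) (nat_lit 14) (nat_lit 5) (nat_lit 15) (nat_lit 5) (nat_lit 16) (nat_lit 4) (nat_lit 347) (nat_lit 308) (nat_lit 245))) (XT.nd (nat_lit 78) (nat_lit 76) (nat_lit 0) (XT.lf (nat_lit 0) (nat_lit 37691089308) (nat_lit 152) (nat_lit 9400006659) (nat_lit 0) (nat_lit 7228484115) (nat_lit 14) (nat_lit 5) (nat_lit 16) (nat_lit 4) (nat_lit 14) (nat_lit 4) (nat_lit 348) (nat_lit 308) (nat_lit 244)) (XT.lf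 (nat_lit 0) (nat_lit 13313026992) (nat_lit 76) (nat_lit 37413833986) (nat_lit 76) (nat_lit 6934729058) (nat_lit 13) (nat_lit 4) (nat_lit 14) (nat_lit 5) (nat_lit 14) (nat_lit 4) (nat_lit 349) (nat_lit 308) (nat_lit 243)))) (XT.nd (nat_lit 156) (nat_lit 152) (nat_lit 0) (XT.nd (nat_lit 78) (nat_lit 0) (nat_lit 0) (XT.lf (nat_lit 0) (nat_lit 3608063683) (nat_lit 152) (nat_lit 22989609998) (nat_lit 76) (nat_lit 34646464546) (nat_lit 12) (nat_lit 5) (nat_lit 14) (nat_lit 5) (nat_lit 13) (nat_lit 4) (nat_lit 350) (nat_lit 308) (nat_lit 242)) (XT.lf (nat_lit 0) (nat_lit 14607266276) (nat_lit 152) (nat_lit 125414469) (nat_lit 76) (nat_lit 50367193191) (nat_lit 12) (nat_lit 5) (nat_lit 14) (nat_lit 5) (nat_lit 13) (nat_lit 4) (nat_lit 351) (nat_lit 308) (nat_lit 241))) (XT.nd (nat_lit 78) (nat_lit 76) (nat_lit 0) (XT.lf (nat_lit 0) (nat_lit 25838859890) (nat_lit 76) (nat_lit 1257527723) (nat_lit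 152) (nat_lit 42118886770) (nat_lit 11) (nat_lit 5) (nat_lit 12) (nat_lit 5) (nat_lit 13) (nat_lit 4) (nat_lit 352) (nat_lit 308) (nat_lit 240)) (XT.nd (nat_lit 78) (nat_lit 76) (nat_lit 0) (XT.lf (nat_lit 0) (nat_lit 40896575469) (nat_lit 152) (nat_lit 20113799716) (nat_lit 0) (nat_lit 12624580890) (nat_lit 11) (nat_lit 5) (nat_lit 13) (nat_lit 4) (nat_lit 11) (nat_lit 4) (nat_lit 353) (nat_lit 308) (nat_lit 239)) (XT.lf (nat_lit 0) (nat_lit 5218073373) (nat_lit 76) (nat_lit 50730361241) (nat_lit 76) (nat_lit 22447969030) (nat_lit 10) (nat_lit 4) (nat_lit 11) (nat_lit 5) (nat_lit 11) (nat_lit 4) (nat_lit 354) (nat_lit 308) (nat_lit 238))))))))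
noncomputable def xc122 : XT := (XT.nd (nat_lit 1326) (nat_lit 152) (nat_lit 0) (XT.nd (nat_lit 624) (nat_lit 228) (nat_lit 0) (XT.nd (nat_lit 312) (nat_lit 76) (nat_lit 0) (XT.nd (nat_lit 156) (nat_lit 76) (nat_lit 0) (XT.nd (nat_lit 78) (nat_lit 76) (nat_lit 0) (XT.lf (nat_lit 0) (nat_lit 33700778235) (nat_lit 76) (nat_lit 39043415930) (nat_lit 76) (nat_lit 10751396281) (nat_lit 10) (nat_lit 4) (nat_lit 11) (nat_lit 5) (nat_lit 11) (nat_lit 4) (nat_lit 355) (nat_lit 308) (nat_lit 237)) (XT.lf (nat_lit 0) (nat_lit 1777123557) (nat_lit 152) (nat_lit 24604516942) (nat_lit 76) (nat_lit 62618230956) (nat_lit 9) (nat_lit 5) (nat_lit 11) (nat_lit 5) (nat_lit 10) (nat_lit 4) (nat_lit 356) (nat_lit 308) (nat_lit 236))) (XT.nd (nat_lit 78) (nat_lit 0) (nat_lit 0) (XT.lf (nat_lit 0) (nat_lit 2425808005) (nat_lit 76) (nat_lit 12350632342) (nat_lit 152) (nat_lit 80141767258) (nat_lit 8) (nat_lit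 5) (nat_lit 9) (nat_lit 5) (nat_lit 10) (nat_lit 4) (nat_lit 357) (nat_lit 308) (nat_lit 235)) (XT.lf (nat_lit 0) (nat_lit 29564408772) (nat_lit 152) (nat_lit 68340586704) (nat_lit 0) (nat_lit 3345121283) (nat_lit 8) (nat_lit 5) (nat_lit 10) (nat_lit 4) (nat_lit 8) (nat_lit 4) (nat_lit 358) (nat_lit 308) (nat_lit 234)))) (XT.nd (nat_lit 156) (nat_lit 76) (nat_lit 0) (XT.nd (nat_lit 78) (nat_lit 0) (nat_lit 0) (XT.lf (nat_lit 0) (nat_lit 45847962997) (nat_lit 152) (nat_lit 42593490971) (nat_lit 0) (nat_lit 19622123237) (nat_lit 8) (nat_lit 5) (nat_lit 10) (nat_lit 4) (nat_lit 8) (nat_lit 4) (nat_lit 359) (nat_lit 308) (nat_lit 233)) (XT.lf (nat_lit 0) (nat_lit 63426565154) (nat_lit 152) (nat_lit 14801504012) (nat_lit 0) (nat_lit 37194658475) (nat_lit 8) (nat_lit 5) (nat_lit 10) (nat_lit 4) (nat_lit 8) (nat_lit 4) (nat_lit 360) (nat_lit 308) (nat_lit 232))) (XT.nd (nat_lit 78) (nat_lit 0)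 (nat_lit 0) (XT.lf (nat_lit 0) (nat_lit 16000476040) (nat_lit 76) (nat_lit 66788720529) (nat_lit 76) (nat_lit 40551196333) (nat_lit 7) (nat_lit 4) (nat_lit 8) (nat_lit 5) (nat_lit 8) (nat_lit 4) (nat_lit 361) (nat_lit 308) (nat_lit 231)) (XT.lf (nat_lit 0) (nat_lit 50094963391) (nat_lit 76) (nat_lit 54003704580) (nat_lit 76) (nat_lit 27760978979) (nat_lit 7) (nat_lit 4) (nat_lit 8) (nat_lit 5) (nat_lit 8) (nat_lit 4) (nat_lit 362) (nat_lit 308) (nat_lit 230))))) (XT.nd (nat_lit 312) (nat_lit 76) (nat_lit 0) (XT.nd (nat_lit 156) (nat_lit 76) (nat_lit 0) (XT.nd (nat_lit 78) (nat_lit 76) (nat_lit 0) (XT.lf (nat_lit 0) (nat_lit 86904578475) (nat_lit 76) (nat_lit 40201957612) (nat_lit 76) (nat_lit 13954415895) (nat_lit 7) (nat_lit 4) (nat_lit 8) (nat_lit 5) (nat_lit 8) (nat_lit 4) (nat_lit 363) (nat_lit 308) (nat_lit 229)) (XT.lf (nat_lit 0) (nat_lit 902771253) (nat_lit 152) (nat_lit 24374236875)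 (nat_lit 76) (nat_lit 125719997726) (nat_lit 6) (nat_lit 5) (nat_lit 8) (nat_lit 5) (nat_lit 7) (nat_lit 4) (nat_lit 364) (nat_lit 308) (nat_lit 228))) (XT.nd (nat_lit 78) (nat_lit 0) (nat_lit 0) (XT.lf (nat_lit 0) (nat_lit 7807633875) (nat_lit 76) (nat_lit 8569175740) (nat_lit 152) (nat_lit 145307565472) (nat_lit 5) (nat_lit 5) (nat_lit 6) (nat_lit 5) (nat_lit 7) (nat_lit 4) (nat_lit 365) (nat_lit 308) (nat_lit 227)) (XT.lf (nat_lit 0) (nat_lit 33994831856) (nat_lit 152) (nat_lit 129479358178) (nat_lit 0) (nat_lit 9680060270) (nat_lit 5) (nat_lit 5) (nat_lit 7) (nat_lit 4) (nat_lit 5) (nat_lit 4) (nat_lit 366) (nat_lit 308) (nat_lit 226)))) (XT.nd (nat_lit 156) (nat_lit 76) (nat_lit 0) (XT.nd (nat_lit 78) (nat_lit 0) (nat_lit 0) (XT.lf (nat_lit 0) (nat_lit 53239719271) (nat_lit 152) (nat_lit 103362933691) (nat_lit 0) (nat_lit 28921669917) (nat_lit 5) (nat_lit 5) (nat_lit 7) (nat_lit 4)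 (nat_lit 5) (nat_lit 4) (nat_lit 367) (nat_lit 308) (nat_lit 225)) (XT.lf (nat_lit 0) (nat_lit 74019426754) (nat_lit 152) (nat_lit 75166614871) (nat_lit 0) (nat_lit 49698342430) (nat_lit 5) (nat_lit 5) (nat_lit 7) (nat_lit 4) (nat_lit 5) (nat_lit 4) (nat_lit 368) (nat_lit 308) (nat_lit 224))) (XT.nd (nat_lit 78) (nat_lit 76) (nat_lit 0) (XT.lf (nat_lit 0) (nat_lit 96457093313) (nat_lit 152) (nat_lit 44723312423) (nat_lit 0) (nat_lit 72133198832) (nat_lit 5) (nat_lit 5) (nat_lit 7) (nat_lit 4) (nat_lit 5) (nat_lit 4) (nat_lit 369) (nat_lit 308) (nat_lit 223)) (XT.nd (nat_lit 78) (nat_lit 76) (nat_lit 0) (XT.lf (nat_lit 0) (nat_lit 120685682897) (nat_lit 152) (nat_lit 11852621590) (nat_lit 0) (nat_lit 96359186419) (nat_lit 5) (nat_lit 5) (nat_lit 7) (nat_lit 4) (nat_lit 5) (nat_lit 4) (nat_lit 370) (nat_lit 308) (nat_lit 222)) (XT.lf (nat_lit 0) (nat_lit 24885100412) (nat_lit 76) (nat_lit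 122562159185) (nat_lit 76) (nat_lit 98233253450) (nat_lit 4) (nat_lit 4) (nat_lit 5) (nat_lit 5) (nat_lit 5) (nat_lit 4) (nat_lit 371) (nat_lit 308) (nat_lit 221))))))) (XT.nd (nat_lit 624) (nat_lit 0) (nat_lit 0) (XT.nd (nat_lit 312) (nat_lit 152) (nat_lit 0) (XT.nd (nat_lit 156) (nat_lit 0) (nat_lit 0) (XT.nd (nat_lit 78) (nat_lit 0) (nat_lit 0) (XT.lf (nat_lit 0) (nat_lit 65228620971) (nat_lit 76) (nat_lit 111441531086) (nat_lit 76) (nat_lit 87110394558) (nat_lit 4) (nat_lit 4) (nat_lit 5) (nat_lit 5) (nat_lit 5) (nat_lit 4) (nat_lit 372) (nat_lit 308) (nat_lit 220)) (XT.lf (nat_lit 0) (nat_lit 108792874752) (nat_lit 76) (nat_lit 99434591851) (nat_lit 76) (nat_lit 75101389774) (nat_lit 4) (nat_lit 4) (nat_lit 5) (nat_lit 5) (nat_lit 5) (nat_lit 4) (nat_lit 373) (nat_lit 308) (nat_lit 219))) (XT.nd (nat_lit 78) (nat_lit 0) (nat_lit 0) (XT.lf (nat_lit 0) (nat_lit 155836020294) (nat_lit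 76) (nat_lit 86470189248) (nat_lit 76) (nat_lit 62135074625) (nat_lit 4) (nat_lit 4) (nat_lit 5) (nat_lit 5) (nat_lit 5) (nat_lit 4) (nat_lit 374) (nat_lit 308) (nat_lit 218)) (XT.lf (nat_lit 0) (nat_lit 206636831796) (nat_lit 76) (nat_lit 72471497188) (nat_lit 76) (nat_lit 48134611689) (nat_lit 4) (nat_lit 4) (nat_lit 5) (nat_lit 5) (nat_lit 5) (nat_lit 4) (nat_lit 375) (nat_lit 308) (nat_lit 217)))) (XT.nd (nat_lit 156) (nat_lit 152) (nat_lit 0) (XT.nd (nat_lit 78) (nat_lit 0) (nat_lit 0) (XT.lf (nat_lit 0) (nat_lit 261496351101) (nat_lit 76) (nat_lit 57355560457) (nat_lit 76) (nat_lit 33017035258) (nat_lit 4) (nat_lit 4) (nat_lit 5) (nat_lit 5) (nat_lit 5) (nat_lit 4) (nat_lit 376) (nat_lit 308) (nat_lit 216)) (XT.lf (nat_lit 0) (nat_lit 320739671658) (nat_lit 76) (nat_lit 41032803135) (nat_lit 76) (nat_lit 16692759696) (nat_lit 4) (nat_lit 4) (nat_lit 5) (nat_lit 5) (nat_lit 5) (nat_lit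 4) (nat_lit 377) (nat_lit 308) (nat_lit 215))) (XT.nd (nat_lit 78) (nat_lit 76) (nat_lit 0) (XT.lf (nat_lit 0) (nat_lit 888181387) (nat_lit 152) (nat_lit 22494031931) (nat_lit 76) (nat_lit 383805399155) (nat_lit 3) (nat_lit 5) (nat_lit 5) (nat_lit 5) (nat_lit 4) (nat_lit 4) (nat_lit 378) (nat_lit 308) (nat_lit 214)) (XT.lf (nat_lit 0) (nat_lit 15914165064) (nat_lit 76) (nat_lit 3440121439) (nat_lit 152) (nat_lit 418788365876) (nat_lit 2) (nat_lit 5) (nat_lit 3) (nat_lit 5) (nat_lit 4) (nat_lit 4) (nat_lit 379) (nat_lit 308) (nat_lit 213))))) (XT.nd (nat_lit 312) (nat_lit 0) (nat_lit 0) (XT.nd (nat_lit 156) (nat_lit 0) (nat_lit 0) (XT.nd (nat_lit 78) (nat_lit 0) (nat_lit 0) (XT.lf (nat_lit 0) (nat_lit 40361728181) (nat_lit 152) (nat_lit 413306215763) (nat_lit 0) (nat_lit 17821028096) (nat_lit 2) (nat_lit 5) (nat_lit 4) (nat_lit 4) (nat_lit 2) (nat_lit 4) (nat_lit 380) (nat_lit 308) (nat_lit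 212)) (XT.lf (nat_lit 0) (nat_lit 63137086892) (nat_lit 152) (nat_lit 403763571509) (nat_lit 0) (nat_lit 40595353517) (nat_lit 2) (nat_lit 5) (nat_lit 4) (nat_lit 4) (nat_lit 2) (nat_lit 4) (nat_lit 381) (nat_lit 308) (nat_lit 211))) (XT.nd (nat_lit 78) (nat_lit 0) (nat_lit 0) (XT.lf (nat_lit 0) (nat_lit 87732592721) (nat_lit 152) (nat_lit 393461270549) (nat_lit 0) (nat_lit 65189902597) (nat_lit 2) (nat_lit 5) (nat_lit 4) (nat_lit 4) (nat_lit 2) (nat_lit 4) (nat_lit 382) (nat_lit 308) (nat_lit 210)) (XT.lf (nat_lit 0) (nat_lit 114293996814) (nat_lit 152) (nat_lit 382338262209) (nat_lit 0) (nat_lit 91750420812) (nat_lit 2) (nat_lit 5) (nat_lit 4) (nat_lit 4) (nat_lit 2) (nat_lit 4) (nat_lit 383) (nat_lit 308) (nat_lit 209)))) (XT.nd (nat_lit 156) (nat_lit 0) (nat_lit 0) (XT.nd (nat_lit 78) (nat_lit 0) (nat_lit 0) (XT.lf (nat_lit 0) (nat_lit 142978700085) (nat_lit 152) (nat_lit 370328632367)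 (nat_lit 0) (nat_lit 120434303824) (nat_lit 2) (nat_lit 5) (nat_lit 4) (nat_lit 4) (nat_lit 2) (nat_lit 4) (nat_lit 384) (nat_lit 308) (nat_lit 208)) (XT.lf (nat_lit 0) (nat_lit 173956685959) (nat_lit 152) (nat_lit 357361212846) (nat_lit 0) (nat_lit 151411530201) (nat_lit 2) (nat_lit 5) (nat_lit 4) (nat_lit 4) (nat_lit 2) (nat_lit 4) (nat_lit 385) (nat_lit 308) (nat_lit 207))) (XT.nd (nat_lit 78) (nat_lit 0) (nat_lit 0) (XT.lf (nat_lit 0) (nat_lit 207411527688) (nat_lit 152) (nat_lit 343359159678) (nat_lit 0) (nat_lit 184865668690) (nat_lit 2) (nat_lit 5) (nat_lit 4) (nat_lit 4) (nat_lit 2) (nat_lit 4) (nat_lit 386) (nat_lit 308) (nat_lit 206)) (XT.nd (nat_lit 78) (nat_lit 0) (nat_lit 0) (XT.lf (nat_lit 0) (nat_lit 243541476184) (nat_lit 152) (nat_lit 328239497732) (nat_lit 0) (nat_lit 220994966040) (nat_lit 2) (nat_lit 5) (nat_lit 4) (nat_lit 4) (nat_lit 2) (nat_lit 4) (nat_lit 387) (nat_lit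 308) (nat_lit 205)) (XT.lf (nat_lit 0) (nat_lit 282560634847) (nat_lit 152) (nat_lit 311912629013) (nat_lit 0) (nat_lit 260013521788) (nat_lit 2) (nat_lit 5) (nat_lit 4) (nat_lit 4) (nat_lit 2) (nat_lit 4) (nat_lit 388) (nat_lit 308) (nat_lit 204))))))))
noncomputable def xc123 : XT := (XT.nd (nat_lit 1326) (nat_lit 0) (nat_lit 0) (XT.nd (nat_lit 624) (nat_lit 76) (nat_lit 0) (XT.nd (nat_lit 312) (nat_lit 0) (nat_lit 0) (XT.nd (nat_lit 156) (nat_lit 0) (nat_lit 0) (XT.nd (nat_lit 78) (nat_lit 0) (nat_lit 0) (XT.lf (nat_lit 0) (nat_lit 324700228320) (nat_lit 152) (nat_lit 294281801707) (nat_lit 0) (nat_lit 302152557007) (nat_lit 2) (nat_lit 5) (nat_lit 4) (nat_lit 4) (nat_lit 2) (nat_lit 4) (nat_lit 389) (nat_lit 308) (nat_lit 203)) (XT.lf (nat_lit 0) (nat_lit 370209972712) (nat_lit 152) (nat_lit 275242536835) (nat_lit 0) (nat_lit 347661784497) (nat_lit 2) (nat_lit 5) (nat_lit 4) (nat_lit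 4) (nat_lit 2) (nat_lit 4) (nat_lit 390) (nat_lit 308) (nat_lit 202))) (XT.nd (nat_lit 78) (nat_lit 0) (nat_lit 0) (XT.lf (nat_lit 0) (nat_lit 419359555398) (nat_lit 152) (nat_lit 254682009125) (nat_lit 0) (nat_lit 396810888571) (nat_lit 2) (nat_lit 5) (nat_lit 4) (nat_lit 4) (nat_lit 2) (nat_lit 4) (nat_lit 391) (nat_lit 308) (nat_lit 201)) (XT.lf (nat_lit 0) (nat_lit 472440233165) (nat_lit 152) (nat_lit 232478378412) (nat_lit 0) (nat_lit 449891123177) (nat_lit 2) (nat_lit 5) (nat_lit 4) (nat_lit 4) (nat_lit 2) (nat_lit 4) (nat_lit 392) (nat_lit 308) (nat_lit 200)))) (XT.nd (nat_lit 156) (nat_lit 0) (nat_lit 0) (XT.nd (nat_lit 78) (nat_lit 0) (nat_lit 0) (XT.lf (nat_lit 0) (nat_lit 529766558176) (nat_lit 152) (nat_lit 208500067627) (nat_lit 0) (nat_lit 507217037855) (nat_lit 2) (nat_lit 5) (nat_lit 4) (nat_lit 4) (nat_lit 2) (nat_lit 4) (nat_lit 393) (nat_lit 308) (nat_lit 199)) (XT.lf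 (nat_lit 0) (nat_lit 591678241987) (nat_lit 152) (nat_lit 182604983075) (nat_lit 0) (nat_lit 569128341728) (nat_lit 2) (nat_lit 5) (nat_lit 4) (nat_lit 4) (nat_lit 2) (nat_lit 4) (nat_lit 394) (nat_lit 308) (nat_lit 198))) (XT.nd (nat_lit 78) (nat_lit 0) (nat_lit 0) (XT.lf (nat_lit 0) (nat_lit 658542168650) (nat_lit 152) (nat_lit 154639672403) (nat_lit 0) (nat_lit 635991916597) (nat_lit 2) (nat_lit 5) (nat_lit 4) (nat_lit 4) (nat_lit 2) (nat_lit 4) (nat_lit 395) (nat_lit 308) (nat_lit 197)) (XT.lf (nat_lit 0) (nat_lit 730754568843) (nat_lit 152) (nat_lit 124438415251) (nat_lit 0) (nat_lit 708203991054) (nat_lit 2) (nat_lit 5) (nat_lit 4) (nat_lit 4) (nat_lit 2) (nat_lit 4) (nat_lit 396) (nat_lit 308) (nat_lit 196))))) (XT.nd (nat_lit 312) (nat_lit 0) (nat_lit 0) (XT.nd (nat_lit 156) (nat_lit 76) (nat_lit 0) (XT.nd (nat_lit 78) (nat_lit 0) (nat_lit 0) (XT.lf (nat_lit 0) (nat_lit 808743367899)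 (nat_lit 152) (nat_lit 91822241208) (nat_lit 0) (nat_lit 786192488503) (nat_lit 2) (nat_lit 5) (nat_lit 4) (nat_lit 4) (nat_lit 2) (nat_lit 4) (nat_lit 397) (nat_lit 308) (nat_lit 195)) (XT.lf (nat_lit 0) (nat_lit 892970721665) (nat_lit 152) (nat_lit 56597869242) (nat_lit 0) (nat_lit 870419563003) (nat_lit 2) (nat_lit 5) (nat_lit 4) (nat_lit 4) (nat_lit 2) (nat_lit 4) (nat_lit 398) (nat_lit 308) (nat_lit 194))) (XT.nd (nat_lit 78) (nat_lit 76) (nat_lit 0) (XT.lf (nat_lit 0) (nat_lit 983935755200) (nat_lit 152) (nat_lit 18556562333) (nat_lit 0) (nat_lit 961384337958) (nat_lit 2) (nat_lit 5) (nat_lit 4) (nat_lit 4) (nat_lit 2) (nat_lit 4) (nat_lit 399) (nat_lit 308) (nat_lit 193)) (XT.lf (nat_lit 0) (nat_lit 23713347148) (nat_lit 76) (nat_lit 1059034479975) (nat_lit 76) (nat_lit 1036482823307) (nat_lit 1) (nat_lit 4) (nat_lit 2) (nat_lit 5) (nat_lit 2) (nat_lit 4) (nat_lit 400) (nat_lit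 308) (nat_lit 192)))) (XT.nd (nat_lit 156) (nat_lit 0) (nat_lit 0) (XT.nd (nat_lit 78) (nat_lit 0) (nat_lit 0) (XT.lf (nat_lit 0) (nat_lit 70419261677) (nat_lit 76) (nat_lit 1119552514413) (nat_lit 76) (nat_lit 1097000636055) (nat_lit 1) (nat_lit 4) (nat_lit 2) (nat_lit 5) (nat_lit 2) (nat_lit 4) (nat_lit 401) (nat_lit 308) (nat_lit 191)) (XT.lf (nat_lit 0) (nat_lit 120860801353) (nat_lit 76) (nat_lit 1184912415536) (nat_lit 76) (nat_lit 1162360331909) (nat_lit 1) (nat_lit 4) (nat_lit 2) (nat_lit 5) (nat_lit 2) (nat_lit 4) (nat_lit 402) (nat_lit 308) (nat_lit 190))) (XT.nd (nat_lit 78) (nat_lit 0) (nat_lit 0) (XT.lf (nat_lit 0) (nat_lit 175336879006) (nat_lit 76) (nat_lit 1255501501276) (nat_lit 76) (nat_lit 1232949227586) (nat_lit 1) (nat_lit 4) (nat_lit 2) (nat_lit 5) (nat_lit 2) (nat_lit 4) (nat_lit 403) (nat_lit 308) (nat_lit 189)) (XT.nd (nat_lit 78) (nat_lit 0) (nat_lit 0) (XT.lf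 (nat_lit 0) (nat_lit 234170315835) (nat_lit 76) (nat_lit 1331738077328) (nat_lit 76) (nat_lit 1309185627652) (nat_lit 1) (nat_lit 4) (nat_lit 2) (nat_lit 5) (nat_lit 2) (nat_lit 4) (nat_lit 404) (nat_lit 308) (nat_lit 188)) (XT.lf (nat_lit 0) (nat_lit 297709754430) (nat_lit 76) (nat_lit 1414073915992) (nat_lit 76) (nat_lit 1391521303368) (nat_lit 1) (nat_lit 4) (nat_lit 2) (nat_lit 5) (nat_lit 2) (nat_lit 4) (nat_lit 405) (nat_lit 308) (nat_lit 187))))))) (XT.nd (nat_lit 39468) (nat_lit 0) (nat_lit 3496) (XT.nd (nat_lit 312) (nat_lit 0) (nat_lit 0) (XT.nd (nat_lit 156) (nat_lit 0) (nat_lit 0) (XT.nd (nat_lit 78) (nat_lit 0) (nat_lit 0) (XT.lf (nat_lit 0) (nat_lit 366331724798) (nat_lit 76) (nat_lit 1502996933351) (nat_lit 76) (nat_lit 1480444169848) (nat_lit 1) (nat_lit 4) (nat_lit 2) (nat_lit 5) (nat_lit 2) (nat_lit 4) (nat_lit 406) (nat_lit 308) (nat_lit 186)) (XT.lf (nat_lit 0) (nat_lit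 440442875650) (nat_lit 76) (nat_lit 1599034080618) (nat_lit 76) (nat_lit 1576481177413) (nat_lit 1) (nat_lit 4) (nat_lit 2) (nat_lit 5) (nat_lit 2) (nat_lit 4) (nat_lit 407) (nat_lit 308) (nat_lit 185))) (XT.nd (nat_lit 78) (nat_lit 0) (nat_lit 0) (XT.lf (nat_lit 0) (nat_lit 520482384178) (nat_lit 76) (nat_lit 1702754466815) (nat_lit 76) (nat_lit 1680201434255) (nat_lit 1) (nat_lit 4) (nat_lit 2) (nat_lit 5) (nat_lit 2) (nat_lit 4) (nat_lit 408) (nat_lit 308) (nat_lit 184)) (XT.lf (nat_lit 0) (nat_lit 606924558581) (nat_lit 76) (nat_lit 1814772731266) (nat_lit 76) (nat_lit 1792219578934) (nat_lit 1) (nat_lit 4) (nat_lit 2) (nat_lit 5) (nat_lit 2) (nat_lit 4) (nat_lit 409) (nat_lit 308) (nat_lit 183)))) (XT.nd (nat_lit 156) (nat_lit 0) (nat_lit 0) (XT.nd (nat_lit 78) (nat_lit 0) (nat_lit 0) (XT.lf (nat_lit 0) (nat_lit 700281648780) (nat_lit 76) (nat_lit 1935752685909) (nat_lit 76) (nat_lit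 1913199422677) (nat_lit 1) (nat_lit 4) (nat_lit 2) (nat_lit 5) (nat_lit 2) (nat_lit 4) (nat_lit 410) (nat_lit 308) (nat_lit 182)) (XT.lf (nat_lit 0) (nat_lit 801106881977) (nat_lit 76) (nat_lit 2066411248994) (nat_lit 76) (nat_lit 2043857883077) (nat_lit 1) (nat_lit 4) (nat_lit 2) (nat_lit 5) (nat_lit 2) (nat_lit 4) (nat_lit 411) (nat_lit 308) (nat_lit 181))) (XT.nd (nat_lit 38844) (nat_lit 0) (nat_lit 4560) (XT.lf (nat_lit 0) (nat_lit 909997741035) (nat_lit 76) (nat_lit 2207522693488) (nat_lit 76) (nat_lit 2184969232491) (nat_lit 1) (nat_lit 4) (nat_lit 2) (nat_lit 5) (nat_lit 2) (nat_lit 4) (nat_lit 412) (nat_lit 308) (nat_lit 180)) (XT.nd (nat_lit 78) (nat_lit 0) (nat_lit 0) (XT.lf (nat_lit 0) (nat_lit 1745331337) (nat_lit 0) (nat_lit 1745331337) (nat_lit 380) (nat_lit 907914362) (nat_lit 61) (nat_lit 5) (nat_lit 61) (nat_lit 3) (nat_lit 66) (nat_lit 3) (nat_lit 309) (nat_lit 309) (nat_lit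 282)) (XT.lf (nat_lit 0) (nat_lit 7968265049) (nat_lit 0) (nat_lit 181135075) (nat_lit 380) (nat_lit 926731959) (nat_lit 61) (nat_lit 5) (nat_lit 61) (nat_lit 3) (nat_lit 66) (nat_lit 3) (nat_lit 310) (nat_lit 309) (nat_lit 281)))))) (XT.nd (nat_lit 312) (nat_lit 608) (nat_lit 0) (XT.nd (nat_lit 156) (nat_lit 0) (nat_lit 76) (XT.nd (nat_lit 78) (nat_lit 0) (nat_lit 0) (XT.lf (nat_lit 0) (nat_lit 110745408) (nat_lit 456) (nat_lit 5908666617) (nat_lit 532) (nat_lit 3351804576) (nat_lit 55) (nat_lit 5) (nat_lit 61) (nat_lit 5) (nat_lit 62) (nat_lit 5) (nat_lit 311) (nat_lit 309) (nat_lit 280)) (XT.lf (nat_lit 0) (nat_lit 1132046206) (nat_lit 456) (nat_lit 1311554886) (nat_lit 532) (nat_lit 7248464286) (nat_lit 55) (nat_lit 5) (nat_lit 61) (nat_lit 5) (nat_lit 62) (nat_lit 5) (nat_lit 312) (nat_lit 309) (nat_lit 279))) (XT.nd (nat_lit 78) (nat_lit 0) (nat_lit 0) (XT.lf (nat_lit 0) (nat_lit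 2284741798) (nat_lit 456) (nat_lit 6283827381) (nat_lit 532) (nat_lit 1466180771) (nat_lit 56) (nat_lit 5) (nat_lit 62) (nat_lit 5) (nat_lit 63) (nat_lit 5) (nat_lit 313) (nat_lit 309) (nat_lit 278)) (XT.lf (nat_lit 0) (nat_lit 3556479318) (nat_lit 456) (nat_lit 1230650150) (nat_lit 532) (nat_lit 5615706263) (nat_lit 56) (nat_lit 5) (nat_lit 62) (nat_lit 5) (nat_lit 63) (nat_lit 5) (nat_lit 314) (nat_lit 309) (nat_lit 277)))) (XT.nd (nat_lit 156) (nat_lit 684) (nat_lit 0) (XT.nd (nat_lit 78) (nat_lit 0) (nat_lit 76) (XT.lf (nat_lit 76) (nat_lit 4393549979) (nat_lit 0) (nat_lit 574074968) (nat_lit 532) (nat_lit 5829852627) (nat_lit 57) (nat_lit 5) (nat_lit 56) (nat_lit 5) (nat_lit 63) (nat_lit 5) (nat_lit 315) (nat_lit 309) (nat_lit 276)) (XT.lf (nat_lit 0) (nat_lit 6557907302) (nat_lit 456) (nat_lit 837045505) (nat_lit 76) (nat_lit 3823551988) (nat_lit 57) (nat_lit 5) (nat_lit 63) (nat_lit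 5) (nat_lit 58) (nat_lit 5) (nat_lit 316) (nat_lit 309) (nat_lit 275))) (XT.nd (nat_lit 78) (nat_lit 304) (nat_lit 0) (XT.lf (nat_lit 0) (nat_lit 5376232374) (nat_lit 456) (nat_lit 2984222271) (nat_lit 532) (nat_lit 3306061377) (nat_lit 51) (nat_lit 5) (nat_lit 57) (nat_lit 5) (nat_lit 58) (nat_lit 5) (nat_lit 317) (nat_lit 309) (nat_lit 274)) (XT.nd (nat_lit 78) (nat_lit 304) (nat_lit 0) (XT.lf (nat_lit 0) (nat_lit 10317559334) (nat_lit 532) (nat_lit 114077728) (nat_lit 76) (nat_lit 1718000225) (nat_lit 51) (nat_lit 5) (nat_lit 58) (nat_lit 5) (nat_lit 52) (nat_lit 5) (nat_lit 318) (nat_lit 309) (nat_lit 273)) (XT.lf (nat_lit 0) (nat_lit 6764967716) (nat_lit 304) (nat_lit 5854695871) (nat_lit 380) (nat_lit 36760381) (nat_lit 47) (nat_lit 5) (nat_lit 51) (nat_lit 5) (nat_lit 52) (nat_lit 5) (nat_lit 319) (nat_lit 309) (nat_lit 272))))))))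
noncomputable def xc124 : XT := (XT.nd (nat_lit 1326) (nat_lit 912) (nat_lit 0) (XT.nd (nat_lit 624) (nat_lit 836) (nat_lit 0) (XT.nd (nat_lit 312) (nat_lit 456) (nat_lit 0) (XT.nd (nat_lit 156) (nat_lit 228) (nat_lit 0) (XT.nd (nat_lit 78) (nat_lit 0) (nat_lit 0) (XT.lf (nat_lit 0) (nat_lit 945201582) (nat_lit 228) (nat_lit 837236131) (nat_lit 304) (nat_lit 11419700608) (nat_lit 43) (nat_lit 5) (nat_lit 46) (nat_lit 5) (nat_lit 47) (nat_lit 5) (nat_lit 320) (nat_lit 309) (nat_lit 271)) (XT.lf (nat_lit 0) (nat_lit 3972504332) (nat_lit 304) (nat_lit 5286136420) (nat_lit 76) (nat_lit 4514678800) (nat_lit 43) (nat_lit 5) (nat_lit 47) (nat_lit 5) (nat_lit 44) (nat_lit 5) (nat_lit 321) (nat_lit 309) (nat_lit 270))) (XT.nd (nat_lit 78) (nat_lit 0) (nat_lit 0) (XT.lf (nat_lit 0) (nat_lit 2282901178) (nat_lit 228) (nat_lit 4086954753) (nat_lit 304) (nat_lit 8017839283) (nat_lit 40) (nat_lit 5)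 (nat_lit 43) (nat_lit 5) (nat_lit 44) (nat_lit 5) (nat_lit 322) (nat_lit 309) (nat_lit 269)) (XT.lf (nat_lit 0) (nat_lit 9100640684) (nat_lit 304) (nat_lit 4375194265) (nat_lit 76) (nat_lit 1564115774) (nat_lit 40) (nat_lit 5) (nat_lit 44) (nat_lit 5) (nat_lit 41) (nat_lit 5) (nat_lit 323) (nat_lit 309) (nat_lit 268)))) (XT.nd (nat_lit 156) (nat_lit 304) (nat_lit 0) (XT.nd (nat_lit 78) (nat_lit 0) (nat_lit 0) (XT.lf (nat_lit 0) (nat_lit 4017758233) (nat_lit 152) (nat_lit 8195393736) (nat_lit 228) (nat_lit 3518230450) (nat_lit 38) (nat_lit 5) (nat_lit 40) (nat_lit 5) (nat_lit 41) (nat_lit 5) (nat_lit 324) (nat_lit 309) (nat_lit 267)) (XT.lf (nat_lit 0) (nat_lit 13282384885) (nat_lit 152) (nat_lit 2374145579) (nat_lit 228) (nat_lit 815101520) (nat_lit 38) (nat_lit 5) (nat_lit 40) (nat_lit 5) (nat_lit 41) (nat_lit 5) (nat_lit 325) (nat_lit 309) (nat_lit 266))) (XT.nd (nat_lit 78) (nat_lit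 0) (nat_lit 0) (XT.lf (nat_lit 0) (nat_lit 2212003955) (nat_lit 304) (nat_lit 11125763324) (nat_lit 76) (nat_lit 3912291468) (nat_lit 34) (nat_lit 5) (nat_lit 38) (nat_lit 5) (nat_lit 35) (nat_lit 5) (nat_lit 326) (nat_lit 309) (nat_lit 265)) (XT.lf (nat_lit 0) (nat_lit 5553742240) (nat_lit 304) (nat_lit 1852839219) (nat_lit 76) (nat_lit 10673206177) (nat_lit 34) (nat_lit 5) (nat_lit 38) (nat_lit 5) (nat_lit 35) (nat_lit 5) (nat_lit 327) (nat_lit 309) (nat_lit 264))))) (XT.nd (nat_lit 312) (nat_lit 304) (nat_lit 0) (XT.nd (nat_lit 156) (nat_lit 380) (nat_lit 0) (XT.nd (nat_lit 78) (nat_lit 0) (nat_lit 0) (XT.lf (nat_lit 0) (nat_lit 8544682822) (nat_lit 152) (nat_lit 791572067) (nat_lit 228) (nat_lit 9625803812) (nat_lit 32) (nat_lit 5) (nat_lit 34) (nat_lit 5) (nat_lit 35) (nat_lit 5) (nat_lit 328) (nat_lit 309) (nat_lit 263)) (XT.lf (nat_lit 0) (nat_lit 13595080741) (nat_lit 228) (nat_lit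 231307690) (nat_lit 76) (nat_lit 6074661868) (nat_lit 32) (nat_lit 5) (nat_lit 35) (nat_lit 5) (nat_lit 33) (nat_lit 5) (nat_lit 329) (nat_lit 309) (nat_lit 262))) (XT.nd (nat_lit 78) (nat_lit 228) (nat_lit 0) (XT.lf (nat_lit 0) (nat_lit 11270539870) (nat_lit 152) (nat_lit 7186944806) (nat_lit 228) (nat_lit 2436679958) (nat_lit 30) (nat_lit 5) (nat_lit 32) (nat_lit 5) (nat_lit 33) (nat_lit 5) (nat_lit 330) (nat_lit 309) (nat_lit 261)) (XT.lf (nat_lit 0) (nat_lit 1676630614) (nat_lit 228) (nat_lit 20221667107) (nat_lit 76) (nat_lit 63376738) (nat_lit 27) (nat_lit 5) (nat_lit 30) (nat_lit 5) (nat_lit 28) (nat_lit 5) (nat_lit 331) (nat_lit 309) (nat_lit 260)))) (XT.nd (nat_lit 156) (nat_lit 152) (nat_lit 0) (XT.nd (nat_lit 78) (nat_lit 152) (nat_lit 0) (XT.lf (nat_lit 0) (nat_lit 6416392317) (nat_lit 228) (nat_lit 8833868887) (nat_lit 76) (nat_lit 7824964544) (nat_lit 27) (nat_lit 5) (nat_lit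 30) (nat_lit 5) (nat_lit 28) (nat_lit 5) (nat_lit 332) (nat_lit 309) (nat_lit 259)) (XT.lf (nat_lit 0) (nat_lit 3604945172) (nat_lit 152) (nat_lit 7991528598) (nat_lit 228) (nat_lit 12676520646) (nat_lit 25) (nat_lit 5) (nat_lit 27) (nat_lit 5) (nat_lit 28) (nat_lit 5) (nat_lit 333) (nat_lit 309) (nat_lit 258))) (XT.nd (nat_lit 78) (nat_lit 152) (nat_lit 0) (XT.lf (nat_lit 0) (nat_lit 17410144775) (nat_lit 228) (nat_lit 8049581738) (nat_lit 76) (nat_lit 89345995) (nat_lit 25) (nat_lit 5) (nat_lit 28) (nat_lit 5) (nat_lit 26) (nat_lit 4) (nat_lit 334) (nat_lit 309) (nat_lit 257)) (XT.nd (nat_lit 78) (nat_lit 76) (nat_lit 0) (XT.lf (nat_lit 0) (nat_lit 5613685751) (nat_lit 76) (nat_lit 18394688259) (nat_lit 152) (nat_lit 2893326577) (nat_lit 24) (nat_lit 5) (nat_lit 25) (nat_lit 5) (nat_lit 26) (nat_lit 4) (nat_lit 335) (nat_lit 309) (nat_lit 256)) (XT.lf (nat_lit 0) (nat_lit 2836175353)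 (nat_lit 152) (nat_lit 7627699410) (nat_lit 76) (nat_lit 17877115646) (nat_lit 23) (nat_lit 5) (nat_lit 25) (nat_lit 5) (nat_lit 24) (nat_lit 5) (nat_lit 336) (nat_lit 309) (nat_lit 255))))))) (XT.nd (nat_lit 624) (nat_lit 456) (nat_lit 0) (XT.nd (nat_lit 312) (nat_lit 228) (nat_lit 0) (XT.nd (nat_lit 156) (nat_lit 76) (nat_lit 0) (XT.nd (nat_lit 78) (nat_lit 0) (nat_lit 0) (XT.lf (nat_lit 0) (nat_lit 7384324716) (nat_lit 152) (nat_lit 1639795780) (nat_lit 228) (nat_lit 20852795579) (nat_lit 21) (nat_lit 5) (nat_lit 23) (nat_lit 5) (nat_lit 24) (nat_lit 5) (nat_lit 337) (nat_lit 309) (nat_lit 254)) (XT.lf (nat_lit 0) (nat_lit 16090041701) (nat_lit 228) (nat_lit 7718881972) (nat_lit 76) (nat_lit 7696172250) (nat_lit 21) (nat_lit 5) (nat_lit 24) (nat_lit 5) (nat_lit 22) (nat_lit 4) (nat_lit 338) (nat_lit 309) (nat_lit 253))) (XT.nd (nat_lit 78) (nat_lit 0) (nat_lit 0) (XT.lf (nat_lit 0)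 (nat_lit 8590747706) (nat_lit 76) (nat_lit 15360437658) (nat_lit 152) (nat_lit 9293963119) (nat_lit 20) (nat_lit 5) (nat_lit 21) (nat_lit 5) (nat_lit 22) (nat_lit 4) (nat_lit 339) (nat_lit 309) (nat_lit 252)) (XT.lf (nat_lit 0) (nat_lit 26611837756) (nat_lit 76) (nat_lit 6021829088) (nat_lit 152) (nat_lit 2475355871) (nat_lit 20) (nat_lit 5) (nat_lit 21) (nat_lit 5) (nat_lit 22) (nat_lit 4) (nat_lit 340) (nat_lit 309) (nat_lit 251)))) (XT.nd (nat_lit 156) (nat_lit 76) (nat_lit 0) (XT.nd (nat_lit 78) (nat_lit 0) (nat_lit 0) (XT.lf (nat_lit 0) (nat_lit 4955656650) (nat_lit 152) (nat_lit 27934651734) (nat_lit 76) (nat_lit 4197386148) (nat_lit 18) (nat_lit 5) (nat_lit 20) (nat_lit 5) (nat_lit 19) (nat_lit 4) (nat_lit 341) (nat_lit 309) (nat_lit 250)) (XT.lf (nat_lit 0) (nat_lit 13224782864) (nat_lit 152) (nat_lit 10765409066) (nat_lit 76) (nat_lit 15199145726) (nat_lit 18) (nat_lit 5) (nat_lit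 20) (nat_lit 5) (nat_lit 19) (nat_lit 4) (nat_lit 342) (nat_lit 309) (nat_lit 249))) (XT.nd (nat_lit 78) (nat_lit 0) (nat_lit 0) (XT.lf (nat_lit 0) (nat_lit 8156577853) (nat_lit 76) (nat_lit 14178909130) (nat_lit 152) (nat_lit 19109231107) (nat_lit 17) (nat_lit 5) (nat_lit 18) (nat_lit 5) (nat_lit 19) (nat_lit 4) (nat_lit 343) (nat_lit 309) (nat_lit 248)) (XT.lf (nat_lit 0) (nat_lit 29176471485) (nat_lit 76) (nat_lit 3277321574) (nat_lit 152) (nat_lit 11404445213) (nat_lit 17) (nat_lit 5) (nat_lit 18) (nat_lit 5) (nat_lit 19) (nat_lit 4) (nat_lit 344) (nat_lit 309) (nat_lit 247))))) (XT.nd (nat_lit 312) (nat_lit 228) (nat_lit 0) (XT.nd (nat_lit 156) (nat_lit 76) (nat_lit 0) (XT.nd (nat_lit 78) (nat_lit 76) (nat_lit 0) (XT.lf (nat_lit 0) (nat_lit 5454751344) (nat_lit 76) (nat_lit 38247615283) (nat_lit 76) (nat_lit 2736817501) (nat_lit 16) (nat_lit 4) (nat_lit 17) (nat_lit 5) (nat_lit 17)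 (nat_lit 4) (nat_lit 345) (nat_lit 309) (nat_lit 246)) (XT.lf (nat_lit 0) (nat_lit 6775187469) (nat_lit 152) (nat_lit 21439192759) (nat_lit 76) (nat_lit 20960900539) (nat_lit 15) (nat_lit 5) (nat_lit 17) (nat_lit 5) (nat_lit 16) (nat_lit 4) (nat_lit 346) (nat_lit 309) (nat_lit 245))) (XT.nd (nat_lit 78) (nat_lit 76) (nat_lit 0) (XT.lf (nat_lit 0) (nat_lit 16886738035) (nat_lit 152) (nat_lit 426412875) (nat_lit 76) (nat_lit 34812518369) (nat_lit 15) (nat_lit 5) (nat_lit 17) (nat_lit 5) (nat_lit 16) (nat_lit 4) (nat_lit 347) (nat_lit 309) (nat_lit 244)) (XT.lf (nat_lit 0) (nat_lit 23415590229) (nat_lit 76) (nat_lit 4942216468) (nat_lit 152) (nat_lit 26910240751) (nat_lit 14) (nat_lit 5) (nat_lit 15) (nat_lit 5) (nat_lit 16) (nat_lit 4) (nat_lit 348) (nat_lit 309) (nat_lit 243)))) (XT.nd (nat_lit 156) (nat_lit 152) (nat_lit 0) (XT.nd (nat_lit 78) (nat_lit 76) (nat_lit 0) (XT.lf (nat_lit 0)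 (nat_lit 40948571001) (nat_lit 152) (nat_lit 9697729297) (nat_lit 0) (nat_lit 7999360410) (nat_lit 14) (nat_lit 5) (nat_lit 16) (nat_lit 4) (nat_lit 14) (nat_lit 4) (nat_lit 349) (nat_lit 309) (nat_lit 242)) (XT.lf (nat_lit 0) (nat_lit 14820846340) (nat_lit 76) (nat_lit 40199066531) (nat_lit 76) (nat_lit 7235710076) (nat_lit 13) (nat_lit 4) (nat_lit 14) (nat_lit 5) (nat_lit 14) (nat_lit 4) (nat_lit 350) (nat_lit 309) (nat_lit 241))) (XT.nd (nat_lit 78) (nat_lit 76) (nat_lit 0) (XT.lf (nat_lit 0) (nat_lit 4119950757) (nat_lit 152) (nat_lit 24406956900) (nat_lit 76) (nat_lit 37598814777) (nat_lit 12) (nat_lit 5) (nat_lit 14) (nat_lit 5) (nat_lit 13) (nat_lit 4) (nat_lit 351) (nat_lit 309) (nat_lit 240)) (XT.nd (nat_lit 78) (nat_lit 0) (nat_lit 0) (XT.lf (nat_lit 0) (nat_lit 268562803) (nat_lit 76) (nat_lit 15720449253) (nat_lit 152) (nat_lit 54301717625) (nat_lit 11) (nat_lit 5) (nat_lit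 12) (nat_lit 5) (nat_lit 13) (nat_lit 4) (nat_lit 352) (nat_lit 309) (nat_lit 239)) (XT.lf (nat_lit 0) (nat_lit 28286656517) (nat_lit 76) (nat_lit 1177991672) (nat_lit 152) (nat_lit 45271729169) (nat_lit 11) (nat_lit 5) (nat_lit 12) (nat_lit 5) (nat_lit 13) (nat_lit 4) (nat_lit 353) (nat_lit 309) (nat_lit 238))))))))
noncomputable def xc125 : XT := (XT.nd (nat_lit 1326) (nat_lit 228) (nat_lit 0) (XT.nd (nat_lit 624) (nat_lit 228) (nat_lit 0) (XT.nd (nat_lit 312) (nat_lit 76) (nat_lit 0) (XT.nd (nat_lit 156) (nat_lit 76) (nat_lit 0) (XT.nd (nat_lit 78) (nat_lit 76) (nat_lit 0) (XT.lf (nat_lit 0) (nat_lit 44358006966) (nat_lit 152) (nat_lit 21359501395) (nat_lit 0) (nat_lit 13792998309) (nat_lit 11) (nat_lit 5) (nat_lit 13) (nat_lit 4) (nat_lit 11) (nat_lit 4) (nat_lit 354) (nat_lit 309) (nat_lit 237)) (XT.lf (nat_lit 0) (nat_lit 5989721482) (nat_lit 76) (nat_lit 54618759676) (nat_lit 76)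 (nat_lit 24044836725) (nat_lit 10) (nat_lit 4) (nat_lit 11) (nat_lit 5) (nat_lit 11) (nat_lit 4) (nat_lit 355) (nat_lit 309) (nat_lit 236))) (XT.nd (nat_lit 78) (nat_lit 76) (nat_lit 0) (XT.lf (nat_lit 0) (nat_lit 36724805531) (nat_lit 76) (nat_lit 42009453589) (nat_lit 76) (nat_lit 11427276662) (nat_lit 10) (nat_lit 4) (nat_lit 11) (nat_lit 5) (nat_lit 11) (nat_lit 4) (nat_lit 356) (nat_lit 309) (nat_lit 235)) (XT.lf (nat_lit 0) (nat_lit 2081344669) (nat_lit 152) (nat_lit 26260622585) (nat_lit 76) (nat_lit 67764878768) (nat_lit 9) (nat_lit 5) (nat_lit 11) (nat_lit 5) (nat_lit 10) (nat_lit 4) (nat_lit 357) (nat_lit 309) (nat_lit 234)))) (XT.nd (nat_lit 156) (nat_lit 0) (nat_lit 0) (XT.nd (nat_lit 78) (nat_lit 0) (nat_lit 0) (XT.lf (nat_lit 0) (nat_lit 2924223150) (nat_lit 76) (nat_lit 13191699494) (nat_lit 152) (nat_lit 86383104934) (nat_lit 8) (nat_lit 5) (nat_lit 9) (nat_lit 5) (nat_lit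 10) (nat_lit 4) (nat_lit 358) (nat_lit 309) (nat_lit 233)) (XT.lf (nat_lit 0) (nat_lit 32078544830) (nat_lit 152) (nat_lit 73517600137) (nat_lit 0) (nat_lit 3742018698) (nat_lit 8) (nat_lit 5) (nat_lit 10) (nat_lit 4) (nat_lit 8) (nat_lit 4) (nat_lit 359) (nat_lit 309) (nat_lit 232))) (XT.nd (nat_lit 78) (nat_lit 0) (nat_lit 0) (XT.lf (nat_lit 0) (nat_lit 49653747589) (nat_lit 152) (nat_lit 45732235522) (nat_lit 0) (nat_lit 21311603940) (nat_lit 8) (nat_lit 5) (nat_lit 10) (nat_lit 4) (nat_lit 8) (nat_lit 4) (nat_lit 360) (nat_lit 309) (nat_lit 231)) (XT.lf (nat_lit 0) (nat_lit 68628419581) (nat_lit 152) (nat_lit 15736795883) (nat_lit 0) (nat_lit 40281074527) (nat_lit 8) (nat_lit 5) (nat_lit 10) (nat_lit 4) (nat_lit 8) (nat_lit 4) (nat_lit 361) (nat_lit 309) (nat_lit 230))))) (XT.nd (nat_lit 312) (nat_lit 76) (nat_lit 0) (XT.nd (nat_lit 156) (nat_lit 76) (nat_lit 0) (XT.nd (nat_lit 78)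 (nat_lit 0) (nat_lit 0) (XT.lf (nat_lit 0) (nat_lit 17523043119) (nat_lit 76) (nat_lit 72013389796) (nat_lit 76) (nat_lit 43661228626) (nat_lit 7) (nat_lit 4) (nat_lit 8) (nat_lit 5) (nat_lit 8) (nat_lit 4) (nat_lit 362) (nat_lit 309) (nat_lit 229)) (XT.lf (nat_lit 0) (nat_lit 54327124347) (nat_lit 76) (nat_lit 58214345043) (nat_lit 76) (nat_lit 29857724507) (nat_lit 7) (nat_lit 4) (nat_lit 8) (nat_lit 5) (nat_lit 8) (nat_lit 4) (nat_lit 363) (nat_lit 309) (nat_lit 228))) (XT.nd (nat_lit 78) (nat_lit 76) (nat_lit 0) (XT.lf (nat_lit 0) (nat_lit 94064874276) (nat_lit 76) (nat_lit 43316580977) (nat_lit 76) (nat_lit 14955831398) (nat_lit 7) (nat_lit 4) (nat_lit 8) (nat_lit 5) (nat_lit 8) (nat_lit 4) (nat_lit 364) (nat_lit 309) (nat_lit 227)) (XT.lf (nat_lit 0) (nat_lit 1076093061) (nat_lit 152) (nat_lit 26126299198) (nat_lit 76) (nat_lit 135866260516) (nat_lit 6) (nat_lit 5) (nat_lit 8) (nat_lit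 5) (nat_lit 7) (nat_lit 4) (nat_lit 365) (nat_lit 309) (nat_lit 226)))) (XT.nd (nat_lit 156) (nat_lit 0) (nat_lit 0) (XT.nd (nat_lit 78) (nat_lit 0) (nat_lit 0) (XT.lf (nat_lit 0) (nat_lit 8625111677) (nat_lit 76) (nat_lit 9160092376) (nat_lit 152) (nat_lit 156826037421) (nat_lit 5) (nat_lit 5) (nat_lit 6) (nat_lit 5) (nat_lit 7) (nat_lit 4) (nat_lit 366) (nat_lit 309) (nat_lit 225)) (XT.lf (nat_lit 0) (nat_lit 36807497312) (nat_lit 152) (nat_lit 139653933536) (nat_lit 0) (nat_lit 10537691273) (nat_lit 5) (nat_lit 5) (nat_lit 7) (nat_lit 4) (nat_lit 5) (nat_lit 4) (nat_lit 367) (nat_lit 309) (nat_lit 224))) (XT.nd (nat_lit 78) (nat_lit 0) (nat_lit 0) (XT.lf (nat_lit 0) (nat_lit 57585080986) (nat_lit 152) (nat_lit 111461807926) (nat_lit 0) (nat_lit 31312464790) (nat_lit 5) (nat_lit 5) (nat_lit 7) (nat_lit 4) (nat_lit 5) (nat_lit 4) (nat_lit 368) (nat_lit 309) (nat_lit 223)) (XT.nd (nat_lit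 78) (nat_lit 0) (nat_lit 0) (XT.lf (nat_lit 0) (nat_lit 80020781055) (nat_lit 152) (nat_lit 81022388079) (nat_lit 0) (nat_lit 53745562861) (nat_lit 5) (nat_lit 5) (nat_lit 7) (nat_lit 4) (nat_lit 5) (nat_lit 4) (nat_lit 369) (nat_lit 309) (nat_lit 222)) (XT.lf (nat_lit 0) (nat_lit 104247549816) (nat_lit 152) (nat_lit 48155292249) (nat_lit 0) (nat_lit 77969922365) (nat_lit 5) (nat_lit 5) (nat_lit 7) (nat_lit 4) (nat_lit 5) (nat_lit 4) (nat_lit 370) (nat_lit 309) (nat_lit 221))))))) (XT.nd (nat_lit 702) (nat_lit 76) (nat_lit 0) (XT.nd (nat_lit 312) (nat_lit 76) (nat_lit 0) (XT.nd (nat_lit 156) (nat_lit 0) (nat_lit 0) (XT.nd (nat_lit 78) (nat_lit 76) (nat_lit 0) (XT.lf (nat_lit 0) (nat_lit 130408953305) (nat_lit 152) (nat_lit 12665752458) (nat_lit 0) (nat_lit 104129095061) (nat_lit 5) (nat_lit 5) (nat_lit 7) (nat_lit 4) (nat_lit 5) (nat_lit 4) (nat_lit 371) (nat_lit 309) (nat_lit 220)) (XT.lf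 (nat_lit 0) (nat_lit 27007567587) (nat_lit 76) (nat_lit 132301987125) (nat_lit 76) (nat_lit 106020063331) (nat_lit 4) (nat_lit 4) (nat_lit 5) (nat_lit 5) (nat_lit 5) (nat_lit 4) (nat_lit 372) (nat_lit 309) (nat_lit 219))) (XT.nd (nat_lit 78) (nat_lit 0) (nat_lit 0) (XT.lf (nat_lit 0) (nat_lit 70568817261) (nat_lit 76) (nat_lit 120296534318) (nat_lit 76) (nat_lit 94012697979) (nat_lit 4) (nat_lit 4) (nat_lit 5) (nat_lit 5) (nat_lit 5) (nat_lit 4) (nat_lit 373) (nat_lit 309) (nat_lit 218)) (XT.lf (nat_lit 0) (nat_lit 117609181225) (nat_lit 76) (nat_lit 107333508038) (nat_lit 76) (nat_lit 81047900823) (nat_lit 4) (nat_lit 4) (nat_lit 5) (nat_lit 5) (nat_lit 5) (nat_lit 4) (nat_lit 374) (nat_lit 309) (nat_lit 217)))) (XT.nd (nat_lit 156) (nat_lit 76) (nat_lit 0) (XT.nd (nat_lit 78) (nat_lit 0) (nat_lit 0) (XT.lf (nat_lit 0) (nat_lit 168407417189) (nat_lit 76) (nat_lit 93336090349) (nat_lit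 76) (nat_lit 67048843435) (nat_lit 4) (nat_lit 4) (nat_lit 5) (nat_lit 5) (nat_lit 5) (nat_lit 4) (nat_lit 375) (nat_lit 309) (nat_lit 216)) (XT.lf (nat_lit 0) (nat_lit 223264551739) (nat_lit 76) (nat_lit 78221333593) (nat_lit 76) (nat_lit 51932568438) (nat_lit 4) (nat_lit 4) (nat_lit 5) (nat_lit 5) (nat_lit 5) (nat_lit 4) (nat_lit 376) (nat_lit 309) (nat_lit 215))) (XT.nd (nat_lit 78) (nat_lit 76) (nat_lit 0) (XT.lf (nat_lit 0) (nat_lit 282505664188) (nat_lit 76) (nat_lit 61899668841) (nat_lit 76) (nat_lit 35609497907) (nat_lit 4) (nat_lit 4) (nat_lit 5) (nat_lit 5) (nat_lit 5) (nat_lit 4) (nat_lit 377) (nat_lit 309) (nat_lit 214)) (XT.nd (nat_lit 78) (nat_lit 76) (nat_lit 0) (XT.lf (nat_lit 0) (nat_lit 346481812983) (nat_lit 76) (nat_lit 44274375115) (nat_lit 76) (nat_lit 17982902535) (nat_lit 4) (nat_lit 4) (nat_lit 5) (nat_lit 5) (nat_lit 5) (nat_lit 4) (nat_lit 378) (nat_lit 309)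 (nat_lit 213)) (XT.lf (nat_lit 0) (nat_lit 999062705) (nat_lit 152) (nat_lit 24214627381) (nat_lit 76) (nat_lit 414545737190) (nat_lit 3) (nat_lit 5) (nat_lit 5) (nat_lit 5) (nat_lit 4) (nat_lit 4) (nat_lit 379) (nat_lit 309) (nat_lit 212)))))) (XT.nd (nat_lit 312) (nat_lit 0) (nat_lit 0) (XT.nd (nat_lit 156) (nat_lit 0) (nat_lit 0) (XT.nd (nat_lit 78) (nat_lit 0) (nat_lit 0) (XT.lf (nat_lit 0) (nat_lit 17264227219) (nat_lit 76) (nat_lit 3677129020) (nat_lit 152) (nat_lit 452249602731) (nat_lit 2) (nat_lit 5) (nat_lit 3) (nat_lit 5) (nat_lit 4) (nat_lit 4) (nat_lit 380) (nat_lit 309) (nat_lit 211)) (XT.lf (nat_lit 0) (nat_lit 43627375304) (nat_lit 152) (nat_lit 446297457665) (nat_lit 0) (nat_lit 19280313222) (nat_lit 2) (nat_lit 5) (nat_lit 4) (nat_lit 4) (nat_lit 2) (nat_lit 4) (nat_lit 381) (nat_lit 309) (nat_lit 210))) (XT.nd (nat_lit 78) (nat_lit 0) (nat_lit 0) (XT.lf (nat_lit 0) (nat_lit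 68222043536) (nat_lit 152) (nat_lit 435996828194) (nat_lit 0) (nat_lit 43874095575) (nat_lit 2) (nat_lit 5) (nat_lit 4) (nat_lit 4) (nat_lit 2) (nat_lit 4) (nat_lit 382) (nat_lit 309) (nat_lit 209)) (XT.lf (nat_lit 0) (nat_lit 94782672076) (nat_lit 152) (nat_lit 424875367530) (nat_lit 0) (nat_lit 70433903857) (nat_lit 2) (nat_lit 5) (nat_lit 4) (nat_lit 4) (nat_lit 2) (nat_lit 4) (nat_lit 383) (nat_lit 309) (nat_lit 208)))) (XT.nd (nat_lit 156) (nat_lit 0) (nat_lit 0) (XT.nd (nat_lit 78) (nat_lit 0) (nat_lit 0) (XT.lf (nat_lit 0) (nat_lit 123466657242) (nat_lit 152) (nat_lit 412867170721) (nat_lit 0) (nat_lit 99117129525) (nat_lit 2) (nat_lit 5) (nat_lit 4) (nat_lit 4) (nat_lit 2) (nat_lit 4) (nat_lit 384) (nat_lit 309) (nat_lit 207)) (XT.lf (nat_lit 0) (nat_lit 154443978206) (nat_lit 152) (nat_lit 399901078081) (nat_lit 0) (nat_lit 130093747249) (nat_lit 2) (nat_lit 5) (nat_lit 4) (nat_lit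 4) (nat_lit 2) (nat_lit 4) (nat_lit 385) (nat_lit 309) (nat_lit 206))) (XT.nd (nat_lit 78) (nat_lit 0) (nat_lit 0) (XT.lf (nat_lit 0) (nat_lit 187898204275) (nat_lit 152) (nat_lit 385900253508) (nat_lit 0) (nat_lit 163547322171) (nat_lit 2) (nat_lit 5) (nat_lit 4) (nat_lit 4) (nat_lit 2) (nat_lit 4) (nat_lit 386) (nat_lit 309) (nat_lit 205)) (XT.nd (nat_lit 78) (nat_lit 0) (nat_lit 0) (XT.lf (nat_lit 0) (nat_lit 224027582717) (nat_lit 152) (nat_lit 370781729150) (nat_lit 0) (nat_lit 199676097699) (nat_lit 2) (nat_lit 5) (nat_lit 4) (nat_lit 4) (nat_lit 2) (nat_lit 4) (nat_lit 387) (nat_lit 309) (nat_lit 204)) (XT.lf (nat_lit 0) (nat_lit 263046213551) (nat_lit 152) (nat_lit 354455913753) (nat_lit 0) (nat_lit 238694170279) (nat_lit 2) (nat_lit 5) (nat_lit 4) (nat_lit 4) (nat_lit 2) (nat_lit 4) (nat_lit 388) (nat_lit 309) (nat_lit 203))))))))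
noncomputable def xc126 : XT := (XT.nd (nat_lit 1326) (nat_lit 0) (nat_lit 0) (XT.nd (nat_lit 624) (nat_lit 76) (nat_lit 0) (XT.nd (nat_lit 312) (nat_lit 0) (nat_lit 0) (XT.nd (nat_lit 156) (nat_lit 0) (nat_lit 0) (XT.nd (nat_lit 78) (nat_lit 0) (nat_lit 0) (XT.lf (nat_lit 0) (nat_lit 305185318294) (nat_lit 152) (nat_lit 336826061744) (nat_lit 0) (nat_lit 280832758121) (nat_lit 2) (nat_lit 5) (nat_lit 4) (nat_lit 4) (nat_lit 2) (nat_lit 4) (nat_lit 389) (nat_lit 309) (nat_lit 202)) (XT.lf (nat_lit 0) (nat_lit 350694610159) (nat_lit 152) (nat_lit 317787699926) (nat_lit 0) (nat_lit 326341571373) (nat_lit 2) (nat_lit 5) (nat_lit 4) (nat_lit 4) (nat_lit 2) (nat_lit 4) (nat_lit 390) (nat_lit 309) (nat_lit 201))) (XT.nd (nat_lit 78) (nat_lit 0) (nat_lit 0) (XT.lf (nat_lit 0) (nat_lit 399843773838) (nat_lit 152) (nat_lit 297228008377) (nat_lit 0) (nat_lit 375490291892) (nat_lit 2) (nat_lit 5)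 (nat_lit 4) (nat_lit 4) (nat_lit 2) (nat_lit 4) (nat_lit 391) (nat_lit 309) (nat_lit 200)) (XT.lf (nat_lit 0) (nat_lit 452924063635) (nat_lit 152) (nat_lit 275025151887) (nat_lit 0) (nat_lit 428570171355) (nat_lit 2) (nat_lit 5) (nat_lit 4) (nat_lit 4) (nat_lit 2) (nat_lit 4) (nat_lit 392) (nat_lit 309) (nat_lit 199)))) (XT.nd (nat_lit 156) (nat_lit 0) (nat_lit 0) (XT.nd (nat_lit 78) (nat_lit 0) (nat_lit 0) (XT.lf (nat_lit 0) (nat_lit 510250029415) (nat_lit 152) (nat_lit 251047557975) (nat_lit 0) (nat_lit 485895757197) (nat_lit 2) (nat_lit 5) (nat_lit 4) (nat_lit 4) (nat_lit 2) (nat_lit 4) (nat_lit 393) (nat_lit 309) (nat_lit 198)) (XT.lf (nat_lit 0) (nat_lit 572161380604) (nat_lit 152) (nat_lit 225153137194) (nat_lit 0) (nat_lit 547806756592) (nat_lit 2) (nat_lit 5) (nat_lit 4) (nat_lit 4) (nat_lit 2) (nat_lit 4) (nat_lit 394) (nat_lit 309) (nat_lit 197))) (XT.nd (nat_lit 78) (nat_lit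 0) (nat_lit 0) (XT.lf (nat_lit 0) (nat_lit 639024999285) (nat_lit 152) (nat_lit 197188441125) (nat_lit 0) (nat_lit 614670049537) (nat_lit 2) (nat_lit 5) (nat_lit 4) (nat_lit 4) (nat_lit 2) (nat_lit 4) (nat_lit 395) (nat_lit 309) (nat_lit 196)) (XT.lf (nat_lit 0) (nat_lit 711237114309) (nat_lit 152) (nat_lit 166987753051) (nat_lit 0) (nat_lit 686881862953) (nat_lit 2) (nat_lit 5) (nat_lit 4) (nat_lit 4) (nat_lit 2) (nat_lit 4) (nat_lit 396) (nat_lit 309) (nat_lit 195))))) (XT.nd (nat_lit 312) (nat_lit 76) (nat_lit 0) (XT.nd (nat_lit 156) (nat_lit 0) (nat_lit 0) (XT.nd (nat_lit 78) (nat_lit 0) (nat_lit 0) (XT.lf (nat_lit 0) (nat_lit 789225649319) (nat_lit 152) (nat_lit 134372105931) (nat_lit 0) (nat_lit 764870118698) (nat_lit 2) (nat_lit 5) (nat_lit 4) (nat_lit 4) (nat_lit 2) (nat_lit 4) (nat_lit 397) (nat_lit 309) (nat_lit 194)) (XT.lf (nat_lit 0) (nat_lit 873452758598) (nat_lit 152) (nat_lit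 99148221856) (nat_lit 0) (nat_lit 849096969398) (nat_lit 2) (nat_lit 5) (nat_lit 4) (nat_lit 4) (nat_lit 2) (nat_lit 4) (nat_lit 398) (nat_lit 309) (nat_lit 193))) (XT.nd (nat_lit 78) (nat_lit 0) (nat_lit 0) (XT.lf (nat_lit 0) (nat_lit 964417565757) (nat_lit 152) (nat_lit 61107366699) (nat_lit 0) (nat_lit 940061537130) (nat_lit 2) (nat_lit 5) (nat_lit 4) (nat_lit 4) (nat_lit 2) (nat_lit 4) (nat_lit 399) (nat_lit 309) (nat_lit 192)) (XT.lf (nat_lit 0) (nat_lit 1062659121503) (nat_lit 152) (nat_lit 20024113169) (nat_lit 0) (nat_lit 1038302871187) (nat_lit 2) (nat_lit 5) (nat_lit 4) (nat_lit 4) (nat_lit 2) (nat_lit 4) (nat_lit 400) (nat_lit 309) (nat_lit 191)))) (XT.nd (nat_lit 156) (nat_lit 0) (nat_lit 0) (XT.nd (nat_lit 78) (nat_lit 0) (nat_lit 0) (XT.lf (nat_lit 0) (nat_lit 25626959345) (nat_lit 76) (nat_lit 1143748967663) (nat_lit 76) (nat_lit 1119392512078) (nat_lit 1) (nat_lit 4) (nat_lit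 2) (nat_lit 5) (nat_lit 2) (nat_lit 4) (nat_lit 401) (nat_lit 309) (nat_lit 190)) (XT.lf (nat_lit 0) (nat_lit 76068121523) (nat_lit 76) (nat_lit 1209109057502) (nat_lit 76) (nat_lit 1184752411853) (nat_lit 1) (nat_lit 4) (nat_lit 2) (nat_lit 5) (nat_lit 2) (nat_lit 4) (nat_lit 402) (nat_lit 309) (nat_lit 189))) (XT.nd (nat_lit 78) (nat_lit 0) (nat_lit 0) (XT.lf (nat_lit 0) (nat_lit 130543849639) (nat_lit 76) (nat_lit 1279698317979) (nat_lit 76) (nat_lit 1255341496344) (nat_lit 1) (nat_lit 4) (nat_lit 2) (nat_lit 5) (nat_lit 2) (nat_lit 4) (nat_lit 403) (nat_lit 309) (nat_lit 188)) (XT.nd (nat_lit 78) (nat_lit 0) (nat_lit 0) (XT.lf (nat_lit 0) (nat_lit 189376962824) (nat_lit 76) (nat_lit 1355935055823) (nat_lit 76) (nat_lit 1331578071240) (nat_lit 1) (nat_lit 4) (nat_lit 2) (nat_lit 5) (nat_lit 2) (nat_lit 4) (nat_lit 404) (nat_lit 309) (nat_lit 187)) (XT.lf (nat_lit 0) (nat_lit 252916101748)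 (nat_lit 76) (nat_lit 1438271044296) (nat_lit 76) (nat_lit 1413913908834) (nat_lit 1) (nat_lit 4) (nat_lit 2) (nat_lit 5) (nat_lit 2) (nat_lit 4) (nat_lit 405) (nat_lit 309) (nat_lit 186))))))) (XT.nd (nat_lit 39468) (nat_lit 0) (nat_lit 3496) (XT.nd (nat_lit 312) (nat_lit 0) (nat_lit 0) (XT.nd (nat_lit 156) (nat_lit 0) (nat_lit 0) (XT.nd (nat_lit 78) (nat_lit 0) (nat_lit 0) (XT.lf (nat_lit 0) (nat_lit 321537794642) (nat_lit 76) (nat_lit 1527194200366) (nat_lit 76) (nat_lit 1502836925202) (nat_lit 1) (nat_lit 4) (nat_lit 2) (nat_lit 5) (nat_lit 2) (nat_lit 4) (nat_lit 406) (nat_lit 309) (nat_lit 185)) (XT.lf (nat_lit 0) (nat_lit 395648688576) (nat_lit 76) (nat_lit 1623231476069) (nat_lit 76) (nat_lit 1598874071551) (nat_lit 1) (nat_lit 4) (nat_lit 2) (nat_lit 5) (nat_lit 2) (nat_lit 4) (nat_lit 407) (nat_lit 309) (nat_lit 184))) (XT.nd (nat_lit 78) (nat_lit 0) (nat_lit 0) (XT.lf (nat_lit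 0) (nat_lit 475687959215) (nat_lit 76) (nat_lit 1726951981188) (nat_lit 76) (nat_lit 1702594456898) (nat_lit 1) (nat_lit 4) (nat_lit 2) (nat_lit 5) (nat_lit 2) (nat_lit 4) (nat_lit 408) (nat_lit 309) (nat_lit 183)) (XT.lf (nat_lit 0) (nat_lit 562129913351) (nat_lit 76) (nat_lit 1838970355753) (nat_lit 76) (nat_lit 1814612720562) (nat_lit 1) (nat_lit 4) (nat_lit 2) (nat_lit 5) (nat_lit 2) (nat_lit 4) (nat_lit 409) (nat_lit 309) (nat_lit 182)))) (XT.nd (nat_lit 156) (nat_lit 0) (nat_lit 0) (XT.nd (nat_lit 78) (nat_lit 0) (nat_lit 0) (XT.lf (nat_lit 0) (nat_lit 655486799599) (nat_lit 76) (nat_lit 1959950412353) (nat_lit 76) (nat_lit 1935592674477) (nat_lit 1) (nat_lit 4) (nat_lit 2) (nat_lit 5) (nat_lit 2) (nat_lit 4) (nat_lit 410) (nat_lit 309) (nat_lit 181)) (XT.lf (nat_lit 0) (nat_lit 756311843952) (nat_lit 76) (nat_lit 2090609069843) (nat_lit 76) (nat_lit 2066251236887) (nat_lit 1) (nat_lit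 4) (nat_lit 2) (nat_lit 5) (nat_lit 2) (nat_lit 4) (nat_lit 411) (nat_lit 309) (nat_lit 180))) (XT.nd (nat_lit 38922) (nat_lit 0) (nat_lit 4560) (XT.lf (nat_lit 0) (nat_lit 865202528156) (nat_lit 76) (nat_lit 2231720601748) (nat_lit 76) (nat_lit 2207362680756) (nat_lit 1) (nat_lit 4) (nat_lit 2) (nat_lit 5) (nat_lit 2) (nat_lit 4) (nat_lit 412) (nat_lit 309) (nat_lit 179)) (XT.lf (nat_lit 0) (nat_lit 2318680632) (nat_lit 0) (nat_lit 2318680632) (nat_lit 380) (nat_lit 41947225) (nat_lit 61) (nat_lit 5) (nat_lit 61) (nat_lit 3) (nat_lit 66) (nat_lit 3) (nat_lit 310) (nat_lit 310) (nat_lit 280))))) (XT.nd (nat_lit 312) (nat_lit 532) (nat_lit 0) (XT.nd (nat_lit 156) (nat_lit 0) (nat_lit 76) (XT.nd (nat_lit 78) (nat_lit 0) (nat_lit 76) (XT.lf (nat_lit 0) (nat_lit 700396521) (nat_lit 532) (nat_lit 279269625) (nat_lit 532) (nat_lit 8689369997) (nat_lit 54) (nat_lit 3) (nat_lit 61) (nat_lit 3)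 (nat_lit 61) (nat_lit 5) (nat_lit 311) (nat_lit 310) (nat_lit 279)) (XT.lf (nat_lit 0) (nat_lit 1653093306) (nat_lit 456) (nat_lit 5367700154) (nat_lit 532) (nat_lit 2974648605) (nat_lit 55) (nat_lit 5) (nat_lit 61) (nat_lit 5) (nat_lit 62) (nat_lit 5) (nat_lit 312) (nat_lit 310) (nat_lit 278))) (XT.nd (nat_lit 78) (nat_lit 0) (nat_lit 76) (XT.lf (nat_lit 0) (nat_lit 2642506444) (nat_lit 456) (nat_lit 477905395) (nat_lit 532) (nat_lit 7230841117) (nat_lit 55) (nat_lit 5) (nat_lit 61) (nat_lit 5) (nat_lit 62) (nat_lit 5) (nat_lit 313) (nat_lit 310) (nat_lit 277)) (XT.lf (nat_lit 0) (nat_lit 3794094533) (nat_lit 456) (nat_lit 5752242159) (nat_lit 532) (nat_lit 1182673003) (nat_lit 56) (nat_lit 5) (nat_lit 62) (nat_lit 5) (nat_lit 63) (nat_lit 5) (nat_lit 314) (nat_lit 310) (nat_lit 276)))) (XT.nd (nat_lit 156) (nat_lit 684) (nat_lit 0) (XT.nd (nat_lit 78) (nat_lit 0) (nat_lit 0) (XT.lf (nat_lit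 0) (nat_lit 5069306360) (nat_lit 456) (nat_lit 371424928) (nat_lit 532) (nat_lit 5693849588) (nat_lit 56) (nat_lit 5) (nat_lit 62) (nat_lit 5) (nat_lit 63) (nat_lit 5) (nat_lit 315) (nat_lit 310) (nat_lit 275)) (XT.lf (nat_lit 76) (nat_lit 5678466218) (nat_lit 0) (nat_lit 846340659) (nat_lit 532) (nat_lit 5041634354) (nat_lit 57) (nat_lit 5) (nat_lit 56) (nat_lit 5) (nat_lit 63) (nat_lit 5) (nat_lit 316) (nat_lit 310) (nat_lit 274))) (XT.nd (nat_lit 78) (nat_lit 304) (nat_lit 0) (XT.lf (nat_lit 0) (nat_lit 55927718) (nat_lit 456) (nat_lit 8096779878) (nat_lit 532) (nat_lit 3875763430) (nat_lit 51) (nat_lit 5) (nat_lit 57) (nat_lit 5) (nat_lit 58) (nat_lit 5) (nat_lit 317) (nat_lit 310) (nat_lit 273)) (XT.nd (nat_lit 78) (nat_lit 304) (nat_lit 0) (XT.lf (nat_lit 0) (nat_lit 6739238727) (nat_lit 456) (nat_lit 3302139343) (nat_lit 532) (nat_lit 2475732329) (nat_lit 51) (nat_lit 5) (nat_lit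 57) (nat_lit 5) (nat_lit 58) (nat_lit 5) (nat_lit 318) (nat_lit 310) (nat_lit 272)) (XT.lf (nat_lit 0) (nat_lit 862086804) (nat_lit 304) (nat_lit 11236964920) (nat_lit 380) (nat_lit 944439961) (nat_lit 47) (nat_lit 5) (nat_lit 51) (nat_lit 5) (nat_lit 52) (nat_lit 5) (nat_lit 319) (nat_lit 310) (nat_lit 271))))))))
noncomputable def xc127 : XT := (XT.nd (nat_lit 1326) (nat_lit 988) (nat_lit 0) (XT.nd (nat_lit 624) (nat_lit 760) (nat_lit 0) (XT.nd (nat_lit 312) (nat_lit 456) (nat_lit 0) (XT.nd (nat_lit 156) (nat_lit 228) (nat_lit 0) (XT.nd (nat_lit 78) (nat_lit 228) (nat_lit 0) (XT.lf (nat_lit 0) (nat_lit 874941513) (nat_lit 380) (nat_lit 5394048574) (nat_lit 76) (nat_lit 7325614550) (nat_lit 46) (nat_lit 5) (nat_lit 51) (nat_lit 5) (nat_lit 47) (nat_lit 5) (nat_lit 320) (nat_lit 310) (nat_lit 270)) (XT.lf (nat_lit 0) (nat_lit 1964086582) (nat_lit 228) (nat_lit 828684297) (nat_lit 304)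 (nat_lit 11394825847) (nat_lit 43) (nat_lit 5) (nat_lit 46) (nat_lit 5) (nat_lit 47) (nat_lit 5) (nat_lit 321) (nat_lit 310) (nat_lit 269))) (XT.nd (nat_lit 78) (nat_lit 228) (nat_lit 0) (XT.lf (nat_lit 0) (nat_lit 5095447887) (nat_lit 304) (nat_lit 4771837501) (nat_lit 76) (nat_lit 4942290486) (nat_lit 43) (nat_lit 5) (nat_lit 47) (nat_lit 5) (nat_lit 44) (nat_lit 5) (nat_lit 322) (nat_lit 310) (nat_lit 268)) (XT.lf (nat_lit 0) (nat_lit 3378996780) (nat_lit 228) (nat_lit 4267919416) (nat_lit 304) (nat_lit 7829287832) (nat_lit 40) (nat_lit 5) (nat_lit 43) (nat_lit 5) (nat_lit 44) (nat_lit 5) (nat_lit 323) (nat_lit 310) (nat_lit 267)))) (XT.nd (nat_lit 156) (nat_lit 304) (nat_lit 0) (XT.nd (nat_lit 78) (nat_lit 152) (nat_lit 0) (XT.lf (nat_lit 0) (nat_lit 10542564989) (nat_lit 304) (nat_lit 3824784614) (nat_lit 76) (nat_lit 1817660426) (nat_lit 40) (nat_lit 5) (nat_lit 44) (nat_lit 5) (nat_lit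 41) (nat_lit 5) (nat_lit 324) (nat_lit 310) (nat_lit 266)) (XT.lf (nat_lit 0) (nat_lit 5216808509) (nat_lit 152) (nat_lit 8655496196) (nat_lit 228) (nat_lit 3062069421) (nat_lit 38) (nat_lit 5) (nat_lit 40) (nat_lit 5) (nat_lit 41) (nat_lit 5) (nat_lit 325) (nat_lit 310) (nat_lit 265))) (XT.nd (nat_lit 78) (nat_lit 304) (nat_lit 0) (XT.lf (nat_lit 0) (nat_lit 15157595692) (nat_lit 152) (nat_lit 2383031819) (nat_lit 228) (nat_lit 197328655) (nat_lit 38) (nat_lit 5) (nat_lit 40) (nat_lit 5) (nat_lit 41) (nat_lit 5) (nat_lit 326) (nat_lit 310) (nat_lit 264)) (XT.lf (nat_lit 0) (nat_lit 3014530847) (nat_lit 304) (nat_lit 11144219962) (nat_lit 76) (nat_lit 4420512503) (nat_lit 34) (nat_lit 5) (nat_lit 38) (nat_lit 5) (nat_lit 35) (nat_lit 5) (nat_lit 327) (nat_lit 310) (nat_lit 263))))) (XT.nd (nat_lit 312) (nat_lit 456) (nat_lit 0) (XT.nd (nat_lit 156) (nat_lit 152) (nat_lit 0) (XT.nd (nat_lit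 78) (nat_lit 152) (nat_lit 0) (XT.lf (nat_lit 0) (nat_lit 6577269930) (nat_lit 304) (nat_lit 1194025219) (nat_lit 76) (nat_lit 11707838336) (nat_lit 34) (nat_lit 5) (nat_lit 38) (nat_lit 5) (nat_lit 35) (nat_lit 5) (nat_lit 328) (nat_lit 310) (nat_lit 262)) (XT.lf (nat_lit 0) (nat_lit 10014867164) (nat_lit 152) (nat_lit 623528609) (nat_lit 228) (nat_lit 9795561259) (nat_lit 32) (nat_lit 5) (nat_lit 34) (nat_lit 5) (nat_lit 35) (nat_lit 5) (nat_lit 329) (nat_lit 310) (nat_lit 261))) (XT.nd (nat_lit 78) (nat_lit 0) (nat_lit 0) (XT.lf (nat_lit 0) (nat_lit 542230448) (nat_lit 152) (nat_lit 14672761230) (nat_lit 228) (nat_lit 6234959097) (nat_lit 30) (nat_lit 5) (nat_lit 32) (nat_lit 5) (nat_lit 33) (nat_lit 5) (nat_lit 330) (nat_lit 310) (nat_lit 260)) (XT.lf (nat_lit 0) (nat_lit 12917736233) (nat_lit 152) (nat_lit 7515077624) (nat_lit 228) (nat_lit 2092430708) (nat_lit 30) (nat_lit 5) (nat_lit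 32) (nat_lit 5) (nat_lit 33) (nat_lit 5) (nat_lit 331) (nat_lit 310) (nat_lit 259)))) (XT.nd (nat_lit 156) (nat_lit 228) (nat_lit 0) (XT.nd (nat_lit 78) (nat_lit 0) (nat_lit 0) (XT.lf (nat_lit 0) (nat_lit 2309430824) (nat_lit 228) (nat_lit 21052344049) (nat_lit 76) (nat_lit 316464305) (nat_lit 27) (nat_lit 5) (nat_lit 30) (nat_lit 5) (nat_lit 28) (nat_lit 5) (nat_lit 332) (nat_lit 310) (nat_lit 258)) (XT.lf (nat_lit 0) (nat_lit 7391434962) (nat_lit 228) (nat_lit 8811822447) (nat_lit 76) (nat_lit 8680607474) (nat_lit 27) (nat_lit 5) (nat_lit 30) (nat_lit 5) (nat_lit 28) (nat_lit 5) (nat_lit 333) (nat_lit 310) (nat_lit 257))) (XT.nd (nat_lit 78) (nat_lit 76) (nat_lit 0) (XT.lf (nat_lit 0) (nat_lit 4603647219) (nat_lit 152) (nat_lit 8365156284) (nat_lit 228) (nat_lit 13210053721) (nat_lit 25) (nat_lit 5) (nat_lit 27) (nat_lit 5) (nat_lit 28) (nat_lit 5) (nat_lit 334) (nat_lit 310) (nat_lit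 256)) (XT.nd (nat_lit 78) (nat_lit 76) (nat_lit 0) (XT.lf (nat_lit 0) (nat_lit 19220550609) (nat_lit 228) (nat_lit 8008461965) (nat_lit 76) (nat_lit 330200602) (nat_lit 25) (nat_lit 5) (nat_lit 28) (nat_lit 5) (nat_lit 26) (nat_lit 4) (nat_lit 335) (nat_lit 310) (nat_lit 255)) (XT.lf (nat_lit 0) (nat_lit 6730522966) (nat_lit 76) (nat_lit 19601241529) (nat_lit 152) (nat_lit 2689504871) (nat_lit 24) (nat_lit 5) (nat_lit 25) (nat_lit 5) (nat_lit 26) (nat_lit 4) (nat_lit 336) (nat_lit 310) (nat_lit 254))))))) (XT.nd (nat_lit 702) (nat_lit 456) (nat_lit 0) (XT.nd (nat_lit 312) (nat_lit 228) (nat_lit 0) (XT.nd (nat_lit 156) (nat_lit 76) (nat_lit 0) (XT.nd (nat_lit 78) (nat_lit 152) (nat_lit 0) (XT.lf (nat_lit 0) (nat_lit 3445951762) (nat_lit 152) (nat_lit 7599173752) (nat_lit 76) (nat_lit 19532213792) (nat_lit 23) (nat_lit 5) (nat_lit 25) (nat_lit 5) (nat_lit 24) (nat_lit 5) (nat_lit 337) (nat_lit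 310) (nat_lit 253)) (XT.lf (nat_lit 0) (nat_lit 8597641631) (nat_lit 152) (nat_lit 1517902074) (nat_lit 228) (nat_lit 22121688630) (nat_lit 21) (nat_lit 5) (nat_lit 23) (nat_lit 5) (nat_lit 24) (nat_lit 5) (nat_lit 338) (nat_lit 310) (nat_lit 252))) (XT.nd (nat_lit 78) (nat_lit 76) (nat_lit 0) (XT.lf (nat_lit 0) (nat_lit 17725004376) (nat_lit 228) (nat_lit 7737946745) (nat_lit 76) (nat_lit 8534474745) (nat_lit 21) (nat_lit 5) (nat_lit 24) (nat_lit 5) (nat_lit 22) (nat_lit 4) (nat_lit 339) (nat_lit 310) (nat_lit 251)) (XT.lf (nat_lit 0) (nat_lit 9861302781) (nat_lit 76) (nat_lit 16342005065) (nat_lit 152) (nat_lit 9674332356) (nat_lit 20) (nat_lit 5) (nat_lit 21) (nat_lit 5) (nat_lit 22) (nat_lit 4) (nat_lit 340) (nat_lit 310) (nat_lit 250)))) (XT.nd (nat_lit 156) (nat_lit 76) (nat_lit 0) (XT.nd (nat_lit 78) (nat_lit 152) (nat_lit 0) (XT.lf (nat_lit 0) (nat_lit 29280872978) (nat_lit 76)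 (nat_lit 6274623928) (nat_lit 152) (nat_lit 2337136367) (nat_lit 20) (nat_lit 5) (nat_lit 21) (nat_lit 5) (nat_lit 22) (nat_lit 4) (nat_lit 341) (nat_lit 310) (nat_lit 249)) (XT.lf (nat_lit 0) (nat_lit 5666566851) (nat_lit 152) (nat_lit 29607152474) (nat_lit 76) (nat_lit 4755645265) (nat_lit 18) (nat_lit 5) (nat_lit 20) (nat_lit 5) (nat_lit 19) (nat_lit 4) (nat_lit 342) (nat_lit 310) (nat_lit 248))) (XT.nd (nat_lit 78) (nat_lit 76) (nat_lit 0) (XT.lf (nat_lit 0) (nat_lit 14573930002) (nat_lit 152) (nat_lit 11106020127) (nat_lit 76) (nat_lit 16621066482) (nat_lit 18) (nat_lit 5) (nat_lit 20) (nat_lit 5) (nat_lit 19) (nat_lit 4) (nat_lit 343) (nat_lit 310) (nat_lit 247)) (XT.nd (nat_lit 78) (nat_lit 0) (nat_lit 0) (XT.lf (nat_lit 0) (nat_lit 9316545450) (nat_lit 76) (nat_lit 15087581235) (nat_lit 152) (nat_lit 20333462849) (nat_lit 17) (nat_lit 5) (nat_lit 18) (nat_lit 5) (nat_lit 19) (nat_lit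 4) (nat_lit 344) (nat_lit 310) (nat_lit 246)) (XT.lf (nat_lit 0) (nat_lit 31980442324) (nat_lit 76) (nat_lit 3330580795) (nat_lit 152) (nat_lit 12034850138) (nat_lit 17) (nat_lit 5) (nat_lit 18) (nat_lit 5) (nat_lit 19) (nat_lit 4) (nat_lit 345) (nat_lit 310) (nat_lit 245)))))) (XT.nd (nat_lit 312) (nat_lit 228) (nat_lit 0) (XT.nd (nat_lit 156) (nat_lit 76) (nat_lit 0) (XT.nd (nat_lit 78) (nat_lit 76) (nat_lit 0) (XT.lf (nat_lit 0) (nat_lit 6364683897) (nat_lit 76) (nat_lit 41091512214) (nat_lit 76) (nat_lit 2677372695) (nat_lit 16) (nat_lit 4) (nat_lit 17) (nat_lit 5) (nat_lit 17) (nat_lit 4) (nat_lit 346) (nat_lit 310) (nat_lit 244)) (XT.lf (nat_lit 0) (nat_lit 7562076541) (nat_lit 152) (nat_lit 22702840026) (nat_lit 76) (nat_lit 22824677703) (nat_lit 15) (nat_lit 5) (nat_lit 17) (nat_lit 5) (nat_lit 16) (nat_lit 4) (nat_lit 347) (nat_lit 310) (nat_lit 243))) (XT.nd (nat_lit 78) (nat_lit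 76) (nat_lit 0) (XT.lf (nat_lit 0) (nat_lit 18464412331) (nat_lit 152) (nat_lit 42481318) (nat_lit 76) (nat_lit 37770580136) (nat_lit 15) (nat_lit 5) (nat_lit 17) (nat_lit 5) (nat_lit 16) (nat_lit 4) (nat_lit 348) (nat_lit 310) (nat_lit 242)) (XT.lf (nat_lit 0) (nat_lit 25696298627) (nat_lit 76) (nat_lit 5149872107) (nat_lit 152) (nat_lit 28825639298) (nat_lit 14) (nat_lit 5) (nat_lit 15) (nat_lit 5) (nat_lit 16) (nat_lit 4) (nat_lit 349) (nat_lit 310) (nat_lit 241)))) (XT.nd (nat_lit 156) (nat_lit 152) (nat_lit 0) (XT.nd (nat_lit 78) (nat_lit 76) (nat_lit 0) (XT.lf (nat_lit 0) (nat_lit 44432099471) (nat_lit 152) (nat_lit 10084077566) (nat_lit 0) (nat_lit 8804430613) (nat_lit 14) (nat_lit 5) (nat_lit 16) (nat_lit 4) (nat_lit 14) (nat_lit 4) (nat_lit 350) (nat_lit 310) (nat_lit 240)) (XT.lf (nat_lit 0) (nat_lit 16386124119) (nat_lit 76) (nat_lit 43236773254) (nat_lit 76) (nat_lit 7596976599)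 (nat_lit 13) (nat_lit 4) (nat_lit 14) (nat_lit 5) (nat_lit 14) (nat_lit 4) (nat_lit 351) (nat_lit 310) (nat_lit 239))) (XT.nd (nat_lit 78) (nat_lit 76) (nat_lit 0) (XT.lf (nat_lit 0) (nat_lit 4640940833) (nat_lit 152) (nat_lit 25997869164) (nat_lit 76) (nat_lit 40761583701) (nat_lit 12) (nat_lit 5) (nat_lit 14) (nat_lit 5) (nat_lit 13) (nat_lit 4) (nat_lit 352) (nat_lit 310) (nat_lit 238)) (XT.nd (nat_lit 78) (nat_lit 0) (nat_lit 0) (XT.lf (nat_lit 0) (nat_lit 642536564) (nat_lit 76) (nat_lit 16811290500) (nat_lit 152) (nat_lit 58445236014) (nat_lit 11) (nat_lit 5) (nat_lit 12) (nat_lit 5) (nat_lit 13) (nat_lit 4) (nat_lit 353) (nat_lit 310) (nat_lit 237)) (XT.lf (nat_lit 0) (nat_lit 30875967499) (nat_lit 76) (nat_lit 1117791475) (nat_lit 152) (nat_lit 48707709150) (nat_lit 11) (nat_lit 5) (nat_lit 12) (nat_lit 5) (nat_lit 13) (nat_lit 4) (nat_lit 354) (nat_lit 310) (nat_lit 236))))))))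
noncomputable def xc128 : XT := (XT.nd (nat_lit 1326) (nat_lit 228) (nat_lit 0) (XT.nd (nat_lit 624) (nat_lit 228) (nat_lit 0) (XT.nd (nat_lit 312) (nat_lit 76) (nat_lit 0) (XT.nd (nat_lit 156) (nat_lit 76) (nat_lit 0) (XT.nd (nat_lit 78) (nat_lit 76) (nat_lit 0) (XT.lf (nat_lit 0) (nat_lit 48069289378) (nat_lit 152) (nat_lit 22756702609) (nat_lit 0) (nat_lit 15032284322) (nat_lit 11) (nat_lit 5) (nat_lit 13) (nat_lit 4) (nat_lit 11) (nat_lit 4) (nat_lit 355) (nat_lit 310) (nat_lit 235)) (XT.lf (nat_lit 0) (nat_lit 6772570532) (nat_lit 76) (nat_lit 58842486733) (nat_lit 76) (nat_lit 25797839106) (nat_lit 10) (nat_lit 4) (nat_lit 11) (nat_lit 5) (nat_lit 11) (nat_lit 4) (nat_lit 356) (nat_lit 310) (nat_lit 234))) (XT.nd (nat_lit 78) (nat_lit 76) (nat_lit 0) (XT.lf (nat_lit 0) (nat_lit 39943967131) (nat_lit 76) (nat_lit 45235234212) (nat_lit 76) (nat_lit 12183510131) (nat_lit 10) (nat_lit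 4) (nat_lit 11) (nat_lit 5) (nat_lit 11) (nat_lit 4) (nat_lit 357) (nat_lit 310) (nat_lit 233)) (XT.lf (nat_lit 0) (nat_lit 2386785050) (nat_lit 152) (nat_lit 28093763448) (nat_lit 76) (nat_lit 73303686813) (nat_lit 9) (nat_lit 5) (nat_lit 11) (nat_lit 5) (nat_lit 10) (nat_lit 4) (nat_lit 358) (nat_lit 310) (nat_lit 232)))) (XT.nd (nat_lit 156) (nat_lit 0) (nat_lit 0) (XT.nd (nat_lit 78) (nat_lit 0) (nat_lit 0) (XT.lf (nat_lit 0) (nat_lit 3419092504) (nat_lit 76) (nat_lit 14121020849) (nat_lit 152) (nat_lit 93148002554) (nat_lit 8) (nat_lit 5) (nat_lit 9) (nat_lit 5) (nat_lit 10) (nat_lit 4) (nat_lit 359) (nat_lit 310) (nat_lit 231)) (XT.lf (nat_lit 0) (nat_lit 34772557631) (nat_lit 152) (nat_lit 79150179698) (nat_lit 0) (nat_lit 4152223568) (nat_lit 8) (nat_lit 5) (nat_lit 10) (nat_lit 4) (nat_lit 8) (nat_lit 4) (nat_lit 360) (nat_lit 310) (nat_lit 230))) (XT.nd (nat_lit 78) (nat_lit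 0) (nat_lit 0) (XT.lf (nat_lit 0) (nat_lit 53744315187) (nat_lit 152) (nat_lit 49160417651) (nat_lit 0) (nat_lit 23119165008) (nat_lit 8) (nat_lit 5) (nat_lit 10) (nat_lit 4) (nat_lit 8) (nat_lit 4) (nat_lit 361) (nat_lit 310) (nat_lit 229)) (XT.lf (nat_lit 0) (nat_lit 74228200361) (nat_lit 152) (nat_lit 16782409264) (nat_lit 0) (nat_lit 43598590816) (nat_lit 8) (nat_lit 5) (nat_lit 10) (nat_lit 4) (nat_lit 8) (nat_lit 4) (nat_lit 362) (nat_lit 310) (nat_lit 228))))) (XT.nd (nat_lit 312) (nat_lit 76) (nat_lit 0) (XT.nd (nat_lit 156) (nat_lit 76) (nat_lit 0) (XT.nd (nat_lit 78) (nat_lit 0) (nat_lit 0) (XT.lf (nat_lit 0) (nat_lit 19132816091) (nat_lit 76) (nat_lit 77672927735) (nat_lit 76) (nat_lit 47039189147) (nat_lit 7) (nat_lit 4) (nat_lit 8) (nat_lit 5) (nat_lit 8) (nat_lit 4) (nat_lit 363) (nat_lit 310) (nat_lit 227)) (XT.lf (nat_lit 0) (nat_lit 58865821630) (nat_lit 76) (nat_lit 62777480383)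 (nat_lit 76) (nat_lit 32139918608) (nat_lit 7) (nat_lit 4) (nat_lit 8) (nat_lit 5) (nat_lit 8) (nat_lit 4) (nat_lit 364) (nat_lit 310) (nat_lit 226))) (XT.nd (nat_lit 78) (nat_lit 76) (nat_lit 0) (XT.lf (nat_lit 0) (nat_lit 101768330270) (nat_lit 76) (nat_lit 46694859063) (nat_lit 76) (nat_lit 16053757299) (nat_lit 7) (nat_lit 4) (nat_lit 8) (nat_lit 5) (nat_lit 8) (nat_lit 4) (nat_lit 365) (nat_lit 310) (nat_lit 225)) (XT.lf (nat_lit 0) (nat_lit 1248857553) (nat_lit 152) (nat_lit 28046755820) (nat_lit 76) (nat_lit 146811575565) (nat_lit 6) (nat_lit 5) (nat_lit 8) (nat_lit 5) (nat_lit 7) (nat_lit 4) (nat_lit 366) (nat_lit 310) (nat_lit 224)))) (XT.nd (nat_lit 156) (nat_lit 0) (nat_lit 0) (XT.nd (nat_lit 78) (nat_lit 0) (nat_lit 0) (XT.lf (nat_lit 0) (nat_lit 9480473056) (nat_lit 76) (nat_lit 9811780577) (nat_lit 152) (nat_lit 169281128226) (nat_lit 5) (nat_lit 5) (nat_lit 6) (nat_lit 5)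 (nat_lit 7) (nat_lit 4) (nat_lit 367) (nat_lit 310) (nat_lit 223)) (XT.lf (nat_lit 0) (nat_lit 39831897258) (nat_lit 152) (nat_lit 150668692237) (nat_lit 0) (nat_lit 11452059611) (nat_lit 5) (nat_lit 5) (nat_lit 7) (nat_lit 4) (nat_lit 5) (nat_lit 4) (nat_lit 368) (nat_lit 310) (nat_lit 222))) (XT.nd (nat_lit 78) (nat_lit 0) (nat_lit 0) (XT.lf (nat_lit 0) (nat_lit 62265776503) (nat_lit 152) (nat_lit 120232867392) (nat_lit 0) (nat_lit 33883529600) (nat_lit 5) (nat_lit 5) (nat_lit 7) (nat_lit 4) (nat_lit 5) (nat_lit 4) (nat_lit 369) (nat_lit 310) (nat_lit 221)) (XT.nd (nat_lit 78) (nat_lit 0) (nat_lit 0) (XT.lf (nat_lit 0) (nat_lit 86490859315) (nat_lit 152) (nat_lit 87369100266) (nat_lit 0) (nat_lit 58106381618) (nat_lit 5) (nat_lit 5) (nat_lit 7) (nat_lit 4) (nat_lit 5) (nat_lit 4) (nat_lit 370) (nat_lit 310) (nat_lit 220)) (XT.lf (nat_lit 0) (nat_lit 112650701741) (nat_lit 152) (nat_lit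 51882642611) (nat_lit 0) (nat_lit 84264158495) (nat_lit 5) (nat_lit 5) (nat_lit 7) (nat_lit 4) (nat_lit 5) (nat_lit 4) (nat_lit 371) (nat_lit 310) (nat_lit 219))))))) (XT.nd (nat_lit 624) (nat_lit 152) (nat_lit 0) (XT.nd (nat_lit 312) (nat_lit 0) (nat_lit 0) (XT.nd (nat_lit 156) (nat_lit 0) (nat_lit 0) (XT.nd (nat_lit 78) (nat_lit 76) (nat_lit 0) (XT.lf (nat_lit 0) (nat_lit 140900325070) (nat_lit 152) (nat_lit 13563204305) (nat_lit 0) (nat_lit 112511869278) (nat_lit 5) (nat_lit 5) (nat_lit 7) (nat_lit 4) (nat_lit 5) (nat_lit 4) (nat_lit 372) (nat_lit 310) (nat_lit 218)) (XT.lf (nat_lit 0) (nat_lit 29281049487) (nat_lit 76) (nat_lit 142830294933) (nat_lit 76) (nat_lit 114440068265) (nat_lit 4) (nat_lit 4) (nat_lit 5) (nat_lit 5) (nat_lit 5) (nat_lit 4) (nat_lit 373) (nat_lit 310) (nat_lit 217))) (XT.nd (nat_lit 78) (nat_lit 0) (nat_lit 0) (XT.lf (nat_lit 0) (nat_lit 76318837914) (nat_lit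 76) (nat_lit 129868543025) (nat_lit 76) (nat_lit 101476676657) (nat_lit 4) (nat_lit 4) (nat_lit 5) (nat_lit 5) (nat_lit 5) (nat_lit 4) (nat_lit 374) (nat_lit 310) (nat_lit 216)) (XT.lf (nat_lit 0) (nat_lit 127114689122) (nat_lit 76) (nat_lit 115872305311) (nat_lit 76) (nat_lit 87478920703) (nat_lit 4) (nat_lit 4) (nat_lit 5) (nat_lit 5) (nat_lit 5) (nat_lit 4) (nat_lit 375) (nat_lit 310) (nat_lit 215)))) (XT.nd (nat_lit 156) (nat_lit 0) (nat_lit 0) (XT.nd (nat_lit 78) (nat_lit 0) (nat_lit 0) (XT.lf (nat_lit 0) (nat_lit 181969615564) (nat_lit 76) (nat_lit 100758641124) (nat_lit 76) (nat_lit 72363850738) (nat_lit 4) (nat_lit 4) (nat_lit 5) (nat_lit 5) (nat_lit 5) (nat_lit 4) (nat_lit 376) (nat_lit 310) (nat_lit 214)) (XT.lf (nat_lit 0) (nat_lit 241208683470) (nat_lit 76) (nat_lit 84437988010) (nat_lit 76) (nat_lit 56041895977) (nat_lit 4) (nat_lit 4) (nat_lit 5) (nat_lit 5) (nat_lit 5) (nat_lit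 4) (nat_lit 377) (nat_lit 310) (nat_lit 213))) (XT.nd (nat_lit 78) (nat_lit 0) (nat_lit 0) (XT.lf (nat_lit 0) (nat_lit 305182939168) (nat_lit 76) (nat_lit 66813630986) (nat_lit 76) (nat_lit 38416333725) (nat_lit 4) (nat_lit 4) (nat_lit 5) (nat_lit 5) (nat_lit 5) (nat_lit 4) (nat_lit 378) (nat_lit 310) (nat_lit 212)) (XT.lf (nat_lit 0) (nat_lit 374271489359) (nat_lit 76) (nat_lit 47781129418) (nat_lit 76) (nat_lit 19382716205) (nat_lit 4) (nat_lit 4) (nat_lit 5) (nat_lit 5) (nat_lit 5) (nat_lit 4) (nat_lit 379) (nat_lit 310) (nat_lit 211))))) (XT.nd (nat_lit 312) (nat_lit 0) (nat_lit 0) (XT.nd (nat_lit 156) (nat_lit 0) (nat_lit 0) (XT.nd (nat_lit 78) (nat_lit 76) (nat_lit 0) (XT.lf (nat_lit 0) (nat_lit 1113132788) (nat_lit 152) (nat_lit 26084130301) (nat_lit 76) (nat_lit 447740179861) (nat_lit 3) (nat_lit 5) (nat_lit 5) (nat_lit 5) (nat_lit 4) (nat_lit 4) (nat_lit 380) (nat_lit 310) (nat_lit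 210)) (XT.lf (nat_lit 0) (nat_lit 18711319572) (nat_lit 76) (nat_lit 3938547169) (nat_lit 152) (nat_lit 488393706396) (nat_lit 2) (nat_lit 5) (nat_lit 3) (nat_lit 5) (nat_lit 4) (nat_lit 4) (nat_lit 381) (nat_lit 310) (nat_lit 209))) (XT.nd (nat_lit 78) (nat_lit 0) (nat_lit 0) (XT.lf (nat_lit 0) (nat_lit 47149037266) (nat_lit 152) (nat_lit 481938449616) (nat_lit 0) (nat_lit 20851547331) (nat_lit 2) (nat_lit 5) (nat_lit 4) (nat_lit 4) (nat_lit 2) (nat_lit 4) (nat_lit 382) (nat_lit 310) (nat_lit 208)) (XT.lf (nat_lit 0) (nat_lit 73708947702) (nat_lit 152) (nat_lit 470818421985) (nat_lit 0) (nat_lit 47410698269) (nat_lit 2) (nat_lit 5) (nat_lit 4) (nat_lit 4) (nat_lit 2) (nat_lit 4) (nat_lit 383) (nat_lit 310) (nat_lit 207)))) (XT.nd (nat_lit 156) (nat_lit 0) (nat_lit 0) (XT.nd (nat_lit 78) (nat_lit 0) (nat_lit 0) (XT.lf (nat_lit 0) (nat_lit 102392267957) (nat_lit 152) (nat_lit 458811552057)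 (nat_lit 0) (nat_lit 76093315284) (nat_lit 2) (nat_lit 5) (nat_lit 4) (nat_lit 4) (nat_lit 2) (nat_lit 4) (nat_lit 384) (nat_lit 310) (nat_lit 206)) (XT.lf (nat_lit 0) (nat_lit 133368973261) (nat_lit 152) (nat_lit 445846688012) (nat_lit 0) (nat_lit 107069369441) (nat_lit 2) (nat_lit 5) (nat_lit 4) (nat_lit 4) (nat_lit 2) (nat_lit 4) (nat_lit 385) (nat_lit 310) (nat_lit 205))) (XT.nd (nat_lit 78) (nat_lit 0) (nat_lit 0) (XT.lf (nat_lit 0) (nat_lit 166822629276) (nat_lit 152) (nat_lit 431847001026) (nat_lit 0) (nat_lit 140522422542) (nat_lit 2) (nat_lit 5) (nat_lit 4) (nat_lit 4) (nat_lit 2) (nat_lit 4) (nat_lit 386) (nat_lit 310) (nat_lit 204)) (XT.nd (nat_lit 78) (nat_lit 0) (nat_lit 0) (XT.lf (nat_lit 0) (nat_lit 202951479889) (nat_lit 152) (nat_lit 416729529990) (nat_lit 0) (nat_lit 176650714902) (nat_lit 2) (nat_lit 5) (nat_lit 4) (nat_lit 4) (nat_lit 2) (nat_lit 4) (nat_lit 387) (nat_lit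 310) (nat_lit 203)) (XT.lf (nat_lit 0) (nat_lit 241969621994) (nat_lit 152) (nat_lit 400404689891) (nat_lit 0) (nat_lit 215668340105) (nat_lit 2) (nat_lit 5) (nat_lit 4) (nat_lit 4) (nat_lit 2) (nat_lit 4) (nat_lit 388) (nat_lit 310) (nat_lit 202))))))))
noncomputable def xc129 : XT := (XT.nd (nat_lit 1326) (nat_lit 0) (nat_lit 0) (XT.nd (nat_lit 624) (nat_lit 76) (nat_lit 0) (XT.nd (nat_lit 312) (nat_lit 0) (nat_lit 0) (XT.nd (nat_lit 156) (nat_lit 0) (nat_lit 0) (XT.nd (nat_lit 78) (nat_lit 0) (nat_lit 0) (XT.lf (nat_lit 0) (nat_lit 284108274209) (nat_lit 152) (nat_lit 382775740936) (nat_lit 0) (nat_lit 257806513707) (nat_lit 2) (nat_lit 5) (nat_lit 4) (nat_lit 4) (nat_lit 2) (nat_lit 4) (nat_lit 389) (nat_lit 310) (nat_lit 201)) (XT.lf (nat_lit 0) (nat_lit 329617147067) (nat_lit 152) (nat_lit 363738215278) (nat_lit 0) (nat_lit 303314943405) (nat_lit 2) (nat_lit 5) (nat_lit 4) (nat_lit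 4) (nat_lit 2) (nat_lit 4) (nat_lit 390) (nat_lit 310) (nat_lit 200))) (XT.nd (nat_lit 78) (nat_lit 0) (nat_lit 0) (XT.lf (nat_lit 0) (nat_lit 378765922776) (nat_lit 152) (nat_lit 343179297952) (nat_lit 0) (nat_lit 352463308781) (nat_lit 2) (nat_lit 5) (nat_lit 4) (nat_lit 4) (nat_lit 2) (nat_lit 4) (nat_lit 391) (nat_lit 310) (nat_lit 199)) (XT.lf (nat_lit 0) (nat_lit 431845853342) (nat_lit 152) (nat_lit 320977158336) (nat_lit 0) (nat_lit 405542859408) (nat_lit 2) (nat_lit 5) (nat_lit 4) (nat_lit 4) (nat_lit 2) (nat_lit 4) (nat_lit 392) (nat_lit 310) (nat_lit 198)))) (XT.nd (nat_lit 156) (nat_lit 0) (nat_lit 0) (XT.nd (nat_lit 78) (nat_lit 0) (nat_lit 0) (XT.lf (nat_lit 0) (nat_lit 489171486500) (nat_lit 152) (nat_lit 297000228195) (nat_lit 0) (nat_lit 462868140772) (nat_lit 2) (nat_lit 5) (nat_lit 4) (nat_lit 4) (nat_lit 2) (nat_lit 4) (nat_lit 393) (nat_lit 310) (nat_lit 197)) (XT.lf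 (nat_lit 0) (nat_lit 551082529707) (nat_lit 152) (nat_lit 271106422017) (nat_lit 0) (nat_lit 524778858244) (nat_lit 2) (nat_lit 5) (nat_lit 4) (nat_lit 4) (nat_lit 2) (nat_lit 4) (nat_lit 394) (nat_lit 310) (nat_lit 196))) (XT.nd (nat_lit 78) (nat_lit 0) (nat_lit 0) (XT.lf (nat_lit 0) (nat_lit 617945863219) (nat_lit 152) (nat_lit 243142295025) (nat_lit 0) (nat_lit 591641890148) (nat_lit 2) (nat_lit 5) (nat_lit 4) (nat_lit 4) (nat_lit 2) (nat_lit 4) (nat_lit 395) (nat_lit 310) (nat_lit 195)) (XT.lf (nat_lit 0) (nat_lit 690157714197) (nat_lit 152) (nat_lit 212942133874) (nat_lit 0) (nat_lit 663853461860) (nat_lit 2) (nat_lit 5) (nat_lit 4) (nat_lit 4) (nat_lit 2) (nat_lit 4) (nat_lit 396) (nat_lit 310) (nat_lit 194))))) (XT.nd (nat_lit 312) (nat_lit 76) (nat_lit 0) (XT.nd (nat_lit 156) (nat_lit 0) (nat_lit 0) (XT.nd (nat_lit 78) (nat_lit 0) (nat_lit 0) (XT.lf (nat_lit 0) (nat_lit 768146004721)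 (nat_lit 152) (nat_lit 180326974646) (nat_lit 0) (nat_lit 741841493804) (nat_lit 2) (nat_lit 5) (nat_lit 4) (nat_lit 4) (nat_lit 2) (nat_lit 4) (nat_lit 397) (nat_lit 310) (nat_lit 193)) (XT.lf (nat_lit 0) (nat_lit 852372887623) (nat_lit 152) (nat_lit 145103542323) (nat_lit 0) (nat_lit 826068137281) (nat_lit 2) (nat_lit 5) (nat_lit 4) (nat_lit 4) (nat_lit 2) (nat_lit 4) (nat_lit 398) (nat_lit 310) (nat_lit 192))) (XT.nd (nat_lit 78) (nat_lit 0) (nat_lit 0) (XT.lf (nat_lit 0) (nat_lit 943337485174) (nat_lit 152) (nat_lit 107063105454) (nat_lit 0) (nat_lit 917032513142) (nat_lit 2) (nat_lit 5) (nat_lit 4) (nat_lit 4) (nat_lit 2) (nat_lit 4) (nat_lit 399) (nat_lit 310) (nat_lit 191)) (XT.lf (nat_lit 0) (nat_lit 1041578846839) (nat_lit 152) (nat_lit 65980239229) (nat_lit 0) (nat_lit 1015273669538) (nat_lit 2) (nat_lit 5) (nat_lit 4) (nat_lit 4) (nat_lit 2) (nat_lit 4) (nat_lit 400) (nat_lit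 310) (nat_lit 190)))) (XT.nd (nat_lit 156) (nat_lit 0) (nat_lit 0) (XT.nd (nat_lit 78) (nat_lit 76) (nat_lit 0) (XT.lf (nat_lit 0) (nat_lit 1147679143651) (nat_lit 152) (nat_lit 21611489625) (nat_lit 0) (nat_lit 1121373776287) (nat_lit 2) (nat_lit 5) (nat_lit 4) (nat_lit 4) (nat_lit 2) (nat_lit 4) (nat_lit 401) (nat_lit 310) (nat_lit 189)) (XT.lf (nat_lit 0) (nat_lit 27691300271) (nat_lit 76) (nat_lit 1235241794276) (nat_lit 76) (nat_lit 1208936250927) (nat_lit 1) (nat_lit 4) (nat_lit 2) (nat_lit 5) (nat_lit 2) (nat_lit 4) (nat_lit 402) (nat_lit 310) (nat_lit 188))) (XT.nd (nat_lit 78) (nat_lit 0) (nat_lit 0) (XT.lf (nat_lit 0) (nat_lit 82166704743) (nat_lit 76) (nat_lit 1305831216546) (nat_lit 76) (nat_lit 1279525510248) (nat_lit 1) (nat_lit 4) (nat_lit 2) (nat_lit 5) (nat_lit 2) (nat_lit 4) (nat_lit 403) (nat_lit 310) (nat_lit 187)) (XT.nd (nat_lit 78) (nat_lit 0) (nat_lit 0) (XT.lf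 (nat_lit 0) (nat_lit 140999518257) (nat_lit 76) (nat_lit 1382068104199) (nat_lit 76) (nat_lit 1355762247021) (nat_lit 1) (nat_lit 4) (nat_lit 2) (nat_lit 5) (nat_lit 2) (nat_lit 4) (nat_lit 404) (nat_lit 310) (nat_lit 186)) (XT.lf (nat_lit 0) (nat_lit 204538379708) (nat_lit 76) (nat_lit 1464404231383) (nat_lit 76) (nat_lit 1438098234503) (nat_lit 1) (nat_lit 4) (nat_lit 2) (nat_lit 5) (nat_lit 2) (nat_lit 4) (nat_lit 405) (nat_lit 310) (nat_lit 185))))))) (XT.nd (nat_lit 39546) (nat_lit 0) (nat_lit 3496) (XT.nd (nat_lit 312) (nat_lit 0) (nat_lit 0) (XT.nd (nat_lit 156) (nat_lit 0) (nat_lit 0) (XT.nd (nat_lit 78) (nat_lit 0) (nat_lit 0) (XT.lf (nat_lit 0) (nat_lit 273159815682) (nat_lit 76) (nat_lit 1553327515890) (nat_lit 76) (nat_lit 1527021389656) (nat_lit 1) (nat_lit 4) (nat_lit 2) (nat_lit 5) (nat_lit 2) (nat_lit 4) (nat_lit 406) (nat_lit 310) (nat_lit 184)) (XT.lf (nat_lit 0) (nat_lit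 347270471727) (nat_lit 76) (nat_lit 1649364910516) (nat_lit 76) (nat_lit 1623058664509) (nat_lit 1) (nat_lit 4) (nat_lit 2) (nat_lit 5) (nat_lit 2) (nat_lit 4) (nat_lit 407) (nat_lit 310) (nat_lit 183))) (XT.nd (nat_lit 78) (nat_lit 0) (nat_lit 0) (XT.lf (nat_lit 0) (nat_lit 427309522100) (nat_lit 76) (nat_lit 1753085525748) (nat_lit 76) (nat_lit 1726779168842) (nat_lit 1) (nat_lit 4) (nat_lit 2) (nat_lit 5) (nat_lit 2) (nat_lit 4) (nat_lit 408) (nat_lit 310) (nat_lit 182)) (XT.lf (nat_lit 0) (nat_lit 513751272284) (nat_lit 76) (nat_lit 1865104002270) (nat_lit 76) (nat_lit 1838797542678) (nat_lit 1) (nat_lit 4) (nat_lit 2) (nat_lit 5) (nat_lit 2) (nat_lit 4) (nat_lit 409) (nat_lit 310) (nat_lit 181)))) (XT.nd (nat_lit 156) (nat_lit 0) (nat_lit 0) (XT.nd (nat_lit 78) (nat_lit 0) (nat_lit 0) (XT.lf (nat_lit 0) (nat_lit 607107969689) (nat_lit 76) (nat_lit 1986084153275) (nat_lit 76) (nat_lit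 1959777598603) (nat_lit 1) (nat_lit 4) (nat_lit 2) (nat_lit 5) (nat_lit 2) (nat_lit 4) (nat_lit 410) (nat_lit 310) (nat_lit 180)) (XT.lf (nat_lit 0) (nat_lit 707932839187) (nat_lit 76) (nat_lit 2116742898176) (nat_lit 76) (nat_lit 2090436255469) (nat_lit 1) (nat_lit 4) (nat_lit 2) (nat_lit 5) (nat_lit 2) (nat_lit 4) (nat_lit 411) (nat_lit 310) (nat_lit 179))) (XT.nd (nat_lit 39000) (nat_lit 0) (nat_lit 4028) (XT.lf (nat_lit 0) (nat_lit 816823361488) (nat_lit 76) (nat_lit 2257854511018) (nat_lit 76) (nat_lit 2231547786795) (nat_lit 1) (nat_lit 4) (nat_lit 2) (nat_lit 5) (nat_lit 2) (nat_lit 4) (nat_lit 412) (nat_lit 310) (nat_lit 178)) (XT.lf (nat_lit 0) (nat_lit 721407422) (nat_lit 532) (nat_lit 2134890486) (nat_lit 532) (nat_lit 2134890486) (nat_lit 54) (nat_lit 3) (nat_lit 61) (nat_lit 3) (nat_lit 61) (nat_lit 5) (nat_lit 311) (nat_lit 311) (nat_lit 278))))) (XT.nd (nat_lit 312) (nat_lit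 532) (nat_lit 0) (XT.nd (nat_lit 156) (nat_lit 0) (nat_lit 76) (XT.nd (nat_lit 78) (nat_lit 0) (nat_lit 76) (XT.lf (nat_lit 76) (nat_lit 488566005) (nat_lit 0) (nat_lit 1695249643) (nat_lit 532) (nat_lit 8141966466) (nat_lit 55) (nat_lit 5) (nat_lit 54) (nat_lit 3) (nat_lit 61) (nat_lit 5) (nat_lit 312) (nat_lit 311) (nat_lit 277)) (XT.lf (nat_lit 0) (nat_lit 3100059790) (nat_lit 456) (nat_lit 4928066275) (nat_lit 532) (nat_lit 2659379463) (nat_lit 55) (nat_lit 5) (nat_lit 61) (nat_lit 5) (nat_lit 62) (nat_lit 5) (nat_lit 313) (nat_lit 311) (nat_lit 276))) (XT.nd (nat_lit 78) (nat_lit 0) (nat_lit 76) (XT.lf (nat_lit 76) (nat_lit 303731898) (nat_lit 0) (nat_lit 3774812247) (nat_lit 532) (nat_lit 7000621055) (nat_lit 56) (nat_lit 5) (nat_lit 55) (nat_lit 5) (nat_lit 62) (nat_lit 5) (nat_lit 314) (nat_lit 311) (nat_lit 275)) (XT.lf (nat_lit 0) (nat_lit 5234944962) (nat_lit 456) (nat_lit 5325683353)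 (nat_lit 532) (nat_lit 933663533) (nat_lit 56) (nat_lit 5) (nat_lit 62) (nat_lit 5) (nat_lit 63) (nat_lit 5) (nat_lit 315) (nat_lit 311) (nat_lit 274)))) (XT.nd (nat_lit 156) (nat_lit 684) (nat_lit 0) (XT.nd (nat_lit 78) (nat_lit 0) (nat_lit 0) (XT.lf (nat_lit 76) (nat_lit 442026923) (nat_lit 0) (nat_lit 6096531431) (nat_lit 532) (nat_lit 5399791657) (nat_lit 57) (nat_lit 5) (nat_lit 56) (nat_lit 5) (nat_lit 63) (nat_lit 5) (nat_lit 316) (nat_lit 311) (nat_lit 273)) (XT.lf (nat_lit 76) (nat_lit 6933011211) (nat_lit 0) (nat_lit 1108097718) (nat_lit 532) (nat_lit 4369342260) (nat_lit 57) (nat_lit 5) (nat_lit 56) (nat_lit 5) (nat_lit 63) (nat_lit 5) (nat_lit 317) (nat_lit 311) (nat_lit 272))) (XT.nd (nat_lit 78) (nat_lit 304) (nat_lit 0) (XT.lf (nat_lit 0) (nat_lit 924205420) (nat_lit 456) (nat_lit 8817836425) (nat_lit 532) (nat_lit 3172107877) (nat_lit 51) (nat_lit 5) (nat_lit 57) (nat_lit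 5) (nat_lit 58) (nat_lit 5) (nat_lit 318) (nat_lit 311) (nat_lit 271)) (XT.nd (nat_lit 78) (nat_lit 304) (nat_lit 0) (XT.lf (nat_lit 0) (nat_lit 8078195866) (nat_lit 456) (nat_lit 3634193970) (nat_lit 532) (nat_lit 1735164408) (nat_lit 51) (nat_lit 5) (nat_lit 57) (nat_lit 5) (nat_lit 58) (nat_lit 5) (nat_lit 319) (nat_lit 311) (nat_lit 270)) (XT.lf (nat_lit 0) (nat_lit 1781343917) (nat_lit 304) (nat_lit 12107997112) (nat_lit 380) (nat_lit 130443681) (nat_lit 47) (nat_lit 5) (nat_lit 51) (nat_lit 5) (nat_lit 52) (nat_lit 5) (nat_lit 320) (nat_lit 311) (nat_lit 269))))))))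
noncomputable def xc130 : XT := (XT.nd (nat_lit 1326) (nat_lit 988) (nat_lit 0) (XT.nd (nat_lit 624) (nat_lit 760) (nat_lit 0) (XT.nd (nat_lit 312) (nat_lit 456) (nat_lit 0) (XT.nd (nat_lit 156) (nat_lit 228) (nat_lit 0) (XT.nd (nat_lit 78) (nat_lit 228) (nat_lit 0) (XT.lf (nat_lit 0) (nat_lit 1727392862) (nat_lit 380) (nat_lit 4995866214) (nat_lit 76) (nat_lit 7895119664) (nat_lit 46) (nat_lit 5) (nat_lit 51) (nat_lit 5) (nat_lit 47) (nat_lit 5) (nat_lit 321) (nat_lit 311) (nat_lit 268)) (XT.lf (nat_lit 0) (nat_lit 2929914533) (nat_lit 228) (nat_lit 830223618) (nat_lit 304) (nat_lit 11501841605) (nat_lit 43) (nat_lit 5) (nat_lit 46) (nat_lit 5) (nat_lit 47) (nat_lit 5) (nat_lit 322) (nat_lit 311) (nat_lit 267))) (XT.nd (nat_lit 78) (nat_lit 228) (nat_lit 0) (XT.lf (nat_lit 0) (nat_lit 6193364246) (nat_lit 304) (nat_lit 4350095276) (nat_lit 76) (nat_lit 5394633071) (nat_lit 43) (nat_lit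 5) (nat_lit 47) (nat_lit 5) (nat_lit 44) (nat_lit 5) (nat_lit 323) (nat_lit 311) (nat_lit 266)) (XT.lf (nat_lit 0) (nat_lit 4432464248) (nat_lit 228) (nat_lit 4484188602) (nat_lit 304) (nat_lit 7744057990) (nat_lit 40) (nat_lit 5) (nat_lit 43) (nat_lit 5) (nat_lit 44) (nat_lit 5) (nat_lit 324) (nat_lit 311) (nat_lit 265)))) (XT.nd (nat_lit 156) (nat_lit 304) (nat_lit 0) (XT.nd (nat_lit 78) (nat_lit 152) (nat_lit 0) (XT.lf (nat_lit 0) (nat_lit 11998001267) (nat_lit 304) (nat_lit 3358797912) (nat_lit 76) (nat_lit 2073168759) (nat_lit 40) (nat_lit 5) (nat_lit 44) (nat_lit 5) (nat_lit 41) (nat_lit 5) (nat_lit 325) (nat_lit 311) (nat_lit 264)) (XT.lf (nat_lit 0) (nat_lit 6386579131) (nat_lit 152) (nat_lit 9180301256) (nat_lit 228) (nat_lit 2674645172) (nat_lit 38) (nat_lit 5) (nat_lit 40) (nat_lit 5) (nat_lit 41) (nat_lit 5) (nat_lit 326) (nat_lit 311) (nat_lit 263))) (XT.nd (nat_lit 78) (nat_lit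 228) (nat_lit 0) (XT.lf (nat_lit 0) (nat_lit 353800650) (nat_lit 228) (nat_lit 2054982922) (nat_lit 76) (nat_lit 16703419846) (nat_lit 37) (nat_lit 5) (nat_lit 40) (nat_lit 5) (nat_lit 38) (nat_lit 5) (nat_lit 327) (nat_lit 311) (nat_lit 262)) (XT.lf (nat_lit 0) (nat_lit 3792015825) (nat_lit 304) (nat_lit 11288497247) (nat_lit 76) (nat_lit 4941538378) (nat_lit 34) (nat_lit 5) (nat_lit 38) (nat_lit 5) (nat_lit 35) (nat_lit 5) (nat_lit 328) (nat_lit 311) (nat_lit 261))))) (XT.nd (nat_lit 312) (nat_lit 456) (nat_lit 0) (XT.nd (nat_lit 156) (nat_lit 152) (nat_lit 0) (XT.nd (nat_lit 78) (nat_lit 152) (nat_lit 0) (XT.lf (nat_lit 0) (nat_lit 7600046442) (nat_lit 304) (nat_lit 597639540) (nat_lit 76) (nat_lit 12799451398) (nat_lit 34) (nat_lit 5) (nat_lit 38) (nat_lit 5) (nat_lit 35) (nat_lit 5) (nat_lit 329) (nat_lit 311) (nat_lit 260)) (XT.lf (nat_lit 0) (nat_lit 11490447583) (nat_lit 152) (nat_lit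 475049081) (nat_lit 228) (nat_lit 10064539786) (nat_lit 32) (nat_lit 5) (nat_lit 34) (nat_lit 5) (nat_lit 35) (nat_lit 5) (nat_lit 330) (nat_lit 311) (nat_lit 259))) (XT.nd (nat_lit 78) (nat_lit 0) (nat_lit 0) (XT.lf (nat_lit 0) (nat_lit 1275935896) (nat_lit 152) (nat_lit 15618042530) (nat_lit 228) (nat_lit 6234511707) (nat_lit 30) (nat_lit 5) (nat_lit 32) (nat_lit 5) (nat_lit 33) (nat_lit 5) (nat_lit 331) (nat_lit 311) (nat_lit 258)) (XT.lf (nat_lit 0) (nat_lit 14590346810) (nat_lit 152) (nat_lit 7904673095) (nat_lit 228) (nat_lit 1797562094) (nat_lit 30) (nat_lit 5) (nat_lit 32) (nat_lit 5) (nat_lit 33) (nat_lit 5) (nat_lit 332) (nat_lit 311) (nat_lit 257)))) (XT.nd (nat_lit 156) (nat_lit 228) (nat_lit 0) (XT.nd (nat_lit 78) (nat_lit 0) (nat_lit 0) (XT.lf (nat_lit 0) (nat_lit 2921714234) (nat_lit 228) (nat_lit 22061757545) (nat_lit 76) (nat_lit 554416419) (nat_lit 27) (nat_lit 5) (nat_lit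 30) (nat_lit 5) (nat_lit 28) (nat_lit 5) (nat_lit 333) (nat_lit 311) (nat_lit 256)) (XT.lf (nat_lit 0) (nat_lit 8378609893) (nat_lit 228) (nat_lit 8891977476) (nat_lit 76) (nat_lit 9571940303) (nat_lit 27) (nat_lit 5) (nat_lit 30) (nat_lit 5) (nat_lit 28) (nat_lit 5) (nat_lit 334) (nat_lit 311) (nat_lit 255))) (XT.nd (nat_lit 78) (nat_lit 76) (nat_lit 0) (XT.lf (nat_lit 0) (nat_lit 5580912275) (nat_lit 152) (nat_lit 8806578490) (nat_lit 228) (nat_lit 13854830775) (nat_lit 25) (nat_lit 5) (nat_lit 27) (nat_lit 5) (nat_lit 28) (nat_lit 5) (nat_lit 335) (nat_lit 311) (nat_lit 254)) (XT.nd (nat_lit 78) (nat_lit 76) (nat_lit 0) (XT.lf (nat_lit 0) (nat_lit 21116214422) (nat_lit 228) (nat_lit 8061787832) (nat_lit 76) (nat_lit 556982672) (nat_lit 25) (nat_lit 5) (nat_lit 28) (nat_lit 5) (nat_lit 26) (nat_lit 4) (nat_lit 336) (nat_lit 311) (nat_lit 253)) (XT.lf (nat_lit 0) (nat_lit 7841446246)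 (nat_lit 76) (nat_lit 20942127382) (nat_lit 152) (nat_lit 2531476105) (nat_lit 24) (nat_lit 5) (nat_lit 25) (nat_lit 5) (nat_lit 26) (nat_lit 4) (nat_lit 337) (nat_lit 311) (nat_lit 252))))))) (XT.nd (nat_lit 624) (nat_lit 456) (nat_lit 0) (XT.nd (nat_lit 312) (nat_lit 228) (nat_lit 0) (XT.nd (nat_lit 156) (nat_lit 76) (nat_lit 0) (XT.nd (nat_lit 78) (nat_lit 152) (nat_lit 0) (XT.lf (nat_lit 0) (nat_lit 4049887832) (nat_lit 152) (nat_lit 7659489673) (nat_lit 76) (nat_lit 21287631169) (nat_lit 23) (nat_lit 5) (nat_lit 25) (nat_lit 5) (nat_lit 24) (nat_lit 5) (nat_lit 338) (nat_lit 311) (nat_lit 251)) (XT.lf (nat_lit 0) (nat_lit 9819207194) (nat_lit 152) (nat_lit 1422361188) (nat_lit 228) (nat_lit 23549062098) (nat_lit 21) (nat_lit 5) (nat_lit 23) (nat_lit 5) (nat_lit 24) (nat_lit 5) (nat_lit 339) (nat_lit 311) (nat_lit 250))) (XT.nd (nat_lit 78) (nat_lit 76) (nat_lit 0) (XT.lf (nat_lit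 0) (nat_lit 19441152308) (nat_lit 228) (nat_lit 7843911682) (nat_lit 76) (nat_lit 9408083819) (nat_lit 21) (nat_lit 5) (nat_lit 24) (nat_lit 5) (nat_lit 22) (nat_lit 4) (nat_lit 340) (nat_lit 311) (nat_lit 249)) (XT.lf (nat_lit 0) (nat_lit 11150288672) (nat_lit 76) (nat_lit 17437373353) (nat_lit 152) (nat_lit 10136938228) (nat_lit 20) (nat_lit 5) (nat_lit 21) (nat_lit 5) (nat_lit 22) (nat_lit 4) (nat_lit 341) (nat_lit 311) (nat_lit 248)))) (XT.nd (nat_lit 156) (nat_lit 76) (nat_lit 0) (XT.nd (nat_lit 78) (nat_lit 152) (nat_lit 0) (XT.lf (nat_lit 0) (nat_lit 32086381399) (nat_lit 76) (nat_lit 6580304845) (nat_lit 152) (nat_lit 2235828835) (nat_lit 20) (nat_lit 5) (nat_lit 21) (nat_lit 5) (nat_lit 22) (nat_lit 4) (nat_lit 342) (nat_lit 311) (nat_lit 247)) (XT.lf (nat_lit 0) (nat_lit 6389488966) (nat_lit 152) (nat_lit 31493667575) (nat_lit 76) (nat_lit 5326827532) (nat_lit 18) (nat_lit 5)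 (nat_lit 20) (nat_lit 5) (nat_lit 19) (nat_lit 4) (nat_lit 343) (nat_lit 311) (nat_lit 246))) (XT.nd (nat_lit 78) (nat_lit 76) (nat_lit 0) (XT.lf (nat_lit 0) (nat_lit 15989471039) (nat_lit 152) (nat_lit 11548152573) (nat_lit 76) (nat_lit 18127354250) (nat_lit 18) (nat_lit 5) (nat_lit 20) (nat_lit 5) (nat_lit 19) (nat_lit 4) (nat_lit 344) (nat_lit 311) (nat_lit 245)) (XT.lf (nat_lit 0) (nat_lit 10496918272) (nat_lit 76) (nat_lit 16101137267) (nat_lit 152) (nat_lit 21699074422) (nat_lit 17) (nat_lit 5) (nat_lit 18) (nat_lit 5) (nat_lit 19) (nat_lit 4) (nat_lit 345) (nat_lit 311) (nat_lit 244))))) (XT.nd (nat_lit 312) (nat_lit 228) (nat_lit 0) (XT.nd (nat_lit 156) (nat_lit 152) (nat_lit 0) (XT.nd (nat_lit 78) (nat_lit 76) (nat_lit 0) (XT.lf (nat_lit 0) (nat_lit 34941701029) (nat_lit 76) (nat_lit 3417906456) (nat_lit 152) (nat_lit 12755910876) (nat_lit 17) (nat_lit 5) (nat_lit 18) (nat_lit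 5) (nat_lit 19) (nat_lit 4) (nat_lit 346) (nat_lit 311) (nat_lit 243)) (XT.lf (nat_lit 0) (nat_lit 7279853504) (nat_lit 76) (nat_lit 44193723202) (nat_lit 76) (nat_lit 2652887780) (nat_lit 16) (nat_lit 4) (nat_lit 17) (nat_lit 5) (nat_lit 17) (nat_lit 4) (nat_lit 347) (nat_lit 311) (nat_lit 242))) (XT.nd (nat_lit 78) (nat_lit 76) (nat_lit 0) (XT.lf (nat_lit 0) (nat_lit 8376982714) (nat_lit 152) (nat_lit 24131988907) (nat_lit 76) (nat_lit 24810892935) (nat_lit 15) (nat_lit 5) (nat_lit 17) (nat_lit 5) (nat_lit 16) (nat_lit 4) (nat_lit 348) (nat_lit 311) (nat_lit 241)) (XT.lf (nat_lit 0) (nat_lit 328983096) (nat_lit 76) (nat_lit 19814883209) (nat_lit 152) (nat_lit 40619526813) (nat_lit 14) (nat_lit 5) (nat_lit 15) (nat_lit 5) (nat_lit 16) (nat_lit 4) (nat_lit 349) (nat_lit 311) (nat_lit 240)))) (XT.nd (nat_lit 156) (nat_lit 228) (nat_lit 0) (XT.nd (nat_lit 78) (nat_lit 0) (nat_lit 0) (XT.lf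 (nat_lit 0) (nat_lit 28101334804) (nat_lit 76) (nat_lit 5400920793) (nat_lit 152) (nat_lit 30928140448) (nat_lit 14) (nat_lit 5) (nat_lit 15) (nat_lit 5) (nat_lit 16) (nat_lit 4) (nat_lit 350) (nat_lit 311) (nat_lit 239)) (XT.lf (nat_lit 0) (nat_lit 48164687652) (nat_lit 152) (nat_lit 10556895957) (nat_lit 0) (nat_lit 9650350023) (nat_lit 14) (nat_lit 5) (nat_lit 16) (nat_lit 4) (nat_lit 14) (nat_lit 4) (nat_lit 351) (nat_lit 311) (nat_lit 238))) (XT.nd (nat_lit 78) (nat_lit 152) (nat_lit 0) (XT.lf (nat_lit 0) (nat_lit 18022468501) (nat_lit 76) (nat_lit 46542921391) (nat_lit 76) (nat_lit 8018186130) (nat_lit 13) (nat_lit 4) (nat_lit 14) (nat_lit 5) (nat_lit 14) (nat_lit 4) (nat_lit 352) (nat_lit 311) (nat_lit 237)) (XT.nd (nat_lit 78) (nat_lit 76) (nat_lit 0) (XT.lf (nat_lit 0) (nat_lit 5176305619) (nat_lit 152) (nat_lit 27767647009) (nat_lit 76) (nat_lit 44155281094) (nat_lit 12) (nat_lit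 5) (nat_lit 14) (nat_lit 5) (nat_lit 13) (nat_lit 4) (nat_lit 353) (nat_lit 311) (nat_lit 236)) (XT.lf (nat_lit 0) (nat_lit 996141767) (nat_lit 76) (nat_lit 18013194174) (nat_lit 152) (nat_lit 62948856420) (nat_lit 11) (nat_lit 5) (nat_lit 12) (nat_lit 5) (nat_lit 13) (nat_lit 4) (nat_lit 354) (nat_lit 311) (nat_lit 235))))))))
noncomputable def xc131 : XT := (XT.nd (nat_lit 1326) (nat_lit 228) (nat_lit 0) (XT.nd (nat_lit 624) (nat_lit 228) (nat_lit 0) (XT.nd (nat_lit 312) (nat_lit 152) (nat_lit 0) (XT.nd (nat_lit 156) (nat_lit 76) (nat_lit 0) (XT.nd (nat_lit 78) (nat_lit 0) (nat_lit 0) (XT.lf (nat_lit 0) (nat_lit 33625861822) (nat_lit 76) (nat_lit 1074807787) (nat_lit 152) (nat_lit 52445068035) (nat_lit 11) (nat_lit 5) (nat_lit 12) (nat_lit 5) (nat_lit 13) (nat_lit 4) (nat_lit 355) (nat_lit 311) (nat_lit 234)) (XT.lf (nat_lit 0) (nat_lit 52054271705) (nat_lit 152) (nat_lit 24310127279)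 (nat_lit 0) (nat_lit 16351333244) (nat_lit 11) (nat_lit 5) (nat_lit 13) (nat_lit 4) (nat_lit 11) (nat_lit 4) (nat_lit 356) (nat_lit 311) (nat_lit 233))) (XT.nd (nat_lit 78) (nat_lit 0) (nat_lit 0) (XT.lf (nat_lit 0) (nat_lit 7574725395) (nat_lit 76) (nat_lit 63424908204) (nat_lit 76) (nat_lit 27715417472) (nat_lit 10) (nat_lit 4) (nat_lit 11) (nat_lit 5) (nat_lit 11) (nat_lit 4) (nat_lit 357) (nat_lit 311) (nat_lit 232)) (XT.lf (nat_lit 0) (nat_lit 43380548595) (nat_lit 76) (nat_lit 48738333072) (nat_lit 76) (nat_lit 13022775420) (nat_lit 10) (nat_lit 4) (nat_lit 11) (nat_lit 5) (nat_lit 11) (nat_lit 4) (nat_lit 358) (nat_lit 311) (nat_lit 231)))) (XT.nd (nat_lit 156) (nat_lit 0) (nat_lit 0) (XT.nd (nat_lit 78) (nat_lit 76) (nat_lit 0) (XT.lf (nat_lit 0) (nat_lit 2696840343) (nat_lit 152) (nat_lit 30111747253) (nat_lit 76) (nat_lit 79268820016) (nat_lit 9) (nat_lit 5) (nat_lit 11) (nat_lit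 5) (nat_lit 10) (nat_lit 4) (nat_lit 359) (nat_lit 311) (nat_lit 230)) (XT.lf (nat_lit 0) (nat_lit 3916326611) (nat_lit 76) (nat_lit 15142665304) (nat_lit 152) (nat_lit 100474884960) (nat_lit 8) (nat_lit 5) (nat_lit 9) (nat_lit 5) (nat_lit 10) (nat_lit 4) (nat_lit 360) (nat_lit 311) (nat_lit 229))) (XT.nd (nat_lit 78) (nat_lit 0) (nat_lit 0) (XT.lf (nat_lit 0) (nat_lit 37663869455) (nat_lit 152) (nat_lit 85268863784) (nat_lit 0) (nat_lit 4579431781) (nat_lit 8) (nat_lit 5) (nat_lit 10) (nat_lit 4) (nat_lit 8) (nat_lit 4) (nat_lit 361) (nat_lit 311) (nat_lit 228)) (XT.lf (nat_lit 0) (nat_lit 58145255971) (nat_lit 152) (nat_lit 52895723018) (nat_lit 0) (nat_lit 25056689253) (nat_lit 8) (nat_lit 5) (nat_lit 10) (nat_lit 4) (nat_lit 8) (nat_lit 4) (nat_lit 362) (nat_lit 311) (nat_lit 227))))) (XT.nd (nat_lit 312) (nat_lit 152) (nat_lit 0) (XT.nd (nat_lit 156) (nat_lit 0) (nat_lit 0) (XT.nd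 (nat_lit 78) (nat_lit 76) (nat_lit 0) (XT.lf (nat_lit 0) (nat_lit 80260341176) (nat_lit 152) (nat_lit 17942105667) (nat_lit 0) (nat_lit 47167951271) (nat_lit 8) (nat_lit 5) (nat_lit 10) (nat_lit 4) (nat_lit 8) (nat_lit 4) (nat_lit 363) (nat_lit 311) (nat_lit 226)) (XT.lf (nat_lit 0) (nat_lit 20841707430) (nat_lit 76) (nat_lit 83799713562) (nat_lit 76) (nat_lit 50703783668) (nat_lit 7) (nat_lit 4) (nat_lit 8) (nat_lit 5) (nat_lit 8) (nat_lit 4) (nat_lit 364) (nat_lit 311) (nat_lit 225))) (XT.nd (nat_lit 78) (nat_lit 0) (nat_lit 0) (XT.lf (nat_lit 0) (nat_lit 63740148520) (nat_lit 76) (nat_lit 67719078451) (nat_lit 76) (nat_lit 34619870790) (nat_lit 7) (nat_lit 4) (nat_lit 8) (nat_lit 5) (nat_lit 8) (nat_lit 4) (nat_lit 365) (nat_lit 311) (nat_lit 224)) (XT.lf (nat_lit 0) (nat_lit 110062631098) (nat_lit 76) (nat_lit 50355817823) (nat_lit 76) (nat_lit 17253575192) (nat_lit 7) (nat_lit 4)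 (nat_lit 8) (nat_lit 5) (nat_lit 8) (nat_lit 4) (nat_lit 366) (nat_lit 311) (nat_lit 223)))) (XT.nd (nat_lit 156) (nat_lit 0) (nat_lit 0) (XT.nd (nat_lit 78) (nat_lit 76) (nat_lit 0) (XT.lf (nat_lit 0) (nat_lit 1423077754) (nat_lit 152) (nat_lit 30145051058) (nat_lit 76) (nat_lit 158621671542) (nat_lit 6) (nat_lit 5) (nat_lit 8) (nat_lit 5) (nat_lit 7) (nat_lit 4) (nat_lit 367) (nat_lit 311) (nat_lit 222)) (XT.lf (nat_lit 0) (nat_lit 10380673971) (nat_lit 76) (nat_lit 10527176392) (nat_lit 152) (nat_lit 182745607349) (nat_lit 5) (nat_lit 5) (nat_lit 6) (nat_lit 5) (nat_lit 7) (nat_lit 4) (nat_lit 368) (nat_lit 311) (nat_lit 221))) (XT.nd (nat_lit 78) (nat_lit 0) (nat_lit 0) (XT.lf (nat_lit 0) (nat_lit 43086864815) (nat_lit 152) (nat_lit 162587108757) (nat_lit 0) (nat_lit 12429398109) (nat_lit 5) (nat_lit 5) (nat_lit 7) (nat_lit 4) (nat_lit 5) (nat_lit 4) (nat_lit 369) (nat_lit 311) (nat_lit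 220)) (XT.nd (nat_lit 78) (nat_lit 0) (nat_lit 0) (XT.lf (nat_lit 0) (nat_lit 67310386564) (nat_lit 152) (nat_lit 129726423765) (nat_lit 0) (nat_lit 36650854308) (nat_lit 5) (nat_lit 5) (nat_lit 7) (nat_lit 4) (nat_lit 5) (nat_lit 4) (nat_lit 370) (nat_lit 311) (nat_lit 219)) (XT.lf (nat_lit 0) (nat_lit 93468783561) (nat_lit 152) (nat_lit 94242819938) (nat_lit 0) (nat_lit 62807338760) (nat_lit 5) (nat_lit 5) (nat_lit 7) (nat_lit 4) (nat_lit 5) (nat_lit 4) (nat_lit 371) (nat_lit 311) (nat_lit 218))))))) (XT.nd (nat_lit 702) (nat_lit 152) (nat_lit 0) (XT.nd (nat_lit 312) (nat_lit 0) (nat_lit 0) (XT.nd (nat_lit 156) (nat_lit 76) (nat_lit 0) (XT.nd (nat_lit 78) (nat_lit 0) (nat_lit 0) (XT.lf (nat_lit 0) (nat_lit 121717068529) (nat_lit 152) (nat_lit 55926024066) (nat_lit 0) (nat_lit 91053852853) (nat_lit 5) (nat_lit 5) (nat_lit 7) (nat_lit 4) (nat_lit 5) (nat_lit 4) (nat_lit 372) (nat_lit 311)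 (nat_lit 217)) (XT.lf (nat_lit 0) (nat_lit 152222638713) (nat_lit 152) (nat_lit 14548973655) (nat_lit 0) (nat_lit 121557783336) (nat_lit 5) (nat_lit 5) (nat_lit 7) (nat_lit 4) (nat_lit 5) (nat_lit 4) (nat_lit 373) (nat_lit 311) (nat_lit 216))) (XT.nd (nat_lit 78) (nat_lit 0) (nat_lit 0) (XT.lf (nat_lit 0) (nat_lit 31720306845) (nat_lit 76) (nat_lit 154208835158) (nat_lit 76) (nat_lit 123542461541) (nat_lit 4) (nat_lit 4) (nat_lit 5) (nat_lit 5) (nat_lit 5) (nat_lit 4) (nat_lit 374) (nat_lit 311) (nat_lit 215)) (XT.lf (nat_lit 0) (nat_lit 82513949946) (nat_lit 76) (nat_lit 140213690014) (nat_lit 76) (nat_lit 109545910618) (nat_lit 4) (nat_lit 4) (nat_lit 5) (nat_lit 5) (nat_lit 5) (nat_lit 4) (nat_lit 375) (nat_lit 311) (nat_lit 214)))) (XT.nd (nat_lit 156) (nat_lit 0) (nat_lit 0) (XT.nd (nat_lit 78) (nat_lit 0) (nat_lit 0) (XT.lf (nat_lit 0) (nat_lit 137366831844) (nat_lit 76) (nat_lit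 125101037465) (nat_lit 76) (nat_lit 94431956423) (nat_lit 4) (nat_lit 4) (nat_lit 5) (nat_lit 5) (nat_lit 5) (nat_lit 4) (nat_lit 376) (nat_lit 311) (nat_lit 213)) (XT.lf (nat_lit 0) (nat_lit 196604006653) (nat_lit 76) (nat_lit 108781321052) (nat_lit 76) (nat_lit 78111034782) (nat_lit 4) (nat_lit 4) (nat_lit 5) (nat_lit 5) (nat_lit 5) (nat_lit 4) (nat_lit 377) (nat_lit 311) (nat_lit 212))) (XT.nd (nat_lit 78) (nat_lit 0) (nat_lit 0) (XT.lf (nat_lit 0) (nat_lit 260576509485) (nat_lit 76) (nat_lit 91157831344) (nat_lit 76) (nat_lit 60486429122) (nat_lit 4) (nat_lit 4) (nat_lit 5) (nat_lit 5) (nat_lit 5) (nat_lit 4) (nat_lit 378) (nat_lit 311) (nat_lit 211)) (XT.nd (nat_lit 78) (nat_lit 0) (nat_lit 0) (XT.lf (nat_lit 0) (nat_lit 329663436651) (nat_lit 76) (nat_lit 72126132848) (nat_lit 76) (nat_lit 41453697337) (nat_lit 4) (nat_lit 4) (nat_lit 5) (nat_lit 5) (nat_lit 5) (nat_lit 4) (nat_lit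 379) (nat_lit 311) (nat_lit 210)) (XT.lf (nat_lit 0) (nat_lit 404274192164) (nat_lit 76) (nat_lit 51573445127) (nat_lit 76) (nat_lit 20900052867) (nat_lit 4) (nat_lit 4) (nat_lit 5) (nat_lit 5) (nat_lit 5) (nat_lit 4) (nat_lit 380) (nat_lit 311) (nat_lit 209)))))) (XT.nd (nat_lit 312) (nat_lit 0) (nat_lit 0) (XT.nd (nat_lit 156) (nat_lit 0) (nat_lit 0) (XT.nd (nat_lit 78) (nat_lit 76) (nat_lit 0) (XT.lf (nat_lit 0) (nat_lit 1231457303) (nat_lit 152) (nat_lit 28112846947) (nat_lit 76) (nat_lit 483585786308) (nat_lit 3) (nat_lit 5) (nat_lit 5) (nat_lit 5) (nat_lit 4) (nat_lit 4) (nat_lit 381) (nat_lit 311) (nat_lit 208)) (XT.lf (nat_lit 0) (nat_lit 20264770212) (nat_lit 76) (nat_lit 4225551234) (nat_lit 152) (nat_lit 527434454834) (nat_lit 2) (nat_lit 5) (nat_lit 3) (nat_lit 5) (nat_lit 4) (nat_lit 4) (nat_lit 382) (nat_lit 311) (nat_lit 207))) (XT.nd (nat_lit 78) (nat_lit 0) (nat_lit 0)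 (XT.lf (nat_lit 0) (nat_lit 50947942362) (nat_lit 152) (nat_lit 520439680710) (nat_lit 0) (nat_lit 22544370237) (nat_lit 2) (nat_lit 5) (nat_lit 4) (nat_lit 4) (nat_lit 2) (nat_lit 4) (nat_lit 383) (nat_lit 311) (nat_lit 206)) (XT.lf (nat_lit 0) (nat_lit 79630646957) (nat_lit 152) (nat_lit 508434039377) (nat_lit 0) (nat_lit 51226423685) (nat_lit 2) (nat_lit 5) (nat_lit 4) (nat_lit 4) (nat_lit 2) (nat_lit 4) (nat_lit 384) (nat_lit 311) (nat_lit 205)))) (XT.nd (nat_lit 156) (nat_lit 0) (nat_lit 0) (XT.nd (nat_lit 78) (nat_lit 0) (nat_lit 0) (XT.lf (nat_lit 0) (nat_lit 110606782207) (nat_lit 152) (nat_lit 495470312920) (nat_lit 0) (nat_lit 82201956020) (nat_lit 2) (nat_lit 5) (nat_lit 4) (nat_lit 4) (nat_lit 2) (nat_lit 4) (nat_lit 385) (nat_lit 311) (nat_lit 204)) (XT.lf (nat_lit 0) (nat_lit 144059910394) (nat_lit 152) (nat_lit 481471679255) (nat_lit 0) (nat_lit 115654525953) (nat_lit 2)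 (nat_lit 5) (nat_lit 4) (nat_lit 4) (nat_lit 2) (nat_lit 4) (nat_lit 386) (nat_lit 311) (nat_lit 203))) (XT.nd (nat_lit 78) (nat_lit 0) (nat_lit 0) (XT.lf (nat_lit 0) (nat_lit 180188272277) (nat_lit 152) (nat_lit 466355183518) (nat_lit 0) (nat_lit 151782370935) (nat_lit 2) (nat_lit 5) (nat_lit 4) (nat_lit 4) (nat_lit 2) (nat_lit 4) (nat_lit 387) (nat_lit 311) (nat_lit 202)) (XT.nd (nat_lit 78) (nat_lit 0) (nat_lit 0) (XT.lf (nat_lit 0) (nat_lit 219205961854) (nat_lit 152) (nat_lit 450031246472) (nat_lit 0) (nat_lit 190799581899) (nat_lit 2) (nat_lit 5) (nat_lit 4) (nat_lit 4) (nat_lit 2) (nat_lit 4) (nat_lit 388) (nat_lit 311) (nat_lit 201)) (XT.lf (nat_lit 0) (nat_lit 261344195062) (nat_lit 152) (nat_lit 432403133678) (nat_lit 0) (nat_lit 232937371947) (nat_lit 2) (nat_lit 5) (nat_lit 4) (nat_lit 4) (nat_lit 2) (nat_lit 4) (nat_lit 389) (nat_lit 311) (nat_lit 200))))))))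
noncomputable def xc132 : XT := (XT.nd (nat_lit 1326) (nat_lit 0) (nat_lit 0) (XT.nd (nat_lit 624) (nat_lit 76) (nat_lit 0) (XT.nd (nat_lit 312) (nat_lit 0) (nat_lit 0) (XT.nd (nat_lit 156) (nat_lit 0) (nat_lit 0) (XT.nd (nat_lit 78) (nat_lit 0) (nat_lit 0) (XT.lf (nat_lit 0) (nat_lit 306852679950) (nat_lit 152) (nat_lit 413366382243) (nat_lit 0) (nat_lit 278445446502) (nat_lit 2) (nat_lit 5) (nat_lit 4) (nat_lit 4) (nat_lit 2) (nat_lit 4) (nat_lit 390) (nat_lit 311) (nat_lit 199)) (XT.lf (nat_lit 0) (nat_lit 356001096429) (nat_lit 152) (nat_lit 392808181790) (nat_lit 0) (nat_lit 327593483042) (nat_lit 2) (nat_lit 5) (nat_lit 4) (nat_lit 4) (nat_lit 2) (nat_lit 4) (nat_lit 391) (nat_lit 311) (nat_lit 198))) (XT.nd (nat_lit 78) (nat_lit 0) (nat_lit 0) (XT.lf (nat_lit 0) (nat_lit 409080694373) (nat_lit 152) (nat_lit 370606705945) (nat_lit 0) (nat_lit 380672729192) (nat_lit 2) (nat_lit 5)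 (nat_lit 4) (nat_lit 4) (nat_lit 2) (nat_lit 4) (nat_lit 392) (nat_lit 311) (nat_lit 197)) (XT.lf (nat_lit 0) (nat_lit 466406019549) (nat_lit 152) (nat_lit 346630390407) (nat_lit 0) (nat_lit 437997728632) (nat_lit 2) (nat_lit 5) (nat_lit 4) (nat_lit 4) (nat_lit 2) (nat_lit 4) (nat_lit 393) (nat_lit 311) (nat_lit 196)))) (XT.nd (nat_lit 156) (nat_lit 0) (nat_lit 0) (XT.nd (nat_lit 78) (nat_lit 0) (nat_lit 0) (XT.lf (nat_lit 0) (nat_lit 528316777587) (nat_lit 152) (nat_lit 320737153307) (nat_lit 0) (nat_lit 499908185063) (nat_lit 2) (nat_lit 5) (nat_lit 4) (nat_lit 4) (nat_lit 2) (nat_lit 4) (nat_lit 394) (nat_lit 311) (nat_lit 195)) (XT.lf (nat_lit 0) (nat_lit 595179847053) (nat_lit 152) (nat_lit 292773553238) (nat_lit 0) (nat_lit 566770975263) (nat_lit 2) (nat_lit 5) (nat_lit 4) (nat_lit 4) (nat_lit 2) (nat_lit 4) (nat_lit 395) (nat_lit 311) (nat_lit 194))) (XT.nd (nat_lit 78) (nat_lit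 0) (nat_lit 0) (XT.lf (nat_lit 0) (nat_lit 667391453544) (nat_lit 152) (nat_lit 262573879979) (nat_lit 0) (nat_lit 638982323175) (nat_lit 2) (nat_lit 5) (nat_lit 4) (nat_lit 4) (nat_lit 2) (nat_lit 4) (nat_lit 396) (nat_lit 311) (nat_lit 193)) (XT.lf (nat_lit 0) (nat_lit 745379517691) (nat_lit 152) (nat_lit 229959172502) (nat_lit 0) (nat_lit 716970147896) (nat_lit 2) (nat_lit 5) (nat_lit 4) (nat_lit 4) (nat_lit 2) (nat_lit 4) (nat_lit 397) (nat_lit 311) (nat_lit 192))))) (XT.nd (nat_lit 312) (nat_lit 76) (nat_lit 0) (XT.nd (nat_lit 156) (nat_lit 0) (nat_lit 0) (XT.nd (nat_lit 78) (nat_lit 0) (nat_lit 0) (XT.lf (nat_lit 0) (nat_lit 829606190986) (nat_lit 152) (nat_lit 194736158467) (nat_lit 0) (nat_lit 801196599501) (nat_lit 2) (nat_lit 5) (nat_lit 4) (nat_lit 4) (nat_lit 2) (nat_lit 4) (nat_lit 398) (nat_lit 311) (nat_lit 191)) (XT.lf (nat_lit 0) (nat_lit 920570594455) (nat_lit 152) (nat_lit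 156696108903) (nat_lit 0) (nat_lit 892160797701) (nat_lit 2) (nat_lit 5) (nat_lit 4) (nat_lit 4) (nat_lit 2) (nat_lit 4) (nat_lit 399) (nat_lit 311) (nat_lit 190))) (XT.nd (nat_lit 78) (nat_lit 0) (nat_lit 0) (XT.lf (nat_lit 0) (nat_lit 1018811776416) (nat_lit 152) (nat_lit 115613601293) (nat_lit 0) (nat_lit 990401789598) (nat_lit 2) (nat_lit 5) (nat_lit 4) (nat_lit 4) (nat_lit 2) (nat_lit 4) (nat_lit 400) (nat_lit 311) (nat_lit 189)) (XT.lf (nat_lit 0) (nat_lit 1124911906834) (nat_lit 152) (nat_lit 71245183739) (nat_lit 0) (nat_lit 1096501744032) (nat_lit 2) (nat_lit 5) (nat_lit 4) (nat_lit 4) (nat_lit 2) (nat_lit 4) (nat_lit 401) (nat_lit 311) (nat_lit 188)))) (XT.nd (nat_lit 156) (nat_lit 0) (nat_lit 0) (XT.nd (nat_lit 78) (nat_lit 76) (nat_lit 0) (XT.lf (nat_lit 0) (nat_lit 1239499727225) (nat_lit 152) (nat_lit 23327932288) (nat_lit 0) (nat_lit 1211089401473) (nat_lit 2) (nat_lit 5)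 (nat_lit 4) (nat_lit 4) (nat_lit 2) (nat_lit 4) (nat_lit 402) (nat_lit 311) (nat_lit 187)) (XT.lf (nat_lit 0) (nat_lit 29918764939) (nat_lit 76) (nat_lit 1334055058600) (nat_lit 76) (nat_lit 1305644581970) (nat_lit 1) (nat_lit 4) (nat_lit 2) (nat_lit 5) (nat_lit 2) (nat_lit 4) (nat_lit 403) (nat_lit 311) (nat_lit 186))) (XT.nd (nat_lit 78) (nat_lit 0) (nat_lit 0) (XT.lf (nat_lit 0) (nat_lit 88751300980) (nat_lit 76) (nat_lit 1410292084964) (nat_lit 76) (nat_lit 1381881468632) (nat_lit 1) (nat_lit 4) (nat_lit 2) (nat_lit 5) (nat_lit 2) (nat_lit 4) (nat_lit 404) (nat_lit 311) (nat_lit 185)) (XT.nd (nat_lit 78) (nat_lit 0) (nat_lit 0) (XT.lf (nat_lit 0) (nat_lit 152289905511) (nat_lit 76) (nat_lit 1492628340585) (nat_lit 76) (nat_lit 1464217594898) (nat_lit 1) (nat_lit 4) (nat_lit 2) (nat_lit 5) (nat_lit 2) (nat_lit 4) (nat_lit 405) (nat_lit 311) (nat_lit 184)) (XT.lf (nat_lit 0) (nat_lit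 220911103597) (nat_lit 76) (nat_lit 1581551744014) (nat_lit 76) (nat_lit 1553140878555) (nat_lit 1) (nat_lit 4) (nat_lit 2) (nat_lit 5) (nat_lit 2) (nat_lit 4) (nat_lit 406) (nat_lit 311) (nat_lit 183))))))) (XT.nd (nat_lit 39624) (nat_lit 0) (nat_lit 3420) (XT.nd (nat_lit 312) (nat_lit 0) (nat_lit 0) (XT.nd (nat_lit 156) (nat_lit 0) (nat_lit 0) (XT.nd (nat_lit 78) (nat_lit 0) (nat_lit 0) (XT.lf (nat_lit 0) (nat_lit 295021539375) (nat_lit 76) (nat_lit 1677589248754) (nat_lit 76) (nat_lit 1649178272394) (nat_lit 1) (nat_lit 4) (nat_lit 2) (nat_lit 5) (nat_lit 2) (nat_lit 4) (nat_lit 407) (nat_lit 311) (nat_lit 182)) (XT.lf (nat_lit 0) (nat_lit 375060385797) (nat_lit 76) (nat_lit 1781309965943) (nat_lit 76) (nat_lit 1752898886898) (nat_lit 1) (nat_lit 4) (nat_lit 2) (nat_lit 5) (nat_lit 2) (nat_lit 4) (nat_lit 408) (nat_lit 311) (nat_lit 181))) (XT.nd (nat_lit 78) (nat_lit 0) (nat_lit 0)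 (XT.lf (nat_lit 0) (nat_lit 461501947138) (nat_lit 76) (nat_lit 1893328536869) (nat_lit 76) (nat_lit 1864917362745) (nat_lit 1) (nat_lit 4) (nat_lit 2) (nat_lit 5) (nat_lit 2) (nat_lit 4) (nat_lit 409) (nat_lit 311) (nat_lit 180)) (XT.lf (nat_lit 0) (nat_lit 554858469687) (nat_lit 76) (nat_lit 2014308775286) (nat_lit 76) (nat_lit 1985897513125) (nat_lit 1) (nat_lit 4) (nat_lit 2) (nat_lit 5) (nat_lit 2) (nat_lit 4) (nat_lit 410) (nat_lit 311) (nat_lit 179)))) (XT.nd (nat_lit 39156) (nat_lit 0) (nat_lit 4028) (XT.nd (nat_lit 78) (nat_lit 0) (nat_lit 0) (XT.lf (nat_lit 0) (nat_lit 655683177283) (nat_lit 76) (nat_lit 2144967601124) (nat_lit 76) (nat_lit 2116556257449) (nat_lit 1) (nat_lit 4) (nat_lit 2) (nat_lit 5) (nat_lit 2) (nat_lit 4) (nat_lit 411) (nat_lit 311) (nat_lit 178)) (XT.lf (nat_lit 0) (nat_lit 764573549673) (nat_lit 76) (nat_lit 2286079288908) (nat_lit 76) (nat_lit 2257667869755)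 (nat_lit 1) (nat_lit 4) (nat_lit 2) (nat_lit 5) (nat_lit 2) (nat_lit 4) (nat_lit 412) (nat_lit 311) (nat_lit 177))) (XT.nd (nat_lit 78) (nat_lit 0) (nat_lit 0) (XT.lf (nat_lit 0) (nat_lit 1434507692) (nat_lit 532) (nat_lit 1951173785) (nat_lit 532) (nat_lit 1951173785) (nat_lit 54) (nat_lit 3) (nat_lit 61) (nat_lit 3) (nat_lit 61) (nat_lit 5) (nat_lit 312) (nat_lit 312) (nat_lit 276)) (XT.lf (nat_lit 76) (nat_lit 1218717396) (nat_lit 0) (nat_lit 2370104542) (nat_lit 532) (nat_lit 7462381643) (nat_lit 55) (nat_lit 5) (nat_lit 54) (nat_lit 3) (nat_lit 61) (nat_lit 5) (nat_lit 313) (nat_lit 312) (nat_lit 275))))) (XT.nd (nat_lit 312) (nat_lit 684) (nat_lit 0) (XT.nd (nat_lit 156) (nat_lit 0) (nat_lit 76) (XT.nd (nat_lit 78) (nat_lit 0) (nat_lit 0) (XT.lf (nat_lit 0) (nat_lit 4475224227) (nat_lit 456) (nat_lit 4577241368) (nat_lit 532) (nat_lit 2397814809) (nat_lit 55) (nat_lit 5) (nat_lit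 61) (nat_lit 5) (nat_lit 62) (nat_lit 5) (nat_lit 314) (nat_lit 312) (nat_lit 274)) (XT.lf (nat_lit 76) (nat_lit 1054238121) (nat_lit 0) (nat_lit 4411721214) (nat_lit 532) (nat_lit 6412747813) (nat_lit 56) (nat_lit 5) (nat_lit 55) (nat_lit 5) (nat_lit 62) (nat_lit 5) (nat_lit 315) (nat_lit 312) (nat_lit 273))) (XT.nd (nat_lit 78) (nat_lit 0) (nat_lit 0) (XT.lf (nat_lit 0) (nat_lit 6628811603) (nat_lit 456) (nat_lit 4991502956) (nat_lit 532) (nat_lit 713755012) (nat_lit 56) (nat_lit 5) (nat_lit 62) (nat_lit 5) (nat_lit 63) (nat_lit 5) (nat_lit 316) (nat_lit 312) (nat_lit 272)) (XT.lf (nat_lit 76) (nat_lit 1218377685) (nat_lit 0) (nat_lit 6763929691) (nat_lit 532) (nat_lit 4835827914) (nat_lit 57) (nat_lit 5) (nat_lit 56) (nat_lit 5) (nat_lit 63) (nat_lit 5) (nat_lit 317) (nat_lit 312) (nat_lit 271)))) (XT.nd (nat_lit 156) (nat_lit 380) (nat_lit 0) (XT.nd (nat_lit 78) (nat_lit 380) (nat_lit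 0) (XT.lf (nat_lit 76) (nat_lit 8173752670) (nat_lit 0) (nat_lit 1363111967) (nat_lit 532) (nat_lit 3796716422) (nat_lit 57) (nat_lit 5) (nat_lit 56) (nat_lit 5) (nat_lit 63) (nat_lit 5) (nat_lit 318) (nat_lit 312) (nat_lit 270)) (XT.lf (nat_lit 0) (nat_lit 1738714115) (nat_lit 456) (nat_lit 9586118413) (nat_lit 532) (nat_lit 2556777889) (nat_lit 51) (nat_lit 5) (nat_lit 57) (nat_lit 5) (nat_lit 58) (nat_lit 5) (nat_lit 319) (nat_lit 312) (nat_lit 269))) (XT.nd (nat_lit 78) (nat_lit 380) (nat_lit 0) (XT.lf (nat_lit 0) (nat_lit 9410166592) (nat_lit 456) (nat_lit 3983128629) (nat_lit 532) (nat_lit 1069256618) (nat_lit 51) (nat_lit 5) (nat_lit 57) (nat_lit 5) (nat_lit 58) (nat_lit 5) (nat_lit 320) (nat_lit 312) (nat_lit 268)) (XT.nd (nat_lit 78) (nat_lit 0) (nat_lit 0) (XT.lf (nat_lit 0) (nat_lit 590664493) (nat_lit 380) (nat_lit 12445881385) (nat_lit 76) (nat_lit 2046023893) (nat_lit 46)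 (nat_lit 5) (nat_lit 51) (nat_lit 5) (nat_lit 47) (nat_lit 5) (nat_lit 321) (nat_lit 312) (nat_lit 267)) (XT.lf (nat_lit 0) (nat_lit 2536414219) (nat_lit 380) (nat_lit 4684196138) (nat_lit 76) (nat_lit 8512545380) (nat_lit 46) (nat_lit 5) (nat_lit 51) (nat_lit 5) (nat_lit 47) (nat_lit 5) (nat_lit 322) (nat_lit 312) (nat_lit 266))))))))
noncomputable def xc133 : XT := (XT.nd (nat_lit 1326) (nat_lit 912) (nat_lit 0) (XT.nd (nat_lit 624) (nat_lit 836) (nat_lit 0) (XT.nd (nat_lit 312) (nat_lit 456) (nat_lit 0) (XT.nd (nat_lit 156) (nat_lit 228) (nat_lit 0) (XT.nd (nat_lit 78) (nat_lit 0) (nat_lit 0) (XT.lf (nat_lit 0) (nat_lit 3857638477) (nat_lit 228) (nat_lit 841124169) (nat_lit 304) (nat_lit 11732199573) (nat_lit 43) (nat_lit 5) (nat_lit 46) (nat_lit 5) (nat_lit 47) (nat_lit 5) (nat_lit 323) (nat_lit 312) (nat_lit 265)) (XT.lf (nat_lit 0) (nat_lit 7280637679) (nat_lit 304) (nat_lit 4009240393)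 (nat_lit 76) (nat_lit 5875037176) (nat_lit 43) (nat_lit 5) (nat_lit 47) (nat_lit 5) (nat_lit 44) (nat_lit 5) (nat_lit 324) (nat_lit 312) (nat_lit 264))) (XT.nd (nat_lit 78) (nat_lit 0) (nat_lit 0) (XT.lf (nat_lit 0) (nat_lit 5458484336) (nat_lit 228) (nat_lit 4735615419) (nat_lit 304) (nat_lit 7753523586) (nat_lit 40) (nat_lit 5) (nat_lit 43) (nat_lit 5) (nat_lit 44) (nat_lit 5) (nat_lit 325) (nat_lit 312) (nat_lit 263)) (XT.lf (nat_lit 0) (nat_lit 13482559371) (nat_lit 304) (nat_lit 2965662348) (nat_lit 76) (nat_lit 2333411404) (nat_lit 40) (nat_lit 5) (nat_lit 44) (nat_lit 5) (nat_lit 41) (nat_lit 5) (nat_lit 326) (nat_lit 312) (nat_lit 262)))) (XT.nd (nat_lit 156) (nat_lit 228) (nat_lit 0) (XT.nd (nat_lit 78) (nat_lit 76) (nat_lit 0) (XT.lf (nat_lit 0) (nat_lit 7542589430) (nat_lit 152) (nat_lit 9771005676) (nat_lit 228) (nat_lit 2346444459) (nat_lit 38) (nat_lit 5) (nat_lit 40) (nat_lit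 5) (nat_lit 41) (nat_lit 5) (nat_lit 327) (nat_lit 312) (nat_lit 261)) (XT.lf (nat_lit 0) (nat_lit 859003472) (nat_lit 228) (nat_lit 1596369750) (nat_lit 76) (nat_lit 18147055377) (nat_lit 37) (nat_lit 5) (nat_lit 40) (nat_lit 5) (nat_lit 38) (nat_lit 5) (nat_lit 328) (nat_lit 312) (nat_lit 260))) (XT.nd (nat_lit 78) (nat_lit 0) (nat_lit 0) (XT.lf (nat_lit 0) (nat_lit 4555187200) (nat_lit 304) (nat_lit 11550921752) (nat_lit 76) (nat_lit 5480366999) (nat_lit 34) (nat_lit 5) (nat_lit 38) (nat_lit 5) (nat_lit 35) (nat_lit 5) (nat_lit 329) (nat_lit 312) (nat_lit 259)) (XT.lf (nat_lit 0) (nat_lit 8633800257) (nat_lit 304) (nat_lit 52251375) (nat_lit 76) (nat_lit 13956283020) (nat_lit 34) (nat_lit 5) (nat_lit 38) (nat_lit 5) (nat_lit 35) (nat_lit 5) (nat_lit 330) (nat_lit 312) (nat_lit 258))))) (XT.nd (nat_lit 312) (nat_lit 304) (nat_lit 0) (XT.nd (nat_lit 156) (nat_lit 228) (nat_lit 0) (XT.nd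 (nat_lit 78) (nat_lit 152) (nat_lit 0) (XT.lf (nat_lit 0) (nat_lit 12987865013) (nat_lit 152) (nat_lit 342989721) (nat_lit 228) (nat_lit 10428459506) (nat_lit 32) (nat_lit 5) (nat_lit 34) (nat_lit 5) (nat_lit 35) (nat_lit 5) (nat_lit 331) (nat_lit 312) (nat_lit 257)) (XT.lf (nat_lit 0) (nat_lit 1969854914) (nat_lit 152) (nat_lit 16671550062) (nat_lit 228) (nat_lit 6305251282) (nat_lit 30) (nat_lit 5) (nat_lit 32) (nat_lit 5) (nat_lit 33) (nat_lit 5) (nat_lit 332) (nat_lit 312) (nat_lit 256))) (XT.nd (nat_lit 78) (nat_lit 228) (nat_lit 0) (XT.lf (nat_lit 0) (nat_lit 16305578394) (nat_lit 152) (nat_lit 8355624841) (nat_lit 228) (nat_lit 1545050985) (nat_lit 30) (nat_lit 5) (nat_lit 32) (nat_lit 5) (nat_lit 33) (nat_lit 5) (nat_lit 333) (nat_lit 312) (nat_lit 255)) (XT.lf (nat_lit 0) (nat_lit 3521988533) (nat_lit 228) (nat_lit 23248188179) (nat_lit 76) (nat_lit 781069947) (nat_lit 27) (nat_lit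 5) (nat_lit 30) (nat_lit 5) (nat_lit 28) (nat_lit 5) (nat_lit 334) (nat_lit 312) (nat_lit 254)))) (XT.nd (nat_lit 156) (nat_lit 152) (nat_lit 0) (XT.nd (nat_lit 78) (nat_lit 152) (nat_lit 0) (XT.lf (nat_lit 0) (nat_lit 9388284944) (nat_lit 228) (nat_lit 9067678295) (nat_lit 76) (nat_lit 10506492022) (nat_lit 27) (nat_lit 5) (nat_lit 30) (nat_lit 5) (nat_lit 28) (nat_lit 5) (nat_lit 335) (nat_lit 312) (nat_lit 253)) (XT.lf (nat_lit 0) (nat_lit 6549481690) (nat_lit 152) (nat_lit 9315811305) (nat_lit 228) (nat_lit 14609970286) (nat_lit 25) (nat_lit 5) (nat_lit 27) (nat_lit 5) (nat_lit 28) (nat_lit 5) (nat_lit 336) (nat_lit 312) (nat_lit 252))) (XT.nd (nat_lit 78) (nat_lit 152) (nat_lit 0) (XT.lf (nat_lit 0) (nat_lit 23112455817) (nat_lit 228) (nat_lit 8203171967) (nat_lit 76) (nat_lit 773322855) (nat_lit 25) (nat_lit 5) (nat_lit 28) (nat_lit 5) (nat_lit 26) (nat_lit 4) (nat_lit 337) (nat_lit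 312) (nat_lit 251)) (XT.nd (nat_lit 78) (nat_lit 76) (nat_lit 0) (XT.lf (nat_lit 0) (nat_lit 8959572511) (nat_lit 76) (nat_lit 22422698645) (nat_lit 152) (nat_lit 2414044642) (nat_lit 24) (nat_lit 5) (nat_lit 25) (nat_lit 5) (nat_lit 26) (nat_lit 4) (nat_lit 338) (nat_lit 312) (nat_lit 250)) (XT.lf (nat_lit 0) (nat_lit 4655308839) (nat_lit 152) (nat_lit 7802754695) (nat_lit 76) (nat_lit 23155971115) (nat_lit 23) (nat_lit 5) (nat_lit 25) (nat_lit 5) (nat_lit 24) (nat_lit 5) (nat_lit 339) (nat_lit 312) (nat_lit 249))))))) (XT.nd (nat_lit 624) (nat_lit 456) (nat_lit 0) (XT.nd (nat_lit 312) (nat_lit 228) (nat_lit 0) (XT.nd (nat_lit 156) (nat_lit 76) (nat_lit 0) (XT.nd (nat_lit 78) (nat_lit 0) (nat_lit 0) (XT.lf (nat_lit 0) (nat_lit 11062351993) (nat_lit 152) (nat_lit 1350130663) (nat_lit 228) (nat_lit 25139467156) (nat_lit 21) (nat_lit 5) (nat_lit 23) (nat_lit 5) (nat_lit 24) (nat_lit 5) (nat_lit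 340) (nat_lit 312) (nat_lit 248)) (XT.lf (nat_lit 0) (nat_lit 21252057988) (nat_lit 228) (nat_lit 8031549100) (nat_lit 76) (nat_lit 10324354576) (nat_lit 21) (nat_lit 5) (nat_lit 24) (nat_lit 5) (nat_lit 22) (nat_lit 4) (nat_lit 341) (nat_lit 312) (nat_lit 247))) (XT.nd (nat_lit 78) (nat_lit 0) (nat_lit 0) (XT.lf (nat_lit 0) (nat_lit 12471051194) (nat_lit 76) (nat_lit 18650614150) (nat_lit 152) (nat_lit 10680968804) (nat_lit 20) (nat_lit 5) (nat_lit 21) (nat_lit 5) (nat_lit 22) (nat_lit 4) (nat_lit 342) (nat_lit 312) (nat_lit 246)) (XT.lf (nat_lit 0) (nat_lit 35050272862) (nat_lit 76) (nat_lit 6938443055) (nat_lit 152) (nat_lit 2167542843) (nat_lit 20) (nat_lit 5) (nat_lit 21) (nat_lit 5) (nat_lit 22) (nat_lit 4) (nat_lit 343) (nat_lit 312) (nat_lit 245)))) (XT.nd (nat_lit 156) (nat_lit 76) (nat_lit 0) (XT.nd (nat_lit 78) (nat_lit 0) (nat_lit 0) (XT.lf (nat_lit 0) (nat_lit 7131783858)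 (nat_lit 152) (nat_lit 33599874718) (nat_lit 76) (nat_lit 5916494522) (nat_lit 18) (nat_lit 5) (nat_lit 20) (nat_lit 5) (nat_lit 19) (nat_lit 4) (nat_lit 344) (nat_lit 312) (nat_lit 244)) (XT.lf (nat_lit 0) (nat_lit 17482643328) (nat_lit 152) (nat_lit 12089332313) (nat_lit 76) (nat_lit 19728950726) (nat_lit 18) (nat_lit 5) (nat_lit 20) (nat_lit 5) (nat_lit 19) (nat_lit 4) (nat_lit 345) (nat_lit 312) (nat_lit 243))) (XT.nd (nat_lit 78) (nat_lit 0) (nat_lit 0) (XT.lf (nat_lit 0) (nat_lit 11709656289) (nat_lit 76) (nat_lit 17223375652) (nat_lit 152) (nat_lit 23211178827) (nat_lit 17) (nat_lit 5) (nat_lit 18) (nat_lit 5) (nat_lit 19) (nat_lit 4) (nat_lit 346) (nat_lit 312) (nat_lit 242)) (XT.lf (nat_lit 0) (nat_lit 38082393181) (nat_lit 76) (nat_lit 3537771754) (nat_lit 152) (nat_lit 13569141571) (nat_lit 17) (nat_lit 5) (nat_lit 18) (nat_lit 5) (nat_lit 19) (nat_lit 4) (nat_lit 347) (nat_lit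 312) (nat_lit 241))))) (XT.nd (nat_lit 312) (nat_lit 228) (nat_lit 0) (XT.nd (nat_lit 156) (nat_lit 76) (nat_lit 0) (XT.nd (nat_lit 78) (nat_lit 76) (nat_lit 0) (XT.lf (nat_lit 0) (nat_lit 8210316968) (nat_lit 76) (nat_lit 47570519079) (nat_lit 76) (nat_lit 2660493691) (nat_lit 16) (nat_lit 4) (nat_lit 17) (nat_lit 5) (nat_lit 17) (nat_lit 4) (nat_lit 348) (nat_lit 312) (nat_lit 240)) (XT.lf (nat_lit 0) (nat_lit 9227131087) (nat_lit 152) (nat_lit 25730690749) (nat_lit 76) (nat_lit 26933145213) (nat_lit 15) (nat_lit 5) (nat_lit 17) (nat_lit 5) (nat_lit 16) (nat_lit 4) (nat_lit 349) (nat_lit 312) (nat_lit 239))) (XT.nd (nat_lit 78) (nat_lit 0) (nat_lit 0) (XT.lf (nat_lit 0) (nat_lit 678757565) (nat_lit 76) (nat_lit 21251054345) (nat_lit 152) (nat_lit 43680616742) (nat_lit 14) (nat_lit 5) (nat_lit 15) (nat_lit 5) (nat_lit 16) (nat_lit 4) (nat_lit 350) (nat_lit 312) (nat_lit 238)) (XT.lf (nat_lit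 0) (nat_lit 30648937720) (nat_lit 76) (nat_lit 5695013419) (nat_lit 152) (nat_lit 33227880373) (nat_lit 14) (nat_lit 5) (nat_lit 15) (nat_lit 5) (nat_lit 16) (nat_lit 4) (nat_lit 351) (nat_lit 312) (nat_lit 237)))) (XT.nd (nat_lit 156) (nat_lit 152) (nat_lit 0) (XT.nd (nat_lit 78) (nat_lit 76) (nat_lit 0) (XT.lf (nat_lit 0) (nat_lit 52170486313) (nat_lit 152) (nat_lit 11115175502) (nat_lit 0) (nat_lit 10543747162) (nat_lit 14) (nat_lit 5) (nat_lit 16) (nat_lit 4) (nat_lit 14) (nat_lit 4) (nat_lit 352) (nat_lit 312) (nat_lit 236)) (XT.lf (nat_lit 0) (nat_lit 19743290716) (nat_lit 76) (nat_lit 50135359111) (nat_lit 76) (nat_lit 8499705666) (nat_lit 13) (nat_lit 4) (nat_lit 14) (nat_lit 5) (nat_lit 14) (nat_lit 4) (nat_lit 353) (nat_lit 312) (nat_lit 235))) (XT.nd (nat_lit 78) (nat_lit 76) (nat_lit 0) (XT.lf (nat_lit 0) (nat_lit 5731090383) (nat_lit 152) (nat_lit 29723239422) (nat_lit 76)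 (nat_lit 47801533054) (nat_lit 12) (nat_lit 5) (nat_lit 14) (nat_lit 5) (nat_lit 13) (nat_lit 4) (nat_lit 354) (nat_lit 312) (nat_lit 234)) (XT.nd (nat_lit 78) (nat_lit 0) (nat_lit 0) (XT.lf (nat_lit 0) (nat_lit 1334922853) (nat_lit 76) (nat_lit 19331650629) (nat_lit 152) (nat_lit 67837303964) (nat_lit 11) (nat_lit 5) (nat_lit 12) (nat_lit 5) (nat_lit 13) (nat_lit 4) (nat_lit 355) (nat_lit 312) (nat_lit 233)) (XT.lf (nat_lit 0) (nat_lit 36555828680) (nat_lit 76) (nat_lit 1047274745) (nat_lit 152) (nat_lit 56504135543) (nat_lit 11) (nat_lit 5) (nat_lit 12) (nat_lit 5) (nat_lit 13) (nat_lit 4) (nat_lit 356) (nat_lit 312) (nat_lit 232))))))))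
noncomputable def xc134 : XT := (XT.nd (nat_lit 1326) (nat_lit 228) (nat_lit 0) (XT.nd (nat_lit 624) (nat_lit 228) (nat_lit 0) (XT.nd (nat_lit 312) (nat_lit 76) (nat_lit 0) (XT.nd (nat_lit 156) (nat_lit 76) (nat_lit 0) (XT.nd (nat_lit 78) (nat_lit 76) (nat_lit 0) (XT.lf (nat_lit 0) (nat_lit 56338160060) (nat_lit 152) (nat_lit 26025932371) (nat_lit 0) (nat_lit 17759290878) (nat_lit 11) (nat_lit 5) (nat_lit 13) (nat_lit 4) (nat_lit 11) (nat_lit 4) (nat_lit 357) (nat_lit 312) (nat_lit 231)) (XT.lf (nat_lit 0) (nat_lit 8403910920) (nat_lit 76) (nat_lit 68391752826) (nat_lit 76) (nat_lit 29807266127) (nat_lit 10) (nat_lit 4) (nat_lit 11) (nat_lit 5) (nat_lit 11) (nat_lit 4) (nat_lit 358) (nat_lit 312) (nat_lit 230))) (XT.nd (nat_lit 78) (nat_lit 76) (nat_lit 0) (XT.lf (nat_lit 0) (nat_lit 47057666087) (nat_lit 76) (nat_lit 52538188575) (nat_lit 76) (nat_lit 13948500471) (nat_lit 10) (nat_lit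 4) (nat_lit 11) (nat_lit 5) (nat_lit 11) (nat_lit 4) (nat_lit 359) (nat_lit 312) (nat_lit 229)) (XT.lf (nat_lit 0) (nat_lit 3014707332) (nat_lit 152) (nat_lit 32323912968) (nat_lit 76) (nat_lit 85696778170) (nat_lit 9) (nat_lit 5) (nat_lit 11) (nat_lit 5) (nat_lit 10) (nat_lit 4) (nat_lit 360) (nat_lit 312) (nat_lit 228)))) (XT.nd (nat_lit 156) (nat_lit 0) (nat_lit 0) (XT.nd (nat_lit 78) (nat_lit 0) (nat_lit 0) (XT.lf (nat_lit 0) (nat_lit 4421425183) (nat_lit 76) (nat_lit 16261454032) (nat_lit 152) (nat_lit 108405744586) (nat_lit 8) (nat_lit 5) (nat_lit 9) (nat_lit 5) (nat_lit 10) (nat_lit 4) (nat_lit 361) (nat_lit 312) (nat_lit 227)) (XT.lf (nat_lit 0) (nat_lit 40770863798) (nat_lit 152) (nat_lit 91907476548) (nat_lit 0) (nat_lit 5027259512) (nat_lit 8) (nat_lit 5) (nat_lit 10) (nat_lit 4) (nat_lit 8) (nat_lit 4) (nat_lit 362) (nat_lit 312) (nat_lit 226))) (XT.nd (nat_lit 78) (nat_lit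 0) (nat_lit 0) (XT.lf (nat_lit 0) (nat_lit 62883806806) (nat_lit 152) (nat_lit 56958032397) (nat_lit 0) (nat_lit 27136662531) (nat_lit 8) (nat_lit 5) (nat_lit 10) (nat_lit 4) (nat_lit 8) (nat_lit 4) (nat_lit 363) (nat_lit 312) (nat_lit 225)) (XT.lf (nat_lit 0) (nat_lit 86761659542) (nat_lit 152) (nat_lit 19220669989) (nat_lit 0) (nat_lit 51011237500) (nat_lit 8) (nat_lit 5) (nat_lit 10) (nat_lit 4) (nat_lit 8) (nat_lit 4) (nat_lit 364) (nat_lit 312) (nat_lit 224))))) (XT.nd (nat_lit 312) (nat_lit 76) (nat_lit 0) (XT.nd (nat_lit 156) (nat_lit 76) (nat_lit 0) (XT.nd (nat_lit 78) (nat_lit 0) (nat_lit 0) (XT.lf (nat_lit 0) (nat_lit 22661878431) (nat_lit 76) (nat_lit 90429060682) (nat_lit 76) (nat_lit 54675603670) (nat_lit 7) (nat_lit 4) (nat_lit 8) (nat_lit 5) (nat_lit 8) (nat_lit 4) (nat_lit 365) (nat_lit 312) (nat_lit 223)) (XT.lf (nat_lit 0) (nat_lit 68980873741) (nat_lit 76) (nat_lit 73067502907)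 (nat_lit 76) (nat_lit 37311235739) (nat_lit 7) (nat_lit 4) (nat_lit 8) (nat_lit 5) (nat_lit 8) (nat_lit 4) (nat_lit 366) (nat_lit 312) (nat_lit 222))) (XT.nd (nat_lit 78) (nat_lit 76) (nat_lit 0) (XT.lf (nat_lit 0) (nat_lit 118998672456) (nat_lit 76) (nat_lit 54320300082) (nat_lit 76) (nat_lit 18561430916) (nat_lit 7) (nat_lit 4) (nat_lit 8) (nat_lit 5) (nat_lit 8) (nat_lit 4) (nat_lit 367) (nat_lit 312) (nat_lit 221)) (XT.lf (nat_lit 0) (nat_lit 1600634192) (nat_lit 152) (nat_lit 32431959303) (nat_lit 76) (nat_lit 171367277978) (nat_lit 6) (nat_lit 5) (nat_lit 8) (nat_lit 5) (nat_lit 7) (nat_lit 4) (nat_lit 368) (nat_lit 312) (nat_lit 220)))) (XT.nd (nat_lit 156) (nat_lit 0) (nat_lit 0) (XT.nd (nat_lit 78) (nat_lit 0) (nat_lit 0) (XT.lf (nat_lit 0) (nat_lit 11332666872) (nat_lit 76) (nat_lit 11309725477) (nat_lit 152) (nat_lit 197298373962) (nat_lit 5) (nat_lit 5) (nat_lit 6) (nat_lit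 5) (nat_lit 7) (nat_lit 4) (nat_lit 369) (nat_lit 312) (nat_lit 219)) (XT.lf (nat_lit 0) (nat_lit 46592469500) (nat_lit 152) (nat_lit 175478269107) (nat_lit 0) (nat_lit 13476196569) (nat_lit 5) (nat_lit 5) (nat_lit 7) (nat_lit 4) (nat_lit 5) (nat_lit 4) (nat_lit 370) (nat_lit 312) (nat_lit 218))) (XT.nd (nat_lit 78) (nat_lit 0) (nat_lit 0) (XT.lf (nat_lit 0) (nat_lit 72749528138) (nat_lit 152) (nat_lit 139997307713) (nat_lit 0) (nat_lit 39631484331) (nat_lit 5) (nat_lit 5) (nat_lit 7) (nat_lit 4) (nat_lit 5) (nat_lit 4) (nat_lit 371) (nat_lit 312) (nat_lit 217)) (XT.nd (nat_lit 78) (nat_lit 0) (nat_lit 0) (XT.lf (nat_lit 0) (nat_lit 100996573884) (nat_lit 152) (nat_lit 101682958539) (nat_lit 0) (nat_lit 67876890377) (nat_lit 5) (nat_lit 5) (nat_lit 7) (nat_lit 4) (nat_lit 5) (nat_lit 4) (nat_lit 372) (nat_lit 312) (nat_lit 216)) (XT.lf (nat_lit 0) (nat_lit 131500996639) (nat_lit 152) (nat_lit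 60308173589) (nat_lit 0) (nat_lit 98379794892) (nat_lit 5) (nat_lit 5) (nat_lit 7) (nat_lit 4) (nat_lit 5) (nat_lit 4) (nat_lit 373) (nat_lit 312) (nat_lit 215))))))) (XT.nd (nat_lit 624) (nat_lit 152) (nat_lit 0) (XT.nd (nat_lit 312) (nat_lit 0) (nat_lit 0) (XT.nd (nat_lit 156) (nat_lit 0) (nat_lit 0) (XT.nd (nat_lit 78) (nat_lit 76) (nat_lit 0) (XT.lf (nat_lit 0) (nat_lit 164443563354) (nat_lit 152) (nat_lit 15627768953) (nat_lit 0) (nat_lit 131320955829) (nat_lit 5) (nat_lit 5) (nat_lit 7) (nat_lit 4) (nat_lit 5) (nat_lit 4) (nat_lit 374) (nat_lit 312) (nat_lit 214)) (XT.lf (nat_lit 0) (nat_lit 34340898985) (nat_lit 76) (nat_lit 166504489699) (nat_lit 76) (nat_lit 133380580528) (nat_lit 4) (nat_lit 4) (nat_lit 5) (nat_lit 5) (nat_lit 5) (nat_lit 4) (nat_lit 375) (nat_lit 312) (nat_lit 213))) (XT.nd (nat_lit 78) (nat_lit 0) (nat_lit 0) (XT.lf (nat_lit 0) (nat_lit 89191887786) (nat_lit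 76) (nat_lit 151392773852) (nat_lit 76) (nat_lit 118267659452) (nat_lit 4) (nat_lit 4) (nat_lit 5) (nat_lit 5) (nat_lit 5) (nat_lit 4) (nat_lit 376) (nat_lit 312) (nat_lit 212)) (XT.lf (nat_lit 0) (nat_lit 148427309729) (nat_lit 76) (nat_lit 135073924756) (nat_lit 76) (nat_lit 101947694404) (nat_lit 4) (nat_lit 4) (nat_lit 5) (nat_lit 5) (nat_lit 5) (nat_lit 4) (nat_lit 377) (nat_lit 312) (nat_lit 211)))) (XT.nd (nat_lit 156) (nat_lit 0) (nat_lit 0) (XT.nd (nat_lit 78) (nat_lit 0) (nat_lit 0) (XT.lf (nat_lit 0) (nat_lit 212398189535) (nat_lit 76) (nat_lit 117451238119) (nat_lit 76) (nat_lit 84323974479) (nat_lit 4) (nat_lit 4) (nat_lit 5) (nat_lit 5) (nat_lit 5) (nat_lit 4) (nat_lit 378) (nat_lit 312) (nat_lit 210)) (XT.lf (nat_lit 0) (nat_lit 281483613900) (nat_lit 76) (nat_lit 98420283207) (nat_lit 76) (nat_lit 65292062817) (nat_lit 4) (nat_lit 4) (nat_lit 5) (nat_lit 5) (nat_lit 5)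 (nat_lit 4) (nat_lit 379) (nat_lit 312) (nat_lit 209))) (XT.nd (nat_lit 78) (nat_lit 0) (nat_lit 0) (XT.lf (nat_lit 0) (nat_lit 356092977932) (nat_lit 76) (nat_lit 77868283990) (nat_lit 76) (nat_lit 44739177721) (nat_lit 4) (nat_lit 4) (nat_lit 5) (nat_lit 5) (nat_lit 5) (nat_lit 4) (nat_lit 380) (nat_lit 312) (nat_lit 208)) (XT.lf (nat_lit 0) (nat_lit 436668411194) (nat_lit 76) (nat_lit 55673450842) (nat_lit 76) (nat_lit 22543524316) (nat_lit 4) (nat_lit 4) (nat_lit 5) (nat_lit 5) (nat_lit 5) (nat_lit 4) (nat_lit 381) (nat_lit 312) (nat_lit 207))))) (XT.nd (nat_lit 312) (nat_lit 0) (nat_lit 0) (XT.nd (nat_lit 156) (nat_lit 0) (nat_lit 0) (XT.nd (nat_lit 78) (nat_lit 76) (nat_lit 0) (XT.lf (nat_lit 0) (nat_lit 1355071531) (nat_lit 152) (nat_lit 30312137239) (nat_lit 76) (nat_lit 522295276148) (nat_lit 3) (nat_lit 5) (nat_lit 5) (nat_lit 5) (nat_lit 4) (nat_lit 4) (nat_lit 382) (nat_lit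 312) (nat_lit 206)) (XT.lf (nat_lit 0) (nat_lit 21934430117) (nat_lit 76) (nat_lit 4539521508) (nat_lit 152) (nat_lit 569602849703) (nat_lit 2) (nat_lit 5) (nat_lit 3) (nat_lit 5) (nat_lit 4) (nat_lit 4) (nat_lit 383) (nat_lit 312) (nat_lit 205))) (XT.nd (nat_lit 78) (nat_lit 0) (nat_lit 0) (XT.lf (nat_lit 0) (nat_lit 55046910565) (nat_lit 152) (nat_lit 562028691865) (nat_lit 0) (nat_lit 24369095369) (nat_lit 2) (nat_lit 5) (nat_lit 4) (nat_lit 4) (nat_lit 2) (nat_lit 4) (nat_lit 384) (nat_lit 312) (nat_lit 204)) (XT.lf (nat_lit 0) (nat_lit 86022517986) (nat_lit 152) (nat_lit 549066018730) (nat_lit 0) (nat_lit 55344144536) (nat_lit 2) (nat_lit 5) (nat_lit 4) (nat_lit 4) (nat_lit 2) (nat_lit 4) (nat_lit 385) (nat_lit 312) (nat_lit 203)))) (XT.nd (nat_lit 156) (nat_lit 0) (nat_lit 0) (XT.nd (nat_lit 78) (nat_lit 0) (nat_lit 0) (XT.lf (nat_lit 0) (nat_lit 119475157443) (nat_lit 152) (nat_lit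 535068360363) (nat_lit 0) (nat_lit 88796267092) (nat_lit 2) (nat_lit 5) (nat_lit 4) (nat_lit 4) (nat_lit 2) (nat_lit 4) (nat_lit 386) (nat_lit 312) (nat_lit 202)) (XT.lf (nat_lit 0) (nat_lit 155603066799) (nat_lit 152) (nat_lit 519952767679) (nat_lit 0) (nat_lit 124923697835) (nat_lit 2) (nat_lit 5) (nat_lit 4) (nat_lit 4) (nat_lit 2) (nat_lit 4) (nat_lit 387) (nat_lit 312) (nat_lit 201))) (XT.nd (nat_lit 78) (nat_lit 0) (nat_lit 0) (XT.lf (nat_lit 0) (nat_lit 194620337368) (nat_lit 152) (nat_lit 503629666794) (nat_lit 0) (nat_lit 163940525245) (nat_lit 2) (nat_lit 5) (nat_lit 4) (nat_lit 4) (nat_lit 2) (nat_lit 4) (nat_lit 388) (nat_lit 312) (nat_lit 200)) (XT.nd (nat_lit 78) (nat_lit 0) (nat_lit 0) (XT.lf (nat_lit 0) (nat_lit 236758182607) (nat_lit 152) (nat_lit 486002328222) (nat_lit 0) (nat_lit 206077960150) (nat_lit 2) (nat_lit 5) (nat_lit 4) (nat_lit 4) (nat_lit 2) (nat_lit 4) (nat_lit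 389) (nat_lit 312) (nat_lit 199)) (XT.lf (nat_lit 0) (nat_lit 282266308264) (nat_lit 152) (nat_lit 466966293661) (nat_lit 0) (nat_lit 251585705869) (nat_lit 2) (nat_lit 5) (nat_lit 4) (nat_lit 4) (nat_lit 2) (nat_lit 4) (nat_lit 390) (nat_lit 312) (nat_lit 198))))))))
noncomputable def xc135 : XT := (XT.nd (nat_lit 1326) (nat_lit 0) (nat_lit 0) (XT.nd (nat_lit 624) (nat_lit 76) (nat_lit 0) (XT.nd (nat_lit 312) (nat_lit 0) (nat_lit 0) (XT.nd (nat_lit 156) (nat_lit 0) (nat_lit 0) (XT.nd (nat_lit 78) (nat_lit 0) (nat_lit 0) (XT.lf (nat_lit 0) (nat_lit 331414392121) (nat_lit 152) (nat_lit 446408756979) (nat_lit 0) (nat_lit 300733437931) (nat_lit 2) (nat_lit 5) (nat_lit 4) (nat_lit 4) (nat_lit 2) (nat_lit 4) (nat_lit 391) (nat_lit 312) (nat_lit 197)) (XT.lf (nat_lit 0) (nat_lit 384493682083) (nat_lit 152) (nat_lit 424207895738) (nat_lit 0) (nat_lit 353812402157) (nat_lit 2) (nat_lit 5) (nat_lit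 4) (nat_lit 4) (nat_lit 2) (nat_lit 4) (nat_lit 392) (nat_lit 312) (nat_lit 196))) (XT.nd (nat_lit 78) (nat_lit 0) (nat_lit 0) (XT.lf (nat_lit 0) (nat_lit 441818722089) (nat_lit 152) (nat_lit 400232149277) (nat_lit 0) (nat_lit 411137140556) (nat_lit 2) (nat_lit 5) (nat_lit 4) (nat_lit 4) (nat_lit 2) (nat_lit 4) (nat_lit 393) (nat_lit 312) (nat_lit 195)) (XT.lf (nat_lit 0) (nat_lit 503729216081) (nat_lit 152) (nat_lit 374339439099) (nat_lit 0) (nat_lit 473047355283) (nat_lit 2) (nat_lit 5) (nat_lit 4) (nat_lit 4) (nat_lit 2) (nat_lit 4) (nat_lit 394) (nat_lit 312) (nat_lit 194)))) (XT.nd (nat_lit 156) (nat_lit 0) (nat_lit 0) (XT.nd (nat_lit 78) (nat_lit 0) (nat_lit 0) (XT.lf (nat_lit 0) (nat_lit 570592041061) (nat_lit 152) (nat_lit 346376326922) (nat_lit 0) (nat_lit 539909921682) (nat_lit 2) (nat_lit 5) (nat_lit 4) (nat_lit 4) (nat_lit 2) (nat_lit 4) (nat_lit 395) (nat_lit 312) (nat_lit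 193)) (XT.lf (nat_lit 0) (nat_lit 642803421176) (nat_lit 152) (nat_lit 316177105415) (nat_lit 0) (nat_lit 612121062372) (nat_lit 2) (nat_lit 5) (nat_lit 4) (nat_lit 4) (nat_lit 2) (nat_lit 4) (nat_lit 396) (nat_lit 312) (nat_lit 192))) (XT.nd (nat_lit 78) (nat_lit 0) (nat_lit 0) (XT.lf (nat_lit 0) (nat_lit 720791275715) (nat_lit 152) (nat_lit 283562816227) (nat_lit 0) (nat_lit 690108695221) (nat_lit 2) (nat_lit 5) (nat_lit 4) (nat_lit 4) (nat_lit 2) (nat_lit 4) (nat_lit 397) (nat_lit 312) (nat_lit 191)) (XT.lf (nat_lit 0) (nat_lit 805017754929) (nat_lit 152) (nat_lit 248340189496) (nat_lit 0) (nat_lit 774334969166) (nat_lit 2) (nat_lit 5) (nat_lit 4) (nat_lit 4) (nat_lit 2) (nat_lit 4) (nat_lit 398) (nat_lit 312) (nat_lit 190))))) (XT.nd (nat_lit 312) (nat_lit 76) (nat_lit 0) (XT.nd (nat_lit 156) (nat_lit 0) (nat_lit 0) (XT.nd (nat_lit 78) (nat_lit 0) (nat_lit 0) (XT.lf (nat_lit 0) (nat_lit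 895981978693) (nat_lit 152) (nat_lit 210300498547) (nat_lit 0) (nat_lit 865299002866) (nat_lit 2) (nat_lit 5) (nat_lit 4) (nat_lit 4) (nat_lit 2) (nat_lit 4) (nat_lit 399) (nat_lit 312) (nat_lit 189)) (XT.lf (nat_lit 0) (nat_lit 994222994260) (nat_lit 152) (nat_lit 169218322987) (nat_lit 0) (nat_lit 963539842448) (nat_lit 2) (nat_lit 5) (nat_lit 4) (nat_lit 4) (nat_lit 2) (nat_lit 4) (nat_lit 400) (nat_lit 312) (nat_lit 188))) (XT.nd (nat_lit 78) (nat_lit 0) (nat_lit 0) (XT.lf (nat_lit 0) (nat_lit 1100322970610) (nat_lit 152) (nat_lit 124850212889) (nat_lit 0) (nat_lit 1069639655850) (nat_lit 2) (nat_lit 5) (nat_lit 4) (nat_lit 4) (nat_lit 2) (nat_lit 4) (nat_lit 401) (nat_lit 312) (nat_lit 187)) (XT.lf (nat_lit 0) (nat_lit 1214910648345) (nat_lit 152) (nat_lit 76933246117) (nat_lit 0) (nat_lit 1184227182706) (nat_lit 2) (nat_lit 5) (nat_lit 4) (nat_lit 4) (nat_lit 2) (nat_lit 4) (nat_lit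 402) (nat_lit 312) (nat_lit 186)))) (XT.nd (nat_lit 156) (nat_lit 0) (nat_lit 0) (XT.nd (nat_lit 78) (nat_lit 76) (nat_lit 0) (XT.lf (nat_lit 0) (nat_lit 1338665065555) (nat_lit 152) (nat_lit 25183470277) (nat_lit 0) (nat_lit 1307981460213) (nat_lit 2) (nat_lit 5) (nat_lit 4) (nat_lit 4) (nat_lit 2) (nat_lit 4) (nat_lit 403) (nat_lit 312) (nat_lit 185)) (XT.lf (nat_lit 0) (nat_lit 32322691928) (nat_lit 76) (nat_lit 1440774251339) (nat_lit 76) (nat_lit 1410090516643) (nat_lit 1) (nat_lit 4) (nat_lit 2) (nat_lit 5) (nat_lit 2) (nat_lit 4) (nat_lit 404) (nat_lit 312) (nat_lit 184))) (XT.nd (nat_lit 78) (nat_lit 0) (nat_lit 0) (XT.lf (nat_lit 0) (nat_lit 95861058571) (nat_lit 76) (nat_lit 1523110625882) (nat_lit 76) (nat_lit 1492426771414) (nat_lit 1) (nat_lit 4) (nat_lit 2) (nat_lit 5) (nat_lit 2) (nat_lit 4) (nat_lit 405) (nat_lit 312) (nat_lit 183)) (XT.nd (nat_lit 78) (nat_lit 0) (nat_lit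 0) (XT.lf (nat_lit 0) (nat_lit 164482036390) (nat_lit 76) (nat_lit 1612034139425) (nat_lit 76) (nat_lit 1581350174056) (nat_lit 1) (nat_lit 4) (nat_lit 2) (nat_lit 5) (nat_lit 2) (nat_lit 4) (nat_lit 406) (nat_lit 312) (nat_lit 182)) (XT.lf (nat_lit 0) (nat_lit 238592268217) (nat_lit 76) (nat_lit 1708071746122) (nat_lit 76) (nat_lit 1677387678067) (nat_lit 1) (nat_lit 4) (nat_lit 2) (nat_lit 5) (nat_lit 2) (nat_lit 4) (nat_lit 407) (nat_lit 312) (nat_lit 181))))))) (XT.nd (nat_lit 39780) (nat_lit 0) (nat_lit 3192) (XT.nd (nat_lit 312) (nat_lit 0) (nat_lit 0) (XT.nd (nat_lit 156) (nat_lit 0) (nat_lit 0) (XT.nd (nat_lit 78) (nat_lit 0) (nat_lit 0) (XT.lf (nat_lit 0) (nat_lit 318630925795) (nat_lit 76) (nat_lit 1811792557716) (nat_lit 76) (nat_lit 1781108394582) (nat_lit 1) (nat_lit 4) (nat_lit 2) (nat_lit 5) (nat_lit 2) (nat_lit 4) (nat_lit 408) (nat_lit 312) (nat_lit 180)) (XT.lf (nat_lit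 0) (nat_lit 405072312281) (nat_lit 76) (nat_lit 1923811216053) (nat_lit 76) (nat_lit 1893126964884) (nat_lit 1) (nat_lit 4) (nat_lit 2) (nat_lit 5) (nat_lit 2) (nat_lit 4) (nat_lit 409) (nat_lit 312) (nat_lit 179))) (XT.nd (nat_lit 78) (nat_lit 0) (nat_lit 0) (XT.lf (nat_lit 0) (nat_lit 498428672927) (nat_lit 76) (nat_lit 2044791535407) (nat_lit 76) (nat_lit 2014107202722) (nat_lit 1) (nat_lit 4) (nat_lit 2) (nat_lit 5) (nat_lit 2) (nat_lit 4) (nat_lit 410) (nat_lit 312) (nat_lit 178)) (XT.lf (nat_lit 0) (nat_lit 599253230613) (nat_lit 76) (nat_lit 2175450436186) (nat_lit 76) (nat_lit 2144766028025) (nat_lit 1) (nat_lit 4) (nat_lit 2) (nat_lit 5) (nat_lit 2) (nat_lit 4) (nat_lit 411) (nat_lit 312) (nat_lit 177)))) (XT.nd (nat_lit 39234) (nat_lit 0) (nat_lit 4028) (XT.nd (nat_lit 39156) (nat_lit 0) (nat_lit 4028) (XT.lf (nat_lit 0) (nat_lit 708143464198) (nat_lit 76) (nat_lit 2316562193360)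 (nat_lit 76) (nat_lit 2285877715312) (nat_lit 1) (nat_lit 4) (nat_lit 2) (nat_lit 5) (nat_lit 2) (nat_lit 4) (nat_lit 412) (nat_lit 312) (nat_lit 176)) (XT.lf (nat_lit 0) (nat_lit 2111157605) (nat_lit 532) (nat_lit 1803334269) (nat_lit 532) (nat_lit 1803334269) (nat_lit 54) (nat_lit 3) (nat_lit 61) (nat_lit 3) (nat_lit 61) (nat_lit 5) (nat_lit 313) (nat_lit 313) (nat_lit 274))) (XT.nd (nat_lit 78) (nat_lit 0) (nat_lit 76) (XT.lf (nat_lit 76) (nat_lit 1908692592) (nat_lit 0) (nat_lit 3022019943) (nat_lit 532) (nat_lit 6918303810) (nat_lit 55) (nat_lit 5) (nat_lit 54) (nat_lit 3) (nat_lit 61) (nat_lit 5) (nat_lit 314) (nat_lit 313) (nat_lit 273)) (XT.nd (nat_lit 78) (nat_lit 0) (nat_lit 0) (XT.lf (nat_lit 0) (nat_lit 5799599893) (nat_lit 456) (nat_lit 4304643064) (nat_lit 532) (nat_lit 2182991321) (nat_lit 55) (nat_lit 5) (nat_lit 61) (nat_lit 5) (nat_lit 62) (nat_lit 5) (nat_lit 315) (nat_lit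 313) (nat_lit 272)) (XT.lf (nat_lit 76) (nat_lit 1761183199) (nat_lit 0) (nat_lit 5051802246) (nat_lit 532) (nat_lit 5941608751) (nat_lit 56) (nat_lit 5) (nat_lit 55) (nat_lit 5) (nat_lit 62) (nat_lit 5) (nat_lit 316) (nat_lit 313) (nat_lit 271)))))) (XT.nd (nat_lit 312) (nat_lit 608) (nat_lit 0) (XT.nd (nat_lit 156) (nat_lit 380) (nat_lit 0) (XT.nd (nat_lit 78) (nat_lit 0) (nat_lit 0) (XT.lf (nat_lit 0) (nat_lit 7995082791) (nat_lit 456) (nat_lit 4739044159) (nat_lit 532) (nat_lit 518282021) (nat_lit 56) (nat_lit 5) (nat_lit 62) (nat_lit 5) (nat_lit 63) (nat_lit 5) (nat_lit 317) (nat_lit 313) (nat_lit 270)) (XT.lf (nat_lit 76) (nat_lit 1951126198) (nat_lit 0) (nat_lit 7459087059) (nat_lit 532) (nat_lit 4368830055) (nat_lit 57) (nat_lit 5) (nat_lit 56) (nat_lit 5) (nat_lit 63) (nat_lit 5) (nat_lit 318) (nat_lit 313) (nat_lit 269))) (XT.nd (nat_lit 78) (nat_lit 380) (nat_lit 0) (XT.lf (nat_lit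 76) (nat_lit 9415873531) (nat_lit 0) (nat_lit 1614793325) (nat_lit 532) (nat_lit 3309838836) (nat_lit 57) (nat_lit 5) (nat_lit 56) (nat_lit 5) (nat_lit 63) (nat_lit 5) (nat_lit 319) (nat_lit 313) (nat_lit 268)) (XT.lf (nat_lit 0) (nat_lit 2512732592) (nat_lit 456) (nat_lit 10406895980) (nat_lit 532) (nat_lit 2016208137) (nat_lit 51) (nat_lit 5) (nat_lit 57) (nat_lit 5) (nat_lit 58) (nat_lit 5) (nat_lit 320) (nat_lit 313) (nat_lit 267)))) (XT.nd (nat_lit 156) (nat_lit 228) (nat_lit 0) (XT.nd (nat_lit 78) (nat_lit 380) (nat_lit 0) (XT.lf (nat_lit 0) (nat_lit 10750870056) (nat_lit 456) (nat_lit 4351675303) (nat_lit 532) (nat_lit 464878644) (nat_lit 51) (nat_lit 5) (nat_lit 57) (nat_lit 5) (nat_lit 58) (nat_lit 5) (nat_lit 321) (nat_lit 313) (nat_lit 266)) (XT.lf (nat_lit 0) (nat_lit 1259056474) (nat_lit 380) (nat_lit 12782904328) (nat_lit 76) (nat_lit 2196572604) (nat_lit 46) (nat_lit 5)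 (nat_lit 51) (nat_lit 5) (nat_lit 47) (nat_lit 5) (nat_lit 322) (nat_lit 313) (nat_lit 265))) (XT.nd (nat_lit 78) (nat_lit 228) (nat_lit 0) (XT.lf (nat_lit 0) (nat_lit 3314455895) (nat_lit 380) (nat_lit 4449072970) (nat_lit 76) (nat_lit 9181388640) (nat_lit 46) (nat_lit 5) (nat_lit 51) (nat_lit 5) (nat_lit 47) (nat_lit 5) (nat_lit 323) (nat_lit 313) (nat_lit 264)) (XT.nd (nat_lit 78) (nat_lit 0) (nat_lit 0) (XT.lf (nat_lit 0) (nat_lit 4760668950) (nat_lit 228) (nat_lit 860816934) (nat_lit 304) (nat_lit 12079392342) (nat_lit 43) (nat_lit 5) (nat_lit 46) (nat_lit 5) (nat_lit 47) (nat_lit 5) (nat_lit 324) (nat_lit 313) (nat_lit 263)) (XT.lf (nat_lit 0) (nat_lit 8370465489) (nat_lit 304) (nat_lit 3739391058) (nat_lit 76) (nat_lit 6386906970) (nat_lit 43) (nat_lit 5) (nat_lit 47) (nat_lit 5) (nat_lit 44) (nat_lit 5) (nat_lit 325) (nat_lit 313) (nat_lit 262))))))))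
noncomputable def xc136 : XT := (XT.nd (nat_lit 1326) (nat_lit 836) (nat_lit 0) (XT.nd (nat_lit 624) (nat_lit 684) (nat_lit 0) (XT.nd (nat_lit 312) (nat_lit 532) (nat_lit 0) (XT.nd (nat_lit 156) (nat_lit 228) (nat_lit 0) (XT.nd (nat_lit 78) (nat_lit 0) (nat_lit 0) (XT.lf (nat_lit 0) (nat_lit 6470800040) (nat_lit 228) (nat_lit 5022465107) (nat_lit 304) (nat_lit 7850778172) (nat_lit 40) (nat_lit 5) (nat_lit 43) (nat_lit 5) (nat_lit 44) (nat_lit 5) (nat_lit 326) (nat_lit 313) (nat_lit 261)) (XT.lf (nat_lit 0) (nat_lit 15011025235) (nat_lit 304) (nat_lit 2635494729) (nat_lit 76) (nat_lit 2601007795) (nat_lit 40) (nat_lit 5) (nat_lit 44) (nat_lit 5) (nat_lit 41) (nat_lit 5) (nat_lit 327) (nat_lit 313) (nat_lit 260))) (XT.nd (nat_lit 78) (nat_lit 76) (nat_lit 0) (XT.lf (nat_lit 0) (nat_lit 8699052113) (nat_lit 152) (nat_lit 10429469668) (nat_lit 228) (nat_lit 2069334632) (nat_lit 38) (nat_lit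 5) (nat_lit 40) (nat_lit 5) (nat_lit 41) (nat_lit 5) (nat_lit 328) (nat_lit 313) (nat_lit 259)) (XT.lf (nat_lit 0) (nat_lit 1336587578) (nat_lit 228) (nat_lit 1189947123) (nat_lit 76) (nat_lit 19690865369) (nat_lit 37) (nat_lit 5) (nat_lit 40) (nat_lit 5) (nat_lit 38) (nat_lit 5) (nat_lit 329) (nat_lit 313) (nat_lit 258)))) (XT.nd (nat_lit 156) (nat_lit 152) (nat_lit 0) (XT.nd (nat_lit 78) (nat_lit 152) (nat_lit 0) (XT.lf (nat_lit 0) (nat_lit 5313815231) (nat_lit 304) (nat_lit 11925736855) (nat_lit 76) (nat_lit 6041829239) (nat_lit 34) (nat_lit 5) (nat_lit 38) (nat_lit 5) (nat_lit 35) (nat_lit 5) (nat_lit 330) (nat_lit 313) (nat_lit 257)) (XT.lf (nat_lit 0) (nat_lit 475950287) (nat_lit 152) (nat_lit 9225012695) (nat_lit 228) (nat_lit 14722201323) (nat_lit 32) (nat_lit 5) (nat_lit 34) (nat_lit 5) (nat_lit 35) (nat_lit 5) (nat_lit 331) (nat_lit 313) (nat_lit 256))) (XT.nd (nat_lit 78) (nat_lit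 152) (nat_lit 0) (XT.lf (nat_lit 0) (nat_lit 14522591765) (nat_lit 152) (nat_lit 224627042) (nat_lit 228) (nat_lit 10884441118) (nat_lit 32) (nat_lit 5) (nat_lit 34) (nat_lit 5) (nat_lit 35) (nat_lit 5) (nat_lit 332) (nat_lit 313) (nat_lit 255)) (XT.lf (nat_lit 0) (nat_lit 2634854270) (nat_lit 152) (nat_lit 17837290640) (nat_lit 228) (nat_lit 6442712054) (nat_lit 30) (nat_lit 5) (nat_lit 32) (nat_lit 5) (nat_lit 33) (nat_lit 5) (nat_lit 333) (nat_lit 313) (nat_lit 254))))) (XT.nd (nat_lit 312) (nat_lit 304) (nat_lit 0) (XT.nd (nat_lit 156) (nat_lit 152) (nat_lit 0) (XT.nd (nat_lit 78) (nat_lit 228) (nat_lit 0) (XT.lf (nat_lit 0) (nat_lit 18079849631) (nat_lit 152) (nat_lit 8868534618) (nat_lit 228) (nat_lit 1328877907) (nat_lit 30) (nat_lit 5) (nat_lit 32) (nat_lit 5) (nat_lit 33) (nat_lit 5) (nat_lit 334) (nat_lit 313) (nat_lit 253)) (XT.lf (nat_lit 0) (nat_lit 4117994153) (nat_lit 228)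 (nat_lit 24612064179) (nat_lit 76) (nat_lit 999848593) (nat_lit 27) (nat_lit 5) (nat_lit 30) (nat_lit 5) (nat_lit 28) (nat_lit 5) (nat_lit 335) (nat_lit 313) (nat_lit 252))) (XT.nd (nat_lit 78) (nat_lit 152) (nat_lit 0) (XT.lf (nat_lit 0) (nat_lit 10430316755) (nat_lit 228) (nat_lit 9333852693) (nat_lit 76) (nat_lit 11491727171) (nat_lit 27) (nat_lit 5) (nat_lit 30) (nat_lit 5) (nat_lit 28) (nat_lit 5) (nat_lit 336) (nat_lit 313) (nat_lit 251)) (XT.lf (nat_lit 0) (nat_lit 7521053765) (nat_lit 152) (nat_lit 9893643541) (nat_lit 228) (nat_lit 15475915585) (nat_lit 25) (nat_lit 5) (nat_lit 27) (nat_lit 5) (nat_lit 28) (nat_lit 5) (nat_lit 337) (nat_lit 313) (nat_lit 250)))) (XT.nd (nat_lit 156) (nat_lit 228) (nat_lit 0) (XT.nd (nat_lit 78) (nat_lit 76) (nat_lit 0) (XT.lf (nat_lit 0) (nat_lit 25224607497) (nat_lit 228) (nat_lit 8427705139) (nat_lit 76) (nat_lit 982463691) (nat_lit 25) (nat_lit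 5) (nat_lit 28) (nat_lit 5) (nat_lit 26) (nat_lit 4) (nat_lit 338) (nat_lit 313) (nat_lit 249)) (XT.lf (nat_lit 0) (nat_lit 10097129262) (nat_lit 76) (nat_lit 24049505854) (nat_lit 152) (nat_lit 2332863043) (nat_lit 24) (nat_lit 5) (nat_lit 25) (nat_lit 5) (nat_lit 26) (nat_lit 4) (nat_lit 339) (nat_lit 313) (nat_lit 248))) (XT.nd (nat_lit 78) (nat_lit 152) (nat_lit 0) (XT.lf (nat_lit 0) (nat_lit 5269014393) (nat_lit 152) (nat_lit 8024459508) (nat_lit 76) (nat_lit 25150192161) (nat_lit 23) (nat_lit 5) (nat_lit 25) (nat_lit 5) (nat_lit 24) (nat_lit 5) (nat_lit 340) (nat_lit 313) (nat_lit 247)) (XT.nd (nat_lit 78) (nat_lit 0) (nat_lit 0) (XT.lf (nat_lit 0) (nat_lit 12339665448) (nat_lit 152) (nat_lit 1298659446) (nat_lit 228) (nat_lit 26898978516) (nat_lit 21) (nat_lit 5) (nat_lit 23) (nat_lit 5) (nat_lit 24) (nat_lit 5) (nat_lit 341) (nat_lit 313) (nat_lit 246)) (XT.lf (nat_lit 0) (nat_lit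 23171370000) (nat_lit 228) (nat_lit 8296950671) (nat_lit 76) (nat_lit 11290584193) (nat_lit 21) (nat_lit 5) (nat_lit 24) (nat_lit 5) (nat_lit 22) (nat_lit 4) (nat_lit 342) (nat_lit 313) (nat_lit 245))))))) (XT.nd (nat_lit 624) (nat_lit 380) (nat_lit 0) (XT.nd (nat_lit 312) (nat_lit 228) (nat_lit 0) (XT.nd (nat_lit 156) (nat_lit 152) (nat_lit 0) (XT.nd (nat_lit 78) (nat_lit 0) (nat_lit 0) (XT.lf (nat_lit 0) (nat_lit 13836310245) (nat_lit 76) (nat_lit 19986842748) (nat_lit 152) (nat_lit 11306601587) (nat_lit 20) (nat_lit 5) (nat_lit 21) (nat_lit 5) (nat_lit 22) (nat_lit 4) (nat_lit 343) (nat_lit 313) (nat_lit 244)) (XT.lf (nat_lit 0) (nat_lit 38194641872) (nat_lit 76) (nat_lit 7349240227) (nat_lit 152) (nat_lit 2129053010) (nat_lit 20) (nat_lit 5) (nat_lit 21) (nat_lit 5) (nat_lit 22) (nat_lit 4) (nat_lit 344) (nat_lit 313) (nat_lit 243))) (XT.nd (nat_lit 78) (nat_lit 0) (nat_lit 0) (XT.lf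 (nat_lit 0) (nat_lit 7900488239) (nat_lit 152) (nat_lit 35933538338) (nat_lit 76) (nat_lit 6530006802) (nat_lit 18) (nat_lit 5) (nat_lit 20) (nat_lit 5) (nat_lit 19) (nat_lit 4) (nat_lit 345) (nat_lit 313) (nat_lit 242)) (XT.lf (nat_lit 0) (nat_lit 19064737824) (nat_lit 152) (nat_lit 12728398938) (nat_lit 76) (nat_lit 21437074857) (nat_lit 18) (nat_lit 5) (nat_lit 20) (nat_lit 5) (nat_lit 19) (nat_lit 4) (nat_lit 346) (nat_lit 313) (nat_lit 241)))) (XT.nd (nat_lit 156) (nat_lit 152) (nat_lit 0) (XT.nd (nat_lit 78) (nat_lit 0) (nat_lit 0) (XT.lf (nat_lit 0) (nat_lit 12966202930) (nat_lit 76) (nat_lit 18459053836) (nat_lit 152) (nat_lit 24876182230) (nat_lit 17) (nat_lit 5) (nat_lit 18) (nat_lit 5) (nat_lit 19) (nat_lit 4) (nat_lit 347) (nat_lit 313) (nat_lit 240)) (XT.lf (nat_lit 0) (nat_lit 41425071801) (nat_lit 76) (nat_lit 3689134357) (nat_lit 152) (nat_lit 14476996135) (nat_lit 17)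 (nat_lit 5) (nat_lit 18) (nat_lit 5) (nat_lit 19) (nat_lit 4) (nat_lit 348) (nat_lit 313) (nat_lit 239))) (XT.nd (nat_lit 78) (nat_lit 76) (nat_lit 0) (XT.lf (nat_lit 0) (nat_lit 9165560693) (nat_lit 76) (nat_lit 51240099237) (nat_lit 76) (nat_lit 2697900134) (nat_lit 16) (nat_lit 4) (nat_lit 17) (nat_lit 5) (nat_lit 17) (nat_lit 4) (nat_lit 349) (nat_lit 313) (nat_lit 238)) (XT.lf (nat_lit 0) (nat_lit 10119613778) (nat_lit 152) (nat_lit 27504631887) (nat_lit 76) (nat_lit 29205578760) (nat_lit 15) (nat_lit 5) (nat_lit 17) (nat_lit 5) (nat_lit 16) (nat_lit 4) (nat_lit 350) (nat_lit 313) (nat_lit 237))))) (XT.nd (nat_lit 312) (nat_lit 228) (nat_lit 0) (XT.nd (nat_lit 156) (nat_lit 76) (nat_lit 0) (XT.nd (nat_lit 78) (nat_lit 0) (nat_lit 0) (XT.lf (nat_lit 0) (nat_lit 1010369402) (nat_lit 76) (nat_lit 22823378472) (nat_lit 152) (nat_lit 47013481533) (nat_lit 14) (nat_lit 5) (nat_lit 15) (nat_lit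 5) (nat_lit 16) (nat_lit 4) (nat_lit 351) (nat_lit 313) (nat_lit 236)) (XT.lf (nat_lit 0) (nat_lit 33357622397) (nat_lit 76) (nat_lit 6032317993) (nat_lit 152) (nat_lit 35736495480) (nat_lit 14) (nat_lit 5) (nat_lit 15) (nat_lit 5) (nat_lit 16) (nat_lit 4) (nat_lit 352) (nat_lit 313) (nat_lit 235))) (XT.nd (nat_lit 78) (nat_lit 76) (nat_lit 0) (XT.lf (nat_lit 0) (nat_lit 56474975397) (nat_lit 152) (nat_lit 11758957331) (nat_lit 0) (nat_lit 11491301407) (nat_lit 14) (nat_lit 5) (nat_lit 16) (nat_lit 4) (nat_lit 14) (nat_lit 4) (nat_lit 353) (nat_lit 313) (nat_lit 234)) (XT.lf (nat_lit 0) (nat_lit 21561972711) (nat_lit 76) (nat_lit 54033879892) (nat_lit 76) (nat_lit 9042563332) (nat_lit 13) (nat_lit 4) (nat_lit 14) (nat_lit 5) (nat_lit 14) (nat_lit 4) (nat_lit 354) (nat_lit 313) (nat_lit 233)))) (XT.nd (nat_lit 156) (nat_lit 76) (nat_lit 0) (XT.nd (nat_lit 78) (nat_lit 76) (nat_lit 0) (XT.lf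 (nat_lit 0) (nat_lit 6310188309) (nat_lit 152) (nat_lit 31873201329) (nat_lit 76) (nat_lit 51723246125) (nat_lit 12) (nat_lit 5) (nat_lit 14) (nat_lit 5) (nat_lit 13) (nat_lit 4) (nat_lit 355) (nat_lit 313) (nat_lit 232)) (XT.lf (nat_lit 0) (nat_lit 1663844377) (nat_lit 76) (nat_lit 20773073730) (nat_lit 152) (nat_lit 73137864268) (nat_lit 11) (nat_lit 5) (nat_lit 12) (nat_lit 5) (nat_lit 13) (nat_lit 4) (nat_lit 356) (nat_lit 313) (nat_lit 231))) (XT.nd (nat_lit 78) (nat_lit 76) (nat_lit 0) (XT.lf (nat_lit 0) (nat_lit 39685968766) (nat_lit 76) (nat_lit 1033733623) (nat_lit 152) (nat_lit 60907407114) (nat_lit 11) (nat_lit 5) (nat_lit 12) (nat_lit 5) (nat_lit 13) (nat_lit 4) (nat_lit 357) (nat_lit 313) (nat_lit 230)) (XT.nd (nat_lit 78) (nat_lit 76) (nat_lit 0) (XT.lf (nat_lit 0) (nat_lit 60947704822) (nat_lit 152) (nat_lit 27911672007) (nat_lit 0) (nat_lit 19265640265) (nat_lit 11) (nat_lit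 5) (nat_lit 13) (nat_lit 4) (nat_lit 11) (nat_lit 4) (nat_lit 358) (nat_lit 313) (nat_lit 229)) (XT.lf (nat_lit 0) (nat_lit 9267588243) (nat_lit 76) (nat_lit 73771230883) (nat_lit 76) (nat_lit 32084350211) (nat_lit 10) (nat_lit 4) (nat_lit 11) (nat_lit 5) (nat_lit 11) (nat_lit 4) (nat_lit 359) (nat_lit 313) (nat_lit 228))))))))
noncomputable def xc137 : XT := (XT.nd (nat_lit 1326) (nat_lit 152) (nat_lit 0) (XT.nd (nat_lit 624) (nat_lit 228) (nat_lit 0) (XT.nd (nat_lit 312) (nat_lit 76) (nat_lit 0) (XT.nd (nat_lit 156) (nat_lit 76) (nat_lit 0) (XT.nd (nat_lit 78) (nat_lit 76) (nat_lit 0) (XT.lf (nat_lit 0) (nat_lit 50999468679) (nat_lit 76) (nat_lit 56656186096) (nat_lit 76) (nat_lit 14964846058) (nat_lit 10) (nat_lit 4) (nat_lit 11) (nat_lit 5) (nat_lit 11) (nat_lit 4) (nat_lit 360) (nat_lit 313) (nat_lit 227)) (XT.lf (nat_lit 0) (nat_lit 3343435154) (nat_lit 152) (nat_lit 34741123960)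 (nat_lit 76) (nat_lit 92626639554) (nat_lit 9) (nat_lit 5) (nat_lit 11) (nat_lit 5) (nat_lit 10) (nat_lit 4) (nat_lit 361) (nat_lit 313) (nat_lit 226))) (XT.nd (nat_lit 78) (nat_lit 0) (nat_lit 0) (XT.lf (nat_lit 0) (nat_lit 4939570305) (nat_lit 76) (nat_lit 17482959778) (nat_lit 152) (nat_lit 116986356442) (nat_lit 8) (nat_lit 5) (nat_lit 9) (nat_lit 5) (nat_lit 10) (nat_lit 4) (nat_lit 362) (nat_lit 313) (nat_lit 225)) (XT.lf (nat_lit 0) (nat_lit 44113023973) (nat_lit 152) (nat_lit 99103270540) (nat_lit 0) (nat_lit 5499290401) (nat_lit 8) (nat_lit 5) (nat_lit 10) (nat_lit 4) (nat_lit 8) (nat_lit 4) (nat_lit 363) (nat_lit 313) (nat_lit 224)))) (XT.nd (nat_lit 156) (nat_lit 76) (nat_lit 0) (XT.nd (nat_lit 78) (nat_lit 0) (nat_lit 0) (XT.lf (nat_lit 0) (nat_lit 67989040120) (nat_lit 152) (nat_lit 61369485978) (nat_lit 0) (nat_lit 29372271578) (nat_lit 8) (nat_lit 5) (nat_lit 10) (nat_lit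 4) (nat_lit 8) (nat_lit 4) (nat_lit 364) (nat_lit 313) (nat_lit 223)) (XT.lf (nat_lit 0) (nat_lit 93771600425) (nat_lit 152) (nat_lit 20623889319) (nat_lit 0) (nat_lit 55152021726) (nat_lit 8) (nat_lit 5) (nat_lit 10) (nat_lit 4) (nat_lit 8) (nat_lit 4) (nat_lit 365) (nat_lit 313) (nat_lit 222))) (XT.nd (nat_lit 78) (nat_lit 0) (nat_lit 0) (XT.lf (nat_lit 0) (nat_lit 24605859575) (nat_lit 76) (nat_lit 97599402370) (nat_lit 76) (nat_lit 58977221673) (nat_lit 7) (nat_lit 4) (nat_lit 8) (nat_lit 5) (nat_lit 8) (nat_lit 4) (nat_lit 366) (nat_lit 313) (nat_lit 221)) (XT.lf (nat_lit 0) (nat_lit 74620668520) (nat_lit 76) (nat_lit 78853659467) (nat_lit 76) (nat_lit 40229069514) (nat_lit 7) (nat_lit 4) (nat_lit 8) (nat_lit 5) (nat_lit 8) (nat_lit 4) (nat_lit 367) (nat_lit 313) (nat_lit 220))))) (XT.nd (nat_lit 312) (nat_lit 76) (nat_lit 0) (XT.nd (nat_lit 156) (nat_lit 76) (nat_lit 0) (XT.nd (nat_lit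 78) (nat_lit 76) (nat_lit 0) (XT.lf (nat_lit 0) (nat_lit 128630904104) (nat_lit 76) (nat_lit 58611068836) (nat_lit 76) (nat_lit 19984248089) (nat_lit 7) (nat_lit 4) (nat_lit 8) (nat_lit 5) (nat_lit 8) (nat_lit 4) (nat_lit 368) (nat_lit 313) (nat_lit 219)) (XT.lf (nat_lit 0) (nat_lit 1783306169) (nat_lit 152) (nat_lit 34919609463) (nat_lit 76) (nat_lit 185124562061) (nat_lit 6) (nat_lit 5) (nat_lit 8) (nat_lit 5) (nat_lit 7) (nat_lit 4) (nat_lit 369) (nat_lit 313) (nat_lit 218))) (XT.nd (nat_lit 78) (nat_lit 0) (nat_lit 0) (XT.lf (nat_lit 0) (nat_lit 12343480310) (nat_lit 76) (nat_lit 12163384666) (nat_lit 152) (nat_lit 213024903365) (nat_lit 5) (nat_lit 5) (nat_lit 6) (nat_lit 5) (nat_lit 7) (nat_lit 4) (nat_lit 370) (nat_lit 313) (nat_lit 217)) (XT.lf (nat_lit 0) (nat_lit 50370154698) (nat_lit 152) (nat_lit 189417243642) (nat_lit 0) (nat_lit 14599256811) (nat_lit 5) (nat_lit 5) (nat_lit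 7) (nat_lit 4) (nat_lit 5) (nat_lit 4) (nat_lit 371) (nat_lit 313) (nat_lit 216)))) (XT.nd (nat_lit 156) (nat_lit 76) (nat_lit 0) (XT.nd (nat_lit 78) (nat_lit 0) (nat_lit 0) (XT.lf (nat_lit 0) (nat_lit 78616053016) (nat_lit 152) (nat_lit 151105159928) (nat_lit 0) (nat_lit 42843636889) (nat_lit 5) (nat_lit 5) (nat_lit 7) (nat_lit 4) (nat_lit 5) (nat_lit 4) (nat_lit 372) (nat_lit 313) (nat_lit 215)) (XT.lf (nat_lit 0) (nat_lit 109119413338) (nat_lit 152) (nat_lit 109732472628) (nat_lit 0) (nat_lit 73345591433) (nat_lit 5) (nat_lit 5) (nat_lit 7) (nat_lit 4) (nat_lit 5) (nat_lit 4) (nat_lit 373) (nat_lit 313) (nat_lit 214))) (XT.nd (nat_lit 78) (nat_lit 76) (nat_lit 0) (XT.lf (nat_lit 0) (nat_lit 142060996318) (nat_lit 152) (nat_lit 65054010259) (nat_lit 0) (nat_lit 106285872766) (nat_lit 5) (nat_lit 5) (nat_lit 7) (nat_lit 4) (nat_lit 5) (nat_lit 4) (nat_lit 374) (nat_lit 313) (nat_lit 213))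 (XT.nd (nat_lit 78) (nat_lit 76) (nat_lit 0) (XT.lf (nat_lit 0) (nat_lit 177636011337) (nat_lit 152) (nat_lit 16805011565) (nat_lit 0) (nat_lit 141859682557) (nat_lit 5) (nat_lit 5) (nat_lit 7) (nat_lit 4) (nat_lit 5) (nat_lit 4) (nat_lit 375) (nat_lit 313) (nat_lit 212)) (XT.lf (nat_lit 0) (nat_lit 37159302241) (nat_lit 76) (nat_lit 179789653169) (nat_lit 76) (nat_lit 144012208437) (nat_lit 4) (nat_lit 4) (nat_lit 5) (nat_lit 5) (nat_lit 5) (nat_lit 4) (nat_lit 376) (nat_lit 313) (nat_lit 211))))))) (XT.nd (nat_lit 624) (nat_lit 0) (nat_lit 0) (XT.nd (nat_lit 312) (nat_lit 152) (nat_lit 0) (XT.nd (nat_lit 156) (nat_lit 0) (nat_lit 0) (XT.nd (nat_lit 78) (nat_lit 0) (nat_lit 0) (XT.lf (nat_lit 0) (nat_lit 96393101159) (nat_lit 76) (nat_lit 163471607144) (nat_lit 76) (nat_lit 127693129123) (nat_lit 4) (nat_lit 4) (nat_lit 5) (nat_lit 5) (nat_lit 5) (nat_lit 4) (nat_lit 377) (nat_lit 313)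 (nat_lit 210)) (XT.lf (nat_lit 0) (nat_lit 160362478164) (nat_lit 76) (nat_lit 145849664091) (nat_lit 76) (nat_lit 110070229321) (nat_lit 4) (nat_lit 4) (nat_lit 5) (nat_lit 5) (nat_lit 5) (nat_lit 4) (nat_lit 378) (nat_lit 313) (nat_lit 209))) (XT.nd (nat_lit 78) (nat_lit 0) (nat_lit 0) (XT.lf (nat_lit 0) (nat_lit 229446511047) (nat_lit 76) (nat_lit 126819397683) (nat_lit 76) (nat_lit 91039077034) (nat_lit 4) (nat_lit 4) (nat_lit 5) (nat_lit 5) (nat_lit 5) (nat_lit 4) (nat_lit 379) (nat_lit 313) (nat_lit 208)) (XT.lf (nat_lit 0) (nat_lit 304054586669) (nat_lit 76) (nat_lit 106268035969) (nat_lit 76) (nat_lit 70486895062) (nat_lit 4) (nat_lit 4) (nat_lit 5) (nat_lit 5) (nat_lit 5) (nat_lit 4) (nat_lit 380) (nat_lit 313) (nat_lit 207)))) (XT.nd (nat_lit 156) (nat_lit 152) (nat_lit 0) (XT.nd (nat_lit 78) (nat_lit 0) (nat_lit 0) (XT.lf (nat_lit 0) (nat_lit 384628826959) (nat_lit 76) (nat_lit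 84073793103) (nat_lit 76) (nat_lit 48291892698) (nat_lit 4) (nat_lit 4) (nat_lit 5) (nat_lit 5) (nat_lit 5) (nat_lit 4) (nat_lit 381) (nat_lit 313) (nat_lit 206)) (XT.lf (nat_lit 0) (nat_lit 471646708898) (nat_lit 76) (nat_lit 60105147645) (nat_lit 76) (nat_lit 24322544000) (nat_lit 4) (nat_lit 4) (nat_lit 5) (nat_lit 5) (nat_lit 5) (nat_lit 4) (nat_lit 382) (nat_lit 313) (nat_lit 205))) (XT.nd (nat_lit 78) (nat_lit 76) (nat_lit 0) (XT.lf (nat_lit 0) (nat_lit 1484994438) (nat_lit 152) (nat_lit 32694466360) (nat_lit 76) (nat_lit 564098297189) (nat_lit 3) (nat_lit 5) (nat_lit 5) (nat_lit 5) (nat_lit 4) (nat_lit 4) (nat_lit 383) (nat_lit 313) (nat_lit 204)) (XT.lf (nat_lit 0) (nat_lit 23730746844) (nat_lit 76) (nat_lit 4882043804) (nat_lit 152) (nat_lit 615148476927) (nat_lit 2) (nat_lit 5) (nat_lit 3) (nat_lit 5) (nat_lit 4) (nat_lit 4) (nat_lit 384) (nat_lit 313) (nat_lit 203))))) (XT.nd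 (nat_lit 312) (nat_lit 0) (nat_lit 0) (XT.nd (nat_lit 156) (nat_lit 0) (nat_lit 0) (XT.nd (nat_lit 78) (nat_lit 0) (nat_lit 0) (XT.lf (nat_lit 0) (nat_lit 59470496069) (nat_lit 152) (nat_lit 606951409623) (nat_lit 0) (nat_lit 26336777588) (nat_lit 2) (nat_lit 5) (nat_lit 4) (nat_lit 4) (nat_lit 2) (nat_lit 4) (nat_lit 385) (nat_lit 313) (nat_lit 202)) (XT.lf (nat_lit 0) (nat_lit 92922682998) (nat_lit 152) (nat_lit 592954654311) (nat_lit 0) (nat_lit 59788485905) (nat_lit 2) (nat_lit 5) (nat_lit 4) (nat_lit 4) (nat_lit 2) (nat_lit 4) (nat_lit 386) (nat_lit 313) (nat_lit 201))) (XT.nd (nat_lit 78) (nat_lit 0) (nat_lit 0) (XT.lf (nat_lit 0) (nat_lit 129050173347) (nat_lit 152) (nat_lit 577839897787) (nat_lit 0) (nat_lit 95915533093) (nat_lit 2) (nat_lit 5) (nat_lit 4) (nat_lit 4) (nat_lit 2) (nat_lit 4) (nat_lit 387) (nat_lit 313) (nat_lit 200)) (XT.lf (nat_lit 0) (nat_lit 168067055947) (nat_lit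 152) (nat_lit 561517571125) (nat_lit 0) (nat_lit 134932005360) (nat_lit 2) (nat_lit 5) (nat_lit 4) (nat_lit 4) (nat_lit 2) (nat_lit 4) (nat_lit 388) (nat_lit 313) (nat_lit 199)))) (XT.nd (nat_lit 156) (nat_lit 0) (nat_lit 0) (XT.nd (nat_lit 78) (nat_lit 0) (nat_lit 0) (XT.lf (nat_lit 0) (nat_lit 210204541955) (nat_lit 152) (nat_lit 543890949427) (nat_lit 0) (nat_lit 177069111429) (nat_lit 2) (nat_lit 5) (nat_lit 4) (nat_lit 4) (nat_lit 2) (nat_lit 4) (nat_lit 389) (nat_lit 313) (nat_lit 198)) (XT.lf (nat_lit 0) (nat_lit 255712334990) (nat_lit 152) (nat_lit 524855578637) (nat_lit 0) (nat_lit 222576552670) (nat_lit 2) (nat_lit 5) (nat_lit 4) (nat_lit 4) (nat_lit 2) (nat_lit 4) (nat_lit 390) (nat_lit 313) (nat_lit 197))) (XT.nd (nat_lit 78) (nat_lit 0) (nat_lit 0) (XT.lf (nat_lit 0) (nat_lit 304860110865) (nat_lit 152) (nat_lit 504298656558) (nat_lit 0) (nat_lit 271724002809) (nat_lit 2)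 (nat_lit 5) (nat_lit 4) (nat_lit 4) (nat_lit 2) (nat_lit 4) (nat_lit 391) (nat_lit 313) (nat_lit 196)) (XT.nd (nat_lit 78) (nat_lit 0) (nat_lit 0) (XT.lf (nat_lit 0) (nat_lit 357939115657) (nat_lit 152) (nat_lit 482098364394) (nat_lit 0) (nat_lit 324802705994) (nat_lit 2) (nat_lit 5) (nat_lit 4) (nat_lit 4) (nat_lit 2) (nat_lit 4) (nat_lit 392) (nat_lit 313) (nat_lit 195)) (XT.lf (nat_lit 0) (nat_lit 415263891618) (nat_lit 152) (nat_lit 458123144856) (nat_lit 0) (nat_lit 382127202689) (nat_lit 2) (nat_lit 5) (nat_lit 4) (nat_lit 4) (nat_lit 2) (nat_lit 4) (nat_lit 393) (nat_lit 313) (nat_lit 194))))))))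
noncomputable def xc138 : XT := (XT.nd (nat_lit 1326) (nat_lit 0) (nat_lit 0) (XT.nd (nat_lit 624) (nat_lit 76) (nat_lit 0) (XT.nd (nat_lit 312) (nat_lit 0) (nat_lit 0) (XT.nd (nat_lit 156) (nat_lit 0) (nat_lit 0) (XT.nd (nat_lit 78) (nat_lit 0) (nat_lit 0) (XT.lf (nat_lit 0) (nat_lit 477174141124) (nat_lit 152) (nat_lit 432230922570) (nat_lit 0) (nat_lit 444037193615) (nat_lit 2) (nat_lit 5) (nat_lit 4) (nat_lit 4) (nat_lit 2) (nat_lit 4) (nat_lit 394) (nat_lit 313) (nat_lit 193)) (XT.lf (nat_lit 0) (nat_lit 544036739727) (nat_lit 152) (nat_lit 404268262145) (nat_lit 0) (nat_lit 510899552793) (nat_lit 2) (nat_lit 5) (nat_lit 4) (nat_lit 4) (nat_lit 2) (nat_lit 4) (nat_lit 395) (nat_lit 313) (nat_lit 192))) (XT.nd (nat_lit 78) (nat_lit 0) (nat_lit 0) (XT.lf (nat_lit 0) (nat_lit 616247910233) (nat_lit 152) (nat_lit 374069458926) (nat_lit 0) (nat_lit 583110501609) (nat_lit 2) (nat_lit 5)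 (nat_lit 4) (nat_lit 4) (nat_lit 2) (nat_lit 4) (nat_lit 396) (nat_lit 313) (nat_lit 191)) (XT.lf (nat_lit 0) (nat_lit 694235570692) (nat_lit 152) (nat_lit 341455557042) (nat_lit 0) (nat_lit 661097956799) (nat_lit 2) (nat_lit 5) (nat_lit 4) (nat_lit 4) (nat_lit 2) (nat_lit 4) (nat_lit 397) (nat_lit 313) (nat_lit 190)))) (XT.nd (nat_lit 156) (nat_lit 0) (nat_lit 0) (XT.nd (nat_lit 78) (nat_lit 0) (nat_lit 0) (XT.lf (nat_lit 0) (nat_lit 778461870200) (nat_lit 152) (nat_lit 306233288927) (nat_lit 0) (nat_lit 745324066244) (nat_lit 2) (nat_lit 5) (nat_lit 4) (nat_lit 4) (nat_lit 2) (nat_lit 4) (nat_lit 398) (nat_lit 313) (nat_lit 189)) (XT.lf (nat_lit 0) (nat_lit 869425927571) (nat_lit 152) (nat_lit 268193930028) (nat_lit 0) (nat_lit 836287947629) (nat_lit 2) (nat_lit 5) (nat_lit 4) (nat_lit 4) (nat_lit 2) (nat_lit 4) (nat_lit 399) (nat_lit 313) (nat_lit 188))) (XT.nd (nat_lit 78) (nat_lit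 0) (nat_lit 0) (XT.lf (nat_lit 0) (nat_lit 967666789070) (nat_lit 152) (nat_lit 227112061923) (nat_lit 0) (nat_lit 934528646179) (nat_lit 2) (nat_lit 5) (nat_lit 4) (nat_lit 4) (nat_lit 2) (nat_lit 4) (nat_lit 400) (nat_lit 313) (nat_lit 187)) (XT.lf (nat_lit 0) (nat_lit 1073766622765) (nat_lit 152) (nat_lit 182744236505) (nat_lit 0) (nat_lit 1040628328996) (nat_lit 2) (nat_lit 5) (nat_lit 4) (nat_lit 4) (nat_lit 2) (nat_lit 4) (nat_lit 401) (nat_lit 313) (nat_lit 186))))) (XT.nd (nat_lit 312) (nat_lit 0) (nat_lit 0) (XT.nd (nat_lit 156) (nat_lit 76) (nat_lit 0) (XT.nd (nat_lit 78) (nat_lit 0) (nat_lit 0) (XT.lf (nat_lit 0) (nat_lit 1188354168411) (nat_lit 152) (nat_lit 134827533326) (nat_lit 0) (nat_lit 1155215734940) (nat_lit 2) (nat_lit 5) (nat_lit 4) (nat_lit 4) (nat_lit 2) (nat_lit 4) (nat_lit 402) (nat_lit 313) (nat_lit 185)) (XT.lf (nat_lit 0) (nat_lit 1312108463317) (nat_lit 152)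 (nat_lit 83078001553) (nat_lit 0) (nat_lit 1278969900491) (nat_lit 2) (nat_lit 5) (nat_lit 4) (nat_lit 4) (nat_lit 2) (nat_lit 4) (nat_lit 403) (nat_lit 313) (nat_lit 184))) (XT.nd (nat_lit 78) (nat_lit 76) (nat_lit 0) (XT.lf (nat_lit 0) (nat_lit 1445762866266) (nat_lit 152) (nat_lit 27188977294) (nat_lit 0) (nat_lit 1412624183668) (nat_lit 2) (nat_lit 5) (nat_lit 4) (nat_lit 4) (nat_lit 2) (nat_lit 4) (nat_lit 404) (nat_lit 313) (nat_lit 183)) (XT.lf (nat_lit 0) (nat_lit 34917445720) (nat_lit 76) (nat_lit 1556031723039) (nat_lit 76) (nat_lit 1522892929541) (nat_lit 1) (nat_lit 4) (nat_lit 2) (nat_lit 5) (nat_lit 2) (nat_lit 4) (nat_lit 405) (nat_lit 313) (nat_lit 182)))) (XT.nd (nat_lit 156) (nat_lit 0) (nat_lit 0) (XT.nd (nat_lit 78) (nat_lit 0) (nat_lit 0) (XT.lf (nat_lit 0) (nat_lit 103538219588) (nat_lit 76) (nat_lit 1644955338539) (nat_lit 76) (nat_lit 1611816442355) (nat_lit 1)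 (nat_lit 4) (nat_lit 2) (nat_lit 5) (nat_lit 2) (nat_lit 4) (nat_lit 406) (nat_lit 313) (nat_lit 181)) (XT.lf (nat_lit 0) (nat_lit 177648262571) (nat_lit 76) (nat_lit 1740993039640) (nat_lit 76) (nat_lit 1707854048377) (nat_lit 1) (nat_lit 4) (nat_lit 2) (nat_lit 5) (nat_lit 2) (nat_lit 4) (nat_lit 407) (nat_lit 313) (nat_lit 180))) (XT.nd (nat_lit 78) (nat_lit 0) (nat_lit 0) (XT.lf (nat_lit 0) (nat_lit 257686745294) (nat_lit 76) (nat_lit 1844713938646) (nat_lit 76) (nat_lit 1811574859346) (nat_lit 1) (nat_lit 4) (nat_lit 2) (nat_lit 5) (nat_lit 2) (nat_lit 4) (nat_lit 408) (nat_lit 313) (nat_lit 179)) (XT.nd (nat_lit 78) (nat_lit 0) (nat_lit 0) (XT.lf (nat_lit 0) (nat_lit 344127969877) (nat_lit 76) (nat_lit 1956732677920) (nat_lit 76) (nat_lit 1923593517106) (nat_lit 1) (nat_lit 4) (nat_lit 2) (nat_lit 5) (nat_lit 2) (nat_lit 4) (nat_lit 409) (nat_lit 313) (nat_lit 178)) (XT.lf (nat_lit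 0) (nat_lit 437484180614) (nat_lit 76) (nat_lit 2077713072215) (nat_lit 76) (nat_lit 2044573835924) (nat_lit 1) (nat_lit 4) (nat_lit 2) (nat_lit 5) (nat_lit 2) (nat_lit 4) (nat_lit 410) (nat_lit 313) (nat_lit 177))))))) (XT.nd (nat_lit 39858) (nat_lit 0) (nat_lit 2812) (XT.nd (nat_lit 39546) (nat_lit 0) (nat_lit 4104) (XT.nd (nat_lit 39390) (nat_lit 0) (nat_lit 4028) (XT.nd (nat_lit 39312) (nat_lit 0) (nat_lit 4028) (XT.lf (nat_lit 0) (nat_lit 538308599494) (nat_lit 76) (nat_lit 2208372042385) (nat_lit 76) (nat_lit 2175232736208) (nat_lit 1) (nat_lit 4) (nat_lit 2) (nat_lit 5) (nat_lit 2) (nat_lit 4) (nat_lit 411) (nat_lit 313) (nat_lit 176)) (XT.lf (nat_lit 0) (nat_lit 2761779721) (nat_lit 532) (nat_lit 1687027091) (nat_lit 532) (nat_lit 1687027091) (nat_lit 54) (nat_lit 3) (nat_lit 61) (nat_lit 3) (nat_lit 61) (nat_lit 5) (nat_lit 314) (nat_lit 314) (nat_lit 272))) (XT.nd (nat_lit 78)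 (nat_lit 0) (nat_lit 76) (XT.lf (nat_lit 76) (nat_lit 2569342222) (nat_lit 0) (nat_lit 3660135308) (nat_lit 532) (nat_lit 6493485910) (nat_lit 55) (nat_lit 5) (nat_lit 54) (nat_lit 3) (nat_lit 61) (nat_lit 5) (nat_lit 315) (nat_lit 314) (nat_lit 271)) (XT.lf (nat_lit 0) (nat_lit 7092063879) (nat_lit 456) (nat_lit 4101365664) (nat_lit 532) (nat_lit 2008994933) (nat_lit 55) (nat_lit 5) (nat_lit 61) (nat_lit 5) (nat_lit 62) (nat_lit 5) (nat_lit 316) (nat_lit 314) (nat_lit 270)))) (XT.nd (nat_lit 156) (nat_lit 0) (nat_lit 76) (XT.nd (nat_lit 78) (nat_lit 0) (nat_lit 76) (XT.lf (nat_lit 76) (nat_lit 2435862173) (nat_lit 0) (nat_lit 5702125554) (nat_lit 532) (nat_lit 5573179832) (nat_lit 56) (nat_lit 5) (nat_lit 55) (nat_lit 5) (nat_lit 62) (nat_lit 5) (nat_lit 317) (nat_lit 314) (nat_lit 269)) (XT.lf (nat_lit 0) (nat_lit 9351395740) (nat_lit 456) (nat_lit 4559372225) (nat_lit 532) (nat_lit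 343203609) (nat_lit 56) (nat_lit 5) (nat_lit 62) (nat_lit 5) (nat_lit 63) (nat_lit 5) (nat_lit 318) (nat_lit 314) (nat_lit 268))) (XT.nd (nat_lit 78) (nat_lit 0) (nat_lit 0) (XT.lf (nat_lit 76) (nat_lit 2651865041) (nat_lit 0) (nat_lit 8187881061) (nat_lit 532) (nat_lit 3986285627) (nat_lit 57) (nat_lit 5) (nat_lit 56) (nat_lit 5) (nat_lit 63) (nat_lit 5) (nat_lit 319) (nat_lit 314) (nat_lit 267)) (XT.lf (nat_lit 76) (nat_lit 10673447808) (nat_lit 0) (nat_lit 1866261084) (nat_lit 532) (nat_lit 2896801098) (nat_lit 57) (nat_lit 5) (nat_lit 56) (nat_lit 5) (nat_lit 63) (nat_lit 5) (nat_lit 320) (nat_lit 314) (nat_lit 266))))) (XT.nd (nat_lit 312) (nat_lit 608) (nat_lit 0) (XT.nd (nat_lit 156) (nat_lit 304) (nat_lit 0) (XT.nd (nat_lit 78) (nat_lit 76) (nat_lit 0) (XT.lf (nat_lit 0) (nat_lit 3258093919) (nat_lit 456) (nat_lit 11285648014) (nat_lit 532) (nat_lit 1538691358) (nat_lit 51) (nat_lit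 5) (nat_lit 57) (nat_lit 5) (nat_lit 58) (nat_lit 5) (nat_lit 321) (nat_lit 314) (nat_lit 265)) (XT.lf (nat_lit 0) (nat_lit 84951579) (nat_lit 532) (nat_lit 4655313128) (nat_lit 76) (nat_lit 12027686391) (nat_lit 50) (nat_lit 5) (nat_lit 57) (nat_lit 5) (nat_lit 51) (nat_lit 5) (nat_lit 322) (nat_lit 314) (nat_lit 264))) (XT.nd (nat_lit 78) (nat_lit 0) (nat_lit 0) (XT.lf (nat_lit 0) (nat_lit 1892307417) (nat_lit 380) (nat_lit 13240852546) (nat_lit 76) (nat_lit 2361038809) (nat_lit 46) (nat_lit 5) (nat_lit 51) (nat_lit 5) (nat_lit 47) (nat_lit 5) (nat_lit 323) (nat_lit 314) (nat_lit 263)) (XT.lf (nat_lit 0) (nat_lit 4072692390) (nat_lit 380) (nat_lit 4282143132) (nat_lit 76) (nat_lit 9905474173) (nat_lit 46) (nat_lit 5) (nat_lit 51) (nat_lit 5) (nat_lit 47) (nat_lit 5) (nat_lit 324) (nat_lit 314) (nat_lit 262)))) (XT.nd (nat_lit 156) (nat_lit 380) (nat_lit 0) (XT.nd (nat_lit 78) (nat_lit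 0) (nat_lit 0) (XT.lf (nat_lit 0) (nat_lit 5651141288) (nat_lit 228) (nat_lit 888875388) (nat_lit 304) (nat_lit 12538727957) (nat_lit 43) (nat_lit 5) (nat_lit 46) (nat_lit 5) (nat_lit 47) (nat_lit 5) (nat_lit 325) (nat_lit 314) (nat_lit 261)) (XT.lf (nat_lit 0) (nat_lit 9475096551) (nat_lit 304) (nat_lit 3532207837) (nat_lit 76) (nat_lit 6933753578) (nat_lit 43) (nat_lit 5) (nat_lit 47) (nat_lit 5) (nat_lit 44) (nat_lit 5) (nat_lit 326) (nat_lit 314) (nat_lit 260))) (XT.nd (nat_lit 78) (nat_lit 152) (nat_lit 0) (XT.lf (nat_lit 0) (nat_lit 7481979954) (nat_lit 228) (nat_lit 5345387533) (nat_lit 304) (nat_lit 8030428817) (nat_lit 40) (nat_lit 5) (nat_lit 43) (nat_lit 5) (nat_lit 44) (nat_lit 5) (nat_lit 327) (nat_lit 314) (nat_lit 259)) (XT.nd (nat_lit 78) (nat_lit 152) (nat_lit 0) (XT.lf (nat_lit 0) (nat_lit 16597590650) (nat_lit 304) (nat_lit 2359862593) (nat_lit 76) (nat_lit 2878467258)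 (nat_lit 40) (nat_lit 5) (nat_lit 44) (nat_lit 5) (nat_lit 41) (nat_lit 5) (nat_lit 328) (nat_lit 314) (nat_lit 258)) (XT.lf (nat_lit 0) (nat_lit 9869132257) (nat_lit 152) (nat_lit 11158188986) (nat_lit 228) (nat_lit 1836368557) (nat_lit 38) (nat_lit 5) (nat_lit 40) (nat_lit 5) (nat_lit 41) (nat_lit 5) (nat_lit 329) (nat_lit 314) (nat_lit 257))))))))
noncomputable def xc139 : XT := (XT.nd (nat_lit 1326) (nat_lit 760) (nat_lit 0) (XT.nd (nat_lit 624) (nat_lit 684) (nat_lit 0) (XT.nd (nat_lit 312) (nat_lit 380) (nat_lit 0) (XT.nd (nat_lit 156) (nat_lit 152) (nat_lit 0) (XT.nd (nat_lit 78) (nat_lit 228) (nat_lit 0) (XT.lf (nat_lit 0) (nat_lit 1794049417) (nat_lit 228) (nat_lit 827210617) (nat_lit 76) (nat_lit 21345048832) (nat_lit 37) (nat_lit 5) (nat_lit 40) (nat_lit 5) (nat_lit 38) (nat_lit 5) (nat_lit 330) (nat_lit 314) (nat_lit 256)) (XT.lf (nat_lit 0) (nat_lit 6076894606) (nat_lit 304)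 (nat_lit 12408895052) (nat_lit 76) (nat_lit 6630656442) (nat_lit 34) (nat_lit 5) (nat_lit 38) (nat_lit 5) (nat_lit 35) (nat_lit 5) (nat_lit 331) (nat_lit 314) (nat_lit 255))) (XT.nd (nat_lit 78) (nat_lit 0) (nat_lit 0) (XT.lf (nat_lit 0) (nat_lit 973005524) (nat_lit 152) (nat_lit 9828011991) (nat_lit 228) (nat_lit 15549704143) (nat_lit 32) (nat_lit 5) (nat_lit 34) (nat_lit 5) (nat_lit 35) (nat_lit 5) (nat_lit 332) (nat_lit 314) (nat_lit 254)) (XT.lf (nat_lit 0) (nat_lit 16109379860) (nat_lit 152) (nat_lit 117595613) (nat_lit 228) (nat_lit 11430869291) (nat_lit 32) (nat_lit 5) (nat_lit 34) (nat_lit 5) (nat_lit 35) (nat_lit 5) (nat_lit 333) (nat_lit 314) (nat_lit 253)))) (XT.nd (nat_lit 156) (nat_lit 228) (nat_lit 0) (XT.nd (nat_lit 78) (nat_lit 0) (nat_lit 0) (XT.lf (nat_lit 0) (nat_lit 3280665727) (nat_lit 152) (nat_lit 19120255178) (nat_lit 228) (nat_lit 6643520540) (nat_lit 30) (nat_lit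 5) (nat_lit 32) (nat_lit 5) (nat_lit 33) (nat_lit 5) (nat_lit 334) (nat_lit 314) (nat_lit 252)) (XT.lf (nat_lit 0) (nat_lit 19929036783) (nat_lit 152) (nat_lit 9444666726) (nat_lit 228) (nat_lit 1143883992) (nat_lit 30) (nat_lit 5) (nat_lit 32) (nat_lit 5) (nat_lit 33) (nat_lit 5) (nat_lit 335) (nat_lit 314) (nat_lit 251))) (XT.nd (nat_lit 78) (nat_lit 0) (nat_lit 0) (XT.lf (nat_lit 0) (nat_lit 4716849440) (nat_lit 228) (nat_lit 26155807215) (nat_lit 76) (nat_lit 1213832579) (nat_lit 27) (nat_lit 5) (nat_lit 30) (nat_lit 5) (nat_lit 28) (nat_lit 5) (nat_lit 336) (nat_lit 314) (nat_lit 250)) (XT.lf (nat_lit 0) (nat_lit 11514201128) (nat_lit 228) (nat_lit 9686836744) (nat_lit 76) (nat_lit 12535135807) (nat_lit 27) (nat_lit 5) (nat_lit 30) (nat_lit 5) (nat_lit 28) (nat_lit 5) (nat_lit 337) (nat_lit 314) (nat_lit 249))))) (XT.nd (nat_lit 312) (nat_lit 380) (nat_lit 0) (XT.nd (nat_lit 156)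 (nat_lit 152) (nat_lit 0) (XT.nd (nat_lit 78) (nat_lit 0) (nat_lit 0) (XT.lf (nat_lit 0) (nat_lit 8506494531) (nat_lit 152) (nat_lit 10541588498) (nat_lit 228) (nat_lit 16454341778) (nat_lit 25) (nat_lit 5) (nat_lit 27) (nat_lit 5) (nat_lit 28) (nat_lit 5) (nat_lit 338) (nat_lit 314) (nat_lit 248)) (XT.lf (nat_lit 0) (nat_lit 27468189277) (nat_lit 228) (nat_lit 8731790732) (nat_lit 76) (nat_lit 1187325367) (nat_lit 25) (nat_lit 5) (nat_lit 28) (nat_lit 5) (nat_lit 26) (nat_lit 4) (nat_lit 339) (nat_lit 314) (nat_lit 247))) (XT.nd (nat_lit 78) (nat_lit 76) (nat_lit 0) (XT.lf (nat_lit 0) (nat_lit 11265660021) (nat_lit 76) (nat_lit 25830283295) (nat_lit 152) (nat_lit 2284319615) (nat_lit 24) (nat_lit 5) (nat_lit 25) (nat_lit 5) (nat_lit 26) (nat_lit 4) (nat_lit 340) (nat_lit 314) (nat_lit 246)) (XT.lf (nat_lit 0) (nat_lit 5897394982) (nat_lit 152) (nat_lit 8321324051) (nat_lit 76) (nat_lit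 27283729617) (nat_lit 23) (nat_lit 5) (nat_lit 25) (nat_lit 5) (nat_lit 24) (nat_lit 5) (nat_lit 341) (nat_lit 314) (nat_lit 245)))) (XT.nd (nat_lit 156) (nat_lit 228) (nat_lit 0) (XT.nd (nat_lit 78) (nat_lit 0) (nat_lit 0) (XT.lf (nat_lit 0) (nat_lit 13663194390) (nat_lit 152) (nat_lit 1265822374) (nat_lit 228) (nat_lit 28835150902) (nat_lit 21) (nat_lit 5) (nat_lit 23) (nat_lit 5) (nat_lit 24) (nat_lit 5) (nat_lit 342) (nat_lit 314) (nat_lit 244)) (XT.lf (nat_lit 0) (nat_lit 25212963150) (nat_lit 228) (nat_lit 8637385089) (nat_lit 76) (nat_lit 12314099491) (nat_lit 21) (nat_lit 5) (nat_lit 24) (nat_lit 5) (nat_lit 22) (nat_lit 4) (nat_lit 343) (nat_lit 314) (nat_lit 243))) (XT.nd (nat_lit 78) (nat_lit 152) (nat_lit 0) (XT.lf (nat_lit 0) (nat_lit 15258351343) (nat_lit 76) (nat_lit 21452199174) (nat_lit 152) (nat_lit 12014932250) (nat_lit 20) (nat_lit 5) (nat_lit 21) (nat_lit 5) (nat_lit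 22) (nat_lit 4) (nat_lit 344) (nat_lit 314) (nat_lit 242)) (XT.nd (nat_lit 78) (nat_lit 152) (nat_lit 0) (XT.lf (nat_lit 0) (nat_lit 41542006072) (nat_lit 76) (nat_lit 7813484081) (nat_lit 152) (nat_lit 2117712933) (nat_lit 20) (nat_lit 5) (nat_lit 21) (nat_lit 5) (nat_lit 22) (nat_lit 4) (nat_lit 345) (nat_lit 314) (nat_lit 241)) (XT.lf (nat_lit 0) (nat_lit 8702418992) (nat_lit 152) (nat_lit 38504443664) (nat_lit 76) (nat_lit 7172600006) (nat_lit 18) (nat_lit 5) (nat_lit 20) (nat_lit 5) (nat_lit 19) (nat_lit 4) (nat_lit 346) (nat_lit 314) (nat_lit 240))))))) (XT.nd (nat_lit 702) (nat_lit 380) (nat_lit 0) (XT.nd (nat_lit 312) (nat_lit 228) (nat_lit 0) (XT.nd (nat_lit 156) (nat_lit 76) (nat_lit 0) (XT.nd (nat_lit 78) (nat_lit 76) (nat_lit 0) (XT.lf (nat_lit 0) (nat_lit 20747223974) (nat_lit 152) (nat_lit 13465395166) (nat_lit 76) (nat_lit 23263330346) (nat_lit 18) (nat_lit 5) (nat_lit 20)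 (nat_lit 5) (nat_lit 19) (nat_lit 4) (nat_lit 347) (nat_lit 314) (nat_lit 239)) (XT.lf (nat_lit 0) (nat_lit 14277653948) (nat_lit 76) (nat_lit 19813871534) (nat_lit 152) (nat_lit 26701761288) (nat_lit 17) (nat_lit 5) (nat_lit 18) (nat_lit 5) (nat_lit 19) (nat_lit 4) (nat_lit 348) (nat_lit 314) (nat_lit 238))) (XT.nd (nat_lit 78) (nat_lit 76) (nat_lit 0) (XT.lf (nat_lit 0) (nat_lit 44992924566) (nat_lit 76) (nat_lit 3871388616) (nat_lit 152) (nat_lit 15482826640) (nat_lit 17) (nat_lit 5) (nat_lit 18) (nat_lit 5) (nat_lit 19) (nat_lit 4) (nat_lit 349) (nat_lit 314) (nat_lit 237)) (XT.lf (nat_lit 0) (nat_lit 10154651200) (nat_lit 76) (nat_lit 55222656483) (nat_lit 76) (nat_lit 2763326578) (nat_lit 16) (nat_lit 4) (nat_lit 17) (nat_lit 5) (nat_lit 17) (nat_lit 4) (nat_lit 350) (nat_lit 314) (nat_lit 236)))) (XT.nd (nat_lit 156) (nat_lit 76) (nat_lit 0) (XT.nd (nat_lit 78) (nat_lit 76) (nat_lit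 0) (XT.lf (nat_lit 0) (nat_lit 11061480723) (nat_lit 152) (nat_lit 29461077437) (nat_lit 76) (nat_lit 31643004082) (nat_lit 15) (nat_lit 5) (nat_lit 17) (nat_lit 5) (nat_lit 16) (nat_lit 4) (nat_lit 351) (nat_lit 314) (nat_lit 235)) (XT.lf (nat_lit 0) (nat_lit 1328948639) (nat_lit 76) (nat_lit 24539714954) (nat_lit 152) (nat_lit 50636027350) (nat_lit 14) (nat_lit 5) (nat_lit 15) (nat_lit 5) (nat_lit 16) (nat_lit 4) (nat_lit 352) (nat_lit 314) (nat_lit 234))) (XT.nd (nat_lit 78) (nat_lit 76) (nat_lit 0) (XT.lf (nat_lit 0) (nat_lit 36246370786) (nat_lit 76) (nat_lit 6413483251) (nat_lit 152) (nat_lit 38467144095) (nat_lit 14) (nat_lit 5) (nat_lit 15) (nat_lit 5) (nat_lit 16) (nat_lit 4) (nat_lit 353) (nat_lit 314) (nat_lit 233)) (XT.nd (nat_lit 78) (nat_lit 76) (nat_lit 0) (XT.lf (nat_lit 0) (nat_lit 61105156367) (nat_lit 152) (nat_lit 12489255355) (nat_lit 0) (nat_lit 12499815458) (nat_lit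 14) (nat_lit 5) (nat_lit 16) (nat_lit 4) (nat_lit 14) (nat_lit 4) (nat_lit 354) (nat_lit 314) (nat_lit 232)) (XT.lf (nat_lit 0) (nat_lit 23492022039) (nat_lit 76) (nat_lit 58260304319) (nat_lit 76) (nat_lit 9648411138) (nat_lit 13) (nat_lit 4) (nat_lit 14) (nat_lit 5) (nat_lit 14) (nat_lit 4) (nat_lit 355) (nat_lit 314) (nat_lit 231)))))) (XT.nd (nat_lit 312) (nat_lit 228) (nat_lit 0) (XT.nd (nat_lit 156) (nat_lit 0) (nat_lit 0) (XT.nd (nat_lit 78) (nat_lit 76) (nat_lit 0) (XT.lf (nat_lit 0) (nat_lit 6918407605) (nat_lit 152) (nat_lit 34227672280) (nat_lit 76) (nat_lit 55944773876) (nat_lit 12) (nat_lit 5) (nat_lit 14) (nat_lit 5) (nat_lit 13) (nat_lit 4) (nat_lit 356) (nat_lit 314) (nat_lit 230)) (XT.lf (nat_lit 0) (nat_lit 1987390623) (nat_lit 76) (nat_lit 22344805645) (nat_lit 152) (nat_lit 78880505195) (nat_lit 11) (nat_lit 5) (nat_lit 12) (nat_lit 5) (nat_lit 13) (nat_lit 4) (nat_lit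 357) (nat_lit 314) (nat_lit 229))) (XT.nd (nat_lit 78) (nat_lit 0) (nat_lit 0) (XT.lf (nat_lit 0) (nat_lit 43037178394) (nat_lit 76) (nat_lit 1032993439) (nat_lit 152) (nat_lit 65679640225) (nat_lit 11) (nat_lit 5) (nat_lit 12) (nat_lit 5) (nat_lit 13) (nat_lit 4) (nat_lit 358) (nat_lit 314) (nat_lit 228)) (XT.lf (nat_lit 0) (nat_lit 65911391541) (nat_lit 152) (nat_lit 29976280189) (nat_lit 0) (nat_lit 20880284933) (nat_lit 11) (nat_lit 5) (nat_lit 13) (nat_lit 4) (nat_lit 11) (nat_lit 4) (nat_lit 359) (nat_lit 314) (nat_lit 227)))) (XT.nd (nat_lit 156) (nat_lit 152) (nat_lit 0) (XT.nd (nat_lit 78) (nat_lit 0) (nat_lit 0) (XT.lf (nat_lit 0) (nat_lit 10173059473) (nat_lit 76) (nat_lit 79594172350) (nat_lit 76) (nat_lit 34558936699) (nat_lit 10) (nat_lit 4) (nat_lit 11) (nat_lit 5) (nat_lit 11) (nat_lit 4) (nat_lit 360) (nat_lit 314) (nat_lit 226)) (XT.lf (nat_lit 0) (nat_lit 55231337443)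 (nat_lit 76) (nat_lit 61115757832) (nat_lit 76) (nat_lit 16076698994) (nat_lit 10) (nat_lit 4) (nat_lit 11) (nat_lit 5) (nat_lit 11) (nat_lit 4) (nat_lit 361) (nat_lit 314) (nat_lit 225))) (XT.nd (nat_lit 78) (nat_lit 76) (nat_lit 0) (XT.lf (nat_lit 0) (nat_lit 3685971039) (nat_lit 152) (nat_lit 37375779064) (nat_lit 76) (nat_lit 100100315925) (nat_lit 9) (nat_lit 5) (nat_lit 11) (nat_lit 5) (nat_lit 10) (nat_lit 4) (nat_lit 362) (nat_lit 314) (nat_lit 224)) (XT.nd (nat_lit 78) (nat_lit 0) (nat_lit 0) (XT.lf (nat_lit 0) (nat_lit 5475709102) (nat_lit 76) (nat_lit 18813514790) (nat_lit 152) (nat_lit 126266520348) (nat_lit 8) (nat_lit 5) (nat_lit 9) (nat_lit 5) (nat_lit 10) (nat_lit 4) (nat_lit 363) (nat_lit 314) (nat_lit 223)) (XT.lf (nat_lit 0) (nat_lit 47711074011) (nat_lit 152) (nat_lit 106897097915) (nat_lit 0) (nat_lit 5999118859) (nat_lit 8) (nat_lit 5) (nat_lit 10) (nat_lit 4) (nat_lit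 8) (nat_lit 4) (nat_lit 364) (nat_lit 314) (nat_lit 222))))))))
noncomputable def xc140 : XT := (XT.nd (nat_lit 1326) (nat_lit 152) (nat_lit 0) (XT.nd (nat_lit 624) (nat_lit 76) (nat_lit 0) (XT.nd (nat_lit 312) (nat_lit 152) (nat_lit 0) (XT.nd (nat_lit 156) (nat_lit 76) (nat_lit 0) (XT.nd (nat_lit 78) (nat_lit 0) (nat_lit 0) (XT.lf (nat_lit 0) (nat_lit 73492059737) (nat_lit 152) (nat_lit 66154568682) (nat_lit 0) (nat_lit 31777502588) (nat_lit 8) (nat_lit 5) (nat_lit 10) (nat_lit 4) (nat_lit 8) (nat_lit 4) (nat_lit 365) (nat_lit 314) (nat_lit 221)) (XT.lf (nat_lit 0) (nat_lit 101332491800) (nat_lit 152) (nat_lit 22158544747) (nat_lit 0) (nat_lit 59615525393) (nat_lit 8) (nat_lit 5) (nat_lit 10) (nat_lit 4) (nat_lit 8) (nat_lit 4) (nat_lit 366) (nat_lit 314) (nat_lit 220))) (XT.nd (nat_lit 78) (nat_lit 0) (nat_lit 0) (XT.lf (nat_lit 0) (nat_lit 26686666193) (nat_lit 76) (nat_lit 105352499307)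 (nat_lit 76) (nat_lit 63633302107) (nat_lit 7) (nat_lit 4) (nat_lit 8) (nat_lit 5) (nat_lit 8) (nat_lit 4) (nat_lit 367) (nat_lit 314) (nat_lit 219)) (XT.lf (nat_lit 0) (nat_lit 80694338530) (nat_lit 76) (nat_lit 85111160324) (nat_lit 76) (nat_lit 43389897575) (nat_lit 7) (nat_lit 4) (nat_lit 8) (nat_lit 5) (nat_lit 8) (nat_lit 4) (nat_lit 368) (nat_lit 314) (nat_lit 218)))) (XT.nd (nat_lit 156) (nat_lit 76) (nat_lit 0) (XT.nd (nat_lit 78) (nat_lit 76) (nat_lit 0) (XT.lf (nat_lit 0) (nat_lit 139017688033) (nat_lit 76) (nat_lit 63252924805) (nat_lit 76) (nat_lit 21529749510) (nat_lit 7) (nat_lit 4) (nat_lit 8) (nat_lit 5) (nat_lit 8) (nat_lit 4) (nat_lit 369) (nat_lit 314) (nat_lit 217)) (XT.lf (nat_lit 0) (nat_lit 1972799574) (nat_lit 152) (nat_lit 37621523055) (nat_lit 76) (nat_lit 199975595138) (nat_lit 6) (nat_lit 5) (nat_lit 8) (nat_lit 5) (nat_lit 7) (nat_lit 4) (nat_lit 370) (nat_lit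 314) (nat_lit 216))) (XT.nd (nat_lit 78) (nat_lit 0) (nat_lit 0) (XT.lf (nat_lit 0) (nat_lit 13420293516) (nat_lit 76) (nat_lit 13092629265) (nat_lit 152) (nat_lit 230017735386) (nat_lit 5) (nat_lit 5) (nat_lit 6) (nat_lit 5) (nat_lit 7) (nat_lit 4) (nat_lit 371) (nat_lit 314) (nat_lit 215)) (XT.lf (nat_lit 0) (nat_lit 54442880618) (nat_lit 152) (nat_lit 204485500539) (nat_lit 0) (nat_lit 15805747182) (nat_lit 5) (nat_lit 5) (nat_lit 7) (nat_lit 4) (nat_lit 5) (nat_lit 4) (nat_lit 372) (nat_lit 314) (nat_lit 214))))) (XT.nd (nat_lit 312) (nat_lit 76) (nat_lit 0) (XT.nd (nat_lit 156) (nat_lit 0) (nat_lit 0) (XT.nd (nat_lit 78) (nat_lit 0) (nat_lit 0) (XT.lf (nat_lit 0) (nat_lit 84945257205) (nat_lit 152) (nat_lit 163114755506) (nat_lit 0) (nat_lit 46306822123) (nat_lit 5) (nat_lit 5) (nat_lit 7) (nat_lit 4) (nat_lit 5) (nat_lit 4) (nat_lit 373) (nat_lit 314) (nat_lit 213)) (XT.lf (nat_lit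 0) (nat_lit 117885929320) (nat_lit 152) (nat_lit 118438091533) (nat_lit 0) (nat_lit 79246289009) (nat_lit 5) (nat_lit 5) (nat_lit 7) (nat_lit 4) (nat_lit 5) (nat_lit 4) (nat_lit 374) (nat_lit 314) (nat_lit 212))) (XT.nd (nat_lit 78) (nat_lit 0) (nat_lit 0) (XT.lf (nat_lit 0) (nat_lit 153460100945) (nat_lit 152) (nat_lit 70190758020) (nat_lit 0) (nat_lit 114819344682) (nat_lit 5) (nat_lit 5) (nat_lit 7) (nat_lit 4) (nat_lit 5) (nat_lit 4) (nat_lit 375) (nat_lit 314) (nat_lit 211)) (XT.lf (nat_lit 0) (nat_lit 191878581986) (nat_lit 152) (nat_lit 18086844842) (nat_lit 0) (nat_lit 153236792434) (nat_lit 5) (nat_lit 5) (nat_lit 7) (nat_lit 4) (nat_lit 5) (nat_lit 4) (nat_lit 376) (nat_lit 314) (nat_lit 210)))) (XT.nd (nat_lit 156) (nat_lit 0) (nat_lit 0) (XT.nd (nat_lit 78) (nat_lit 0) (nat_lit 0) (XT.lf (nat_lit 0) (nat_lit 40193030077) (nat_lit 76) (nat_lit 194142650778) (nat_lit 76) (nat_lit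 155499904477) (nat_lit 4) (nat_lit 4) (nat_lit 5) (nat_lit 5) (nat_lit 5) (nat_lit 4) (nat_lit 377) (nat_lit 314) (nat_lit 209)) (XT.lf (nat_lit 0) (nat_lit 104161015600) (nat_lit 76) (nat_lit 176521396229) (nat_lit 76) (nat_lit 137877764050) (nat_lit 4) (nat_lit 4) (nat_lit 5) (nat_lit 5) (nat_lit 5) (nat_lit 4) (nat_lit 378) (nat_lit 314) (nat_lit 208))) (XT.nd (nat_lit 78) (nat_lit 0) (nat_lit 0) (XT.lf (nat_lit 0) (nat_lit 173243760074) (nat_lit 76) (nat_lit 157491767324) (nat_lit 76) (nat_lit 118847314887) (nat_lit 4) (nat_lit 4) (nat_lit 5) (nat_lit 5) (nat_lit 5) (nat_lit 4) (nat_lit 379) (nat_lit 314) (nat_lit 207)) (XT.nd (nat_lit 78) (nat_lit 0) (nat_lit 0) (XT.lf (nat_lit 0) (nat_lit 247850642724) (nat_lit 76) (nat_lit 136940995891) (nat_lit 76) (nat_lit 98295783956) (nat_lit 4) (nat_lit 4) (nat_lit 5) (nat_lit 5) (nat_lit 5) (nat_lit 4) (nat_lit 380) (nat_lit 314) (nat_lit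 206)) (XT.lf (nat_lit 0) (nat_lit 328423778411) (nat_lit 76) (nat_lit 114747299582) (nat_lit 76) (nat_lit 76101384407) (nat_lit 4) (nat_lit 4) (nat_lit 5) (nat_lit 5) (nat_lit 5) (nat_lit 4) (nat_lit 381) (nat_lit 314) (nat_lit 205))))))) (XT.nd (nat_lit 624) (nat_lit 0) (nat_lit 0) (XT.nd (nat_lit 312) (nat_lit 0) (nat_lit 0) (XT.nd (nat_lit 156) (nat_lit 152) (nat_lit 0) (XT.nd (nat_lit 78) (nat_lit 0) (nat_lit 0) (XT.lf (nat_lit 0) (nat_lit 415440637568) (nat_lit 76) (nat_lit 90779160195) (nat_lit 76) (nat_lit 52132593872) (nat_lit 4) (nat_lit 4) (nat_lit 5) (nat_lit 5) (nat_lit 5) (nat_lit 4) (nat_lit 382) (nat_lit 314) (nat_lit 204)) (XT.lf (nat_lit 0) (nat_lit 509416875658) (nat_lit 76) (nat_lit 64894544312) (nat_lit 76) (nat_lit 26247375075) (nat_lit 4) (nat_lit 4) (nat_lit 5) (nat_lit 5) (nat_lit 5) (nat_lit 4) (nat_lit 383) (nat_lit 314) (nat_lit 203))) (XT.nd (nat_lit 78) (nat_lit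 76) (nat_lit 0) (XT.lf (nat_lit 0) (nat_lit 1622241510) (nat_lit 152) (nat_lit 35273465148) (nat_lit 76) (nat_lit 609242792438) (nat_lit 3) (nat_lit 5) (nat_lit 5) (nat_lit 5) (nat_lit 4) (nat_lit 4) (nat_lit 384) (nat_lit 314) (nat_lit 202)) (XT.lf (nat_lit 0) (nat_lit 25664839580) (nat_lit 76) (nat_lit 5254912329) (nat_lit 152) (nat_lit 664340978579) (nat_lit 2) (nat_lit 5) (nat_lit 3) (nat_lit 5) (nat_lit 4) (nat_lit 4) (nat_lit 385) (nat_lit 314) (nat_lit 201)))) (XT.nd (nat_lit 156) (nat_lit 0) (nat_lit 0) (XT.nd (nat_lit 78) (nat_lit 0) (nat_lit 0) (XT.lf (nat_lit 0) (nat_lit 64245139063) (nat_lit 152) (nat_lit 655473590988) (nat_lit 0) (nat_lit 28459284430) (nat_lit 2) (nat_lit 5) (nat_lit 4) (nat_lit 4) (nat_lit 2) (nat_lit 4) (nat_lit 386) (nat_lit 314) (nat_lit 200)) (XT.lf (nat_lit 0) (nat_lit 100372241443) (nat_lit 152) (nat_lit 640359608688) (nat_lit 0) (nat_lit 64585976476)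 (nat_lit 2) (nat_lit 5) (nat_lit 4) (nat_lit 4) (nat_lit 2) (nat_lit 4) (nat_lit 387) (nat_lit 314) (nat_lit 199))) (XT.nd (nat_lit 78) (nat_lit 0) (nat_lit 0) (XT.lf (nat_lit 0) (nat_lit 139388764812) (nat_lit 152) (nat_lit 624037998899) (nat_lit 0) (nat_lit 103602119906) (nat_lit 2) (nat_lit 5) (nat_lit 4) (nat_lit 4) (nat_lit 2) (nat_lit 4) (nat_lit 388) (nat_lit 314) (nat_lit 198)) (XT.lf (nat_lit 0) (nat_lit 181525918198) (nat_lit 152) (nat_lit 606412040972) (nat_lit 0) (nat_lit 145738921498) (nat_lit 2) (nat_lit 5) (nat_lit 4) (nat_lit 4) (nat_lit 2) (nat_lit 4) (nat_lit 389) (nat_lit 314) (nat_lit 197))))) (XT.nd (nat_lit 312) (nat_lit 0) (nat_lit 0) (XT.nd (nat_lit 156) (nat_lit 0) (nat_lit 0) (XT.nd (nat_lit 78) (nat_lit 0) (nat_lit 0) (XT.lf (nat_lit 0) (nat_lit 227033403251) (nat_lit 152) (nat_lit 587377284785) (nat_lit 0) (nat_lit 191246080815) (nat_lit 2) (nat_lit 5) (nat_lit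 4) (nat_lit 4) (nat_lit 2) (nat_lit 4) (nat_lit 390) (nat_lit 314) (nat_lit 196)) (XT.lf (nat_lit 0) (nat_lit 276180893956) (nat_lit 152) (nat_lit 566820931784) (nat_lit 0) (nat_lit 240393269913) (nat_lit 2) (nat_lit 5) (nat_lit 4) (nat_lit 4) (nat_lit 2) (nat_lit 4) (nat_lit 391) (nat_lit 314) (nat_lit 195))) (XT.nd (nat_lit 78) (nat_lit 0) (nat_lit 0) (XT.lf (nat_lit 0) (nat_lit 329259634703) (nat_lit 152) (nat_lit 544621166542) (nat_lit 0) (nat_lit 293471731394) (nat_lit 2) (nat_lit 5) (nat_lit 4) (nat_lit 4) (nat_lit 2) (nat_lit 4) (nat_lit 392) (nat_lit 314) (nat_lit 194)) (XT.lf (nat_lit 0) (nat_lit 386584166177) (nat_lit 152) (nat_lit 520646434896) (nat_lit 0) (nat_lit 350796004288) (nat_lit 2) (nat_lit 5) (nat_lit 4) (nat_lit 4) (nat_lit 2) (nat_lit 4) (nat_lit 393) (nat_lit 314) (nat_lit 193)))) (XT.nd (nat_lit 156) (nat_lit 0) (nat_lit 0) (XT.nd (nat_lit 78) (nat_lit 0) (nat_lit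 0) (XT.lf (nat_lit 0) (nat_lit 448494189306) (nat_lit 152) (nat_lit 494754664362) (nat_lit 0) (nat_lit 412705787992) (nat_lit 2) (nat_lit 5) (nat_lit 4) (nat_lit 4) (nat_lit 2) (nat_lit 4) (nat_lit 394) (nat_lit 314) (nat_lit 192)) (XT.lf (nat_lit 0) (nat_lit 515356578301) (nat_lit 152) (nat_lit 466792422225) (nat_lit 0) (nat_lit 479567955297) (nat_lit 2) (nat_lit 5) (nat_lit 4) (nat_lit 4) (nat_lit 2) (nat_lit 4) (nat_lit 395) (nat_lit 314) (nat_lit 191))) (XT.nd (nat_lit 78) (nat_lit 0) (nat_lit 0) (XT.lf (nat_lit 0) (nat_lit 587567554727) (nat_lit 152) (nat_lit 436594006311) (nat_lit 0) (nat_lit 551778726454) (nat_lit 2) (nat_lit 5) (nat_lit 4) (nat_lit 4) (nat_lit 2) (nat_lit 4) (nat_lit 396) (nat_lit 314) (nat_lit 190)) (XT.nd (nat_lit 78) (nat_lit 0) (nat_lit 0) (XT.lf (nat_lit 0) (nat_lit 665555035480) (nat_lit 152) (nat_lit 403980463042) (nat_lit 0) (nat_lit 629766017143) (nat_lit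 2) (nat_lit 5) (nat_lit 4) (nat_lit 4) (nat_lit 2) (nat_lit 4) (nat_lit 397) (nat_lit 314) (nat_lit 189)) (XT.lf (nat_lit 0) (nat_lit 749781168595) (nat_lit 152) (nat_lit 368758526978) (nat_lit 0) (nat_lit 713991974273) (nat_lit 2) (nat_lit 5) (nat_lit 4) (nat_lit 4) (nat_lit 2) (nat_lit 4) (nat_lit 398) (nat_lit 314) (nat_lit 188))))))))
noncomputable def xc141 : XT := (XT.nd (nat_lit 40638) (nat_lit 0) (nat_lit 2204) (XT.nd (nat_lit 624) (nat_lit 0) (nat_lit 0) (XT.nd (nat_lit 312) (nat_lit 76) (nat_lit 0) (XT.nd (nat_lit 156) (nat_lit 0) (nat_lit 0) (XT.nd (nat_lit 78) (nat_lit 0) (nat_lit 0) (XT.lf (nat_lit 0) (nat_lit 840745071898) (nat_lit 152) (nat_lit 330719475534) (nat_lit 0) (nat_lit 804955714627) (nat_lit 2) (nat_lit 5) (nat_lit 4) (nat_lit 4) (nat_lit 2) (nat_lit 4) (nat_lit 399) (nat_lit 314) (nat_lit 187)) (XT.lf (nat_lit 0) (nat_lit 938985790741) (nat_lit 152) (nat_lit 289637892109)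 (nat_lit 0) (nat_lit 903196282591) (nat_lit 2) (nat_lit 5) (nat_lit 4) (nat_lit 4) (nat_lit 2) (nat_lit 4) (nat_lit 400) (nat_lit 314) (nat_lit 186))) (XT.nd (nat_lit 78) (nat_lit 0) (nat_lit 0) (XT.lf (nat_lit 0) (nat_lit 1045085492347) (nat_lit 152) (nat_lit 245270330283) (nat_lit 0) (nat_lit 1009295844495) (nat_lit 2) (nat_lit 5) (nat_lit 4) (nat_lit 4) (nat_lit 2) (nat_lit 4) (nat_lit 401) (nat_lit 314) (nat_lit 185)) (XT.lf (nat_lit 0) (nat_lit 1159672915690) (nat_lit 152) (nat_lit 197353871172) (nat_lit 0) (nat_lit 1123883138484) (nat_lit 2) (nat_lit 5) (nat_lit 4) (nat_lit 4) (nat_lit 2) (nat_lit 4) (nat_lit 402) (nat_lit 314) (nat_lit 184)))) (XT.nd (nat_lit 156) (nat_lit 76) (nat_lit 0) (XT.nd (nat_lit 78) (nat_lit 0) (nat_lit 0) (XT.lf (nat_lit 0) (nat_lit 1283427097351) (nat_lit 152) (nat_lit 145604565387) (nat_lit 0) (nat_lit 1247637200372) (nat_lit 2) (nat_lit 5) (nat_lit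 4) (nat_lit 4) (nat_lit 2) (nat_lit 4) (nat_lit 403) (nat_lit 314) (nat_lit 183)) (XT.lf (nat_lit 0) (nat_lit 1417081395444) (nat_lit 152) (nat_lit 89715750376) (nat_lit 0) (nat_lit 1381291387565) (nat_lit 2) (nat_lit 5) (nat_lit 4) (nat_lit 4) (nat_lit 2) (nat_lit 4) (nat_lit 404) (nat_lit 314) (nat_lit 182))) (XT.nd (nat_lit 78) (nat_lit 76) (nat_lit 0) (XT.lf (nat_lit 0) (nat_lit 1561427835439) (nat_lit 152) (nat_lit 29356233161) (nat_lit 0) (nat_lit 1525637724875) (nat_lit 2) (nat_lit 5) (nat_lit 4) (nat_lit 4) (nat_lit 2) (nat_lit 4) (nat_lit 405) (nat_lit 314) (nat_lit 181)) (XT.lf (nat_lit 0) (nat_lit 37718504648) (nat_lit 76) (nat_lit 1680510429944) (nat_lit 76) (nat_lit 1644720224300) (nat_lit 1) (nat_lit 4) (nat_lit 2) (nat_lit 5) (nat_lit 2) (nat_lit 4) (nat_lit 406) (nat_lit 314) (nat_lit 180))))) (XT.nd (nat_lit 312) (nat_lit 0) (nat_lit 0) (XT.nd (nat_lit 156) (nat_lit 0)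 (nat_lit 0) (XT.nd (nat_lit 78) (nat_lit 0) (nat_lit 0) (XT.lf (nat_lit 0) (nat_lit 111828372776) (nat_lit 76) (nat_lit 1776548218457) (nat_lit 76) (nat_lit 1740757924777) (nat_lit 1) (nat_lit 4) (nat_lit 2) (nat_lit 5) (nat_lit 2) (nat_lit 4) (nat_lit 407) (nat_lit 314) (nat_lit 179)) (XT.lf (nat_lit 0) (nat_lit 191866693596) (nat_lit 76) (nat_lit 1880269198399) (nat_lit 76) (nat_lit 1844478823204) (nat_lit 1) (nat_lit 4) (nat_lit 2) (nat_lit 5) (nat_lit 2) (nat_lit 4) (nat_lit 408) (nat_lit 314) (nat_lit 178))) (XT.nd (nat_lit 78) (nat_lit 0) (nat_lit 0) (XT.lf (nat_lit 0) (nat_lit 278307768269) (nat_lit 76) (nat_lit 1992288012615) (nat_lit 76) (nat_lit 1956497561943) (nat_lit 1) (nat_lit 4) (nat_lit 2) (nat_lit 5) (nat_lit 2) (nat_lit 4) (nat_lit 409) (nat_lit 314) (nat_lit 177)) (XT.lf (nat_lit 0) (nat_lit 371663840200) (nat_lit 76) (nat_lit 2113268476300) (nat_lit 76) (nat_lit 2077477955742)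 (nat_lit 1) (nat_lit 4) (nat_lit 2) (nat_lit 5) (nat_lit 2) (nat_lit 4) (nat_lit 410) (nat_lit 314) (nat_lit 176)))) (XT.nd (nat_lit 39468) (nat_lit 0) (nat_lit 4028) (XT.nd (nat_lit 39390) (nat_lit 0) (nat_lit 4028) (XT.lf (nat_lit 0) (nat_lit 472488130556) (nat_lit 76) (nat_lit 2243927510720) (nat_lit 76) (nat_lit 2208136925453) (nat_lit 1) (nat_lit 4) (nat_lit 2) (nat_lit 5) (nat_lit 2) (nat_lit 4) (nat_lit 411) (nat_lit 314) (nat_lit 175)) (XT.lf (nat_lit 0) (nat_lit 3395727506) (nat_lit 532) (nat_lit 1598589122) (nat_lit 532) (nat_lit 1598589122) (nat_lit 54) (nat_lit 3) (nat_lit 61) (nat_lit 3) (nat_lit 61) (nat_lit 5) (nat_lit 315) (nat_lit 315) (nat_lit 270))) (XT.nd (nat_lit 78) (nat_lit 0) (nat_lit 76) (XT.lf (nat_lit 76) (nat_lit 3210378473) (nat_lit 0) (nat_lit 4292755606) (nat_lit 532) (nat_lit 6174245471) (nat_lit 55) (nat_lit 5) (nat_lit 54) (nat_lit 3) (nat_lit 61) (nat_lit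 5) (nat_lit 316) (nat_lit 315) (nat_lit 269)) (XT.nd (nat_lit 78) (nat_lit 0) (nat_lit 0) (XT.lf (nat_lit 0) (nat_lit 8369730768) (nat_lit 456) (nat_lit 3959954302) (nat_lit 532) (nat_lit 1870815614) (nat_lit 55) (nat_lit 5) (nat_lit 61) (nat_lit 5) (nat_lit 62) (nat_lit 5) (nat_lit 317) (nat_lit 315) (nat_lit 268)) (XT.lf (nat_lit 76) (nat_lit 3088365164) (nat_lit 0) (nat_lit 6369354522) (nat_lit 532) (nat_lit 5295648056) (nat_lit 56) (nat_lit 5) (nat_lit 55) (nat_lit 5) (nat_lit 62) (nat_lit 5) (nat_lit 318) (nat_lit 315) (nat_lit 267))))))) (XT.nd (nat_lit 702) (nat_lit 988) (nat_lit 0) (XT.nd (nat_lit 312) (nat_lit 608) (nat_lit 0) (XT.nd (nat_lit 156) (nat_lit 380) (nat_lit 0) (XT.nd (nat_lit 78) (nat_lit 0) (nat_lit 0) (XT.lf (nat_lit 0) (nat_lit 10713967556) (nat_lit 456) (nat_lit 4445044956) (nat_lit 532) (nat_lit 185010915) (nat_lit 56) (nat_lit 5) (nat_lit 62) (nat_lit 5) (nat_lit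 63) (nat_lit 5) (nat_lit 319) (nat_lit 315) (nat_lit 266)) (XT.lf (nat_lit 76) (nat_lit 3330962758) (nat_lit 0) (nat_lit 8956137744) (nat_lit 532) (nat_lit 3677572880) (nat_lit 57) (nat_lit 5) (nat_lit 56) (nat_lit 5) (nat_lit 63) (nat_lit 5) (nat_lit 320) (nat_lit 315) (nat_lit 265))) (XT.nd (nat_lit 78) (nat_lit 380) (nat_lit 0) (XT.lf (nat_lit 76) (nat_lit 11959683368) (nat_lit 0) (nat_lit 2120401043) (nat_lit 532) (nat_lit 2547419633) (nat_lit 57) (nat_lit 5) (nat_lit 56) (nat_lit 5) (nat_lit 63) (nat_lit 5) (nat_lit 321) (nat_lit 315) (nat_lit 264)) (XT.lf (nat_lit 0) (nat_lit 3985427578) (nat_lit 456) (nat_lit 12228109213) (nat_lit 532) (nat_lit 1114107115) (nat_lit 51) (nat_lit 5) (nat_lit 57) (nat_lit 5) (nat_lit 58) (nat_lit 5) (nat_lit 322) (nat_lit 315) (nat_lit 263)))) (XT.nd (nat_lit 156) (nat_lit 228) (nat_lit 0) (XT.nd (nat_lit 78) (nat_lit 304) (nat_lit 0) (XT.lf (nat_lit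 0) (nat_lit 573490671) (nat_lit 532) (nat_lit 4569498838) (nat_lit 76) (nat_lit 12927103432) (nat_lit 50) (nat_lit 5) (nat_lit 57) (nat_lit 5) (nat_lit 51) (nat_lit 5) (nat_lit 323) (nat_lit 315) (nat_lit 262)) (XT.lf (nat_lit 0) (nat_lit 2500247587) (nat_lit 380) (nat_lit 13815995124) (nat_lit 76) (nat_lit 2540268619) (nat_lit 46) (nat_lit 5) (nat_lit 51) (nat_lit 5) (nat_lit 47) (nat_lit 5) (nat_lit 324) (nat_lit 315) (nat_lit 261))) (XT.nd (nat_lit 78) (nat_lit 228) (nat_lit 0) (XT.lf (nat_lit 0) (nat_lit 4821244426) (nat_lit 380) (nat_lit 4176450116) (nat_lit 76) (nat_lit 10688973871) (nat_lit 46) (nat_lit 5) (nat_lit 51) (nat_lit 5) (nat_lit 47) (nat_lit 5) (nat_lit 325) (nat_lit 315) (nat_lit 260)) (XT.nd (nat_lit 78) (nat_lit 0) (nat_lit 0) (XT.lf (nat_lit 0) (nat_lit 6540148591) (nat_lit 228) (nat_lit 925000079) (nat_lit 304) (nat_lit 13107141890) (nat_lit 43) (nat_lit 5) (nat_lit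 46) (nat_lit 5) (nat_lit 47) (nat_lit 5) (nat_lit 326) (nat_lit 315) (nat_lit 259)) (XT.lf (nat_lit 0) (nat_lit 10606041366) (nat_lit 304) (nat_lit 3380684237) (nat_lit 76) (nat_lit 7519227227) (nat_lit 43) (nat_lit 5) (nat_lit 47) (nat_lit 5) (nat_lit 44) (nat_lit 5) (nat_lit 327) (nat_lit 315) (nat_lit 258)))))) (XT.nd (nat_lit 312) (nat_lit 532) (nat_lit 0) (XT.nd (nat_lit 156) (nat_lit 228) (nat_lit 0) (XT.nd (nat_lit 78) (nat_lit 0) (nat_lit 0) (XT.lf (nat_lit 0) (nat_lit 8503648698) (nat_lit 228) (nat_lit 5705396122) (nat_lit 304) (nat_lit 8288422442) (nat_lit 40) (nat_lit 5) (nat_lit 43) (nat_lit 5) (nat_lit 44) (nat_lit 5) (nat_lit 328) (nat_lit 315) (nat_lit 257)) (XT.lf (nat_lit 0) (nat_lit 18256059250) (nat_lit 304) (nat_lit 2131580515) (nat_lit 76) (nat_lit 3168225811) (nat_lit 40) (nat_lit 5) (nat_lit 44) (nat_lit 5) (nat_lit 41) (nat_lit 5) (nat_lit 329) (nat_lit 315) (nat_lit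 256))) (XT.nd (nat_lit 78) (nat_lit 76) (nat_lit 0) (XT.lf (nat_lit 0) (nat_lit 11065175161) (nat_lit 152) (nat_lit 11960276327) (nat_lit 228) (nat_lit 1641617508) (nat_lit 38) (nat_lit 5) (nat_lit 40) (nat_lit 5) (nat_lit 41) (nat_lit 5) (nat_lit 330) (nat_lit 315) (nat_lit 255)) (XT.lf (nat_lit 0) (nat_lit 2238100491) (nat_lit 228) (nat_lit 500784349) (nat_lit 76) (nat_lit 23120308975) (nat_lit 37) (nat_lit 5) (nat_lit 40) (nat_lit 5) (nat_lit 38) (nat_lit 5) (nat_lit 331) (nat_lit 315) (nat_lit 254)))) (XT.nd (nat_lit 156) (nat_lit 152) (nat_lit 0) (XT.nd (nat_lit 78) (nat_lit 152) (nat_lit 0) (XT.lf (nat_lit 0) (nat_lit 6852804539) (nat_lit 304) (nat_lit 12997885161) (nat_lit 76) (nat_lit 7251541797) (nat_lit 34) (nat_lit 5) (nat_lit 38) (nat_lit 5) (nat_lit 35) (nat_lit 5) (nat_lit 332) (nat_lit 315) (nat_lit 253)) (XT.lf (nat_lit 0) (nat_lit 1444346664) (nat_lit 152) (nat_lit 10498510735)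 (nat_lit 228) (nat_lit 16493377589) (nat_lit 32) (nat_lit 5) (nat_lit 34) (nat_lit 5) (nat_lit 35) (nat_lit 5) (nat_lit 333) (nat_lit 315) (nat_lit 252))) (XT.nd (nat_lit 78) (nat_lit 152) (nat_lit 0) (XT.lf (nat_lit 0) (nat_lit 17762482747) (nat_lit 152) (nat_lit 19834545) (nat_lit 228) (nat_lit 12067280606) (nat_lit 32) (nat_lit 5) (nat_lit 34) (nat_lit 5) (nat_lit 35) (nat_lit 5) (nat_lit 334) (nat_lit 315) (nat_lit 251)) (XT.nd (nat_lit 78) (nat_lit 0) (nat_lit 0) (XT.lf (nat_lit 0) (nat_lit 3916081191) (nat_lit 152) (nat_lit 20526402758) (nat_lit 228) (nat_lit 6905276121) (nat_lit 30) (nat_lit 5) (nat_lit 32) (nat_lit 5) (nat_lit 33) (nat_lit 5) (nat_lit 335) (nat_lit 315) (nat_lit 250)) (XT.lf (nat_lit 0) (nat_lit 21868695100) (nat_lit 152) (nat_lit 10085913367) (nat_lit 228) (nat_lit 985648357) (nat_lit 30) (nat_lit 5) (nat_lit 32) (nat_lit 5) (nat_lit 33) (nat_lit 5) (nat_lit 336)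 (nat_lit 315) (nat_lit 249))))))))
noncomputable def xc142 : XT := (XT.nd (nat_lit 1326) (nat_lit 532) (nat_lit 0) (XT.nd (nat_lit 624) (nat_lit 532) (nat_lit 0) (XT.nd (nat_lit 312) (nat_lit 304) (nat_lit 0) (XT.nd (nat_lit 156) (nat_lit 152) (nat_lit 0) (XT.nd (nat_lit 78) (nat_lit 0) (nat_lit 0) (XT.lf (nat_lit 0) (nat_lit 5325177981) (nat_lit 228) (nat_lit 27883712381) (nat_lit 76) (nat_lit 1425819244) (nat_lit 27) (nat_lit 5) (nat_lit 30) (nat_lit 5) (nat_lit 28) (nat_lit 5) (nat_lit 337) (nat_lit 315) (nat_lit 248)) (XT.lf (nat_lit 0) (nat_lit 12649208131) (nat_lit 228) (nat_lit 10124228673) (nat_lit 76) (nat_lit 13644317095) (nat_lit 27) (nat_lit 5) (nat_lit 30) (nat_lit 5) (nat_lit 28) (nat_lit 5) (nat_lit 338) (nat_lit 315) (nat_lit 247))) (XT.nd (nat_lit 78) (nat_lit 0) (nat_lit 0) (XT.lf (nat_lit 0) (nat_lit 9516023408) (nat_lit 152) (nat_lit 11261847568) (nat_lit 228) (nat_lit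 17548083621) (nat_lit 25) (nat_lit 5) (nat_lit 27) (nat_lit 5) (nat_lit 28) (nat_lit 5) (nat_lit 339) (nat_lit 315) (nat_lit 246)) (XT.lf (nat_lit 0) (nat_lit 29859071358) (nat_lit 228) (nat_lit 9113006472) (nat_lit 76) (nat_lit 1390562924) (nat_lit 25) (nat_lit 5) (nat_lit 28) (nat_lit 5) (nat_lit 26) (nat_lit 4) (nat_lit 340) (nat_lit 315) (nat_lit 245)))) (XT.nd (nat_lit 156) (nat_lit 152) (nat_lit 0) (XT.nd (nat_lit 78) (nat_lit 76) (nat_lit 0) (XT.lf (nat_lit 0) (nat_lit 12476206733) (nat_lit 76) (nat_lit 27773949591) (nat_lit 152) (nat_lit 2265442695) (nat_lit 24) (nat_lit 5) (nat_lit 25) (nat_lit 5) (nat_lit 26) (nat_lit 4) (nat_lit 341) (nat_lit 315) (nat_lit 244)) (XT.lf (nat_lit 0) (nat_lit 6546535206) (nat_lit 152) (nat_lit 8691169021) (nat_lit 76) (nat_lit 29570613586) (nat_lit 23) (nat_lit 5) (nat_lit 25) (nat_lit 5) (nat_lit 24) (nat_lit 5) (nat_lit 342) (nat_lit 315) (nat_lit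 243))) (XT.nd (nat_lit 78) (nat_lit 0) (nat_lit 0) (XT.lf (nat_lit 0) (nat_lit 15044620745) (nat_lit 152) (nat_lit 1249864375) (nat_lit 228) (nat_lit 30956995642) (nat_lit 21) (nat_lit 5) (nat_lit 23) (nat_lit 5) (nat_lit 24) (nat_lit 5) (nat_lit 343) (nat_lit 315) (nat_lit 242)) (XT.lf (nat_lit 0) (nat_lit 27391080063) (nat_lit 228) (nat_lit 9051179706) (nat_lit 76) (nat_lit 13402338358) (nat_lit 21) (nat_lit 5) (nat_lit 24) (nat_lit 5) (nat_lit 22) (nat_lit 4) (nat_lit 344) (nat_lit 315) (nat_lit 241))))) (XT.nd (nat_lit 312) (nat_lit 304) (nat_lit 0) (XT.nd (nat_lit 156) (nat_lit 152) (nat_lit 0) (XT.nd (nat_lit 78) (nat_lit 0) (nat_lit 0) (XT.lf (nat_lit 0) (nat_lit 16749198015) (nat_lit 76) (nat_lit 23053842363) (nat_lit 152) (nat_lit 12807919129) (nat_lit 20) (nat_lit 5) (nat_lit 21) (nat_lit 5) (nat_lit 22) (nat_lit 4) (nat_lit 345) (nat_lit 315) (nat_lit 240)) (XT.lf (nat_lit 0)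 (nat_lit 45115531896) (nat_lit 76) (nat_lit 8332513970) (nat_lit 152) (nat_lit 2131382096) (nat_lit 20) (nat_lit 5) (nat_lit 21) (nat_lit 5) (nat_lit 22) (nat_lit 4) (nat_lit 346) (nat_lit 315) (nat_lit 239))) (XT.nd (nat_lit 78) (nat_lit 0) (nat_lit 0) (XT.lf (nat_lit 0) (nat_lit 9544267257) (nat_lit 152) (nat_lit 41324358707) (nat_lit 76) (nat_lit 7849453840) (nat_lit 18) (nat_lit 5) (nat_lit 20) (nat_lit 5) (nat_lit 19) (nat_lit 4) (nat_lit 347) (nat_lit 315) (nat_lit 238)) (XT.lf (nat_lit 0) (nat_lit 22541867396) (nat_lit 152) (nat_lit 14301478215) (nat_lit 76) (nat_lit 25219809582) (nat_lit 18) (nat_lit 5) (nat_lit 20) (nat_lit 5) (nat_lit 19) (nat_lit 4) (nat_lit 348) (nat_lit 315) (nat_lit 237)))) (XT.nd (nat_lit 156) (nat_lit 228) (nat_lit 0) (XT.nd (nat_lit 78) (nat_lit 0) (nat_lit 0) (XT.lf (nat_lit 0) (nat_lit 15654909801) (nat_lit 76) (nat_lit 21294465989) (nat_lit 152) (nat_lit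 28696856649) (nat_lit 17) (nat_lit 5) (nat_lit 18) (nat_lit 5) (nat_lit 19) (nat_lit 4) (nat_lit 349) (nat_lit 315) (nat_lit 236)) (XT.lf (nat_lit 0) (nat_lit 48809991437) (nat_lit 76) (nat_lit 4084326309) (nat_lit 152) (nat_lit 16590855047) (nat_lit 17) (nat_lit 5) (nat_lit 18) (nat_lit 5) (nat_lit 19) (nat_lit 4) (nat_lit 350) (nat_lit 315) (nat_lit 235))) (XT.nd (nat_lit 78) (nat_lit 152) (nat_lit 0) (XT.lf (nat_lit 0) (nat_lit 11186369705) (nat_lit 76) (nat_lit 59540459834) (nat_lit 76) (nat_lit 2855444174) (nat_lit 16) (nat_lit 4) (nat_lit 17) (nat_lit 5) (nat_lit 17) (nat_lit 4) (nat_lit 351) (nat_lit 315) (nat_lit 234)) (XT.nd (nat_lit 78) (nat_lit 76) (nat_lit 0) (XT.lf (nat_lit 0) (nat_lit 12059823257) (nat_lit 152) (nat_lit 31608837259) (nat_lit 76) (nat_lit 34261017643) (nat_lit 15) (nat_lit 5) (nat_lit 17) (nat_lit 5) (nat_lit 16) (nat_lit 4) (nat_lit 352) (nat_lit 315) (nat_lit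 233)) (XT.lf (nat_lit 0) (nat_lit 1639096565) (nat_lit 76) (nat_lit 26408984574) (nat_lit 152) (nat_lit 54568140072) (nat_lit 14) (nat_lit 5) (nat_lit 15) (nat_lit 5) (nat_lit 16) (nat_lit 4) (nat_lit 353) (nat_lit 315) (nat_lit 232))))))) (XT.nd (nat_lit 624) (nat_lit 228) (nat_lit 0) (XT.nd (nat_lit 312) (nat_lit 152) (nat_lit 0) (XT.nd (nat_lit 156) (nat_lit 152) (nat_lit 0) (XT.nd (nat_lit 78) (nat_lit 0) (nat_lit 0) (XT.lf (nat_lit 0) (nat_lit 39334813814) (nat_lit 76) (nat_lit 6839610452) (nat_lit 152) (nat_lit 41434543895) (nat_lit 14) (nat_lit 5) (nat_lit 15) (nat_lit 5) (nat_lit 16) (nat_lit 4) (nat_lit 354) (nat_lit 315) (nat_lit 231)) (XT.lf (nat_lit 0) (nat_lit 66089747664) (nat_lit 152) (nat_lit 13307995781) (nat_lit 0) (nat_lit 13576283838) (nat_lit 14) (nat_lit 5) (nat_lit 16) (nat_lit 4) (nat_lit 14) (nat_lit 4) (nat_lit 355) (nat_lit 315) (nat_lit 230))) (XT.nd (nat_lit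 78) (nat_lit 76) (nat_lit 0) (XT.lf (nat_lit 0) (nat_lit 25547216716) (nat_lit 76) (nat_lit 62838578970) (nat_lit 76) (nat_lit 10319497627) (nat_lit 13) (nat_lit 4) (nat_lit 14) (nat_lit 5) (nat_lit 14) (nat_lit 4) (nat_lit 356) (nat_lit 315) (nat_lit 229)) (XT.lf (nat_lit 0) (nat_lit 7560532675) (nat_lit 152) (nat_lit 36798374783) (nat_lit 76) (nat_lit 60492087662) (nat_lit 12) (nat_lit 5) (nat_lit 14) (nat_lit 5) (nat_lit 13) (nat_lit 4) (nat_lit 357) (nat_lit 315) (nat_lit 228)))) (XT.nd (nat_lit 156) (nat_lit 76) (nat_lit 0) (XT.nd (nat_lit 78) (nat_lit 0) (nat_lit 0) (XT.lf (nat_lit 0) (nat_lit 2309652361) (nat_lit 76) (nat_lit 24055131881) (nat_lit 152) (nat_lit 85098020186) (nat_lit 11) (nat_lit 5) (nat_lit 12) (nat_lit 5) (nat_lit 13) (nat_lit 4) (nat_lit 358) (nat_lit 315) (nat_lit 227)) (XT.lf (nat_lit 0) (nat_lit 46631329043) (nat_lit 76) (nat_lit 1044097530) (nat_lit 152) (nat_lit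 70847969384) (nat_lit 11) (nat_lit 5) (nat_lit 12) (nat_lit 5) (nat_lit 13) (nat_lit 4) (nat_lit 359) (nat_lit 315) (nat_lit 226))) (XT.nd (nat_lit 78) (nat_lit 76) (nat_lit 0) (XT.lf (nat_lit 0) (nat_lit 71259637512) (nat_lit 152) (nat_lit 32230070552) (nat_lit 0) (nat_lit 22613630779) (nat_lit 11) (nat_lit 5) (nat_lit 13) (nat_lit 4) (nat_lit 11) (nat_lit 4) (nat_lit 360) (nat_lit 315) (nat_lit 225)) (XT.lf (nat_lit 0) (nat_lit 11127562814) (nat_lit 76) (nat_lit 85894184701) (nat_lit 76) (nat_lit 37244637979) (nat_lit 10) (nat_lit 4) (nat_lit 11) (nat_lit 5) (nat_lit 11) (nat_lit 4) (nat_lit 361) (nat_lit 315) (nat_lit 224))))) (XT.nd (nat_lit 312) (nat_lit 76) (nat_lit 0) (XT.nd (nat_lit 156) (nat_lit 76) (nat_lit 0) (XT.nd (nat_lit 78) (nat_lit 76) (nat_lit 0) (XT.lf (nat_lit 0) (nat_lit 59780083867) (nat_lit 76) (nat_lit 65942498610) (nat_lit 76) (nat_lit 17289674121) (nat_lit 10)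 (nat_lit 4) (nat_lit 11) (nat_lit 5) (nat_lit 11) (nat_lit 4) (nat_lit 362) (nat_lit 315) (nat_lit 223)) (XT.lf (nat_lit 0) (nat_lit 4045201494) (nat_lit 152) (nat_lit 40241840350) (nat_lit 76) (nat_lit 108162820972) (nat_lit 9) (nat_lit 5) (nat_lit 11) (nat_lit 5) (nat_lit 10) (nat_lit 4) (nat_lit 363) (nat_lit 315) (nat_lit 222))) (XT.nd (nat_lit 78) (nat_lit 0) (nat_lit 0) (XT.lf (nat_lit 0) (nat_lit 6034627602) (nat_lit 76) (nat_lit 20260226829) (nat_lit 152) (nat_lit 136300331166) (nat_lit 8) (nat_lit 5) (nat_lit 9) (nat_lit 5) (nat_lit 10) (nat_lit 4) (nat_lit 364) (nat_lit 315) (nat_lit 221)) (XT.lf (nat_lit 0) (nat_lit 51587123272) (nat_lit 152) (nat_lit 115333610030) (nat_lit 0) (nat_lit 6530390297) (nat_lit 8) (nat_lit 5) (nat_lit 10) (nat_lit 4) (nat_lit 8) (nat_lit 4) (nat_lit 365) (nat_lit 315) (nat_lit 220)))) (XT.nd (nat_lit 156) (nat_lit 76) (nat_lit 0) (XT.nd (nat_lit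 78) (nat_lit 0) (nat_lit 0) (XT.lf (nat_lit 0) (nat_lit 79426205387) (nat_lit 152) (nat_lit 71340215919) (nat_lit 0) (nat_lit 34367241618) (nat_lit 8) (nat_lit 5) (nat_lit 10) (nat_lit 4) (nat_lit 8) (nat_lit 4) (nat_lit 366) (nat_lit 315) (nat_lit 219)) (XT.lf (nat_lit 0) (nat_lit 109489814172) (nat_lit 152) (nat_lit 23832415126) (nat_lit 0) (nat_lit 64428784854) (nat_lit 8) (nat_lit 5) (nat_lit 10) (nat_lit 4) (nat_lit 8) (nat_lit 4) (nat_lit 367) (nat_lit 315) (nat_lit 218))) (XT.nd (nat_lit 78) (nat_lit 0) (nat_lit 0) (XT.lf (nat_lit 0) (nat_lit 28917911089) (nat_lit 76) (nat_lit 113733669714) (nat_lit 76) (nat_lit 68670727849) (nat_lit 7) (nat_lit 4) (nat_lit 8) (nat_lit 5) (nat_lit 8) (nat_lit 4) (nat_lit 368) (nat_lit 315) (nat_lit 217)) (XT.nd (nat_lit 78) (nat_lit 0) (nat_lit 0) (XT.lf (nat_lit 0) (nat_lit 87239063021) (nat_lit 76) (nat_lit 91876507282) (nat_lit 76) (nat_lit 46811794542)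 (nat_lit 7) (nat_lit 4) (nat_lit 8) (nat_lit 5) (nat_lit 8) (nat_lit 4) (nat_lit 369) (nat_lit 315) (nat_lit 216)) (XT.lf (nat_lit 0) (nat_lit 150221674750) (nat_lit 76) (nat_lit 68272838542) (nat_lit 76) (nat_lit 23206486102) (nat_lit 7) (nat_lit 4) (nat_lit 8) (nat_lit 5) (nat_lit 8) (nat_lit 4) (nat_lit 370) (nat_lit 315) (nat_lit 215))))))))
noncomputable def xc143 : XT := (XT.nd (nat_lit 1326) (nat_lit 0) (nat_lit 0) (XT.nd (nat_lit 624) (nat_lit 152) (nat_lit 0) (XT.nd (nat_lit 312) (nat_lit 76) (nat_lit 0) (XT.nd (nat_lit 156) (nat_lit 0) (nat_lit 0) (XT.nd (nat_lit 78) (nat_lit 76) (nat_lit 0) (XT.lf (nat_lit 0) (nat_lit 2170771784) (nat_lit 152) (nat_lit 40552665368) (nat_lit 76) (nat_lit 216008852035) (nat_lit 6) (nat_lit 5) (nat_lit 8) (nat_lit 5) (nat_lit 7) (nat_lit 4) (nat_lit 371) (nat_lit 315) (nat_lit 214)) (XT.lf (nat_lit 0) (nat_lit 14570507173) (nat_lit 76) (nat_lit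 14102465726) (nat_lit 152) (nat_lit 248377007228) (nat_lit 5) (nat_lit 5) (nat_lit 6) (nat_lit 5) (nat_lit 7) (nat_lit 4) (nat_lit 372) (nat_lit 315) (nat_lit 213))) (XT.nd (nat_lit 78) (nat_lit 0) (nat_lit 0) (XT.lf (nat_lit 0) (nat_lit 58835273982) (nat_lit 152) (nat_lit 220771361677) (nat_lit 0) (nat_lit 17103257218) (nat_lit 5) (nat_lit 5) (nat_lit 7) (nat_lit 4) (nat_lit 5) (nat_lit 4) (nat_lit 373) (nat_lit 315) (nat_lit 212)) (XT.lf (nat_lit 0) (nat_lit 91775102703) (nat_lit 152) (nat_lit 176096362886) (nat_lit 0) (nat_lit 50041969987) (nat_lit 5) (nat_lit 5) (nat_lit 7) (nat_lit 4) (nat_lit 5) (nat_lit 4) (nat_lit 374) (nat_lit 315) (nat_lit 211)))) (XT.nd (nat_lit 156) (nat_lit 76) (nat_lit 0) (XT.nd (nat_lit 78) (nat_lit 0) (nat_lit 0) (XT.lf (nat_lit 0) (nat_lit 127348493407) (nat_lit 152) (nat_lit 127850571208) (nat_lit 0) (nat_lit 85614327403) (nat_lit 5) (nat_lit 5) (nat_lit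 7) (nat_lit 4) (nat_lit 5) (nat_lit 4) (nat_lit 375) (nat_lit 315) (nat_lit 210)) (XT.lf (nat_lit 0) (nat_lit 165766251374) (nat_lit 152) (nat_lit 75748085654) (nat_lit 0) (nat_lit 124031128620) (nat_lit 5) (nat_lit 5) (nat_lit 7) (nat_lit 4) (nat_lit 5) (nat_lit 4) (nat_lit 376) (nat_lit 315) (nat_lit 209))) (XT.nd (nat_lit 78) (nat_lit 76) (nat_lit 0) (XT.lf (nat_lit 0) (nat_lit 207256037390) (nat_lit 152) (nat_lit 19480150756) (nat_lit 0) (nat_lit 165520028758) (nat_lit 5) (nat_lit 5) (nat_lit 7) (nat_lit 4) (nat_lit 5) (nat_lit 4) (nat_lit 377) (nat_lit 315) (nat_lit 208)) (XT.lf (nat_lit 0) (nat_lit 43460756140) (nat_lit 76) (nat_lit 209648192946) (nat_lit 76) (nat_lit 167911364055) (nat_lit 4) (nat_lit 4) (nat_lit 5) (nat_lit 5) (nat_lit 5) (nat_lit 4) (nat_lit 378) (nat_lit 315) (nat_lit 207))))) (XT.nd (nat_lit 312) (nat_lit 152) (nat_lit 0) (XT.nd (nat_lit 156) (nat_lit 0) (nat_lit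 0) (XT.nd (nat_lit 78) (nat_lit 0) (nat_lit 0) (XT.lf (nat_lit 0) (nat_lit 112542307641) (nat_lit 76) (nat_lit 190619154322) (nat_lit 76) (nat_lit 148881565933) (nat_lit 4) (nat_lit 4) (nat_lit 5) (nat_lit 5) (nat_lit 5) (nat_lit 4) (nat_lit 379) (nat_lit 315) (nat_lit 206)) (XT.lf (nat_lit 0) (nat_lit 187148085688) (nat_lit 76) (nat_lit 170068929445) (nat_lit 76) (nat_lit 128330637817) (nat_lit 4) (nat_lit 4) (nat_lit 5) (nat_lit 5) (nat_lit 5) (nat_lit 4) (nat_lit 380) (nat_lit 315) (nat_lit 205))) (XT.nd (nat_lit 78) (nat_lit 0) (nat_lit 0) (XT.lf (nat_lit 0) (nat_lit 267720198594) (nat_lit 76) (nat_lit 147875739206) (nat_lit 76) (nat_lit 106136796431) (nat_lit 4) (nat_lit 4) (nat_lit 5) (nat_lit 5) (nat_lit 5) (nat_lit 4) (nat_lit 381) (nat_lit 315) (nat_lit 204)) (XT.lf (nat_lit 0) (nat_lit 354736110732) (nat_lit 76) (nat_lit 123908068404) (nat_lit 76) (nat_lit 82168522714) (nat_lit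 4) (nat_lit 4) (nat_lit 5) (nat_lit 5) (nat_lit 5) (nat_lit 4) (nat_lit 382) (nat_lit 315) (nat_lit 203)))) (XT.nd (nat_lit 156) (nat_lit 152) (nat_lit 0) (XT.nd (nat_lit 78) (nat_lit 0) (nat_lit 0) (XT.lf (nat_lit 0) (nat_lit 448711471952) (nat_lit 76) (nat_lit 98023886395) (nat_lit 76) (nat_lit 56283782451) (nat_lit 4) (nat_lit 4) (nat_lit 5) (nat_lit 5) (nat_lit 5) (nat_lit 4) (nat_lit 383) (nat_lit 315) (nat_lit 202)) (XT.lf (nat_lit 0) (nat_lit 550203173283) (nat_lit 76) (nat_lit 70069805435) (nat_lit 76) (nat_lit 28329184590) (nat_lit 4) (nat_lit 4) (nat_lit 5) (nat_lit 5) (nat_lit 5) (nat_lit 4) (nat_lit 384) (nat_lit 315) (nat_lit 201))) (XT.nd (nat_lit 78) (nat_lit 76) (nat_lit 0) (XT.lf (nat_lit 0) (nat_lit 1767836604) (nat_lit 152) (nat_lit 38063999321) (nat_lit 76) (nat_lit 657996474640) (nat_lit 3) (nat_lit 5) (nat_lit 5) (nat_lit 5) (nat_lit 4) (nat_lit 4) (nat_lit 385) (nat_lit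 315) (nat_lit 200)) (XT.nd (nat_lit 78) (nat_lit 0) (nat_lit 0) (XT.lf (nat_lit 0) (nat_lit 27748576291) (nat_lit 76) (nat_lit 5660134722) (nat_lit 152) (nat_lit 717471644638) (nat_lit 2) (nat_lit 5) (nat_lit 3) (nat_lit 5) (nat_lit 4) (nat_lit 4) (nat_lit 386) (nat_lit 315) (nat_lit 199)) (XT.lf (nat_lit 0) (nat_lit 69399327785) (nat_lit 152) (nat_lit 707882387557) (nat_lit 0) (nat_lit 30749371349) (nat_lit 2) (nat_lit 5) (nat_lit 4) (nat_lit 4) (nat_lit 2) (nat_lit 4) (nat_lit 387) (nat_lit 315) (nat_lit 198))))))) (XT.nd (nat_lit 702) (nat_lit 0) (nat_lit 0) (XT.nd (nat_lit 312) (nat_lit 0) (nat_lit 0) (XT.nd (nat_lit 156) (nat_lit 0) (nat_lit 0) (XT.nd (nat_lit 78) (nat_lit 0) (nat_lit 0) (XT.lf (nat_lit 0) (nat_lit 108415518533) (nat_lit 152) (nat_lit 691561441540) (nat_lit 0) (nat_lit 69765210302) (nat_lit 2) (nat_lit 5) (nat_lit 4) (nat_lit 4) (nat_lit 2) (nat_lit 4) (nat_lit 388)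 (nat_lit 315) (nat_lit 197)) (XT.lf (nat_lit 0) (nat_lit 150552363936) (nat_lit 152) (nat_lit 673936098216) (nat_lit 0) (nat_lit 111901729970) (nat_lit 2) (nat_lit 5) (nat_lit 4) (nat_lit 4) (nat_lit 2) (nat_lit 4) (nat_lit 389) (nat_lit 315) (nat_lit 196))) (XT.nd (nat_lit 78) (nat_lit 0) (nat_lit 0) (XT.lf (nat_lit 0) (nat_lit 196059563820) (nat_lit 152) (nat_lit 654901911106) (nat_lit 0) (nat_lit 157408628246) (nat_lit 2) (nat_lit 5) (nat_lit 4) (nat_lit 4) (nat_lit 2) (nat_lit 4) (nat_lit 390) (nat_lit 315) (nat_lit 195)) (XT.lf (nat_lit 0) (nat_lit 245206790480) (nat_lit 152) (nat_lit 634346085027) (nat_lit 0) (nat_lit 206555575640) (nat_lit 2) (nat_lit 5) (nat_lit 4) (nat_lit 4) (nat_lit 2) (nat_lit 4) (nat_lit 391) (nat_lit 315) (nat_lit 194)))) (XT.nd (nat_lit 156) (nat_lit 0) (nat_lit 0) (XT.nd (nat_lit 78) (nat_lit 0) (nat_lit 0) (XT.lf (nat_lit 0) (nat_lit 298285286740) (nat_lit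 152) (nat_lit 612146807678) (nat_lit 0) (nat_lit 259633813321) (nat_lit 2) (nat_lit 5) (nat_lit 4) (nat_lit 4) (nat_lit 2) (nat_lit 4) (nat_lit 392) (nat_lit 315) (nat_lit 193)) (XT.lf (nat_lit 0) (nat_lit 355609591838) (nat_lit 152) (nat_lit 588172527783) (nat_lit 0) (nat_lit 316957878993) (nat_lit 2) (nat_lit 5) (nat_lit 4) (nat_lit 4) (nat_lit 2) (nat_lit 4) (nat_lit 393) (nat_lit 315) (nat_lit 192))) (XT.nd (nat_lit 78) (nat_lit 0) (nat_lit 0) (XT.lf (nat_lit 0) (nat_lit 417519405359) (nat_lit 152) (nat_lit 562281175538) (nat_lit 0) (nat_lit 378867470824) (nat_lit 2) (nat_lit 5) (nat_lit 4) (nat_lit 4) (nat_lit 2) (nat_lit 4) (nat_lit 394) (nat_lit 315) (nat_lit 191)) (XT.nd (nat_lit 78) (nat_lit 0) (nat_lit 0) (XT.lf (nat_lit 0) (nat_lit 484381600273) (nat_lit 152) (nat_lit 534319320705) (nat_lit 0) (nat_lit 445729460469) (nat_lit 2) (nat_lit 5) (nat_lit 4) (nat_lit 4) (nat_lit 2)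 (nat_lit 4) (nat_lit 395) (nat_lit 315) (nat_lit 190)) (XT.lf (nat_lit 0) (nat_lit 556592396993) (nat_lit 152) (nat_lit 504121263405) (nat_lit 0) (nat_lit 517940067126) (nat_lit 2) (nat_lit 5) (nat_lit 4) (nat_lit 4) (nat_lit 2) (nat_lit 4) (nat_lit 396) (nat_lit 315) (nat_lit 189)))))) (XT.nd (nat_lit 312) (nat_lit 0) (nat_lit 0) (XT.nd (nat_lit 156) (nat_lit 0) (nat_lit 0) (XT.nd (nat_lit 78) (nat_lit 0) (nat_lit 0) (XT.lf (nat_lit 0) (nat_lit 634579711353) (nat_lit 152) (nat_lit 471508052188) (nat_lit 0) (nat_lit 595927205500) (nat_lit 2) (nat_lit 5) (nat_lit 4) (nat_lit 4) (nat_lit 2) (nat_lit 4) (nat_lit 397) (nat_lit 315) (nat_lit 188)) (XT.lf (nat_lit 0) (nat_lit 718805690400) (nat_lit 152) (nat_lit 436286423578) (nat_lit 0) (nat_lit 680153021598) (nat_lit 2) (nat_lit 5) (nat_lit 4) (nat_lit 4) (nat_lit 2) (nat_lit 4) (nat_lit 398) (nat_lit 315) (nat_lit 187))) (XT.nd (nat_lit 78)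 (nat_lit 0) (nat_lit 0) (XT.lf (nat_lit 0) (nat_lit 809769451047) (nat_lit 152) (nat_lit 398247656814) (nat_lit 0) (nat_lit 771116631367) (nat_lit 2) (nat_lit 5) (nat_lit 4) (nat_lit 4) (nat_lit 2) (nat_lit 4) (nat_lit 399) (nat_lit 315) (nat_lit 186)) (XT.lf (nat_lit 0) (nat_lit 908010037801) (nat_lit 152) (nat_lit 357166336982) (nat_lit 0) (nat_lit 869357078419) (nat_lit 2) (nat_lit 5) (nat_lit 4) (nat_lit 4) (nat_lit 2) (nat_lit 4) (nat_lit 400) (nat_lit 315) (nat_lit 185)))) (XT.nd (nat_lit 156) (nat_lit 0) (nat_lit 0) (XT.nd (nat_lit 78) (nat_lit 0) (nat_lit 0) (XT.lf (nat_lit 0) (nat_lit 1014109617104) (nat_lit 152) (nat_lit 312799019224) (nat_lit 0) (nat_lit 975456528367) (nat_lit 2) (nat_lit 5) (nat_lit 4) (nat_lit 4) (nat_lit 2) (nat_lit 4) (nat_lit 401) (nat_lit 315) (nat_lit 184)) (XT.lf (nat_lit 0) (nat_lit 1128696927202) (nat_lit 152) (nat_lit 264882786101) (nat_lit 0) (nat_lit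 1090043718692) (nat_lit 2) (nat_lit 5) (nat_lit 4) (nat_lit 4) (nat_lit 2) (nat_lit 4) (nat_lit 402) (nat_lit 315) (nat_lit 183))) (XT.nd (nat_lit 78) (nat_lit 0) (nat_lit 0) (XT.lf (nat_lit 0) (nat_lit 1252451004006) (nat_lit 152) (nat_lit 213133689564) (nat_lit 0) (nat_lit 1213797684597) (nat_lit 2) (nat_lit 5) (nat_lit 4) (nat_lit 4) (nat_lit 2) (nat_lit 4) (nat_lit 403) (nat_lit 315) (nat_lit 182)) (XT.nd (nat_lit 78) (nat_lit 0) (nat_lit 0) (XT.lf (nat_lit 0) (nat_lit 1386105205010) (nat_lit 152) (nat_lit 157245068302) (nat_lit 0) (nat_lit 1347451782916) (nat_lit 2) (nat_lit 5) (nat_lit 4) (nat_lit 4) (nat_lit 2) (nat_lit 4) (nat_lit 404) (nat_lit 315) (nat_lit 181)) (XT.lf (nat_lit 0) (nat_lit 1530451555109) (nat_lit 152) (nat_lit 96885730484) (nat_lit 0) (nat_lit 1491798037935) (nat_lit 2) (nat_lit 5) (nat_lit 4) (nat_lit 4) (nat_lit 2) (nat_lit 4) (nat_lit 405) (nat_lit 315) (nat_lit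 180))))))))
noncomputable def xc144 : XT := (XT.nd (nat_lit 40716) (nat_lit 0) (nat_lit 1672) (XT.nd (nat_lit 40014) (nat_lit 0) (nat_lit 3420) (XT.nd (nat_lit 312) (nat_lit 0) (nat_lit 0) (XT.nd (nat_lit 156) (nat_lit 0) (nat_lit 0) (XT.nd (nat_lit 78) (nat_lit 76) (nat_lit 0) (XT.lf (nat_lit 0) (nat_lit 1686345440079) (nat_lit 152) (nat_lit 31697991146) (nat_lit 0) (nat_lit 1647691834869) (nat_lit 2) (nat_lit 5) (nat_lit 4) (nat_lit 4) (nat_lit 2) (nat_lit 4) (nat_lit 406) (nat_lit 315) (nat_lit 179)) (XT.lf (nat_lit 0) (nat_lit 40742555038) (nat_lit 76) (nat_lit 1814947979927) (nat_lit 76) (nat_lit 1776294293201) (nat_lit 1) (nat_lit 4) (nat_lit 2) (nat_lit 5) (nat_lit 2) (nat_lit 4) (nat_lit 407) (nat_lit 315) (nat_lit 178))) (XT.nd (nat_lit 78) (nat_lit 0) (nat_lit 0) (XT.lf (nat_lit 0) (nat_lit 120780725948) (nat_lit 76) (nat_lit 1918669034811) (nat_lit 76) (nat_lit 1880015272608)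 (nat_lit 1) (nat_lit 4) (nat_lit 2) (nat_lit 5) (nat_lit 2) (nat_lit 4) (nat_lit 408) (nat_lit 315) (nat_lit 177)) (XT.lf (nat_lit 0) (nat_lit 207221661816) (nat_lit 76) (nat_lit 2030687918417) (nat_lit 76) (nat_lit 1992034086328) (nat_lit 1) (nat_lit 4) (nat_lit 2) (nat_lit 5) (nat_lit 2) (nat_lit 4) (nat_lit 409) (nat_lit 315) (nat_lit 176)))) (XT.nd (nat_lit 39546) (nat_lit 0) (nat_lit 4028) (XT.nd (nat_lit 78) (nat_lit 0) (nat_lit 0) (XT.lf (nat_lit 0) (nat_lit 300577605223) (nat_lit 76) (nat_lit 2151668446352) (nat_lit 76) (nat_lit 2113014549554) (nat_lit 1) (nat_lit 4) (nat_lit 2) (nat_lit 5) (nat_lit 2) (nat_lit 4) (nat_lit 410) (nat_lit 315) (nat_lit 175)) (XT.lf (nat_lit 0) (nat_lit 401401776576) (nat_lit 76) (nat_lit 2282327540263) (nat_lit 76) (nat_lit 2243673583549) (nat_lit 1) (nat_lit 4) (nat_lit 2) (nat_lit 5) (nat_lit 2) (nat_lit 4) (nat_lit 411) (nat_lit 315) (nat_lit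 174))) (XT.nd (nat_lit 78) (nat_lit 0) (nat_lit 0) (XT.lf (nat_lit 0) (nat_lit 4021471275) (nat_lit 532) (nat_lit 1534946643) (nat_lit 532) (nat_lit 1534946643) (nat_lit 54) (nat_lit 3) (nat_lit 61) (nat_lit 3) (nat_lit 61) (nat_lit 5) (nat_lit 316) (nat_lit 316) (nat_lit 268)) (XT.lf (nat_lit 76) (nat_lit 3840570268) (nat_lit 0) (nat_lit 4927507907) (nat_lit 532) (nat_lit 5949118483) (nat_lit 55) (nat_lit 5) (nat_lit 54) (nat_lit 3) (nat_lit 61) (nat_lit 5) (nat_lit 317) (nat_lit 316) (nat_lit 267))))) (XT.nd (nat_lit 312) (nat_lit 684) (nat_lit 0) (XT.nd (nat_lit 156) (nat_lit 0) (nat_lit 76) (XT.nd (nat_lit 78) (nat_lit 0) (nat_lit 0) (XT.lf (nat_lit 0) (nat_lit 9648278518) (nat_lit 456) (nat_lit 3874212395) (nat_lit 532) (nat_lit 1764223220) (nat_lit 55) (nat_lit 5) (nat_lit 61) (nat_lit 5) (nat_lit 62) (nat_lit 5) (nat_lit 318) (nat_lit 316) (nat_lit 266)) (XT.lf (nat_lit 76) (nat_lit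 3727781786) (nat_lit 0) (nat_lit 7059851892) (nat_lit 532) (nat_lit 5099112862) (nat_lit 56) (nat_lit 5) (nat_lit 55) (nat_lit 5) (nat_lit 62) (nat_lit 5) (nat_lit 319) (nat_lit 316) (nat_lit 265))) (XT.nd (nat_lit 78) (nat_lit 0) (nat_lit 0) (XT.lf (nat_lit 0) (nat_lit 12097885506) (nat_lit 456) (nat_lit 4389917202) (nat_lit 532) (nat_lit 40647709) (nat_lit 56) (nat_lit 5) (nat_lit 62) (nat_lit 5) (nat_lit 63) (nat_lit 5) (nat_lit 320) (nat_lit 316) (nat_lit 264)) (XT.lf (nat_lit 76) (nat_lit 3997772867) (nat_lit 0) (nat_lit 9769701979) (nat_lit 532) (nat_lit 3433699494) (nat_lit 57) (nat_lit 5) (nat_lit 56) (nat_lit 5) (nat_lit 63) (nat_lit 5) (nat_lit 321) (nat_lit 316) (nat_lit 263)))) (XT.nd (nat_lit 156) (nat_lit 380) (nat_lit 0) (XT.nd (nat_lit 78) (nat_lit 380) (nat_lit 0) (XT.lf (nat_lit 76) (nat_lit 13287136823) (nat_lit 0) (nat_lit 2379915733) (nat_lit 532) (nat_lit 2252991707)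 (nat_lit 57) (nat_lit 5) (nat_lit 56) (nat_lit 5) (nat_lit 63) (nat_lit 5) (nat_lit 322) (nat_lit 316) (nat_lit 262)) (XT.lf (nat_lit 0) (nat_lit 4704369933) (nat_lit 456) (nat_lit 13240316591) (nat_lit 532) (nat_lit 733688744) (nat_lit 51) (nat_lit 5) (nat_lit 57) (nat_lit 5) (nat_lit 58) (nat_lit 5) (nat_lit 323) (nat_lit 316) (nat_lit 261))) (XT.nd (nat_lit 78) (nat_lit 304) (nat_lit 0) (XT.lf (nat_lit 0) (nat_lit 1032386870) (nat_lit 532) (nat_lit 4542192370) (nat_lit 76) (nat_lit 13907432654) (nat_lit 50) (nat_lit 5) (nat_lit 57) (nat_lit 5) (nat_lit 51) (nat_lit 5) (nat_lit 324) (nat_lit 316) (nat_lit 260)) (XT.nd (nat_lit 78) (nat_lit 0) (nat_lit 0) (XT.lf (nat_lit 0) (nat_lit 3091690214) (nat_lit 380) (nat_lit 14506215042) (nat_lit 76) (nat_lit 2735213965) (nat_lit 46) (nat_lit 5) (nat_lit 51) (nat_lit 5) (nat_lit 47) (nat_lit 5) (nat_lit 325) (nat_lit 316) (nat_lit 259)) (XT.lf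 (nat_lit 0) (nat_lit 5569372517) (nat_lit 380) (nat_lit 4126251595) (nat_lit 76) (nat_lit 11536428684) (nat_lit 46) (nat_lit 5) (nat_lit 51) (nat_lit 5) (nat_lit 47) (nat_lit 5) (nat_lit 326) (nat_lit 316) (nat_lit 258))))))) (XT.nd (nat_lit 624) (nat_lit 684) (nat_lit 0) (XT.nd (nat_lit 312) (nat_lit 608) (nat_lit 0) (XT.nd (nat_lit 156) (nat_lit 228) (nat_lit 0) (XT.nd (nat_lit 78) (nat_lit 0) (nat_lit 0) (XT.lf (nat_lit 0) (nat_lit 7437945527) (nat_lit 228) (nat_lit 969005795) (nat_lit 304) (nat_lit 13783041513) (nat_lit 43) (nat_lit 5) (nat_lit 46) (nat_lit 5) (nat_lit 47) (nat_lit 5) (nat_lit 327) (nat_lit 316) (nat_lit 257)) (XT.lf (nat_lit 0) (nat_lit 11774258121) (nat_lit 304) (nat_lit 3278967999) (nat_lit 76) (nat_lit 8147148604) (nat_lit 43) (nat_lit 5) (nat_lit 47) (nat_lit 5) (nat_lit 44) (nat_lit 5) (nat_lit 328) (nat_lit 316) (nat_lit 256))) (XT.nd (nat_lit 78) (nat_lit 0)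 (nat_lit 0) (XT.lf (nat_lit 0) (nat_lit 9546689521) (nat_lit 228) (nat_lit 6103852492) (nat_lit 304) (nat_lit 8621900318) (nat_lit 40) (nat_lit 5) (nat_lit 43) (nat_lit 5) (nat_lit 44) (nat_lit 5) (nat_lit 329) (nat_lit 316) (nat_lit 255)) (XT.lf (nat_lit 0) (nat_lit 20000032800) (nat_lit 304) (nat_lit 1944535724) (nat_lit 76) (nat_lit 3472679394) (nat_lit 40) (nat_lit 5) (nat_lit 44) (nat_lit 5) (nat_lit 41) (nat_lit 5) (nat_lit 330) (nat_lit 316) (nat_lit 254)))) (XT.nd (nat_lit 156) (nat_lit 380) (nat_lit 0) (XT.nd (nat_lit 78) (nat_lit 76) (nat_lit 0) (XT.lf (nat_lit 0) (nat_lit 12298907970) (nat_lit 152) (nat_lit 12839451161) (nat_lit 228) (nat_lit 1480028071) (nat_lit 38) (nat_lit 5) (nat_lit 40) (nat_lit 5) (nat_lit 41) (nat_lit 5) (nat_lit 331) (nat_lit 316) (nat_lit 253)) (XT.lf (nat_lit 0) (nat_lit 2674802097) (nat_lit 228) (nat_lit 204253203) (nat_lit 76) (nat_lit 25027938010)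 (nat_lit 37) (nat_lit 5) (nat_lit 40) (nat_lit 5) (nat_lit 38) (nat_lit 5) (nat_lit 332) (nat_lit 316) (nat_lit 252))) (XT.nd (nat_lit 78) (nat_lit 152) (nat_lit 0) (XT.lf (nat_lit 0) (nat_lit 7649449996) (nat_lit 304) (nat_lit 13691589863) (nat_lit 76) (nat_lit 7909196725) (nat_lit 34) (nat_lit 5) (nat_lit 38) (nat_lit 5) (nat_lit 35) (nat_lit 5) (nat_lit 333) (nat_lit 316) (nat_lit 251)) (XT.lf (nat_lit 0) (nat_lit 1897257821) (nat_lit 152) (nat_lit 11239161300) (nat_lit 228) (nat_lit 17555386474) (nat_lit 32) (nat_lit 5) (nat_lit 34) (nat_lit 5) (nat_lit 35) (nat_lit 5) (nat_lit 334) (nat_lit 316) (nat_lit 250))))) (XT.nd (nat_lit 312) (nat_lit 304) (nat_lit 0) (XT.nd (nat_lit 156) (nat_lit 228) (nat_lit 0) (XT.nd (nat_lit 78) (nat_lit 152) (nat_lit 0) (XT.lf (nat_lit 0) (nat_lit 19427090846) (nat_lit 228) (nat_lit 12725508880) (nat_lit 76) (nat_lit 66933968) (nat_lit 32) (nat_lit 5)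 (nat_lit 35) (nat_lit 5) (nat_lit 33) (nat_lit 5) (nat_lit 335) (nat_lit 316) (nat_lit 249)) (XT.lf (nat_lit 0) (nat_lit 4549122663) (nat_lit 152) (nat_lit 22062656925) (nat_lit 228) (nat_lit 7226451586) (nat_lit 30) (nat_lit 5) (nat_lit 32) (nat_lit 5) (nat_lit 33) (nat_lit 5) (nat_lit 336) (nat_lit 316) (nat_lit 248))) (XT.nd (nat_lit 78) (nat_lit 228) (nat_lit 0) (XT.lf (nat_lit 0) (nat_lit 23914260131) (nat_lit 152) (nat_lit 10794769719) (nat_lit 228) (nat_lit 850382982) (nat_lit 30) (nat_lit 5) (nat_lit 32) (nat_lit 5) (nat_lit 33) (nat_lit 5) (nat_lit 337) (nat_lit 316) (nat_lit 247)) (XT.lf (nat_lit 0) (nat_lit 5949220842) (nat_lit 228) (nat_lit 29801858436) (nat_lit 76) (nat_lit 1638375916) (nat_lit 27) (nat_lit 5) (nat_lit 30) (nat_lit 5) (nat_lit 28) (nat_lit 5) (nat_lit 338) (nat_lit 316) (nat_lit 246)))) (XT.nd (nat_lit 156) (nat_lit 152) (nat_lit 0) (XT.nd (nat_lit 78) (nat_lit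 152) (nat_lit 0) (XT.lf (nat_lit 0) (nat_lit 13844504618) (nat_lit 228) (nat_lit 10644767952) (nat_lit 76) (nat_lit 14827057956) (nat_lit 27) (nat_lit 5) (nat_lit 30) (nat_lit 5) (nat_lit 28) (nat_lit 5) (nat_lit 339) (nat_lit 316) (nat_lit 245)) (XT.lf (nat_lit 0) (nat_lit 10559377738) (nat_lit 152) (nat_lit 12057284392) (nat_lit 228) (nat_lit 18761081974) (nat_lit 25) (nat_lit 5) (nat_lit 27) (nat_lit 5) (nat_lit 28) (nat_lit 5) (nat_lit 340) (nat_lit 316) (nat_lit 244))) (XT.nd (nat_lit 78) (nat_lit 152) (nat_lit 0) (XT.lf (nat_lit 0) (nat_lit 32413629490) (nat_lit 228) (nat_lit 9569989790) (nat_lit 76) (nat_lit 1594616194) (nat_lit 25) (nat_lit 5) (nat_lit 28) (nat_lit 5) (nat_lit 26) (nat_lit 4) (nat_lit 341) (nat_lit 316) (nat_lit 243)) (XT.nd (nat_lit 78) (nat_lit 76) (nat_lit 0) (XT.lf (nat_lit 0) (nat_lit 13739472948) (nat_lit 76) (nat_lit 29890621759) (nat_lit 152) (nat_lit 2273819324)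 (nat_lit 24) (nat_lit 5) (nat_lit 25) (nat_lit 5) (nat_lit 26) (nat_lit 4) (nat_lit 342) (nat_lit 316) (nat_lit 242)) (XT.lf (nat_lit 0) (nat_lit 7222305884) (nat_lit 152) (nat_lit 9132809460) (nat_lit 76) (nat_lit 32025585031) (nat_lit 23) (nat_lit 5) (nat_lit 25) (nat_lit 5) (nat_lit 24) (nat_lit 5) (nat_lit 343) (nat_lit 316) (nat_lit 241))))))))
noncomputable def xc145 : XT := (XT.nd (nat_lit 1326) (nat_lit 456) (nat_lit 0) (XT.nd (nat_lit 624) (nat_lit 456) (nat_lit 0) (XT.nd (nat_lit 312) (nat_lit 228) (nat_lit 0) (XT.nd (nat_lit 156) (nat_lit 76) (nat_lit 0) (XT.nd (nat_lit 78) (nat_lit 0) (nat_lit 0) (XT.lf (nat_lit 0) (nat_lit 16495421889) (nat_lit 152) (nat_lit 1249353021) (nat_lit 228) (nat_lit 33274975620) (nat_lit 21) (nat_lit 5) (nat_lit 23) (nat_lit 5) (nat_lit 24) (nat_lit 5) (nat_lit 344) (nat_lit 316) (nat_lit 240)) (XT.lf (nat_lit 0) (nat_lit 29720466486) (nat_lit 228)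 (nat_lit 9537623027) (nat_lit 76) (nat_lit 14562926411) (nat_lit 21) (nat_lit 5) (nat_lit 24) (nat_lit 5) (nat_lit 22) (nat_lit 4) (nat_lit 345) (nat_lit 316) (nat_lit 239))) (XT.nd (nat_lit 78) (nat_lit 0) (nat_lit 0) (XT.lf (nat_lit 0) (nat_lit 18320768429) (nat_lit 76) (nat_lit 24799956384) (nat_lit 152) (nat_lit 13688341666) (nat_lit 20) (nat_lit 5) (nat_lit 21) (nat_lit 5) (nat_lit 22) (nat_lit 4) (nat_lit 346) (nat_lit 316) (nat_lit 238)) (XT.lf (nat_lit 0) (nat_lit 48939250904) (nat_lit 76) (nat_lit 8908195302) (nat_lit 152) (nat_lit 2168363966) (nat_lit 20) (nat_lit 5) (nat_lit 21) (nat_lit 5) (nat_lit 22) (nat_lit 4) (nat_lit 347) (nat_lit 316) (nat_lit 237)))) (XT.nd (nat_lit 156) (nat_lit 76) (nat_lit 0) (XT.nd (nat_lit 78) (nat_lit 0) (nat_lit 0) (XT.lf (nat_lit 0) (nat_lit 10432684104) (nat_lit 152) (nat_lit 44407021696) (nat_lit 76) (nat_lit 8565755340) (nat_lit 18) (nat_lit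 5) (nat_lit 20) (nat_lit 5) (nat_lit 19) (nat_lit 4) (nat_lit 348) (nat_lit 316) (nat_lit 236)) (XT.lf (nat_lit 0) (nat_lit 24460842221) (nat_lit 152) (nat_lit 15238850446) (nat_lit 76) (nat_lit 27319195453) (nat_lit 18) (nat_lit 5) (nat_lit 20) (nat_lit 5) (nat_lit 19) (nat_lit 4) (nat_lit 349) (nat_lit 316) (nat_lit 235))) (XT.nd (nat_lit 78) (nat_lit 0) (nat_lit 0) (XT.lf (nat_lit 0) (nat_lit 17108814535) (nat_lit 76) (nat_lit 22908418271) (nat_lit 152) (nat_lit 30871681362) (nat_lit 17) (nat_lit 5) (nat_lit 18) (nat_lit 5) (nat_lit 19) (nat_lit 4) (nat_lit 350) (nat_lit 316) (nat_lit 234)) (XT.lf (nat_lit 0) (nat_lit 52901375891) (nat_lit 76) (nat_lit 4328104824) (nat_lit 152) (nat_lit 17806156952) (nat_lit 17) (nat_lit 5) (nat_lit 18) (nat_lit 5) (nat_lit 19) (nat_lit 4) (nat_lit 351) (nat_lit 316) (nat_lit 233))))) (XT.nd (nat_lit 312) (nat_lit 228) (nat_lit 0) (XT.nd (nat_lit 156)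 (nat_lit 76) (nat_lit 0) (XT.nd (nat_lit 78) (nat_lit 76) (nat_lit 0) (XT.lf (nat_lit 0) (nat_lit 12269333473) (nat_lit 76) (nat_lit 64217954880) (nat_lit 76) (nat_lit 2973327127) (nat_lit 16) (nat_lit 4) (nat_lit 17) (nat_lit 5) (nat_lit 17) (nat_lit 4) (nat_lit 352) (nat_lit 316) (nat_lit 232)) (XT.lf (nat_lit 0) (nat_lit 13121851982) (nat_lit 152) (nat_lit 33958252082) (nat_lit 76) (nat_lit 37076121650) (nat_lit 15) (nat_lit 5) (nat_lit 17) (nat_lit 5) (nat_lit 16) (nat_lit 4) (nat_lit 353) (nat_lit 316) (nat_lit 231))) (XT.nd (nat_lit 78) (nat_lit 0) (nat_lit 0) (XT.lf (nat_lit 0) (nat_lit 1944977406) (nat_lit 76) (nat_lit 28441192730) (nat_lit 152) (nat_lit 58831765604) (nat_lit 14) (nat_lit 5) (nat_lit 15) (nat_lit 5) (nat_lit 16) (nat_lit 4) (nat_lit 354) (nat_lit 316) (nat_lit 230)) (XT.lf (nat_lit 0) (nat_lit 42643407360) (nat_lit 76) (nat_lit 7312232426) (nat_lit 152) (nat_lit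 44655024375) (nat_lit 14) (nat_lit 5) (nat_lit 15) (nat_lit 5) (nat_lit 16) (nat_lit 4) (nat_lit 355) (nat_lit 316) (nat_lit 229)))) (XT.nd (nat_lit 156) (nat_lit 152) (nat_lit 0) (XT.nd (nat_lit 78) (nat_lit 76) (nat_lit 0) (XT.lf (nat_lit 0) (nat_lit 71459385285) (nat_lit 152) (nat_lit 14217971519) (nat_lit 0) (nat_lit 14727958513) (nat_lit 14) (nat_lit 5) (nat_lit 16) (nat_lit 4) (nat_lit 14) (nat_lit 4) (nat_lit 356) (nat_lit 316) (nat_lit 228)) (XT.lf (nat_lit 0) (nat_lit 27741742436) (nat_lit 76) (nat_lit 67794892230) (nat_lit 76) (nat_lit 11058649342) (nat_lit 13) (nat_lit 4) (nat_lit 14) (nat_lit 5) (nat_lit 14) (nat_lit 4) (nat_lit 357) (nat_lit 316) (nat_lit 227))) (XT.nd (nat_lit 78) (nat_lit 76) (nat_lit 0) (XT.lf (nat_lit 0) (nat_lit 8241380486) (nat_lit 152) (nat_lit 39598630843) (nat_lit 76) (nat_lit 65392953197) (nat_lit 12) (nat_lit 5) (nat_lit 14) (nat_lit 5) (nat_lit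 13) (nat_lit 4) (nat_lit 358) (nat_lit 316) (nat_lit 226)) (XT.nd (nat_lit 78) (nat_lit 0) (nat_lit 0) (XT.lf (nat_lit 0) (nat_lit 2634402677) (nat_lit 76) (nat_lit 25913305964) (nat_lit 152) (nat_lit 91826193227) (nat_lit 11) (nat_lit 5) (nat_lit 12) (nat_lit 5) (nat_lit 13) (nat_lit 4) (nat_lit 359) (nat_lit 316) (nat_lit 225)) (XT.lf (nat_lit 0) (nat_lit 50491444743) (nat_lit 76) (nat_lit 1066295269) (nat_lit 152) (nat_lit 76442039737) (nat_lit 11) (nat_lit 5) (nat_lit 12) (nat_lit 5) (nat_lit 13) (nat_lit 4) (nat_lit 360) (nat_lit 316) (nat_lit 224))))))) (XT.nd (nat_lit 624) (nat_lit 228) (nat_lit 0) (XT.nd (nat_lit 312) (nat_lit 76) (nat_lit 0) (XT.nd (nat_lit 156) (nat_lit 76) (nat_lit 0) (XT.nd (nat_lit 78) (nat_lit 76) (nat_lit 0) (XT.lf (nat_lit 0) (nat_lit 77024995832) (nat_lit 152) (nat_lit 34684751871) (nat_lit 0) (nat_lit 24476667616) (nat_lit 11) (nat_lit 5) (nat_lit 13)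 (nat_lit 4) (nat_lit 11) (nat_lit 4) (nat_lit 361) (nat_lit 316) (nat_lit 223)) (XT.lf (nat_lit 0) (nat_lit 12138359903) (nat_lit 76) (nat_lit 92707830729) (nat_lit 76) (nat_lit 40156467543) (nat_lit 10) (nat_lit 4) (nat_lit 11) (nat_lit 5) (nat_lit 11) (nat_lit 4) (nat_lit 362) (nat_lit 316) (nat_lit 222))) (XT.nd (nat_lit 78) (nat_lit 76) (nat_lit 0) (XT.lf (nat_lit 0) (nat_lit 64674149895) (nat_lit 76) (nat_lit 71164297806) (nat_lit 76) (nat_lit 18610124463) (nat_lit 10) (nat_lit 4) (nat_lit 11) (nat_lit 5) (nat_lit 11) (nat_lit 4) (nat_lit 363) (nat_lit 316) (nat_lit 221)) (XT.lf (nat_lit 0) (nat_lit 4423989743) (nat_lit 152) (nat_lit 43354876673) (nat_lit 76) (nat_lit 116862554274) (nat_lit 9) (nat_lit 5) (nat_lit 11) (nat_lit 5) (nat_lit 10) (nat_lit 4) (nat_lit 364) (nat_lit 316) (nat_lit 220)))) (XT.nd (nat_lit 156) (nat_lit 0) (nat_lit 0) (XT.nd (nat_lit 78) (nat_lit 0) (nat_lit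 0) (XT.lf (nat_lit 0) (nat_lit 6621017300) (nat_lit 76) (nat_lit 21831002842) (nat_lit 152) (nat_lit 147146478021) (nat_lit 8) (nat_lit 5) (nat_lit 9) (nat_lit 5) (nat_lit 10) (nat_lit 4) (nat_lit 365) (nat_lit 316) (nat_lit 219)) (XT.lf (nat_lit 0) (nat_lit 55764816163) (nat_lit 152) (nat_lit 124461485632) (nat_lit 0) (nat_lit 7096838949) (nat_lit 8) (nat_lit 5) (nat_lit 10) (nat_lit 4) (nat_lit 8) (nat_lit 4) (nat_lit 366) (nat_lit 316) (nat_lit 218))) (XT.nd (nat_lit 78) (nat_lit 0) (nat_lit 0) (XT.lf (nat_lit 0) (nat_lit 85827267585) (nat_lit 152) (nat_lit 76955939488) (nat_lit 0) (nat_lit 37157377826) (nat_lit 8) (nat_lit 5) (nat_lit 10) (nat_lit 4) (nat_lit 8) (nat_lit 4) (nat_lit 367) (nat_lit 316) (nat_lit 217)) (XT.lf (nat_lit 0) (nat_lit 118292486127) (nat_lit 152) (nat_lit 25654291942) (nat_lit 0) (nat_lit 69620825493) (nat_lit 8) (nat_lit 5) (nat_lit 10) (nat_lit 4) (nat_lit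 8) (nat_lit 4) (nat_lit 368) (nat_lit 316) (nat_lit 216))))) (XT.nd (nat_lit 312) (nat_lit 76) (nat_lit 0) (XT.nd (nat_lit 156) (nat_lit 76) (nat_lit 0) (XT.nd (nat_lit 78) (nat_lit 0) (nat_lit 0) (XT.lf (nat_lit 0) (nat_lit 31313915651) (nat_lit 76) (nat_lit 122792043043) (nat_lit 76) (nat_lit 74118742708) (nat_lit 7) (nat_lit 4) (nat_lit 8) (nat_lit 5) (nat_lit 8) (nat_lit 4) (nat_lit 369) (nat_lit 316) (nat_lit 215)) (XT.lf (nat_lit 0) (nat_lit 94294643317) (nat_lit 76) (nat_lit 99189294301) (nat_lit 76) (nat_lit 50514475726) (nat_lit 7) (nat_lit 4) (nat_lit 8) (nat_lit 5) (nat_lit 8) (nat_lit 4) (nat_lit 370) (nat_lit 316) (nat_lit 214))) (XT.nd (nat_lit 78) (nat_lit 76) (nat_lit 0) (XT.lf (nat_lit 0) (nat_lit 162310200632) (nat_lit 76) (nat_lit 73700097511) (nat_lit 76) (nat_lit 25023873158) (nat_lit 7) (nat_lit 4) (nat_lit 8) (nat_lit 5) (nat_lit 8) (nat_lit 4) (nat_lit 371) (nat_lit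 316) (nat_lit 213)) (XT.lf (nat_lit 0) (nat_lit 2378854175) (nat_lit 152) (nat_lit 43729509315) (nat_lit 76) (nat_lit 233319746486) (nat_lit 6) (nat_lit 5) (nat_lit 8) (nat_lit 5) (nat_lit 7) (nat_lit 4) (nat_lit 372) (nat_lit 316) (nat_lit 212)))) (XT.nd (nat_lit 156) (nat_lit 0) (nat_lit 0) (XT.nd (nat_lit 78) (nat_lit 0) (nat_lit 0) (XT.lf (nat_lit 0) (nat_lit 15801811478) (nat_lit 76) (nat_lit 15198449438) (nat_lit 152) (nat_lit 268211033556) (nat_lit 5) (nat_lit 5) (nat_lit 6) (nat_lit 5) (nat_lit 7) (nat_lit 4) (nat_lit 373) (nat_lit 316) (nat_lit 211)) (XT.lf (nat_lit 0) (nat_lit 63573785642) (nat_lit 152) (nat_lit 238370502963) (nat_lit 0) (nat_lit 18499853068) (nat_lit 5) (nat_lit 5) (nat_lit 7) (nat_lit 4) (nat_lit 5) (nat_lit 4) (nat_lit 374) (nat_lit 316) (nat_lit 210))) (XT.nd (nat_lit 78) (nat_lit 0) (nat_lit 0) (XT.lf (nat_lit 0) (nat_lit 99146453273) (nat_lit 152) (nat_lit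 190126138910) (nat_lit 0) (nat_lit 54071563949) (nat_lit 5) (nat_lit 5) (nat_lit 7) (nat_lit 4) (nat_lit 5) (nat_lit 4) (nat_lit 375) (nat_lit 316) (nat_lit 209)) (XT.nd (nat_lit 78) (nat_lit 0) (nat_lit 0) (XT.lf (nat_lit 0) (nat_lit 137563541726) (nat_lit 152) (nat_lit 138024975231) (nat_lit 0) (nat_lit 92487766524) (nat_lit 5) (nat_lit 5) (nat_lit 7) (nat_lit 4) (nat_lit 5) (nat_lit 4) (nat_lit 376) (nat_lit 316) (nat_lit 208)) (XT.lf (nat_lit 0) (nat_lit 179052707823) (nat_lit 152) (nat_lit 81758264291) (nat_lit 0) (nat_lit 133976112363) (nat_lit 5) (nat_lit 5) (nat_lit 7) (nat_lit 4) (nat_lit 5) (nat_lit 4) (nat_lit 377) (nat_lit 316) (nat_lit 207))))))))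
noncomputable def xc146 : XT := (XT.nd (nat_lit 1326) (nat_lit 76) (nat_lit 0) (XT.nd (nat_lit 624) (nat_lit 152) (nat_lit 0) (XT.nd (nat_lit 312) (nat_lit 0) (nat_lit 0) (XT.nd (nat_lit 156) (nat_lit 0) (nat_lit 0) (XT.nd (nat_lit 78) (nat_lit 76) (nat_lit 0) (XT.lf (nat_lit 0) (nat_lit 223859813288) (nat_lit 152) (nat_lit 20992573728) (nat_lit 0) (nat_lit 178782458330) (nat_lit 5) (nat_lit 5) (nat_lit 7) (nat_lit 4) (nat_lit 5) (nat_lit 4) (nat_lit 378) (nat_lit 316) (nat_lit 206)) (XT.lf (nat_lit 0) (nat_lit 46982441439) (nat_lit 76) (nat_lit 226397869116) (nat_lit 76) (nat_lit 181319810919) (nat_lit 4) (nat_lit 4) (nat_lit 5) (nat_lit 5) (nat_lit 5) (nat_lit 4) (nat_lit 379) (nat_lit 316) (nat_lit 205))) (XT.nd (nat_lit 78) (nat_lit 0) (nat_lit 0) (XT.lf (nat_lit 0) (nat_lit 121587196705) (nat_lit 76) (nat_lit 205848150311) (nat_lit 76) (nat_lit 160769440966) (nat_lit 4) (nat_lit 4)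 (nat_lit 5) (nat_lit 5) (nat_lit 5) (nat_lit 4) (nat_lit 380) (nat_lit 316) (nat_lit 204)) (XT.lf (nat_lit 0) (nat_lit 202158362592) (nat_lit 76) (nat_lit 183655428656) (nat_lit 76) (nat_lit 138576116397) (nat_lit 4) (nat_lit 4) (nat_lit 5) (nat_lit 5) (nat_lit 5) (nat_lit 4) (nat_lit 381) (nat_lit 316) (nat_lit 203)))) (XT.nd (nat_lit 156) (nat_lit 0) (nat_lit 0) (XT.nd (nat_lit 78) (nat_lit 0) (nat_lit 0) (XT.lf (nat_lit 0) (nat_lit 289173397860) (nat_lit 76) (nat_lit 159688191727) (nat_lit 76) (nat_lit 114608321215) (nat_lit 4) (nat_lit 4) (nat_lit 5) (nat_lit 5) (nat_lit 5) (nat_lit 4) (nat_lit 382) (nat_lit 316) (nat_lit 202)) (XT.lf (nat_lit 0) (nat_lit 383147947163) (nat_lit 76) (nat_lit 133804411454) (nat_lit 76) (nat_lit 88724024040) (nat_lit 4) (nat_lit 4) (nat_lit 5) (nat_lit 5) (nat_lit 5) (nat_lit 4) (nat_lit 383) (nat_lit 316) (nat_lit 201))) (XT.nd (nat_lit 78) (nat_lit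 0) (nat_lit 0) (XT.lf (nat_lit 0) (nat_lit 484638896720) (nat_lit 76) (nat_lit 105850702471) (nat_lit 76) (nat_lit 60769836444) (nat_lit 4) (nat_lit 4) (nat_lit 5) (nat_lit 5) (nat_lit 5) (nat_lit 4) (nat_lit 384) (nat_lit 316) (nat_lit 200)) (XT.lf (nat_lit 0) (nat_lit 594247674379) (nat_lit 76) (nat_lit 75661413170) (nat_lit 76) (nat_lit 30580103983) (nat_lit 4) (nat_lit 4) (nat_lit 5) (nat_lit 5) (nat_lit 5) (nat_lit 4) (nat_lit 385) (nat_lit 316) (nat_lit 199))))) (XT.nd (nat_lit 312) (nat_lit 0) (nat_lit 0) (XT.nd (nat_lit 156) (nat_lit 0) (nat_lit 0) (XT.nd (nat_lit 78) (nat_lit 76) (nat_lit 0) (XT.lf (nat_lit 0) (nat_lit 1922823008) (nat_lit 152) (nat_lit 41082247662) (nat_lit 76) (nat_lit 710648417240) (nat_lit 3) (nat_lit 5) (nat_lit 5) (nat_lit 5) (nat_lit 4) (nat_lit 4) (nat_lit 386) (nat_lit 316) (nat_lit 198)) (XT.lf (nat_lit 0) (nat_lit 29994653704) (nat_lit 76) (nat_lit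 6099939162) (nat_lit 152) (nat_lit 774855133901) (nat_lit 2) (nat_lit 5) (nat_lit 3) (nat_lit 5) (nat_lit 4) (nat_lit 4) (nat_lit 387) (nat_lit 316) (nat_lit 197))) (XT.nd (nat_lit 78) (nat_lit 0) (nat_lit 0) (XT.lf (nat_lit 0) (nat_lit 74963771948) (nat_lit 152) (nat_lit 764488037966) (nat_lit 0) (nat_lit 33220761528) (nat_lit 2) (nat_lit 5) (nat_lit 4) (nat_lit 4) (nat_lit 2) (nat_lit 4) (nat_lit 388) (nat_lit 316) (nat_lit 196)) (XT.lf (nat_lit 0) (nat_lit 117100332182) (nat_lit 152) (nat_lit 746863263719) (nat_lit 0) (nat_lit 75357020155) (nat_lit 2) (nat_lit 5) (nat_lit 4) (nat_lit 4) (nat_lit 2) (nat_lit 4) (nat_lit 389) (nat_lit 316) (nat_lit 195)))) (XT.nd (nat_lit 156) (nat_lit 0) (nat_lit 0) (XT.nd (nat_lit 78) (nat_lit 0) (nat_lit 0) (XT.lf (nat_lit 0) (nat_lit 162607268020) (nat_lit 152) (nat_lit 727829603532) (nat_lit 0) (nat_lit 120863676727) (nat_lit 2) (nat_lit 5) (nat_lit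 4) (nat_lit 4) (nat_lit 2) (nat_lit 4) (nat_lit 390) (nat_lit 316) (nat_lit 194)) (XT.lf (nat_lit 0) (nat_lit 211754250193) (nat_lit 152) (nat_lit 707274265346) (nat_lit 0) (nat_lit 170010400321) (nat_lit 2) (nat_lit 5) (nat_lit 4) (nat_lit 4) (nat_lit 2) (nat_lit 4) (nat_lit 391) (nat_lit 316) (nat_lit 193))) (XT.nd (nat_lit 78) (nat_lit 0) (nat_lit 0) (XT.lf (nat_lit 0) (nat_lit 264832520077) (nat_lit 152) (nat_lit 685075439747) (nat_lit 0) (nat_lit 223088430779) (nat_lit 2) (nat_lit 5) (nat_lit 4) (nat_lit 4) (nat_lit 2) (nat_lit 4) (nat_lit 392) (nat_lit 316) (nat_lit 192)) (XT.nd (nat_lit 78) (nat_lit 0) (nat_lit 0) (XT.lf (nat_lit 0) (nat_lit 322156615567) (nat_lit 152) (nat_lit 661101578142) (nat_lit 0) (nat_lit 280412304579) (nat_lit 2) (nat_lit 5) (nat_lit 4) (nat_lit 4) (nat_lit 2) (nat_lit 4) (nat_lit 393) (nat_lit 316) (nat_lit 191)) (XT.lf (nat_lit 0) (nat_lit 384066235006)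 (nat_lit 152) (nat_lit 635210613200) (nat_lit 0) (nat_lit 342321718750) (nat_lit 2) (nat_lit 5) (nat_lit 4) (nat_lit 4) (nat_lit 2) (nat_lit 4) (nat_lit 394) (nat_lit 316) (nat_lit 190))))))) (XT.nd (nat_lit 624) (nat_lit 76) (nat_lit 0) (XT.nd (nat_lit 312) (nat_lit 0) (nat_lit 0) (XT.nd (nat_lit 156) (nat_lit 0) (nat_lit 0) (XT.nd (nat_lit 78) (nat_lit 0) (nat_lit 0) (XT.lf (nat_lit 0) (nat_lit 450928250215) (nat_lit 152) (nat_lit 607249116983) (nat_lit 0) (nat_lit 409183543895) (nat_lit 2) (nat_lit 5) (nat_lit 4) (nat_lit 4) (nat_lit 2) (nat_lit 4) (nat_lit 395) (nat_lit 316) (nat_lit 189)) (XT.lf (nat_lit 0) (nat_lit 523138880542) (nat_lit 152) (nat_lit 577051391734) (nat_lit 0) (nat_lit 481393998237) (nat_lit 2) (nat_lit 5) (nat_lit 4) (nat_lit 4) (nat_lit 2) (nat_lit 4) (nat_lit 396) (nat_lit 316) (nat_lit 188))) (XT.nd (nat_lit 78) (nat_lit 0) (nat_lit 0) (XT.lf (nat_lit 0) (nat_lit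 601126040834) (nat_lit 152) (nat_lit 544438487971) (nat_lit 0) (nat_lit 559380995580) (nat_lit 2) (nat_lit 5) (nat_lit 4) (nat_lit 4) (nat_lit 2) (nat_lit 4) (nat_lit 397) (nat_lit 316) (nat_lit 187)) (XT.lf (nat_lit 0) (nat_lit 685351877225) (nat_lit 152) (nat_lit 509217144041) (nat_lit 0) (nat_lit 643606681092) (nat_lit 2) (nat_lit 5) (nat_lit 4) (nat_lit 4) (nat_lit 2) (nat_lit 4) (nat_lit 398) (nat_lit 316) (nat_lit 186)))) (XT.nd (nat_lit 156) (nat_lit 0) (nat_lit 0) (XT.nd (nat_lit 78) (nat_lit 0) (nat_lit 0) (XT.lf (nat_lit 0) (nat_lit 776315505784) (nat_lit 152) (nat_lit 471178640870) (nat_lit 0) (nat_lit 734570169948) (nat_lit 2) (nat_lit 5) (nat_lit 4) (nat_lit 4) (nat_lit 2) (nat_lit 4) (nat_lit 399) (nat_lit 316) (nat_lit 185)) (XT.lf (nat_lit 0) (nat_lit 874555970234) (nat_lit 152) (nat_lit 430097565106) (nat_lit 0) (nat_lit 832810505045) (nat_lit 2) (nat_lit 5) (nat_lit 4)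 (nat_lit 4) (nat_lit 2) (nat_lit 4) (nat_lit 400) (nat_lit 316) (nat_lit 184))) (XT.nd (nat_lit 78) (nat_lit 0) (nat_lit 0) (XT.lf (nat_lit 0) (nat_lit 980655436292) (nat_lit 152) (nat_lit 385730473336) (nat_lit 0) (nat_lit 938909851330) (nat_lit 2) (nat_lit 5) (nat_lit 4) (nat_lit 4) (nat_lit 2) (nat_lit 4) (nat_lit 401) (nat_lit 316) (nat_lit 183)) (XT.lf (nat_lit 0) (nat_lit 1095242641534) (nat_lit 152) (nat_lit 337814449461) (nat_lit 0) (nat_lit 1053496945671) (nat_lit 2) (nat_lit 5) (nat_lit 4) (nat_lit 4) (nat_lit 2) (nat_lit 4) (nat_lit 402) (nat_lit 316) (nat_lit 182))))) (XT.nd (nat_lit 312) (nat_lit 76) (nat_lit 0) (XT.nd (nat_lit 156) (nat_lit 0) (nat_lit 0) (XT.nd (nat_lit 78) (nat_lit 0) (nat_lit 0) (XT.lf (nat_lit 0) (nat_lit 1218996621249) (nat_lit 152) (nat_lit 286065546673) (nat_lit 0) (nat_lit 1177250822702) (nat_lit 2) (nat_lit 5) (nat_lit 4) (nat_lit 4) (nat_lit 2)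 (nat_lit 4) (nat_lit 403) (nat_lit 316) (nat_lit 181)) (XT.lf (nat_lit 0) (nat_lit 1352650732356) (nat_lit 152) (nat_lit 230177104808) (nat_lit 0) (nat_lit 1310904838729) (nat_lit 2) (nat_lit 5) (nat_lit 4) (nat_lit 4) (nat_lit 2) (nat_lit 4) (nat_lit 404) (nat_lit 316) (nat_lit 180))) (XT.nd (nat_lit 78) (nat_lit 0) (nat_lit 0) (XT.lf (nat_lit 0) (nat_lit 1496996999216) (nat_lit 152) (nat_lit 169817933098) (nat_lit 0) (nat_lit 1455251017553) (nat_lit 2) (nat_lit 5) (nat_lit 4) (nat_lit 4) (nat_lit 2) (nat_lit 4) (nat_lit 405) (nat_lit 316) (nat_lit 179)) (XT.lf (nat_lit 0) (nat_lit 1652890807115) (nat_lit 152) (nat_lit 104630347563) (nat_lit 0) (nat_lit 1611144743936) (nat_lit 2) (nat_lit 5) (nat_lit 4) (nat_lit 4) (nat_lit 2) (nat_lit 4) (nat_lit 406) (nat_lit 316) (nat_lit 178)))) (XT.nd (nat_lit 156) (nat_lit 0) (nat_lit 0) (XT.nd (nat_lit 78) (nat_lit 76) (nat_lit 0) (XT.lf (nat_lit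 0) (nat_lit 1821255971209) (nat_lit 152) (nat_lit 34228051400) (nat_lit 0) (nat_lit 1779509832554) (nat_lit 2) (nat_lit 5) (nat_lit 4) (nat_lit 4) (nat_lit 2) (nat_lit 4) (nat_lit 407) (nat_lit 316) (nat_lit 177)) (XT.lf (nat_lit 0) (nat_lit 44007592174) (nat_lit 76) (nat_lit 1960141002467) (nat_lit 76) (nat_lit 1918394793925) (nat_lit 1) (nat_lit 4) (nat_lit 2) (nat_lit 5) (nat_lit 2) (nat_lit 4) (nat_lit 408) (nat_lit 316) (nat_lit 176))) (XT.nd (nat_lit 78) (nat_lit 0) (nat_lit 0) (XT.lf (nat_lit 0) (nat_lit 130448399517) (nat_lit 76) (nat_lit 2072159950323) (nat_lit 76) (nat_lit 2030413677072) (nat_lit 1) (nat_lit 4) (nat_lit 2) (nat_lit 5) (nat_lit 2) (nat_lit 4) (nat_lit 409) (nat_lit 316) (nat_lit 175)) (XT.nd (nat_lit 78) (nat_lit 0) (nat_lit 0) (XT.lf (nat_lit 0) (nat_lit 223804223921) (nat_lit 76) (nat_lit 2193140537749) (nat_lit 76) (nat_lit 2151394204582) (nat_lit 1) (nat_lit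 4) (nat_lit 2) (nat_lit 5) (nat_lit 2) (nat_lit 4) (nat_lit 410) (nat_lit 316) (nat_lit 174)) (XT.lf (nat_lit 0) (nat_lit 324628285085) (nat_lit 76) (nat_lit 2323799686744) (nat_lit 76) (nat_lit 2282053298100) (nat_lit 1) (nat_lit 4) (nat_lit 2) (nat_lit 5) (nat_lit 2) (nat_lit 4) (nat_lit 411) (nat_lit 316) (nat_lit 173))))))))
noncomputable def xc147 : XT := (XT.nd (nat_lit 1326) (nat_lit 1292) (nat_lit 0) (XT.nd (nat_lit 624) (nat_lit 1292) (nat_lit 0) (XT.nd (nat_lit 312) (nat_lit 228) (nat_lit 0) (XT.nd (nat_lit 156) (nat_lit 0) (nat_lit 76) (XT.nd (nat_lit 78) (nat_lit 0) (nat_lit 0) (XT.lf (nat_lit 0) (nat_lit 4646760281) (nat_lit 532) (nat_lit 1493536605) (nat_lit 532) (nat_lit 1493536605) (nat_lit 54) (nat_lit 3) (nat_lit 61) (nat_lit 3) (nat_lit 61) (nat_lit 5) (nat_lit 317) (nat_lit 317) (nat_lit 266)) (XT.lf (nat_lit 76) (nat_lit 4467913212) (nat_lit 0) (nat_lit 5571478647)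 (nat_lit 532) (nat_lit 5808564230) (nat_lit 55) (nat_lit 5) (nat_lit 54) (nat_lit 3) (nat_lit 61) (nat_lit 5) (nat_lit 318) (nat_lit 317) (nat_lit 265))) (XT.nd (nat_lit 78) (nat_lit 0) (nat_lit 0) (XT.lf (nat_lit 0) (nat_lit 10942233811) (nat_lit 456) (nat_lit 3839037718) (nat_lit 532) (nat_lit 1685661453) (nat_lit 55) (nat_lit 5) (nat_lit 61) (nat_lit 5) (nat_lit 62) (nat_lit 5) (nat_lit 319) (nat_lit 317) (nat_lit 264)) (XT.lf (nat_lit 76) (nat_lit 4362378994) (nat_lit 0) (nat_lit 7779774653) (nat_lit 532) (nat_lit 4975331467) (nat_lit 56) (nat_lit 5) (nat_lit 55) (nat_lit 5) (nat_lit 62) (nat_lit 5) (nat_lit 320) (nat_lit 317) (nat_lit 263)))) (XT.nd (nat_lit 156) (nat_lit 304) (nat_lit 0) (XT.nd (nat_lit 78) (nat_lit 0) (nat_lit 76) (XT.lf (nat_lit 76) (nat_lit 13422274186) (nat_lit 0) (nat_lit 97431959) (nat_lit 532) (nat_lit 4293885928) (nat_lit 56) (nat_lit 5) (nat_lit 55) (nat_lit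 5) (nat_lit 62) (nat_lit 5) (nat_lit 321) (nat_lit 317) (nat_lit 262)) (XT.lf (nat_lit 76) (nat_lit 4660815794) (nat_lit 0) (nat_lit 10634502773) (nat_lit 532) (nat_lit 3247079254) (nat_lit 57) (nat_lit 5) (nat_lit 56) (nat_lit 5) (nat_lit 63) (nat_lit 5) (nat_lit 322) (nat_lit 317) (nat_lit 261))) (XT.nd (nat_lit 78) (nat_lit 380) (nat_lit 0) (XT.lf (nat_lit 76) (nat_lit 14667905082) (nat_lit 0) (nat_lit 2647368840) (nat_lit 532) (nat_lit 2006086414) (nat_lit 57) (nat_lit 5) (nat_lit 56) (nat_lit 5) (nat_lit 63) (nat_lit 5) (nat_lit 323) (nat_lit 317) (nat_lit 260)) (XT.lf (nat_lit 0) (nat_lit 5423747776) (nat_lit 456) (nat_lit 14328655978) (nat_lit 532) (nat_lit 389823023) (nat_lit 51) (nat_lit 5) (nat_lit 57) (nat_lit 5) (nat_lit 58) (nat_lit 5) (nat_lit 324) (nat_lit 317) (nat_lit 259))))) (XT.nd (nat_lit 312) (nat_lit 684) (nat_lit 0) (XT.nd (nat_lit 156) (nat_lit 228) (nat_lit 0)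 (XT.nd (nat_lit 78) (nat_lit 304) (nat_lit 0) (XT.lf (nat_lit 0) (nat_lit 1469073280) (nat_lit 532) (nat_lit 4568748165) (nat_lit 76) (nat_lit 14973868957) (nat_lit 50) (nat_lit 5) (nat_lit 57) (nat_lit 5) (nat_lit 51) (nat_lit 5) (nat_lit 325) (nat_lit 317) (nat_lit 258)) (XT.lf (nat_lit 0) (nat_lit 3674607409) (nat_lit 380) (nat_lit 15310865459) (nat_lit 76) (nat_lit 2946935622) (nat_lit 46) (nat_lit 5) (nat_lit 51) (nat_lit 5) (nat_lit 47) (nat_lit 5) (nat_lit 326) (nat_lit 317) (nat_lit 257))) (XT.nd (nat_lit 78) (nat_lit 228) (nat_lit 0) (XT.lf (nat_lit 0) (nat_lit 6325646372) (nat_lit 380) (nat_lit 4126863957) (nat_lit 76) (nat_lit 12452773109) (nat_lit 46) (nat_lit 5) (nat_lit 51) (nat_lit 5) (nat_lit 47) (nat_lit 5) (nat_lit 327) (nat_lit 317) (nat_lit 256)) (XT.lf (nat_lit 0) (nat_lit 8354127472) (nat_lit 228) (nat_lit 1020810990) (nat_lit 304) (nat_lit 14566178894) (nat_lit 43)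 (nat_lit 5) (nat_lit 46) (nat_lit 5) (nat_lit 47) (nat_lit 5) (nat_lit 328) (nat_lit 317) (nat_lit 255)))) (XT.nd (nat_lit 156) (nat_lit 456) (nat_lit 0) (XT.nd (nat_lit 78) (nat_lit 228) (nat_lit 0) (XT.lf (nat_lit 0) (nat_lit 12990318665) (nat_lit 304) (nat_lit 3222208812) (nat_lit 76) (nat_lit 8821539832) (nat_lit 43) (nat_lit 5) (nat_lit 47) (nat_lit 5) (nat_lit 44) (nat_lit 5) (nat_lit 329) (nat_lit 317) (nat_lit 254)) (XT.lf (nat_lit 0) (nat_lit 10621423420) (nat_lit 228) (nat_lit 6542456200) (nat_lit 304) (nat_lit 9029076968) (nat_lit 40) (nat_lit 5) (nat_lit 43) (nat_lit 5) (nat_lit 44) (nat_lit 5) (nat_lit 330) (nat_lit 317) (nat_lit 253))) (XT.nd (nat_lit 78) (nat_lit 456) (nat_lit 0) (XT.lf (nat_lit 0) (nat_lit 21843081386) (nat_lit 304) (nat_lit 1793538884) (nat_lit 76) (nat_lit 3794214182) (nat_lit 40) (nat_lit 5) (nat_lit 44) (nat_lit 5) (nat_lit 41) (nat_lit 5) (nat_lit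 331) (nat_lit 317) (nat_lit 252)) (XT.nd (nat_lit 78) (nat_lit 304) (nat_lit 0) (XT.lf (nat_lit 0) (nat_lit 13581619301) (nat_lit 152) (nat_lit 13800037234) (nat_lit 228) (nat_lit 1347299625) (nat_lit 38) (nat_lit 5) (nat_lit 40) (nat_lit 5) (nat_lit 41) (nat_lit 5) (nat_lit 332) (nat_lit 317) (nat_lit 251)) (XT.lf (nat_lit 0) (nat_lit 71561339) (nat_lit 228) (nat_lit 3039842381) (nat_lit 304) (nat_lit 27010062116) (nat_lit 34) (nat_lit 5) (nat_lit 37) (nat_lit 5) (nat_lit 38) (nat_lit 5) (nat_lit 333) (nat_lit 317) (nat_lit 250))))))) (XT.nd (nat_lit 702) (nat_lit 608) (nat_lit 0) (XT.nd (nat_lit 312) (nat_lit 380) (nat_lit 0) (XT.nd (nat_lit 156) (nat_lit 152) (nat_lit 0) (XT.nd (nat_lit 78) (nat_lit 152) (nat_lit 0) (XT.lf (nat_lit 0) (nat_lit 8474387044) (nat_lit 304) (nat_lit 14490169701) (nat_lit 76) (nat_lit 8608403300) (nat_lit 34) (nat_lit 5) (nat_lit 38) (nat_lit 5) (nat_lit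 35) (nat_lit 5) (nat_lit 334) (nat_lit 317) (nat_lit 249)) (XT.lf (nat_lit 0) (nat_lit 2338273207) (nat_lit 152) (nat_lit 12053220221) (nat_lit 228) (nat_lit 18739085806) (nat_lit 32) (nat_lit 5) (nat_lit 34) (nat_lit 5) (nat_lit 35) (nat_lit 5) (nat_lit 335) (nat_lit 317) (nat_lit 248))) (XT.nd (nat_lit 78) (nat_lit 152) (nat_lit 0) (XT.lf (nat_lit 0) (nat_lit 21172190344) (nat_lit 228) (nat_lit 13462290759) (nat_lit 76) (nat_lit 147120387) (nat_lit 32) (nat_lit 5) (nat_lit 35) (nat_lit 5) (nat_lit 33) (nat_lit 5) (nat_lit 336) (nat_lit 317) (nat_lit 247)) (XT.lf (nat_lit 0) (nat_lit 5187190831) (nat_lit 152) (nat_lit 23736913260) (nat_lit 228) (nat_lit 7606311005) (nat_lit 30) (nat_lit 5) (nat_lit 32) (nat_lit 5) (nat_lit 33) (nat_lit 5) (nat_lit 337) (nat_lit 317) (nat_lit 246)))) (XT.nd (nat_lit 156) (nat_lit 152) (nat_lit 0) (XT.nd (nat_lit 78) (nat_lit 228) (nat_lit 0) (XT.lf (nat_lit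 0) (nat_lit 26081232752) (nat_lit 152) (nat_lit 11574317761) (nat_lit 228) (nat_lit 734842594) (nat_lit 30) (nat_lit 5) (nat_lit 32) (nat_lit 5) (nat_lit 33) (nat_lit 5) (nat_lit 338) (nat_lit 317) (nat_lit 245)) (XT.lf (nat_lit 0) (nat_lit 6594936136) (nat_lit 228) (nat_lit 31918045060) (nat_lit 76) (nat_lit 1853886261) (nat_lit 27) (nat_lit 5) (nat_lit 30) (nat_lit 5) (nat_lit 28) (nat_lit 5) (nat_lit 339) (nat_lit 317) (nat_lit 244))) (XT.nd (nat_lit 78) (nat_lit 152) (nat_lit 0) (XT.lf (nat_lit 0) (nat_lit 15109266493) (nat_lit 228) (nat_lit 11248236379) (nat_lit 76) (nat_lit 16091408030) (nat_lit 27) (nat_lit 5) (nat_lit 30) (nat_lit 5) (nat_lit 28) (nat_lit 5) (nat_lit 340) (nat_lit 317) (nat_lit 243)) (XT.nd (nat_lit 78) (nat_lit 0) (nat_lit 0) (XT.lf (nat_lit 0) (nat_lit 11645959625) (nat_lit 152) (nat_lit 12931408482) (nat_lit 228) (nat_lit 20098346845) (nat_lit 25) (nat_lit 5)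 (nat_lit 27) (nat_lit 5) (nat_lit 28) (nat_lit 5) (nat_lit 341) (nat_lit 317) (nat_lit 242)) (XT.lf (nat_lit 0) (nat_lit 35148894423) (nat_lit 228) (nat_lit 10102343773) (nat_lit 76) (nat_lit 1801753593) (nat_lit 25) (nat_lit 5) (nat_lit 28) (nat_lit 5) (nat_lit 26) (nat_lit 4) (nat_lit 342) (nat_lit 317) (nat_lit 241)))))) (XT.nd (nat_lit 312) (nat_lit 304) (nat_lit 0) (XT.nd (nat_lit 156) (nat_lit 152) (nat_lit 0) (XT.nd (nat_lit 78) (nat_lit 76) (nat_lit 0) (XT.lf (nat_lit 0) (nat_lit 15065971041) (nat_lit 76) (nat_lit 32191641905) (nat_lit 152) (nat_lit 2307526321) (nat_lit 24) (nat_lit 5) (nat_lit 25) (nat_lit 5) (nat_lit 26) (nat_lit 4) (nat_lit 343) (nat_lit 317) (nat_lit 240)) (XT.lf (nat_lit 0) (nat_lit 7930446889) (nat_lit 152) (nat_lit 9645967583) (nat_lit 76) (nat_lit 34664211360) (nat_lit 23) (nat_lit 5) (nat_lit 25) (nat_lit 5) (nat_lit 24) (nat_lit 5) (nat_lit 344) (nat_lit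 317) (nat_lit 239))) (XT.nd (nat_lit 78) (nat_lit 0) (nat_lit 0) (XT.lf (nat_lit 0) (nat_lit 18027016790) (nat_lit 152) (nat_lit 1263138278) (nat_lit 228) (nat_lit 35801017159) (nat_lit 21) (nat_lit 5) (nat_lit 23) (nat_lit 5) (nat_lit 24) (nat_lit 5) (nat_lit 345) (nat_lit 317) (nat_lit 238)) (XT.lf (nat_lit 0) (nat_lit 32216502312) (nat_lit 228) (nat_lit 10096885394) (nat_lit 76) (nat_lit 15803750119) (nat_lit 21) (nat_lit 5) (nat_lit 24) (nat_lit 5) (nat_lit 22) (nat_lit 4) (nat_lit 346) (nat_lit 317) (nat_lit 237)))) (XT.nd (nat_lit 156) (nat_lit 228) (nat_lit 0) (XT.nd (nat_lit 78) (nat_lit 0) (nat_lit 0) (XT.lf (nat_lit 0) (nat_lit 19985019215) (nat_lit 76) (nat_lit 26699767909) (nat_lit 152) (nat_lit 14659771317) (nat_lit 20) (nat_lit 5) (nat_lit 21) (nat_lit 5) (nat_lit 22) (nat_lit 4) (nat_lit 347) (nat_lit 317) (nat_lit 236)) (XT.lf (nat_lit 0) (nat_lit 53038269968) (nat_lit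 76) (nat_lit 9542901865) (nat_lit 152) (nat_lit 2227353748) (nat_lit 20) (nat_lit 5) (nat_lit 21) (nat_lit 5) (nat_lit 22) (nat_lit 4) (nat_lit 348) (nat_lit 317) (nat_lit 235))) (XT.nd (nat_lit 78) (nat_lit 76) (nat_lit 0) (XT.lf (nat_lit 0) (nat_lit 11374359418) (nat_lit 152) (nat_lit 47768151926) (nat_lit 76) (nat_lit 9326757531) (nat_lit 18) (nat_lit 5) (nat_lit 20) (nat_lit 5) (nat_lit 19) (nat_lit 4) (nat_lit 349) (nat_lit 317) (nat_lit 234)) (XT.nd (nat_lit 78) (nat_lit 76) (nat_lit 0) (XT.lf (nat_lit 0) (nat_lit 26516839770) (nat_lit 152) (nat_lit 16280707087) (nat_lit 76) (nat_lit 29574862352) (nat_lit 18) (nat_lit 5) (nat_lit 20) (nat_lit 5) (nat_lit 19) (nat_lit 4) (nat_lit 350) (nat_lit 317) (nat_lit 233)) (XT.lf (nat_lit 0) (nat_lit 18650283715) (nat_lit 76) (nat_lit 24664269891) (nat_lit 152) (nat_lit 33237743187) (nat_lit 17) (nat_lit 5) (nat_lit 18) (nat_lit 5) (nat_lit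 19) (nat_lit 4) (nat_lit 351) (nat_lit 317) (nat_lit 232))))))))
noncomputable def xc148 : XT := (XT.nd (nat_lit 1326) (nat_lit 304) (nat_lit 0) (XT.nd (nat_lit 624) (nat_lit 304) (nat_lit 0) (XT.nd (nat_lit 312) (nat_lit 152) (nat_lit 0) (XT.nd (nat_lit 156) (nat_lit 152) (nat_lit 0) (XT.nd (nat_lit 78) (nat_lit 76) (nat_lit 0) (XT.lf (nat_lit 0) (nat_lit 57293452645) (nat_lit 76) (nat_lit 4603221874) (nat_lit 152) (nat_lit 19134656283) (nat_lit 17) (nat_lit 5) (nat_lit 18) (nat_lit 5) (nat_lit 19) (nat_lit 4) (nat_lit 352) (nat_lit 317) (nat_lit 231)) (XT.lf (nat_lit 0) (nat_lit 13412106309) (nat_lit 76) (nat_lit 69281881546) (nat_lit 76) (nat_lit 3116412278) (nat_lit 16) (nat_lit 4) (nat_lit 17) (nat_lit 5) (nat_lit 17) (nat_lit 4) (nat_lit 353) (nat_lit 317) (nat_lit 230))) (XT.nd (nat_lit 78) (nat_lit 76) (nat_lit 0) (XT.lf (nat_lit 0) (nat_lit 14254970223) (nat_lit 152) (nat_lit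 36521198121) (nat_lit 76) (nat_lit 40105845294) (nat_lit 15) (nat_lit 5) (nat_lit 17) (nat_lit 5) (nat_lit 16) (nat_lit 4) (nat_lit 354) (nat_lit 317) (nat_lit 229)) (XT.lf (nat_lit 0) (nat_lit 2250398228) (nat_lit 76) (nat_lit 30647463277) (nat_lit 152) (nat_lit 63451007749) (nat_lit 14) (nat_lit 5) (nat_lit 15) (nat_lit 5) (nat_lit 16) (nat_lit 4) (nat_lit 355) (nat_lit 317) (nat_lit 228)))) (XT.nd (nat_lit 156) (nat_lit 152) (nat_lit 0) (XT.nd (nat_lit 78) (nat_lit 0) (nat_lit 0) (XT.lf (nat_lit 0) (nat_lit 46193604606) (nat_lit 76) (nat_lit 7833299102) (nat_lit 152) (nat_lit 48146593822) (nat_lit 14) (nat_lit 5) (nat_lit 15) (nat_lit 5) (nat_lit 16) (nat_lit 4) (nat_lit 356) (nat_lit 317) (nat_lit 227)) (XT.lf (nat_lit 0) (nat_lit 77246830388) (nat_lit 152) (nat_lit 15222809853) (nat_lit 0) (nat_lit 15962412588) (nat_lit 14) (nat_lit 5) (nat_lit 16) (nat_lit 4) (nat_lit 14) (nat_lit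 4) (nat_lit 357) (nat_lit 317) (nat_lit 226))) (XT.nd (nat_lit 78) (nat_lit 76) (nat_lit 0) (XT.lf (nat_lit 0) (nat_lit 30090324271) (nat_lit 76) (nat_lit 73157807118) (nat_lit 76) (nat_lit 11869260275) (nat_lit 13) (nat_lit 4) (nat_lit 14) (nat_lit 5) (nat_lit 14) (nat_lit 4) (nat_lit 358) (nat_lit 317) (nat_lit 225)) (XT.lf (nat_lit 0) (nat_lit 8965853130) (nat_lit 152) (nat_lit 42643395519) (nat_lit 76) (nat_lit 70677114524) (nat_lit 12) (nat_lit 5) (nat_lit 14) (nat_lit 5) (nat_lit 13) (nat_lit 4) (nat_lit 359) (nat_lit 317) (nat_lit 224))))) (XT.nd (nat_lit 312) (nat_lit 152) (nat_lit 0) (XT.nd (nat_lit 156) (nat_lit 76) (nat_lit 0) (XT.nd (nat_lit 78) (nat_lit 0) (nat_lit 0) (XT.lf (nat_lit 0) (nat_lit 2965163573) (nat_lit 76) (nat_lit 27929583346) (nat_lit 152) (nat_lit 99103985725) (nat_lit 11) (nat_lit 5) (nat_lit 12) (nat_lit 5) (nat_lit 13) (nat_lit 4) (nat_lit 360) (nat_lit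 317) (nat_lit 223)) (XT.lf (nat_lit 0) (nat_lit 54641879473) (nat_lit 76) (nat_lit 1099018247) (nat_lit 152) (nat_lit 82494159433) (nat_lit 11) (nat_lit 5) (nat_lit 12) (nat_lit 5) (nat_lit 13) (nat_lit 4) (nat_lit 361) (nat_lit 317) (nat_lit 222))) (XT.nd (nat_lit 78) (nat_lit 76) (nat_lit 0) (XT.lf (nat_lit 0) (nat_lit 83242368714) (nat_lit 152) (nat_lit 37353458354) (nat_lit 0) (nat_lit 26481051346) (nat_lit 11) (nat_lit 5) (nat_lit 13) (nat_lit 4) (nat_lit 11) (nat_lit 4) (nat_lit 362) (nat_lit 317) (nat_lit 221)) (XT.lf (nat_lit 0) (nat_lit 13212816952) (nat_lit 76) (nat_lit 100074826915) (nat_lit 76) (nat_lit 43310907550) (nat_lit 10) (nat_lit 4) (nat_lit 11) (nat_lit 5) (nat_lit 11) (nat_lit 4) (nat_lit 363) (nat_lit 317) (nat_lit 220)))) (XT.nd (nat_lit 156) (nat_lit 76) (nat_lit 0) (XT.nd (nat_lit 78) (nat_lit 76) (nat_lit 0) (XT.lf (nat_lit 0) (nat_lit 69943811754) (nat_lit 76)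 (nat_lit 76811487675) (nat_lit 76) (nat_lit 20045159053) (nat_lit 10) (nat_lit 4) (nat_lit 11) (nat_lit 5) (nat_lit 11) (nat_lit 4) (nat_lit 364) (nat_lit 317) (nat_lit 219)) (XT.lf (nat_lit 0) (nat_lit 4825210131) (nat_lit 152) (nat_lit 46732122341) (nat_lit 76) (nat_lit 126251602875) (nat_lit 9) (nat_lit 5) (nat_lit 11) (nat_lit 5) (nat_lit 10) (nat_lit 4) (nat_lit 365) (nat_lit 317) (nat_lit 218))) (XT.nd (nat_lit 78) (nat_lit 0) (nat_lit 0) (XT.lf (nat_lit 0) (nat_lit 7239535695) (nat_lit 76) (nat_lit 23534580006) (nat_lit 152) (nat_lit 158868573802) (nat_lit 8) (nat_lit 5) (nat_lit 9) (nat_lit 5) (nat_lit 10) (nat_lit 4) (nat_lit 366) (nat_lit 317) (nat_lit 217)) (XT.nd (nat_lit 78) (nat_lit 0) (nat_lit 0) (XT.lf (nat_lit 0) (nat_lit 60269488277) (nat_lit 152) (nat_lit 134333688089) (nat_lit 0) (nat_lit 7702323916) (nat_lit 8) (nat_lit 5) (nat_lit 10) (nat_lit 4) (nat_lit 8) (nat_lit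 4) (nat_lit 367) (nat_lit 317) (nat_lit 216)) (XT.lf (nat_lit 0) (nat_lit 92733714568) (nat_lit 152) (nat_lit 83033973543) (nat_lit 0) (nat_lit 40164910507) (nat_lit 8) (nat_lit 5) (nat_lit 10) (nat_lit 4) (nat_lit 8) (nat_lit 4) (nat_lit 368) (nat_lit 317) (nat_lit 215))))))) (XT.nd (nat_lit 624) (nat_lit 76) (nat_lit 0) (XT.nd (nat_lit 312) (nat_lit 152) (nat_lit 0) (XT.nd (nat_lit 156) (nat_lit 0) (nat_lit 0) (XT.nd (nat_lit 78) (nat_lit 76) (nat_lit 0) (XT.lf (nat_lit 0) (nat_lit 127793167958) (nat_lit 152) (nat_lit 27634004645) (nat_lit 0) (nat_lit 75222845656) (nat_lit 8) (nat_lit 5) (nat_lit 10) (nat_lit 4) (nat_lit 8) (nat_lit 4) (nat_lit 369) (nat_lit 317) (nat_lit 214)) (XT.lf (nat_lit 0) (nat_lit 33889820805) (nat_lit 76) (nat_lit 132580838372) (nat_lit 76) (nat_lit 80009110292) (nat_lit 7) (nat_lit 4) (nat_lit 8) (nat_lit 5) (nat_lit 8) (nat_lit 4) (nat_lit 370) (nat_lit 317)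 (nat_lit 213))) (XT.nd (nat_lit 78) (nat_lit 0) (nat_lit 0) (XT.lf (nat_lit 0) (nat_lit 101903762840) (nat_lit 76) (nat_lit 107092430332) (nat_lit 76) (nat_lit 54519400606) (nat_lit 7) (nat_lit 4) (nat_lit 8) (nat_lit 5) (nat_lit 8) (nat_lit 4) (nat_lit 371) (nat_lit 317) (nat_lit 212)) (XT.lf (nat_lit 0) (nat_lit 175355709328) (nat_lit 76) (nat_lit 79566468726) (nat_lit 76) (nat_lit 26992233771) (nat_lit 7) (nat_lit 4) (nat_lit 8) (nat_lit 5) (nat_lit 8) (nat_lit 4) (nat_lit 372) (nat_lit 317) (nat_lit 211)))) (XT.nd (nat_lit 156) (nat_lit 0) (nat_lit 0) (XT.nd (nat_lit 78) (nat_lit 76) (nat_lit 0) (XT.lf (nat_lit 0) (nat_lit 2598672666) (nat_lit 152) (nat_lit 47170111759) (nat_lit 76) (nat_lit 252011206081) (nat_lit 6) (nat_lit 5) (nat_lit 8) (nat_lit 5) (nat_lit 7) (nat_lit 4) (nat_lit 373) (nat_lit 317) (nat_lit 210)) (XT.lf (nat_lit 0) (nat_lit 17122252462) (nat_lit 76) (nat_lit 16386707469)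 (nat_lit 152) (nat_lit 289636936945) (nat_lit 5) (nat_lit 5) (nat_lit 6) (nat_lit 5) (nat_lit 7) (nat_lit 4) (nat_lit 374) (nat_lit 317) (nat_lit 209))) (XT.nd (nat_lit 78) (nat_lit 0) (nat_lit 0) (XT.lf (nat_lit 0) (nat_lit 68686857339) (nat_lit 152) (nat_lit 257386501527) (nat_lit 0) (nat_lit 20004134243) (nat_lit 5) (nat_lit 5) (nat_lit 7) (nat_lit 4) (nat_lit 5) (nat_lit 4) (nat_lit 375) (nat_lit 317) (nat_lit 208)) (XT.lf (nat_lit 0) (nat_lit 107103325873) (nat_lit 152) (nat_lit 205286561806) (nat_lit 0) (nat_lit 58419782518) (nat_lit 5) (nat_lit 5) (nat_lit 7) (nat_lit 4) (nat_lit 5) (nat_lit 4) (nat_lit 376) (nat_lit 317) (nat_lit 207))))) (XT.nd (nat_lit 312) (nat_lit 0) (nat_lit 0) (XT.nd (nat_lit 156) (nat_lit 76) (nat_lit 0) (XT.nd (nat_lit 78) (nat_lit 0) (nat_lit 0) (XT.lf (nat_lit 0) (nat_lit 148591917970) (nat_lit 152) (nat_lit 149020984160) (nat_lit 0) (nat_lit 99907615117)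 (nat_lit 5) (nat_lit 5) (nat_lit 7) (nat_lit 4) (nat_lit 5) (nat_lit 4) (nat_lit 377) (nat_lit 317) (nat_lit 206)) (XT.lf (nat_lit 0) (nat_lit 193398491954) (nat_lit 152) (nat_lit 88256342944) (nat_lit 0) (nat_lit 144713485862) (nat_lit 5) (nat_lit 5) (nat_lit 7) (nat_lit 4) (nat_lit 5) (nat_lit 4) (nat_lit 378) (nat_lit 317) (nat_lit 205))) (XT.nd (nat_lit 78) (nat_lit 76) (nat_lit 0) (XT.lf (nat_lit 0) (nat_lit 241788568264) (nat_lit 152) (nat_lit 22632551394) (nat_lit 0) (nat_lit 193102911024) (nat_lit 5) (nat_lit 5) (nat_lit 7) (nat_lit 4) (nat_lit 5) (nat_lit 4) (nat_lit 379) (nat_lit 317) (nat_lit 204)) (XT.lf (nat_lit 0) (nat_lit 50779466803) (nat_lit 76) (nat_lit 244490683501) (nat_lit 76) (nat_lit 195804423347) (nat_lit 4) (nat_lit 4) (nat_lit 5) (nat_lit 5) (nat_lit 5) (nat_lit 4) (nat_lit 380) (nat_lit 317) (nat_lit 203)))) (XT.nd (nat_lit 156) (nat_lit 0) (nat_lit 0) (XT.nd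 (nat_lit 78) (nat_lit 0) (nat_lit 0) (XT.lf (nat_lit 0) (nat_lit 131349755820) (nat_lit 76) (nat_lit 222298395720) (nat_lit 76) (nat_lit 173611577313) (nat_lit 4) (nat_lit 4) (nat_lit 5) (nat_lit 5) (nat_lit 5) (nat_lit 4) (nat_lit 381) (nat_lit 317) (nat_lit 202)) (XT.lf (nat_lit 0) (nat_lit 218363979171) (nat_lit 76) (nat_lit 198331560527) (nat_lit 76) (nat_lit 149644225218) (nat_lit 4) (nat_lit 4) (nat_lit 5) (nat_lit 5) (nat_lit 5) (nat_lit 4) (nat_lit 382) (nat_lit 317) (nat_lit 201))) (XT.nd (nat_lit 78) (nat_lit 0) (nat_lit 0) (XT.lf (nat_lit 0) (nat_lit 312337776700) (nat_lit 76) (nat_lit 172448152231) (nat_lit 76) (nat_lit 123760338309) (nat_lit 4) (nat_lit 4) (nat_lit 5) (nat_lit 5) (nat_lit 5) (nat_lit 4) (nat_lit 383) (nat_lit 317) (nat_lit 200)) (XT.nd (nat_lit 78) (nat_lit 0) (nat_lit 0) (XT.lf (nat_lit 0) (nat_lit 413828030169) (nat_lit 76) (nat_lit 144494787671) (nat_lit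 76) (nat_lit 95806530589) (nat_lit 4) (nat_lit 4) (nat_lit 5) (nat_lit 5) (nat_lit 5) (nat_lit 4) (nat_lit 384) (nat_lit 317) (nat_lit 199)) (XT.lf (nat_lit 0) (nat_lit 523436163302) (nat_lit 76) (nat_lit 114305817281) (nat_lit 76) (nat_lit 65617149866) (nat_lit 4) (nat_lit 4) (nat_lit 5) (nat_lit 5) (nat_lit 5) (nat_lit 4) (nat_lit 385) (nat_lit 317) (nat_lit 198))))))))
noncomputable def xc149 : XT := (XT.nd (nat_lit 1326) (nat_lit 76) (nat_lit 0) (XT.nd (nat_lit 624) (nat_lit 0) (nat_lit 0) (XT.nd (nat_lit 312) (nat_lit 0) (nat_lit 0) (XT.nd (nat_lit 156) (nat_lit 76) (nat_lit 0) (XT.nd (nat_lit 78) (nat_lit 76) (nat_lit 0) (XT.lf (nat_lit 0) (nat_lit 641811705778) (nat_lit 76) (nat_lit 81702343457) (nat_lit 76) (nat_lit 33013296104) (nat_lit 4) (nat_lit 4) (nat_lit 5) (nat_lit 5) (nat_lit 5) (nat_lit 4) (nat_lit 386) (nat_lit 317) (nat_lit 197)) (XT.lf (nat_lit 0) (nat_lit 2088273914)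 (nat_lit 152) (nat_lit 44345789406) (nat_lit 76) (nat_lit 767510771269) (nat_lit 3) (nat_lit 5) (nat_lit 5) (nat_lit 5) (nat_lit 4) (nat_lit 4) (nat_lit 387) (nat_lit 317) (nat_lit 196))) (XT.nd (nat_lit 78) (nat_lit 0) (nat_lit 0) (XT.lf (nat_lit 0) (nat_lit 32416680828) (nat_lit 76) (nat_lit 6576783456) (nat_lit 152) (nat_lit 836831334130) (nat_lit 2) (nat_lit 5) (nat_lit 3) (nat_lit 5) (nat_lit 4) (nat_lit 4) (nat_lit 388) (nat_lit 317) (nat_lit 195)) (XT.lf (nat_lit 0) (nat_lit 80971588672) (nat_lit 152) (nat_lit 825625698462) (nat_lit 0) (nat_lit 35888230810) (nat_lit 2) (nat_lit 5) (nat_lit 4) (nat_lit 4) (nat_lit 2) (nat_lit 4) (nat_lit 389) (nat_lit 317) (nat_lit 194)))) (XT.nd (nat_lit 156) (nat_lit 0) (nat_lit 0) (XT.nd (nat_lit 78) (nat_lit 0) (nat_lit 0) (XT.lf (nat_lit 0) (nat_lit 126478280024) (nat_lit 152) (nat_lit 806592526167) (nat_lit 0) (nat_lit 81394663582) (nat_lit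 2) (nat_lit 5) (nat_lit 4) (nat_lit 4) (nat_lit 2) (nat_lit 4) (nat_lit 390) (nat_lit 317) (nat_lit 193)) (XT.lf (nat_lit 0) (nat_lit 175625035820) (nat_lit 152) (nat_lit 786037639732) (nat_lit 0) (nat_lit 130541179953) (nat_lit 2) (nat_lit 5) (nat_lit 4) (nat_lit 4) (nat_lit 2) (nat_lit 4) (nat_lit 391) (nat_lit 317) (nat_lit 192))) (XT.nd (nat_lit 78) (nat_lit 0) (nat_lit 0) (XT.lf (nat_lit 0) (nat_lit 228703096096) (nat_lit 152) (nat_lit 763839232423) (nat_lit 0) (nat_lit 183619018539) (nat_lit 2) (nat_lit 5) (nat_lit 4) (nat_lit 4) (nat_lit 2) (nat_lit 4) (nat_lit 392) (nat_lit 317) (nat_lit 191)) (XT.lf (nat_lit 0) (nat_lit 286026997505) (nat_lit 152) (nat_lit 739865758121) (nat_lit 0) (nat_lit 240942714679) (nat_lit 2) (nat_lit 5) (nat_lit 4) (nat_lit 4) (nat_lit 2) (nat_lit 4) (nat_lit 393) (nat_lit 317) (nat_lit 190))))) (XT.nd (nat_lit 312) (nat_lit 0) (nat_lit 0) (XT.nd (nat_lit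 156) (nat_lit 0) (nat_lit 0) (XT.nd (nat_lit 78) (nat_lit 0) (nat_lit 0) (XT.lf (nat_lit 0) (nat_lit 347936437240) (nat_lit 152) (nat_lit 713975151795) (nat_lit 0) (nat_lit 302851964350) (nat_lit 2) (nat_lit 5) (nat_lit 4) (nat_lit 4) (nat_lit 2) (nat_lit 4) (nat_lit 394) (nat_lit 317) (nat_lit 189)) (XT.lf (nat_lit 0) (nat_lit 414798286055) (nat_lit 152) (nat_lit 686013987629) (nat_lit 0) (nat_lit 369713637180) (nat_lit 2) (nat_lit 5) (nat_lit 4) (nat_lit 4) (nat_lit 2) (nat_lit 4) (nat_lit 395) (nat_lit 317) (nat_lit 188))) (XT.nd (nat_lit 78) (nat_lit 0) (nat_lit 0) (XT.lf (nat_lit 0) (nat_lit 487008762314) (nat_lit 152) (nat_lit 655816569834) (nat_lit 0) (nat_lit 441923950490) (nat_lit 2) (nat_lit 5) (nat_lit 4) (nat_lit 4) (nat_lit 2) (nat_lit 4) (nat_lit 396) (nat_lit 317) (nat_lit 187)) (XT.lf (nat_lit 0) (nat_lit 564995779950) (nat_lit 152) (nat_lit 623203950751) (nat_lit 0) (nat_lit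 519910817247) (nat_lit 2) (nat_lit 5) (nat_lit 4) (nat_lit 4) (nat_lit 2) (nat_lit 4) (nat_lit 397) (nat_lit 317) (nat_lit 186)))) (XT.nd (nat_lit 156) (nat_lit 0) (nat_lit 0) (XT.nd (nat_lit 78) (nat_lit 0) (nat_lit 0) (XT.lf (nat_lit 0) (nat_lit 649221484253) (nat_lit 152) (nat_lit 587982870415) (nat_lit 0) (nat_lit 604136381848) (nat_lit 2) (nat_lit 5) (nat_lit 4) (nat_lit 4) (nat_lit 2) (nat_lit 4) (nat_lit 398) (nat_lit 317) (nat_lit 185)) (XT.lf (nat_lit 0) (nat_lit 740184990507) (nat_lit 152) (nat_lit 549944611311) (nat_lit 0) (nat_lit 695099758748) (nat_lit 2) (nat_lit 5) (nat_lit 4) (nat_lit 4) (nat_lit 2) (nat_lit 4) (nat_lit 399) (nat_lit 317) (nat_lit 184))) (XT.nd (nat_lit 78) (nat_lit 0) (nat_lit 0) (XT.lf (nat_lit 0) (nat_lit 838425341713) (nat_lit 152) (nat_lit 508863761535) (nat_lit 0) (nat_lit 793339990182) (nat_lit 2) (nat_lit 5) (nat_lit 4) (nat_lit 4) (nat_lit 2) (nat_lit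 4) (nat_lit 400) (nat_lit 317) (nat_lit 183)) (XT.nd (nat_lit 78) (nat_lit 0) (nat_lit 0) (XT.lf (nat_lit 0) (nat_lit 944524702915) (nat_lit 152) (nat_lit 464496879013) (nat_lit 0) (nat_lit 899439240483) (nat_lit 2) (nat_lit 5) (nat_lit 4) (nat_lit 4) (nat_lit 2) (nat_lit 4) (nat_lit 401) (nat_lit 317) (nat_lit 182)) (XT.lf (nat_lit 0) (nat_lit 1059111811067) (nat_lit 152) (nat_lit 416581048887) (nat_lit 0) (nat_lit 1014026245950) (nat_lit 2) (nat_lit 5) (nat_lit 4) (nat_lit 4) (nat_lit 2) (nat_lit 4) (nat_lit 402) (nat_lit 317) (nat_lit 181))))))) (XT.nd (nat_lit 40248) (nat_lit 0) (nat_lit 3724) (XT.nd (nat_lit 312) (nat_lit 76) (nat_lit 0) (XT.nd (nat_lit 156) (nat_lit 0) (nat_lit 0) (XT.nd (nat_lit 78) (nat_lit 0) (nat_lit 0) (XT.lf (nat_lit 0) (nat_lit 1182865700886) (nat_lit 152) (nat_lit 364832325496) (nat_lit 0) (nat_lit 1137780040689) (nat_lit 2) (nat_lit 5) (nat_lit 4) (nat_lit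 4) (nat_lit 2) (nat_lit 4) (nat_lit 403) (nat_lit 317) (nat_lit 180)) (XT.lf (nat_lit 0) (nat_lit 1316519728754) (nat_lit 152) (nat_lit 308944049738) (nat_lit 0) (nat_lit 1271433980522) (nat_lit 2) (nat_lit 5) (nat_lit 4) (nat_lit 4) (nat_lit 2) (nat_lit 4) (nat_lit 404) (nat_lit 317) (nat_lit 179))) (XT.nd (nat_lit 78) (nat_lit 0) (nat_lit 0) (XT.lf (nat_lit 0) (nat_lit 1460865918542) (nat_lit 152) (nat_lit 248585031832) (nat_lit 0) (nat_lit 1415780088794) (nat_lit 2) (nat_lit 5) (nat_lit 4) (nat_lit 4) (nat_lit 2) (nat_lit 4) (nat_lit 405) (nat_lit 317) (nat_lit 178)) (XT.lf (nat_lit 0) (nat_lit 1616759655077) (nat_lit 152) (nat_lit 183397588709) (nat_lit 0) (nat_lit 1571673749852) (nat_lit 2) (nat_lit 5) (nat_lit 4) (nat_lit 4) (nat_lit 2) (nat_lit 4) (nat_lit 406) (nat_lit 317) (nat_lit 177)))) (XT.nd (nat_lit 156) (nat_lit 76) (nat_lit 0) (XT.nd (nat_lit 78) (nat_lit 0) (nat_lit 0)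 (XT.lf (nat_lit 0) (nat_lit 1785124753094) (nat_lit 152) (nat_lit 112995424408) (nat_lit 0) (nat_lit 1740038777984) (nat_lit 2) (nat_lit 5) (nat_lit 4) (nat_lit 4) (nat_lit 2) (nat_lit 4) (nat_lit 407) (nat_lit 317) (nat_lit 176)) (XT.lf (nat_lit 0) (nat_lit 1966958931693) (nat_lit 152) (nat_lit 36961340920) (nat_lit 0) (nat_lit 1921872891873) (nat_lit 2) (nat_lit 5) (nat_lit 4) (nat_lit 4) (nat_lit 2) (nat_lit 4) (nat_lit 408) (nat_lit 317) (nat_lit 175))) (XT.nd (nat_lit 78) (nat_lit 0) (nat_lit 0) (XT.lf (nat_lit 0) (nat_lit 47533028707) (nat_lit 76) (nat_lit 2116949868523) (nat_lit 76) (nat_lit 2071863768787) (nat_lit 1) (nat_lit 4) (nat_lit 2) (nat_lit 5) (nat_lit 2) (nat_lit 4) (nat_lit 409) (nat_lit 317) (nat_lit 174)) (XT.nd (nat_lit 78) (nat_lit 0) (nat_lit 0) (XT.lf (nat_lit 0) (nat_lit 140888742923) (nat_lit 76) (nat_lit 2237930511033) (nat_lit 76) (nat_lit 2192844355819) (nat_lit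 1) (nat_lit 4) (nat_lit 2) (nat_lit 5) (nat_lit 2) (nat_lit 4) (nat_lit 410) (nat_lit 317) (nat_lit 173)) (XT.lf (nat_lit 0) (nat_lit 241712702061) (nat_lit 76) (nat_lit 2368589711032) (nat_lit 76) (nat_lit 2323503504450) (nat_lit 1) (nat_lit 4) (nat_lit 2) (nat_lit 5) (nat_lit 2) (nat_lit 4) (nat_lit 411) (nat_lit 317) (nat_lit 172)))))) (XT.nd (nat_lit 312) (nat_lit 304) (nat_lit 0) (XT.nd (nat_lit 156) (nat_lit 0) (nat_lit 76) (XT.nd (nat_lit 78) (nat_lit 0) (nat_lit 0) (XT.lf (nat_lit 0) (nat_lit 5278764568) (nat_lit 532) (nat_lit 1472239552) (nat_lit 532) (nat_lit 1472239552) (nat_lit 54) (nat_lit 3) (nat_lit 61) (nat_lit 3) (nat_lit 61) (nat_lit 5) (nat_lit 318) (nat_lit 318) (nat_lit 264)) (XT.lf (nat_lit 76) (nat_lit 5099778130) (nat_lit 0) (nat_lit 6231334548) (nat_lit 532) (nat_lit 5744713932) (nat_lit 55) (nat_lit 5) (nat_lit 54) (nat_lit 3) (nat_lit 61) (nat_lit 5) (nat_lit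 319) (nat_lit 318) (nat_lit 263))) (XT.nd (nat_lit 78) (nat_lit 0) (nat_lit 0) (XT.lf (nat_lit 0) (nat_lit 12265223123) (nat_lit 456) (nat_lit 3850283105) (nat_lit 532) (nat_lit 1632157352) (nat_lit 55) (nat_lit 5) (nat_lit 61) (nat_lit 5) (nat_lit 62) (nat_lit 5) (nat_lit 320) (nat_lit 318) (nat_lit 262)) (XT.lf (nat_lit 76) (nat_lit 4999756371) (nat_lit 0) (nat_lit 8535159549) (nat_lit 532) (nat_lit 4917501996) (nat_lit 56) (nat_lit 5) (nat_lit 55) (nat_lit 5) (nat_lit 62) (nat_lit 5) (nat_lit 321) (nat_lit 318) (nat_lit 261)))) (XT.nd (nat_lit 156) (nat_lit 380) (nat_lit 0) (XT.nd (nat_lit 78) (nat_lit 0) (nat_lit 76) (XT.lf (nat_lit 76) (nat_lit 14763081175) (nat_lit 0) (nat_lit 228377371) (nat_lit 532) (nat_lit 4215307925) (nat_lit 56) (nat_lit 5) (nat_lit 55) (nat_lit 5) (nat_lit 62) (nat_lit 5) (nat_lit 322) (nat_lit 318) (nat_lit 260)) (XT.lf (nat_lit 76) (nat_lit 5327937828) (nat_lit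 0) (nat_lit 11556614706) (nat_lit 532) (nat_lit 3111341307) (nat_lit 57) (nat_lit 5) (nat_lit 56) (nat_lit 5) (nat_lit 63) (nat_lit 5) (nat_lit 323) (nat_lit 318) (nat_lit 259))) (XT.nd (nat_lit 78) (nat_lit 456) (nat_lit 0) (XT.lf (nat_lit 76) (nat_lit 16113797462) (nat_lit 0) (nat_lit 2925224746) (nat_lit 532) (nat_lit 1800365654) (nat_lit 57) (nat_lit 5) (nat_lit 56) (nat_lit 5) (nat_lit 63) (nat_lit 5) (nat_lit 324) (nat_lit 318) (nat_lit 258)) (XT.nd (nat_lit 78) (nat_lit 76) (nat_lit 0) (XT.lf (nat_lit 0) (nat_lit 6151739032) (nat_lit 456) (nat_lit 15499909071) (nat_lit 532) (nat_lit 75877846) (nat_lit 51) (nat_lit 5) (nat_lit 57) (nat_lit 5) (nat_lit 58) (nat_lit 5) (nat_lit 325) (nat_lit 318) (nat_lit 257)) (XT.lf (nat_lit 0) (nat_lit 1890178927) (nat_lit 532) (nat_lit 4645479504) (nat_lit 76) (nat_lit 16132205163) (nat_lit 50) (nat_lit 5) (nat_lit 57) (nat_lit 5) (nat_lit 51)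 (nat_lit 5) (nat_lit 326) (nat_lit 318) (nat_lit 256))))))))
noncomputable def xc150 : XT := (XT.nd (nat_lit 1326) (nat_lit 988) (nat_lit 0) (XT.nd (nat_lit 624) (nat_lit 684) (nat_lit 0) (XT.nd (nat_lit 312) (nat_lit 684) (nat_lit 0) (XT.nd (nat_lit 156) (nat_lit 228) (nat_lit 0) (XT.nd (nat_lit 78) (nat_lit 0) (nat_lit 0) (XT.lf (nat_lit 0) (nat_lit 4256283460) (nat_lit 380) (nat_lit 16230653431) (nat_lit 76) (nat_lit 3176607259) (nat_lit 46) (nat_lit 5) (nat_lit 51) (nat_lit 5) (nat_lit 47) (nat_lit 5) (nat_lit 327) (nat_lit 318) (nat_lit 255)) (XT.lf (nat_lit 0) (nat_lit 7098093876) (nat_lit 380) (nat_lit 4174530421) (nat_lit 76) (nat_lit 13443362353) (nat_lit 46) (nat_lit 5) (nat_lit 51) (nat_lit 5) (nat_lit 47) (nat_lit 5) (nat_lit 328) (nat_lit 318) (nat_lit 254))) (XT.nd (nat_lit 78) (nat_lit 0) (nat_lit 0) (XT.lf (nat_lit 0) (nat_lit 9297788863) (nat_lit 228) (nat_lit 1080429170)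 (nat_lit 304) (nat_lit 15457548360) (nat_lit 43) (nat_lit 5) (nat_lit 46) (nat_lit 5) (nat_lit 47) (nat_lit 5) (nat_lit 329) (nat_lit 318) (nat_lit 253)) (XT.lf (nat_lit 0) (nat_lit 14264557786) (nat_lit 304) (nat_lit 3206428739) (nat_lit 76) (nat_lit 9546655457) (nat_lit 43) (nat_lit 5) (nat_lit 47) (nat_lit 5) (nat_lit 44) (nat_lit 5) (nat_lit 330) (nat_lit 318) (nat_lit 252)))) (XT.nd (nat_lit 156) (nat_lit 456) (nat_lit 0) (XT.nd (nat_lit 78) (nat_lit 0) (nat_lit 0) (XT.lf (nat_lit 0) (nat_lit 11737768584) (nat_lit 228) (nat_lit 7023239105) (nat_lit 304) (nat_lit 9509140285) (nat_lit 40) (nat_lit 5) (nat_lit 43) (nat_lit 5) (nat_lit 44) (nat_lit 5) (nat_lit 331) (nat_lit 318) (nat_lit 251)) (XT.lf (nat_lit 0) (nat_lit 23798900636) (nat_lit 304) (nat_lit 1674196464) (nat_lit 76) (nat_lit 4135234545) (nat_lit 40) (nat_lit 5) (nat_lit 44) (nat_lit 5) (nat_lit 41) (nat_lit 5) (nat_lit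 332) (nat_lit 318) (nat_lit 250))) (XT.nd (nat_lit 78) (nat_lit 304) (nat_lit 0) (XT.lf (nat_lit 0) (nat_lit 14924320565) (nat_lit 152) (nat_lit 14846967150) (nat_lit 228) (nat_lit 1239779504) (nat_lit 38) (nat_lit 5) (nat_lit 40) (nat_lit 5) (nat_lit 41) (nat_lit 5) (nat_lit 333) (nat_lit 318) (nat_lit 249)) (XT.lf (nat_lit 0) (nat_lit 337720797) (nat_lit 228) (nat_lit 3218241741) (nat_lit 304) (nat_lit 28959330897) (nat_lit 34) (nat_lit 5) (nat_lit 37) (nat_lit 5) (nat_lit 38) (nat_lit 5) (nat_lit 334) (nat_lit 318) (nat_lit 248))))) (XT.nd (nat_lit 312) (nat_lit 380) (nat_lit 0) (XT.nd (nat_lit 156) (nat_lit 152) (nat_lit 0) (XT.nd (nat_lit 78) (nat_lit 152) (nat_lit 0) (XT.lf (nat_lit 0) (nat_lit 9334934928) (nat_lit 304) (nat_lit 15394970253) (nat_lit 76) (nat_lit 9354063593) (nat_lit 34) (nat_lit 5) (nat_lit 38) (nat_lit 5) (nat_lit 35) (nat_lit 5) (nat_lit 335) (nat_lit 318) (nat_lit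 247)) (XT.lf (nat_lit 0) (nat_lit 2773307252) (nat_lit 152) (nat_lit 12944540611) (nat_lit 228) (nat_lit 20048970912) (nat_lit 32) (nat_lit 5) (nat_lit 34) (nat_lit 5) (nat_lit 35) (nat_lit 5) (nat_lit 336) (nat_lit 318) (nat_lit 246))) (XT.nd (nat_lit 78) (nat_lit 152) (nat_lit 0) (XT.lf (nat_lit 0) (nat_lit 23029659184) (nat_lit 228) (nat_lit 14298139905) (nat_lit 76) (nat_lit 223046141) (nat_lit 32) (nat_lit 5) (nat_lit 35) (nat_lit 5) (nat_lit 33) (nat_lit 5) (nat_lit 337) (nat_lit 318) (nat_lit 245)) (XT.lf (nat_lit 0) (nat_lit 5837195551) (nat_lit 152) (nat_lit 25558057491) (nat_lit 228) (nat_lit 8044842714) (nat_lit 30) (nat_lit 5) (nat_lit 32) (nat_lit 5) (nat_lit 33) (nat_lit 5) (nat_lit 338) (nat_lit 318) (nat_lit 244)))) (XT.nd (nat_lit 156) (nat_lit 152) (nat_lit 0) (XT.nd (nat_lit 78) (nat_lit 228) (nat_lit 0) (XT.lf (nat_lit 0) (nat_lit 28385351237) (nat_lit 152) (nat_lit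 12428217969) (nat_lit 228) (nat_lit 636247435) (nat_lit 30) (nat_lit 5) (nat_lit 32) (nat_lit 5) (nat_lit 33) (nat_lit 5) (nat_lit 339) (nat_lit 318) (nat_lit 243)) (XT.lf (nat_lit 0) (nat_lit 7268087976) (nat_lit 228) (nat_lit 34241754396) (nat_lit 76) (nat_lit 2074591085) (nat_lit 27) (nat_lit 5) (nat_lit 30) (nat_lit 5) (nat_lit 28) (nat_lit 5) (nat_lit 340) (nat_lit 318) (nat_lit 242))) (XT.nd (nat_lit 78) (nat_lit 152) (nat_lit 0) (XT.lf (nat_lit 0) (nat_lit 16452782765) (nat_lit 228) (nat_lit 11935378374) (nat_lit 76) (nat_lit 17445752083) (nat_lit 27) (nat_lit 5) (nat_lit 30) (nat_lit 5) (nat_lit 28) (nat_lit 5) (nat_lit 341) (nat_lit 318) (nat_lit 241)) (XT.nd (nat_lit 78) (nat_lit 0) (nat_lit 0) (XT.lf (nat_lit 0) (nat_lit 12784968071) (nat_lit 152) (nat_lit 13888367439) (nat_lit 228) (nat_lit 21565935368) (nat_lit 25) (nat_lit 5) (nat_lit 27) (nat_lit 5) (nat_lit 28) (nat_lit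 5) (nat_lit 342) (nat_lit 318) (nat_lit 240)) (XT.lf (nat_lit 0) (nat_lit 38082697758) (nat_lit 228) (nat_lit 10710561111) (nat_lit 76) (nat_lit 2014110705) (nat_lit 25) (nat_lit 5) (nat_lit 28) (nat_lit 5) (nat_lit 26) (nat_lit 4) (nat_lit 343) (nat_lit 318) (nat_lit 239))))))) (XT.nd (nat_lit 624) (nat_lit 456) (nat_lit 0) (XT.nd (nat_lit 312) (nat_lit 228) (nat_lit 0) (XT.nd (nat_lit 156) (nat_lit 152) (nat_lit 0) (XT.nd (nat_lit 78) (nat_lit 76) (nat_lit 0) (XT.lf (nat_lit 0) (nat_lit 16466156353) (nat_lit 76) (nat_lit 34689615923) (nat_lit 152) (nat_lit 2365072058) (nat_lit 24) (nat_lit 5) (nat_lit 25) (nat_lit 5) (nat_lit 26) (nat_lit 4) (nat_lit 344) (nat_lit 318) (nat_lit 238)) (XT.lf (nat_lit 0) (nat_lit 8676642357) (nat_lit 152) (nat_lit 10231202403) (nat_lit 76) (nat_lit 37503002868) (nat_lit 23) (nat_lit 5) (nat_lit 25) (nat_lit 5) (nat_lit 24) (nat_lit 5) (nat_lit 345) (nat_lit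 318) (nat_lit 237))) (XT.nd (nat_lit 78) (nat_lit 0) (nat_lit 0) (XT.lf (nat_lit 0) (nat_lit 19650900655) (nat_lit 152) (nat_lit 1290318469) (nat_lit 228) (nat_lit 38548537737) (nat_lit 21) (nat_lit 5) (nat_lit 23) (nat_lit 5) (nat_lit 24) (nat_lit 5) (nat_lit 346) (nat_lit 318) (nat_lit 236)) (XT.lf (nat_lit 0) (nat_lit 34895330133) (nat_lit 228) (nat_lit 10729955606) (nat_lit 76) (nat_lit 17133027490) (nat_lit 21) (nat_lit 5) (nat_lit 24) (nat_lit 5) (nat_lit 22) (nat_lit 4) (nat_lit 347) (nat_lit 318) (nat_lit 235)))) (XT.nd (nat_lit 156) (nat_lit 152) (nat_lit 0) (XT.nd (nat_lit 78) (nat_lit 0) (nat_lit 0) (XT.lf (nat_lit 0) (nat_lit 21754079077) (nat_lit 76) (nat_lit 28763574284) (nat_lit 152) (nat_lit 15726553638) (nat_lit 20) (nat_lit 5) (nat_lit 21) (nat_lit 5) (nat_lit 22) (nat_lit 4) (nat_lit 348) (nat_lit 318) (nat_lit 234)) (XT.lf (nat_lit 0) (nat_lit 57438978163) (nat_lit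 76) (nat_lit 10239505258) (nat_lit 152) (nat_lit 2307394470) (nat_lit 20) (nat_lit 5) (nat_lit 21) (nat_lit 5) (nat_lit 22) (nat_lit 4) (nat_lit 349) (nat_lit 318) (nat_lit 233))) (XT.nd (nat_lit 78) (nat_lit 0) (nat_lit 0) (XT.lf (nat_lit 0) (nat_lit 12376095368) (nat_lit 152) (nat_lit 51425482418) (nat_lit 76) (nat_lit 10137834488) (nat_lit 18) (nat_lit 5) (nat_lit 20) (nat_lit 5) (nat_lit 19) (nat_lit 4) (nat_lit 350) (nat_lit 318) (nat_lit 232)) (XT.lf (nat_lit 0) (nat_lit 28723175096) (nat_lit 152) (nat_lit 17431199153) (nat_lit 76) (nat_lit 32000977594) (nat_lit 18) (nat_lit 5) (nat_lit 20) (nat_lit 5) (nat_lit 19) (nat_lit 4) (nat_lit 351) (nat_lit 318) (nat_lit 231))))) (XT.nd (nat_lit 312) (nat_lit 228) (nat_lit 0) (XT.nd (nat_lit 156) (nat_lit 152) (nat_lit 0) (XT.nd (nat_lit 78) (nat_lit 0) (nat_lit 0) (XT.lf (nat_lit 0) (nat_lit 20290423711) (nat_lit 76) (nat_lit 26571549134)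 (nat_lit 152) (nat_lit 35807880025) (nat_lit 17) (nat_lit 5) (nat_lit 18) (nat_lit 5) (nat_lit 19) (nat_lit 4) (nat_lit 352) (nat_lit 318) (nat_lit 230)) (XT.lf (nat_lit 0) (nat_lit 62014074503) (nat_lit 76) (nat_lit 4910495969) (nat_lit 152) (nat_lit 20583130066) (nat_lit 17) (nat_lit 5) (nat_lit 18) (nat_lit 5) (nat_lit 19) (nat_lit 4) (nat_lit 353) (nat_lit 318) (nat_lit 229))) (XT.nd (nat_lit 78) (nat_lit 76) (nat_lit 0) (XT.lf (nat_lit 0) (nat_lit 14623300259) (nat_lit 76) (nat_lit 74761409331) (nat_lit 76) (nat_lit 3284465813) (nat_lit 16) (nat_lit 4) (nat_lit 17) (nat_lit 5) (nat_lit 17) (nat_lit 4) (nat_lit 354) (nat_lit 318) (nat_lit 228)) (XT.lf (nat_lit 0) (nat_lit 15466844249) (nat_lit 152) (nat_lit 39311108883) (nat_lit 76) (nat_lit 43368868741) (nat_lit 15) (nat_lit 5) (nat_lit 17) (nat_lit 5) (nat_lit 16) (nat_lit 4) (nat_lit 355) (nat_lit 318) (nat_lit 227)))) (XT.nd (nat_lit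 156) (nat_lit 152) (nat_lit 0) (XT.nd (nat_lit 78) (nat_lit 0) (nat_lit 0) (XT.lf (nat_lit 0) (nat_lit 2558878844) (nat_lit 76) (nat_lit 33040082637) (nat_lit 152) (nat_lit 68452243458) (nat_lit 14) (nat_lit 5) (nat_lit 15) (nat_lit 5) (nat_lit 16) (nat_lit 4) (nat_lit 356) (nat_lit 318) (nat_lit 226)) (XT.lf (nat_lit 0) (nat_lit 50008027009) (nat_lit 76) (nat_lit 8405168862) (nat_lit 152) (nat_lit 51929020485) (nat_lit 14) (nat_lit 5) (nat_lit 15) (nat_lit 5) (nat_lit 16) (nat_lit 4) (nat_lit 357) (nat_lit 318) (nat_lit 225))) (XT.nd (nat_lit 78) (nat_lit 152) (nat_lit 0) (XT.lf (nat_lit 0) (nat_lit 83487185770) (nat_lit 152) (nat_lit 16326952039) (nat_lit 0) (nat_lit 17287602949) (nat_lit 14) (nat_lit 5) (nat_lit 16) (nat_lit 4) (nat_lit 14) (nat_lit 4) (nat_lit 358) (nat_lit 318) (nat_lit 224)) (XT.nd (nat_lit 78) (nat_lit 76) (nat_lit 0) (XT.lf (nat_lit 0) (nat_lit 32608354774) (nat_lit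 76) (nat_lit 78958411377) (nat_lit 76) (nat_lit 12755288567) (nat_lit 13) (nat_lit 4) (nat_lit 14) (nat_lit 5) (nat_lit 14) (nat_lit 4) (nat_lit 359) (nat_lit 318) (nat_lit 223)) (XT.lf (nat_lit 0) (nat_lit 9738987469) (nat_lit 152) (nat_lit 45949306640) (nat_lit 76) (nat_lit 76376486936) (nat_lit 12) (nat_lit 5) (nat_lit 14) (nat_lit 5) (nat_lit 13) (nat_lit 4) (nat_lit 360) (nat_lit 318) (nat_lit 222))))))))
noncomputable def xc151 : XT := (XT.nd (nat_lit 1326) (nat_lit 228) (nat_lit 0) (XT.nd (nat_lit 624) (nat_lit 228) (nat_lit 0) (XT.nd (nat_lit 312) (nat_lit 152) (nat_lit 0) (XT.nd (nat_lit 156) (nat_lit 76) (nat_lit 0) (XT.nd (nat_lit 78) (nat_lit 0) (nat_lit 0) (XT.lf (nat_lit 0) (nat_lit 3305264761) (nat_lit 76) (nat_lit 30115264232) (nat_lit 152) (nat_lit 106973745803) (nat_lit 11) (nat_lit 5) (nat_lit 12) (nat_lit 5) (nat_lit 13) (nat_lit 4) (nat_lit 361) (nat_lit 318) (nat_lit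 221)) (XT.lf (nat_lit 0) (nat_lit 59108496593) (nat_lit 76) (nat_lit 1141860280) (nat_lit 152) (nat_lit 89039471096) (nat_lit 11) (nat_lit 5) (nat_lit 12) (nat_lit 5) (nat_lit 13) (nat_lit 4) (nat_lit 362) (nat_lit 318) (nat_lit 220))) (XT.nd (nat_lit 78) (nat_lit 76) (nat_lit 0) (XT.lf (nat_lit 0) (nat_lit 89949231818) (nat_lit 152) (nat_lit 40250793950) (nat_lit 0) (nat_lit 28639187650) (nat_lit 11) (nat_lit 5) (nat_lit 13) (nat_lit 4) (nat_lit 11) (nat_lit 4) (nat_lit 363) (nat_lit 318) (nat_lit 219)) (XT.lf (nat_lit 0) (nat_lit 14358481075) (nat_lit 76) (nat_lit 108038263110) (nat_lit 76) (nat_lit 46725988148) (nat_lit 10) (nat_lit 4) (nat_lit 11) (nat_lit 5) (nat_lit 11) (nat_lit 4) (nat_lit 364) (nat_lit 318) (nat_lit 218)))) (XT.nd (nat_lit 156) (nat_lit 76) (nat_lit 0) (XT.nd (nat_lit 78) (nat_lit 76) (nat_lit 0) (XT.lf (nat_lit 0) (nat_lit 75621389627) (nat_lit 76) (nat_lit 82917008579)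 (nat_lit 76) (nat_lit 21602668068) (nat_lit 10) (nat_lit 4) (nat_lit 11) (nat_lit 5) (nat_lit 11) (nat_lit 4) (nat_lit 365) (nat_lit 318) (nat_lit 217)) (XT.lf (nat_lit 0) (nat_lit 5251780104) (nat_lit 152) (nat_lit 50392550440) (nat_lit 76) (nat_lit 136386062604) (nat_lit 9) (nat_lit 5) (nat_lit 11) (nat_lit 5) (nat_lit 10) (nat_lit 4) (nat_lit 366) (nat_lit 318) (nat_lit 216))) (XT.nd (nat_lit 78) (nat_lit 0) (nat_lit 0) (XT.lf (nat_lit 0) (nat_lit 7894861969) (nat_lit 76) (nat_lit 25380563944) (nat_lit 152) (nat_lit 171535516445) (nat_lit 8) (nat_lit 5) (nat_lit 9) (nat_lit 5) (nat_lit 10) (nat_lit 4) (nat_lit 367) (nat_lit 318) (nat_lit 215)) (XT.lf (nat_lit 0) (nat_lit 65128330280) (nat_lit 152) (nat_lit 145007752484) (nat_lit 0) (nat_lit 8350863953) (nat_lit 8) (nat_lit 5) (nat_lit 10) (nat_lit 4) (nat_lit 8) (nat_lit 4) (nat_lit 368) (nat_lit 318) (nat_lit 214))))) (XT.nd (nat_lit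 312) (nat_lit 152) (nat_lit 0) (XT.nd (nat_lit 156) (nat_lit 76) (nat_lit 0) (XT.nd (nat_lit 78) (nat_lit 0) (nat_lit 0) (XT.lf (nat_lit 0) (nat_lit 100186932974) (nat_lit 152) (nat_lit 89609440822) (nat_lit 0) (nat_lit 43408060870) (nat_lit 8) (nat_lit 5) (nat_lit 10) (nat_lit 4) (nat_lit 8) (nat_lit 4) (nat_lit 369) (nat_lit 318) (nat_lit 213)) (XT.lf (nat_lit 0) (nat_lit 138048585506) (nat_lit 152) (nat_lit 29782455939) (nat_lit 0) (nat_lit 81268411756) (nat_lit 8) (nat_lit 5) (nat_lit 10) (nat_lit 4) (nat_lit 8) (nat_lit 4) (nat_lit 370) (nat_lit 318) (nat_lit 212))) (XT.nd (nat_lit 78) (nat_lit 0) (nat_lit 0) (XT.lf (nat_lit 0) (nat_lit 36661699115) (nat_lit 76) (nat_lit 143157668856) (nat_lit 76) (nat_lit 86376289877) (nat_lit 7) (nat_lit 4) (nat_lit 8) (nat_lit 5) (nat_lit 8) (nat_lit 4) (nat_lit 371) (nat_lit 318) (nat_lit 211)) (XT.lf (nat_lit 0) (nat_lit 110112260761) (nat_lit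 76) (nat_lit 115632383476) (nat_lit 76) (nat_lit 58849888545) (nat_lit 7) (nat_lit 4) (nat_lit 8) (nat_lit 5) (nat_lit 8) (nat_lit 4) (nat_lit 372) (nat_lit 318) (nat_lit 210)))) (XT.nd (nat_lit 156) (nat_lit 76) (nat_lit 0) (XT.nd (nat_lit 78) (nat_lit 76) (nat_lit 0) (XT.lf (nat_lit 0) (nat_lit 189436200235) (nat_lit 76) (nat_lit 85906377628) (nat_lit 76) (nat_lit 29122849408) (nat_lit 7) (nat_lit 4) (nat_lit 8) (nat_lit 5) (nat_lit 8) (nat_lit 4) (nat_lit 373) (nat_lit 318) (nat_lit 209)) (XT.lf (nat_lit 0) (nat_lit 2831866683) (nat_lit 152) (nat_lit 50894202266) (nat_lit 76) (nat_lit 272194290390) (nat_lit 6) (nat_lit 5) (nat_lit 8) (nat_lit 5) (nat_lit 7) (nat_lit 4) (nat_lit 374) (nat_lit 318) (nat_lit 208))) (XT.nd (nat_lit 78) (nat_lit 0) (nat_lit 0) (XT.lf (nat_lit 0) (nat_lit 18540297461) (nat_lit 76) (nat_lit 17673966148) (nat_lit 152) (nat_lit 312781332148) (nat_lit 5) (nat_lit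 5) (nat_lit 6) (nat_lit 5) (nat_lit 7) (nat_lit 4) (nat_lit 375) (nat_lit 318) (nat_lit 207)) (XT.nd (nat_lit 78) (nat_lit 0) (nat_lit 0) (XT.lf (nat_lit 0) (nat_lit 74205098833) (nat_lit 152) (nat_lit 277931432560) (nat_lit 0) (nat_lit 21625292253) (nat_lit 5) (nat_lit 5) (nat_lit 7) (nat_lit 4) (nat_lit 5) (nat_lit 4) (nat_lit 376) (nat_lit 318) (nat_lit 206)) (XT.lf (nat_lit 0) (nat_lit 115693159449) (nat_lit 152) (nat_lit 221666904261) (nat_lit 0) (nat_lit 63112649630) (nat_lit 5) (nat_lit 5) (nat_lit 7) (nat_lit 4) (nat_lit 5) (nat_lit 4) (nat_lit 377) (nat_lit 318) (nat_lit 205))))))) (XT.nd (nat_lit 702) (nat_lit 152) (nat_lit 0) (XT.nd (nat_lit 312) (nat_lit 0) (nat_lit 0) (XT.nd (nat_lit 156) (nat_lit 76) (nat_lit 0) (XT.nd (nat_lit 78) (nat_lit 0) (nat_lit 0) (XT.lf (nat_lit 0) (nat_lit 160499241321) (nat_lit 152) (nat_lit 160903234662) (nat_lit 0) (nat_lit 107918080355) (nat_lit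 5) (nat_lit 5) (nat_lit 7) (nat_lit 4) (nat_lit 5) (nat_lit 4) (nat_lit 378) (nat_lit 318) (nat_lit 204)) (XT.lf (nat_lit 0) (nat_lit 208888861971) (nat_lit 152) (nat_lit 95280342758) (nat_lit 0) (nat_lit 156307098091) (nat_lit 5) (nat_lit 5) (nat_lit 7) (nat_lit 4) (nat_lit 5) (nat_lit 4) (nat_lit 379) (nat_lit 318) (nat_lit 203))) (XT.nd (nat_lit 78) (nat_lit 76) (nat_lit 0) (XT.lf (nat_lit 0) (nat_lit 261148774706) (nat_lit 152) (nat_lit 24409352153) (nat_lit 0) (nat_lit 208566452572) (nat_lit 5) (nat_lit 5) (nat_lit 7) (nat_lit 4) (nat_lit 5) (nat_lit 4) (nat_lit 380) (nat_lit 318) (nat_lit 202)) (XT.lf (nat_lit 0) (nat_lit 54874771719) (nat_lit 76) (nat_lit 264033635759) (nat_lit 76) (nat_lit 211450796723) (nat_lit 4) (nat_lit 4) (nat_lit 5) (nat_lit 5) (nat_lit 5) (nat_lit 4) (nat_lit 381) (nat_lit 318) (nat_lit 201)))) (XT.nd (nat_lit 156) (nat_lit 0) (nat_lit 0) (XT.nd (nat_lit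 78) (nat_lit 0) (nat_lit 0) (XT.lf (nat_lit 0) (nat_lit 141888243297) (nat_lit 76) (nat_lit 240067172543) (nat_lit 76) (nat_lit 187483854895) (nat_lit 4) (nat_lit 4) (nat_lit 5) (nat_lit 5) (nat_lit 5) (nat_lit 4) (nat_lit 382) (nat_lit 318) (nat_lit 200)) (XT.lf (nat_lit 0) (nat_lit 235861344738) (nat_lit 76) (nat_lit 214184108670) (nat_lit 76) (nat_lit 161600347862) (nat_lit 4) (nat_lit 4) (nat_lit 5) (nat_lit 5) (nat_lit 5) (nat_lit 4) (nat_lit 383) (nat_lit 318) (nat_lit 199))) (XT.nd (nat_lit 78) (nat_lit 0) (nat_lit 0) (XT.lf (nat_lit 0) (nat_lit 337350953681) (nat_lit 76) (nat_lit 186231063021) (nat_lit 76) (nat_lit 133646891880) (nat_lit 4) (nat_lit 4) (nat_lit 5) (nat_lit 5) (nat_lit 5) (nat_lit 4) (nat_lit 384) (nat_lit 318) (nat_lit 198)) (XT.nd (nat_lit 78) (nat_lit 0) (nat_lit 0) (XT.lf (nat_lit 0) (nat_lit 446958490032) (nat_lit 76) (nat_lit 156042387918) (nat_lit 76) (nat_lit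 103457836839) (nat_lit 4) (nat_lit 4) (nat_lit 5) (nat_lit 5) (nat_lit 5) (nat_lit 4) (nat_lit 385) (nat_lit 318) (nat_lit 197)) (XT.lf (nat_lit 0) (nat_lit 565333479931) (nat_lit 76) (nat_lit 123439187509) (nat_lit 76) (nat_lit 70854284635) (nat_lit 4) (nat_lit 4) (nat_lit 5) (nat_lit 5) (nat_lit 5) (nat_lit 4) (nat_lit 386) (nat_lit 318) (nat_lit 196)))))) (XT.nd (nat_lit 312) (nat_lit 0) (nat_lit 0) (XT.nd (nat_lit 156) (nat_lit 76) (nat_lit 0) (XT.nd (nat_lit 78) (nat_lit 76) (nat_lit 0) (XT.lf (nat_lit 0) (nat_lit 693177404800) (nat_lit 76) (nat_lit 88228257643) (nat_lit 76) (nat_lit 35643029033) (nat_lit 4) (nat_lit 4) (nat_lit 5) (nat_lit 5) (nat_lit 5) (nat_lit 4) (nat_lit 387) (nat_lit 318) (nat_lit 195)) (XT.lf (nat_lit 0) (nat_lit 2265302446) (nat_lit 152) (nat_lit 47873701128) (nat_lit 76) (nat_lit 828920618438) (nat_lit 3) (nat_lit 5) (nat_lit 5) (nat_lit 5) (nat_lit 4) (nat_lit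 4) (nat_lit 388) (nat_lit 318) (nat_lit 194))) (XT.nd (nat_lit 78) (nat_lit 0) (nat_lit 0) (XT.lf (nat_lit 0) (nat_lit 35029266689) (nat_lit 76) (nat_lit 7093366085) (nat_lit 152) (nat_lit 903767372339) (nat_lit 2) (nat_lit 5) (nat_lit 3) (nat_lit 5) (nat_lit 4) (nat_lit 4) (nat_lit 389) (nat_lit 318) (nat_lit 193)) (XT.lf (nat_lit 0) (nat_lit 87458502125) (nat_lit 152) (nat_lit 891657422257) (nat_lit 0) (nat_lit 38767698363) (nat_lit 2) (nat_lit 5) (nat_lit 4) (nat_lit 4) (nat_lit 2) (nat_lit 4) (nat_lit 390) (nat_lit 318) (nat_lit 192)))) (XT.nd (nat_lit 156) (nat_lit 0) (nat_lit 0) (XT.nd (nat_lit 78) (nat_lit 0) (nat_lit 0) (XT.lf (nat_lit 0) (nat_lit 136605048313) (nat_lit 152) (nat_lit 871102954111) (nat_lit 0) (nat_lit 87914022861) (nat_lit 2) (nat_lit 5) (nat_lit 4) (nat_lit 4) (nat_lit 2) (nat_lit 4) (nat_lit 391) (nat_lit 318) (nat_lit 191)) (XT.lf (nat_lit 0) (nat_lit 189682914508)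 (nat_lit 152) (nat_lit 848904934105) (nat_lit 0) (nat_lit 140991683787) (nat_lit 2) (nat_lit 5) (nat_lit 4) (nat_lit 4) (nat_lit 2) (nat_lit 4) (nat_lit 392) (nat_lit 318) (nat_lit 190))) (XT.nd (nat_lit 78) (nat_lit 0) (nat_lit 0) (XT.lf (nat_lit 0) (nat_lit 247006636211) (nat_lit 152) (nat_lit 824931818419) (nat_lit 0) (nat_lit 198315215427) (nat_lit 2) (nat_lit 5) (nat_lit 4) (nat_lit 4) (nat_lit 2) (nat_lit 4) (nat_lit 393) (nat_lit 318) (nat_lit 189)) (XT.nd (nat_lit 78) (nat_lit 0) (nat_lit 0) (XT.lf (nat_lit 0) (nat_lit 308915909553) (nat_lit 152) (nat_lit 799041544143) (nat_lit 0) (nat_lit 260224312783) (nat_lit 2) (nat_lit 5) (nat_lit 4) (nat_lit 4) (nat_lit 2) (nat_lit 4) (nat_lit 394) (nat_lit 318) (nat_lit 188)) (XT.lf (nat_lit 0) (nat_lit 375777604300) (nat_lit 152) (nat_lit 771080687432) (nat_lit 0) (nat_lit 327085844582) (nat_lit 2) (nat_lit 5) (nat_lit 4) (nat_lit 4) (nat_lit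 2) (nat_lit 4) (nat_lit 395) (nat_lit 318) (nat_lit 187))))))))
noncomputable def xc152 : XT := (XT.nd (nat_lit 40950) (nat_lit 0) (nat_lit 2508) (XT.nd (nat_lit 624) (nat_lit 76) (nat_lit 0) (XT.nd (nat_lit 312) (nat_lit 0) (nat_lit 0) (XT.nd (nat_lit 156) (nat_lit 0) (nat_lit 0) (XT.nd (nat_lit 78) (nat_lit 0) (nat_lit 0) (XT.lf (nat_lit 0) (nat_lit 447987937904) (nat_lit 152) (nat_lit 740883554317) (nat_lit 0) (nat_lit 399296027306) (nat_lit 2) (nat_lit 5) (nat_lit 4) (nat_lit 4) (nat_lit 2) (nat_lit 4) (nat_lit 396) (nat_lit 318) (nat_lit 186)) (XT.lf (nat_lit 0) (nat_lit 525974823451) (nat_lit 152) (nat_lit 708271198827) (nat_lit 0) (nat_lit 477282773151) (nat_lit 2) (nat_lit 5) (nat_lit 4) (nat_lit 4) (nat_lit 2) (nat_lit 4) (nat_lit 397) (nat_lit 318) (nat_lit 185))) (XT.nd (nat_lit 78) (nat_lit 0) (nat_lit 0) (XT.lf (nat_lit 0) (nat_lit 610200405450) (nat_lit 152) (nat_lit 673050362558)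 (nat_lit 0) (nat_lit 561508225796) (nat_lit 2) (nat_lit 5) (nat_lit 4) (nat_lit 4) (nat_lit 2) (nat_lit 4) (nat_lit 398) (nat_lit 318) (nat_lit 184)) (XT.lf (nat_lit 0) (nat_lit 701163798459) (nat_lit 152) (nat_lit 635012329442) (nat_lit 0) (nat_lit 652471499033) (nat_lit 2) (nat_lit 5) (nat_lit 4) (nat_lit 4) (nat_lit 2) (nat_lit 4) (nat_lit 399) (nat_lit 318) (nat_lit 183)))) (XT.nd (nat_lit 156) (nat_lit 0) (nat_lit 0) (XT.nd (nat_lit 78) (nat_lit 0) (nat_lit 0) (XT.lf (nat_lit 0) (nat_lit 799404044809) (nat_lit 152) (nat_lit 593931688915) (nat_lit 0) (nat_lit 750711634483) (nat_lit 2) (nat_lit 5) (nat_lit 4) (nat_lit 4) (nat_lit 2) (nat_lit 4) (nat_lit 400) (nat_lit 318) (nat_lit 182)) (XT.lf (nat_lit 0) (nat_lit 905503308922) (nat_lit 152) (nat_lit 549565000142) (nat_lit 0) (nat_lit 856810795910) (nat_lit 2) (nat_lit 5) (nat_lit 4) (nat_lit 4) (nat_lit 2) (nat_lit 4) (nat_lit 401)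 (nat_lit 318) (nat_lit 181))) (XT.nd (nat_lit 78) (nat_lit 0) (nat_lit 0) (XT.lf (nat_lit 0) (nat_lit 1020090327177) (nat_lit 152) (nat_lit 501649349412) (nat_lit 0) (nat_lit 971397719086) (nat_lit 2) (nat_lit 5) (nat_lit 4) (nat_lit 4) (nat_lit 2) (nat_lit 4) (nat_lit 402) (nat_lit 318) (nat_lit 180)) (XT.lf (nat_lit 0) (nat_lit 1143844133758) (nat_lit 152) (nat_lit 449900792129) (nat_lit 0) (nat_lit 1095151437630) (nat_lit 2) (nat_lit 5) (nat_lit 4) (nat_lit 4) (nat_lit 2) (nat_lit 4) (nat_lit 403) (nat_lit 318) (nat_lit 179))))) (XT.nd (nat_lit 312) (nat_lit 76) (nat_lit 0) (XT.nd (nat_lit 156) (nat_lit 0) (nat_lit 0) (XT.nd (nat_lit 78) (nat_lit 0) (nat_lit 0) (XT.lf (nat_lit 0) (nat_lit 1277498084554) (nat_lit 152) (nat_lit 394012670176) (nat_lit 0) (nat_lit 1228805306911) (nat_lit 2) (nat_lit 5) (nat_lit 4) (nat_lit 4) (nat_lit 2) (nat_lit 4) (nat_lit 404) (nat_lit 318) (nat_lit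 178)) (XT.lf (nat_lit 0) (nat_lit 1421844202978) (nat_lit 152) (nat_lit 333653794681) (nat_lit 0) (nat_lit 1373151349859) (nat_lit 2) (nat_lit 5) (nat_lit 4) (nat_lit 4) (nat_lit 2) (nat_lit 4) (nat_lit 405) (nat_lit 318) (nat_lit 177))) (XT.nd (nat_lit 78) (nat_lit 0) (nat_lit 0) (XT.lf (nat_lit 0) (nat_lit 1577737873436) (nat_lit 152) (nat_lit 268466483419) (nat_lit 0) (nat_lit 1529044950430) (nat_lit 2) (nat_lit 5) (nat_lit 4) (nat_lit 4) (nat_lit 2) (nat_lit 4) (nat_lit 406) (nat_lit 318) (nat_lit 176)) (XT.lf (nat_lit 0) (nat_lit 1746102910271) (nat_lit 152) (nat_lit 198064441213) (nat_lit 0) (nat_lit 1697409922556) (nat_lit 2) (nat_lit 5) (nat_lit 4) (nat_lit 4) (nat_lit 2) (nat_lit 4) (nat_lit 407) (nat_lit 318) (nat_lit 175)))) (XT.nd (nat_lit 156) (nat_lit 76) (nat_lit 0) (XT.nd (nat_lit 78) (nat_lit 0) (nat_lit 0) (XT.lf (nat_lit 0) (nat_lit 1927937032219) (nat_lit 152) (nat_lit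 122030470775) (nat_lit 0) (nat_lit 1879243984588) (nat_lit 2) (nat_lit 5) (nat_lit 4) (nat_lit 4) (nat_lit 2) (nat_lit 4) (nat_lit 408) (nat_lit 318) (nat_lit 174)) (XT.lf (nat_lit 0) (nat_lit 2124317774819) (nat_lit 152) (nat_lit 39914000429) (nat_lit 0) (nat_lit 2075624671710) (nat_lit 2) (nat_lit 5) (nat_lit 4) (nat_lit 4) (nat_lit 2) (nat_lit 4) (nat_lit 409) (nat_lit 318) (nat_lit 173))) (XT.nd (nat_lit 78) (nat_lit 0) (nat_lit 0) (XT.lf (nat_lit 0) (nat_lit 51339811230) (nat_lit 76) (nat_lit 2286303788268) (nat_lit 76) (nat_lit 2237610633791) (nat_lit 1) (nat_lit 4) (nat_lit 2) (nat_lit 5) (nat_lit 2) (nat_lit 4) (nat_lit 410) (nat_lit 318) (nat_lit 172)) (XT.nd (nat_lit 39702) (nat_lit 0) (nat_lit 4028) (XT.lf (nat_lit 0) (nat_lit 152163675900) (nat_lit 76) (nat_lit 2416963035492) (nat_lit 76) (nat_lit 2368269833452) (nat_lit 1) (nat_lit 4) (nat_lit 2) (nat_lit 5) (nat_lit 2) (nat_lit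 4) (nat_lit 411) (nat_lit 318) (nat_lit 171)) (XT.lf (nat_lit 0) (nat_lit 5924199704) (nat_lit 532) (nat_lit 1469322574) (nat_lit 532) (nat_lit 1469322574) (nat_lit 54) (nat_lit 3) (nat_lit 61) (nat_lit 3) (nat_lit 61) (nat_lit 5) (nat_lit 319) (nat_lit 319) (nat_lit 262))))))) (XT.nd (nat_lit 624) (nat_lit 1216) (nat_lit 0) (XT.nd (nat_lit 312) (nat_lit 304) (nat_lit 0) (XT.nd (nat_lit 156) (nat_lit 0) (nat_lit 76) (XT.nd (nat_lit 78) (nat_lit 0) (nat_lit 76) (XT.lf (nat_lit 76) (nat_lit 5743041468) (nat_lit 0) (nat_lit 6913429796) (nat_lit 532) (nat_lit 5751157100) (nat_lit 55) (nat_lit 5) (nat_lit 54) (nat_lit 3) (nat_lit 61) (nat_lit 5) (nat_lit 320) (nat_lit 319) (nat_lit 261)) (XT.lf (nat_lit 0) (nat_lit 13630194922) (nat_lit 456) (nat_lit 3904638374) (nat_lit 532) (nat_lit 1601244158) (nat_lit 55) (nat_lit 5) (nat_lit 61) (nat_lit 5) (nat_lit 62) (nat_lit 5) (nat_lit 321) (nat_lit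 319) (nat_lit 260))) (XT.nd (nat_lit 78) (nat_lit 0) (nat_lit 0) (XT.lf (nat_lit 76) (nat_lit 5646982301) (nat_lit 0) (nat_lit 9332000882) (nat_lit 532) (nat_lit 4920079121) (nat_lit 56) (nat_lit 5) (nat_lit 55) (nat_lit 5) (nat_lit 62) (nat_lit 5) (nat_lit 322) (nat_lit 319) (nat_lit 259)) (XT.lf (nat_lit 76) (nat_lit 16173058613) (nat_lit 0) (nat_lit 352229569) (nat_lit 532) (nat_lit 4190659378) (nat_lit 56) (nat_lit 5) (nat_lit 55) (nat_lit 5) (nat_lit 62) (nat_lit 5) (nat_lit 323) (nat_lit 319) (nat_lit 258)))) (XT.nd (nat_lit 156) (nat_lit 456) (nat_lit 0) (XT.nd (nat_lit 78) (nat_lit 0) (nat_lit 0) (XT.lf (nat_lit 76) (nat_lit 6006450608) (nat_lit 0) (nat_lit 12542316474) (nat_lit 532) (nat_lit 3021167433) (nat_lit 57) (nat_lit 5) (nat_lit 56) (nat_lit 5) (nat_lit 63) (nat_lit 5) (nat_lit 324) (nat_lit 319) (nat_lit 257)) (XT.lf (nat_lit 76) (nat_lit 17636491771) (nat_lit 0) (nat_lit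 3215884015) (nat_lit 532) (nat_lit 1630430852) (nat_lit 57) (nat_lit 5) (nat_lit 56) (nat_lit 5) (nat_lit 63) (nat_lit 5) (nat_lit 325) (nat_lit 319) (nat_lit 256))) (XT.nd (nat_lit 78) (nat_lit 0) (nat_lit 0) (XT.lf (nat_lit 0) (nat_lit 203243693) (nat_lit 532) (nat_lit 16552500765) (nat_lit 76) (nat_lit 6687213422) (nat_lit 50) (nat_lit 5) (nat_lit 57) (nat_lit 5) (nat_lit 51) (nat_lit 5) (nat_lit 326) (nat_lit 319) (nat_lit 255)) (XT.lf (nat_lit 0) (nat_lit 2301663976) (nat_lit 532) (nat_lit 4769545407) (nat_lit 76) (nat_lit 17388853841) (nat_lit 50) (nat_lit 5) (nat_lit 57) (nat_lit 5) (nat_lit 51) (nat_lit 5) (nat_lit 327) (nat_lit 319) (nat_lit 254))))) (XT.nd (nat_lit 312) (nat_lit 684) (nat_lit 0) (XT.nd (nat_lit 156) (nat_lit 228) (nat_lit 0) (XT.nd (nat_lit 78) (nat_lit 0) (nat_lit 0) (XT.lf (nat_lit 0) (nat_lit 4843448909) (nat_lit 380) (nat_lit 17267547694) (nat_lit 76) (nat_lit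 3425520465) (nat_lit 46) (nat_lit 5) (nat_lit 51) (nat_lit 5) (nat_lit 47) (nat_lit 5) (nat_lit 328) (nat_lit 319) (nat_lit 253)) (XT.lf (nat_lit 0) (nat_lit 7894332842) (nat_lit 380) (nat_lit 4266309511) (nat_lit 76) (nat_lit 14514002291) (nat_lit 46) (nat_lit 5) (nat_lit 51) (nat_lit 5) (nat_lit 47) (nat_lit 5) (nat_lit 329) (nat_lit 319) (nat_lit 252))) (XT.nd (nat_lit 78) (nat_lit 0) (nat_lit 0) (XT.lf (nat_lit 0) (nat_lit 10277664092) (nat_lit 228) (nat_lit 1147962013) (nat_lit 304) (nat_lit 16459305825) (nat_lit 43) (nat_lit 5) (nat_lit 46) (nat_lit 5) (nat_lit 47) (nat_lit 5) (nat_lit 330) (nat_lit 319) (nat_lit 251)) (XT.lf (nat_lit 0) (nat_lit 15607208715) (nat_lit 304) (nat_lit 3228412193) (nat_lit 76) (nat_lit 10327013784) (nat_lit 43) (nat_lit 5) (nat_lit 47) (nat_lit 5) (nat_lit 44) (nat_lit 5) (nat_lit 331) (nat_lit 319) (nat_lit 250)))) (XT.nd (nat_lit 156) (nat_lit 456)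 (nat_lit 0) (XT.nd (nat_lit 78) (nat_lit 0) (nat_lit 0) (XT.lf (nat_lit 0) (nat_lit 12905383427) (nat_lit 228) (nat_lit 7548563948) (nat_lit 304) (nat_lit 10062170171) (nat_lit 40) (nat_lit 5) (nat_lit 43) (nat_lit 5) (nat_lit 44) (nat_lit 5) (nat_lit 332) (nat_lit 319) (nat_lit 249)) (XT.lf (nat_lit 0) (nat_lit 25881458724) (nat_lit 304) (nat_lit 1582801651) (nat_lit 76) (nat_lit 4498189135) (nat_lit 40) (nat_lit 5) (nat_lit 44) (nat_lit 5) (nat_lit 41) (nat_lit 5) (nat_lit 333) (nat_lit 319) (nat_lit 248))) (XT.nd (nat_lit 78) (nat_lit 304) (nat_lit 0) (XT.lf (nat_lit 0) (nat_lit 16337892170) (nat_lit 152) (nat_lit 15985793570) (nat_lit 228) (nat_lit 1154373310) (nat_lit 38) (nat_lit 5) (nat_lit 40) (nat_lit 5) (nat_lit 41) (nat_lit 5) (nat_lit 334) (nat_lit 319) (nat_lit 247)) (XT.nd (nat_lit 78) (nat_lit 0) (nat_lit 0) (XT.lf (nat_lit 0) (nat_lit 588019112) (nat_lit 228) (nat_lit 3420155787)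 (nat_lit 304) (nat_lit 31094719182) (nat_lit 34) (nat_lit 5) (nat_lit 37) (nat_lit 5) (nat_lit 38) (nat_lit 5) (nat_lit 335) (nat_lit 319) (nat_lit 246)) (XT.lf (nat_lit 0) (nat_lit 10238277150) (nat_lit 304) (nat_lit 16408449711) (nat_lit 76) (nat_lit 10151246729) (nat_lit 34) (nat_lit 5) (nat_lit 38) (nat_lit 5) (nat_lit 35) (nat_lit 5) (nat_lit 336) (nat_lit 319) (nat_lit 245))))))))
noncomputable def xc153 : XT := (XT.nd (nat_lit 1326) (nat_lit 684) (nat_lit 0) (XT.nd (nat_lit 624) (nat_lit 608) (nat_lit 0) (XT.nd (nat_lit 312) (nat_lit 380) (nat_lit 0) (XT.nd (nat_lit 156) (nat_lit 152) (nat_lit 0) (XT.nd (nat_lit 78) (nat_lit 0) (nat_lit 0) (XT.lf (nat_lit 0) (nat_lit 3207768015) (nat_lit 152) (nat_lit 13917571942) (nat_lit 228) (nat_lit 21490644280) (nat_lit 32) (nat_lit 5) (nat_lit 34) (nat_lit 5) (nat_lit 35) (nat_lit 5) (nat_lit 337) (nat_lit 319) (nat_lit 244)) (XT.lf (nat_lit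 0) (nat_lit 25012372807) (nat_lit 228) (nat_lit 15235257460) (nat_lit 76) (nat_lit 295893368) (nat_lit 32) (nat_lit 5) (nat_lit 35) (nat_lit 5) (nat_lit 33) (nat_lit 5) (nat_lit 338) (nat_lit 319) (nat_lit 243))) (XT.nd (nat_lit 78) (nat_lit 0) (nat_lit 0) (XT.lf (nat_lit 0) (nat_lit 6505671069) (nat_lit 152) (nat_lit 27535993561) (nat_lit 228) (nat_lit 8542705532) (nat_lit 30) (nat_lit 5) (nat_lit 32) (nat_lit 5) (nat_lit 33) (nat_lit 5) (nat_lit 339) (nat_lit 319) (nat_lit 242)) (XT.lf (nat_lit 0) (nat_lit 30842753293) (nat_lit 152) (nat_lit 13360708249) (nat_lit 228) (nat_lit 552217046) (nat_lit 30) (nat_lit 5) (nat_lit 32) (nat_lit 5) (nat_lit 33) (nat_lit 5) (nat_lit 340) (nat_lit 319) (nat_lit 241)))) (XT.nd (nat_lit 156) (nat_lit 152) (nat_lit 0) (XT.nd (nat_lit 78) (nat_lit 0) (nat_lit 0) (XT.lf (nat_lit 0) (nat_lit 7974326638) (nat_lit 228) (nat_lit 36784134641) (nat_lit 76) (nat_lit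 2302624493) (nat_lit 27) (nat_lit 5) (nat_lit 30) (nat_lit 5) (nat_lit 28) (nat_lit 5) (nat_lit 341) (nat_lit 319) (nat_lit 240)) (XT.lf (nat_lit 0) (nat_lit 17884553186) (nat_lit 228) (nat_lit 12707838175) (nat_lit 76) (nat_lit 18898880880) (nat_lit 27) (nat_lit 5) (nat_lit 30) (nat_lit 5) (nat_lit 28) (nat_lit 5) (nat_lit 342) (nat_lit 319) (nat_lit 239))) (XT.nd (nat_lit 78) (nat_lit 0) (nat_lit 0) (XT.lf (nat_lit 0) (nat_lit 13985519012) (nat_lit 152) (nat_lit 14932947018) (nat_lit 228) (nat_lit 23170943373) (nat_lit 25) (nat_lit 5) (nat_lit 27) (nat_lit 5) (nat_lit 28) (nat_lit 5) (nat_lit 343) (nat_lit 319) (nat_lit 238)) (XT.lf (nat_lit 0) (nat_lit 41233816135) (nat_lit 228) (nat_lit 11395963816) (nat_lit 76) (nat_lit 2233724494) (nat_lit 25) (nat_lit 5) (nat_lit 28) (nat_lit 5) (nat_lit 26) (nat_lit 4) (nat_lit 344) (nat_lit 319) (nat_lit 237))))) (XT.nd (nat_lit 312) (nat_lit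 304) (nat_lit 0) (XT.nd (nat_lit 156) (nat_lit 152) (nat_lit 0) (XT.nd (nat_lit 78) (nat_lit 76) (nat_lit 0) (XT.lf (nat_lit 0) (nat_lit 17950550737) (nat_lit 76) (nat_lit 37398463751) (nat_lit 152) (nat_lit 2445347466) (nat_lit 24) (nat_lit 5) (nat_lit 25) (nat_lit 5) (nat_lit 26) (nat_lit 4) (nat_lit 345) (nat_lit 319) (nat_lit 236)) (XT.lf (nat_lit 0) (nat_lit 9466589690) (nat_lit 152) (nat_lit 10889854127) (nat_lit 76) (nat_lit 40559531335) (nat_lit 23) (nat_lit 5) (nat_lit 25) (nat_lit 5) (nat_lit 24) (nat_lit 5) (nat_lit 346) (nat_lit 319) (nat_lit 235))) (XT.nd (nat_lit 78) (nat_lit 0) (nat_lit 0) (XT.lf (nat_lit 0) (nat_lit 21378770480) (nat_lit 152) (nat_lit 1330211581) (nat_lit 228) (nat_lit 41532488662) (nat_lit 21) (nat_lit 5) (nat_lit 23) (nat_lit 5) (nat_lit 24) (nat_lit 5) (nat_lit 347) (nat_lit 319) (nat_lit 234)) (XT.lf (nat_lit 0) (nat_lit 37773982981) (nat_lit 228) (nat_lit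 11438591578) (nat_lit 76) (nat_lit 18559377304) (nat_lit 21) (nat_lit 5) (nat_lit 24) (nat_lit 5) (nat_lit 22) (nat_lit 4) (nat_lit 348) (nat_lit 319) (nat_lit 233)))) (XT.nd (nat_lit 156) (nat_lit 228) (nat_lit 0) (XT.nd (nat_lit 78) (nat_lit 0) (nat_lit 0) (XT.lf (nat_lit 0) (nat_lit 23640374476) (nat_lit 76) (nat_lit 31002781749) (nat_lit 152) (nat_lit 16893800542) (nat_lit 20) (nat_lit 5) (nat_lit 21) (nat_lit 5) (nat_lit 22) (nat_lit 4) (nat_lit 349) (nat_lit 319) (nat_lit 232)) (XT.lf (nat_lit 0) (nat_lit 62169252964) (nat_lit 76) (nat_lit 11001370791) (nat_lit 152) (nat_lit 2407840298) (nat_lit 20) (nat_lit 5) (nat_lit 21) (nat_lit 5) (nat_lit 22) (nat_lit 4) (nat_lit 350) (nat_lit 319) (nat_lit 231))) (XT.nd (nat_lit 78) (nat_lit 76) (nat_lit 0) (XT.lf (nat_lit 0) (nat_lit 13444875724) (nat_lit 152) (nat_lit 55398813140) (nat_lit 76) (nat_lit 11004533704) (nat_lit 18) (nat_lit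 5) (nat_lit 20) (nat_lit 5) (nat_lit 19) (nat_lit 4) (nat_lit 351) (nat_lit 319) (nat_lit 230)) (XT.nd (nat_lit 78) (nat_lit 76) (nat_lit 0) (XT.lf (nat_lit 0) (nat_lit 31093892740) (nat_lit 152) (nat_lit 18695410019) (nat_lit 76) (nat_lit 34612604373) (nat_lit 18) (nat_lit 5) (nat_lit 20) (nat_lit 5) (nat_lit 19) (nat_lit 4) (nat_lit 352) (nat_lit 319) (nat_lit 229)) (XT.lf (nat_lit 0) (nat_lit 22040644318) (nat_lit 76) (nat_lit 28640806718) (nat_lit 152) (nat_lit 38596307909) (nat_lit 17) (nat_lit 5) (nat_lit 18) (nat_lit 5) (nat_lit 19) (nat_lit 4) (nat_lit 353) (nat_lit 319) (nat_lit 228))))))) (XT.nd (nat_lit 624) (nat_lit 304) (nat_lit 0) (XT.nd (nat_lit 312) (nat_lit 152) (nat_lit 0) (XT.nd (nat_lit 156) (nat_lit 152) (nat_lit 0) (XT.nd (nat_lit 78) (nat_lit 76) (nat_lit 0) (XT.lf (nat_lit 0) (nat_lit 67092780750) (nat_lit 76) (nat_lit 5251051992) (nat_lit 152) (nat_lit 22159222585)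 (nat_lit 17) (nat_lit 5) (nat_lit 18) (nat_lit 5) (nat_lit 19) (nat_lit 4) (nat_lit 354) (nat_lit 319) (nat_lit 227)) (XT.lf (nat_lit 0) (nat_lit 15911670319) (nat_lit 76) (nat_lit 80688290236) (nat_lit 76) (nat_lit 3477556199) (nat_lit 16) (nat_lit 4) (nat_lit 17) (nat_lit 5) (nat_lit 17) (nat_lit 4) (nat_lit 355) (nat_lit 319) (nat_lit 226))) (XT.nd (nat_lit 78) (nat_lit 76) (nat_lit 0) (XT.lf (nat_lit 0) (nat_lit 16765471289) (nat_lit 152) (nat_lit 42343013121) (nat_lit 76) (nat_lit 46885151065) (nat_lit 15) (nat_lit 5) (nat_lit 17) (nat_lit 5) (nat_lit 16) (nat_lit 4) (nat_lit 356) (nat_lit 319) (nat_lit 225)) (XT.lf (nat_lit 0) (nat_lit 2873713257) (nat_lit 76) (nat_lit 35632553907) (nat_lit 152) (nat_lit 73864255488) (nat_lit 14) (nat_lit 5) (nat_lit 15) (nat_lit 5) (nat_lit 16) (nat_lit 4) (nat_lit 357) (nat_lit 319) (nat_lit 224)))) (XT.nd (nat_lit 156) (nat_lit 152) (nat_lit 0)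 (XT.nd (nat_lit 78) (nat_lit 0) (nat_lit 0) (XT.lf (nat_lit 0) (nat_lit 54110635934) (nat_lit 76) (nat_lit 9030605203) (nat_lit 152) (nat_lit 56023927821) (nat_lit 14) (nat_lit 5) (nat_lit 15) (nat_lit 5) (nat_lit 16) (nat_lit 4) (nat_lit 358) (nat_lit 319) (nat_lit 223)) (XT.lf (nat_lit 0) (nat_lit 90218123038) (nat_lit 152) (nat_lit 17535643695) (nat_lit 0) (nat_lit 18711932647) (nat_lit 14) (nat_lit 5) (nat_lit 16) (nat_lit 4) (nat_lit 14) (nat_lit 4) (nat_lit 359) (nat_lit 319) (nat_lit 222))) (XT.nd (nat_lit 78) (nat_lit 76) (nat_lit 0) (XT.lf (nat_lit 0) (nat_lit 35312020208) (nat_lit 76) (nat_lit 85230485256) (nat_lit 76) (nat_lit 13721259896) (nat_lit 13) (nat_lit 4) (nat_lit 14) (nat_lit 5) (nat_lit 14) (nat_lit 4) (nat_lit 360) (nat_lit 319) (nat_lit 221)) (XT.lf (nat_lit 0) (nat_lit 10566002633) (nat_lit 152) (nat_lit 49534750039) (nat_lit 76) (nat_lit 82525360391) (nat_lit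 12) (nat_lit 5) (nat_lit 14) (nat_lit 5) (nat_lit 13) (nat_lit 4) (nat_lit 361) (nat_lit 319) (nat_lit 220))))) (XT.nd (nat_lit 312) (nat_lit 152) (nat_lit 0) (XT.nd (nat_lit 156) (nat_lit 76) (nat_lit 0) (XT.nd (nat_lit 78) (nat_lit 0) (nat_lit 0) (XT.lf (nat_lit 0) (nat_lit 3657895907) (nat_lit 76) (nat_lit 32482745161) (nat_lit 152) (nat_lit 115481440752) (nat_lit 11) (nat_lit 5) (nat_lit 12) (nat_lit 5) (nat_lit 13) (nat_lit 4) (nat_lit 362) (nat_lit 319) (nat_lit 219)) (XT.lf (nat_lit 0) (nat_lit 63918852213) (nat_lit 76) (nat_lit 1194560760) (nat_lit 152) (nat_lit 96116142936) (nat_lit 11) (nat_lit 5) (nat_lit 12) (nat_lit 5) (nat_lit 13) (nat_lit 4) (nat_lit 363) (nat_lit 319) (nat_lit 218))) (XT.nd (nat_lit 78) (nat_lit 76) (nat_lit 0) (XT.lf (nat_lit 0) (nat_lit 97185871330) (nat_lit 152) (nat_lit 43392890154) (nat_lit 0) (nat_lit 30964318028) (nat_lit 11) (nat_lit 5) (nat_lit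 13) (nat_lit 4) (nat_lit 11) (nat_lit 4) (nat_lit 364) (nat_lit 319) (nat_lit 217)) (XT.lf (nat_lit 0) (nat_lit 15583153017) (nat_lit 76) (nat_lit 116644844427) (nat_lit 76) (nat_lit 50421378580) (nat_lit 10) (nat_lit 4) (nat_lit 11) (nat_lit 5) (nat_lit 11) (nat_lit 4) (nat_lit 365) (nat_lit 319) (nat_lit 216)))) (XT.nd (nat_lit 156) (nat_lit 76) (nat_lit 0) (XT.nd (nat_lit 78) (nat_lit 76) (nat_lit 0) (XT.lf (nat_lit 0) (nat_lit 81741465108) (nat_lit 76) (nat_lit 89516591736) (nat_lit 76) (nat_lit 23291355014) (nat_lit 10) (nat_lit 4) (nat_lit 11) (nat_lit 5) (nat_lit 11) (nat_lit 4) (nat_lit 366) (nat_lit 319) (nat_lit 215)) (XT.lf (nat_lit 0) (nat_lit 5706690312) (nat_lit 152) (nat_lit 54356960572) (nat_lit 76) (nat_lit 147326381338) (nat_lit 9) (nat_lit 5) (nat_lit 11) (nat_lit 5) (nat_lit 10) (nat_lit 4) (nat_lit 367) (nat_lit 319) (nat_lit 214))) (XT.nd (nat_lit 78) (nat_lit 0)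 (nat_lit 0) (XT.lf (nat_lit 0) (nat_lit 8591748782) (nat_lit 76) (nat_lit 27379474027) (nat_lit 152) (nat_lit 185221883770) (nat_lit 8) (nat_lit 5) (nat_lit 9) (nat_lit 5) (nat_lit 10) (nat_lit 4) (nat_lit 368) (nat_lit 319) (nat_lit 213)) (XT.nd (nat_lit 78) (nat_lit 0) (nat_lit 0) (XT.lf (nat_lit 0) (nat_lit 70370560814) (nat_lit 152) (nat_lit 156546103604) (nat_lit 0) (nat_lit 9046671517) (nat_lit 8) (nat_lit 5) (nat_lit 10) (nat_lit 4) (nat_lit 8) (nat_lit 4) (nat_lit 369) (nat_lit 319) (nat_lit 212)) (XT.lf (nat_lit 0) (nat_lit 108231484012) (nat_lit 152) (nat_lit 96720539534) (nat_lit 0) (nat_lit 46906389486) (nat_lit 8) (nat_lit 5) (nat_lit 10) (nat_lit 4) (nat_lit 8) (nat_lit 4) (nat_lit 370) (nat_lit 319) (nat_lit 211))))))))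
noncomputable def xc154 : XT := (XT.nd (nat_lit 1326) (nat_lit 152) (nat_lit 0) (XT.nd (nat_lit 624) (nat_lit 76) (nat_lit 0) (XT.nd (nat_lit 312) (nat_lit 152) (nat_lit 0) (XT.nd (nat_lit 156) (nat_lit 0) (nat_lit 0) (XT.nd (nat_lit 78) (nat_lit 76) (nat_lit 0) (XT.lf (nat_lit 0) (nat_lit 149119876421) (nat_lit 152) (nat_lit 32111666716) (nat_lit 0) (nat_lit 87793665943) (nat_lit 8) (nat_lit 5) (nat_lit 10) (nat_lit 4) (nat_lit 8) (nat_lit 4) (nat_lit 371) (nat_lit 319) (nat_lit 210)) (XT.lf (nat_lit 0) (nat_lit 39646669205) (nat_lit 76) (nat_lit 154584873768) (nat_lit 76) (nat_lit 93257630002) (nat_lit 7) (nat_lit 4) (nat_lit 8) (nat_lit 5) (nat_lit 8) (nat_lit 4) (nat_lit 372) (nat_lit 319) (nat_lit 209))) (XT.nd (nat_lit 78) (nat_lit 0) (nat_lit 0) (XT.lf (nat_lit 0) (nat_lit 118969421401) (nat_lit 76) (nat_lit 124859447676) (nat_lit 76) (nat_lit 63531247161) (nat_lit 7) (nat_lit 4)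 (nat_lit 8) (nat_lit 5) (nat_lit 8) (nat_lit 4) (nat_lit 373) (nat_lit 319) (nat_lit 208)) (XT.lf (nat_lit 0) (nat_lit 204635707161) (nat_lit 76) (nat_lit 92757104063) (nat_lit 76) (nat_lit 31428017668) (nat_lit 7) (nat_lit 4) (nat_lit 8) (nat_lit 5) (nat_lit 8) (nat_lit 4) (nat_lit 374) (nat_lit 319) (nat_lit 207)))) (XT.nd (nat_lit 156) (nat_lit 0) (nat_lit 0) (XT.nd (nat_lit 78) (nat_lit 76) (nat_lit 0) (XT.lf (nat_lit 0) (nat_lit 3080106865) (nat_lit 152) (nat_lit 54923284372) (nat_lit 76) (nat_lit 293988856103) (nat_lit 6) (nat_lit 5) (nat_lit 8) (nat_lit 5) (nat_lit 7) (nat_lit 4) (nat_lit 375) (nat_lit 319) (nat_lit 206)) (XT.lf (nat_lit 0) (nat_lit 20064900547) (nat_lit 76) (nat_lit 19067583442) (nat_lit 152) (nat_lit 337781068014) (nat_lit 5) (nat_lit 5) (nat_lit 6) (nat_lit 5) (nat_lit 7) (nat_lit 4) (nat_lit 376) (nat_lit 319) (nat_lit 205))) (XT.nd (nat_lit 78) (nat_lit 0)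 (nat_lit 0) (XT.lf (nat_lit 0) (nat_lit 80161476652) (nat_lit 152) (nat_lit 300126518933) (nat_lit 0) (nat_lit 23373171662) (nat_lit 5) (nat_lit 5) (nat_lit 7) (nat_lit 4) (nat_lit 5) (nat_lit 4) (nat_lit 377) (nat_lit 319) (nat_lit 204)) (XT.lf (nat_lit 0) (nat_lit 124967102865) (nat_lit 152) (nat_lit 239363748980) (nat_lit 0) (nat_lit 68178194960) (nat_lit 5) (nat_lit 5) (nat_lit 7) (nat_lit 4) (nat_lit 5) (nat_lit 4) (nat_lit 378) (nat_lit 319) (nat_lit 203))))) (XT.nd (nat_lit 312) (nat_lit 0) (nat_lit 0) (XT.nd (nat_lit 156) (nat_lit 76) (nat_lit 0) (XT.nd (nat_lit 78) (nat_lit 0) (nat_lit 0) (XT.lf (nat_lit 0) (nat_lit 173356301608) (nat_lit 152) (nat_lit 173741690081) (nat_lit 0) (nat_lit 116566835449) (nat_lit 5) (nat_lit 5) (nat_lit 7) (nat_lit 4) (nat_lit 5) (nat_lit 4) (nat_lit 379) (nat_lit 319) (nat_lit 202)) (XT.lf (nat_lit 0) (nat_lit 225615823689) (nat_lit 152) (nat_lit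 102871470777) (nat_lit 0) (nat_lit 168825840629) (nat_lit 5) (nat_lit 5) (nat_lit 7) (nat_lit 4) (nat_lit 5) (nat_lit 4) (nat_lit 380) (nat_lit 319) (nat_lit 201))) (XT.nd (nat_lit 78) (nat_lit 76) (nat_lit 0) (XT.lf (nat_lit 0) (nat_lit 282055355165) (nat_lit 152) (nat_lit 26333119398) (nat_lit 0) (nat_lit 225264893492) (nat_lit 5) (nat_lit 5) (nat_lit 7) (nat_lit 4) (nat_lit 5) (nat_lit 4) (nat_lit 381) (nat_lit 319) (nat_lit 200)) (XT.lf (nat_lit 0) (nat_lit 59293000690) (nat_lit 76) (nat_lit 285142349921) (nat_lit 76) (nat_lit 228351445088) (nat_lit 4) (nat_lit 4) (nat_lit 5) (nat_lit 5) (nat_lit 5) (nat_lit 4) (nat_lit 382) (nat_lit 319) (nat_lit 199)))) (XT.nd (nat_lit 156) (nat_lit 0) (nat_lit 0) (XT.nd (nat_lit 78) (nat_lit 0) (nat_lit 0) (XT.lf (nat_lit 0) (nat_lit 153265457605) (nat_lit 76) (nat_lit 259259604958) (nat_lit 76) (nat_lit 202468289792) (nat_lit 4) (nat_lit 4) (nat_lit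 5) (nat_lit 5) (nat_lit 5) (nat_lit 4) (nat_lit 383) (nat_lit 319) (nat_lit 198)) (XT.lf (nat_lit 0) (nat_lit 254754469766) (nat_lit 76) (nat_lit 231306854597) (nat_lit 76) (nat_lit 174515159493) (nat_lit 4) (nat_lit 4) (nat_lit 5) (nat_lit 5) (nat_lit 5) (nat_lit 4) (nat_lit 384) (nat_lit 319) (nat_lit 197))) (XT.nd (nat_lit 78) (nat_lit 0) (nat_lit 0) (XT.lf (nat_lit 0) (nat_lit 364361453540) (nat_lit 76) (nat_lit 201118452909) (nat_lit 76) (nat_lit 144326406010) (nat_lit 4) (nat_lit 4) (nat_lit 5) (nat_lit 5) (nat_lit 5) (nat_lit 4) (nat_lit 385) (nat_lit 319) (nat_lit 196)) (XT.nd (nat_lit 78) (nat_lit 0) (nat_lit 0) (XT.lf (nat_lit 0) (nat_lit 482735931794) (nat_lit 76) (nat_lit 168515505661) (nat_lit 76) (nat_lit 111723133026) (nat_lit 4) (nat_lit 4) (nat_lit 5) (nat_lit 5) (nat_lit 5) (nat_lit 4) (nat_lit 386) (nat_lit 319) (nat_lit 195)) (XT.lf (nat_lit 0) (nat_lit 610579382917)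 (nat_lit 76) (nat_lit 133304810203) (nat_lit 76) (nat_lit 76512135961) (nat_lit 4) (nat_lit 4) (nat_lit 5) (nat_lit 5) (nat_lit 5) (nat_lit 4) (nat_lit 387) (nat_lit 319) (nat_lit 194))))))) (XT.nd (nat_lit 624) (nat_lit 0) (nat_lit 0) (XT.nd (nat_lit 312) (nat_lit 0) (nat_lit 0) (XT.nd (nat_lit 156) (nat_lit 76) (nat_lit 0) (XT.nd (nat_lit 78) (nat_lit 76) (nat_lit 0) (XT.lf (nat_lit 0) (nat_lit 748649397732) (nat_lit 76) (nat_lit 95277710563) (nat_lit 76) (nat_lit 38484757055) (nat_lit 4) (nat_lit 4) (nat_lit 5) (nat_lit 5) (nat_lit 5) (nat_lit 4) (nat_lit 388) (nat_lit 319) (nat_lit 193)) (XT.lf (nat_lit 0) (nat_lit 2455071412) (nat_lit 152) (nat_lit 51686663549) (nat_lit 76) (nat_lit 895241971503) (nat_lit 3) (nat_lit 5) (nat_lit 5) (nat_lit 5) (nat_lit 4) (nat_lit 4) (nat_lit 389) (nat_lit 319) (nat_lit 192))) (XT.nd (nat_lit 78) (nat_lit 0) (nat_lit 0) (XT.lf (nat_lit 0) (nat_lit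 37848112992) (nat_lit 76) (nat_lit 7652639173) (nat_lit 152) (nat_lit 976059787057) (nat_lit 2) (nat_lit 5) (nat_lit 3) (nat_lit 5) (nat_lit 4) (nat_lit 4) (nat_lit 390) (nat_lit 319) (nat_lit 191)) (XT.lf (nat_lit 0) (nat_lit 94463058117) (nat_lit 152) (nat_lit 962974299232) (nat_lit 0) (nat_lit 41876323669) (nat_lit 2) (nat_lit 5) (nat_lit 4) (nat_lit 4) (nat_lit 2) (nat_lit 4) (nat_lit 391) (nat_lit 319) (nat_lit 190)))) (XT.nd (nat_lit 156) (nat_lit 0) (nat_lit 0) (XT.nd (nat_lit 78) (nat_lit 0) (nat_lit 0) (XT.lf (nat_lit 0) (nat_lit 147540744606) (nat_lit 152) (nat_lit 940776637842) (nat_lit 0) (nat_lit 94953820095) (nat_lit 2) (nat_lit 5) (nat_lit 4) (nat_lit 4) (nat_lit 2) (nat_lit 4) (nat_lit 392) (nat_lit 319) (nat_lit 189)) (XT.lf (nat_lit 0) (nat_lit 204864299916) (nat_lit 152) (nat_lit 916803854206) (nat_lit 0) (nat_lit 152277199420) (nat_lit 2) (nat_lit 5) (nat_lit 4) (nat_lit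 4) (nat_lit 2) (nat_lit 4) (nat_lit 393) (nat_lit 319) (nat_lit 188))) (XT.nd (nat_lit 78) (nat_lit 0) (nat_lit 0) (XT.lf (nat_lit 0) (nat_lit 266773419190) (nat_lit 152) (nat_lit 890913887385) (nat_lit 0) (nat_lit 214186155745) (nat_lit 2) (nat_lit 5) (nat_lit 4) (nat_lit 4) (nat_lit 2) (nat_lit 4) (nat_lit 394) (nat_lit 319) (nat_lit 187)) (XT.lf (nat_lit 0) (nat_lit 333634971281) (nat_lit 152) (nat_lit 862953315353) (nat_lit 0) (nat_lit 281047556958) (nat_lit 2) (nat_lit 5) (nat_lit 4) (nat_lit 4) (nat_lit 2) (nat_lit 4) (nat_lit 395) (nat_lit 319) (nat_lit 186))))) (XT.nd (nat_lit 312) (nat_lit 0) (nat_lit 0) (XT.nd (nat_lit 156) (nat_lit 0) (nat_lit 0) (XT.nd (nat_lit 78) (nat_lit 0) (nat_lit 0) (XT.lf (nat_lit 0) (nat_lit 405845172796) (nat_lit 152) (nat_lit 832756445832) (nat_lit 0) (nat_lit 353257618770) (nat_lit 2) (nat_lit 5) (nat_lit 4) (nat_lit 4) (nat_lit 2) (nat_lit 4) (nat_lit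 396) (nat_lit 319) (nat_lit 185)) (XT.lf (nat_lit 0) (nat_lit 483831936040) (nat_lit 152) (nat_lit 800144334409) (nat_lit 0) (nat_lit 431244252659) (nat_lit 2) (nat_lit 5) (nat_lit 4) (nat_lit 4) (nat_lit 2) (nat_lit 4) (nat_lit 397) (nat_lit 319) (nat_lit 184))) (XT.nd (nat_lit 78) (nat_lit 0) (nat_lit 0) (XT.lf (nat_lit 0) (nat_lit 568057404794) (nat_lit 152) (nat_lit 764923724128) (nat_lit 0) (nat_lit 515469601641) (nat_lit 2) (nat_lit 5) (nat_lit 4) (nat_lit 4) (nat_lit 2) (nat_lit 4) (nat_lit 398) (nat_lit 319) (nat_lit 183)) (XT.lf (nat_lit 0) (nat_lit 659020692947) (nat_lit 152) (nat_lit 726885900261) (nat_lit 0) (nat_lit 606432778894) (nat_lit 2) (nat_lit 5) (nat_lit 4) (nat_lit 4) (nat_lit 2) (nat_lit 4) (nat_lit 399) (nat_lit 319) (nat_lit 182)))) (XT.nd (nat_lit 156) (nat_lit 0) (nat_lit 0) (XT.nd (nat_lit 78) (nat_lit 0) (nat_lit 0) (XT.lf (nat_lit 0) (nat_lit 757260842208)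 (nat_lit 152) (nat_lit 685805453482) (nat_lit 0) (nat_lit 704672825469) (nat_lit 2) (nat_lit 5) (nat_lit 4) (nat_lit 4) (nat_lit 2) (nat_lit 4) (nat_lit 400) (nat_lit 319) (nat_lit 181)) (XT.lf (nat_lit 0) (nat_lit 863360016423) (nat_lit 152) (nat_lit 641438944106) (nat_lit 0) (nat_lit 810771904606) (nat_lit 2) (nat_lit 5) (nat_lit 4) (nat_lit 4) (nat_lit 2) (nat_lit 4) (nat_lit 401) (nat_lit 319) (nat_lit 180))) (XT.nd (nat_lit 78) (nat_lit 0) (nat_lit 0) (XT.lf (nat_lit 0) (nat_lit 977946951441) (nat_lit 152) (nat_lit 593523459484) (nat_lit 0) (nat_lit 925358751587) (nat_lit 2) (nat_lit 5) (nat_lit 4) (nat_lit 4) (nat_lit 2) (nat_lit 4) (nat_lit 402) (nat_lit 319) (nat_lit 179)) (XT.nd (nat_lit 78) (nat_lit 0) (nat_lit 0) (XT.lf (nat_lit 0) (nat_lit 1101700680949) (nat_lit 152) (nat_lit 541775056005) (nat_lit 0) (nat_lit 1049112399580) (nat_lit 2) (nat_lit 5) (nat_lit 4) (nat_lit 4)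 (nat_lit 2) (nat_lit 4) (nat_lit 403) (nat_lit 319) (nat_lit 178)) (XT.lf (nat_lit 0) (nat_lit 1235354560382) (nat_lit 152) (nat_lit 485887076463) (nat_lit 0) (nat_lit 1182766203536) (nat_lit 2) (nat_lit 5) (nat_lit 4) (nat_lit 4) (nat_lit 2) (nat_lit 4) (nat_lit 404) (nat_lit 319) (nat_lit 177))))))))
noncomputable def xc155 : XT := (XT.nd (nat_lit 41028) (nat_lit 0) (nat_lit 1672) (XT.nd (nat_lit 40326) (nat_lit 0) (nat_lit 3420) (XT.nd (nat_lit 312) (nat_lit 76) (nat_lit 0) (XT.nd (nat_lit 156) (nat_lit 0) (nat_lit 0) (XT.nd (nat_lit 78) (nat_lit 0) (nat_lit 0) (XT.lf (nat_lit 0) (nat_lit 1379700612729) (nat_lit 152) (nat_lit 425528332830) (nat_lit 0) (nat_lit 1327112185997) (nat_lit 2) (nat_lit 5) (nat_lit 4) (nat_lit 4) (nat_lit 2) (nat_lit 4) (nat_lit 405) (nat_lit 319) (nat_lit 176)) (XT.lf (nat_lit 0) (nat_lit 1535594222004) (nat_lit 152) (nat_lit 360341143662) (nat_lit 0) (nat_lit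 1483005730563) (nat_lit 2) (nat_lit 5) (nat_lit 4) (nat_lit 4) (nat_lit 2) (nat_lit 4) (nat_lit 406) (nat_lit 319) (nat_lit 175))) (XT.nd (nat_lit 78) (nat_lit 0) (nat_lit 0) (XT.lf (nat_lit 0) (nat_lit 1703959202188) (nat_lit 152) (nat_lit 289939214507) (nat_lit 0) (nat_lit 1651370650831) (nat_lit 2) (nat_lit 5) (nat_lit 4) (nat_lit 4) (nat_lit 2) (nat_lit 4) (nat_lit 407) (nat_lit 319) (nat_lit 174)) (XT.lf (nat_lit 0) (nat_lit 1885793271683) (nat_lit 152) (nat_lit 213905348745) (nat_lit 0) (nat_lit 1833204664847) (nat_lit 2) (nat_lit 5) (nat_lit 4) (nat_lit 4) (nat_lit 2) (nat_lit 4) (nat_lit 408) (nat_lit 319) (nat_lit 173)))) (XT.nd (nat_lit 156) (nat_lit 76) (nat_lit 0) (XT.nd (nat_lit 78) (nat_lit 0) (nat_lit 0) (XT.lf (nat_lit 0) (nat_lit 2082173965714) (nat_lit 152) (nat_lit 131788975322) (nat_lit 0) (nat_lit 2029585307510) (nat_lit 2) (nat_lit 5) (nat_lit 4) (nat_lit 4) (nat_lit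 2) (nat_lit 4) (nat_lit 409) (nat_lit 319) (nat_lit 172)) (XT.lf (nat_lit 0) (nat_lit 2294265021727) (nat_lit 152) (nat_lit 43103478690) (nat_lit 0) (nat_lit 2241676315961) (nat_lit 2) (nat_lit 5) (nat_lit 4) (nat_lit 4) (nat_lit 2) (nat_lit 4) (nat_lit 410) (nat_lit 319) (nat_lit 171))) (XT.nd (nat_lit 39780) (nat_lit 0) (nat_lit 4028) (XT.lf (nat_lit 0) (nat_lit 55450545706) (nat_lit 76) (nat_lit 2469206316863) (nat_lit 76) (nat_lit 2416617567056) (nat_lit 1) (nat_lit 4) (nat_lit 2) (nat_lit 5) (nat_lit 2) (nat_lit 4) (nat_lit 411) (nat_lit 319) (nat_lit 170)) (XT.lf (nat_lit 0) (nat_lit 6589437095) (nat_lit 532) (nat_lit 1483390892) (nat_lit 532) (nat_lit 1483390892) (nat_lit 54) (nat_lit 3) (nat_lit 61) (nat_lit 3) (nat_lit 61) (nat_lit 5) (nat_lit 320) (nat_lit 320) (nat_lit 260))))) (XT.nd (nat_lit 312) (nat_lit 608) (nat_lit 0) (XT.nd (nat_lit 156) (nat_lit 0) (nat_lit 76) (XT.nd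 (nat_lit 78) (nat_lit 0) (nat_lit 76) (XT.lf (nat_lit 76) (nat_lit 6404200396) (nat_lit 0) (nat_lit 7623901715) (nat_lit 532) (nat_lit 5822760344) (nat_lit 55) (nat_lit 5) (nat_lit 54) (nat_lit 3) (nat_lit 61) (nat_lit 5) (nat_lit 321) (nat_lit 320) (nat_lit 259)) (XT.lf (nat_lit 0) (nat_lit 15049617675) (nat_lit 456) (nat_lit 3999530552) (nat_lit 532) (nat_lit 1590895660) (nat_lit 55) (nat_lit 5) (nat_lit 61) (nat_lit 5) (nat_lit 62) (nat_lit 5) (nat_lit 322) (nat_lit 320) (nat_lit 258))) (XT.nd (nat_lit 78) (nat_lit 0) (nat_lit 0) (XT.lf (nat_lit 76) (nat_lit 6310713982) (nat_lit 0) (nat_lit 10176322071) (nat_lit 532) (nat_lit 4978617691) (nat_lit 56) (nat_lit 5) (nat_lit 55) (nat_lit 5) (nat_lit 62) (nat_lit 5) (nat_lit 323) (nat_lit 320) (nat_lit 257)) (XT.lf (nat_lit 76) (nat_lit 17663174688) (nat_lit 0) (nat_lit 470927489) (nat_lit 532) (nat_lit 4215664203) (nat_lit 56) (nat_lit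 5) (nat_lit 55) (nat_lit 5) (nat_lit 62) (nat_lit 5) (nat_lit 324) (nat_lit 320) (nat_lit 256)))) (XT.nd (nat_lit 156) (nat_lit 760) (nat_lit 0) (XT.nd (nat_lit 78) (nat_lit 0) (nat_lit 0) (XT.lf (nat_lit 76) (nat_lit 6703254167) (nat_lit 0) (nat_lit 13598147429) (nat_lit 532) (nat_lit 2972153370) (nat_lit 57) (nat_lit 5) (nat_lit 56) (nat_lit 5) (nat_lit 63) (nat_lit 5) (nat_lit 325) (nat_lit 320) (nat_lit 255)) (XT.lf (nat_lit 76) (nat_lit 19247677326) (nat_lit 0) (nat_lit 3521715511) (nat_lit 532) (nat_lit 1491691748) (nat_lit 57) (nat_lit 5) (nat_lit 56) (nat_lit 5) (nat_lit 63) (nat_lit 5) (nat_lit 326) (nat_lit 320) (nat_lit 254))) (XT.nd (nat_lit 78) (nat_lit 304) (nat_lit 0) (XT.lf (nat_lit 0) (nat_lit 460494609) (nat_lit 532) (nat_lit 17647467069) (nat_lit 76) (nat_lit 7190775926) (nat_lit 50) (nat_lit 5) (nat_lit 57) (nat_lit 5) (nat_lit 51) (nat_lit 5) (nat_lit 327) (nat_lit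 320) (nat_lit 253)) (XT.nd (nat_lit 78) (nat_lit 304) (nat_lit 0) (XT.lf (nat_lit 0) (nat_lit 2708937299) (nat_lit 532) (nat_lit 4938855562) (nat_lit 76) (nat_lit 18750874583) (nat_lit 50) (nat_lit 5) (nat_lit 57) (nat_lit 5) (nat_lit 51) (nat_lit 5) (nat_lit 328) (nat_lit 320) (nat_lit 252)) (XT.lf (nat_lit 0) (nat_lit 5442398392) (nat_lit 380) (nat_lit 18424707673) (nat_lit 76) (nat_lit 3695090759) (nat_lit 46) (nat_lit 5) (nat_lit 51) (nat_lit 5) (nat_lit 47) (nat_lit 5) (nat_lit 329) (nat_lit 320) (nat_lit 251))))))) (XT.nd (nat_lit 702) (nat_lit 684) (nat_lit 0) (XT.nd (nat_lit 312) (nat_lit 608) (nat_lit 0) (XT.nd (nat_lit 156) (nat_lit 228) (nat_lit 0) (XT.nd (nat_lit 78) (nat_lit 228) (nat_lit 0) (XT.lf (nat_lit 0) (nat_lit 8721688331) (nat_lit 380) (nat_lit 4399981090) (nat_lit 76) (nat_lit 15670982341) (nat_lit 46) (nat_lit 5) (nat_lit 51) (nat_lit 5) (nat_lit 47) (nat_lit 5)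 (nat_lit 330) (nat_lit 320) (nat_lit 250)) (XT.lf (nat_lit 0) (nat_lit 11302253865) (nat_lit 228) (nat_lit 1223593993) (nat_lit 304) (nat_lit 17574707352) (nat_lit 43) (nat_lit 5) (nat_lit 46) (nat_lit 5) (nat_lit 47) (nat_lit 5) (nat_lit 331) (nat_lit 320) (nat_lit 249))) (XT.nd (nat_lit 78) (nat_lit 228) (nat_lit 0) (XT.lf (nat_lit 0) (nat_lit 17028527444) (nat_lit 304) (nat_lit 3285612769) (nat_lit 76) (nat_lit 11167428908) (nat_lit 43) (nat_lit 5) (nat_lit 47) (nat_lit 5) (nat_lit 44) (nat_lit 5) (nat_lit 332) (nat_lit 320) (nat_lit 248)) (XT.lf (nat_lit 0) (nat_lit 14133796059) (nat_lit 228) (nat_lit 8121126802) (nat_lit 304) (nat_lit 10689073365) (nat_lit 40) (nat_lit 5) (nat_lit 43) (nat_lit 5) (nat_lit 44) (nat_lit 5) (nat_lit 333) (nat_lit 320) (nat_lit 247)))) (XT.nd (nat_lit 156) (nat_lit 456) (nat_lit 0) (XT.nd (nat_lit 78) (nat_lit 152) (nat_lit 0) (XT.lf (nat_lit 0) (nat_lit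 28105135605) (nat_lit 304) (nat_lit 1516241173) (nat_lit 76) (nat_lit 4885595558) (nat_lit 40) (nat_lit 5) (nat_lit 44) (nat_lit 5) (nat_lit 41) (nat_lit 5) (nat_lit 334) (nat_lit 320) (nat_lit 246)) (XT.lf (nat_lit 0) (nat_lit 17833217405) (nat_lit 152) (nat_lit 17222706651) (nat_lit 228) (nat_lit 1088468240) (nat_lit 38) (nat_lit 5) (nat_lit 40) (nat_lit 5) (nat_lit 41) (nat_lit 5) (nat_lit 335) (nat_lit 320) (nat_lit 245))) (XT.nd (nat_lit 78) (nat_lit 152) (nat_lit 0) (XT.lf (nat_lit 0) (nat_lit 826487811) (nat_lit 228) (nat_lit 3646147113) (nat_lit 304) (nat_lit 33426811302) (nat_lit 34) (nat_lit 5) (nat_lit 37) (nat_lit 5) (nat_lit 38) (nat_lit 5) (nat_lit 336) (nat_lit 320) (nat_lit 244)) (XT.nd (nat_lit 78) (nat_lit 152) (nat_lit 0) (XT.lf (nat_lit 0) (nat_lit 11191553510) (nat_lit 304) (nat_lit 17534124521) (nat_lit 76) (nat_lit 11005234370) (nat_lit 34) (nat_lit 5) (nat_lit 38)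 (nat_lit 5) (nat_lit 35) (nat_lit 5) (nat_lit 337) (nat_lit 320) (nat_lit 243)) (XT.lf (nat_lit 0) (nat_lit 3646656417) (nat_lit 152) (nat_lit 14977366657) (nat_lit 228) (nat_lit 23070797481) (nat_lit 32) (nat_lit 5) (nat_lit 34) (nat_lit 5) (nat_lit 35) (nat_lit 5) (nat_lit 338) (nat_lit 320) (nat_lit 242)))))) (XT.nd (nat_lit 312) (nat_lit 304) (nat_lit 0) (XT.nd (nat_lit 156) (nat_lit 228) (nat_lit 0) (XT.nd (nat_lit 78) (nat_lit 152) (nat_lit 0) (XT.lf (nat_lit 0) (nat_lit 27133682324) (nat_lit 228) (nat_lit 16276837284) (nat_lit 76) (nat_lit 366721503) (nat_lit 32) (nat_lit 5) (nat_lit 35) (nat_lit 5) (nat_lit 33) (nat_lit 5) (nat_lit 339) (nat_lit 320) (nat_lit 241)) (XT.lf (nat_lit 0) (nat_lit 7198878420) (nat_lit 152) (nat_lit 29681681233) (nat_lit 228) (nat_lit 9101186619) (nat_lit 30) (nat_lit 5) (nat_lit 32) (nat_lit 5) (nat_lit 33) (nat_lit 5) (nat_lit 340) (nat_lit 320) (nat_lit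 240))) (XT.nd (nat_lit 78) (nat_lit 228) (nat_lit 0) (XT.lf (nat_lit 0) (nat_lit 33470130654) (nat_lit 152) (nat_lit 14376609527) (nat_lit 228) (nat_lit 480713525) (nat_lit 30) (nat_lit 5) (nat_lit 32) (nat_lit 5) (nat_lit 33) (nat_lit 5) (nat_lit 341) (nat_lit 320) (nat_lit 239)) (XT.lf (nat_lit 0) (nat_lit 8719261472) (nat_lit 228) (nat_lit 39558003867) (nat_lit 76) (nat_lit 2540046147) (nat_lit 27) (nat_lit 5) (nat_lit 30) (nat_lit 5) (nat_lit 28) (nat_lit 5) (nat_lit 342) (nat_lit 320) (nat_lit 238)))) (XT.nd (nat_lit 156) (nat_lit 152) (nat_lit 0) (XT.nd (nat_lit 78) (nat_lit 152) (nat_lit 0) (XT.lf (nat_lit 0) (nat_lit 19414381055) (nat_lit 228) (nat_lit 13568111946) (nat_lit 76) (nat_lit 20460061438) (nat_lit 27) (nat_lit 5) (nat_lit 30) (nat_lit 5) (nat_lit 28) (nat_lit 5) (nat_lit 343) (nat_lit 320) (nat_lit 237)) (XT.lf (nat_lit 0) (nat_lit 15256755505) (nat_lit 152) (nat_lit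 16070578479) (nat_lit 228) (nat_lit 24921509425) (nat_lit 25) (nat_lit 5) (nat_lit 27) (nat_lit 5) (nat_lit 28) (nat_lit 5) (nat_lit 344) (nat_lit 320) (nat_lit 236))) (XT.nd (nat_lit 78) (nat_lit 152) (nat_lit 0) (XT.lf (nat_lit 0) (nat_lit 44622115524) (nat_lit 228) (nat_lit 12160656881) (nat_lit 76) (nat_lit 2462563856) (nat_lit 25) (nat_lit 5) (nat_lit 28) (nat_lit 5) (nat_lit 26) (nat_lit 4) (nat_lit 345) (nat_lit 320) (nat_lit 235)) (XT.nd (nat_lit 78) (nat_lit 76) (nat_lit 0) (XT.lf (nat_lit 0) (nat_lit 19529857722) (nat_lit 76) (nat_lit 40333480901) (nat_lit 152) (nat_lit 2547585039) (nat_lit 24) (nat_lit 5) (nat_lit 25) (nat_lit 5) (nat_lit 26) (nat_lit 4) (nat_lit 346) (nat_lit 320) (nat_lit 234)) (XT.lf (nat_lit 0) (nat_lit 10306063594) (nat_lit 152) (nat_lit 11624001590) (nat_lit 76) (nat_lit 43852551933) (nat_lit 23) (nat_lit 5) (nat_lit 25) (nat_lit 5) (nat_lit 24) (nat_lit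 5) (nat_lit 347) (nat_lit 320) (nat_lit 233))))))))
noncomputable def xc156 : XT := (XT.nd (nat_lit 1326) (nat_lit 456) (nat_lit 0) (XT.nd (nat_lit 624) (nat_lit 456) (nat_lit 0) (XT.nd (nat_lit 312) (nat_lit 228) (nat_lit 0) (XT.nd (nat_lit 156) (nat_lit 76) (nat_lit 0) (XT.nd (nat_lit 78) (nat_lit 0) (nat_lit 0) (XT.lf (nat_lit 0) (nat_lit 23222643597) (nat_lit 152) (nat_lit 1382331212) (nat_lit 228) (nat_lit 44769412091) (nat_lit 21) (nat_lit 5) (nat_lit 23) (nat_lit 5) (nat_lit 24) (nat_lit 5) (nat_lit 348) (nat_lit 320) (nat_lit 232)) (XT.lf (nat_lit 0) (nat_lit 40870512762) (nat_lit 228) (nat_lit 12225283434) (nat_lit 76) (nat_lit 20091887790) (nat_lit 21) (nat_lit 5) (nat_lit 24) (nat_lit 5) (nat_lit 22) (nat_lit 4) (nat_lit 349) (nat_lit 320) (nat_lit 231))) (XT.nd (nat_lit 78) (nat_lit 0) (nat_lit 0) (XT.lf (nat_lit 0) (nat_lit 25656749386) (nat_lit 76) (nat_lit 33429953467) (nat_lit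 152) (nat_lit 18167391873) (nat_lit 20) (nat_lit 5) (nat_lit 21) (nat_lit 5) (nat_lit 22) (nat_lit 4) (nat_lit 350) (nat_lit 320) (nat_lit 230)) (XT.lf (nat_lit 0) (nat_lit 67258668157) (nat_lit 76) (nat_lit 11832359324) (nat_lit 152) (nat_lit 2528326122) (nat_lit 20) (nat_lit 5) (nat_lit 21) (nat_lit 5) (nat_lit 22) (nat_lit 4) (nat_lit 351) (nat_lit 320) (nat_lit 229)))) (XT.nd (nat_lit 156) (nat_lit 76) (nat_lit 0) (XT.nd (nat_lit 78) (nat_lit 0) (nat_lit 0) (XT.lf (nat_lit 0) (nat_lit 14587932111) (nat_lit 152) (nat_lit 59710083871) (nat_lit 76) (nat_lit 11932626560) (nat_lit 18) (nat_lit 5) (nat_lit 20) (nat_lit 5) (nat_lit 19) (nat_lit 4) (nat_lit 352) (nat_lit 320) (nat_lit 228)) (XT.lf (nat_lit 0) (nat_lit 33643872982) (nat_lit 152) (nat_lit 20079344376) (nat_lit 76) (nat_lit 37425807315) (nat_lit 18) (nat_lit 5) (nat_lit 20) (nat_lit 5) (nat_lit 19) (nat_lit 4) (nat_lit 353) (nat_lit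 320) (nat_lit 227))) (XT.nd (nat_lit 78) (nat_lit 0) (nat_lit 0) (XT.lf (nat_lit 0) (nat_lit 23912766500) (nat_lit 76) (nat_lit 30883660463) (nat_lit 152) (nat_lit 41618681166) (nat_lit 17) (nat_lit 5) (nat_lit 18) (nat_lit 5) (nat_lit 19) (nat_lit 4) (nat_lit 354) (nat_lit 320) (nat_lit 226)) (XT.lf (nat_lit 0) (nat_lit 72561009355) (nat_lit 76) (nat_lit 5626311344) (nat_lit 152) (nat_lit 23871468376) (nat_lit 17) (nat_lit 5) (nat_lit 18) (nat_lit 5) (nat_lit 19) (nat_lit 4) (nat_lit 355) (nat_lit 320) (nat_lit 225))))) (XT.nd (nat_lit 312) (nat_lit 228) (nat_lit 0) (XT.nd (nat_lit 156) (nat_lit 76) (nat_lit 0) (XT.nd (nat_lit 78) (nat_lit 76) (nat_lit 0) (XT.lf (nat_lit 0) (nat_lit 17286203773) (nat_lit 76) (nat_lit 87097029860) (nat_lit 76) (nat_lit 3696032575) (nat_lit 16) (nat_lit 4) (nat_lit 17) (nat_lit 5) (nat_lit 17) (nat_lit 4) (nat_lit 356) (nat_lit 320) (nat_lit 224)) (XT.lf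 (nat_lit 0) (nat_lit 18159246285) (nat_lit 152) (nat_lit 45633588197) (nat_lit 76) (nat_lit 50676063309) (nat_lit 15) (nat_lit 5) (nat_lit 17) (nat_lit 5) (nat_lit 16) (nat_lit 4) (nat_lit 357) (nat_lit 320) (nat_lit 223))) (XT.nd (nat_lit 78) (nat_lit 0) (nat_lit 0) (XT.lf (nat_lit 0) (nat_lit 3198023988) (nat_lit 76) (nat_lit 38439660842) (nat_lit 152) (nat_lit 79718382684) (nat_lit 14) (nat_lit 5) (nat_lit 15) (nat_lit 5) (nat_lit 16) (nat_lit 4) (nat_lit 358) (nat_lit 320) (nat_lit 222)) (XT.lf (nat_lit 0) (nat_lit 58526906874) (nat_lit 76) (nat_lit 9712778270) (nat_lit 152) (nat_lit 60454903858) (nat_lit 14) (nat_lit 5) (nat_lit 15) (nat_lit 5) (nat_lit 16) (nat_lit 4) (nat_lit 359) (nat_lit 320) (nat_lit 221)))) (XT.nd (nat_lit 156) (nat_lit 152) (nat_lit 0) (XT.nd (nat_lit 78) (nat_lit 76) (nat_lit 0) (XT.lf (nat_lit 0) (nat_lit 97480122269) (nat_lit 152) (nat_lit 18854935084) (nat_lit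 0) (nat_lit 20244313753) (nat_lit 14) (nat_lit 5) (nat_lit 16) (nat_lit 4) (nat_lit 14) (nat_lit 4) (nat_lit 360) (nat_lit 320) (nat_lit 220)) (XT.lf (nat_lit 0) (nat_lit 38218426486) (nat_lit 76) (nat_lit 92010687596) (nat_lit 76) (nat_lit 14772277082) (nat_lit 13) (nat_lit 4) (nat_lit 14) (nat_lit 5) (nat_lit 14) (nat_lit 4) (nat_lit 361) (nat_lit 320) (nat_lit 219))) (XT.nd (nat_lit 78) (nat_lit 76) (nat_lit 0) (XT.lf (nat_lit 0) (nat_lit 11452346087) (nat_lit 152) (nat_lit 53419939909) (nat_lit 76) (nat_lit 89160614961) (nat_lit 12) (nat_lit 5) (nat_lit 14) (nat_lit 5) (nat_lit 13) (nat_lit 4) (nat_lit 362) (nat_lit 320) (nat_lit 218)) (XT.nd (nat_lit 78) (nat_lit 0) (nat_lit 0) (XT.lf (nat_lit 0) (nat_lit 4026153406) (nat_lit 76) (nat_lit 35045579271) (nat_lit 152) (nat_lit 124676913561) (nat_lit 11) (nat_lit 5) (nat_lit 12) (nat_lit 5) (nat_lit 13) (nat_lit 4) (nat_lit 363) (nat_lit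 320) (nat_lit 217)) (XT.lf (nat_lit 0) (nat_lit 69102384303) (nat_lit 76) (nat_lit 1256990896) (nat_lit 152) (nat_lit 103765580249) (nat_lit 11) (nat_lit 5) (nat_lit 12) (nat_lit 5) (nat_lit 13) (nat_lit 4) (nat_lit 364) (nat_lit 320) (nat_lit 216))))))) (XT.nd (nat_lit 624) (nat_lit 228) (nat_lit 0) (XT.nd (nat_lit 312) (nat_lit 76) (nat_lit 0) (XT.nd (nat_lit 156) (nat_lit 76) (nat_lit 0) (XT.nd (nat_lit 78) (nat_lit 76) (nat_lit 0) (XT.lf (nat_lit 0) (nat_lit 104995635555) (nat_lit 152) (nat_lit 46797476964) (nat_lit 0) (nat_lit 33470609018) (nat_lit 11) (nat_lit 5) (nat_lit 13) (nat_lit 4) (nat_lit 11) (nat_lit 4) (nat_lit 365) (nat_lit 320) (nat_lit 215)) (XT.lf (nat_lit 0) (nat_lit 16894957398) (nat_lit 76) (nat_lit 125945156492) (nat_lit 76) (nat_lit 54418490256) (nat_lit 10) (nat_lit 4) (nat_lit 11) (nat_lit 5) (nat_lit 11) (nat_lit 4) (nat_lit 366) (nat_lit 320) (nat_lit 214)))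 (XT.nd (nat_lit 78) (nat_lit 76) (nat_lit 0) (XT.lf (nat_lit 0) (nat_lit 88341108372) (nat_lit 76) (nat_lit 96648960288) (nat_lit 76) (nat_lit 25120775812) (nat_lit 10) (nat_lit 4) (nat_lit 11) (nat_lit 5) (nat_lit 11) (nat_lit 4) (nat_lit 367) (nat_lit 320) (nat_lit 213)) (XT.lf (nat_lit 0) (nat_lit 6193033322) (nat_lit 152) (nat_lit 58648080943) (nat_lit 76) (nat_lit 159137726521) (nat_lit 9) (nat_lit 5) (nat_lit 11) (nat_lit 5) (nat_lit 10) (nat_lit 4) (nat_lit 368) (nat_lit 320) (nat_lit 212)))) (XT.nd (nat_lit 156) (nat_lit 0) (nat_lit 0) (XT.nd (nat_lit 78) (nat_lit 0) (nat_lit 0) (XT.lf (nat_lit 0) (nat_lit 9335071071) (nat_lit 76) (nat_lit 29542795742) (nat_lit 152) (nat_lit 200008363904) (nat_lit 8) (nat_lit 5) (nat_lit 9) (nat_lit 5) (nat_lit 10) (nat_lit 4) (nat_lit 369) (nat_lit 320) (nat_lit 211)) (XT.lf (nat_lit 0) (nat_lit 76027609753) (nat_lit 152) (nat_lit 169016406195)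 (nat_lit 0) (nat_lit 9794186485) (nat_lit 8) (nat_lit 5) (nat_lit 10) (nat_lit 4) (nat_lit 8) (nat_lit 4) (nat_lit 370) (nat_lit 320) (nat_lit 210))) (XT.nd (nat_lit 78) (nat_lit 0) (nat_lit 0) (XT.lf (nat_lit 0) (nat_lit 116915376875) (nat_lit 152) (nat_lit 104408751495) (nat_lit 0) (nat_lit 50680920318) (nat_lit 8) (nat_lit 5) (nat_lit 10) (nat_lit 4) (nat_lit 8) (nat_lit 4) (nat_lit 371) (nat_lit 320) (nat_lit 209)) (XT.lf (nat_lit 0) (nat_lit 161072961111) (nat_lit 152) (nat_lit 34634830422) (nat_lit 0) (nat_lit 94837547805) (nat_lit 8) (nat_lit 5) (nat_lit 10) (nat_lit 4) (nat_lit 8) (nat_lit 4) (nat_lit 372) (nat_lit 320) (nat_lit 208))))) (XT.nd (nat_lit 312) (nat_lit 76) (nat_lit 0) (XT.nd (nat_lit 156) (nat_lit 76) (nat_lit 0) (XT.nd (nat_lit 78) (nat_lit 0) (nat_lit 0) (XT.lf (nat_lit 0) (nat_lit 42863013648) (nat_lit 76) (nat_lit 166929879894) (nat_lit 76) (nat_lit 100693580710)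 (nat_lit 7) (nat_lit 4) (nat_lit 8) (nat_lit 5) (nat_lit 8) (nat_lit 4) (nat_lit 373) (nat_lit 320) (nat_lit 207)) (XT.lf (nat_lit 0) (nat_lit 128528281508) (nat_lit 76) (nat_lit 134828033328) (nat_lit 76) (nat_lit 68590913885) (nat_lit 7) (nat_lit 4) (nat_lit 8) (nat_lit 5) (nat_lit 8) (nat_lit 4) (nat_lit 374) (nat_lit 320) (nat_lit 206))) (XT.nd (nat_lit 78) (nat_lit 76) (nat_lit 0) (XT.lf (nat_lit 0) (nat_lit 221044810395) (nat_lit 76) (nat_lit 100158996311) (nat_lit 76) (nat_lit 33921117370) (nat_lit 7) (nat_lit 4) (nat_lit 8) (nat_lit 5) (nat_lit 8) (nat_lit 4) (nat_lit 375) (nat_lit 320) (nat_lit 205)) (XT.lf (nat_lit 0) (nat_lit 3345111819) (nat_lit 152) (nat_lit 59280749595) (nat_lit 76) (nat_lit 317524273304) (nat_lit 6) (nat_lit 5) (nat_lit 8) (nat_lit 5) (nat_lit 7) (nat_lit 4) (nat_lit 376) (nat_lit 320) (nat_lit 204)))) (XT.nd (nat_lit 156) (nat_lit 0) (nat_lit 0) (XT.nd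 (nat_lit 78) (nat_lit 0) (nat_lit 0) (XT.lf (nat_lit 0) (nat_lit 21705568661) (nat_lit 76) (nat_lit 20575586140) (nat_lit 152) (nat_lit 364784031244) (nat_lit 5) (nat_lit 5) (nat_lit 6) (nat_lit 5) (nat_lit 7) (nat_lit 4) (nat_lit 377) (nat_lit 320) (nat_lit 203)) (XT.lf (nat_lit 0) (nat_lit 86591515766) (nat_lit 152) (nat_lit 324102837095) (nat_lit 0) (nat_lit 25258334061) (nat_lit 5) (nat_lit 5) (nat_lit 7) (nat_lit 4) (nat_lit 5) (nat_lit 4) (nat_lit 378) (nat_lit 320) (nat_lit 202))) (XT.nd (nat_lit 78) (nat_lit 0) (nat_lit 0) (XT.lf (nat_lit 0) (nat_lit 134980323855) (nat_lit 152) (nat_lit 258481549497) (nat_lit 0) (nat_lit 73646625248) (nat_lit 5) (nat_lit 5) (nat_lit 7) (nat_lit 4) (nat_lit 5) (nat_lit 4) (nat_lit 379) (nat_lit 320) (nat_lit 201)) (XT.nd (nat_lit 78) (nat_lit 0) (nat_lit 0) (XT.lf (nat_lit 0) (nat_lit 187239484219) (nat_lit 152) (nat_lit 187612044361) (nat_lit 0)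 (nat_lit 125905306999) (nat_lit 5) (nat_lit 5) (nat_lit 7) (nat_lit 4) (nat_lit 5) (nat_lit 4) (nat_lit 380) (nat_lit 320) (nat_lit 200)) (XT.lf (nat_lit 0) (nat_lit 243678680771) (nat_lit 152) (nat_lit 111074354248) (nat_lit 0) (nat_lit 182344060392) (nat_lit 5) (nat_lit 5) (nat_lit 7) (nat_lit 4) (nat_lit 5) (nat_lit 4) (nat_lit 381) (nat_lit 320) (nat_lit 199))))))))
noncomputable def xc157 : XT := (XT.nd (nat_lit 1326) (nat_lit 0) (nat_lit 0) (XT.nd (nat_lit 624) (nat_lit 152) (nat_lit 0) (XT.nd (nat_lit 312) (nat_lit 0) (nat_lit 0) (XT.nd (nat_lit 156) (nat_lit 0) (nat_lit 0) (XT.nd (nat_lit 78) (nat_lit 76) (nat_lit 0) (XT.lf (nat_lit 0) (nat_lit 304632368011) (nat_lit 152) (nat_lit 28414922476) (nat_lit 0) (nat_lit 243297337298) (nat_lit 5) (nat_lit 5) (nat_lit 7) (nat_lit 4) (nat_lit 5) (nat_lit 4) (nat_lit 382) (nat_lit 320) (nat_lit 198)) (XT.lf (nat_lit 0) (nat_lit 64060658194)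 (nat_lit 76) (nat_lit 307941755148) (nat_lit 76) (nat_lit 246606344497) (nat_lit 4) (nat_lit 4) (nat_lit 5) (nat_lit 5) (nat_lit 5) (nat_lit 4) (nat_lit 383) (nat_lit 320) (nat_lit 197))) (XT.nd (nat_lit 78) (nat_lit 0) (nat_lit 0) (XT.lf (nat_lit 0) (nat_lit 165549117778) (nat_lit 76) (nat_lit 279989278201) (nat_lit 76) (nat_lit 218653515755) (nat_lit 4) (nat_lit 4) (nat_lit 5) (nat_lit 5) (nat_lit 5) (nat_lit 4) (nat_lit 384) (nat_lit 320) (nat_lit 196)) (XT.lf (nat_lit 0) (nat_lit 275155589907) (nat_lit 76) (nat_lit 249801129674) (nat_lit 76) (nat_lit 188465041492) (nat_lit 4) (nat_lit 4) (nat_lit 5) (nat_lit 5) (nat_lit 5) (nat_lit 4) (nat_lit 385) (nat_lit 320) (nat_lit 195)))) (XT.nd (nat_lit 156) (nat_lit 0) (nat_lit 0) (XT.nd (nat_lit 78) (nat_lit 0) (nat_lit 0) (XT.lf (nat_lit 0) (nat_lit 393529594415) (nat_lit 76) (nat_lit 217198416835) (nat_lit 76) (nat_lit 155862027046) (nat_lit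 4) (nat_lit 4) (nat_lit 5) (nat_lit 5) (nat_lit 5) (nat_lit 4) (nat_lit 386) (nat_lit 320) (nat_lit 194)) (XT.lf (nat_lit 0) (nat_lit 521372606885) (nat_lit 76) (nat_lit 181987938422) (nat_lit 76) (nat_lit 120651269368) (nat_lit 4) (nat_lit 4) (nat_lit 5) (nat_lit 5) (nat_lit 5) (nat_lit 4) (nat_lit 387) (nat_lit 320) (nat_lit 193))) (XT.nd (nat_lit 78) (nat_lit 0) (nat_lit 0) (XT.lf (nat_lit 0) (nat_lit 659442215540) (nat_lit 76) (nat_lit 143961039750) (nat_lit 76) (nat_lit 82624112116) (nat_lit 4) (nat_lit 4) (nat_lit 5) (nat_lit 5) (nat_lit 5) (nat_lit 4) (nat_lit 388) (nat_lit 320) (nat_lit 192)) (XT.lf (nat_lit 0) (nat_lit 808556610652) (nat_lit 76) (nat_lit 102892376233) (nat_lit 76) (nat_lit 41555209173) (nat_lit 4) (nat_lit 4) (nat_lit 5) (nat_lit 5) (nat_lit 5) (nat_lit 4) (nat_lit 389) (nat_lit 320) (nat_lit 191))))) (XT.nd (nat_lit 312) (nat_lit 0) (nat_lit 0) (XT.nd (nat_lit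 156) (nat_lit 0) (nat_lit 0) (XT.nd (nat_lit 78) (nat_lit 76) (nat_lit 0) (XT.lf (nat_lit 0) (nat_lit 2658802888) (nat_lit 152) (nat_lit 55807078741) (nat_lit 76) (nat_lit 966867933810) (nat_lit 3) (nat_lit 5) (nat_lit 5) (nat_lit 5) (nat_lit 4) (nat_lit 4) (nat_lit 390) (nat_lit 320) (nat_lit 190)) (XT.lf (nat_lit 0) (nat_lit 40890112382) (nat_lit 76) (nat_lit 8257823387) (nat_lit 152) (nat_lit 1054136875346) (nat_lit 2) (nat_lit 5) (nat_lit 3) (nat_lit 5) (nat_lit 4) (nat_lit 4) (nat_lit 391) (nat_lit 320) (nat_lit 189))) (XT.nd (nat_lit 78) (nat_lit 0) (nat_lit 0) (XT.lf (nat_lit 0) (nat_lit 102026855014) (nat_lit 152) (nat_lit 1039998768543) (nat_lit 0) (nat_lit 45232610493) (nat_lit 2) (nat_lit 5) (nat_lit 4) (nat_lit 4) (nat_lit 2) (nat_lit 4) (nat_lit 392) (nat_lit 320) (nat_lit 188)) (XT.lf (nat_lit 0) (nat_lit 159350256256) (nat_lit 152) (nat_lit 1016026292362) (nat_lit 0) (nat_lit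 102555848786) (nat_lit 2) (nat_lit 5) (nat_lit 4) (nat_lit 4) (nat_lit 2) (nat_lit 4) (nat_lit 393) (nat_lit 320) (nat_lit 187)))) (XT.nd (nat_lit 156) (nat_lit 0) (nat_lit 0) (XT.nd (nat_lit 78) (nat_lit 0) (nat_lit 0) (XT.lf (nat_lit 0) (nat_lit 221259232874) (nat_lit 152) (nat_lit 990136610221) (nat_lit 0) (nat_lit 164464674526) (nat_lit 2) (nat_lit 5) (nat_lit 4) (nat_lit 4) (nat_lit 2) (nat_lit 4) (nat_lit 394) (nat_lit 320) (nat_lit 186)) (XT.lf (nat_lit 0) (nat_lit 288120652877) (nat_lit 152) (nat_lit 962176301782) (nat_lit 0) (nat_lit 231325954826) (nat_lit 2) (nat_lit 5) (nat_lit 4) (nat_lit 4) (nat_lit 2) (nat_lit 4) (nat_lit 395) (nat_lit 320) (nat_lit 185))) (XT.nd (nat_lit 78) (nat_lit 0) (nat_lit 0) (XT.lf (nat_lit 0) (nat_lit 360330732088) (nat_lit 152) (nat_lit 931979676328) (nat_lit 0) (nat_lit 303535904683) (nat_lit 2) (nat_lit 5) (nat_lit 4) (nat_lit 4) (nat_lit 2) (nat_lit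 4) (nat_lit 396) (nat_lit 320) (nat_lit 184)) (XT.nd (nat_lit 78) (nat_lit 0) (nat_lit 0) (XT.lf (nat_lit 0) (nat_lit 438317382086) (nat_lit 152) (nat_lit 899367790893) (nat_lit 0) (nat_lit 381522434909) (nat_lit 2) (nat_lit 5) (nat_lit 4) (nat_lit 4) (nat_lit 2) (nat_lit 4) (nat_lit 397) (nat_lit 320) (nat_lit 183)) (XT.lf (nat_lit 0) (nat_lit 522542745984) (nat_lit 152) (nat_lit 864147389861) (nat_lit 0) (nat_lit 465747687907) (nat_lit 2) (nat_lit 5) (nat_lit 4) (nat_lit 4) (nat_lit 2) (nat_lit 4) (nat_lit 398) (nat_lit 320) (nat_lit 182))))))) (XT.nd (nat_lit 702) (nat_lit 0) (nat_lit 0) (XT.nd (nat_lit 312) (nat_lit 0) (nat_lit 0) (XT.nd (nat_lit 156) (nat_lit 0) (nat_lit 0) (XT.nd (nat_lit 78) (nat_lit 0) (nat_lit 0) (XT.lf (nat_lit 0) (nat_lit 613505937049) (nat_lit 152) (nat_lit 826109759743) (nat_lit 0) (nat_lit 556710776286) (nat_lit 2) (nat_lit 5) (nat_lit 4) (nat_lit 4) (nat_lit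 2) (nat_lit 4) (nat_lit 399) (nat_lit 320) (nat_lit 181)) (XT.lf (nat_lit 0) (nat_lit 711745996412) (nat_lit 152) (nat_lit 785029492360) (nat_lit 0) (nat_lit 654950740570) (nat_lit 2) (nat_lit 5) (nat_lit 4) (nat_lit 4) (nat_lit 2) (nat_lit 4) (nat_lit 400) (nat_lit 320) (nat_lit 180))) (XT.nd (nat_lit 78) (nat_lit 0) (nat_lit 0) (XT.lf (nat_lit 0) (nat_lit 817845087390) (nat_lit 152) (nat_lit 740663149092) (nat_lit 0) (nat_lit 761049743511) (nat_lit 2) (nat_lit 5) (nat_lit 4) (nat_lit 4) (nat_lit 2) (nat_lit 4) (nat_lit 401) (nat_lit 320) (nat_lit 179)) (XT.lf (nat_lit 0) (nat_lit 932431945335) (nat_lit 152) (nat_lit 692747818275) (nat_lit 0) (nat_lit 875636519941) (nat_lit 2) (nat_lit 5) (nat_lit 4) (nat_lit 4) (nat_lit 2) (nat_lit 4) (nat_lit 402) (nat_lit 320) (nat_lit 178)))) (XT.nd (nat_lit 156) (nat_lit 0) (nat_lit 0) (XT.nd (nat_lit 78) (nat_lit 0) (nat_lit 0) (XT.lf (nat_lit 0)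 (nat_lit 1056185603479) (nat_lit 152) (nat_lit 640999557206) (nat_lit 0) (nat_lit 999390102609) (nat_lit 2) (nat_lit 5) (nat_lit 4) (nat_lit 4) (nat_lit 2) (nat_lit 4) (nat_lit 403) (nat_lit 320) (nat_lit 177)) (XT.lf (nat_lit 0) (nat_lit 1189839416835) (nat_lit 152) (nat_lit 585111709526) (nat_lit 0) (nat_lit 1133043846078) (nat_lit 2) (nat_lit 5) (nat_lit 4) (nat_lit 4) (nat_lit 2) (nat_lit 4) (nat_lit 404) (nat_lit 320) (nat_lit 176))) (XT.nd (nat_lit 78) (nat_lit 0) (nat_lit 0) (XT.lf (nat_lit 0) (nat_lit 1334185408000) (nat_lit 152) (nat_lit 524753087987) (nat_lit 0) (nat_lit 1277389772534) (nat_lit 2) (nat_lit 5) (nat_lit 4) (nat_lit 4) (nat_lit 2) (nat_lit 4) (nat_lit 405) (nat_lit 320) (nat_lit 175)) (XT.nd (nat_lit 78) (nat_lit 0) (nat_lit 0) (XT.lf (nat_lit 0) (nat_lit 1490078960624) (nat_lit 152) (nat_lit 459566011870) (nat_lit 0) (nat_lit 1433283265243) (nat_lit 2) (nat_lit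 5) (nat_lit 4) (nat_lit 4) (nat_lit 2) (nat_lit 4) (nat_lit 406) (nat_lit 320) (nat_lit 174)) (XT.lf (nat_lit 0) (nat_lit 1658443888355) (nat_lit 152) (nat_lit 389164187391) (nat_lit 0) (nat_lit 1601648137495) (nat_lit 2) (nat_lit 5) (nat_lit 4) (nat_lit 4) (nat_lit 2) (nat_lit 4) (nat_lit 407) (nat_lit 320) (nat_lit 173)))))) (XT.nd (nat_lit 40092) (nat_lit 0) (nat_lit 3952) (XT.nd (nat_lit 156) (nat_lit 0) (nat_lit 0) (XT.nd (nat_lit 78) (nat_lit 0) (nat_lit 0) (XT.lf (nat_lit 0) (nat_lit 1840277909280) (nat_lit 152) (nat_lit 313130418552) (nat_lit 0) (nat_lit 1783482107052) (nat_lit 2) (nat_lit 5) (nat_lit 4) (nat_lit 4) (nat_lit 2) (nat_lit 4) (nat_lit 408) (nat_lit 320) (nat_lit 172)) (XT.lf (nat_lit 0) (nat_lit 2036658558340) (nat_lit 152) (nat_lit 231014134871) (nat_lit 0) (nat_lit 1979862708549) (nat_lit 2) (nat_lit 5) (nat_lit 4) (nat_lit 4) (nat_lit 2) (nat_lit 4) (nat_lit 409)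 (nat_lit 320) (nat_lit 171))) (XT.nd (nat_lit 78) (nat_lit 0) (nat_lit 0) (XT.lf (nat_lit 0) (nat_lit 2248749572714) (nat_lit 152) (nat_lit 142328721335) (nat_lit 0) (nat_lit 2191953678883) (nat_lit 2) (nat_lit 5) (nat_lit 4) (nat_lit 4) (nat_lit 2) (nat_lit 4) (nat_lit 410) (nat_lit 320) (nat_lit 170)) (XT.lf (nat_lit 0) (nat_lit 2477807788043) (nat_lit 152) (nat_lit 46548634751) (nat_lit 0) (nat_lit 2421011853434) (nat_lit 2) (nat_lit 5) (nat_lit 4) (nat_lit 4) (nat_lit 2) (nat_lit 4) (nat_lit 411) (nat_lit 320) (nat_lit 169)))) (XT.nd (nat_lit 156) (nat_lit 0) (nat_lit 76) (XT.nd (nat_lit 78) (nat_lit 0) (nat_lit 0) (XT.lf (nat_lit 0) (nat_lit 7280602193) (nat_lit 532) (nat_lit 1513346895) (nat_lit 532) (nat_lit 1513346895) (nat_lit 54) (nat_lit 3) (nat_lit 61) (nat_lit 3) (nat_lit 61) (nat_lit 5) (nat_lit 321) (nat_lit 321) (nat_lit 258)) (XT.lf (nat_lit 76) (nat_lit 7089475051) (nat_lit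 0) (nat_lit 8368756870) (nat_lit 532) (nat_lit 5955514193) (nat_lit 55) (nat_lit 5) (nat_lit 54) (nat_lit 3) (nat_lit 61) (nat_lit 5) (nat_lit 322) (nat_lit 321) (nat_lit 257))) (XT.nd (nat_lit 78) (nat_lit 0) (nat_lit 0) (XT.lf (nat_lit 0) (nat_lit 16535657698) (nat_lit 456) (nat_lit 4133039900) (nat_lit 532) (nat_lit 1599470441) (nat_lit 55) (nat_lit 5) (nat_lit 61) (nat_lit 5) (nat_lit 62) (nat_lit 5) (nat_lit 323) (nat_lit 321) (nat_lit 256)) (XT.nd (nat_lit 78) (nat_lit 0) (nat_lit 0) (XT.lf (nat_lit 76) (nat_lit 6997303865) (nat_lit 0) (nat_lit 11074242240) (nat_lit 532) (nat_lit 5089640509) (nat_lit 56) (nat_lit 5) (nat_lit 55) (nat_lit 5) (nat_lit 62) (nat_lit 5) (nat_lit 324) (nat_lit 321) (nat_lit 255)) (XT.lf (nat_lit 76) (nat_lit 19244499742) (nat_lit 0) (nat_lit 586207616) (nat_lit 532) (nat_lit 4286929749) (nat_lit 56) (nat_lit 5) (nat_lit 55) (nat_lit 5) (nat_lit 62) (nat_lit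 5) (nat_lit 325) (nat_lit 321) (nat_lit 254))))))))
noncomputable def xc158 : XT := (XT.nd (nat_lit 1326) (nat_lit 1216) (nat_lit 0) (XT.nd (nat_lit 624) (nat_lit 988) (nat_lit 0) (XT.nd (nat_lit 312) (nat_lit 532) (nat_lit 0) (XT.nd (nat_lit 156) (nat_lit 456) (nat_lit 0) (XT.nd (nat_lit 78) (nat_lit 0) (nat_lit 0) (XT.lf (nat_lit 76) (nat_lit 7424946180) (nat_lit 0) (nat_lit 14730962905) (nat_lit 532) (nat_lit 2960690851) (nat_lit 57) (nat_lit 5) (nat_lit 56) (nat_lit 5) (nat_lit 63) (nat_lit 5) (nat_lit 326) (nat_lit 321) (nat_lit 253)) (XT.lf (nat_lit 76) (nat_lit 20959187512) (nat_lit 0) (nat_lit 3845085790) (nat_lit 532) (nat_lit 1380254135) (nat_lit 57) (nat_lit 5) (nat_lit 56) (nat_lit 5) (nat_lit 63) (nat_lit 5) (nat_lit 327) (nat_lit 321) (nat_lit 252))) (XT.nd (nat_lit 78) (nat_lit 0) (nat_lit 0) (XT.lf (nat_lit 0) (nat_lit 703945478) (nat_lit 532) (nat_lit 18862733436) (nat_lit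 76) (nat_lit 7739105070) (nat_lit 50) (nat_lit 5) (nat_lit 57) (nat_lit 5) (nat_lit 51) (nat_lit 5) (nat_lit 328) (nat_lit 321) (nat_lit 251)) (XT.lf (nat_lit 0) (nat_lit 3116959042) (nat_lit 532) (nat_lit 5151990860) (nat_lit 76) (nat_lit 20226006651) (nat_lit 50) (nat_lit 5) (nat_lit 57) (nat_lit 5) (nat_lit 51) (nat_lit 5) (nat_lit 329) (nat_lit 321) (nat_lit 250)))) (XT.nd (nat_lit 156) (nat_lit 228) (nat_lit 0) (XT.nd (nat_lit 78) (nat_lit 0) (nat_lit 0) (XT.lf (nat_lit 0) (nat_lit 6059094764) (nat_lit 380) (nat_lit 19706431340) (nat_lit 76) (nat_lit 3986864564) (nat_lit 46) (nat_lit 5) (nat_lit 51) (nat_lit 5) (nat_lit 47) (nat_lit 5) (nat_lit 330) (nat_lit 321) (nat_lit 249)) (XT.lf (nat_lit 0) (nat_lit 9587297935) (nat_lit 380) (nat_lit 4573967590) (nat_lit 76) (nat_lit 16921111432) (nat_lit 46) (nat_lit 5) (nat_lit 51) (nat_lit 5) (nat_lit 47) (nat_lit 5) (nat_lit 331) (nat_lit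 321) (nat_lit 248))) (XT.nd (nat_lit 78) (nat_lit 0) (nat_lit 0) (XT.lf (nat_lit 0) (nat_lit 12379939529) (nat_lit 228) (nat_lit 1307588352) (nat_lit 304) (nat_lit 18808064823) (nat_lit 43) (nat_lit 5) (nat_lit 46) (nat_lit 5) (nat_lit 47) (nat_lit 5) (nat_lit 332) (nat_lit 321) (nat_lit 247)) (XT.lf (nat_lit 0) (nat_lit 18538908090) (nat_lit 304) (nat_lit 3376074618) (nat_lit 76) (nat_lit 12073043746) (nat_lit 43) (nat_lit 5) (nat_lit 47) (nat_lit 5) (nat_lit 44) (nat_lit 5) (nat_lit 333) (nat_lit 321) (nat_lit 246))))) (XT.nd (nat_lit 312) (nat_lit 304) (nat_lit 0) (XT.nd (nat_lit 156) (nat_lit 456) (nat_lit 0) (XT.nd (nat_lit 78) (nat_lit 0) (nat_lit 0) (XT.lf (nat_lit 0) (nat_lit 15432522684) (nat_lit 228) (nat_lit 8743963156) (nat_lit 304) (nat_lit 11391532551) (nat_lit 40) (nat_lit 5) (nat_lit 43) (nat_lit 5) (nat_lit 44) (nat_lit 5) (nat_lit 334) (nat_lit 321) (nat_lit 245)) (XT.lf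 (nat_lit 0) (nat_lit 30484856625) (nat_lit 304) (nat_lit 1471915800) (nat_lit 76) (nat_lit 5300063994) (nat_lit 40) (nat_lit 5) (nat_lit 44) (nat_lit 5) (nat_lit 41) (nat_lit 5) (nat_lit 335) (nat_lit 321) (nat_lit 244))) (XT.nd (nat_lit 78) (nat_lit 304) (nat_lit 0) (XT.lf (nat_lit 0) (nat_lit 19421306434) (nat_lit 152) (nat_lit 18564557472) (nat_lit 228) (nat_lit 1039867601) (nat_lit 38) (nat_lit 5) (nat_lit 40) (nat_lit 5) (nat_lit 41) (nat_lit 5) (nat_lit 336) (nat_lit 321) (nat_lit 243)) (XT.lf (nat_lit 0) (nat_lit 1056724779) (nat_lit 228) (nat_lit 3897011433) (nat_lit 304) (nat_lit 35967652525) (nat_lit 34) (nat_lit 5) (nat_lit 37) (nat_lit 5) (nat_lit 38) (nat_lit 5) (nat_lit 337) (nat_lit 321) (nat_lit 242)))) (XT.nd (nat_lit 156) (nat_lit 152) (nat_lit 0) (XT.nd (nat_lit 78) (nat_lit 152) (nat_lit 0) (XT.lf (nat_lit 0) (nat_lit 12201944824) (nat_lit 304) (nat_lit 18776531122)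 (nat_lit 76) (nat_lit 11921565245) (nat_lit 34) (nat_lit 5) (nat_lit 38) (nat_lit 5) (nat_lit 35) (nat_lit 5) (nat_lit 338) (nat_lit 321) (nat_lit 241)) (XT.lf (nat_lit 0) (nat_lit 4094653472) (nat_lit 152) (nat_lit 16129593164) (nat_lit 228) (nat_lit 24797206872) (nat_lit 32) (nat_lit 5) (nat_lit 34) (nat_lit 5) (nat_lit 35) (nat_lit 5) (nat_lit 339) (nat_lit 321) (nat_lit 240))) (XT.nd (nat_lit 78) (nat_lit 152) (nat_lit 0) (XT.lf (nat_lit 0) (nat_lit 29407531653) (nat_lit 228) (nat_lit 17427028871) (nat_lit 76) (nat_lit 436488463) (nat_lit 32) (nat_lit 5) (nat_lit 35) (nat_lit 5) (nat_lit 33) (nat_lit 5) (nat_lit 340) (nat_lit 321) (nat_lit 239)) (XT.nd (nat_lit 78) (nat_lit 0) (nat_lit 0) (XT.lf (nat_lit 0) (nat_lit 7922897116) (nat_lit 152) (nat_lit 32007182970) (nat_lit 228) (nat_lit 9722169619) (nat_lit 30) (nat_lit 5) (nat_lit 32) (nat_lit 5) (nat_lit 33) (nat_lit 5) (nat_lit 341)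 (nat_lit 321) (nat_lit 238)) (XT.lf (nat_lit 0) (nat_lit 36284878535) (nat_lit 152) (nat_lit 15481337585) (nat_lit 228) (nat_lit 419992894) (nat_lit 30) (nat_lit 5) (nat_lit 32) (nat_lit 5) (nat_lit 33) (nat_lit 5) (nat_lit 342) (nat_lit 321) (nat_lit 237))))))) (XT.nd (nat_lit 624) (nat_lit 532) (nat_lit 0) (XT.nd (nat_lit 312) (nat_lit 304) (nat_lit 0) (XT.nd (nat_lit 156) (nat_lit 152) (nat_lit 0) (XT.nd (nat_lit 78) (nat_lit 0) (nat_lit 0) (XT.lf (nat_lit 0) (nat_lit 9508527958) (nat_lit 228) (nat_lit 42577872618) (nat_lit 76) (nat_lit 2788870290) (nat_lit 27) (nat_lit 5) (nat_lit 30) (nat_lit 5) (nat_lit 28) (nat_lit 5) (nat_lit 343) (nat_lit 321) (nat_lit 236)) (XT.lf (nat_lit 0) (nat_lit 21052462622) (nat_lit 228) (nat_lit 14519513163) (nat_lit 76) (nat_lit 22139107511) (nat_lit 27) (nat_lit 5) (nat_lit 30) (nat_lit 5) (nat_lit 28) (nat_lit 5) (nat_lit 344) (nat_lit 321) (nat_lit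 235))) (XT.nd (nat_lit 78) (nat_lit 0) (nat_lit 0) (XT.lf (nat_lit 0) (nat_lit 16607950071) (nat_lit 152) (nat_lit 17307352758) (nat_lit 228) (nat_lit 26826830473) (nat_lit 25) (nat_lit 5) (nat_lit 27) (nat_lit 5) (nat_lit 28) (nat_lit 5) (nat_lit 345) (nat_lit 321) (nat_lit 234)) (XT.lf (nat_lit 0) (nat_lit 48268697265) (nat_lit 228) (nat_lit 13007494308) (nat_lit 76) (nat_lit 2702557135) (nat_lit 25) (nat_lit 5) (nat_lit 28) (nat_lit 5) (nat_lit 26) (nat_lit 4) (nat_lit 346) (nat_lit 321) (nat_lit 233)))) (XT.nd (nat_lit 156) (nat_lit 152) (nat_lit 0) (XT.nd (nat_lit 78) (nat_lit 76) (nat_lit 0) (XT.lf (nat_lit 0) (nat_lit 21215071207) (nat_lit 76) (nat_lit 43511411131) (nat_lit 152) (nat_lit 2671324778) (nat_lit 24) (nat_lit 5) (nat_lit 25) (nat_lit 5) (nat_lit 26) (nat_lit 4) (nat_lit 347) (nat_lit 321) (nat_lit 232)) (XT.lf (nat_lit 0) (nat_lit 11200976260) (nat_lit 152) (nat_lit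 12436431261) (nat_lit 76) (nat_lit 47402129623) (nat_lit 23) (nat_lit 5) (nat_lit 25) (nat_lit 5) (nat_lit 24) (nat_lit 5) (nat_lit 348) (nat_lit 321) (nat_lit 231))) (XT.nd (nat_lit 78) (nat_lit 0) (nat_lit 0) (XT.lf (nat_lit 0) (nat_lit 25194971098) (nat_lit 152) (nat_lit 1446366530) (nat_lit 228) (nat_lit 48277511986) (nat_lit 21) (nat_lit 5) (nat_lit 23) (nat_lit 5) (nat_lit 24) (nat_lit 5) (nat_lit 349) (nat_lit 321) (nat_lit 230)) (XT.lf (nat_lit 0) (nat_lit 44204120812) (nat_lit 228) (nat_lit 13093227688) (nat_lit 76) (nat_lit 21740185573) (nat_lit 21) (nat_lit 5) (nat_lit 24) (nat_lit 5) (nat_lit 22) (nat_lit 4) (nat_lit 350) (nat_lit 321) (nat_lit 229))))) (XT.nd (nat_lit 312) (nat_lit 304) (nat_lit 0) (XT.nd (nat_lit 156) (nat_lit 152) (nat_lit 0) (XT.nd (nat_lit 78) (nat_lit 0) (nat_lit 0) (XT.lf (nat_lit 0) (nat_lit 27816580962) (nat_lit 76) (nat_lit 36058867216) (nat_lit 152)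 (nat_lit 19553985630) (nat_lit 20) (nat_lit 5) (nat_lit 21) (nat_lit 5) (nat_lit 22) (nat_lit 4) (nat_lit 351) (nat_lit 321) (nat_lit 228)) (XT.lf (nat_lit 0) (nat_lit 72738705708) (nat_lit 76) (nat_lit 12736834617) (nat_lit 152) (nat_lit 2668742589) (nat_lit 20) (nat_lit 5) (nat_lit 21) (nat_lit 5) (nat_lit 22) (nat_lit 4) (nat_lit 352) (nat_lit 321) (nat_lit 227))) (XT.nd (nat_lit 78) (nat_lit 0) (nat_lit 0) (XT.lf (nat_lit 0) (nat_lit 15812808183) (nat_lit 152) (nat_lit 64383466095) (nat_lit 76) (nat_lit 12928157602) (nat_lit 18) (nat_lit 5) (nat_lit 20) (nat_lit 5) (nat_lit 19) (nat_lit 4) (nat_lit 353) (nat_lit 321) (nat_lit 226)) (XT.lf (nat_lit 0) (nat_lit 36388939768) (nat_lit 152) (nat_lit 21589928513) (nat_lit 76) (nat_lit 40457761639) (nat_lit 18) (nat_lit 5) (nat_lit 20) (nat_lit 5) (nat_lit 19) (nat_lit 4) (nat_lit 354) (nat_lit 321) (nat_lit 225)))) (XT.nd (nat_lit 156) (nat_lit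 228) (nat_lit 0) (XT.nd (nat_lit 78) (nat_lit 0) (nat_lit 0) (XT.lf (nat_lit 0) (nat_lit 25919126843) (nat_lit 76) (nat_lit 33312848849) (nat_lit 152) (nat_lit 44892164534) (nat_lit 17) (nat_lit 5) (nat_lit 18) (nat_lit 5) (nat_lit 19) (nat_lit 4) (nat_lit 355) (nat_lit 321) (nat_lit 224)) (XT.lf (nat_lit 0) (nat_lit 78452315125) (nat_lit 76) (nat_lit 6037986204) (nat_lit 152) (nat_lit 25729323693) (nat_lit 17) (nat_lit 5) (nat_lit 18) (nat_lit 5) (nat_lit 19) (nat_lit 4) (nat_lit 356) (nat_lit 321) (nat_lit 223))) (XT.nd (nat_lit 78) (nat_lit 152) (nat_lit 0) (XT.lf (nat_lit 0) (nat_lit 18756205552) (nat_lit 76) (nat_lit 94025077232) (nat_lit 76) (nat_lit 3940507946) (nat_lit 16) (nat_lit 4) (nat_lit 17) (nat_lit 5) (nat_lit 17) (nat_lit 4) (nat_lit 357) (nat_lit 321) (nat_lit 222)) (XT.nd (nat_lit 78) (nat_lit 76) (nat_lit 0) (XT.lf (nat_lit 0) (nat_lit 19657028250) (nat_lit 152) (nat_lit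 49201228293) (nat_lit 76) (nat_lit 54764527796) (nat_lit 15) (nat_lit 5) (nat_lit 17) (nat_lit 5) (nat_lit 16) (nat_lit 4) (nat_lit 358) (nat_lit 321) (nat_lit 221)) (XT.lf (nat_lit 0) (nat_lit 3534810413) (nat_lit 76) (nat_lit 41477541719) (nat_lit 152) (nat_lit 86048688309) (nat_lit 14) (nat_lit 5) (nat_lit 15) (nat_lit 5) (nat_lit 16) (nat_lit 4) (nat_lit 359) (nat_lit 321) (nat_lit 220))))))))
noncomputable def xc159 : XT := (XT.nd (nat_lit 1326) (nat_lit 380) (nat_lit 0) (XT.nd (nat_lit 624) (nat_lit 228) (nat_lit 0) (XT.nd (nat_lit 312) (nat_lit 152) (nat_lit 0) (XT.nd (nat_lit 156) (nat_lit 152) (nat_lit 0) (XT.nd (nat_lit 78) (nat_lit 0) (nat_lit 0) (XT.lf (nat_lit 0) (nat_lit 63284008040) (nat_lit 76) (nat_lit 10455270911) (nat_lit 152) (nat_lit 65247624880) (nat_lit 14) (nat_lit 5) (nat_lit 15) (nat_lit 5) (nat_lit 16) (nat_lit 4) (nat_lit 360) (nat_lit 321) (nat_lit 219)) (XT.lf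 (nat_lit 0) (nat_lit 105316725971) (nat_lit 152) (nat_lit 20291690568) (nat_lit 0) (nat_lit 21894231362) (nat_lit 14) (nat_lit 5) (nat_lit 16) (nat_lit 4) (nat_lit 14) (nat_lit 4) (nat_lit 361) (nat_lit 321) (nat_lit 218))) (XT.nd (nat_lit 78) (nat_lit 76) (nat_lit 0) (XT.lf (nat_lit 0) (nat_lit 41345726274) (nat_lit 76) (nat_lit 99338760984) (nat_lit 76) (nat_lit 15914035581) (nat_lit 13) (nat_lit 4) (nat_lit 14) (nat_lit 5) (nat_lit 14) (nat_lit 4) (nat_lit 362) (nat_lit 321) (nat_lit 217)) (XT.lf (nat_lit 0) (nat_lit 12403738886) (nat_lit 152) (nat_lit 57627014068) (nat_lit 76) (nat_lit 96321949873) (nat_lit 12) (nat_lit 5) (nat_lit 14) (nat_lit 5) (nat_lit 13) (nat_lit 4) (nat_lit 363) (nat_lit 321) (nat_lit 216)))) (XT.nd (nat_lit 156) (nat_lit 76) (nat_lit 0) (XT.nd (nat_lit 78) (nat_lit 0) (nat_lit 0) (XT.lf (nat_lit 0) (nat_lit 4413082635) (nat_lit 76) (nat_lit 37818545313) (nat_lit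 152) (nat_lit 134614164681) (nat_lit 11) (nat_lit 5) (nat_lit 12) (nat_lit 5) (nat_lit 13) (nat_lit 4) (nat_lit 364) (nat_lit 321) (nat_lit 215)) (XT.lf (nat_lit 0) (nat_lit 74690609267) (nat_lit 76) (nat_lit 1329142482) (nat_lit 152) (nat_lit 112032658183) (nat_lit 11) (nat_lit 5) (nat_lit 12) (nat_lit 5) (nat_lit 13) (nat_lit 4) (nat_lit 365) (nat_lit 321) (nat_lit 214))) (XT.nd (nat_lit 78) (nat_lit 76) (nat_lit 0) (XT.lf (nat_lit 0) (nat_lit 113425202824) (nat_lit 152) (nat_lit 50483966819) (nat_lit 0) (nat_lit 36173245349) (nat_lit 11) (nat_lit 5) (nat_lit 13) (nat_lit 4) (nat_lit 11) (nat_lit 4) (nat_lit 366) (nat_lit 321) (nat_lit 213)) (XT.lf (nat_lit 0) (nat_lit 18302411448) (nat_lit 76) (nat_lit 135993955320) (nat_lit 76) (nat_lit 58740592066) (nat_lit 10) (nat_lit 4) (nat_lit 11) (nat_lit 5) (nat_lit 11) (nat_lit 4) (nat_lit 367) (nat_lit 321) (nat_lit 212))))) (XT.nd (nat_lit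 312) (nat_lit 76) (nat_lit 0) (XT.nd (nat_lit 156) (nat_lit 76) (nat_lit 0) (XT.nd (nat_lit 78) (nat_lit 76) (nat_lit 0) (XT.lf (nat_lit 0) (nat_lit 95460116910) (nat_lit 76) (nat_lit 104356049619) (nat_lit 76) (nat_lit 27101384720) (nat_lit 10) (nat_lit 4) (nat_lit 11) (nat_lit 5) (nat_lit 11) (nat_lit 4) (nat_lit 368) (nat_lit 321) (nat_lit 211)) (XT.lf (nat_lit 0) (nat_lit 6714031359) (nat_lit 152) (nat_lit 63290684900) (nat_lit 76) (nat_lit 171890379311) (nat_lit 9) (nat_lit 5) (nat_lit 11) (nat_lit 5) (nat_lit 10) (nat_lit 4) (nat_lit 369) (nat_lit 321) (nat_lit 210))) (XT.nd (nat_lit 78) (nat_lit 0) (nat_lit 0) (XT.lf (nat_lit 0) (nat_lit 10129872629) (nat_lit 76) (nat_lit 31883040211) (nat_lit 152) (nat_lit 215982223545) (nat_lit 8) (nat_lit 5) (nat_lit 9) (nat_lit 5) (nat_lit 10) (nat_lit 4) (nat_lit 370) (nat_lit 321) (nat_lit 209)) (XT.lf (nat_lit 0) (nat_lit 82133313110) (nat_lit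 152) (nat_lit 182491949059) (nat_lit 0) (nat_lit 10598109990) (nat_lit 8) (nat_lit 5) (nat_lit 10) (nat_lit 4) (nat_lit 8) (nat_lit 4) (nat_lit 371) (nat_lit 321) (nat_lit 208)))) (XT.nd (nat_lit 156) (nat_lit 76) (nat_lit 0) (XT.nd (nat_lit 78) (nat_lit 0) (nat_lit 0) (XT.lf (nat_lit 0) (nat_lit 126290361263) (nat_lit 152) (nat_lit 112719072326) (nat_lit 0) (nat_lit 54754272265) (nat_lit 8) (nat_lit 5) (nat_lit 10) (nat_lit 4) (nat_lit 8) (nat_lit 4) (nat_lit 372) (nat_lit 321) (nat_lit 207)) (XT.lf (nat_lit 0) (nat_lit 173978940813) (nat_lit 152) (nat_lit 37366376775) (nat_lit 0) (nat_lit 102442031556) (nat_lit 8) (nat_lit 5) (nat_lit 10) (nat_lit 4) (nat_lit 8) (nat_lit 4) (nat_lit 373) (nat_lit 321) (nat_lit 206))) (XT.nd (nat_lit 78) (nat_lit 0) (nat_lit 0) (XT.lf (nat_lit 0) (nat_lit 46330301402) (nat_lit 76) (nat_lit 180265594210) (nat_lit 76) (nat_lit 108727925455) (nat_lit 7)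 (nat_lit 4) (nat_lit 8) (nat_lit 5) (nat_lit 8) (nat_lit 4) (nat_lit 374) (nat_lit 321) (nat_lit 205)) (XT.nd (nat_lit 78) (nat_lit 0) (nat_lit 0) (XT.lf (nat_lit 0) (nat_lit 138845957604) (nat_lit 76) (nat_lit 145596983331) (nat_lit 76) (nat_lit 74058611337) (nat_lit 7) (nat_lit 4) (nat_lit 8) (nat_lit 5) (nat_lit 8) (nat_lit 4) (nat_lit 375) (nat_lit 321) (nat_lit 204)) (XT.lf (nat_lit 0) (nat_lit 238761185575) (nat_lit 76) (nat_lit 108155704291) (nat_lit 76) (nat_lit 36616681150) (nat_lit 7) (nat_lit 4) (nat_lit 8) (nat_lit 5) (nat_lit 8) (nat_lit 4) (nat_lit 376) (nat_lit 321) (nat_lit 203))))))) (XT.nd (nat_lit 702) (nat_lit 152) (nat_lit 0) (XT.nd (nat_lit 312) (nat_lit 76) (nat_lit 0) (XT.nd (nat_lit 156) (nat_lit 0) (nat_lit 0) (XT.nd (nat_lit 78) (nat_lit 76) (nat_lit 0) (XT.lf (nat_lit 0) (nat_lit 3628664185) (nat_lit 152) (nat_lit 63992004550) (nat_lit 76) (nat_lit 342940197260)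 (nat_lit 6) (nat_lit 5) (nat_lit 8) (nat_lit 5) (nat_lit 7) (nat_lit 4) (nat_lit 377) (nat_lit 321) (nat_lit 202)) (XT.lf (nat_lit 0) (nat_lit 23472429167) (nat_lit 76) (nat_lit 22206711927) (nat_lit 152) (nat_lit 393950016594) (nat_lit 5) (nat_lit 5) (nat_lit 6) (nat_lit 5) (nat_lit 7) (nat_lit 4) (nat_lit 378) (nat_lit 321) (nat_lit 201))) (XT.nd (nat_lit 78) (nat_lit 0) (nat_lit 0) (XT.lf (nat_lit 0) (nat_lit 93533515509) (nat_lit 152) (nat_lit 350002083135) (nat_lit 0) (nat_lit 27292125499) (nat_lit 5) (nat_lit 5) (nat_lit 7) (nat_lit 4) (nat_lit 5) (nat_lit 4) (nat_lit 379) (nat_lit 321) (nat_lit 200)) (XT.lf (nat_lit 0) (nat_lit 145792340950) (nat_lit 152) (nat_lit 279133239265) (nat_lit 0) (nat_lit 79550507780) (nat_lit 5) (nat_lit 5) (nat_lit 7) (nat_lit 4) (nat_lit 5) (nat_lit 4) (nat_lit 380) (nat_lit 321) (nat_lit 199)))) (XT.nd (nat_lit 156) (nat_lit 76) (nat_lit 0) (XT.nd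 (nat_lit 78) (nat_lit 0) (nat_lit 0) (XT.lf (nat_lit 0) (nat_lit 202231227389) (nat_lit 152) (nat_lit 202596161436) (nat_lit 0) (nat_lit 135988983885) (nat_lit 5) (nat_lit 5) (nat_lit 7) (nat_lit 4) (nat_lit 5) (nat_lit 4) (nat_lit 381) (nat_lit 321) (nat_lit 198)) (XT.lf (nat_lit 0) (nat_lit 263184627485) (nat_lit 152) (nat_lit 119937296593) (nat_lit 0) (nat_lit 196942004044) (nat_lit 5) (nat_lit 5) (nat_lit 7) (nat_lit 4) (nat_lit 5) (nat_lit 4) (nat_lit 382) (nat_lit 321) (nat_lit 197))) (XT.nd (nat_lit 78) (nat_lit 76) (nat_lit 0) (XT.lf (nat_lit 0) (nat_lit 329013746574) (nat_lit 152) (nat_lit 30666814427) (nat_lit 0) (nat_lit 262770771338) (nat_lit 5) (nat_lit 5) (nat_lit 7) (nat_lit 4) (nat_lit 5) (nat_lit 4) (nat_lit 383) (nat_lit 321) (nat_lit 196)) (XT.nd (nat_lit 78) (nat_lit 0) (nat_lit 0) (XT.lf (nat_lit 0) (nat_lit 69206273409) (nat_lit 76) (nat_lit 332566822269) (nat_lit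 76) (nat_lit 266323521297) (nat_lit 4) (nat_lit 4) (nat_lit 5) (nat_lit 5) (nat_lit 5) (nat_lit 4) (nat_lit 384) (nat_lit 321) (nat_lit 195)) (XT.lf (nat_lit 0) (nat_lit 178812271792) (nat_lit 76) (nat_lit 302378908150) (nat_lit 76) (nat_lit 236135305572) (nat_lit 4) (nat_lit 4) (nat_lit 5) (nat_lit 5) (nat_lit 5) (nat_lit 4) (nat_lit 385) (nat_lit 321) (nat_lit 194)))))) (XT.nd (nat_lit 312) (nat_lit 152) (nat_lit 0) (XT.nd (nat_lit 156) (nat_lit 0) (nat_lit 0) (XT.nd (nat_lit 78) (nat_lit 0) (nat_lit 0) (XT.lf (nat_lit 0) (nat_lit 297185837647) (nat_lit 76) (nat_lit 269776412356) (nat_lit 76) (nat_lit 203532530512) (nat_lit 4) (nat_lit 4) (nat_lit 5) (nat_lit 5) (nat_lit 5) (nat_lit 4) (nat_lit 386) (nat_lit 321) (nat_lit 193)) (XT.lf (nat_lit 0) (nat_lit 425028443957) (nat_lit 76) (nat_lit 234566134912) (nat_lit 76) (nat_lit 168321994488) (nat_lit 4) (nat_lit 4) (nat_lit 5) (nat_lit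 5) (nat_lit 5) (nat_lit 4) (nat_lit 387) (nat_lit 321) (nat_lit 192))) (XT.nd (nat_lit 78) (nat_lit 0) (nat_lit 0) (XT.lf (nat_lit 0) (nat_lit 563097676537) (nat_lit 76) (nat_lit 196539422321) (nat_lit 76) (nat_lit 130295042471) (nat_lit 4) (nat_lit 4) (nat_lit 5) (nat_lit 5) (nat_lit 5) (nat_lit 4) (nat_lit 388) (nat_lit 321) (nat_lit 191)) (XT.lf (nat_lit 0) (nat_lit 712211723432) (nat_lit 76) (nat_lit 155470931101) (nat_lit 76) (nat_lit 89226329561) (nat_lit 4) (nat_lit 4) (nat_lit 5) (nat_lit 5) (nat_lit 5) (nat_lit 4) (nat_lit 389) (nat_lit 321) (nat_lit 190)))) (XT.nd (nat_lit 156) (nat_lit 76) (nat_lit 0) (XT.nd (nat_lit 78) (nat_lit 76) (nat_lit 0) (XT.lf (nat_lit 0) (nat_lit 873254223438) (nat_lit 76) (nat_lit 111117292415) (nat_lit 76) (nat_lit 44872485606) (nat_lit 4) (nat_lit 4) (nat_lit 5) (nat_lit 5) (nat_lit 5) (nat_lit 4) (nat_lit 390) (nat_lit 321) (nat_lit 189)) (XT.lf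 (nat_lit 0) (nat_lit 2877787780) (nat_lit 152) (nat_lit 60259198289) (nat_lit 76) (nat_lit 1044223030883) (nat_lit 3) (nat_lit 5) (nat_lit 5) (nat_lit 5) (nat_lit 4) (nat_lit 4) (nat_lit 391) (nat_lit 321) (nat_lit 188))) (XT.nd (nat_lit 78) (nat_lit 0) (nat_lit 0) (XT.lf (nat_lit 0) (nat_lit 44173453017) (nat_lit 76) (nat_lit 8912424807) (nat_lit 152) (nat_lit 1138461228429) (nat_lit 2) (nat_lit 5) (nat_lit 3) (nat_lit 5) (nat_lit 4) (nat_lit 4) (nat_lit 392) (nat_lit 321) (nat_lit 187)) (XT.nd (nat_lit 78) (nat_lit 0) (nat_lit 0) (XT.lf (nat_lit 0) (nat_lit 110194792379) (nat_lit 152) (nat_lit 1123187117705) (nat_lit 0) (nat_lit 48856518484) (nat_lit 2) (nat_lit 5) (nat_lit 4) (nat_lit 4) (nat_lit 2) (nat_lit 4) (nat_lit 393) (nat_lit 321) (nat_lit 186)) (XT.lf (nat_lit 0) (nat_lit 172103636909) (nat_lit 152) (nat_lit 1097297699157) (nat_lit 0) (nat_lit 110765223311) (nat_lit 2) (nat_lit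 5) (nat_lit 4) (nat_lit 4) (nat_lit 2) (nat_lit 4) (nat_lit 394) (nat_lit 321) (nat_lit 185))))))))
noncomputable def xc160 : XT := (XT.nd (nat_lit 41184) (nat_lit 0) (nat_lit 2432) (XT.nd (nat_lit 624) (nat_lit 0) (nat_lit 0) (XT.nd (nat_lit 312) (nat_lit 0) (nat_lit 0) (XT.nd (nat_lit 156) (nat_lit 0) (nat_lit 0) (XT.nd (nat_lit 78) (nat_lit 0) (nat_lit 0) (XT.lf (nat_lit 0) (nat_lit 238964934608) (nat_lit 152) (nat_lit 1069337634785) (nat_lit 0) (nat_lit 177626391656) (nat_lit 2) (nat_lit 5) (nat_lit 4) (nat_lit 4) (nat_lit 2) (nat_lit 4) (nat_lit 395) (nat_lit 321) (nat_lit 184)) (XT.lf (nat_lit 0) (nat_lit 311174900574) (nat_lit 152) (nat_lit 1039141235319) (nat_lit 0) (nat_lit 249836237850) (nat_lit 2) (nat_lit 5) (nat_lit 4) (nat_lit 4) (nat_lit 2) (nat_lit 4) (nat_lit 396) (nat_lit 321) (nat_lit 183))) (XT.nd (nat_lit 78) (nat_lit 0) (nat_lit 0) (XT.lf (nat_lit 0) (nat_lit 389161445716)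 (nat_lit 152) (nat_lit 1006529559133) (nat_lit 0) (nat_lit 327822672092) (nat_lit 2) (nat_lit 5) (nat_lit 4) (nat_lit 4) (nat_lit 2) (nat_lit 4) (nat_lit 397) (nat_lit 321) (nat_lit 182)) (XT.lf (nat_lit 0) (nat_lit 473386712525) (nat_lit 152) (nat_lit 971309351849) (nat_lit 0) (nat_lit 412047836215) (nat_lit 2) (nat_lit 5) (nat_lit 4) (nat_lit 4) (nat_lit 2) (nat_lit 4) (nat_lit 398) (nat_lit 321) (nat_lit 181)))) (XT.nd (nat_lit 156) (nat_lit 0) (nat_lit 0) (XT.nd (nat_lit 78) (nat_lit 0) (nat_lit 0) (XT.lf (nat_lit 0) (nat_lit 564349813693) (nat_lit 152) (nat_lit 933271901128) (nat_lit 0) (nat_lit 503010842304) (nat_lit 2) (nat_lit 5) (nat_lit 4) (nat_lit 4) (nat_lit 2) (nat_lit 4) (nat_lit 399) (nat_lit 321) (nat_lit 180)) (XT.lf (nat_lit 0) (nat_lit 662589789818) (nat_lit 152) (nat_lit 892191799853) (nat_lit 0) (nat_lit 601250730393) (nat_lit 2) (nat_lit 5) (nat_lit 4) (nat_lit 4)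 (nat_lit 2) (nat_lit 4) (nat_lit 400) (nat_lit 321) (nat_lit 179))) (XT.nd (nat_lit 78) (nat_lit 0) (nat_lit 0) (XT.lf (nat_lit 0) (nat_lit 768688803723) (nat_lit 152) (nat_lit 847825610389) (nat_lit 0) (nat_lit 707349662782) (nat_lit 2) (nat_lit 5) (nat_lit 4) (nat_lit 4) (nat_lit 2) (nat_lit 4) (nat_lit 401) (nat_lit 321) (nat_lit 178)) (XT.lf (nat_lit 0) (nat_lit 883275590304) (nat_lit 152) (nat_lit 799910421983) (nat_lit 0) (nat_lit 821936373887) (nat_lit 2) (nat_lit 5) (nat_lit 4) (nat_lit 4) (nat_lit 2) (nat_lit 4) (nat_lit 402) (nat_lit 321) (nat_lit 177))))) (XT.nd (nat_lit 312) (nat_lit 0) (nat_lit 0) (XT.nd (nat_lit 156) (nat_lit 0) (nat_lit 0) (XT.nd (nat_lit 78) (nat_lit 0) (nat_lit 0) (XT.lf (nat_lit 0) (nat_lit 1007029182372) (nat_lit 152) (nat_lit 748162292776) (nat_lit 0) (nat_lit 945689896069) (nat_lit 2) (nat_lit 5) (nat_lit 4) (nat_lit 4) (nat_lit 2) (nat_lit 4) (nat_lit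 403) (nat_lit 321) (nat_lit 176)) (XT.lf (nat_lit 0) (nat_lit 1140682934545) (nat_lit 152) (nat_lit 692274567190) (nat_lit 0) (nat_lit 1079343583533) (nat_lit 2) (nat_lit 5) (nat_lit 4) (nat_lit 4) (nat_lit 2) (nat_lit 4) (nat_lit 404) (nat_lit 321) (nat_lit 175))) (XT.nd (nat_lit 78) (nat_lit 0) (nat_lit 0) (XT.lf (nat_lit 0) (nat_lit 1285028869059) (nat_lit 152) (nat_lit 631916058702) (nat_lit 0) (nat_lit 1223689458131) (nat_lit 2) (nat_lit 5) (nat_lit 4) (nat_lit 4) (nat_lit 2) (nat_lit 4) (nat_lit 405) (nat_lit 321) (nat_lit 174)) (XT.lf (nat_lit 0) (nat_lit 1440922369230) (nat_lit 152) (nat_lit 566729087262) (nat_lit 0) (nat_lit 1379582902824) (nat_lit 2) (nat_lit 5) (nat_lit 4) (nat_lit 4) (nat_lit 2) (nat_lit 4) (nat_lit 406) (nat_lit 321) (nat_lit 173)))) (XT.nd (nat_lit 156) (nat_lit 0) (nat_lit 0) (XT.nd (nat_lit 78) (nat_lit 0) (nat_lit 0) (XT.lf (nat_lit 0) (nat_lit 1609287248391)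 (nat_lit 152) (nat_lit 496327359705) (nat_lit 0) (nat_lit 1547947730617) (nat_lit 2) (nat_lit 5) (nat_lit 4) (nat_lit 4) (nat_lit 2) (nat_lit 4) (nat_lit 407) (nat_lit 321) (nat_lit 172)) (XT.lf (nat_lit 0) (nat_lit 1791121224346) (nat_lit 152) (nat_lit 420293680609) (nat_lit 0) (nat_lit 1729781659008) (nat_lit 2) (nat_lit 5) (nat_lit 4) (nat_lit 4) (nat_lit 2) (nat_lit 4) (nat_lit 408) (nat_lit 321) (nat_lit 171))) (XT.nd (nat_lit 78) (nat_lit 0) (nat_lit 0) (XT.lf (nat_lit 0) (nat_lit 1987501831766) (nat_lit 152) (nat_lit 338177480024) (nat_lit 0) (nat_lit 1926162222388) (nat_lit 2) (nat_lit 5) (nat_lit 4) (nat_lit 4) (nat_lit 2) (nat_lit 4) (nat_lit 409) (nat_lit 321) (nat_lit 170)) (XT.nd (nat_lit 78) (nat_lit 0) (nat_lit 0) (XT.lf (nat_lit 0) (nat_lit 2199592807585) (nat_lit 152) (nat_lit 249492143427) (nat_lit 0) (nat_lit 2138253157429) (nat_lit 2) (nat_lit 5) (nat_lit 4) (nat_lit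 4) (nat_lit 2) (nat_lit 4) (nat_lit 410) (nat_lit 321) (nat_lit 169)) (XT.lf (nat_lit 0) (nat_lit 2428650987214) (nat_lit 152) (nat_lit 153712128084) (nat_lit 0) (nat_lit 2367311299301) (nat_lit 2) (nat_lit 5) (nat_lit 4) (nat_lit 4) (nat_lit 2) (nat_lit 4) (nat_lit 411) (nat_lit 321) (nat_lit 168))))))) (XT.nd (nat_lit 624) (nat_lit 1216) (nat_lit 0) (XT.nd (nat_lit 312) (nat_lit 304) (nat_lit 0) (XT.nd (nat_lit 156) (nat_lit 0) (nat_lit 76) (XT.nd (nat_lit 78) (nat_lit 0) (nat_lit 0) (XT.lf (nat_lit 0) (nat_lit 8003662619) (nat_lit 532) (nat_lit 1558355604) (nat_lit 532) (nat_lit 1558355604) (nat_lit 54) (nat_lit 3) (nat_lit 61) (nat_lit 3) (nat_lit 61) (nat_lit 5) (nat_lit 322) (nat_lit 322) (nat_lit 256)) (XT.lf (nat_lit 76) (nat_lit 7804900050) (nat_lit 0) (nat_lit 9153949307) (nat_lit 532) (nat_lit 6146404079) (nat_lit 55) (nat_lit 5) (nat_lit 54) (nat_lit 3) (nat_lit 61) (nat_lit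 5) (nat_lit 323) (nat_lit 322) (nat_lit 255))) (XT.nd (nat_lit 78) (nat_lit 0) (nat_lit 0) (XT.lf (nat_lit 0) (nat_lit 18100340397) (nat_lit 456) (nat_lit 4303829615) (nat_lit 532) (nat_lit 1625664641) (nat_lit 55) (nat_lit 5) (nat_lit 61) (nat_lit 5) (nat_lit 62) (nat_lit 5) (nat_lit 324) (nat_lit 322) (nat_lit 254)) (XT.lf (nat_lit 76) (nat_lit 7712894729) (nat_lit 0) (nat_lit 12032038960) (nat_lit 532) (nat_lit 5250526943) (nat_lit 56) (nat_lit 5) (nat_lit 55) (nat_lit 5) (nat_lit 62) (nat_lit 5) (nat_lit 325) (nat_lit 322) (nat_lit 253)))) (XT.nd (nat_lit 156) (nat_lit 380) (nat_lit 0) (XT.nd (nat_lit 78) (nat_lit 0) (nat_lit 76) (XT.lf (nat_lit 76) (nat_lit 20928325049) (nat_lit 0) (nat_lit 699638800) (nat_lit 532) (nat_lit 4401842642) (nat_lit 56) (nat_lit 5) (nat_lit 55) (nat_lit 5) (nat_lit 62) (nat_lit 5) (nat_lit 326) (nat_lit 322) (nat_lit 252)) (XT.lf (nat_lit 76) (nat_lit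 8177919652) (nat_lit 0) (nat_lit 15947989047) (nat_lit 532) (nat_lit 2983867459) (nat_lit 57) (nat_lit 5) (nat_lit 56) (nat_lit 5) (nat_lit 63) (nat_lit 5) (nat_lit 327) (nat_lit 322) (nat_lit 251))) (XT.nd (nat_lit 78) (nat_lit 456) (nat_lit 0) (XT.lf (nat_lit 76) (nat_lit 22783124159) (nat_lit 0) (nat_lit 4188386273) (nat_lit 532) (nat_lit 1292823855) (nat_lit 57) (nat_lit 5) (nat_lit 56) (nat_lit 5) (nat_lit 63) (nat_lit 5) (nat_lit 328) (nat_lit 322) (nat_lit 250)) (XT.lf (nat_lit 0) (nat_lit 937397005) (nat_lit 532) (nat_lit 20203258457) (nat_lit 76) (nat_lit 8335142828) (nat_lit 50) (nat_lit 5) (nat_lit 57) (nat_lit 5) (nat_lit 51) (nat_lit 5) (nat_lit 329) (nat_lit 322) (nat_lit 249))))) (XT.nd (nat_lit 312) (nat_lit 684) (nat_lit 0) (XT.nd (nat_lit 156) (nat_lit 228) (nat_lit 0) (XT.nd (nat_lit 78) (nat_lit 304) (nat_lit 0) (XT.lf (nat_lit 0) (nat_lit 3530330477) (nat_lit 532)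 (nat_lit 5408137486) (nat_lit 76) (nat_lit 21822706955) (nat_lit 50) (nat_lit 5) (nat_lit 57) (nat_lit 5) (nat_lit 51) (nat_lit 5) (nat_lit 330) (nat_lit 322) (nat_lit 248)) (XT.lf (nat_lit 0) (nat_lit 6699261732) (nat_lit 380) (nat_lit 21118119933) (nat_lit 76) (nat_lit 4302527159) (nat_lit 46) (nat_lit 5) (nat_lit 51) (nat_lit 5) (nat_lit 47) (nat_lit 5) (nat_lit 331) (nat_lit 322) (nat_lit 247))) (XT.nd (nat_lit 78) (nat_lit 228) (nat_lit 0) (XT.lf (nat_lit 0) (nat_lit 10498207129) (nat_lit 380) (nat_lit 4787268409) (nat_lit 76) (nat_lit 18271757226) (nat_lit 46) (nat_lit 5) (nat_lit 51) (nat_lit 5) (nat_lit 47) (nat_lit 5) (nat_lit 332) (nat_lit 322) (nat_lit 246)) (XT.lf (nat_lit 0) (nat_lit 13519087568) (nat_lit 228) (nat_lit 1400284275) (nat_lit 304) (nat_lit 20164716938) (nat_lit 43) (nat_lit 5) (nat_lit 46) (nat_lit 5) (nat_lit 47) (nat_lit 5) (nat_lit 333) (nat_lit 322) (nat_lit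 245)))) (XT.nd (nat_lit 156) (nat_lit 456) (nat_lit 0) (XT.nd (nat_lit 78) (nat_lit 228) (nat_lit 0) (XT.lf (nat_lit 0) (nat_lit 20148991287) (nat_lit 304) (nat_lit 3498366372) (nat_lit 76) (nat_lit 13049364377) (nat_lit 43) (nat_lit 5) (nat_lit 47) (nat_lit 5) (nat_lit 44) (nat_lit 5) (nat_lit 334) (nat_lit 322) (nat_lit 244)) (XT.lf (nat_lit 0) (nat_lit 16811177089) (nat_lit 228) (nat_lit 9420457411) (nat_lit 304) (nat_lit 12171968081) (nat_lit 40) (nat_lit 5) (nat_lit 43) (nat_lit 5) (nat_lit 44) (nat_lit 5) (nat_lit 335) (nat_lit 322) (nat_lit 243))) (XT.nd (nat_lit 78) (nat_lit 456) (nat_lit 0) (XT.lf (nat_lit 0) (nat_lit 33036222462) (nat_lit 304) (nat_lit 1447672608) (nat_lit 76) (nat_lit 5744320136) (nat_lit 40) (nat_lit 5) (nat_lit 44) (nat_lit 5) (nat_lit 41) (nat_lit 5) (nat_lit 336) (nat_lit 322) (nat_lit 242)) (XT.nd (nat_lit 78) (nat_lit 304) (nat_lit 0) (XT.lf (nat_lit 0)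 (nat_lit 21113412558) (nat_lit 152) (nat_lit 20018887270) (nat_lit 228) (nat_lit 1006734908) (nat_lit 38) (nat_lit 5) (nat_lit 40) (nat_lit 5) (nat_lit 41) (nat_lit 5) (nat_lit 337) (nat_lit 322) (nat_lit 241)) (XT.lf (nat_lit 0) (nat_lit 1281967446) (nat_lit 228) (nat_lit 4173769390) (nat_lit 304) (nat_lit 38730778307) (nat_lit 34) (nat_lit 5) (nat_lit 37) (nat_lit 5) (nat_lit 38) (nat_lit 5) (nat_lit 338) (nat_lit 322) (nat_lit 240))))))))
noncomputable def xc161 : XT := (XT.nd (nat_lit 1326) (nat_lit 760) (nat_lit 0) (XT.nd (nat_lit 624) (nat_lit 532) (nat_lit 0) (XT.nd (nat_lit 312) (nat_lit 380) (nat_lit 0) (XT.nd (nat_lit 156) (nat_lit 152) (nat_lit 0) (XT.nd (nat_lit 78) (nat_lit 152) (nat_lit 0) (XT.lf (nat_lit 0) (nat_lit 13276751844) (nat_lit 304) (nat_lit 20141202171) (nat_lit 76) (nat_lit 12906079323) (nat_lit 34) (nat_lit 5) (nat_lit 38) (nat_lit 5) (nat_lit 35) (nat_lit 5)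 (nat_lit 339) (nat_lit 322) (nat_lit 239)) (XT.lf (nat_lit 0) (nat_lit 4556197407) (nat_lit 152) (nat_lit 17380554902) (nat_lit 228) (nat_lit 26678741989) (nat_lit 32) (nat_lit 5) (nat_lit 34) (nat_lit 5) (nat_lit 35) (nat_lit 5) (nat_lit 340) (nat_lit 322) (nat_lit 238))) (XT.nd (nat_lit 78) (nat_lit 152) (nat_lit 0) (XT.lf (nat_lit 0) (nat_lit 31848572751) (nat_lit 228) (nat_lit 18690913922) (nat_lit 76) (nat_lit 506069097) (nat_lit 32) (nat_lit 5) (nat_lit 35) (nat_lit 5) (nat_lit 33) (nat_lit 5) (nat_lit 341) (nat_lit 322) (nat_lit 237)) (XT.lf (nat_lit 0) (nat_lit 8683707986) (nat_lit 152) (nat_lit 34525719918) (nat_lit 228) (nat_lit 10408111972) (nat_lit 30) (nat_lit 5) (nat_lit 32) (nat_lit 5) (nat_lit 33) (nat_lit 5) (nat_lit 342) (nat_lit 322) (nat_lit 236)))) (XT.nd (nat_lit 156) (nat_lit 152) (nat_lit 0) (XT.nd (nat_lit 78) (nat_lit 228) (nat_lit 0) (XT.lf (nat_lit 0) (nat_lit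 39305242059) (nat_lit 152) (nat_lit 16680920805) (nat_lit 228) (nat_lit 368563422) (nat_lit 30) (nat_lit 5) (nat_lit 32) (nat_lit 5) (nat_lit 33) (nat_lit 5) (nat_lit 343) (nat_lit 322) (nat_lit 235)) (XT.lf (nat_lit 0) (nat_lit 10347850086) (nat_lit 228) (nat_lit 45859984151) (nat_lit 76) (nat_lit 3051092098) (nat_lit 27) (nat_lit 5) (nat_lit 30) (nat_lit 5) (nat_lit 28) (nat_lit 5) (nat_lit 344) (nat_lit 322) (nat_lit 234))) (XT.nd (nat_lit 78) (nat_lit 152) (nat_lit 0) (XT.lf (nat_lit 0) (nat_lit 22809474345) (nat_lit 228) (nat_lit 15566149885) (nat_lit 76) (nat_lit 23946451098) (nat_lit 27) (nat_lit 5) (nat_lit 30) (nat_lit 5) (nat_lit 28) (nat_lit 5) (nat_lit 345) (nat_lit 322) (nat_lit 233)) (XT.lf (nat_lit 0) (nat_lit 18048600931) (nat_lit 152) (nat_lit 18650041116) (nat_lit 228) (nat_lit 28897188411) (nat_lit 25) (nat_lit 5) (nat_lit 27) (nat_lit 5) (nat_lit 28) (nat_lit 5) (nat_lit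 346) (nat_lit 322) (nat_lit 232))))) (XT.nd (nat_lit 312) (nat_lit 228) (nat_lit 0) (XT.nd (nat_lit 156) (nat_lit 228) (nat_lit 0) (XT.nd (nat_lit 78) (nat_lit 76) (nat_lit 0) (XT.lf (nat_lit 0) (nat_lit 52196047383) (nat_lit 228) (nat_lit 13940056195) (nat_lit 76) (nat_lit 2955617133) (nat_lit 25) (nat_lit 5) (nat_lit 28) (nat_lit 5) (nat_lit 26) (nat_lit 4) (nat_lit 347) (nat_lit 322) (nat_lit 231)) (XT.lf (nat_lit 0) (nat_lit 23017579430) (nat_lit 76) (nat_lit 46950530261) (nat_lit 152) (nat_lit 2816386157) (nat_lit 24) (nat_lit 5) (nat_lit 25) (nat_lit 5) (nat_lit 26) (nat_lit 4) (nat_lit 348) (nat_lit 322) (nat_lit 230))) (XT.nd (nat_lit 78) (nat_lit 152) (nat_lit 0) (XT.lf (nat_lit 0) (nat_lit 12157434659) (nat_lit 152) (nat_lit 13330616633) (nat_lit 76) (nat_lit 51229771130) (nat_lit 23) (nat_lit 5) (nat_lit 25) (nat_lit 5) (nat_lit 24) (nat_lit 5) (nat_lit 349) (nat_lit 322) (nat_lit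 229)) (XT.lf (nat_lit 0) (nat_lit 27308747811) (nat_lit 152) (nat_lit 1522165719) (nat_lit 228) (nat_lit 52076738775) (nat_lit 21) (nat_lit 5) (nat_lit 23) (nat_lit 5) (nat_lit 24) (nat_lit 5) (nat_lit 350) (nat_lit 322) (nat_lit 228)))) (XT.nd (nat_lit 156) (nat_lit 152) (nat_lit 0) (XT.nd (nat_lit 78) (nat_lit 76) (nat_lit 0) (XT.lf (nat_lit 0) (nat_lit 47795291894) (nat_lit 228) (nat_lit 14046311399) (nat_lit 76) (nat_lit 23514505666) (nat_lit 21) (nat_lit 5) (nat_lit 24) (nat_lit 5) (nat_lit 22) (nat_lit 4) (nat_lit 351) (nat_lit 322) (nat_lit 227)) (XT.lf (nat_lit 0) (nat_lit 30133892715) (nat_lit 76) (nat_lit 38904582656) (nat_lit 152) (nat_lit 21061036312) (nat_lit 20) (nat_lit 5) (nat_lit 21) (nat_lit 5) (nat_lit 22) (nat_lit 4) (nat_lit 352) (nat_lit 322) (nat_lit 226))) (XT.nd (nat_lit 78) (nat_lit 152) (nat_lit 0) (XT.lf (nat_lit 0) (nat_lit 78642973716) (nat_lit 76) (nat_lit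 13719675889) (nat_lit 152) (nat_lit 2829215914) (nat_lit 20) (nat_lit 5) (nat_lit 21) (nat_lit 5) (nat_lit 22) (nat_lit 4) (nat_lit 353) (nat_lit 322) (nat_lit 225)) (XT.nd (nat_lit 78) (nat_lit 0) (nat_lit 0) (XT.lf (nat_lit 0) (nat_lit 17127422604) (nat_lit 152) (nat_lit 69445473556) (nat_lit 76) (nat_lit 13997493302) (nat_lit 18) (nat_lit 5) (nat_lit 20) (nat_lit 5) (nat_lit 19) (nat_lit 4) (nat_lit 354) (nat_lit 322) (nat_lit 224)) (XT.lf (nat_lit 0) (nat_lit 39345971400) (nat_lit 152) (nat_lit 23235021103) (nat_lit 76) (nat_lit 43726866915) (nat_lit 18) (nat_lit 5) (nat_lit 20) (nat_lit 5) (nat_lit 19) (nat_lit 4) (nat_lit 355) (nat_lit 322) (nat_lit 223))))))) (XT.nd (nat_lit 624) (nat_lit 380) (nat_lit 0) (XT.nd (nat_lit 312) (nat_lit 152) (nat_lit 0) (XT.nd (nat_lit 156) (nat_lit 152) (nat_lit 0) (XT.nd (nat_lit 78) (nat_lit 0) (nat_lit 0) (XT.lf (nat_lit 0) (nat_lit 28072680158)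 (nat_lit 76) (nat_lit 35942293380) (nat_lit 152) (nat_lit 48435517184) (nat_lit 17) (nat_lit 5) (nat_lit 18) (nat_lit 5) (nat_lit 19) (nat_lit 4) (nat_lit 356) (nat_lit 322) (nat_lit 222)) (XT.lf (nat_lit 0) (nat_lit 84802595860) (nat_lit 76) (nat_lit 6488077529) (nat_lit 152) (nat_lit 27743206151) (nat_lit 17) (nat_lit 5) (nat_lit 18) (nat_lit 5) (nat_lit 19) (nat_lit 4) (nat_lit 357) (nat_lit 322) (nat_lit 221))) (XT.nd (nat_lit 78) (nat_lit 76) (nat_lit 0) (XT.lf (nat_lit 0) (nat_lit 20331380903) (nat_lit 76) (nat_lit 101513034185) (nat_lit 76) (nat_lit 4211846630) (nat_lit 16) (nat_lit 4) (nat_lit 17) (nat_lit 5) (nat_lit 17) (nat_lit 4) (nat_lit 358) (nat_lit 322) (nat_lit 220)) (XT.lf (nat_lit 0) (nat_lit 21268206989) (nat_lit 152) (nat_lit 53066127174) (nat_lit 76) (nat_lit 59175164833) (nat_lit 15) (nat_lit 5) (nat_lit 17) (nat_lit 5) (nat_lit 16) (nat_lit 4) (nat_lit 359) (nat_lit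 322) (nat_lit 219)))) (XT.nd (nat_lit 156) (nat_lit 76) (nat_lit 0) (XT.nd (nat_lit 78) (nat_lit 0) (nat_lit 0) (XT.lf (nat_lit 0) (nat_lit 3886992113) (nat_lit 76) (nat_lit 44763773186) (nat_lit 152) (nat_lit 92892146998) (nat_lit 14) (nat_lit 5) (nat_lit 15) (nat_lit 5) (nat_lit 16) (nat_lit 4) (nat_lit 360) (nat_lit 322) (nat_lit 218)) (XT.lf (nat_lit 0) (nat_lit 68410985042) (nat_lit 76) (nat_lit 11262089000) (nat_lit 152) (nat_lit 70429993782) (nat_lit 14) (nat_lit 5) (nat_lit 15) (nat_lit 5) (nat_lit 16) (nat_lit 4) (nat_lit 361) (nat_lit 322) (nat_lit 217))) (XT.nd (nat_lit 78) (nat_lit 76) (nat_lit 0) (XT.lf (nat_lit 0) (nat_lit 113774809179) (nat_lit 152) (nat_lit 21853606641) (nat_lit 0) (nat_lit 23671809401) (nat_lit 14) (nat_lit 5) (nat_lit 16) (nat_lit 4) (nat_lit 14) (nat_lit 4) (nat_lit 362) (nat_lit 322) (nat_lit 216)) (XT.lf (nat_lit 0) (nat_lit 44713248633) (nat_lit 76)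 (nat_lit 107257756908) (nat_lit 76) (nat_lit 17152844584) (nat_lit 13) (nat_lit 4) (nat_lit 14) (nat_lit 5) (nat_lit 14) (nat_lit 4) (nat_lit 363) (nat_lit 322) (nat_lit 215))))) (XT.nd (nat_lit 312) (nat_lit 228) (nat_lit 0) (XT.nd (nat_lit 156) (nat_lit 0) (nat_lit 0) (XT.nd (nat_lit 78) (nat_lit 76) (nat_lit 0) (XT.lf (nat_lit 0) (nat_lit 13426220706) (nat_lit 152) (nat_lit 62180144129) (nat_lit 76) (nat_lit 104052127772) (nat_lit 12) (nat_lit 5) (nat_lit 14) (nat_lit 5) (nat_lit 13) (nat_lit 4) (nat_lit 364) (nat_lit 322) (nat_lit 214)) (XT.lf (nat_lit 0) (nat_lit 4821716486) (nat_lit 76) (nat_lit 40817725525) (nat_lit 152) (nat_lit 145351660369) (nat_lit 11) (nat_lit 5) (nat_lit 12) (nat_lit 5) (nat_lit 13) (nat_lit 4) (nat_lit 365) (nat_lit 322) (nat_lit 213))) (XT.nd (nat_lit 78) (nat_lit 0) (nat_lit 0) (XT.lf (nat_lit 0) (nat_lit 80717327675) (nat_lit 76) (nat_lit 1411118869) (nat_lit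 152) (nat_lit 120965976869) (nat_lit 11) (nat_lit 5) (nat_lit 12) (nat_lit 5) (nat_lit 13) (nat_lit 4) (nat_lit 366) (nat_lit 322) (nat_lit 212)) (XT.lf (nat_lit 0) (nat_lit 122524867563) (nat_lit 152) (nat_lit 54473551533) (nat_lit 0) (nat_lit 39088527825) (nat_lit 11) (nat_lit 5) (nat_lit 13) (nat_lit 4) (nat_lit 11) (nat_lit 4) (nat_lit 367) (nat_lit 322) (nat_lit 211)))) (XT.nd (nat_lit 156) (nat_lit 152) (nat_lit 0) (XT.nd (nat_lit 78) (nat_lit 0) (nat_lit 0) (XT.lf (nat_lit 0) (nat_lit 19814493132) (nat_lit 76) (nat_lit 146850483327) (nat_lit 76) (nat_lit 63412938360) (nat_lit 10) (nat_lit 4) (nat_lit 11) (nat_lit 5) (nat_lit 11) (nat_lit 4) (nat_lit 368) (nat_lit 322) (nat_lit 210)) (XT.lf (nat_lit 0) (nat_lit 103141267715) (nat_lit 76) (nat_lit 112683248016) (nat_lit 76) (nat_lit 29244587097) (nat_lit 10) (nat_lit 4) (nat_lit 11) (nat_lit 5) (nat_lit 11) (nat_lit 4) (nat_lit 369)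 (nat_lit 322) (nat_lit 209))) (XT.nd (nat_lit 78) (nat_lit 76) (nat_lit 0) (XT.lf (nat_lit 0) (nat_lit 7273063479) (nat_lit 152) (nat_lit 68311722169) (nat_lit 76) (nat_lit 185660157896) (nat_lit 9) (nat_lit 5) (nat_lit 11) (nat_lit 5) (nat_lit 10) (nat_lit 4) (nat_lit 370) (nat_lit 322) (nat_lit 208)) (XT.nd (nat_lit 78) (nat_lit 0) (nat_lit 0) (XT.lf (nat_lit 0) (nat_lit 10981411165) (nat_lit 76) (nat_lit 34413811008) (nat_lit 152) (nat_lit 233237816628) (nat_lit 8) (nat_lit 5) (nat_lit 9) (nat_lit 5) (nat_lit 10) (nat_lit 4) (nat_lit 371) (nat_lit 322) (nat_lit 207)) (XT.lf (nat_lit 0) (nat_lit 88724120971) (nat_lit 152) (nat_lit 197052064902) (nat_lit 0) (nat_lit 11463438716) (nat_lit 8) (nat_lit 5) (nat_lit 10) (nat_lit 4) (nat_lit 8) (nat_lit 4) (nat_lit 372) (nat_lit 322) (nat_lit 206))))))))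
noncomputable def xc162 : XT := (XT.nd (nat_lit 1326) (nat_lit 152) (nat_lit 0) (XT.nd (nat_lit 624) (nat_lit 76) (nat_lit 0) (XT.nd (nat_lit 312) (nat_lit 152) (nat_lit 0) (XT.nd (nat_lit 156) (nat_lit 76) (nat_lit 0) (XT.nd (nat_lit 78) (nat_lit 0) (nat_lit 0) (XT.lf (nat_lit 0) (nat_lit 136412240916) (nat_lit 152) (nat_lit 121700264703) (nat_lit 0) (nat_lit 59150799163) (nat_lit 8) (nat_lit 5) (nat_lit 10) (nat_lit 4) (nat_lit 8) (nat_lit 4) (nat_lit 373) (nat_lit 322) (nat_lit 205)) (XT.lf (nat_lit 0) (nat_lit 187914525293) (nat_lit 152) (nat_lit 40322044871) (nat_lit 0) (nat_lit 110652380301) (nat_lit 8) (nat_lit 5) (nat_lit 10) (nat_lit 4) (nat_lit 8) (nat_lit 4) (nat_lit 374) (nat_lit 322) (nat_lit 204))) (XT.nd (nat_lit 78) (nat_lit 0) (nat_lit 0) (XT.lf (nat_lit 0) (nat_lit 50069515862) (nat_lit 76) (nat_lit 194670830021) (nat_lit 76) (nat_lit 117408033882) (nat_lit 7) (nat_lit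 4) (nat_lit 8) (nat_lit 5) (nat_lit 8) (nat_lit 4) (nat_lit 375) (nat_lit 322) (nat_lit 203)) (XT.lf (nat_lit 0) (nat_lit 149983995646) (nat_lit 76) (nat_lit 157229916326) (nat_lit 76) (nat_lit 79966517272) (nat_lit 7) (nat_lit 4) (nat_lit 8) (nat_lit 5) (nat_lit 8) (nat_lit 4) (nat_lit 376) (nat_lit 322) (nat_lit 202)))) (XT.nd (nat_lit 156) (nat_lit 76) (nat_lit 0) (XT.nd (nat_lit 78) (nat_lit 76) (nat_lit 0) (XT.lf (nat_lit 0) (nat_lit 257890192859) (nat_lit 76) (nat_lit 116794433161) (nat_lit 76) (nat_lit 39530475853) (nat_lit 7) (nat_lit 4) (nat_lit 8) (nat_lit 5) (nat_lit 8) (nat_lit 4) (nat_lit 377) (nat_lit 322) (nat_lit 201)) (XT.lf (nat_lit 0) (nat_lit 3932626232) (nat_lit 152) (nat_lit 69084611645) (nat_lit 76) (nat_lit 370387400431) (nat_lit 6) (nat_lit 5) (nat_lit 8) (nat_lit 5) (nat_lit 7) (nat_lit 4) (nat_lit 378) (nat_lit 322) (nat_lit 200))) (XT.nd (nat_lit 78) (nat_lit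 0) (nat_lit 0) (XT.lf (nat_lit 0) (nat_lit 25376299471) (nat_lit 76) (nat_lit 23970456438) (nat_lit 152) (nat_lit 425451668514) (nat_lit 5) (nat_lit 5) (nat_lit 6) (nat_lit 5) (nat_lit 7) (nat_lit 4) (nat_lit 379) (nat_lit 322) (nat_lit 199)) (XT.lf (nat_lit 0) (nat_lit 101028781183) (nat_lit 152) (nat_lit 377977403312) (nat_lit 0) (nat_lit 29486747866) (nat_lit 5) (nat_lit 5) (nat_lit 7) (nat_lit 4) (nat_lit 5) (nat_lit 4) (nat_lit 380) (nat_lit 322) (nat_lit 198))))) (XT.nd (nat_lit 312) (nat_lit 76) (nat_lit 0) (XT.nd (nat_lit 156) (nat_lit 0) (nat_lit 0) (XT.nd (nat_lit 78) (nat_lit 0) (nat_lit 0) (XT.lf (nat_lit 0) (nat_lit 157467380478) (nat_lit 152) (nat_lit 301440892412) (nat_lit 0) (nat_lit 85924967224) (nat_lit 5) (nat_lit 5) (nat_lit 7) (nat_lit 4) (nat_lit 5) (nat_lit 4) (nat_lit 381) (nat_lit 322) (nat_lit 197)) (XT.lf (nat_lit 0) (nat_lit 218420514702) (nat_lit 152) (nat_lit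 218782552504) (nat_lit 0) (nat_lit 146877749653) (nat_lit 5) (nat_lit 5) (nat_lit 7) (nat_lit 4) (nat_lit 5) (nat_lit 4) (nat_lit 382) (nat_lit 322) (nat_lit 196))) (XT.nd (nat_lit 78) (nat_lit 0) (nat_lit 0) (XT.lf (nat_lit 0) (nat_lit 284249387612) (nat_lit 152) (nat_lit 129512556389) (nat_lit 0) (nat_lit 212706296827) (nat_lit 5) (nat_lit 5) (nat_lit 7) (nat_lit 4) (nat_lit 5) (nat_lit 4) (nat_lit 383) (nat_lit 322) (nat_lit 195)) (XT.lf (nat_lit 0) (nat_lit 355344096234) (nat_lit 152) (nat_lit 33101896681) (nat_lit 0) (nat_lit 283800703841) (nat_lit 5) (nat_lit 5) (nat_lit 7) (nat_lit 4) (nat_lit 5) (nat_lit 4) (nat_lit 384) (nat_lit 322) (nat_lit 194)))) (XT.nd (nat_lit 156) (nat_lit 0) (nat_lit 0) (XT.nd (nat_lit 78) (nat_lit 0) (nat_lit 0) (XT.lf (nat_lit 0) (nat_lit 74760575830) (nat_lit 76) (nat_lit 359163360359) (nat_lit 76) (nat_lit 287619688701) (nat_lit 4) (nat_lit 4) (nat_lit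 5) (nat_lit 5) (nat_lit 5) (nat_lit 4) (nat_lit 385) (nat_lit 322) (nat_lit 193)) (XT.lf (nat_lit 0) (nat_lit 193133735525) (nat_lit 76) (nat_lit 326561065533) (nat_lit 76) (nat_lit 255017135295) (nat_lit 4) (nat_lit 4) (nat_lit 5) (nat_lit 5) (nat_lit 5) (nat_lit 4) (nat_lit 386) (nat_lit 322) (nat_lit 192))) (XT.nd (nat_lit 78) (nat_lit 0) (nat_lit 0) (XT.lf (nat_lit 0) (nat_lit 320975965760) (nat_lit 76) (nat_lit 291350974169) (nat_lit 76) (nat_lit 219806804506) (nat_lit 4) (nat_lit 4) (nat_lit 5) (nat_lit 5) (nat_lit 5) (nat_lit 4) (nat_lit 387) (nat_lit 322) (nat_lit 191)) (XT.nd (nat_lit 78) (nat_lit 0) (nat_lit 0) (XT.lf (nat_lit 0) (nat_lit 459044850123) (nat_lit 76) (nat_lit 253324433876) (nat_lit 76) (nat_lit 181780042522) (nat_lit 4) (nat_lit 4) (nat_lit 5) (nat_lit 5) (nat_lit 5) (nat_lit 4) (nat_lit 388) (nat_lit 322) (nat_lit 190)) (XT.lf (nat_lit 0) (nat_lit 608158574595)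 (nat_lit 76) (nat_lit 212256102190) (nat_lit 76) (nat_lit 140711505568) (nat_lit 4) (nat_lit 4) (nat_lit 5) (nat_lit 5) (nat_lit 5) (nat_lit 4) (nat_lit 389) (nat_lit 322) (nat_lit 189))))))) (XT.nd (nat_lit 624) (nat_lit 0) (nat_lit 0) (XT.nd (nat_lit 312) (nat_lit 0) (nat_lit 0) (XT.nd (nat_lit 156) (nat_lit 152) (nat_lit 0) (XT.nd (nat_lit 78) (nat_lit 0) (nat_lit 0) (XT.lf (nat_lit 0) (nat_lit 769200776060) (nat_lit 76) (nat_lit 167902611222) (nat_lit 76) (nat_lit 96357824536) (nat_lit 4) (nat_lit 4) (nat_lit 5) (nat_lit 5) (nat_lit 5) (nat_lit 4) (nat_lit 390) (nat_lit 322) (nat_lit 188)) (XT.lf (nat_lit 0) (nat_lit 943125778678) (nat_lit 76) (nat_lit 120001125469) (nat_lit 76) (nat_lit 48456162798) (nat_lit 4) (nat_lit 4) (nat_lit 5) (nat_lit 5) (nat_lit 5) (nat_lit 4) (nat_lit 391) (nat_lit 322) (nat_lit 187))) (XT.nd (nat_lit 78) (nat_lit 76) (nat_lit 0) (XT.lf (nat_lit 0) (nat_lit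 3113395457) (nat_lit 152) (nat_lit 65069263068) (nat_lit 76) (nat_lit 1127765727922) (nat_lit 3) (nat_lit 5) (nat_lit 5) (nat_lit 5) (nat_lit 4) (nat_lit 4) (nat_lit 392) (nat_lit 322) (nat_lit 186)) (XT.lf (nat_lit 0) (nat_lit 47717730188) (nat_lit 76) (nat_lit 9620253795) (nat_lit 152) (nat_lit 1229532470887) (nat_lit 2) (nat_lit 5) (nat_lit 3) (nat_lit 5) (nat_lit 4) (nat_lit 4) (nat_lit 393) (nat_lit 322) (nat_lit 185)))) (XT.nd (nat_lit 156) (nat_lit 0) (nat_lit 0) (XT.nd (nat_lit 78) (nat_lit 0) (nat_lit 0) (XT.lf (nat_lit 0) (nat_lit 119015338874) (nat_lit 152) (nat_lit 1213032182867) (nat_lit 0) (nat_lit 52769583132) (nat_lit 2) (nat_lit 5) (nat_lit 4) (nat_lit 4) (nat_lit 2) (nat_lit 4) (nat_lit 394) (nat_lit 322) (nat_lit 184)) (XT.lf (nat_lit 0) (nat_lit 185876523328) (nat_lit 152) (nat_lit 1185072344484) (nat_lit 0) (nat_lit 119630647814) (nat_lit 2) (nat_lit 5) (nat_lit 4)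 (nat_lit 4) (nat_lit 2) (nat_lit 4) (nat_lit 395) (nat_lit 322) (nat_lit 183))) (XT.nd (nat_lit 78) (nat_lit 0) (nat_lit 0) (XT.lf (nat_lit 0) (nat_lit 258086384438) (nat_lit 152) (nat_lit 1154876154267) (nat_lit 0) (nat_lit 191840398023) (nat_lit 2) (nat_lit 5) (nat_lit 4) (nat_lit 4) (nat_lit 2) (nat_lit 4) (nat_lit 396) (nat_lit 322) (nat_lit 182)) (XT.lf (nat_lit 0) (nat_lit 336072832491) (nat_lit 152) (nat_lit 1122264671829) (nat_lit 0) (nat_lit 269826743391) (nat_lit 2) (nat_lit 5) (nat_lit 4) (nat_lit 4) (nat_lit 2) (nat_lit 4) (nat_lit 397) (nat_lit 322) (nat_lit 181))))) (XT.nd (nat_lit 312) (nat_lit 0) (nat_lit 0) (XT.nd (nat_lit 156) (nat_lit 0) (nat_lit 0) (XT.nd (nat_lit 78) (nat_lit 0) (nat_lit 0) (XT.lf (nat_lit 0) (nat_lit 420298009403) (nat_lit 152) (nat_lit 1087044643942) (nat_lit 0) (nat_lit 354051825224) (nat_lit 2) (nat_lit 5) (nat_lit 4) (nat_lit 4) (nat_lit 2) (nat_lit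 4) (nat_lit 398) (nat_lit 322) (nat_lit 180)) (XT.lf (nat_lit 0) (nat_lit 511261027332) (nat_lit 152) (nat_lit 1049007359328) (nat_lit 0) (nat_lit 445014755117) (nat_lit 2) (nat_lit 5) (nat_lit 4) (nat_lit 4) (nat_lit 2) (nat_lit 4) (nat_lit 399) (nat_lit 322) (nat_lit 179))) (XT.nd (nat_lit 78) (nat_lit 0) (nat_lit 0) (XT.lf (nat_lit 0) (nat_lit 609500926385) (nat_lit 152) (nat_lit 1007927411858) (nat_lit 0) (nat_lit 543254572655) (nat_lit 2) (nat_lit 5) (nat_lit 4) (nat_lit 4) (nat_lit 2) (nat_lit 4) (nat_lit 400) (nat_lit 322) (nat_lit 178)) (XT.lf (nat_lit 0) (nat_lit 715599868927) (nat_lit 152) (nat_lit 963561364805) (nat_lit 0) (nat_lit 649353439719) (nat_lit 2) (nat_lit 5) (nat_lit 4) (nat_lit 4) (nat_lit 2) (nat_lit 4) (nat_lit 401) (nat_lit 322) (nat_lit 177)))) (XT.nd (nat_lit 156) (nat_lit 0) (nat_lit 0) (XT.nd (nat_lit 78) (nat_lit 0) (nat_lit 0) (XT.lf (nat_lit 0) (nat_lit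 830186589431) (nat_lit 152) (nat_lit 915646308260) (nat_lit 0) (nat_lit 763940090338) (nat_lit 2) (nat_lit 5) (nat_lit 4) (nat_lit 4) (nat_lit 2) (nat_lit 4) (nat_lit 402) (nat_lit 322) (nat_lit 176)) (XT.lf (nat_lit 0) (nat_lit 953940120316) (nat_lit 152) (nat_lit 863898301149) (nat_lit 0) (nat_lit 887693556513) (nat_lit 2) (nat_lit 5) (nat_lit 4) (nat_lit 4) (nat_lit 2) (nat_lit 4) (nat_lit 403) (nat_lit 322) (nat_lit 175))) (XT.nd (nat_lit 78) (nat_lit 0) (nat_lit 0) (XT.lf (nat_lit 0) (nat_lit 1087593815839) (nat_lit 152) (nat_lit 808010688613) (nat_lit 0) (nat_lit 1021347192120) (nat_lit 2) (nat_lit 5) (nat_lit 4) (nat_lit 4) (nat_lit 2) (nat_lit 4) (nat_lit 404) (nat_lit 322) (nat_lit 174)) (XT.nd (nat_lit 78) (nat_lit 0) (nat_lit 0) (XT.lf (nat_lit 0) (nat_lit 1231939697899) (nat_lit 152) (nat_lit 747652284801) (nat_lit 0) (nat_lit 1165693018702) (nat_lit 2) (nat_lit 5) (nat_lit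 4) (nat_lit 4) (nat_lit 2) (nat_lit 4) (nat_lit 405) (nat_lit 322) (nat_lit 173)) (XT.lf (nat_lit 0) (nat_lit 1387833149501) (nat_lit 152) (nat_lit 682465410283) (nat_lit 0) (nat_lit 1321586418936) (nat_lit 2) (nat_lit 5) (nat_lit 4) (nat_lit 4) (nat_lit 2) (nat_lit 4) (nat_lit 406) (nat_lit 322) (nat_lit 172))))))))
noncomputable def xc163 : XT := (XT.nd (nat_lit 41340) (nat_lit 0) (nat_lit 1368) (XT.nd (nat_lit 40638) (nat_lit 0) (nat_lit 3116) (XT.nd (nat_lit 40326) (nat_lit 0) (nat_lit 3952) (XT.nd (nat_lit 156) (nat_lit 0) (nat_lit 0) (XT.nd (nat_lit 78) (nat_lit 0) (nat_lit 0) (XT.lf (nat_lit 0) (nat_lit 1556197983691) (nat_lit 152) (nat_lit 612063772469) (nat_lit 0) (nat_lit 1489951205563) (nat_lit 2) (nat_lit 5) (nat_lit 4) (nat_lit 4) (nat_lit 2) (nat_lit 4) (nat_lit 407) (nat_lit 322) (nat_lit 171)) (XT.lf (nat_lit 0) (nat_lit 1738031918006) (nat_lit 152) (nat_lit 536030176468)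 (nat_lit 0) (nat_lit 1671785095838) (nat_lit 2) (nat_lit 5) (nat_lit 4) (nat_lit 4) (nat_lit 2) (nat_lit 4) (nat_lit 408) (nat_lit 322) (nat_lit 170))) (XT.nd (nat_lit 78) (nat_lit 0) (nat_lit 0) (XT.lf (nat_lit 0) (nat_lit 1934412486871) (nat_lit 152) (nat_lit 453914052824) (nat_lit 0) (nat_lit 1868165623925) (nat_lit 2) (nat_lit 5) (nat_lit 4) (nat_lit 4) (nat_lit 2) (nat_lit 4) (nat_lit 409) (nat_lit 322) (nat_lit 169)) (XT.lf (nat_lit 0) (nat_lit 2146503426990) (nat_lit 152) (nat_lit 365228787468) (nat_lit 0) (nat_lit 2080256526287) (nat_lit 2) (nat_lit 5) (nat_lit 4) (nat_lit 4) (nat_lit 2) (nat_lit 4) (nat_lit 410) (nat_lit 322) (nat_lit 168)))) (XT.nd (nat_lit 156) (nat_lit 0) (nat_lit 76) (XT.nd (nat_lit 78) (nat_lit 0) (nat_lit 0) (XT.lf (nat_lit 0) (nat_lit 8764507971) (nat_lit 532) (nat_lit 1617815682) (nat_lit 532) (nat_lit 1617815682) (nat_lit 54) (nat_lit 3) (nat_lit 61)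 (nat_lit 3) (nat_lit 61) (nat_lit 5) (nat_lit 323) (nat_lit 323) (nat_lit 254)) (XT.lf (nat_lit 76) (nat_lit 8556407105) (nat_lit 0) (nat_lit 9985452397) (nat_lit 532) (nat_lit 6393302233) (nat_lit 55) (nat_lit 5) (nat_lit 54) (nat_lit 3) (nat_lit 61) (nat_lit 5) (nat_lit 324) (nat_lit 323) (nat_lit 253))) (XT.nd (nat_lit 78) (nat_lit 0) (nat_lit 0) (XT.lf (nat_lit 0) (nat_lit 19755697946) (nat_lit 456) (nat_lit 4511087392) (nat_lit 532) (nat_lit 1668472069) (nat_lit 55) (nat_lit 5) (nat_lit 61) (nat_lit 5) (nat_lit 62) (nat_lit 5) (nat_lit 325) (nat_lit 323) (nat_lit 252)) (XT.lf (nat_lit 76) (nat_lit 8463505315) (nat_lit 0) (nat_lit 13056208164) (nat_lit 532) (nat_lit 5459419574) (nat_lit 56) (nat_lit 5) (nat_lit 55) (nat_lit 5) (nat_lit 62) (nat_lit 5) (nat_lit 326) (nat_lit 323) (nat_lit 251))))) (XT.nd (nat_lit 312) (nat_lit 532) (nat_lit 0) (XT.nd (nat_lit 156) (nat_lit 380) (nat_lit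 0) (XT.nd (nat_lit 78) (nat_lit 0) (nat_lit 76) (XT.lf (nat_lit 76) (nat_lit 22726275319) (nat_lit 0) (nat_lit 812652578) (nat_lit 532) (nat_lit 4558481233) (nat_lit 56) (nat_lit 5) (nat_lit 55) (nat_lit 5) (nat_lit 62) (nat_lit 5) (nat_lit 327) (nat_lit 323) (nat_lit 250)) (XT.lf (nat_lit 76) (nat_lit 8968451044) (nat_lit 0) (nat_lit 17256877818) (nat_lit 532) (nat_lit 3039381846) (nat_lit 57) (nat_lit 5) (nat_lit 56) (nat_lit 5) (nat_lit 63) (nat_lit 5) (nat_lit 328) (nat_lit 323) (nat_lit 249))) (XT.nd (nat_lit 78) (nat_lit 456) (nat_lit 0) (XT.lf (nat_lit 76) (nat_lit 24731975777) (nat_lit 0) (nat_lit 4554058701) (nat_lit 532) (nat_lit 1226624754) (nat_lit 57) (nat_lit 5) (nat_lit 56) (nat_lit 5) (nat_lit 63) (nat_lit 5) (nat_lit 329) (nat_lit 323) (nat_lit 248)) (XT.lf (nat_lit 0) (nat_lit 1164254239) (nat_lit 532) (nat_lit 21675062983) (nat_lit 76) (nat_lit 8982157747) (nat_lit 50)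 (nat_lit 5) (nat_lit 57) (nat_lit 5) (nat_lit 51) (nat_lit 5) (nat_lit 330) (nat_lit 323) (nat_lit 247)))) (XT.nd (nat_lit 156) (nat_lit 228) (nat_lit 0) (XT.nd (nat_lit 78) (nat_lit 304) (nat_lit 0) (XT.lf (nat_lit 0) (nat_lit 3953373095) (nat_lit 532) (nat_lit 5707032789) (nat_lit 76) (nat_lit 23550193412) (nat_lit 50) (nat_lit 5) (nat_lit 57) (nat_lit 5) (nat_lit 51) (nat_lit 5) (nat_lit 331) (nat_lit 323) (nat_lit 246)) (XT.lf (nat_lit 0) (nat_lit 7368466892) (nat_lit 380) (nat_lit 22666257873) (nat_lit 76) (nat_lit 4643911627) (nat_lit 46) (nat_lit 5) (nat_lit 51) (nat_lit 5) (nat_lit 47) (nat_lit 5) (nat_lit 332) (nat_lit 323) (nat_lit 245))) (XT.nd (nat_lit 78) (nat_lit 228) (nat_lit 0) (XT.lf (nat_lit 0) (nat_lit 11461456496) (nat_lit 380) (nat_lit 5039405757) (nat_lit 76) (nat_lit 19730888818) (nat_lit 46) (nat_lit 5) (nat_lit 51) (nat_lit 5) (nat_lit 47) (nat_lit 5) (nat_lit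 333) (nat_lit 323) (nat_lit 244)) (XT.nd (nat_lit 78) (nat_lit 0) (nat_lit 0) (XT.lf (nat_lit 0) (nat_lit 14728146189) (nat_lit 228) (nat_lit 1502095130) (nat_lit 304) (nat_lit 21651014088) (nat_lit 43) (nat_lit 5) (nat_lit 46) (nat_lit 5) (nat_lit 47) (nat_lit 5) (nat_lit 334) (nat_lit 323) (nat_lit 243)) (XT.lf (nat_lit 0) (nat_lit 21869767372) (nat_lit 304) (nat_lit 3651525963) (nat_lit 76) (nat_lit 14102295979) (nat_lit 43) (nat_lit 5) (nat_lit 47) (nat_lit 5) (nat_lit 44) (nat_lit 5) (nat_lit 335) (nat_lit 323) (nat_lit 242))))))) (XT.nd (nat_lit 702) (nat_lit 760) (nat_lit 0) (XT.nd (nat_lit 312) (nat_lit 304) (nat_lit 0) (XT.nd (nat_lit 156) (nat_lit 456) (nat_lit 0) (XT.nd (nat_lit 78) (nat_lit 0) (nat_lit 0) (XT.lf (nat_lit 0) (nat_lit 18279573133) (nat_lit 228) (nat_lit 10154355666) (nat_lit 304) (nat_lit 13033510957) (nat_lit 40) (nat_lit 5) (nat_lit 43) (nat_lit 5) (nat_lit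 44) (nat_lit 5) (nat_lit 336) (nat_lit 323) (nat_lit 241)) (XT.lf (nat_lit 0) (nat_lit 35775637154) (nat_lit 304) (nat_lit 1441747343) (nat_lit 76) (nat_lit 6221227734) (nat_lit 40) (nat_lit 5) (nat_lit 44) (nat_lit 5) (nat_lit 41) (nat_lit 5) (nat_lit 337) (nat_lit 323) (nat_lit 240))) (XT.nd (nat_lit 78) (nat_lit 304) (nat_lit 0) (XT.lf (nat_lit 0) (nat_lit 22921142635) (nat_lit 152) (nat_lit 21593962381) (nat_lit 228) (nat_lit 987546248) (nat_lit 38) (nat_lit 5) (nat_lit 40) (nat_lit 5) (nat_lit 41) (nat_lit 5) (nat_lit 338) (nat_lit 323) (nat_lit 239)) (XT.lf (nat_lit 0) (nat_lit 1505156430) (nat_lit 228) (nat_lit 4477661548) (nat_lit 304) (nat_lit 41731258386) (nat_lit 34) (nat_lit 5) (nat_lit 37) (nat_lit 5) (nat_lit 38) (nat_lit 5) (nat_lit 339) (nat_lit 323) (nat_lit 238)))) (XT.nd (nat_lit 156) (nat_lit 152) (nat_lit 0) (XT.nd (nat_lit 78) (nat_lit 152) (nat_lit 0) (XT.lf (nat_lit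 0) (nat_lit 14423469696) (nat_lit 304) (nat_lit 21634655889) (nat_lit 76) (nat_lit 13964962153) (nat_lit 34) (nat_lit 5) (nat_lit 38) (nat_lit 5) (nat_lit 35) (nat_lit 5) (nat_lit 340) (nat_lit 323) (nat_lit 237)) (XT.lf (nat_lit 0) (nat_lit 5035552302) (nat_lit 152) (nat_lit 18737215245) (nat_lit 228) (nat_lit 28725385798) (nat_lit 32) (nat_lit 5) (nat_lit 34) (nat_lit 5) (nat_lit 35) (nat_lit 5) (nat_lit 341) (nat_lit 323) (nat_lit 236))) (XT.nd (nat_lit 78) (nat_lit 152) (nat_lit 0) (XT.lf (nat_lit 0) (nat_lit 34472280386) (nat_lit 228) (nat_lit 20074495284) (nat_lit 76) (nat_lit 576271323) (nat_lit 32) (nat_lit 5) (nat_lit 35) (nat_lit 5) (nat_lit 33) (nat_lit 5) (nat_lit 342) (nat_lit 323) (nat_lit 235)) (XT.nd (nat_lit 78) (nat_lit 0) (nat_lit 0) (XT.lf (nat_lit 0) (nat_lit 9487268738) (nat_lit 152) (nat_lit 37251736969) (nat_lit 228) (nat_lit 11162030463) (nat_lit 30) (nat_lit 5)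 (nat_lit 32) (nat_lit 5) (nat_lit 33) (nat_lit 5) (nat_lit 343) (nat_lit 323) (nat_lit 234)) (XT.lf (nat_lit 0) (nat_lit 42550461528) (nat_lit 152) (nat_lit 17982023596) (nat_lit 228) (nat_lit 325149915) (nat_lit 30) (nat_lit 5) (nat_lit 32) (nat_lit 5) (nat_lit 33) (nat_lit 5) (nat_lit 344) (nat_lit 323) (nat_lit 233)))))) (XT.nd (nat_lit 312) (nat_lit 380) (nat_lit 0) (XT.nd (nat_lit 156) (nat_lit 152) (nat_lit 0) (XT.nd (nat_lit 78) (nat_lit 0) (nat_lit 0) (XT.lf (nat_lit 0) (nat_lit 11243099124) (nat_lit 228) (nat_lit 49422371466) (nat_lit 76) (nat_lit 3328711859) (nat_lit 27) (nat_lit 5) (nat_lit 30) (nat_lit 5) (nat_lit 28) (nat_lit 5) (nat_lit 345) (nat_lit 323) (nat_lit 232)) (XT.lf (nat_lit 0) (nat_lit 24696659173) (nat_lit 228) (nat_lit 16712912786) (nat_lit 76) (nat_lit 25893215698) (nat_lit 27) (nat_lit 5) (nat_lit 30) (nat_lit 5) (nat_lit 28) (nat_lit 5) (nat_lit 346) (nat_lit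 323) (nat_lit 231))) (XT.nd (nat_lit 78) (nat_lit 0) (nat_lit 0) (XT.lf (nat_lit 0) (nat_lit 19588523688) (nat_lit 152) (nat_lit 20106122026) (nat_lit 228) (nat_lit 31143987060) (nat_lit 25) (nat_lit 5) (nat_lit 27) (nat_lit 5) (nat_lit 28) (nat_lit 5) (nat_lit 347) (nat_lit 323) (nat_lit 230)) (XT.lf (nat_lit 0) (nat_lit 56428190653) (nat_lit 228) (nat_lit 14962635813) (nat_lit 76) (nat_lit 3223664093) (nat_lit 25) (nat_lit 5) (nat_lit 28) (nat_lit 5) (nat_lit 26) (nat_lit 4) (nat_lit 348) (nat_lit 323) (nat_lit 229)))) (XT.nd (nat_lit 156) (nat_lit 228) (nat_lit 0) (XT.nd (nat_lit 78) (nat_lit 76) (nat_lit 0) (XT.lf (nat_lit 0) (nat_lit 24949265729) (nat_lit 76) (nat_lit 50670741268) (nat_lit 152) (nat_lit 2982845367) (nat_lit 24) (nat_lit 5) (nat_lit 25) (nat_lit 5) (nat_lit 26) (nat_lit 4) (nat_lit 349) (nat_lit 323) (nat_lit 228)) (XT.lf (nat_lit 0) (nat_lit 13181795805) (nat_lit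 152) (nat_lit 14310706972) (nat_lit 76) (nat_lit 55358563604) (nat_lit 23) (nat_lit 5) (nat_lit 25) (nat_lit 5) (nat_lit 24) (nat_lit 5) (nat_lit 350) (nat_lit 323) (nat_lit 227))) (XT.nd (nat_lit 78) (nat_lit 76) (nat_lit 0) (XT.lf (nat_lit 0) (nat_lit 29577620324) (nat_lit 152) (nat_lit 1609722470) (nat_lit 228) (nat_lit 56188887676) (nat_lit 21) (nat_lit 5) (nat_lit 23) (nat_lit 5) (nat_lit 24) (nat_lit 5) (nat_lit 351) (nat_lit 323) (nat_lit 226)) (XT.nd (nat_lit 78) (nat_lit 76) (nat_lit 0) (XT.lf (nat_lit 0) (nat_lit 51665932922) (nat_lit 228) (nat_lit 15089105386) (nat_lit 76) (nat_lit 25425763210) (nat_lit 21) (nat_lit 5) (nat_lit 24) (nat_lit 5) (nat_lit 22) (nat_lit 4) (nat_lit 352) (nat_lit 323) (nat_lit 225)) (XT.lf (nat_lit 0) (nat_lit 32623466680) (nat_lit 76) (nat_lit 41983518252) (nat_lit 152) (nat_lit 22696820992) (nat_lit 20) (nat_lit 5) (nat_lit 21) (nat_lit 5) (nat_lit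 22) (nat_lit 4) (nat_lit 353) (nat_lit 323) (nat_lit 224))))))))
noncomputable def xc164 : XT := (XT.nd (nat_lit 1326) (nat_lit 456) (nat_lit 0) (XT.nd (nat_lit 624) (nat_lit 304) (nat_lit 0) (XT.nd (nat_lit 312) (nat_lit 228) (nat_lit 0) (XT.nd (nat_lit 156) (nat_lit 76) (nat_lit 0) (XT.nd (nat_lit 78) (nat_lit 152) (nat_lit 0) (XT.lf (nat_lit 0) (nat_lit 85007432491) (nat_lit 76) (nat_lit 14786295315) (nat_lit 152) (nat_lit 3010091868) (nat_lit 20) (nat_lit 5) (nat_lit 21) (nat_lit 5) (nat_lit 22) (nat_lit 4) (nat_lit 354) (nat_lit 323) (nat_lit 223)) (XT.lf (nat_lit 0) (nat_lit 18540131643) (nat_lit 152) (nat_lit 74925091355) (nat_lit 76) (nat_lit 15147370863) (nat_lit 18) (nat_lit 5) (nat_lit 20) (nat_lit 5) (nat_lit 19) (nat_lit 4) (nat_lit 355) (nat_lit 323) (nat_lit 222))) (XT.nd (nat_lit 78) (nat_lit 76) (nat_lit 0) (XT.lf (nat_lit 0) (nat_lit 42533015067) (nat_lit 152) (nat_lit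 25023433823) (nat_lit 76) (nat_lit 47252866357) (nat_lit 18) (nat_lit 5) (nat_lit 20) (nat_lit 5) (nat_lit 19) (nat_lit 4) (nat_lit 356) (nat_lit 323) (nat_lit 221)) (XT.lf (nat_lit 0) (nat_lit 30387101539) (nat_lit 76) (nat_lit 38787169840) (nat_lit 152) (nat_lit 52269188710) (nat_lit 17) (nat_lit 5) (nat_lit 18) (nat_lit 5) (nat_lit 19) (nat_lit 4) (nat_lit 357) (nat_lit 323) (nat_lit 220)))) (XT.nd (nat_lit 156) (nat_lit 152) (nat_lit 0) (XT.nd (nat_lit 78) (nat_lit 76) (nat_lit 0) (XT.lf (nat_lit 0) (nat_lit 91650328500) (nat_lit 76) (nat_lit 6978876500) (nat_lit 152) (nat_lit 29924542413) (nat_lit 17) (nat_lit 5) (nat_lit 18) (nat_lit 5) (nat_lit 19) (nat_lit 4) (nat_lit 358) (nat_lit 323) (nat_lit 219)) (XT.lf (nat_lit 0) (nat_lit 22021916501) (nat_lit 76) (nat_lit 109604885198) (nat_lit 76) (nat_lit 4511155514) (nat_lit 16) (nat_lit 4) (nat_lit 17) (nat_lit 5) (nat_lit 17) (nat_lit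 4) (nat_lit 359) (nat_lit 323) (nat_lit 218))) (XT.nd (nat_lit 78) (nat_lit 76) (nat_lit 0) (XT.lf (nat_lit 0) (nat_lit 23002770955) (nat_lit 152) (nat_lit 57250375353) (nat_lit 76) (nat_lit 63934447922) (nat_lit 15) (nat_lit 5) (nat_lit 17) (nat_lit 5) (nat_lit 16) (nat_lit 4) (nat_lit 360) (nat_lit 323) (nat_lit 217)) (XT.lf (nat_lit 0) (nat_lit 4257448109) (nat_lit 76) (nat_lit 48317464314) (nat_lit 152) (nat_lit 100288851082) (nat_lit 14) (nat_lit 5) (nat_lit 15) (nat_lit 5) (nat_lit 16) (nat_lit 4) (nat_lit 361) (nat_lit 323) (nat_lit 216))))) (XT.nd (nat_lit 312) (nat_lit 152) (nat_lit 0) (XT.nd (nat_lit 156) (nat_lit 152) (nat_lit 0) (XT.nd (nat_lit 78) (nat_lit 0) (nat_lit 0) (XT.lf (nat_lit 0) (nat_lit 73938953315) (nat_lit 76) (nat_lit 12137675818) (nat_lit 152) (nat_lit 76032293585) (nat_lit 14) (nat_lit 5) (nat_lit 15) (nat_lit 5) (nat_lit 16) (nat_lit 4) (nat_lit 362) (nat_lit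 323) (nat_lit 215)) (XT.lf (nat_lit 0) (nat_lit 122904867585) (nat_lit 152) (nat_lit 23549238131) (nat_lit 0) (nat_lit 25587878854) (nat_lit 14) (nat_lit 5) (nat_lit 16) (nat_lit 4) (nat_lit 14) (nat_lit 4) (nat_lit 363) (nat_lit 323) (nat_lit 214))) (XT.nd (nat_lit 78) (nat_lit 76) (nat_lit 0) (XT.lf (nat_lit 0) (nat_lit 48341632475) (nat_lit 76) (nat_lit 115814281991) (nat_lit 76) (nat_lit 18495653561) (nat_lit 13) (nat_lit 4) (nat_lit 14) (nat_lit 5) (nat_lit 14) (nat_lit 4) (nat_lit 364) (nat_lit 323) (nat_lit 213)) (XT.lf (nat_lit 0) (nat_lit 14526195171) (nat_lit 152) (nat_lit 67105660713) (nat_lit 76) (nat_lit 112397235845) (nat_lit 12) (nat_lit 5) (nat_lit 14) (nat_lit 5) (nat_lit 13) (nat_lit 4) (nat_lit 365) (nat_lit 323) (nat_lit 212)))) (XT.nd (nat_lit 156) (nat_lit 76) (nat_lit 0) (XT.nd (nat_lit 78) (nat_lit 0) (nat_lit 0) (XT.lf (nat_lit 0) (nat_lit 5255110904) (nat_lit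 76) (nat_lit 44060592630) (nat_lit 152) (nat_lit 156952669153) (nat_lit 11) (nat_lit 5) (nat_lit 12) (nat_lit 5) (nat_lit 13) (nat_lit 4) (nat_lit 366) (nat_lit 323) (nat_lit 211)) (XT.lf (nat_lit 0) (nat_lit 87218840833) (nat_lit 76) (nat_lit 1503127882) (nat_lit 152) (nat_lit 130618140161) (nat_lit 11) (nat_lit 5) (nat_lit 12) (nat_lit 5) (nat_lit 13) (nat_lit 4) (nat_lit 367) (nat_lit 323) (nat_lit 210))) (XT.nd (nat_lit 78) (nat_lit 76) (nat_lit 0) (XT.lf (nat_lit 0) (nat_lit 132348846434) (nat_lit 152) (nat_lit 58789312343) (nat_lit 0) (nat_lit 42233976690) (nat_lit 11) (nat_lit 5) (nat_lit 13) (nat_lit 4) (nat_lit 11) (nat_lit 4) (nat_lit 368) (nat_lit 323) (nat_lit 209)) (XT.nd (nat_lit 78) (nat_lit 0) (nat_lit 0) (XT.lf (nat_lit 0) (nat_lit 21440709482) (nat_lit 76) (nat_lit 158578813129) (nat_lit 76) (nat_lit 68462910096) (nat_lit 10) (nat_lit 4) (nat_lit 11) (nat_lit 5) (nat_lit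 11) (nat_lit 4) (nat_lit 369) (nat_lit 323) (nat_lit 208)) (XT.lf (nat_lit 0) (nat_lit 111430584780) (nat_lit 76) (nat_lit 121679658909) (nat_lit 76) (nat_lit 31562799127) (nat_lit 10) (nat_lit 4) (nat_lit 11) (nat_lit 5) (nat_lit 11) (nat_lit 4) (nat_lit 370) (nat_lit 323) (nat_lit 207))))))) (XT.nd (nat_lit 624) (nat_lit 228) (nat_lit 0) (XT.nd (nat_lit 312) (nat_lit 76) (nat_lit 0) (XT.nd (nat_lit 156) (nat_lit 0) (nat_lit 0) (XT.nd (nat_lit 78) (nat_lit 76) (nat_lit 0) (XT.lf (nat_lit 0) (nat_lit 7873692518) (nat_lit 152) (nat_lit 73740465221) (nat_lit 76) (nat_lit 200528872654) (nat_lit 9) (nat_lit 5) (nat_lit 11) (nat_lit 5) (nat_lit 10) (nat_lit 4) (nat_lit 371) (nat_lit 323) (nat_lit 206)) (XT.lf (nat_lit 0) (nat_lit 11895202457) (nat_lit 76) (nat_lit 37149878492) (nat_lit 152) (nat_lit 251877136197) (nat_lit 8) (nat_lit 5) (nat_lit 9) (nat_lit 5) (nat_lit 10) (nat_lit 4) (nat_lit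 372) (nat_lit 323) (nat_lit 205))) (XT.nd (nat_lit 78) (nat_lit 0) (nat_lit 0) (XT.lf (nat_lit 0) (nat_lit 95839319864) (nat_lit 152) (nat_lit 212782588049) (nat_lit 0) (nat_lit 12395500033) (nat_lit 8) (nat_lit 5) (nat_lit 10) (nat_lit 4) (nat_lit 8) (nat_lit 4) (nat_lit 373) (nat_lit 323) (nat_lit 204)) (XT.lf (nat_lit 0) (nat_lit 147341210204) (nat_lit 152) (nat_lit 131405135838) (nat_lit 0) (nat_lit 63896739226) (nat_lit 8) (nat_lit 5) (nat_lit 10) (nat_lit 4) (nat_lit 8) (nat_lit 4) (nat_lit 374) (nat_lit 323) (nat_lit 203)))) (XT.nd (nat_lit 156) (nat_lit 0) (nat_lit 0) (XT.nd (nat_lit 78) (nat_lit 76) (nat_lit 0) (XT.lf (nat_lit 0) (nat_lit 202962492885) (nat_lit 152) (nat_lit 43518965830) (nat_lit 0) (nat_lit 119517418993) (nat_lit 8) (nat_lit 5) (nat_lit 10) (nat_lit 4) (nat_lit 8) (nat_lit 4) (nat_lit 375) (nat_lit 323) (nat_lit 202)) (XT.lf (nat_lit 0) (nat_lit 54103189569)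 (nat_lit 76) (nat_lit 210230768949) (nat_lit 76) (nat_lit 126785136803) (nat_lit 7) (nat_lit 4) (nat_lit 8) (nat_lit 5) (nat_lit 8) (nat_lit 4) (nat_lit 376) (nat_lit 323) (nat_lit 201))) (XT.nd (nat_lit 78) (nat_lit 0) (nat_lit 0) (XT.lf (nat_lit 0) (nat_lit 162008745333) (nat_lit 76) (nat_lit 169795599008) (nat_lit 76) (nat_lit 86349449960) (nat_lit 7) (nat_lit 4) (nat_lit 8) (nat_lit 5) (nat_lit 8) (nat_lit 4) (nat_lit 377) (nat_lit 323) (nat_lit 200)) (XT.lf (nat_lit 0) (nat_lit 278545510173) (nat_lit 76) (nat_lit 126126218717) (nat_lit 76) (nat_lit 42679591057) (nat_lit 7) (nat_lit 4) (nat_lit 8) (nat_lit 5) (nat_lit 8) (nat_lit 4) (nat_lit 378) (nat_lit 323) (nat_lit 199))))) (XT.nd (nat_lit 312) (nat_lit 76) (nat_lit 0) (XT.nd (nat_lit 156) (nat_lit 0) (nat_lit 0) (XT.nd (nat_lit 78) (nat_lit 76) (nat_lit 0) (XT.lf (nat_lit 0) (nat_lit 4258955220) (nat_lit 152) (nat_lit 74588443960)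 (nat_lit 76) (nat_lit 400028669721) (nat_lit 6) (nat_lit 5) (nat_lit 8) (nat_lit 5) (nat_lit 7) (nat_lit 4) (nat_lit 379) (nat_lit 323) (nat_lit 198)) (XT.lf (nat_lit 0) (nat_lit 27428759371) (nat_lit 76) (nat_lit 25877125496) (nat_lit 152) (nat_lit 459475499690) (nat_lit 5) (nat_lit 5) (nat_lit 6) (nat_lit 5) (nat_lit 7) (nat_lit 4) (nat_lit 380) (nat_lit 323) (nat_lit 197))) (XT.nd (nat_lit 78) (nat_lit 0) (nat_lit 0) (XT.lf (nat_lit 0) (nat_lit 109121872800) (nat_lit 152) (nat_lit 408194293731) (nat_lit 0) (nat_lit 31855334752) (nat_lit 5) (nat_lit 5) (nat_lit 7) (nat_lit 4) (nat_lit 5) (nat_lit 4) (nat_lit 381) (nat_lit 323) (nat_lit 196)) (XT.lf (nat_lit 0) (nat_lit 170074760845) (nat_lit 152) (nat_lit 325536439873) (nat_lit 0) (nat_lit 92807897061) (nat_lit 5) (nat_lit 5) (nat_lit 7) (nat_lit 4) (nat_lit 5) (nat_lit 4) (nat_lit 382) (nat_lit 323) (nat_lit 195)))) (XT.nd (nat_lit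 156) (nat_lit 76) (nat_lit 0) (XT.nd (nat_lit 78) (nat_lit 0) (nat_lit 0) (XT.lf (nat_lit 0) (nat_lit 235903405812) (nat_lit 152) (nat_lit 236266893805) (nat_lit 0) (nat_lit 158636240421) (nat_lit 5) (nat_lit 5) (nat_lit 7) (nat_lit 4) (nat_lit 5) (nat_lit 4) (nat_lit 383) (nat_lit 323) (nat_lit 194)) (XT.lf (nat_lit 0) (nat_lit 306997903375) (nat_lit 152) (nat_lit 139856650807) (nat_lit 0) (nat_lit 229730458718) (nat_lit 5) (nat_lit 5) (nat_lit 7) (nat_lit 4) (nat_lit 5) (nat_lit 4) (nat_lit 384) (nat_lit 323) (nat_lit 193))) (XT.nd (nat_lit 78) (nat_lit 76) (nat_lit 0) (XT.lf (nat_lit 0) (nat_lit 383779554259) (nat_lit 152) (nat_lit 35734390923) (nat_lit 0) (nat_lit 306511851023) (nat_lit 5) (nat_lit 5) (nat_lit 7) (nat_lit 4) (nat_lit 5) (nat_lit 4) (nat_lit 385) (nat_lit 323) (nat_lit 192)) (XT.nd (nat_lit 78) (nat_lit 0) (nat_lit 0) (XT.lf (nat_lit 0) (nat_lit 80756682997) (nat_lit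 76) (nat_lit 387888878012) (nat_lit 76) (nat_lit 310620935350) (nat_lit 4) (nat_lit 4) (nat_lit 5) (nat_lit 5) (nat_lit 5) (nat_lit 4) (nat_lit 386) (nat_lit 323) (nat_lit 191)) (XT.lf (nat_lit 0) (nat_lit 208598565016) (nat_lit 76) (nat_lit 352678958946) (nat_lit 76) (nat_lit 275410794594) (nat_lit 4) (nat_lit 4) (nat_lit 5) (nat_lit 5) (nat_lit 5) (nat_lit 4) (nat_lit 387) (nat_lit 323) (nat_lit 190))))))))
noncomputable def xc165 : XT := (XT.nd (nat_lit 1326) (nat_lit 0) (nat_lit 0) (XT.nd (nat_lit 624) (nat_lit 0) (nat_lit 0) (XT.nd (nat_lit 312) (nat_lit 152) (nat_lit 0) (XT.nd (nat_lit 156) (nat_lit 0) (nat_lit 0) (XT.nd (nat_lit 78) (nat_lit 0) (nat_lit 0) (XT.lf (nat_lit 0) (nat_lit 346667126955) (nat_lit 76) (nat_lit 314652578187) (nat_lit 76) (nat_lit 237384208566) (nat_lit 4) (nat_lit 4) (nat_lit 5) (nat_lit 5) (nat_lit 5) (nat_lit 4) (nat_lit 388) (nat_lit 323) (nat_lit 189))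 (XT.lf (nat_lit 0) (nat_lit 495780552887) (nat_lit 76) (nat_lit 273584394219) (nat_lit 76) (nat_lit 196315834534) (nat_lit 4) (nat_lit 4) (nat_lit 5) (nat_lit 5) (nat_lit 5) (nat_lit 4) (nat_lit 389) (nat_lit 323) (nat_lit 188))) (XT.nd (nat_lit 78) (nat_lit 0) (nat_lit 0) (XT.lf (nat_lit 0) (nat_lit 656822477927) (nat_lit 76) (nat_lit 229231040026) (nat_lit 76) (nat_lit 151962304356) (nat_lit 4) (nat_lit 4) (nat_lit 5) (nat_lit 5) (nat_lit 5) (nat_lit 4) (nat_lit 390) (nat_lit 323) (nat_lit 187)) (XT.lf (nat_lit 0) (nat_lit 830747224594) (nat_lit 76) (nat_lit 181329680917) (nat_lit 76) (nat_lit 104060782298) (nat_lit 4) (nat_lit 4) (nat_lit 5) (nat_lit 5) (nat_lit 5) (nat_lit 4) (nat_lit 391) (nat_lit 323) (nat_lit 186)))) (XT.nd (nat_lit 156) (nat_lit 76) (nat_lit 0) (XT.nd (nat_lit 78) (nat_lit 76) (nat_lit 0) (XT.lf (nat_lit 0) (nat_lit 1018585458054) (nat_lit 76) (nat_lit 129596456985)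 (nat_lit 76) (nat_lit 52327407488) (nat_lit 4) (nat_lit 4) (nat_lit 5) (nat_lit 5) (nat_lit 5) (nat_lit 4) (nat_lit 392) (nat_lit 323) (nat_lit 185)) (XT.lf (nat_lit 0) (nat_lit 3367083567) (nat_lit 152) (nat_lit 70265655379) (nat_lit 76) (nat_lit 1217991148166) (nat_lit 3) (nat_lit 5) (nat_lit 5) (nat_lit 5) (nat_lit 4) (nat_lit 4) (nat_lit 393) (nat_lit 323) (nat_lit 184))) (XT.nd (nat_lit 78) (nat_lit 0) (nat_lit 0) (XT.lf (nat_lit 0) (nat_lit 51544065724) (nat_lit 76) (nat_lit 10385445948) (nat_lit 152) (nat_lit 1327890219607) (nat_lit 2) (nat_lit 5) (nat_lit 3) (nat_lit 5) (nat_lit 4) (nat_lit 4) (nat_lit 394) (nat_lit 323) (nat_lit 183)) (XT.lf (nat_lit 0) (nat_lit 128540821045) (nat_lit 152) (nat_lit 1310066266196) (nat_lit 0) (nat_lit 56995044817) (nat_lit 2) (nat_lit 5) (nat_lit 4) (nat_lit 4) (nat_lit 2) (nat_lit 4) (nat_lit 395) (nat_lit 323) (nat_lit 182))))) (XT.nd (nat_lit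 312) (nat_lit 0) (nat_lit 0) (XT.nd (nat_lit 156) (nat_lit 0) (nat_lit 0) (XT.nd (nat_lit 78) (nat_lit 0) (nat_lit 0) (XT.lf (nat_lit 0) (nat_lit 200750585066) (nat_lit 152) (nat_lit 1279870269727) (nat_lit 0) (nat_lit 129204706152) (nat_lit 2) (nat_lit 5) (nat_lit 4) (nat_lit 4) (nat_lit 2) (nat_lit 4) (nat_lit 396) (nat_lit 323) (nat_lit 181)) (XT.lf (nat_lit 0) (nat_lit 278736943222) (nat_lit 152) (nat_lit 1247258966686) (nat_lit 0) (nat_lit 207190969230) (nat_lit 2) (nat_lit 5) (nat_lit 4) (nat_lit 4) (nat_lit 2) (nat_lit 4) (nat_lit 397) (nat_lit 323) (nat_lit 180))) (XT.nd (nat_lit 78) (nat_lit 0) (nat_lit 0) (XT.lf (nat_lit 0) (nat_lit 362962036896) (nat_lit 152) (nat_lit 1212039104907) (nat_lit 0) (nat_lit 291415974867) (nat_lit 2) (nat_lit 5) (nat_lit 4) (nat_lit 4) (nat_lit 2) (nat_lit 4) (nat_lit 398) (nat_lit 323) (nat_lit 179)) (XT.lf (nat_lit 0) (nat_lit 453924977753) (nat_lit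 152) (nat_lit 1174001974097) (nat_lit 0) (nat_lit 382378834209) (nat_lit 2) (nat_lit 5) (nat_lit 4) (nat_lit 4) (nat_lit 2) (nat_lit 4) (nat_lit 399) (nat_lit 323) (nat_lit 178)))) (XT.nd (nat_lit 156) (nat_lit 0) (nat_lit 0) (XT.nd (nat_lit 78) (nat_lit 0) (nat_lit 0) (XT.lf (nat_lit 0) (nat_lit 552164805442) (nat_lit 152) (nat_lit 1132922169038) (nat_lit 0) (nat_lit 480618586421) (nat_lit 2) (nat_lit 5) (nat_lit 4) (nat_lit 4) (nat_lit 2) (nat_lit 4) (nat_lit 400) (nat_lit 323) (nat_lit 177)) (XT.lf (nat_lit 0) (nat_lit 658263681907) (nat_lit 152) (nat_lit 1088556253847) (nat_lit 0) (nat_lit 586717393000) (nat_lit 2) (nat_lit 5) (nat_lit 4) (nat_lit 4) (nat_lit 2) (nat_lit 4) (nat_lit 401) (nat_lit 323) (nat_lit 176))) (XT.nd (nat_lit 78) (nat_lit 0) (nat_lit 0) (XT.lf (nat_lit 0) (nat_lit 772850341228) (nat_lit 152) (nat_lit 1040641319397) (nat_lit 0) (nat_lit 701303987612) (nat_lit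 2) (nat_lit 5) (nat_lit 4) (nat_lit 4) (nat_lit 2) (nat_lit 4) (nat_lit 402) (nat_lit 323) (nat_lit 175)) (XT.nd (nat_lit 78) (nat_lit 0) (nat_lit 0) (XT.lf (nat_lit 0) (nat_lit 896603815463) (nat_lit 152) (nat_lit 988893425335) (nat_lit 0) (nat_lit 825057401931) (nat_lit 2) (nat_lit 5) (nat_lit 4) (nat_lit 4) (nat_lit 2) (nat_lit 4) (nat_lit 403) (nat_lit 323) (nat_lit 174)) (XT.lf (nat_lit 0) (nat_lit 1030257458532) (nat_lit 152) (nat_lit 933005917476) (nat_lit 0) (nat_lit 958710989522) (nat_lit 2) (nat_lit 5) (nat_lit 4) (nat_lit 4) (nat_lit 2) (nat_lit 4) (nat_lit 404) (nat_lit 323) (nat_lit 173))))))) (XT.nd (nat_lit 40716) (nat_lit 0) (nat_lit 3344) (XT.nd (nat_lit 312) (nat_lit 0) (nat_lit 0) (XT.nd (nat_lit 156) (nat_lit 0) (nat_lit 0) (XT.nd (nat_lit 78) (nat_lit 0) (nat_lit 0) (XT.lf (nat_lit 0) (nat_lit 1174603292023) (nat_lit 152) (nat_lit 872647610586) (nat_lit 0) (nat_lit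 1103056771645) (nat_lit 2) (nat_lit 5) (nat_lit 4) (nat_lit 4) (nat_lit 2) (nat_lit 4) (nat_lit 405) (nat_lit 323) (nat_lit 172)) (XT.lf (nat_lit 0) (nat_lit 1330496698654) (nat_lit 152) (nat_lit 807460825811) (nat_lit 0) (nat_lit 1258950130712) (nat_lit 2) (nat_lit 5) (nat_lit 4) (nat_lit 4) (nat_lit 2) (nat_lit 4) (nat_lit 406) (nat_lit 323) (nat_lit 171))) (XT.nd (nat_lit 78) (nat_lit 0) (nat_lit 0) (XT.lf (nat_lit 0) (nat_lit 1498861491204) (nat_lit 152) (nat_lit 737059271093) (nat_lit 0) (nat_lit 1427314879223) (nat_lit 2) (nat_lit 5) (nat_lit 4) (nat_lit 4) (nat_lit 2) (nat_lit 4) (nat_lit 407) (nat_lit 323) (nat_lit 170)) (XT.lf (nat_lit 0) (nat_lit 1680695386964) (nat_lit 152) (nat_lit 661025752033) (nat_lit 0) (nat_lit 1609148734204) (nat_lit 2) (nat_lit 5) (nat_lit 4) (nat_lit 4) (nat_lit 2) (nat_lit 4) (nat_lit 408) (nat_lit 323) (nat_lit 169)))) (XT.nd (nat_lit 40248) (nat_lit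 0) (nat_lit 3952) (XT.nd (nat_lit 78) (nat_lit 0) (nat_lit 0) (XT.lf (nat_lit 0) (nat_lit 1877075920129) (nat_lit 152) (nat_lit 578909699629) (nat_lit 0) (nat_lit 1805529229613) (nat_lit 2) (nat_lit 5) (nat_lit 4) (nat_lit 4) (nat_lit 2) (nat_lit 4) (nat_lit 409) (nat_lit 323) (nat_lit 168)) (XT.lf (nat_lit 0) (nat_lit 2089166827193) (nat_lit 152) (nat_lit 490224500237) (nat_lit 0) (nat_lit 2017620101716) (nat_lit 2) (nat_lit 5) (nat_lit 4) (nat_lit 4) (nat_lit 2) (nat_lit 4) (nat_lit 410) (nat_lit 323) (nat_lit 167))) (XT.nd (nat_lit 78) (nat_lit 0) (nat_lit 0) (XT.lf (nat_lit 0) (nat_lit 9569022811) (nat_lit 532) (nat_lit 1691335269) (nat_lit 532) (nat_lit 1691335269) (nat_lit 54) (nat_lit 3) (nat_lit 61) (nat_lit 3) (nat_lit 61) (nat_lit 5) (nat_lit 324) (nat_lit 324) (nat_lit 252)) (XT.lf (nat_lit 76) (nat_lit 9349900342) (nat_lit 0) (nat_lit 10869325580) (nat_lit 532) (nat_lit 6694877718)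 (nat_lit 55) (nat_lit 5) (nat_lit 54) (nat_lit 3) (nat_lit 61) (nat_lit 5) (nat_lit 325) (nat_lit 324) (nat_lit 251))))) (XT.nd (nat_lit 312) (nat_lit 684) (nat_lit 0) (XT.nd (nat_lit 156) (nat_lit 0) (nat_lit 0) (XT.nd (nat_lit 78) (nat_lit 0) (nat_lit 0) (XT.lf (nat_lit 0) (nat_lit 21513906113) (nat_lit 456) (nat_lit 4754477305) (nat_lit 532) (nat_lit 1727150671) (nat_lit 55) (nat_lit 5) (nat_lit 61) (nat_lit 5) (nat_lit 62) (nat_lit 5) (nat_lit 326) (nat_lit 324) (nat_lit 250)) (XT.lf (nat_lit 76) (nat_lit 9255108208) (nat_lit 0) (nat_lit 14153522108) (nat_lit 532) (nat_lit 5715146455) (nat_lit 56) (nat_lit 5) (nat_lit 55) (nat_lit 5) (nat_lit 62) (nat_lit 5) (nat_lit 327) (nat_lit 324) (nat_lit 249))) (XT.nd (nat_lit 78) (nat_lit 0) (nat_lit 76) (XT.lf (nat_lit 76) (nat_lit 24650416668) (nat_lit 0) (nat_lit 926569684) (nat_lit 532) (nat_lit 4755542431) (nat_lit 56) (nat_lit 5) (nat_lit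 55) (nat_lit 5) (nat_lit 62) (nat_lit 5) (nat_lit 328) (nat_lit 324) (nat_lit 248)) (XT.lf (nat_lit 76) (nat_lit 9802780540) (nat_lit 0) (nat_lit 18665762790) (nat_lit 532) (nat_lit 3125472200) (nat_lit 57) (nat_lit 5) (nat_lit 56) (nat_lit 5) (nat_lit 63) (nat_lit 5) (nat_lit 329) (nat_lit 324) (nat_lit 247)))) (XT.nd (nat_lit 156) (nat_lit 304) (nat_lit 0) (XT.nd (nat_lit 78) (nat_lit 456) (nat_lit 0) (XT.lf (nat_lit 76) (nat_lit 26818731443) (nat_lit 0) (nat_lit 4944619273) (nat_lit 532) (nat_lit 1179328629) (nat_lit 57) (nat_lit 5) (nat_lit 56) (nat_lit 5) (nat_lit 63) (nat_lit 5) (nat_lit 330) (nat_lit 324) (nat_lit 246)) (XT.lf (nat_lit 0) (nat_lit 1387594744) (nat_lit 532) (nat_lit 23285220156) (nat_lit 76) (nat_lit 9683758052) (nat_lit 50) (nat_lit 5) (nat_lit 57) (nat_lit 5) (nat_lit 51) (nat_lit 5) (nat_lit 331) (nat_lit 324) (nat_lit 245))) (XT.nd (nat_lit 78) (nat_lit 304)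 (nat_lit 0) (XT.lf (nat_lit 0) (nat_lit 4390198652) (nat_lit 532) (nat_lit 6048921463) (nat_lit 76) (nat_lit 25418493779) (nat_lit 50) (nat_lit 5) (nat_lit 57) (nat_lit 5) (nat_lit 51) (nat_lit 5) (nat_lit 332) (nat_lit 324) (nat_lit 244)) (XT.nd (nat_lit 78) (nat_lit 0) (nat_lit 0) (XT.lf (nat_lit 0) (nat_lit 8072196833) (nat_lit 380) (nat_lit 24358406535) (nat_lit 76) (nat_lit 5013008829) (nat_lit 46) (nat_lit 5) (nat_lit 51) (nat_lit 5) (nat_lit 47) (nat_lit 5) (nat_lit 333) (nat_lit 324) (nat_lit 243)) (XT.lf (nat_lit 0) (nat_lit 12484162451) (nat_lit 380) (nat_lit 5330380470) (nat_lit 76) (nat_lit 21307123139) (nat_lit 46) (nat_lit 5) (nat_lit 51) (nat_lit 5) (nat_lit 47) (nat_lit 5) (nat_lit 334) (nat_lit 324) (nat_lit 242))))))))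
noncomputable def xc166 : XT := (XT.nd (nat_lit 1326) (nat_lit 912) (nat_lit 0) (XT.nd (nat_lit 624) (nat_lit 684) (nat_lit 0) (XT.nd (nat_lit 312) (nat_lit 608) (nat_lit 0) (XT.nd (nat_lit 156) (nat_lit 228) (nat_lit 0) (XT.nd (nat_lit 78) (nat_lit 0) (nat_lit 0) (XT.lf (nat_lit 0) (nat_lit 16015735689) (nat_lit 228) (nat_lit 1613507693) (nat_lit 304) (nat_lit 23274315890) (nat_lit 43) (nat_lit 5) (nat_lit 46) (nat_lit 5) (nat_lit 47) (nat_lit 5) (nat_lit 335) (nat_lit 324) (nat_lit 241)) (XT.lf (nat_lit 0) (nat_lit 23712675907) (nat_lit 304) (nat_lit 3835014880) (nat_lit 76) (nat_lit 15238180661) (nat_lit 43) (nat_lit 5) (nat_lit 47) (nat_lit 5) (nat_lit 44) (nat_lit 5) (nat_lit 336) (nat_lit 324) (nat_lit 240))) (XT.nd (nat_lit 78) (nat_lit 0) (nat_lit 0) (XT.lf (nat_lit 0) (nat_lit 19847821938) (nat_lit 228) (nat_lit 10949781676) (nat_lit 304) (nat_lit 13979985927) (nat_lit 40) (nat_lit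 5) (nat_lit 43) (nat_lit 5) (nat_lit 44) (nat_lit 5) (nat_lit 337) (nat_lit 324) (nat_lit 239)) (XT.lf (nat_lit 0) (nat_lit 38720435808) (nat_lit 304) (nat_lit 1452715496) (nat_lit 76) (nat_lit 6733811058) (nat_lit 40) (nat_lit 5) (nat_lit 44) (nat_lit 5) (nat_lit 41) (nat_lit 5) (nat_lit 338) (nat_lit 324) (nat_lit 238)))) (XT.nd (nat_lit 156) (nat_lit 152) (nat_lit 0) (XT.nd (nat_lit 78) (nat_lit 304) (nat_lit 0) (XT.lf (nat_lit 0) (nat_lit 24856563360) (nat_lit 152) (nat_lit 23298814873) (nat_lit 228) (nat_lit 981049732) (nat_lit 38) (nat_lit 5) (nat_lit 40) (nat_lit 5) (nat_lit 41) (nat_lit 5) (nat_lit 339) (nat_lit 324) (nat_lit 237)) (XT.lf (nat_lit 0) (nat_lit 1728991088) (nat_lit 228) (nat_lit 4810146253) (nat_lit 304) (nat_lit 44985755126) (nat_lit 34) (nat_lit 5) (nat_lit 37) (nat_lit 5) (nat_lit 38) (nat_lit 5) (nat_lit 340) (nat_lit 324) (nat_lit 236))) (XT.nd (nat_lit 78)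 (nat_lit 152) (nat_lit 0) (XT.lf (nat_lit 0) (nat_lit 15649859022) (nat_lit 304) (nat_lit 23264397447) (nat_lit 76) (nat_lit 15104789855) (nat_lit 34) (nat_lit 5) (nat_lit 38) (nat_lit 5) (nat_lit 35) (nat_lit 5) (nat_lit 341) (nat_lit 324) (nat_lit 235)) (XT.lf (nat_lit 0) (nat_lit 5536869654) (nat_lit 152) (nat_lit 20207228088) (nat_lit 228) (nat_lit 30948266156) (nat_lit 32) (nat_lit 5) (nat_lit 34) (nat_lit 5) (nat_lit 35) (nat_lit 5) (nat_lit 342) (nat_lit 324) (nat_lit 234))))) (XT.nd (nat_lit 312) (nat_lit 304) (nat_lit 0) (XT.nd (nat_lit 156) (nat_lit 228) (nat_lit 0) (XT.nd (nat_lit 78) (nat_lit 152) (nat_lit 0) (XT.lf (nat_lit 0) (nat_lit 37295067803) (nat_lit 228) (nat_lit 21584697232) (nat_lit 76) (nat_lit 647850308) (nat_lit 32) (nat_lit 5) (nat_lit 35) (nat_lit 5) (nat_lit 33) (nat_lit 5) (nat_lit 343) (nat_lit 324) (nat_lit 233)) (XT.lf (nat_lit 0) (nat_lit 10339583666)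 (nat_lit 152) (nat_lit 40200976969) (nat_lit 228) (nat_lit 11987494215) (nat_lit 30) (nat_lit 5) (nat_lit 32) (nat_lit 5) (nat_lit 33) (nat_lit 5) (nat_lit 344) (nat_lit 324) (nat_lit 232))) (XT.nd (nat_lit 78) (nat_lit 228) (nat_lit 0) (XT.lf (nat_lit 0) (nat_lit 46040918293) (nat_lit 152) (nat_lit 19391975338) (nat_lit 228) (nat_lit 288663126) (nat_lit 30) (nat_lit 5) (nat_lit 32) (nat_lit 5) (nat_lit 33) (nat_lit 5) (nat_lit 345) (nat_lit 324) (nat_lit 231)) (XT.lf (nat_lit 0) (nat_lit 12200349721) (nat_lit 228) (nat_lit 53284930545) (nat_lit 76) (nat_lit 3623757431) (nat_lit 27) (nat_lit 5) (nat_lit 30) (nat_lit 5) (nat_lit 28) (nat_lit 5) (nat_lit 346) (nat_lit 324) (nat_lit 230)))) (XT.nd (nat_lit 156) (nat_lit 152) (nat_lit 0) (XT.nd (nat_lit 78) (nat_lit 152) (nat_lit 0) (XT.lf (nat_lit 0) (nat_lit 26725912896) (nat_lit 228) (nat_lit 17965472995) (nat_lit 76) (nat_lit 27991292049)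 (nat_lit 27) (nat_lit 5) (nat_lit 30) (nat_lit 5) (nat_lit 28) (nat_lit 5) (nat_lit 347) (nat_lit 324) (nat_lit 229)) (XT.lf (nat_lit 0) (nat_lit 21237939844) (nat_lit 152) (nat_lit 21683814139) (nat_lit 228) (nat_lit 33579799215) (nat_lit 25) (nat_lit 5) (nat_lit 27) (nat_lit 5) (nat_lit 28) (nat_lit 5) (nat_lit 348) (nat_lit 324) (nat_lit 228))) (XT.nd (nat_lit 78) (nat_lit 152) (nat_lit 0) (XT.lf (nat_lit 0) (nat_lit 60990850809) (nat_lit 228) (nat_lit 16080235774) (nat_lit 76) (nat_lit 3508647060) (nat_lit 25) (nat_lit 5) (nat_lit 28) (nat_lit 5) (nat_lit 26) (nat_lit 4) (nat_lit 349) (nat_lit 324) (nat_lit 227)) (XT.nd (nat_lit 78) (nat_lit 76) (nat_lit 0) (XT.lf (nat_lit 0) (nat_lit 27022607488) (nat_lit 76) (nat_lit 54693680908) (nat_lit 152) (nat_lit 3171017164) (nat_lit 24) (nat_lit 5) (nat_lit 25) (nat_lit 5) (nat_lit 26) (nat_lit 4) (nat_lit 350) (nat_lit 324) (nat_lit 226))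 (XT.lf (nat_lit 0) (nat_lit 14280720791) (nat_lit 152) (nat_lit 15381524613) (nat_lit 76) (nat_lit 59813321038) (nat_lit 23) (nat_lit 5) (nat_lit 25) (nat_lit 5) (nat_lit 24) (nat_lit 5) (nat_lit 351) (nat_lit 324) (nat_lit 225))))))) (XT.nd (nat_lit 624) (nat_lit 456) (nat_lit 0) (XT.nd (nat_lit 312) (nat_lit 228) (nat_lit 0) (XT.nd (nat_lit 156) (nat_lit 76) (nat_lit 0) (XT.nd (nat_lit 78) (nat_lit 0) (nat_lit 0) (XT.lf (nat_lit 0) (nat_lit 32015994464) (nat_lit 152) (nat_lit 1709165128) (nat_lit 228) (nat_lit 60637710795) (nat_lit 21) (nat_lit 5) (nat_lit 23) (nat_lit 5) (nat_lit 24) (nat_lit 5) (nat_lit 352) (nat_lit 324) (nat_lit 224)) (XT.lf (nat_lit 0) (nat_lit 55839517634) (nat_lit 228) (nat_lit 16226865739) (nat_lit 76) (nat_lit 27485627671) (nat_lit 21) (nat_lit 5) (nat_lit 24) (nat_lit 5) (nat_lit 22) (nat_lit 4) (nat_lit 353) (nat_lit 324) (nat_lit 223))) (XT.nd (nat_lit 78)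 (nat_lit 0) (nat_lit 0) (XT.lf (nat_lit 0) (nat_lit 35300955938) (nat_lit 76) (nat_lit 45313538004) (nat_lit 152) (nat_lit 24470472857) (nat_lit 20) (nat_lit 5) (nat_lit 21) (nat_lit 5) (nat_lit 22) (nat_lit 4) (nat_lit 354) (nat_lit 324) (nat_lit 222)) (XT.lf (nat_lit 0) (nat_lit 91870630723) (nat_lit 76) (nat_lit 15942660322) (nat_lit 152) (nat_lit 3211923463) (nat_lit 20) (nat_lit 5) (nat_lit 21) (nat_lit 5) (nat_lit 22) (nat_lit 4) (nat_lit 355) (nat_lit 324) (nat_lit 221)))) (XT.nd (nat_lit 156) (nat_lit 76) (nat_lit 0) (XT.nd (nat_lit 78) (nat_lit 0) (nat_lit 0) (XT.lf (nat_lit 0) (nat_lit 20059792133) (nat_lit 152) (nat_lit 80853923694) (nat_lit 76) (nat_lit 16384947652) (nat_lit 18) (nat_lit 5) (nat_lit 20) (nat_lit 5) (nat_lit 19) (nat_lit 4) (nat_lit 356) (nat_lit 324) (nat_lit 220)) (XT.lf (nat_lit 0) (nat_lit 45969406234) (nat_lit 152) (nat_lit 26964961335) (nat_lit 76) (nat_lit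 51056972628) (nat_lit 18) (nat_lit 5) (nat_lit 20) (nat_lit 5) (nat_lit 19) (nat_lit 4) (nat_lit 357) (nat_lit 324) (nat_lit 219))) (XT.nd (nat_lit 78) (nat_lit 0) (nat_lit 0) (XT.lf (nat_lit 0) (nat_lit 32876889079) (nat_lit 76) (nat_lit 41863988583) (nat_lit 152) (nat_lit 56415427296) (nat_lit 17) (nat_lit 5) (nat_lit 18) (nat_lit 5) (nat_lit 19) (nat_lit 4) (nat_lit 358) (nat_lit 324) (nat_lit 218)) (XT.lf (nat_lit 0) (nat_lit 99036817203) (nat_lit 76) (nat_lit 7512969171) (nat_lit 152) (nat_lit 32285823852) (nat_lit 17) (nat_lit 5) (nat_lit 18) (nat_lit 5) (nat_lit 19) (nat_lit 4) (nat_lit 359) (nat_lit 324) (nat_lit 217))))) (XT.nd (nat_lit 312) (nat_lit 228) (nat_lit 0) (XT.nd (nat_lit 156) (nat_lit 76) (nat_lit 0) (XT.nd (nat_lit 78) (nat_lit 76) (nat_lit 0) (XT.lf (nat_lit 0) (nat_lit 23838561047) (nat_lit 76) (nat_lit 118348248816) (nat_lit 76) (nat_lit 4839778711) (nat_lit 16)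 (nat_lit 4) (nat_lit 17) (nat_lit 5) (nat_lit 17) (nat_lit 4) (nat_lit 360) (nat_lit 324) (nat_lit 216)) (XT.lf (nat_lit 0) (nat_lit 24871376896) (nat_lit 152) (nat_lit 61778071709) (nat_lit 76) (nat_lit 69070868624) (nat_lit 15) (nat_lit 5) (nat_lit 17) (nat_lit 5) (nat_lit 16) (nat_lit 4) (nat_lit 361) (nat_lit 324) (nat_lit 215))) (XT.nd (nat_lit 78) (nat_lit 0) (nat_lit 0) (XT.lf (nat_lit 0) (nat_lit 4649052727) (nat_lit 76) (nat_lit 52159361180) (nat_lit 152) (nat_lit 108282237225) (nat_lit 14) (nat_lit 5) (nat_lit 15) (nat_lit 5) (nat_lit 16) (nat_lit 4) (nat_lit 362) (nat_lit 324) (nat_lit 214)) (XT.lf (nat_lit 0) (nat_lit 79901299922) (nat_lit 76) (nat_lit 13086930365) (nat_lit 152) (nat_lit 82087356754) (nat_lit 14) (nat_lit 5) (nat_lit 15) (nat_lit 5) (nat_lit 16) (nat_lit 4) (nat_lit 363) (nat_lit 324) (nat_lit 213)))) (XT.nd (nat_lit 156) (nat_lit 152) (nat_lit 0) (XT.nd (nat_lit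 78) (nat_lit 76) (nat_lit 0) (XT.lf (nat_lit 0) (nat_lit 132761325640) (nat_lit 152) (nat_lit 25388032256) (nat_lit 0) (nat_lit 27654048995) (nat_lit 14) (nat_lit 5) (nat_lit 16) (nat_lit 4) (nat_lit 14) (nat_lit 4) (nat_lit 364) (nat_lit 324) (nat_lit 212)) (XT.lf (nat_lit 0) (nat_lit 52252965088) (nat_lit 76) (nat_lit 125058766570) (nat_lit 76) (nat_lit 19950084147) (nat_lit 13) (nat_lit 4) (nat_lit 14) (nat_lit 5) (nat_lit 14) (nat_lit 4) (nat_lit 365) (nat_lit 324) (nat_lit 211))) (XT.nd (nat_lit 78) (nat_lit 76) (nat_lit 0) (XT.lf (nat_lit 0) (nat_lit 15710475977) (nat_lit 152) (nat_lit 72432194035) (nat_lit 76) (nat_lit 121406965545) (nat_lit 12) (nat_lit 5) (nat_lit 14) (nat_lit 5) (nat_lit 13) (nat_lit 4) (nat_lit 366) (nat_lit 324) (nat_lit 210)) (XT.nd (nat_lit 78) (nat_lit 0) (nat_lit 0) (XT.lf (nat_lit 0) (nat_lit 5716378057) (nat_lit 76) (nat_lit 47566106247) (nat_lit 152)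 (nat_lit 169485628188) (nat_lit 11) (nat_lit 5) (nat_lit 12) (nat_lit 5) (nat_lit 13) (nat_lit 4) (nat_lit 367) (nat_lit 324) (nat_lit 209)) (XT.lf (nat_lit 0) (nat_lit 94234179841) (nat_lit 76) (nat_lit 1605476452) (nat_lit 152) (nat_lit 141046059433) (nat_lit 11) (nat_lit 5) (nat_lit 12) (nat_lit 5) (nat_lit 13) (nat_lit 4) (nat_lit 368) (nat_lit 324) (nat_lit 208))))))))
noncomputable def xc167 : XT := (XT.nd (nat_lit 1326) (nat_lit 228) (nat_lit 0) (XT.nd (nat_lit 624) (nat_lit 228) (nat_lit 0) (XT.nd (nat_lit 312) (nat_lit 76) (nat_lit 0) (XT.nd (nat_lit 156) (nat_lit 76) (nat_lit 0) (XT.nd (nat_lit 78) (nat_lit 76) (nat_lit 0) (XT.lf (nat_lit 0) (nat_lit 142955606571) (nat_lit 152) (nat_lit 63456343380) (nat_lit 0) (nat_lit 45628441257) (nat_lit 11) (nat_lit 5) (nat_lit 13) (nat_lit 4) (nat_lit 11) (nat_lit 4) (nat_lit 369) (nat_lit 324) (nat_lit 207)) (XT.lf (nat_lit 0) (nat_lit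 23191165915) (nat_lit 76) (nat_lit 171248221005) (nat_lit 76) (nat_lit 73920169813) (nat_lit 10) (nat_lit 4) (nat_lit 11) (nat_lit 5) (nat_lit 11) (nat_lit 4) (nat_lit 370) (nat_lit 324) (nat_lit 206))) (XT.nd (nat_lit 78) (nat_lit 76) (nat_lit 0) (XT.lf (nat_lit 0) (nat_lit 120377623853) (nat_lit 76) (nat_lit 131398386091) (nat_lit 76) (nat_lit 34069514640) (nat_lit 10) (nat_lit 4) (nat_lit 11) (nat_lit 5) (nat_lit 11) (nat_lit 4) (nat_lit 371) (nat_lit 324) (nat_lit 205)) (XT.lf (nat_lit 0) (nat_lit 8519692139) (nat_lit 152) (nat_lit 79608671299) (nat_lit 76) (nat_lit 216584815976) (nat_lit 9) (nat_lit 5) (nat_lit 11) (nat_lit 5) (nat_lit 10) (nat_lit 4) (nat_lit 372) (nat_lit 324) (nat_lit 204)))) (XT.nd (nat_lit 156) (nat_lit 0) (nat_lit 0) (XT.nd (nat_lit 78) (nat_lit 0) (nat_lit 0) (XT.lf (nat_lit 0) (nat_lit 12877064195) (nat_lit 76) (nat_lit 40107261950) (nat_lit 152) (nat_lit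 272010412578) (nat_lit 8) (nat_lit 5) (nat_lit 9) (nat_lit 5) (nat_lit 10) (nat_lit 4) (nat_lit 373) (nat_lit 324) (nat_lit 203)) (XT.lf (nat_lit 0) (nat_lit 103521271022) (nat_lit 152) (nat_lit 229776352462) (nat_lit 0) (nat_lit 13399988304) (nat_lit 8) (nat_lit 5) (nat_lit 10) (nat_lit 4) (nat_lit 8) (nat_lit 4) (nat_lit 374) (nat_lit 324) (nat_lit 202))) (XT.nd (nat_lit 78) (nat_lit 0) (nat_lit 0) (XT.lf (nat_lit 0) (nat_lit 159142215880) (nat_lit 152) (nat_lit 141890840565) (nat_lit 0) (nat_lit 69020374908) (nat_lit 8) (nat_lit 5) (nat_lit 10) (nat_lit 4) (nat_lit 8) (nat_lit 4) (nat_lit 375) (nat_lit 324) (nat_lit 201)) (XT.lf (nat_lit 0) (nat_lit 219212185704) (nat_lit 152) (nat_lit 46975755188) (nat_lit 0) (nat_lit 129089827831) (nat_lit 8) (nat_lit 5) (nat_lit 10) (nat_lit 4) (nat_lit 8) (nat_lit 4) (nat_lit 376) (nat_lit 324) (nat_lit 200))))) (XT.nd (nat_lit 312) (nat_lit 76)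 (nat_lit 0) (XT.nd (nat_lit 156) (nat_lit 76) (nat_lit 0) (XT.nd (nat_lit 78) (nat_lit 0) (nat_lit 0) (XT.lf (nat_lit 0) (nat_lit 58455546619) (nat_lit 76) (nat_lit 227037461369) (nat_lit 76) (nat_lit 136914624883) (nat_lit 7) (nat_lit 4) (nat_lit 8) (nat_lit 5) (nat_lit 8) (nat_lit 4) (nat_lit 377) (nat_lit 324) (nat_lit 199)) (XT.lf (nat_lit 0) (nat_lit 174991761519) (nat_lit 76) (nat_lit 183368349617) (nat_lit 76) (nat_lit 93245069971) (nat_lit 7) (nat_lit 4) (nat_lit 8) (nat_lit 5) (nat_lit 8) (nat_lit 4) (nat_lit 378) (nat_lit 324) (nat_lit 198))) (XT.nd (nat_lit 78) (nat_lit 76) (nat_lit 0) (XT.lf (nat_lit 0) (nat_lit 300849814468) (nat_lit 76) (nat_lit 136206226112) (nat_lit 76) (nat_lit 46082536133) (nat_lit 7) (nat_lit 4) (nat_lit 8) (nat_lit 5) (nat_lit 8) (nat_lit 4) (nat_lit 379) (nat_lit 324) (nat_lit 197)) (XT.lf (nat_lit 0) (nat_lit 4609718697) (nat_lit 152) (nat_lit 80535855026)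 (nat_lit 76) (nat_lit 432039774388) (nat_lit 6) (nat_lit 5) (nat_lit 8) (nat_lit 5) (nat_lit 7) (nat_lit 4) (nat_lit 380) (nat_lit 324) (nat_lit 196)))) (XT.nd (nat_lit 156) (nat_lit 0) (nat_lit 0) (XT.nd (nat_lit 78) (nat_lit 0) (nat_lit 0) (XT.lf (nat_lit 0) (nat_lit 29642226738) (nat_lit 76) (nat_lit 27937892708) (nat_lit 152) (nat_lit 496222992422) (nat_lit 5) (nat_lit 5) (nat_lit 6) (nat_lit 5) (nat_lit 7) (nat_lit 4) (nat_lit 381) (nat_lit 324) (nat_lit 195)) (XT.lf (nat_lit 0) (nat_lit 117860872557) (nat_lit 152) (nat_lit 440831574329) (nat_lit 0) (nat_lit 34412032328) (nat_lit 5) (nat_lit 5) (nat_lit 7) (nat_lit 4) (nat_lit 5) (nat_lit 4) (nat_lit 382) (nat_lit 324) (nat_lit 194))) (XT.nd (nat_lit 78) (nat_lit 0) (nat_lit 0) (XT.lf (nat_lit 0) (nat_lit 183689306466) (nat_lit 152) (nat_lit 351562444970) (nat_lit 0) (nat_lit 100240186970) (nat_lit 5) (nat_lit 5) (nat_lit 7) (nat_lit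 4) (nat_lit 5) (nat_lit 4) (nat_lit 383) (nat_lit 324) (nat_lit 193)) (XT.nd (nat_lit 78) (nat_lit 0) (nat_lit 0) (XT.lf (nat_lit 0) (nat_lit 254783608604) (nat_lit 152) (nat_lit 255152587816) (nat_lit 0) (nat_lit 171334230529) (nat_lit 5) (nat_lit 5) (nat_lit 7) (nat_lit 4) (nat_lit 5) (nat_lit 4) (nat_lit 384) (nat_lit 324) (nat_lit 192)) (XT.lf (nat_lit 0) (nat_lit 331565078540) (nat_lit 152) (nat_lit 151030685193) (nat_lit 0) (nat_lit 248115461040) (nat_lit 5) (nat_lit 5) (nat_lit 7) (nat_lit 4) (nat_lit 5) (nat_lit 4) (nat_lit 385) (nat_lit 324) (nat_lit 191))))))) (XT.nd (nat_lit 702) (nat_lit 76) (nat_lit 0) (XT.nd (nat_lit 312) (nat_lit 76) (nat_lit 0) (XT.nd (nat_lit 156) (nat_lit 0) (nat_lit 0) (XT.nd (nat_lit 78) (nat_lit 76) (nat_lit 0) (XT.lf (nat_lit 0) (nat_lit 414488717577) (nat_lit 152) (nat_lit 38579718420) (nat_lit 0) (nat_lit 331038878387) (nat_lit 5) (nat_lit 5) (nat_lit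 7) (nat_lit 4) (nat_lit 5) (nat_lit 4) (nat_lit 386) (nat_lit 324) (nat_lit 190)) (XT.lf (nat_lit 0) (nat_lit 87230301571) (nat_lit 76) (nat_lit 418913514337) (nat_lit 76) (nat_lit 335463469878) (nat_lit 4) (nat_lit 4) (nat_lit 5) (nat_lit 5) (nat_lit 5) (nat_lit 4) (nat_lit 387) (nat_lit 324) (nat_lit 189))) (XT.nd (nat_lit 78) (nat_lit 0) (nat_lit 0) (XT.lf (nat_lit 0) (nat_lit 225298564971) (nat_lit 76) (nat_lit 380887281295) (nat_lit 76) (nat_lit 297437046772) (nat_lit 4) (nat_lit 4) (nat_lit 5) (nat_lit 5) (nat_lit 5) (nat_lit 4) (nat_lit 388) (nat_lit 324) (nat_lit 188)) (XT.lf (nat_lit 0) (nat_lit 374411714477) (nat_lit 76) (nat_lit 339819234103) (nat_lit 76) (nat_lit 256368823594) (nat_lit 4) (nat_lit 4) (nat_lit 5) (nat_lit 5) (nat_lit 5) (nat_lit 4) (nat_lit 389) (nat_lit 324) (nat_lit 187)))) (XT.nd (nat_lit 156) (nat_lit 76) (nat_lit 0) (XT.nd (nat_lit 78) (nat_lit 0) (nat_lit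 0) (XT.lf (nat_lit 0) (nat_lit 535453383567) (nat_lit 76) (nat_lit 295466006553) (nat_lit 76) (nat_lit 212015433096) (nat_lit 4) (nat_lit 4) (nat_lit 5) (nat_lit 5) (nat_lit 5) (nat_lit 4) (nat_lit 390) (nat_lit 324) (nat_lit 186)) (XT.lf (nat_lit 0) (nat_lit 709377893243) (nat_lit 76) (nat_lit 247564764707) (nat_lit 76) (nat_lit 164114040371) (nat_lit 4) (nat_lit 4) (nat_lit 5) (nat_lit 5) (nat_lit 5) (nat_lit 4) (nat_lit 391) (nat_lit 324) (nat_lit 185))) (XT.nd (nat_lit 78) (nat_lit 76) (nat_lit 0) (XT.lf (nat_lit 0) (nat_lit 897215907268) (nat_lit 76) (nat_lit 195831649352) (nat_lit 76) (nat_lit 112380785313) (nat_lit 4) (nat_lit 4) (nat_lit 5) (nat_lit 5) (nat_lit 5) (nat_lit 4) (nat_lit 392) (nat_lit 324) (nat_lit 184)) (XT.nd (nat_lit 78) (nat_lit 76) (nat_lit 0) (XT.lf (nat_lit 0) (nat_lit 1100080539797) (nat_lit 76) (nat_lit 139960093879) (nat_lit 76) (nat_lit 56509100486) (nat_lit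 4) (nat_lit 4) (nat_lit 5) (nat_lit 5) (nat_lit 5) (nat_lit 4) (nat_lit 393) (nat_lit 324) (nat_lit 183)) (XT.lf (nat_lit 0) (nat_lit 3640408134) (nat_lit 152) (nat_lit 75879064245) (nat_lit 76) (nat_lit 1315434008272) (nat_lit 3) (nat_lit 5) (nat_lit 5) (nat_lit 5) (nat_lit 4) (nat_lit 4) (nat_lit 394) (nat_lit 324) (nat_lit 182)))))) (XT.nd (nat_lit 312) (nat_lit 0) (nat_lit 0) (XT.nd (nat_lit 156) (nat_lit 0) (nat_lit 0) (XT.nd (nat_lit 78) (nat_lit 0) (nat_lit 0) (XT.lf (nat_lit 0) (nat_lit 55675235975) (nat_lit 76) (nat_lit 11212485197) (nat_lit 152) (nat_lit 1434117279982) (nat_lit 2) (nat_lit 5) (nat_lit 3) (nat_lit 5) (nat_lit 4) (nat_lit 4) (nat_lit 395) (nat_lit 324) (nat_lit 181)) (XT.lf (nat_lit 0) (nat_lit 138827734758) (nat_lit 152) (nat_lit 1414864287569) (nat_lit 0) (nat_lit 61557987767) (nat_lit 2) (nat_lit 5) (nat_lit 4) (nat_lit 4) (nat_lit 2) (nat_lit 4) (nat_lit 396)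 (nat_lit 324) (nat_lit 180))) (XT.nd (nat_lit 78) (nat_lit 0) (nat_lit 0) (XT.lf (nat_lit 0) (nat_lit 216814009676) (nat_lit 152) (nat_lit 1382253150636) (nat_lit 0) (nat_lit 139544174649) (nat_lit 2) (nat_lit 5) (nat_lit 4) (nat_lit 4) (nat_lit 2) (nat_lit 4) (nat_lit 397) (nat_lit 324) (nat_lit 179)) (XT.lf (nat_lit 0) (nat_lit 301039026277) (nat_lit 152) (nat_lit 1347033442661) (nat_lit 0) (nat_lit 223769109735) (nat_lit 2) (nat_lit 5) (nat_lit 4) (nat_lit 4) (nat_lit 2) (nat_lit 4) (nat_lit 398) (nat_lit 324) (nat_lit 178)))) (XT.nd (nat_lit 156) (nat_lit 0) (nat_lit 0) (XT.nd (nat_lit 78) (nat_lit 0) (nat_lit 0) (XT.lf (nat_lit 0) (nat_lit 392001895771) (nat_lit 152) (nat_lit 1308996454263) (nat_lit 0) (nat_lit 314731903751) (nat_lit 2) (nat_lit 5) (nat_lit 4) (nat_lit 4) (nat_lit 2) (nat_lit 4) (nat_lit 399) (nat_lit 324) (nat_lit 177)) (XT.lf (nat_lit 0) (nat_lit 490241657383) (nat_lit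 152) (nat_lit 1267916781065) (nat_lit 0) (nat_lit 412971595478) (nat_lit 2) (nat_lit 5) (nat_lit 4) (nat_lit 4) (nat_lit 2) (nat_lit 4) (nat_lit 400) (nat_lit 324) (nat_lit 176))) (XT.nd (nat_lit 78) (nat_lit 0) (nat_lit 0) (XT.lf (nat_lit 0) (nat_lit 596340472665) (nat_lit 152) (nat_lit 1223550987968) (nat_lit 0) (nat_lit 519070346050) (nat_lit 2) (nat_lit 5) (nat_lit 4) (nat_lit 4) (nat_lit 2) (nat_lit 4) (nat_lit 401) (nat_lit 324) (nat_lit 175)) (XT.nd (nat_lit 78) (nat_lit 0) (nat_lit 0) (XT.lf (nat_lit 0) (nat_lit 710927075337) (nat_lit 152) (nat_lit 1175636166569) (nat_lit 0) (nat_lit 633656888806) (nat_lit 2) (nat_lit 5) (nat_lit 4) (nat_lit 4) (nat_lit 2) (nat_lit 4) (nat_lit 402) (nat_lit 324) (nat_lit 174)) (XT.lf (nat_lit 0) (nat_lit 834680497117) (nat_lit 152) (nat_lit 1123888377184) (nat_lit 0) (nat_lit 757410255108) (nat_lit 2) (nat_lit 5) (nat_lit 4) (nat_lit 4) (nat_lit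 2) (nat_lit 4) (nat_lit 403) (nat_lit 324) (nat_lit 173))))))))
noncomputable def xc168 : XT := (XT.nd (nat_lit 41496) (nat_lit 0) (nat_lit 1672) (XT.nd (nat_lit 40794) (nat_lit 0) (nat_lit 3344) (XT.nd (nat_lit 312) (nat_lit 0) (nat_lit 0) (XT.nd (nat_lit 156) (nat_lit 0) (nat_lit 0) (XT.nd (nat_lit 78) (nat_lit 0) (nat_lit 0) (XT.lf (nat_lit 0) (nat_lit 968334091617) (nat_lit 152) (nat_lit 1068000966247) (nat_lit 0) (nat_lit 891063798240) (nat_lit 2) (nat_lit 5) (nat_lit 4) (nat_lit 4) (nat_lit 2) (nat_lit 4) (nat_lit 404) (nat_lit 324) (nat_lit 172)) (XT.lf (nat_lit 0) (nat_lit 1112679880137) (nat_lit 152) (nat_lit 1007642749100) (nat_lit 0) (nat_lit 1035409539197) (nat_lit 2) (nat_lit 5) (nat_lit 4) (nat_lit 4) (nat_lit 2) (nat_lit 4) (nat_lit 405) (nat_lit 324) (nat_lit 171))) (XT.nd (nat_lit 78) (nat_lit 0) (nat_lit 0) (XT.lf (nat_lit 0) (nat_lit 1268573245128) (nat_lit 152) (nat_lit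 942456047421) (nat_lit 0) (nat_lit 1191302860148) (nat_lit 2) (nat_lit 5) (nat_lit 4) (nat_lit 4) (nat_lit 2) (nat_lit 4) (nat_lit 406) (nat_lit 324) (nat_lit 170)) (XT.lf (nat_lit 0) (nat_lit 1436937999124) (nat_lit 152) (nat_lit 872054569643) (nat_lit 0) (nat_lit 1359667573365) (nat_lit 2) (nat_lit 5) (nat_lit 4) (nat_lit 4) (nat_lit 2) (nat_lit 4) (nat_lit 407) (nat_lit 324) (nat_lit 169)))) (XT.nd (nat_lit 156) (nat_lit 0) (nat_lit 0) (XT.nd (nat_lit 78) (nat_lit 0) (nat_lit 0) (XT.lf (nat_lit 0) (nat_lit 1618771859184) (nat_lit 152) (nat_lit 796021121823) (nat_lit 0) (nat_lit 1541501395668) (nat_lit 2) (nat_lit 5) (nat_lit 4) (nat_lit 4) (nat_lit 2) (nat_lit 4) (nat_lit 408) (nat_lit 324) (nat_lit 168)) (XT.lf (nat_lit 0) (nat_lit 1815152359294) (nat_lit 152) (nat_lit 713905135383) (nat_lit 0) (nat_lit 1737881860818) (nat_lit 2) (nat_lit 5) (nat_lit 4) (nat_lit 4) (nat_lit 2) (nat_lit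 4) (nat_lit 409) (nat_lit 324) (nat_lit 167))) (XT.nd (nat_lit 40248) (nat_lit 0) (nat_lit 3952) (XT.lf (nat_lit 0) (nat_lit 2027243235752) (nat_lit 152) (nat_lit 625219997069) (nat_lit 0) (nat_lit 1949972704905) (nat_lit 2) (nat_lit 5) (nat_lit 4) (nat_lit 4) (nat_lit 2) (nat_lit 4) (nat_lit 410) (nat_lit 324) (nat_lit 166)) (XT.lf (nat_lit 0) (nat_lit 10423154205) (nat_lit 532) (nat_lit 1778711992) (nat_lit 532) (nat_lit 1778711992) (nat_lit 54) (nat_lit 3) (nat_lit 61) (nat_lit 3) (nat_lit 61) (nat_lit 5) (nat_lit 325) (nat_lit 325) (nat_lit 250))))) (XT.nd (nat_lit 312) (nat_lit 608) (nat_lit 0) (XT.nd (nat_lit 156) (nat_lit 0) (nat_lit 76) (XT.nd (nat_lit 78) (nat_lit 0) (nat_lit 76) (XT.lf (nat_lit 76) (nat_lit 10191325726) (nat_lit 0) (nat_lit 11811777139) (nat_lit 532) (nat_lit 7050522211) (nat_lit 55) (nat_lit 5) (nat_lit 54) (nat_lit 3) (nat_lit 61) (nat_lit 5) (nat_lit 326)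 (nat_lit 325) (nat_lit 249)) (XT.lf (nat_lit 0) (nat_lit 23387412575) (nat_lit 456) (nat_lit 5034100683) (nat_lit 532) (nat_lit 1801194499) (nat_lit 55) (nat_lit 5) (nat_lit 61) (nat_lit 5) (nat_lit 62) (nat_lit 5) (nat_lit 327) (nat_lit 325) (nat_lit 248))) (XT.nd (nat_lit 78) (nat_lit 0) (nat_lit 0) (XT.lf (nat_lit 76) (nat_lit 10093701423) (nat_lit 0) (nat_lit 15331086191) (nat_lit 532) (nat_lit 6017156967) (nat_lit 56) (nat_lit 5) (nat_lit 55) (nat_lit 5) (nat_lit 62) (nat_lit 5) (nat_lit 328) (nat_lit 325) (nat_lit 247)) (XT.lf (nat_lit 76) (nat_lit 26713361629) (nat_lit 0) (nat_lit 1042623327) (nat_lit 532) (nat_lit 4992281007) (nat_lit 56) (nat_lit 5) (nat_lit 55) (nat_lit 5) (nat_lit 62) (nat_lit 5) (nat_lit 329) (nat_lit 325) (nat_lit 246)))) (XT.nd (nat_lit 156) (nat_lit 760) (nat_lit 0) (XT.nd (nat_lit 78) (nat_lit 0) (nat_lit 0) (XT.lf (nat_lit 76) (nat_lit 10687185950) (nat_lit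 0) (nat_lit 20183316291) (nat_lit 532) (nat_lit 3240856174) (nat_lit 57) (nat_lit 5) (nat_lit 56) (nat_lit 5) (nat_lit 63) (nat_lit 5) (nat_lit 330) (nat_lit 325) (nat_lit 245)) (XT.lf (nat_lit 76) (nat_lit 29056991964) (nat_lit 0) (nat_lit 5362681850) (nat_lit 532) (nat_lit 1148995474) (nat_lit 57) (nat_lit 5) (nat_lit 56) (nat_lit 5) (nat_lit 63) (nat_lit 5) (nat_lit 331) (nat_lit 325) (nat_lit 244))) (XT.nd (nat_lit 78) (nat_lit 304) (nat_lit 0) (XT.lf (nat_lit 0) (nat_lit 1610227981) (nat_lit 532) (nat_lit 25041858185) (nat_lit 76) (nat_lit 10443907672) (nat_lit 50) (nat_lit 5) (nat_lit 57) (nat_lit 5) (nat_lit 51) (nat_lit 5) (nat_lit 332) (nat_lit 325) (nat_lit 243)) (XT.nd (nat_lit 78) (nat_lit 304) (nat_lit 0) (XT.lf (nat_lit 0) (nat_lit 4844771634) (nat_lit 532) (nat_lit 6434520751) (nat_lit 76) (nat_lit 27438500110) (nat_lit 50) (nat_lit 5) (nat_lit 57) (nat_lit 5) (nat_lit 51)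 (nat_lit 5) (nat_lit 333) (nat_lit 325) (nat_lit 242)) (XT.lf (nat_lit 0) (nat_lit 8815925760) (nat_lit 380) (nat_lit 26203210773) (nat_lit 76) (nat_lit 5411978439) (nat_lit 46) (nat_lit 5) (nat_lit 51) (nat_lit 5) (nat_lit 47) (nat_lit 5) (nat_lit 334) (nat_lit 325) (nat_lit 241))))))) (XT.nd (nat_lit 624) (nat_lit 760) (nat_lit 0) (XT.nd (nat_lit 312) (nat_lit 456) (nat_lit 0) (XT.nd (nat_lit 156) (nat_lit 228) (nat_lit 0) (XT.nd (nat_lit 78) (nat_lit 228) (nat_lit 0) (XT.lf (nat_lit 0) (nat_lit 13573592837) (nat_lit 380) (nat_lit 5660636570) (nat_lit 76) (nat_lit 23009775308) (nat_lit 46) (nat_lit 5) (nat_lit 51) (nat_lit 5) (nat_lit 47) (nat_lit 5) (nat_lit 335) (nat_lit 325) (nat_lit 240)) (XT.lf (nat_lit 0) (nat_lit 17390734089) (nat_lit 228) (nat_lit 1735082267) (nat_lit 304) (nat_lit 25043000423) (nat_lit 43) (nat_lit 5) (nat_lit 46) (nat_lit 5) (nat_lit 47) (nat_lit 5) (nat_lit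 336) (nat_lit 325) (nat_lit 239))) (XT.nd (nat_lit 78) (nat_lit 228) (nat_lit 0) (XT.lf (nat_lit 0) (nat_lit 25689702964) (nat_lit 304) (nat_lit 4048680645) (nat_lit 76) (nat_lit 16463837484) (nat_lit 43) (nat_lit 5) (nat_lit 47) (nat_lit 5) (nat_lit 44) (nat_lit 5) (nat_lit 337) (nat_lit 325) (nat_lit 238)) (XT.lf (nat_lit 0) (nat_lit 21526425260) (nat_lit 228) (nat_lit 11811255943) (nat_lit 304) (nat_lit 15015903743) (nat_lit 40) (nat_lit 5) (nat_lit 43) (nat_lit 5) (nat_lit 44) (nat_lit 5) (nat_lit 338) (nat_lit 325) (nat_lit 237)))) (XT.nd (nat_lit 156) (nat_lit 304) (nat_lit 0) (XT.nd (nat_lit 78) (nat_lit 152) (nat_lit 0) (XT.lf (nat_lit 0) (nat_lit 41889013472) (nat_lit 304) (nat_lit 1479450882) (nat_lit 76) (nat_lit 7285277522) (nat_lit 40) (nat_lit 5) (nat_lit 44) (nat_lit 5) (nat_lit 41) (nat_lit 5) (nat_lit 339) (nat_lit 325) (nat_lit 236)) (XT.lf (nat_lit 0) (nat_lit 26932304919)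 (nat_lit 152) (nat_lit 25143288909) (nat_lit 228) (nat_lit 986231055) (nat_lit 38) (nat_lit 5) (nat_lit 40) (nat_lit 5) (nat_lit 41) (nat_lit 5) (nat_lit 340) (nat_lit 325) (nat_lit 235))) (XT.nd (nat_lit 78) (nat_lit 0) (nat_lit 0) (XT.lf (nat_lit 0) (nat_lit 1955978193) (nat_lit 228) (nat_lit 5172900153) (nat_lit 304) (nat_lit 48512595705) (nat_lit 34) (nat_lit 5) (nat_lit 37) (nat_lit 5) (nat_lit 38) (nat_lit 5) (nat_lit 341) (nat_lit 325) (nat_lit 234)) (XT.lf (nat_lit 0) (nat_lit 16964014881) (nat_lit 304) (nat_lit 25038931520) (nat_lit 76) (nat_lit 16332575247) (nat_lit 34) (nat_lit 5) (nat_lit 38) (nat_lit 5) (nat_lit 35) (nat_lit 5) (nat_lit 342) (nat_lit 325) (nat_lit 233))))) (XT.nd (nat_lit 312) (nat_lit 456) (nat_lit 0) (XT.nd (nat_lit 156) (nat_lit 152) (nat_lit 0) (XT.nd (nat_lit 78) (nat_lit 0) (nat_lit 0) (XT.lf (nat_lit 0) (nat_lit 6064244096) (nat_lit 152) (nat_lit 21798974050)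 (nat_lit 228) (nat_lit 33359698003) (nat_lit 32) (nat_lit 5) (nat_lit 34) (nat_lit 5) (nat_lit 35) (nat_lit 5) (nat_lit 343) (nat_lit 325) (nat_lit 232)) (XT.lf (nat_lit 0) (nat_lit 40334404525) (nat_lit 228) (nat_lit 23229376239) (nat_lit 76) (nat_lit 721520994) (nat_lit 32) (nat_lit 5) (nat_lit 35) (nat_lit 5) (nat_lit 33) (nat_lit 5) (nat_lit 344) (nat_lit 325) (nat_lit 231))) (XT.nd (nat_lit 78) (nat_lit 0) (nat_lit 0) (XT.lf (nat_lit 0) (nat_lit 11246768732) (nat_lit 152) (nat_lit 43390564252) (nat_lit 228) (nat_lit 12888624509) (nat_lit 30) (nat_lit 5) (nat_lit 32) (nat_lit 5) (nat_lit 33) (nat_lit 5) (nat_lit 345) (nat_lit 325) (nat_lit 230)) (XT.lf (nat_lit 0) (nat_lit 49798282842) (nat_lit 152) (nat_lit 20918804777) (nat_lit 228) (nat_lit 258173544) (nat_lit 30) (nat_lit 5) (nat_lit 32) (nat_lit 5) (nat_lit 33) (nat_lit 5) (nat_lit 346) (nat_lit 325) (nat_lit 229)))) (XT.nd (nat_lit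 156) (nat_lit 228) (nat_lit 0) (XT.nd (nat_lit 78) (nat_lit 0) (nat_lit 0) (XT.lf (nat_lit 0) (nat_lit 13225934169) (nat_lit 228) (nat_lit 57469509420) (nat_lit 76) (nat_lit 3938305336) (nat_lit 27) (nat_lit 5) (nat_lit 30) (nat_lit 5) (nat_lit 28) (nat_lit 5) (nat_lit 347) (nat_lit 325) (nat_lit 228)) (XT.lf (nat_lit 0) (nat_lit 28909871548) (nat_lit 228) (nat_lit 19330289013) (nat_lit 76) (nat_lit 30253416997) (nat_lit 27) (nat_lit 5) (nat_lit 30) (nat_lit 5) (nat_lit 28) (nat_lit 5) (nat_lit 348) (nat_lit 325) (nat_lit 227))) (XT.nd (nat_lit 78) (nat_lit 76) (nat_lit 0) (XT.lf (nat_lit 0) (nat_lit 23007563390) (nat_lit 152) (nat_lit 23392115249) (nat_lit 228) (nat_lit 36218423541) (nat_lit 25) (nat_lit 5) (nat_lit 27) (nat_lit 5) (nat_lit 28) (nat_lit 5) (nat_lit 349) (nat_lit 325) (nat_lit 226)) (XT.nd (nat_lit 78) (nat_lit 76) (nat_lit 0) (XT.lf (nat_lit 0) (nat_lit 65911618276) (nat_lit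 228) (nat_lit 17298572586) (nat_lit 76) (nat_lit 3812563996) (nat_lit 25) (nat_lit 5) (nat_lit 28) (nat_lit 5) (nat_lit 26) (nat_lit 4) (nat_lit 350) (nat_lit 325) (nat_lit 225)) (XT.lf (nat_lit 0) (nat_lit 29250774541) (nat_lit 76) (nat_lit 59042838222) (nat_lit 152) (nat_lit 3381440794) (nat_lit 24) (nat_lit 5) (nat_lit 25) (nat_lit 5) (nat_lit 26) (nat_lit 4) (nat_lit 351) (nat_lit 325) (nat_lit 224))))))))
noncomputable def xc169 : XT := (XT.nd (nat_lit 1326) (nat_lit 456) (nat_lit 0) (XT.nd (nat_lit 624) (nat_lit 456) (nat_lit 0) (XT.nd (nat_lit 312) (nat_lit 228) (nat_lit 0) (XT.nd (nat_lit 156) (nat_lit 76) (nat_lit 0) (XT.nd (nat_lit 78) (nat_lit 152) (nat_lit 0) (XT.lf (nat_lit 0) (nat_lit 15461228284) (nat_lit 152) (nat_lit 16548570144) (nat_lit 76) (nat_lit 64620739554) (nat_lit 23) (nat_lit 5) (nat_lit 25) (nat_lit 5) (nat_lit 24) (nat_lit 5) (nat_lit 352) (nat_lit 325) (nat_lit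 223)) (XT.lf (nat_lit 0) (nat_lit 34639143460) (nat_lit 152) (nat_lit 1820748185) (nat_lit 228) (nat_lit 65449043249) (nat_lit 21) (nat_lit 5) (nat_lit 23) (nat_lit 5) (nat_lit 24) (nat_lit 5) (nat_lit 353) (nat_lit 325) (nat_lit 222))) (XT.nd (nat_lit 78) (nat_lit 76) (nat_lit 0) (XT.lf (nat_lit 0) (nat_lit 60341238441) (nat_lit 228) (nat_lit 17465543053) (nat_lit 76) (nat_lit 29706600145) (nat_lit 21) (nat_lit 5) (nat_lit 24) (nat_lit 5) (nat_lit 22) (nat_lit 4) (nat_lit 354) (nat_lit 325) (nat_lit 221)) (XT.lf (nat_lit 0) (nat_lit 38182998740) (nat_lit 76) (nat_lit 48914048250) (nat_lit 152) (nat_lit 26392022025) (nat_lit 20) (nat_lit 5) (nat_lit 21) (nat_lit 5) (nat_lit 22) (nat_lit 4) (nat_lit 355) (nat_lit 325) (nat_lit 220)))) (XT.nd (nat_lit 156) (nat_lit 76) (nat_lit 0) (XT.nd (nat_lit 78) (nat_lit 152) (nat_lit 0) (XT.lf (nat_lit 0) (nat_lit 99273953706) (nat_lit 76) (nat_lit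 17195320559) (nat_lit 152) (nat_lit 3435461914) (nat_lit 20) (nat_lit 5) (nat_lit 21) (nat_lit 5) (nat_lit 22) (nat_lit 4) (nat_lit 356) (nat_lit 325) (nat_lit 219)) (XT.lf (nat_lit 0) (nat_lit 21695825469) (nat_lit 152) (nat_lit 87266360558) (nat_lit 76) (nat_lit 17717851763) (nat_lit 18) (nat_lit 5) (nat_lit 20) (nat_lit 5) (nat_lit 19) (nat_lit 4) (nat_lit 357) (nat_lit 325) (nat_lit 218))) (XT.nd (nat_lit 78) (nat_lit 76) (nat_lit 0) (XT.lf (nat_lit 0) (nat_lit 49675893885) (nat_lit 152) (nat_lit 29070420250) (nat_lit 76) (nat_lit 55162001086) (nat_lit 18) (nat_lit 5) (nat_lit 20) (nat_lit 5) (nat_lit 19) (nat_lit 4) (nat_lit 358) (nat_lit 325) (nat_lit 217)) (XT.lf (nat_lit 0) (nat_lit 35557468375) (nat_lit 76) (nat_lit 45190684107) (nat_lit 152) (nat_lit 60898400412) (nat_lit 17) (nat_lit 5) (nat_lit 18) (nat_lit 5) (nat_lit 19) (nat_lit 4) (nat_lit 359) (nat_lit 325) (nat_lit 216)))))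 (XT.nd (nat_lit 312) (nat_lit 228) (nat_lit 0) (XT.nd (nat_lit 156) (nat_lit 152) (nat_lit 0) (XT.nd (nat_lit 78) (nat_lit 76) (nat_lit 0) (XT.lf (nat_lit 0) (nat_lit 107006455329) (nat_lit 76) (nat_lit 8093244146) (nat_lit 152) (nat_lit 34840670252) (nat_lit 17) (nat_lit 5) (nat_lit 18) (nat_lit 5) (nat_lit 19) (nat_lit 4) (nat_lit 360) (nat_lit 325) (nat_lit 215)) (XT.lf (nat_lit 0) (nat_lit 25792706310) (nat_lit 76) (nat_lit 127794651934) (nat_lit 76) (nat_lit 5199295331) (nat_lit 16) (nat_lit 4) (nat_lit 17) (nat_lit 5) (nat_lit 17) (nat_lit 4) (nat_lit 361) (nat_lit 325) (nat_lit 214))) (XT.nd (nat_lit 78) (nat_lit 76) (nat_lit 0) (XT.lf (nat_lit 0) (nat_lit 26885421980) (nat_lit 152) (nat_lit 66675449758) (nat_lit 76) (nat_lit 74615112246) (nat_lit 15) (nat_lit 5) (nat_lit 17) (nat_lit 5) (nat_lit 16) (nat_lit 4) (nat_lit 362) (nat_lit 325) (nat_lit 213)) (XT.lf (nat_lit 0) (nat_lit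 5064708743) (nat_lit 76) (nat_lit 56311962372) (nat_lit 152) (nat_lit 116919334427) (nat_lit 14) (nat_lit 5) (nat_lit 15) (nat_lit 5) (nat_lit 16) (nat_lit 4) (nat_lit 363) (nat_lit 325) (nat_lit 212)))) (XT.nd (nat_lit 156) (nat_lit 228) (nat_lit 0) (XT.nd (nat_lit 78) (nat_lit 0) (nat_lit 0) (XT.lf (nat_lit 0) (nat_lit 86333896321) (nat_lit 76) (nat_lit 14115229515) (nat_lit 152) (nat_lit 88630751057) (nat_lit 14) (nat_lit 5) (nat_lit 15) (nat_lit 5) (nat_lit 16) (nat_lit 4) (nat_lit 364) (nat_lit 325) (nat_lit 211)) (XT.lf (nat_lit 0) (nat_lit 143402866677) (nat_lit 152) (nat_lit 27380370339) (nat_lit 0) (nat_lit 29882782236) (nat_lit 14) (nat_lit 5) (nat_lit 16) (nat_lit 4) (nat_lit 14) (nat_lit 4) (nat_lit 365) (nat_lit 325) (nat_lit 210))) (XT.nd (nat_lit 78) (nat_lit 152) (nat_lit 0) (XT.lf (nat_lit 0) (nat_lit 56470926932) (nat_lit 76) (nat_lit 135045757006) (nat_lit 76) (nat_lit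 21524467337) (nat_lit 13) (nat_lit 4) (nat_lit 14) (nat_lit 5) (nat_lit 14) (nat_lit 4) (nat_lit 366) (nat_lit 325) (nat_lit 209)) (XT.nd (nat_lit 78) (nat_lit 76) (nat_lit 0) (XT.lf (nat_lit 0) (nat_lit 16986334282) (nat_lit 152) (nat_lit 78190830314) (nat_lit 76) (nat_lit 131134912734) (nat_lit 12) (nat_lit 5) (nat_lit 14) (nat_lit 5) (nat_lit 13) (nat_lit 4) (nat_lit 367) (nat_lit 325) (nat_lit 208)) (XT.lf (nat_lit 0) (nat_lit 6208717693) (nat_lit 76) (nat_lit 51354819135) (nat_lit 152) (nat_lit 183024541460) (nat_lit 11) (nat_lit 5) (nat_lit 12) (nat_lit 5) (nat_lit 13) (nat_lit 4) (nat_lit 368) (nat_lit 325) (nat_lit 207))))))) (XT.nd (nat_lit 624) (nat_lit 228) (nat_lit 0) (XT.nd (nat_lit 312) (nat_lit 152) (nat_lit 0) (XT.nd (nat_lit 156) (nat_lit 76) (nat_lit 0) (XT.nd (nat_lit 78) (nat_lit 0) (nat_lit 0) (XT.lf (nat_lit 0) (nat_lit 101805348849) (nat_lit 76) (nat_lit 1718566779)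 (nat_lit 152) (nat_lit 152311284018) (nat_lit 11) (nat_lit 5) (nat_lit 12) (nat_lit 5) (nat_lit 13) (nat_lit 4) (nat_lit 369) (nat_lit 325) (nat_lit 206)) (XT.lf (nat_lit 0) (nat_lit 154408218011) (nat_lit 152) (nat_lit 68501888958) (nat_lit 0) (nat_lit 49292216586) (nat_lit 11) (nat_lit 5) (nat_lit 13) (nat_lit 4) (nat_lit 11) (nat_lit 4) (nat_lit 370) (nat_lit 325) (nat_lit 205))) (XT.nd (nat_lit 78) (nat_lit 0) (nat_lit 0) (XT.lf (nat_lit 0) (nat_lit 25076637235) (nat_lit 76) (nat_lit 184933592083) (nat_lit 76) (nat_lit 79816831160) (nat_lit 10) (nat_lit 4) (nat_lit 11) (nat_lit 5) (nat_lit 11) (nat_lit 4) (nat_lit 371) (nat_lit 325) (nat_lit 204)) (XT.lf (nat_lit 0) (nat_lit 130035776397) (nat_lit 76) (nat_lit 141896843456) (nat_lit 76) (nat_lit 36779379295) (nat_lit 10) (nat_lit 4) (nat_lit 11) (nat_lit 5) (nat_lit 11) (nat_lit 4) (nat_lit 372) (nat_lit 325) (nat_lit 203)))) (XT.nd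 (nat_lit 156) (nat_lit 0) (nat_lit 0) (XT.nd (nat_lit 78) (nat_lit 76) (nat_lit 0) (XT.lf (nat_lit 0) (nat_lit 9215074281) (nat_lit 152) (nat_lit 85950760802) (nat_lit 76) (nat_lit 233923289792) (nat_lit 9) (nat_lit 5) (nat_lit 11) (nat_lit 5) (nat_lit 10) (nat_lit 4) (nat_lit 373) (nat_lit 325) (nat_lit 202)) (XT.lf (nat_lit 0) (nat_lit 13933160007) (nat_lit 76) (nat_lit 43303319911) (nat_lit 152) (nat_lit 293756761261) (nat_lit 8) (nat_lit 5) (nat_lit 9) (nat_lit 5) (nat_lit 10) (nat_lit 4) (nat_lit 374) (nat_lit 325) (nat_lit 201))) (XT.nd (nat_lit 78) (nat_lit 0) (nat_lit 0) (XT.lf (nat_lit 0) (nat_lit 111815666092) (nat_lit 152) (nat_lit 248133732751) (nat_lit 0) (nat_lit 14483002687) (nat_lit 8) (nat_lit 5) (nat_lit 10) (nat_lit 4) (nat_lit 8) (nat_lit 4) (nat_lit 375) (nat_lit 325) (nat_lit 200)) (XT.lf (nat_lit 0) (nat_lit 171885346288) (nat_lit 152) (nat_lit 153219211599) (nat_lit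 0) (nat_lit 74552204270) (nat_lit 8) (nat_lit 5) (nat_lit 10) (nat_lit 4) (nat_lit 8) (nat_lit 4) (nat_lit 376) (nat_lit 325) (nat_lit 199))))) (XT.nd (nat_lit 312) (nat_lit 152) (nat_lit 0) (XT.nd (nat_lit 156) (nat_lit 0) (nat_lit 0) (XT.nd (nat_lit 78) (nat_lit 76) (nat_lit 0) (XT.lf (nat_lit 0) (nat_lit 236760043095) (nat_lit 152) (nat_lit 50712615408) (nat_lit 0) (nat_lit 139426457918) (nat_lit 8) (nat_lit 5) (nat_lit 10) (nat_lit 4) (nat_lit 8) (nat_lit 4) (nat_lit 377) (nat_lit 325) (nat_lit 198)) (XT.lf (nat_lit 0) (nat_lit 63152653830) (nat_lit 76) (nat_lit 245190368176) (nat_lit 76) (nat_lit 147856372665) (nat_lit 7) (nat_lit 4) (nat_lit 8) (nat_lit 5) (nat_lit 8) (nat_lit 4) (nat_lit 378) (nat_lit 325) (nat_lit 197))) (XT.nd (nat_lit 78) (nat_lit 0) (nat_lit 0) (XT.lf (nat_lit 0) (nat_lit 189010235294) (nat_lit 76) (nat_lit 198028474899) (nat_lit 76) (nat_lit 100694099450) (nat_lit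 7) (nat_lit 4) (nat_lit 8) (nat_lit 5) (nat_lit 8) (nat_lit 4) (nat_lit 379) (nat_lit 325) (nat_lit 196)) (XT.lf (nat_lit 0) (nat_lit 324935515230) (nat_lit 76) (nat_lit 147094073564) (nat_lit 76) (nat_lit 49759346320) (nat_lit 7) (nat_lit 4) (nat_lit 8) (nat_lit 5) (nat_lit 8) (nat_lit 4) (nat_lit 380) (nat_lit 325) (nat_lit 195)))) (XT.nd (nat_lit 156) (nat_lit 0) (nat_lit 0) (XT.nd (nat_lit 78) (nat_lit 76) (nat_lit 0) (XT.lf (nat_lit 0) (nat_lit 4987109927) (nat_lit 152) (nat_lit 86961864330) (nat_lit 76) (nat_lit 466610510429) (nat_lit 6) (nat_lit 5) (nat_lit 8) (nat_lit 5) (nat_lit 7) (nat_lit 4) (nat_lit 381) (nat_lit 325) (nat_lit 194)) (XT.lf (nat_lit 0) (nat_lit 32030037162) (nat_lit 76) (nat_lit 30164862716) (nat_lit 152) (nat_lit 535911789255) (nat_lit 5) (nat_lit 5) (nat_lit 6) (nat_lit 5) (nat_lit 7) (nat_lit 4) (nat_lit 382) (nat_lit 325) (nat_lit 193))) (XT.nd (nat_lit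 78) (nat_lit 0) (nat_lit 0) (XT.lf (nat_lit 0) (nat_lit 127297672689) (nat_lit 152) (nat_lit 476082442782) (nat_lit 0) (nat_lit 37172085789) (nat_lit 5) (nat_lit 5) (nat_lit 7) (nat_lit 4) (nat_lit 5) (nat_lit 4) (nat_lit 383) (nat_lit 325) (nat_lit 192)) (XT.nd (nat_lit 78) (nat_lit 0) (nat_lit 0) (XT.lf (nat_lit 0) (nat_lit 198391793879) (nat_lit 152) (nat_lit 379672942889) (nat_lit 0) (nat_lit 108265967553) (nat_lit 5) (nat_lit 5) (nat_lit 7) (nat_lit 4) (nat_lit 5) (nat_lit 4) (nat_lit 384) (nat_lit 325) (nat_lit 191)) (XT.lf (nat_lit 0) (nat_lit 275173096270) (nat_lit 152) (nat_lit 275551371064) (nat_lit 0) (nat_lit 185047048253) (nat_lit 5) (nat_lit 5) (nat_lit 7) (nat_lit 4) (nat_lit 5) (nat_lit 4) (nat_lit 385) (nat_lit 325) (nat_lit 190))))))))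
noncomputable def xc170 : XT := (XT.nd (nat_lit 1326) (nat_lit 0) (nat_lit 0) (XT.nd (nat_lit 624) (nat_lit 152) (nat_lit 0) (XT.nd (nat_lit 312) (nat_lit 0) (nat_lit 0) (XT.nd (nat_lit 156) (nat_lit 76) (nat_lit 0) (XT.nd (nat_lit 78) (nat_lit 0) (nat_lit 0) (XT.lf (nat_lit 0) (nat_lit 358096580173) (nat_lit 152) (nat_lit 163100710586) (nat_lit 0) (nat_lit 267970326888) (nat_lit 5) (nat_lit 5) (nat_lit 7) (nat_lit 4) (nat_lit 5) (nat_lit 4) (nat_lit 386) (nat_lit 325) (nat_lit 189)) (XT.lf (nat_lit 0) (nat_lit 447653644011) (nat_lit 152) (nat_lit 41654587169) (nat_lit 0) (nat_lit 357527200662) (nat_lit 5) (nat_lit 5) (nat_lit 7) (nat_lit 4) (nat_lit 5) (nat_lit 4) (nat_lit 387) (nat_lit 325) (nat_lit 188))) (XT.nd (nat_lit 78) (nat_lit 0) (nat_lit 0) (XT.lf (nat_lit 0) (nat_lit 94219943062) (nat_lit 76) (nat_lit 452421045145) (nat_lit 76) (nat_lit 362294425811) (nat_lit 4) (nat_lit 4)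 (nat_lit 5) (nat_lit 5) (nat_lit 5) (nat_lit 4) (nat_lit 388) (nat_lit 325) (nat_lit 187)) (XT.lf (nat_lit 0) (nat_lit 243332836618) (nat_lit 76) (nat_lit 411353124596) (nat_lit 76) (nat_lit 321226342313) (nat_lit 4) (nat_lit 4) (nat_lit 5) (nat_lit 5) (nat_lit 5) (nat_lit 4) (nat_lit 389) (nat_lit 325) (nat_lit 186)))) (XT.nd (nat_lit 156) (nat_lit 0) (nat_lit 0) (XT.nd (nat_lit 78) (nat_lit 0) (nat_lit 0) (XT.lf (nat_lit 0) (nat_lit 404374268717) (nat_lit 76) (nat_lit 367000014309) (nat_lit 76) (nat_lit 276873081148) (nat_lit 4) (nat_lit 4) (nat_lit 5) (nat_lit 5) (nat_lit 5) (nat_lit 4) (nat_lit 390) (nat_lit 325) (nat_lit 185)) (XT.lf (nat_lit 0) (nat_lit 578298558958) (nat_lit 76) (nat_lit 319098881039) (nat_lit 76) (nat_lit 228971808175) (nat_lit 4) (nat_lit 4) (nat_lit 5) (nat_lit 5) (nat_lit 5) (nat_lit 4) (nat_lit 391) (nat_lit 325) (nat_lit 184))) (XT.nd (nat_lit 78) (nat_lit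 0) (nat_lit 0) (XT.lf (nat_lit 0) (nat_lit 766136369801) (nat_lit 76) (nat_lit 267365866218) (nat_lit 76) (nat_lit 177238664000) (nat_lit 4) (nat_lit 4) (nat_lit 5) (nat_lit 5) (nat_lit 5) (nat_lit 4) (nat_lit 392) (nat_lit 325) (nat_lit 183)) (XT.lf (nat_lit 0) (nat_lit 969000814199) (nat_lit 76) (nat_lit 211494403832) (nat_lit 76) (nat_lit 121367081842) (nat_lit 4) (nat_lit 4) (nat_lit 5) (nat_lit 5) (nat_lit 5) (nat_lit 4) (nat_lit 393) (nat_lit 325) (nat_lit 182))))) (XT.nd (nat_lit 312) (nat_lit 0) (nat_lit 0) (XT.nd (nat_lit 156) (nat_lit 76) (nat_lit 0) (XT.nd (nat_lit 78) (nat_lit 76) (nat_lit 0) (XT.lf (nat_lit 0) (nat_lit 1188094051823) (nat_lit 76) (nat_lit 151153403734) (nat_lit 76) (nat_lit 61025970843) (nat_lit 4) (nat_lit 4) (nat_lit 5) (nat_lit 5) (nat_lit 5) (nat_lit 4) (nat_lit 394) (nat_lit 325) (nat_lit 181)) (XT.lf (nat_lit 0) (nat_lit 3935034030) (nat_lit 152) (nat_lit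 81942664791) (nat_lit 76) (nat_lit 1420671788135) (nat_lit 3) (nat_lit 5) (nat_lit 5) (nat_lit 5) (nat_lit 4) (nat_lit 4) (nat_lit 395) (nat_lit 325) (nat_lit 180))) (XT.nd (nat_lit 78) (nat_lit 0) (nat_lit 0) (XT.lf (nat_lit 0) (nat_lit 60135809203) (nat_lit 76) (nat_lit 12106229189) (nat_lit 152) (nat_lit 1548843098257) (nat_lit 2) (nat_lit 5) (nat_lit 3) (nat_lit 5) (nat_lit 4) (nat_lit 4) (nat_lit 396) (nat_lit 325) (nat_lit 179)) (XT.lf (nat_lit 0) (nat_lit 149937081136) (nat_lit 152) (nat_lit 1528047189215) (nat_lit 0) (nat_lit 66485489755) (nat_lit 2) (nat_lit 5) (nat_lit 4) (nat_lit 4) (nat_lit 2) (nat_lit 4) (nat_lit 397) (nat_lit 325) (nat_lit 178)))) (XT.nd (nat_lit 156) (nat_lit 0) (nat_lit 0) (XT.nd (nat_lit 78) (nat_lit 0) (nat_lit 0) (XT.lf (nat_lit 0) (nat_lit 234162026374) (nat_lit 152) (nat_lit 1492827623651) (nat_lit 0) (nat_lit 150710359516) (nat_lit 2) (nat_lit 5)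 (nat_lit 4) (nat_lit 4) (nat_lit 2) (nat_lit 4) (nat_lit 398) (nat_lit 325) (nat_lit 177)) (XT.lf (nat_lit 0) (nat_lit 325124829790) (nat_lit 152) (nat_lit 1454790767114) (nat_lit 0) (nat_lit 241673093046) (nat_lit 2) (nat_lit 5) (nat_lit 4) (nat_lit 4) (nat_lit 2) (nat_lit 4) (nat_lit 399) (nat_lit 325) (nat_lit 176))) (XT.nd (nat_lit 78) (nat_lit 0) (nat_lit 0) (XT.lf (nat_lit 0) (nat_lit 423364530220) (nat_lit 152) (nat_lit 1413711216011) (nat_lit 0) (nat_lit 339912728767) (nat_lit 2) (nat_lit 5) (nat_lit 4) (nat_lit 4) (nat_lit 2) (nat_lit 4) (nat_lit 400) (nat_lit 325) (nat_lit 175)) (XT.nd (nat_lit 78) (nat_lit 0) (nat_lit 0) (XT.lf (nat_lit 0) (nat_lit 529463288851) (nat_lit 152) (nat_lit 1369345535965) (nat_lit 0) (nat_lit 446011427482) (nat_lit 2) (nat_lit 5) (nat_lit 4) (nat_lit 4) (nat_lit 2) (nat_lit 4) (nat_lit 401) (nat_lit 325) (nat_lit 174)) (XT.lf (nat_lit 0) (nat_lit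 644049839069) (nat_lit 152) (nat_lit 1321430819241) (nat_lit 0) (nat_lit 560597922221) (nat_lit 2) (nat_lit 5) (nat_lit 4) (nat_lit 4) (nat_lit 2) (nat_lit 4) (nat_lit 402) (nat_lit 325) (nat_lit 173))))))) (XT.nd (nat_lit 40872) (nat_lit 0) (nat_lit 3648) (XT.nd (nat_lit 312) (nat_lit 0) (nat_lit 0) (XT.nd (nat_lit 156) (nat_lit 0) (nat_lit 0) (XT.nd (nat_lit 78) (nat_lit 0) (nat_lit 0) (XT.lf (nat_lit 0) (nat_lit 767803212280) (nat_lit 152) (nat_lit 1269683126779) (nat_lit 0) (nat_lit 684351244065) (nat_lit 2) (nat_lit 5) (nat_lit 4) (nat_lit 4) (nat_lit 2) (nat_lit 4) (nat_lit 403) (nat_lit 325) (nat_lit 172)) (XT.lf (nat_lit 0) (nat_lit 901456761809) (nat_lit 152) (nat_lit 1213795805585) (nat_lit 0) (nat_lit 818004746031) (nat_lit 2) (nat_lit 5) (nat_lit 4) (nat_lit 4) (nat_lit 2) (nat_lit 4) (nat_lit 404) (nat_lit 325) (nat_lit 171))) (XT.nd (nat_lit 78) (nat_lit 0) (nat_lit 0) (XT.lf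 (nat_lit 0) (nat_lit 1045802508690) (nat_lit 152) (nat_lit 1153437671534) (nat_lit 0) (nat_lit 962350448871) (nat_lit 2) (nat_lit 5) (nat_lit 4) (nat_lit 4) (nat_lit 2) (nat_lit 4) (nat_lit 405) (nat_lit 325) (nat_lit 170)) (XT.lf (nat_lit 0) (nat_lit 1201695835125) (nat_lit 152) (nat_lit 1088251046795) (nat_lit 0) (nat_lit 1118243734529) (nat_lit 2) (nat_lit 5) (nat_lit 4) (nat_lit 4) (nat_lit 2) (nat_lit 4) (nat_lit 406) (nat_lit 325) (nat_lit 169)))) (XT.nd (nat_lit 156) (nat_lit 0) (nat_lit 0) (XT.nd (nat_lit 78) (nat_lit 0) (nat_lit 0) (XT.lf (nat_lit 0) (nat_lit 1370060553421) (nat_lit 152) (nat_lit 1017849640257) (nat_lit 0) (nat_lit 1286608415067) (nat_lit 2) (nat_lit 5) (nat_lit 4) (nat_lit 4) (nat_lit 2) (nat_lit 4) (nat_lit 407) (nat_lit 325) (nat_lit 168)) (XT.lf (nat_lit 0) (nat_lit 1551894380426) (nat_lit 152) (nat_lit 941816258402) (nat_lit 0) (nat_lit 1468442207112) (nat_lit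 2) (nat_lit 5) (nat_lit 4) (nat_lit 4) (nat_lit 2) (nat_lit 4) (nat_lit 408) (nat_lit 325) (nat_lit 167))) (XT.nd (nat_lit 78) (nat_lit 0) (nat_lit 0) (XT.lf (nat_lit 0) (nat_lit 1748274849930) (nat_lit 152) (nat_lit 859700333039) (nat_lit 0) (nat_lit 1664822644245) (nat_lit 2) (nat_lit 5) (nat_lit 4) (nat_lit 4) (nat_lit 2) (nat_lit 4) (nat_lit 409) (nat_lit 325) (nat_lit 166)) (XT.lf (nat_lit 0) (nat_lit 1960365698048) (nat_lit 152) (nat_lit 771015251279) (nat_lit 0) (nat_lit 1876913462391) (nat_lit 2) (nat_lit 5) (nat_lit 4) (nat_lit 4) (nat_lit 2) (nat_lit 4) (nat_lit 410) (nat_lit 325) (nat_lit 165))))) (XT.nd (nat_lit 312) (nat_lit 304) (nat_lit 0) (XT.nd (nat_lit 156) (nat_lit 0) (nat_lit 76) (XT.nd (nat_lit 78) (nat_lit 0) (nat_lit 0) (XT.lf (nat_lit 0) (nat_lit 11332974966) (nat_lit 532) (nat_lit 1879916617) (nat_lit 532) (nat_lit 1879916617) (nat_lit 54) (nat_lit 3) (nat_lit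 61) (nat_lit 3) (nat_lit 61) (nat_lit 5) (nat_lit 326) (nat_lit 326) (nat_lit 248)) (XT.lf (nat_lit 76) (nat_lit 11086735828) (nat_lit 0) (nat_lit 12819224037) (nat_lit 532) (nat_lit 7460289532) (nat_lit 55) (nat_lit 5) (nat_lit 54) (nat_lit 3) (nat_lit 61) (nat_lit 5) (nat_lit 327) (nat_lit 326) (nat_lit 247))) (XT.nd (nat_lit 78) (nat_lit 0) (nat_lit 0) (XT.lf (nat_lit 0) (nat_lit 25389058850) (nat_lit 456) (nat_lit 5350464878) (nat_lit 532) (nat_lit 1890310441) (nat_lit 55) (nat_lit 5) (nat_lit 61) (nat_lit 5) (nat_lit 62) (nat_lit 5) (nat_lit 328) (nat_lit 326) (nat_lit 246)) (XT.lf (nat_lit 76) (nat_lit 10985374970) (nat_lit 0) (nat_lit 16596395371) (nat_lit 532) (nat_lit 6365469507) (nat_lit 56) (nat_lit 5) (nat_lit 55) (nat_lit 5) (nat_lit 62) (nat_lit 5) (nat_lit 329) (nat_lit 326) (nat_lit 245)))) (XT.nd (nat_lit 156) (nat_lit 380) (nat_lit 0) (XT.nd (nat_lit 78) (nat_lit 0) (nat_lit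 76) (XT.lf (nat_lit 76) (nat_lit 28928372627) (nat_lit 0) (nat_lit 1161979753) (nat_lit 532) (nat_lit 5268459768) (nat_lit 56) (nat_lit 5) (nat_lit 55) (nat_lit 5) (nat_lit 62) (nat_lit 5) (nat_lit 330) (nat_lit 326) (nat_lit 244)) (XT.lf (nat_lit 76) (nat_lit 11628051573) (nat_lit 0) (nat_lit 21818808479) (nat_lit 532) (nat_lit 3384680737) (nat_lit 57) (nat_lit 5) (nat_lit 56) (nat_lit 5) (nat_lit 63) (nat_lit 5) (nat_lit 331) (nat_lit 326) (nat_lit 243))) (XT.nd (nat_lit 78) (nat_lit 456) (nat_lit 0) (XT.lf (nat_lit 76) (nat_lit 31461079790) (nat_lit 0) (nat_lit 5810980550) (nat_lit 532) (nat_lit 1134022583) (nat_lit 57) (nat_lit 5) (nat_lit 56) (nat_lit 5) (nat_lit 63) (nat_lit 5) (nat_lit 332) (nat_lit 326) (nat_lit 242)) (XT.nd (nat_lit 78) (nat_lit 0) (nat_lit 0) (XT.lf (nat_lit 0) (nat_lit 1834747228) (nat_lit 532) (nat_lit 26954174961) (nat_lit 76) (nat_lit 11266945128) (nat_lit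 50) (nat_lit 5) (nat_lit 57) (nat_lit 5) (nat_lit 51) (nat_lit 5) (nat_lit 333) (nat_lit 326) (nat_lit 241)) (XT.lf (nat_lit 0) (nat_lit 5320965410) (nat_lit 532) (nat_lit 6864993634) (nat_lit 76) (nat_lit 29622029047) (nat_lit 50) (nat_lit 5) (nat_lit 57) (nat_lit 5) (nat_lit 51) (nat_lit 5) (nat_lit 334) (nat_lit 326) (nat_lit 240))))))))
noncomputable def xc171 : XT := (XT.nd (nat_lit 1326) (nat_lit 1064) (nat_lit 0) (XT.nd (nat_lit 624) (nat_lit 684) (nat_lit 0) (XT.nd (nat_lit 312) (nat_lit 684) (nat_lit 0) (XT.nd (nat_lit 156) (nat_lit 228) (nat_lit 0) (XT.nd (nat_lit 78) (nat_lit 0) (nat_lit 0) (XT.lf (nat_lit 0) (nat_lit 9605178885) (nat_lit 380) (nat_lit 28210417322) (nat_lit 76) (nat_lit 5843161082) (nat_lit 46) (nat_lit 5) (nat_lit 51) (nat_lit 5) (nat_lit 47) (nat_lit 5) (nat_lit 335) (nat_lit 326) (nat_lit 239)) (XT.lf (nat_lit 0) (nat_lit 14737238656) (nat_lit 380) (nat_lit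 6031033502) (nat_lit 76) (nat_lit 24848913229) (nat_lit 46) (nat_lit 5) (nat_lit 51) (nat_lit 5) (nat_lit 47) (nat_lit 5) (nat_lit 336) (nat_lit 326) (nat_lit 238))) (XT.nd (nat_lit 78) (nat_lit 0) (nat_lit 0) (XT.lf (nat_lit 0) (nat_lit 18862359366) (nat_lit 228) (nat_lit 1867453627) (nat_lit 304) (nat_lit 26966484406) (nat_lit 43) (nat_lit 5) (nat_lit 46) (nat_lit 5) (nat_lit 47) (nat_lit 5) (nat_lit 337) (nat_lit 326) (nat_lit 237)) (XT.lf (nat_lit 0) (nat_lit 27813477439) (nat_lit 304) (nat_lit 4292726481) (nat_lit 76) (nat_lit 17786604951) (nat_lit 43) (nat_lit 5) (nat_lit 47) (nat_lit 5) (nat_lit 44) (nat_lit 5) (nat_lit 338) (nat_lit 326) (nat_lit 236)))) (XT.nd (nat_lit 156) (nat_lit 456) (nat_lit 0) (XT.nd (nat_lit 78) (nat_lit 0) (nat_lit 0) (XT.lf (nat_lit 0) (nat_lit 23326366413) (nat_lit 228) (nat_lit 12743717918) (nat_lit 304) (nat_lit 16146461828) (nat_lit 40) (nat_lit 5)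 (nat_lit 43) (nat_lit 5) (nat_lit 44) (nat_lit 5) (nat_lit 339) (nat_lit 326) (nat_lit 235)) (XT.lf (nat_lit 0) (nat_lit 45300956566) (nat_lit 304) (nat_lit 1521090685) (nat_lit 76) (nat_lit 7879040720) (nat_lit 40) (nat_lit 5) (nat_lit 44) (nat_lit 5) (nat_lit 41) (nat_lit 5) (nat_lit 340) (nat_lit 326) (nat_lit 234))) (XT.nd (nat_lit 78) (nat_lit 304) (nat_lit 0) (XT.lf (nat_lit 0) (nat_lit 29161663396) (nat_lit 152) (nat_lit 27138092938) (nat_lit 228) (nat_lit 1002284328) (nat_lit 38) (nat_lit 5) (nat_lit 40) (nat_lit 5) (nat_lit 41) (nat_lit 5) (nat_lit 341) (nat_lit 326) (nat_lit 233)) (XT.lf (nat_lit 0) (nat_lit 2188474811) (nat_lit 228) (nat_lit 5567821157) (nat_lit 304) (nat_lit 52331857964) (nat_lit 34) (nat_lit 5) (nat_lit 37) (nat_lit 5) (nat_lit 38) (nat_lit 5) (nat_lit 342) (nat_lit 326) (nat_lit 232))))) (XT.nd (nat_lit 312) (nat_lit 380) (nat_lit 0) (XT.nd (nat_lit 156)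 (nat_lit 152) (nat_lit 0) (XT.nd (nat_lit 78) (nat_lit 152) (nat_lit 0) (XT.lf (nat_lit 0) (nat_lit 18374434372) (nat_lit 304) (nat_lit 26967785305) (nat_lit 76) (nat_lit 17655815529) (nat_lit 34) (nat_lit 5) (nat_lit 38) (nat_lit 5) (nat_lit 35) (nat_lit 5) (nat_lit 343) (nat_lit 326) (nat_lit 231)) (XT.lf (nat_lit 0) (nat_lit 6621764341) (nat_lit 152) (nat_lit 23521602292) (nat_lit 228) (nat_lit 35973235978) (nat_lit 32) (nat_lit 5) (nat_lit 34) (nat_lit 5) (nat_lit 35) (nat_lit 5) (nat_lit 344) (nat_lit 326) (nat_lit 230))) (XT.nd (nat_lit 78) (nat_lit 152) (nat_lit 0) (XT.lf (nat_lit 0) (nat_lit 43608937492) (nat_lit 228) (nat_lit 25017341589) (nat_lit 76) (nat_lit 797969234) (nat_lit 32) (nat_lit 5) (nat_lit 35) (nat_lit 5) (nat_lit 33) (nat_lit 5) (nat_lit 345) (nat_lit 326) (nat_lit 229)) (XT.lf (nat_lit 0) (nat_lit 12215113088) (nat_lit 152) (nat_lit 46839097736) (nat_lit 228)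 (nat_lit 13870100922) (nat_lit 30) (nat_lit 5) (nat_lit 32) (nat_lit 5) (nat_lit 33) (nat_lit 5) (nat_lit 346) (nat_lit 326) (nat_lit 228)))) (XT.nd (nat_lit 156) (nat_lit 152) (nat_lit 0) (XT.nd (nat_lit 78) (nat_lit 228) (nat_lit 0) (XT.lf (nat_lit 0) (nat_lit 53845666633) (nat_lit 152) (nat_lit 22571279849) (nat_lit 228) (nat_lit 232888956) (nat_lit 30) (nat_lit 5) (nat_lit 32) (nat_lit 5) (nat_lit 33) (nat_lit 5) (nat_lit 347) (nat_lit 326) (nat_lit 227)) (XT.lf (nat_lit 0) (nat_lit 14326495589) (nat_lit 228) (nat_lit 62000012931) (nat_lit 76) (nat_lit 4274500859) (nat_lit 27) (nat_lit 5) (nat_lit 30) (nat_lit 5) (nat_lit 28) (nat_lit 5) (nat_lit 348) (nat_lit 326) (nat_lit 226))) (XT.nd (nat_lit 78) (nat_lit 152) (nat_lit 0) (XT.lf (nat_lit 0) (nat_lit 31262000796) (nat_lit 228) (nat_lit 20814622094) (nat_lit 76) (nat_lit 32693256187) (nat_lit 27) (nat_lit 5) (nat_lit 30) (nat_lit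 5) (nat_lit 28) (nat_lit 5) (nat_lit 349) (nat_lit 326) (nat_lit 225)) (XT.nd (nat_lit 78) (nat_lit 0) (nat_lit 0) (XT.lf (nat_lit 0) (nat_lit 24908686602) (nat_lit 152) (nat_lit 25240847277) (nat_lit 228) (nat_lit 39074951256) (nat_lit 25) (nat_lit 5) (nat_lit 27) (nat_lit 5) (nat_lit 28) (nat_lit 5) (nat_lit 350) (nat_lit 326) (nat_lit 224)) (XT.lf (nat_lit 0) (nat_lit 71220126788) (nat_lit 228) (nat_lit 18624089008) (nat_lit 76) (nat_lit 4137480956) (nat_lit 25) (nat_lit 5) (nat_lit 28) (nat_lit 5) (nat_lit 26) (nat_lit 4) (nat_lit 351) (nat_lit 326) (nat_lit 223))))))) (XT.nd (nat_lit 702) (nat_lit 456) (nat_lit 0) (XT.nd (nat_lit 312) (nat_lit 304) (nat_lit 0) (XT.nd (nat_lit 156) (nat_lit 152) (nat_lit 0) (XT.nd (nat_lit 78) (nat_lit 76) (nat_lit 0) (XT.lf (nat_lit 0) (nat_lit 31647728183) (nat_lit 76) (nat_lit 63743685411) (nat_lit 152) (nat_lit 3614869515) (nat_lit 24) (nat_lit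 5) (nat_lit 25) (nat_lit 5) (nat_lit 26) (nat_lit 4) (nat_lit 352) (nat_lit 326) (nat_lit 222)) (XT.lf (nat_lit 0) (nat_lit 16730748143) (nat_lit 152) (nat_lit 17818034942) (nat_lit 76) (nat_lit 69809562671) (nat_lit 23) (nat_lit 5) (nat_lit 25) (nat_lit 5) (nat_lit 24) (nat_lit 5) (nat_lit 353) (nat_lit 326) (nat_lit 221))) (XT.nd (nat_lit 78) (nat_lit 0) (nat_lit 0) (XT.lf (nat_lit 0) (nat_lit 37463318009) (nat_lit 152) (nat_lit 1944845837) (nat_lit 228) (nat_lit 70650943724) (nat_lit 21) (nat_lit 5) (nat_lit 23) (nat_lit 5) (nat_lit 24) (nat_lit 5) (nat_lit 354) (nat_lit 326) (nat_lit 220)) (XT.lf (nat_lit 0) (nat_lit 65198166627) (nat_lit 228) (nat_lit 18811798889) (nat_lit 76) (nat_lit 32102094430) (nat_lit 21) (nat_lit 5) (nat_lit 24) (nat_lit 5) (nat_lit 22) (nat_lit 4) (nat_lit 355) (nat_lit 326) (nat_lit 219)))) (XT.nd (nat_lit 156) (nat_lit 228) (nat_lit 0) (XT.nd (nat_lit 78)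 (nat_lit 0) (nat_lit 0) (XT.lf (nat_lit 0) (nat_lit 41287335421) (nat_lit 76) (nat_lit 52806104898) (nat_lit 152) (nat_lit 28472443577) (nat_lit 20) (nat_lit 5) (nat_lit 21) (nat_lit 5) (nat_lit 22) (nat_lit 4) (nat_lit 356) (nat_lit 326) (nat_lit 218)) (XT.lf (nat_lit 0) (nat_lit 107261885541) (nat_lit 76) (nat_lit 18551439527) (nat_lit 152) (nat_lit 3681650524) (nat_lit 20) (nat_lit 5) (nat_lit 21) (nat_lit 5) (nat_lit 22) (nat_lit 4) (nat_lit 357) (nat_lit 326) (nat_lit 217))) (XT.nd (nat_lit 78) (nat_lit 76) (nat_lit 0) (XT.lf (nat_lit 0) (nat_lit 23458283314) (nat_lit 152) (nat_lit 94199763854) (nat_lit 76) (nat_lit 19154234207) (nat_lit 18) (nat_lit 5) (nat_lit 20) (nat_lit 5) (nat_lit 19) (nat_lit 4) (nat_lit 358) (nat_lit 326) (nat_lit 216)) (XT.nd (nat_lit 78) (nat_lit 76) (nat_lit 0) (XT.lf (nat_lit 0) (nat_lit 53674772625) (nat_lit 152) (nat_lit 31351696880) (nat_lit 76) (nat_lit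 59592511453) (nat_lit 18) (nat_lit 5) (nat_lit 20) (nat_lit 5) (nat_lit 19) (nat_lit 4) (nat_lit 359) (nat_lit 326) (nat_lit 215)) (XT.lf (nat_lit 0) (nat_lit 38445299873) (nat_lit 76) (nat_lit 48786714244) (nat_lit 152) (nat_lit 65744328456) (nat_lit 17) (nat_lit 5) (nat_lit 18) (nat_lit 5) (nat_lit 19) (nat_lit 4) (nat_lit 360) (nat_lit 326) (nat_lit 214)))))) (XT.nd (nat_lit 312) (nat_lit 228) (nat_lit 0) (XT.nd (nat_lit 156) (nat_lit 152) (nat_lit 0) (XT.nd (nat_lit 78) (nat_lit 76) (nat_lit 0) (XT.lf (nat_lit 0) (nat_lit 115607003263) (nat_lit 76) (nat_lit 8722903131) (nat_lit 152) (nat_lit 37603901661) (nat_lit 17) (nat_lit 5) (nat_lit 18) (nat_lit 5) (nat_lit 19) (nat_lit 4) (nat_lit 361) (nat_lit 326) (nat_lit 213)) (XT.lf (nat_lit 0) (nat_lit 27896469504) (nat_lit 76) (nat_lit 137999828352) (nat_lit 76) (nat_lit 5591520100) (nat_lit 16) (nat_lit 4) (nat_lit 17) (nat_lit 5) (nat_lit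 17) (nat_lit 4) (nat_lit 362) (nat_lit 326) (nat_lit 212))) (XT.nd (nat_lit 78) (nat_lit 76) (nat_lit 0) (XT.lf (nat_lit 0) (nat_lit 29057119021) (nat_lit 152) (nat_lit 71971018927) (nat_lit 76) (nat_lit 80600245551) (nat_lit 15) (nat_lit 5) (nat_lit 17) (nat_lit 5) (nat_lit 16) (nat_lit 4) (nat_lit 363) (nat_lit 326) (nat_lit 211)) (XT.lf (nat_lit 0) (nat_lit 5507378410) (nat_lit 76) (nat_lit 60799645955) (nat_lit 152) (nat_lit 126251034666) (nat_lit 14) (nat_lit 5) (nat_lit 15) (nat_lit 5) (nat_lit 16) (nat_lit 4) (nat_lit 364) (nat_lit 326) (nat_lit 210)))) (XT.nd (nat_lit 156) (nat_lit 228) (nat_lit 0) (XT.nd (nat_lit 78) (nat_lit 0) (nat_lit 0) (XT.lf (nat_lit 0) (nat_lit 93275323737) (nat_lit 76) (nat_lit 15228453980) (nat_lit 152) (nat_lit 95700982886) (nat_lit 14) (nat_lit 5) (nat_lit 15) (nat_lit 5) (nat_lit 16) (nat_lit 4) (nat_lit 365) (nat_lit 326) (nat_lit 209)) (XT.lf (nat_lit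 0) (nat_lit 154892787187) (nat_lit 152) (nat_lit 29537617099) (nat_lit 0) (nat_lit 32287473163) (nat_lit 14) (nat_lit 5) (nat_lit 16) (nat_lit 4) (nat_lit 14) (nat_lit 4) (nat_lit 366) (nat_lit 326) (nat_lit 208))) (XT.nd (nat_lit 78) (nat_lit 152) (nat_lit 0) (XT.lf (nat_lit 0) (nat_lit 61020943882) (nat_lit 76) (nat_lit 145834233334) (nat_lit 76) (nat_lit 23227886022) (nat_lit 13) (nat_lit 4) (nat_lit 14) (nat_lit 5) (nat_lit 14) (nat_lit 4) (nat_lit 367) (nat_lit 326) (nat_lit 207)) (XT.nd (nat_lit 78) (nat_lit 76) (nat_lit 0) (XT.lf (nat_lit 0) (nat_lit 18361547803) (nat_lit 152) (nat_lit 84415284629) (nat_lit 76) (nat_lit 141638900150) (nat_lit 12) (nat_lit 5) (nat_lit 14) (nat_lit 5) (nat_lit 13) (nat_lit 4) (nat_lit 368) (nat_lit 326) (nat_lit 206)) (XT.lf (nat_lit 0) (nat_lit 6735447164) (nat_lit 76) (nat_lit 55448993751) (nat_lit 152) (nat_lit 197649412027) (nat_lit 11) (nat_lit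 5) (nat_lit 12) (nat_lit 5) (nat_lit 13) (nat_lit 4) (nat_lit 369) (nat_lit 326) (nat_lit 205))))))))
noncomputable def xc172 : XT := (XT.nd (nat_lit 1326) (nat_lit 228) (nat_lit 0) (XT.nd (nat_lit 624) (nat_lit 228) (nat_lit 0) (XT.nd (nat_lit 312) (nat_lit 152) (nat_lit 0) (XT.nd (nat_lit 156) (nat_lit 76) (nat_lit 0) (XT.nd (nat_lit 78) (nat_lit 0) (nat_lit 0) (XT.lf (nat_lit 0) (nat_lit 109977584217) (nat_lit 76) (nat_lit 1842893867) (nat_lit 152) (nat_lit 164480360119) (nat_lit 11) (nat_lit 5) (nat_lit 12) (nat_lit 5) (nat_lit 13) (nat_lit 4) (nat_lit 370) (nat_lit 326) (nat_lit 204)) (XT.lf (nat_lit 0) (nat_lit 166774732545) (nat_lit 152) (nat_lit 73955495242) (nat_lit 0) (nat_lit 53247168011) (nat_lit 11) (nat_lit 5) (nat_lit 13) (nat_lit 4) (nat_lit 11) (nat_lit 4) (nat_lit 371) (nat_lit 326) (nat_lit 203))) (XT.nd (nat_lit 78) (nat_lit 0) (nat_lit 0) (XT.lf (nat_lit 0) (nat_lit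 27108641024) (nat_lit 76) (nat_lit 199715859522) (nat_lit 76) (nat_lit 86187643841) (nat_lit 10) (nat_lit 4) (nat_lit 11) (nat_lit 5) (nat_lit 11) (nat_lit 4) (nat_lit 372) (nat_lit 326) (nat_lit 202)) (XT.lf (nat_lit 0) (nat_lit 140462594815) (nat_lit 76) (nat_lit 153237091000) (nat_lit 76) (nat_lit 39708272405) (nat_lit 10) (nat_lit 4) (nat_lit 11) (nat_lit 5) (nat_lit 11) (nat_lit 4) (nat_lit 373) (nat_lit 326) (nat_lit 201)))) (XT.nd (nat_lit 156) (nat_lit 0) (nat_lit 0) (XT.nd (nat_lit 78) (nat_lit 76) (nat_lit 0) (XT.lf (nat_lit 0) (nat_lit 9964117305) (nat_lit 152) (nat_lit 92804012852) (nat_lit 76) (nat_lit 252647174013) (nat_lit 9) (nat_lit 5) (nat_lit 11) (nat_lit 5) (nat_lit 10) (nat_lit 4) (nat_lit 374) (nat_lit 326) (nat_lit 200)) (XT.lf (nat_lit 0) (nat_lit 15070044184) (nat_lit 76) (nat_lit 46756849053) (nat_lit 152) (nat_lit 317244884189) (nat_lit 8) (nat_lit 5) (nat_lit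 9) (nat_lit 5) (nat_lit 10) (nat_lit 4) (nat_lit 375) (nat_lit 326) (nat_lit 199))) (XT.nd (nat_lit 78) (nat_lit 0) (nat_lit 0) (XT.lf (nat_lit 0) (nat_lit 120771801914) (nat_lit 152) (nat_lit 267963231176) (nat_lit 0) (nat_lit 15651086763) (nat_lit 8) (nat_lit 5) (nat_lit 10) (nat_lit 4) (nat_lit 8) (nat_lit 4) (nat_lit 376) (nat_lit 326) (nat_lit 198)) (XT.lf (nat_lit 0) (nat_lit 185646250412) (nat_lit 152) (nat_lit 165457118717) (nat_lit 0) (nat_lit 80525124927) (nat_lit 8) (nat_lit 5) (nat_lit 10) (nat_lit 4) (nat_lit 8) (nat_lit 4) (nat_lit 377) (nat_lit 326) (nat_lit 197))))) (XT.nd (nat_lit 312) (nat_lit 152) (nat_lit 0) (XT.nd (nat_lit 156) (nat_lit 0) (nat_lit 0) (XT.nd (nat_lit 78) (nat_lit 76) (nat_lit 0) (XT.lf (nat_lit 0) (nat_lit 255710176563) (nat_lit 152) (nat_lit 54751448891) (nat_lit 0) (nat_lit 150588671139) (nat_lit 8) (nat_lit 5) (nat_lit 10) (nat_lit 4) (nat_lit 8)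 (nat_lit 4) (nat_lit 378) (nat_lit 326) (nat_lit 196)) (XT.lf (nat_lit 0) (nat_lit 68222581741) (nat_lit 76) (nat_lit 264796946993) (nat_lit 76) (nat_lit 159675089775) (nat_lit 7) (nat_lit 4) (nat_lit 8) (nat_lit 5) (nat_lit 8) (nat_lit 4) (nat_lit 379) (nat_lit 326) (nat_lit 195))) (XT.nd (nat_lit 78) (nat_lit 0) (nat_lit 0) (XT.lf (nat_lit 0) (nat_lit 204147457455) (nat_lit 76) (nat_lit 213862743042) (nat_lit 76) (nat_lit 108740560088) (nat_lit 7) (nat_lit 4) (nat_lit 8) (nat_lit 5) (nat_lit 8) (nat_lit 4) (nat_lit 380) (nat_lit 326) (nat_lit 194)) (XT.lf (nat_lit 0) (nat_lit 350945544724) (nat_lit 76) (nat_lit 158854182922) (nat_lit 76) (nat_lit 53731698361) (nat_lit 7) (nat_lit 4) (nat_lit 8) (nat_lit 5) (nat_lit 8) (nat_lit 4) (nat_lit 381) (nat_lit 326) (nat_lit 193)))) (XT.nd (nat_lit 156) (nat_lit 0) (nat_lit 0) (XT.nd (nat_lit 78) (nat_lit 76) (nat_lit 0) (XT.lf (nat_lit 0) (nat_lit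 5393463609) (nat_lit 152) (nat_lit 93904359518) (nat_lit 76) (nat_lit 503945827677) (nat_lit 6) (nat_lit 5) (nat_lit 8) (nat_lit 5) (nat_lit 7) (nat_lit 4) (nat_lit 382) (nat_lit 326) (nat_lit 192)) (XT.lf (nat_lit 0) (nat_lit 34606528171) (nat_lit 76) (nat_lit 32571140375) (nat_lit 152) (nat_lit 578776979857) (nat_lit 5) (nat_lit 5) (nat_lit 6) (nat_lit 5) (nat_lit 7) (nat_lit 4) (nat_lit 383) (nat_lit 326) (nat_lit 191))) (XT.nd (nat_lit 78) (nat_lit 0) (nat_lit 0) (XT.lf (nat_lit 0) (nat_lit 137488285481) (nat_lit 152) (nat_lit 514155614428) (nat_lit 0) (nat_lit 40151931934) (nat_lit 5) (nat_lit 5) (nat_lit 7) (nat_lit 4) (nat_lit 5) (nat_lit 4) (nat_lit 384) (nat_lit 326) (nat_lit 190)) (XT.nd (nat_lit 78) (nat_lit 0) (nat_lit 0) (XT.lf (nat_lit 0) (nat_lit 214269432738) (nat_lit 152) (nat_lit 410034348898) (nat_lit 0) (nat_lit 116932873922) (nat_lit 5) (nat_lit 5) (nat_lit 7) (nat_lit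 4) (nat_lit 5) (nat_lit 4) (nat_lit 385) (nat_lit 326) (nat_lit 189)) (XT.lf (nat_lit 0) (nat_lit 297192772998) (nat_lit 152) (nat_lit 297583972025) (nat_lit 0) (nat_lit 199856024118) (nat_lit 5) (nat_lit 5) (nat_lit 7) (nat_lit 4) (nat_lit 5) (nat_lit 4) (nat_lit 386) (nat_lit 326) (nat_lit 188))))))) (XT.nd (nat_lit 624) (nat_lit 152) (nat_lit 0) (XT.nd (nat_lit 312) (nat_lit 0) (nat_lit 0) (XT.nd (nat_lit 156) (nat_lit 76) (nat_lit 0) (XT.nd (nat_lit 78) (nat_lit 0) (nat_lit 0) (XT.lf (nat_lit 0) (nat_lit 386749703834) (nat_lit 152) (nat_lit 176138111206) (nat_lit 0) (nat_lit 289412778969) (nat_lit 5) (nat_lit 5) (nat_lit 7) (nat_lit 4) (nat_lit 5) (nat_lit 4) (nat_lit 387) (nat_lit 326) (nat_lit 187)) (XT.lf (nat_lit 0) (nat_lit 483470932983) (nat_lit 152) (nat_lit 44977087265) (nat_lit 0) (nat_lit 386133845169) (nat_lit 5) (nat_lit 5) (nat_lit 7) (nat_lit 4) (nat_lit 5) (nat_lit 4)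 (nat_lit 388) (nat_lit 326) (nat_lit 186))) (XT.nd (nat_lit 78) (nat_lit 0) (nat_lit 0) (XT.lf (nat_lit 0) (nat_lit 101767155589) (nat_lit 76) (nat_lit 488609970235) (nat_lit 76) (nat_lit 391272731542) (nat_lit 4) (nat_lit 4) (nat_lit 5) (nat_lit 5) (nat_lit 5) (nat_lit 4) (nat_lit 389) (nat_lit 326) (nat_lit 185)) (XT.lf (nat_lit 0) (nat_lit 262808368253) (nat_lit 76) (nat_lit 444256968525) (nat_lit 76) (nat_lit 346919590130) (nat_lit 4) (nat_lit 4) (nat_lit 5) (nat_lit 5) (nat_lit 5) (nat_lit 4) (nat_lit 390) (nat_lit 326) (nat_lit 184)))) (XT.nd (nat_lit 156) (nat_lit 0) (nat_lit 0) (XT.nd (nat_lit 78) (nat_lit 0) (nat_lit 0) (XT.lf (nat_lit 0) (nat_lit 436732455312) (nat_lit 76) (nat_lit 396355935789) (nat_lit 76) (nat_lit 299018428039) (nat_lit 4) (nat_lit 4) (nat_lit 5) (nat_lit 5) (nat_lit 5) (nat_lit 4) (nat_lit 391) (nat_lit 326) (nat_lit 183)) (XT.lf (nat_lit 0) (nat_lit 624570078025)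 (nat_lit 76) (nat_lit 344623014055) (nat_lit 76) (nat_lit 247285386533) (nat_lit 4) (nat_lit 4) (nat_lit 5) (nat_lit 5) (nat_lit 5) (nat_lit 4) (nat_lit 392) (nat_lit 326) (nat_lit 182))) (XT.nd (nat_lit 78) (nat_lit 0) (nat_lit 0) (XT.lf (nat_lit 0) (nat_lit 827434348228) (nat_lit 76) (nat_lit 288751637860) (nat_lit 76) (nat_lit 191413899438) (nat_lit 4) (nat_lit 4) (nat_lit 5) (nat_lit 5) (nat_lit 5) (nat_lit 4) (nat_lit 393) (nat_lit 326) (nat_lit 181)) (XT.lf (nat_lit 0) (nat_lit 1046527424560) (nat_lit 76) (nat_lit 228410717569) (nat_lit 76) (nat_lit 131072876461) (nat_lit 4) (nat_lit 4) (nat_lit 5) (nat_lit 5) (nat_lit 5) (nat_lit 4) (nat_lit 394) (nat_lit 326) (nat_lit 180))))) (XT.nd (nat_lit 312) (nat_lit 0) (nat_lit 0) (XT.nd (nat_lit 156) (nat_lit 76) (nat_lit 0) (XT.nd (nat_lit 78) (nat_lit 76) (nat_lit 0) (XT.lf (nat_lit 0) (nat_lit 1283147636362) (nat_lit 76) (nat_lit 163242677357)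 (nat_lit 76) (nat_lit 65904741170) (nat_lit 4) (nat_lit 4) (nat_lit 5) (nat_lit 5) (nat_lit 5) (nat_lit 4) (nat_lit 395) (nat_lit 326) (nat_lit 179)) (XT.lf (nat_lit 0) (nat_lit 4252745914) (nat_lit 152) (nat_lit 88492312720) (nat_lit 76) (nat_lit 1534328153958) (nat_lit 3) (nat_lit 5) (nat_lit 5) (nat_lit 5) (nat_lit 4) (nat_lit 4) (nat_lit 396) (nat_lit 326) (nat_lit 178))) (XT.nd (nat_lit 78) (nat_lit 0) (nat_lit 0) (XT.lf (nat_lit 0) (nat_lit 64952293238) (nat_lit 76) (nat_lit 13071937038) (nat_lit 152) (nat_lit 1672747490456) (nat_lit 2) (nat_lit 5) (nat_lit 3) (nat_lit 5) (nat_lit 4) (nat_lit 4) (nat_lit 397) (nat_lit 326) (nat_lit 177)) (XT.lf (nat_lit 0) (nat_lit 161934729037) (nat_lit 152) (nat_lit 1650285613392) (nat_lit 0) (nat_lit 71806783468) (nat_lit 2) (nat_lit 5) (nat_lit 4) (nat_lit 4) (nat_lit 2) (nat_lit 4) (nat_lit 398) (nat_lit 326) (nat_lit 176)))) (XT.nd (nat_lit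 156) (nat_lit 0) (nat_lit 0) (XT.nd (nat_lit 78) (nat_lit 0) (nat_lit 0) (XT.lf (nat_lit 0) (nat_lit 252897471271) (nat_lit 152) (nat_lit 1612248878950) (nat_lit 0) (nat_lit 162769460992) (nat_lit 2) (nat_lit 5) (nat_lit 4) (nat_lit 4) (nat_lit 2) (nat_lit 4) (nat_lit 399) (nat_lit 326) (nat_lit 175)) (XT.lf (nat_lit 0) (nat_lit 351137115051) (nat_lit 152) (nat_lit 1571169440897) (nat_lit 0) (nat_lit 261009044856) (nat_lit 2) (nat_lit 5) (nat_lit 4) (nat_lit 4) (nat_lit 2) (nat_lit 4) (nat_lit 400) (nat_lit 326) (nat_lit 174))) (XT.nd (nat_lit 78) (nat_lit 0) (nat_lit 0) (XT.lf (nat_lit 0) (nat_lit 457235821228) (nat_lit 152) (nat_lit 1526803865527) (nat_lit 0) (nat_lit 367107695555) (nat_lit 2) (nat_lit 5) (nat_lit 4) (nat_lit 4) (nat_lit 2) (nat_lit 4) (nat_lit 401) (nat_lit 326) (nat_lit 173)) (XT.nd (nat_lit 78) (nat_lit 0) (nat_lit 0) (XT.lf (nat_lit 0) (nat_lit 571822322876) (nat_lit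 152) (nat_lit 1478889245726) (nat_lit 0) (nat_lit 481694145835) (nat_lit 2) (nat_lit 5) (nat_lit 4) (nat_lit 4) (nat_lit 2) (nat_lit 4) (nat_lit 402) (nat_lit 326) (nat_lit 172)) (XT.lf (nat_lit 0) (nat_lit 695575651117) (nat_lit 152) (nat_lit 1427141643007) (nat_lit 0) (nat_lit 605447426513) (nat_lit 2) (nat_lit 5) (nat_lit 4) (nat_lit 4) (nat_lit 2) (nat_lit 4) (nat_lit 403) (nat_lit 326) (nat_lit 171))))))))
noncomputable def xc173 : XT := (XT.nd (nat_lit 41652) (nat_lit 0) (nat_lit 1596) (XT.nd (nat_lit 40950) (nat_lit 0) (nat_lit 3344) (XT.nd (nat_lit 312) (nat_lit 0) (nat_lit 0) (XT.nd (nat_lit 156) (nat_lit 0) (nat_lit 0) (XT.nd (nat_lit 78) (nat_lit 0) (nat_lit 0) (XT.lf (nat_lit 0) (nat_lit 829229159006) (nat_lit 152) (nat_lit 1371254404909) (nat_lit 0) (nat_lit 739100890362) (nat_lit 2) (nat_lit 5) (nat_lit 4) (nat_lit 4) (nat_lit 2) (nat_lit 4) (nat_lit 404) (nat_lit 326) (nat_lit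 170)) (XT.lf (nat_lit 0) (nat_lit 973574867331) (nat_lit 152) (nat_lit 1310896347798) (nat_lit 0) (nat_lit 883446557909) (nat_lit 2) (nat_lit 5) (nat_lit 4) (nat_lit 4) (nat_lit 2) (nat_lit 4) (nat_lit 405) (nat_lit 326) (nat_lit 169))) (XT.nd (nat_lit 78) (nat_lit 0) (nat_lit 0) (XT.lf (nat_lit 0) (nat_lit 1129468158068) (nat_lit 152) (nat_lit 1245709794300) (nat_lit 0) (nat_lit 1039339810888) (nat_lit 2) (nat_lit 5) (nat_lit 4) (nat_lit 4) (nat_lit 2) (nat_lit 4) (nat_lit 406) (nat_lit 326) (nat_lit 168)) (XT.lf (nat_lit 0) (nat_lit 1297832843308) (nat_lit 152) (nat_lit 1175308453726) (nat_lit 0) (nat_lit 1207704461169) (nat_lit 2) (nat_lit 5) (nat_lit 4) (nat_lit 4) (nat_lit 2) (nat_lit 4) (nat_lit 407) (nat_lit 326) (nat_lit 167)))) (XT.nd (nat_lit 156) (nat_lit 0) (nat_lit 0) (XT.nd (nat_lit 78) (nat_lit 0) (nat_lit 0) (XT.lf (nat_lit 0) (nat_lit 1479666639707) (nat_lit 152) (nat_lit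 1099275132948) (nat_lit 0) (nat_lit 1389538225196) (nat_lit 2) (nat_lit 5) (nat_lit 4) (nat_lit 4) (nat_lit 2) (nat_lit 4) (nat_lit 408) (nat_lit 326) (nat_lit 166)) (XT.lf (nat_lit 0) (nat_lit 1676047080871) (nat_lit 152) (nat_lit 1017159264139) (nat_lit 0) (nat_lit 1585918636388) (nat_lit 2) (nat_lit 5) (nat_lit 4) (nat_lit 4) (nat_lit 2) (nat_lit 4) (nat_lit 409) (nat_lit 326) (nat_lit 165))) (XT.nd (nat_lit 40404) (nat_lit 0) (nat_lit 3952) (XT.lf (nat_lit 0) (nat_lit 1888137902750) (nat_lit 152) (nat_lit 928474234743) (nat_lit 0) (nat_lit 1798009430513) (nat_lit 2) (nat_lit 5) (nat_lit 4) (nat_lit 4) (nat_lit 2) (nat_lit 4) (nat_lit 410) (nat_lit 326) (nat_lit 164)) (XT.lf (nat_lit 0) (nat_lit 12304743642) (nat_lit 532) (nat_lit 1995079893) (nat_lit 532) (nat_lit 1995079893) (nat_lit 54) (nat_lit 3) (nat_lit 61) (nat_lit 3) (nat_lit 61) (nat_lit 5) (nat_lit 327) (nat_lit 327) (nat_lit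 246))))) (XT.nd (nat_lit 312) (nat_lit 608) (nat_lit 0) (XT.nd (nat_lit 156) (nat_lit 0) (nat_lit 76) (XT.nd (nat_lit 78) (nat_lit 0) (nat_lit 76) (XT.lf (nat_lit 76) (nat_lit 12042351001) (nat_lit 0) (nat_lit 13898349689) (nat_lit 532) (nat_lit 7924847215) (nat_lit 55) (nat_lit 5) (nat_lit 54) (nat_lit 3) (nat_lit 61) (nat_lit 5) (nat_lit 328) (nat_lit 327) (nat_lit 245)) (XT.lf (nat_lit 0) (nat_lit 27532197678) (nat_lit 456) (nat_lit 5704458979) (nat_lit 532) (nat_lit 1994399116) (nat_lit 55) (nat_lit 5) (nat_lit 61) (nat_lit 5) (nat_lit 62) (nat_lit 5) (nat_lit 329) (nat_lit 327) (nat_lit 244))) (XT.nd (nat_lit 78) (nat_lit 0) (nat_lit 0) (XT.lf (nat_lit 76) (nat_lit 11936373549) (nat_lit 0) (nat_lit 17957390853) (nat_lit 532) (nat_lit 6760629549) (nat_lit 56) (nat_lit 5) (nat_lit 55) (nat_lit 5) (nat_lit 62) (nat_lit 5) (nat_lit 330) (nat_lit 327) (nat_lit 243)) (XT.lf (nat_lit 76)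 (nat_lit 31309465198) (nat_lit 0) (nat_lit 1285756515) (nat_lit 532) (nat_lit 5584309218) (nat_lit 56) (nat_lit 5) (nat_lit 55) (nat_lit 5) (nat_lit 62) (nat_lit 5) (nat_lit 331) (nat_lit 327) (nat_lit 242)))) (XT.nd (nat_lit 156) (nat_lit 760) (nat_lit 0) (XT.nd (nat_lit 78) (nat_lit 0) (nat_lit 0) (XT.lf (nat_lit 76) (nat_lit 12631933170) (nat_lit 0) (nat_lit 23582168853) (nat_lit 532) (nat_lit 3556480632) (nat_lit 57) (nat_lit 5) (nat_lit 56) (nat_lit 5) (nat_lit 63) (nat_lit 5) (nat_lit 332) (nat_lit 327) (nat_lit 241)) (XT.lf (nat_lit 76) (nat_lit 34046149017) (nat_lit 0) (nat_lit 6292392046) (nat_lit 532) (nat_lit 1133101275) (nat_lit 57) (nat_lit 5) (nat_lit 56) (nat_lit 5) (nat_lit 63) (nat_lit 5) (nat_lit 333) (nat_lit 327) (nat_lit 240))) (XT.nd (nat_lit 78) (nat_lit 304) (nat_lit 0) (XT.lf (nat_lit 0) (nat_lit 2063575196) (nat_lit 532) (nat_lit 29032463794) (nat_lit 76) (nat_lit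 12157605301) (nat_lit 50) (nat_lit 5) (nat_lit 57) (nat_lit 5) (nat_lit 51) (nat_lit 5) (nat_lit 334) (nat_lit 327) (nat_lit 239)) (XT.nd (nat_lit 78) (nat_lit 304) (nat_lit 0) (XT.lf (nat_lit 0) (nat_lit 5822613189) (nat_lit 532) (nat_lit 7341929085) (nat_lit 76) (nat_lit 31981888188) (nat_lit 50) (nat_lit 5) (nat_lit 57) (nat_lit 5) (nat_lit 51) (nat_lit 5) (nat_lit 335) (nat_lit 327) (nat_lit 238)) (XT.lf (nat_lit 0) (nat_lit 10445591708) (nat_lit 380) (nat_lit 30390904417) (nat_lit 76) (nat_lit 6309091650) (nat_lit 46) (nat_lit 5) (nat_lit 51) (nat_lit 5) (nat_lit 47) (nat_lit 5) (nat_lit 336) (nat_lit 327) (nat_lit 237))))))) (XT.nd (nat_lit 702) (nat_lit 684) (nat_lit 0) (XT.nd (nat_lit 312) (nat_lit 608) (nat_lit 0) (XT.nd (nat_lit 156) (nat_lit 228) (nat_lit 0) (XT.nd (nat_lit 78) (nat_lit 228) (nat_lit 0) (XT.lf (nat_lit 0) (nat_lit 15982883038) (nat_lit 380) (nat_lit 6442825173)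 (nat_lit 76) (nat_lit 26835416733) (nat_lit 46) (nat_lit 5) (nat_lit 51) (nat_lit 5) (nat_lit 47) (nat_lit 5) (nat_lit 337) (nat_lit 327) (nat_lit 236)) (XT.lf (nat_lit 0) (nat_lit 20440249479) (nat_lit 228) (nat_lit 2011332752) (nat_lit 304) (nat_lit 29055253732) (nat_lit 43) (nat_lit 5) (nat_lit 46) (nat_lit 5) (nat_lit 47) (nat_lit 5) (nat_lit 338) (nat_lit 327) (nat_lit 235))) (XT.nd (nat_lit 78) (nat_lit 228) (nat_lit 0) (XT.lf (nat_lit 0) (nat_lit 30097367566) (nat_lit 304) (nat_lit 4567687281) (nat_lit 76) (nat_lit 19214386285) (nat_lit 43) (nat_lit 5) (nat_lit 47) (nat_lit 5) (nat_lit 44) (nat_lit 5) (nat_lit 339) (nat_lit 327) (nat_lit 234)) (XT.lf (nat_lit 0) (nat_lit 25259199947) (nat_lit 228) (nat_lit 13752551341) (nat_lit 304) (nat_lit 17377552734) (nat_lit 40) (nat_lit 5) (nat_lit 43) (nat_lit 5) (nat_lit 44) (nat_lit 5) (nat_lit 340) (nat_lit 327) (nat_lit 233)))) (XT.nd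 (nat_lit 156) (nat_lit 456) (nat_lit 0) (XT.nd (nat_lit 78) (nat_lit 152) (nat_lit 0) (XT.lf (nat_lit 0) (nat_lit 48977178167) (nat_lit 304) (nat_lit 1577006106) (nat_lit 76) (nat_lit 8518744120) (nat_lit 40) (nat_lit 5) (nat_lit 44) (nat_lit 5) (nat_lit 41) (nat_lit 5) (nat_lit 341) (nat_lit 327) (nat_lit 232)) (XT.lf (nat_lit 0) (nat_lit 31558703191) (nat_lit 152) (nat_lit 29294857895) (nat_lit 228) (nat_lit 1028587435) (nat_lit 38) (nat_lit 5) (nat_lit 40) (nat_lit 5) (nat_lit 41) (nat_lit 5) (nat_lit 342) (nat_lit 327) (nat_lit 231))) (XT.nd (nat_lit 78) (nat_lit 152) (nat_lit 0) (XT.lf (nat_lit 0) (nat_lit 2428726290) (nat_lit 228) (nat_lit 5997033707) (nat_lit 304) (nat_lit 56465469876) (nat_lit 34) (nat_lit 5) (nat_lit 37) (nat_lit 5) (nat_lit 38) (nat_lit 5) (nat_lit 343) (nat_lit 327) (nat_lit 230)) (XT.nd (nat_lit 78) (nat_lit 152) (nat_lit 0) (XT.lf (nat_lit 0) (nat_lit 19890083824)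 (nat_lit 304) (nat_lit 29061541518) (nat_lit 76) (nat_lit 19082541971) (nat_lit 34) (nat_lit 5) (nat_lit 38) (nat_lit 5) (nat_lit 35) (nat_lit 5) (nat_lit 344) (nat_lit 327) (nat_lit 229)) (XT.lf (nat_lit 0) (nat_lit 7213560288) (nat_lit 152) (nat_lit 25385078005) (nat_lit 228) (nat_lit 38803737290) (nat_lit 32) (nat_lit 5) (nat_lit 34) (nat_lit 5) (nat_lit 35) (nat_lit 5) (nat_lit 345) (nat_lit 327) (nat_lit 228)))))) (XT.nd (nat_lit 312) (nat_lit 304) (nat_lit 0) (XT.nd (nat_lit 156) (nat_lit 228) (nat_lit 0) (XT.nd (nat_lit 78) (nat_lit 152) (nat_lit 0) (XT.lf (nat_lit 0) (nat_lit 47138616659) (nat_lit 228) (nat_lit 26958385338) (nat_lit 76) (nat_lit 877861780) (nat_lit 32) (nat_lit 5) (nat_lit 35) (nat_lit 5) (nat_lit 33) (nat_lit 5) (nat_lit 346) (nat_lit 327) (nat_lit 227)) (XT.lf (nat_lit 0) (nat_lit 13251138028) (nat_lit 152) (nat_lit 50566753971) (nat_lit 228) (nat_lit 14937173374)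 (nat_lit 30) (nat_lit 5) (nat_lit 32) (nat_lit 5) (nat_lit 33) (nat_lit 5) (nat_lit 347) (nat_lit 327) (nat_lit 226))) (XT.nd (nat_lit 78) (nat_lit 228) (nat_lit 0) (XT.lf (nat_lit 0) (nat_lit 58207779123) (nat_lit 152) (nat_lit 24358952992) (nat_lit 228) (nat_lit 212135238) (nat_lit 30) (nat_lit 5) (nat_lit 32) (nat_lit 5) (nat_lit 33) (nat_lit 5) (nat_lit 348) (nat_lit 327) (nat_lit 225)) (XT.lf (nat_lit 0) (nat_lit 15509040721) (nat_lit 228) (nat_lit 66902523187) (nat_lit 76) (nat_lit 4634577437) (nat_lit 27) (nat_lit 5) (nat_lit 30) (nat_lit 5) (nat_lit 28) (nat_lit 5) (nat_lit 349) (nat_lit 327) (nat_lit 224)))) (XT.nd (nat_lit 156) (nat_lit 152) (nat_lit 0) (XT.nd (nat_lit 78) (nat_lit 152) (nat_lit 0) (XT.lf (nat_lit 0) (nat_lit 33796688161) (nat_lit 228) (nat_lit 22426559660) (nat_lit 76) (nat_lit 35325491227) (nat_lit 27) (nat_lit 5) (nat_lit 30) (nat_lit 5) (nat_lit 28) (nat_lit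 5) (nat_lit 350) (nat_lit 327) (nat_lit 223)) (XT.lf (nat_lit 0) (nat_lit 26953266081) (nat_lit 152) (nat_lit 27240707316) (nat_lit 228) (nat_lit 42165842617) (nat_lit 25) (nat_lit 5) (nat_lit 27) (nat_lit 5) (nat_lit 28) (nat_lit 5) (nat_lit 351) (nat_lit 327) (nat_lit 222))) (XT.nd (nat_lit 78) (nat_lit 152) (nat_lit 0) (XT.lf (nat_lit 0) (nat_lit 76948240231) (nat_lit 228) (nat_lit 20063973790) (nat_lit 76) (nat_lit 4485550627) (nat_lit 25) (nat_lit 5) (nat_lit 28) (nat_lit 5) (nat_lit 26) (nat_lit 4) (nat_lit 352) (nat_lit 327) (nat_lit 221)) (XT.nd (nat_lit 78) (nat_lit 76) (nat_lit 0) (XT.lf (nat_lit 0) (nat_lit 34228321882) (nat_lit 76) (nat_lit 68823821646) (nat_lit 152) (nat_lit 3872263343) (nat_lit 24) (nat_lit 5) (nat_lit 25) (nat_lit 5) (nat_lit 26) (nat_lit 4) (nat_lit 353) (nat_lit 327) (nat_lit 220)) (XT.lf (nat_lit 0) (nat_lit 18097175755) (nat_lit 152) (nat_lit 19196820661)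 (nat_lit 76) (nat_lit 75410757684) (nat_lit 23) (nat_lit 5) (nat_lit 25) (nat_lit 5) (nat_lit 24) (nat_lit 5) (nat_lit 354) (nat_lit 327) (nat_lit 219))))))))
noncomputable def xc174 : XT := (XT.nd (nat_lit 1326) (nat_lit 456) (nat_lit 0) (XT.nd (nat_lit 624) (nat_lit 456) (nat_lit 0) (XT.nd (nat_lit 312) (nat_lit 228) (nat_lit 0) (XT.nd (nat_lit 156) (nat_lit 76) (nat_lit 0) (XT.nd (nat_lit 78) (nat_lit 0) (nat_lit 0) (XT.lf (nat_lit 0) (nat_lit 40505859334) (nat_lit 152) (nat_lit 2081947390) (nat_lit 228) (nat_lit 76273849997) (nat_lit 21) (nat_lit 5) (nat_lit 23) (nat_lit 5) (nat_lit 24) (nat_lit 5) (nat_lit 355) (nat_lit 327) (nat_lit 218)) (XT.lf (nat_lit 0) (nat_lit 70439422145) (nat_lit 228) (nat_lit 20273029145) (nat_lit 76) (nat_lit 34686522506) (nat_lit 21) (nat_lit 5) (nat_lit 24) (nat_lit 5) (nat_lit 22) (nat_lit 4) (nat_lit 356) (nat_lit 327) (nat_lit 217))) (XT.nd (nat_lit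 78) (nat_lit 0) (nat_lit 0) (XT.lf (nat_lit 0) (nat_lit 44632929236) (nat_lit 76) (nat_lit 57012531552) (nat_lit 152) (nat_lit 30723712820) (nat_lit 20) (nat_lit 5) (nat_lit 21) (nat_lit 5) (nat_lit 22) (nat_lit 4) (nat_lit 357) (nat_lit 327) (nat_lit 216)) (XT.lf (nat_lit 0) (nat_lit 115882287293) (nat_lit 76) (nat_lit 20018830858) (nat_lit 152) (nat_lit 3951621230) (nat_lit 20) (nat_lit 5) (nat_lit 21) (nat_lit 5) (nat_lit 22) (nat_lit 4) (nat_lit 358) (nat_lit 327) (nat_lit 215)))) (XT.nd (nat_lit 156) (nat_lit 76) (nat_lit 0) (XT.nd (nat_lit 78) (nat_lit 0) (nat_lit 0) (XT.lf (nat_lit 0) (nat_lit 25357915636) (nat_lit 152) (nat_lit 101694673676) (nat_lit 76) (nat_lit 20702823203) (nat_lit 18) (nat_lit 5) (nat_lit 20) (nat_lit 5) (nat_lit 19) (nat_lit 4) (nat_lit 359) (nat_lit 327) (nat_lit 214)) (XT.lf (nat_lit 0) (nat_lit 57990022636) (nat_lit 152) (nat_lit 33821803662) (nat_lit 76)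 (nat_lit 64374958906) (nat_lit 18) (nat_lit 5) (nat_lit 20) (nat_lit 5) (nat_lit 19) (nat_lit 4) (nat_lit 360) (nat_lit 327) (nat_lit 213))) (XT.nd (nat_lit 78) (nat_lit 0) (nat_lit 0) (XT.lf (nat_lit 0) (nat_lit 41557990073) (nat_lit 76) (nat_lit 52673169395) (nat_lit 152) (nat_lit 70981631944) (nat_lit 17) (nat_lit 5) (nat_lit 18) (nat_lit 5) (nat_lit 19) (nat_lit 4) (nat_lit 361) (nat_lit 327) (nat_lit 212)) (XT.lf (nat_lit 0) (nat_lit 124889884089) (nat_lit 76) (nat_lit 9405474280) (nat_lit 152) (nat_lit 40591618619) (nat_lit 17) (nat_lit 5) (nat_lit 18) (nat_lit 5) (nat_lit 19) (nat_lit 4) (nat_lit 362) (nat_lit 327) (nat_lit 211))))) (XT.nd (nat_lit 312) (nat_lit 228) (nat_lit 0) (XT.nd (nat_lit 156) (nat_lit 76) (nat_lit 0) (XT.nd (nat_lit 78) (nat_lit 76) (nat_lit 0) (XT.lf (nat_lit 0) (nat_lit 30162777848) (nat_lit 76) (nat_lit 149024043241) (nat_lit 76) (nat_lit 6018506610) (nat_lit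 16) (nat_lit 4) (nat_lit 17) (nat_lit 5) (nat_lit 17) (nat_lit 4) (nat_lit 363) (nat_lit 327) (nat_lit 210)) (XT.lf (nat_lit 0) (nat_lit 31399575445) (nat_lit 152) (nat_lit 77695721351) (nat_lit 76) (nat_lit 87061917737) (nat_lit 15) (nat_lit 5) (nat_lit 17) (nat_lit 5) (nat_lit 16) (nat_lit 4) (nat_lit 364) (nat_lit 327) (nat_lit 209))) (XT.nd (nat_lit 78) (nat_lit 0) (nat_lit 0) (XT.lf (nat_lit 0) (nat_lit 5980112859) (nat_lit 76) (nat_lit 65648808469) (nat_lit 152) (nat_lit 136332387573) (nat_lit 14) (nat_lit 5) (nat_lit 15) (nat_lit 5) (nat_lit 16) (nat_lit 4) (nat_lit 365) (nat_lit 327) (nat_lit 208)) (XT.lf (nat_lit 0) (nat_lit 100767112763) (nat_lit 76) (nat_lit 16433018111) (nat_lit 152) (nat_lit 103339719048) (nat_lit 14) (nat_lit 5) (nat_lit 15) (nat_lit 5) (nat_lit 16) (nat_lit 4) (nat_lit 366) (nat_lit 327) (nat_lit 207)))) (XT.nd (nat_lit 156) (nat_lit 152) (nat_lit 0) (XT.nd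 (nat_lit 78) (nat_lit 76) (nat_lit 0) (XT.lf (nat_lit 0) (nat_lit 167299377493) (nat_lit 152) (nat_lit 31872177506) (nat_lit 0) (nat_lit 34882532357) (nat_lit 14) (nat_lit 5) (nat_lit 16) (nat_lit 4) (nat_lit 14) (nat_lit 4) (nat_lit 367) (nat_lit 327) (nat_lit 206)) (XT.lf (nat_lit 0) (nat_lit 65930348126) (nat_lit 76) (nat_lit 157487953969) (nat_lit 76) (nat_lit 25070222954) (nat_lit 13) (nat_lit 4) (nat_lit 14) (nat_lit 5) (nat_lit 14) (nat_lit 4) (nat_lit 368) (nat_lit 327) (nat_lit 205))) (XT.nd (nat_lit 78) (nat_lit 76) (nat_lit 0) (XT.lf (nat_lit 0) (nat_lit 19844452062) (nat_lit 152) (nat_lit 91142090982) (nat_lit 76) (nat_lit 152981324232) (nat_lit 12) (nat_lit 5) (nat_lit 14) (nat_lit 5) (nat_lit 13) (nat_lit 4) (nat_lit 369) (nat_lit 327) (nat_lit 204)) (XT.nd (nat_lit 78) (nat_lit 0) (nat_lit 0) (XT.lf (nat_lit 0) (nat_lit 7300030585) (nat_lit 76) (nat_lit 59872729681) (nat_lit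 152) (nat_lit 213446710712) (nat_lit 11) (nat_lit 5) (nat_lit 12) (nat_lit 5) (nat_lit 13) (nat_lit 4) (nat_lit 370) (nat_lit 327) (nat_lit 203)) (XT.lf (nat_lit 0) (nat_lit 118799631368) (nat_lit 76) (nat_lit 1979044293) (nat_lit 152) (nat_lit 177625220153) (nat_lit 11) (nat_lit 5) (nat_lit 12) (nat_lit 5) (nat_lit 13) (nat_lit 4) (nat_lit 371) (nat_lit 327) (nat_lit 202))))))) (XT.nd (nat_lit 624) (nat_lit 228) (nat_lit 0) (XT.nd (nat_lit 312) (nat_lit 76) (nat_lit 0) (XT.nd (nat_lit 156) (nat_lit 76) (nat_lit 0) (XT.nd (nat_lit 78) (nat_lit 76) (nat_lit 0) (XT.lf (nat_lit 0) (nat_lit 180128591372) (nat_lit 152) (nat_lit 79849176947) (nat_lit 0) (nat_lit 57516864375) (nat_lit 11) (nat_lit 5) (nat_lit 13) (nat_lit 4) (nat_lit 11) (nat_lit 4) (nat_lit 372) (nat_lit 327) (nat_lit 201)) (XT.lf (nat_lit 0) (nat_lit 29299514072) (nat_lit 76) (nat_lit 215682480198) (nat_lit 76) (nat_lit 93070194947)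 (nat_lit 10) (nat_lit 4) (nat_lit 11) (nat_lit 5) (nat_lit 11) (nat_lit 4) (nat_lit 373) (nat_lit 327) (nat_lit 200))) (XT.nd (nat_lit 78) (nat_lit 76) (nat_lit 0) (XT.lf (nat_lit 0) (nat_lit 151720141072) (nat_lit 76) (nat_lit 165486198942) (nat_lit 76) (nat_lit 42873396789) (nat_lit 10) (nat_lit 4) (nat_lit 11) (nat_lit 5) (nat_lit 11) (nat_lit 4) (nat_lit 374) (nat_lit 327) (nat_lit 199)) (XT.lf (nat_lit 0) (nat_lit 10771395079) (nat_lit 152) (nat_lit 100208778999) (nat_lit 76) (nat_lit 272867539358) (nat_lit 9) (nat_lit 5) (nat_lit 11) (nat_lit 5) (nat_lit 10) (nat_lit 4) (nat_lit 375) (nat_lit 327) (nat_lit 198)))) (XT.nd (nat_lit 156) (nat_lit 0) (nat_lit 0) (XT.nd (nat_lit 78) (nat_lit 0) (nat_lit 0) (XT.lf (nat_lit 0) (nat_lit 16294707540) (nat_lit 76) (nat_lit 50488192202) (nat_lit 152) (nat_lit 342613828514) (nat_lit 8) (nat_lit 5) (nat_lit 9) (nat_lit 5) (nat_lit 10) (nat_lit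 4) (nat_lit 376) (nat_lit 327) (nat_lit 197)) (XT.lf (nat_lit 0) (nat_lit 130442876087) (nat_lit 152) (nat_lit 289382113920) (nat_lit 0) (nat_lit 16911270292) (nat_lit 8) (nat_lit 5) (nat_lit 10) (nat_lit 4) (nat_lit 8) (nat_lit 4) (nat_lit 377) (nat_lit 327) (nat_lit 196))) (XT.nd (nat_lit 78) (nat_lit 0) (nat_lit 0) (XT.lf (nat_lit 0) (nat_lit 200506589352) (nat_lit 152) (nat_lit 178676858816) (nat_lit 0) (nat_lit 86974631762) (nat_lit 8) (nat_lit 5) (nat_lit 10) (nat_lit 4) (nat_lit 8) (nat_lit 4) (nat_lit 378) (nat_lit 327) (nat_lit 195)) (XT.lf (nat_lit 0) (nat_lit 276174989676) (nat_lit 152) (nat_lit 59115982026) (nat_lit 0) (nat_lit 162642706350) (nat_lit 8) (nat_lit 5) (nat_lit 10) (nat_lit 4) (nat_lit 8) (nat_lit 4) (nat_lit 379) (nat_lit 327) (nat_lit 194))))) (XT.nd (nat_lit 312) (nat_lit 76) (nat_lit 0) (XT.nd (nat_lit 156) (nat_lit 76) (nat_lit 0) (XT.nd (nat_lit 78) (nat_lit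 0) (nat_lit 0) (XT.lf (nat_lit 0) (nat_lit 73695576556) (nat_lit 76) (nat_lit 285973286225) (nat_lit 76) (nat_lit 172440701292) (nat_lit 7) (nat_lit 4) (nat_lit 8) (nat_lit 5) (nat_lit 8) (nat_lit 4) (nat_lit 380) (nat_lit 327) (nat_lit 193)) (XT.lf (nat_lit 0) (nat_lit 220493317270) (nat_lit 76) (nat_lit 230964895331) (nat_lit 76) (nat_lit 117432031132) (nat_lit 7) (nat_lit 4) (nat_lit 8) (nat_lit 5) (nat_lit 8) (nat_lit 4) (nat_lit 381) (nat_lit 327) (nat_lit 192))) (XT.nd (nat_lit 78) (nat_lit 76) (nat_lit 0) (XT.lf (nat_lit 0) (nat_lit 379034209801) (nat_lit 76) (nat_lit 171556159079) (nat_lit 76) (nat_lit 58023036301) (nat_lit 7) (nat_lit 4) (nat_lit 8) (nat_lit 5) (nat_lit 8) (nat_lit 4) (nat_lit 382) (nat_lit 327) (nat_lit 191)) (XT.lf (nat_lit 0) (nat_lit 5831272049) (nat_lit 152) (nat_lit 101404316340) (nat_lit 76) (nat_lit 544267046372) (nat_lit 6) (nat_lit 5) (nat_lit 8) (nat_lit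 5) (nat_lit 7) (nat_lit 4) (nat_lit 383) (nat_lit 327) (nat_lit 190)))) (XT.nd (nat_lit 156) (nat_lit 0) (nat_lit 0) (XT.nd (nat_lit 78) (nat_lit 0) (nat_lit 0) (XT.lf (nat_lit 0) (nat_lit 37387128644) (nat_lit 76) (nat_lit 35170906229) (nat_lit 152) (nat_lit 625072491694) (nat_lit 5) (nat_lit 5) (nat_lit 6) (nat_lit 5) (nat_lit 7) (nat_lit 4) (nat_lit 384) (nat_lit 327) (nat_lit 189)) (XT.lf (nat_lit 0) (nat_lit 148493177347) (nat_lit 152) (nat_lit 555276554858) (nat_lit 0) (nat_lit 43369298493) (nat_lit 5) (nat_lit 5) (nat_lit 7) (nat_lit 4) (nat_lit 5) (nat_lit 4) (nat_lit 385) (nat_lit 327) (nat_lit 188))) (XT.nd (nat_lit 78) (nat_lit 0) (nat_lit 0) (XT.lf (nat_lit 0) (nat_lit 231416384605) (nat_lit 152) (nat_lit 442826440583) (nat_lit 0) (nat_lit 126292329765) (nat_lit 5) (nat_lit 5) (nat_lit 7) (nat_lit 4) (nat_lit 5) (nat_lit 4) (nat_lit 386) (nat_lit 327) (nat_lit 187)) (XT.nd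 (nat_lit 78) (nat_lit 0) (nat_lit 0) (XT.lf (nat_lit 0) (nat_lit 320973192290) (nat_lit 152) (nat_lit 321380822910) (nat_lit 0) (nat_lit 215848974501) (nat_lit 5) (nat_lit 5) (nat_lit 7) (nat_lit 4) (nat_lit 5) (nat_lit 4) (nat_lit 387) (nat_lit 327) (nat_lit 186)) (XT.lf (nat_lit 0) (nat_lit 417694307410) (nat_lit 152) (nat_lit 190220024105) (nat_lit 0) (nat_lit 312569938743) (nat_lit 5) (nat_lit 5) (nat_lit 7) (nat_lit 4) (nat_lit 5) (nat_lit 4) (nat_lit 388) (nat_lit 327) (nat_lit 185))))))))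
noncomputable def xc175 : XT := (XT.nd (nat_lit 1326) (nat_lit 0) (nat_lit 0) (XT.nd (nat_lit 624) (nat_lit 152) (nat_lit 0) (XT.nd (nat_lit 312) (nat_lit 0) (nat_lit 0) (XT.nd (nat_lit 156) (nat_lit 0) (nat_lit 0) (XT.nd (nat_lit 78) (nat_lit 76) (nat_lit 0) (XT.lf (nat_lit 0) (nat_lit 522152892131) (nat_lit 152) (nat_lit 48566794990) (nat_lit 0) (nat_lit 417028383761) (nat_lit 5) (nat_lit 5) (nat_lit 7) (nat_lit 4) (nat_lit 5) (nat_lit 4) (nat_lit 389) (nat_lit 327) (nat_lit 184)) (XT.lf (nat_lit 0) (nat_lit 109916773134) (nat_lit 76) (nat_lit 527694688188) (nat_lit 76) (nat_lit 422570050465) (nat_lit 4) (nat_lit 4) (nat_lit 5) (nat_lit 5) (nat_lit 5) (nat_lit 4) (nat_lit 390) (nat_lit 327) (nat_lit 183))) (XT.nd (nat_lit 78) (nat_lit 0) (nat_lit 0) (XT.lf (nat_lit 0) (nat_lit 283840672063) (nat_lit 76) (nat_lit 479793748539) (nat_lit 76) (nat_lit 374668991043) (nat_lit 4) (nat_lit 4)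 (nat_lit 5) (nat_lit 5) (nat_lit 5) (nat_lit 4) (nat_lit 391) (nat_lit 327) (nat_lit 182)) (XT.lf (nat_lit 0) (nat_lit 471678120580) (nat_lit 76) (nat_lit 428060912997) (nat_lit 76) (nat_lit 322936044600) (nat_lit 4) (nat_lit 4) (nat_lit 5) (nat_lit 5) (nat_lit 5) (nat_lit 4) (nat_lit 392) (nat_lit 327) (nat_lit 181)))) (XT.nd (nat_lit 156) (nat_lit 0) (nat_lit 0) (XT.nd (nat_lit 78) (nat_lit 0) (nat_lit 0) (XT.lf (nat_lit 0) (nat_lit 674542229491) (nat_lit 76) (nat_lit 372189616609) (nat_lit 76) (nat_lit 267064645527) (nat_lit 4) (nat_lit 4) (nat_lit 5) (nat_lit 5) (nat_lit 5) (nat_lit 4) (nat_lit 393) (nat_lit 327) (nat_lit 180)) (XT.lf (nat_lit 0) (nat_lit 893635156479) (nat_lit 76) (nat_lit 311848770213) (nat_lit 76) (nat_lit 206723704052) (nat_lit 4) (nat_lit 4) (nat_lit 5) (nat_lit 5) (nat_lit 5) (nat_lit 4) (nat_lit 394) (nat_lit 327) (nat_lit 179))) (XT.nd (nat_lit 78) (nat_lit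 0) (nat_lit 0) (XT.lf (nat_lit 0) (nat_lit 1130255230000) (nat_lit 76) (nat_lit 246680798423) (nat_lit 76) (nat_lit 141555644226) (nat_lit 4) (nat_lit 4) (nat_lit 5) (nat_lit 5) (nat_lit 5) (nat_lit 4) (nat_lit 395) (nat_lit 327) (nat_lit 178)) (XT.lf (nat_lit 0) (nat_lit 1385804643081) (nat_lit 76) (nat_lit 176299520664) (nat_lit 76) (nat_lit 71174284952) (nat_lit 4) (nat_lit 4) (nat_lit 5) (nat_lit 5) (nat_lit 5) (nat_lit 4) (nat_lit 396) (nat_lit 327) (nat_lit 177))))) (XT.nd (nat_lit 312) (nat_lit 0) (nat_lit 0) (XT.nd (nat_lit 156) (nat_lit 0) (nat_lit 0) (XT.nd (nat_lit 78) (nat_lit 76) (nat_lit 0) (XT.lf (nat_lit 0) (nat_lit 4595459724) (nat_lit 152) (nat_lit 95566754962) (nat_lit 76) (nat_lit 1657076654879) (nat_lit 3) (nat_lit 5) (nat_lit 5) (nat_lit 5) (nat_lit 4) (nat_lit 4) (nat_lit 397) (nat_lit 327) (nat_lit 176)) (XT.lf (nat_lit 0) (nat_lit 70153294340) (nat_lit 76) (nat_lit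 14115299609) (nat_lit 152) (nat_lit 1806564669955) (nat_lit 2) (nat_lit 5) (nat_lit 3) (nat_lit 5) (nat_lit 4) (nat_lit 4) (nat_lit 398) (nat_lit 327) (nat_lit 175))) (XT.nd (nat_lit 78) (nat_lit 0) (nat_lit 0) (XT.lf (nat_lit 0) (nat_lit 174891806238) (nat_lit 152) (nat_lit 1782303874878) (nat_lit 0) (nat_lit 77553430511) (nat_lit 2) (nat_lit 5) (nat_lit 4) (nat_lit 4) (nat_lit 2) (nat_lit 4) (nat_lit 399) (nat_lit 327) (nat_lit 174)) (XT.lf (nat_lit 0) (nat_lit 273131397563) (nat_lit 152) (nat_lit 1741224541501) (nat_lit 0) (nat_lit 175792966359) (nat_lit 2) (nat_lit 5) (nat_lit 4) (nat_lit 4) (nat_lit 2) (nat_lit 4) (nat_lit 400) (nat_lit 327) (nat_lit 173)))) (XT.nd (nat_lit 156) (nat_lit 0) (nat_lit 0) (XT.nd (nat_lit 78) (nat_lit 0) (nat_lit 0) (XT.lf (nat_lit 0) (nat_lit 379230055172) (nat_lit 152) (nat_lit 1696859063054) (nat_lit 0) (nat_lit 281891572599) (nat_lit 2) (nat_lit 5)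 (nat_lit 4) (nat_lit 4) (nat_lit 2) (nat_lit 4) (nat_lit 401) (nat_lit 327) (nat_lit 172)) (XT.lf (nat_lit 0) (nat_lit 493816511849) (nat_lit 152) (nat_lit 1648944532996) (nat_lit 0) (nat_lit 396477981713) (nat_lit 2) (nat_lit 5) (nat_lit 4) (nat_lit 4) (nat_lit 2) (nat_lit 4) (nat_lit 402) (nat_lit 327) (nat_lit 171))) (XT.nd (nat_lit 78) (nat_lit 0) (nat_lit 0) (XT.lf (nat_lit 0) (nat_lit 617569798450) (nat_lit 152) (nat_lit 1597197013372) (nat_lit 0) (nat_lit 520231224274) (nat_lit 2) (nat_lit 5) (nat_lit 4) (nat_lit 4) (nat_lit 2) (nat_lit 4) (nat_lit 403) (nat_lit 327) (nat_lit 170)) (XT.nd (nat_lit 78) (nat_lit 0) (nat_lit 0) (XT.lf (nat_lit 0) (nat_lit 751223267784) (nat_lit 152) (nat_lit 1541309852214) (nat_lit 0) (nat_lit 653884652830) (nat_lit 2) (nat_lit 5) (nat_lit 4) (nat_lit 4) (nat_lit 2) (nat_lit 4) (nat_lit 404) (nat_lit 327) (nat_lit 169)) (XT.lf (nat_lit 0) (nat_lit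 895568940409) (nat_lit 152) (nat_lit 1480951866344) (nat_lit 0) (nat_lit 798230287698) (nat_lit 2) (nat_lit 5) (nat_lit 4) (nat_lit 4) (nat_lit 2) (nat_lit 4) (nat_lit 405) (nat_lit 327) (nat_lit 168))))))) (XT.nd (nat_lit 41106) (nat_lit 0) (nat_lit 3116) (XT.nd (nat_lit 312) (nat_lit 0) (nat_lit 0) (XT.nd (nat_lit 156) (nat_lit 0) (nat_lit 0) (XT.nd (nat_lit 78) (nat_lit 0) (nat_lit 0) (XT.lf (nat_lit 0) (nat_lit 1051462198091) (nat_lit 152) (nat_lit 1415765378810) (nat_lit 0) (nat_lit 954123510419) (nat_lit 2) (nat_lit 5) (nat_lit 4) (nat_lit 4) (nat_lit 2) (nat_lit 4) (nat_lit 406) (nat_lit 327) (nat_lit 167)) (XT.lf (nat_lit 0) (nat_lit 1219826852725) (nat_lit 152) (nat_lit 1345364099314) (nat_lit 0) (nat_lit 1122488132683) (nat_lit 2) (nat_lit 5) (nat_lit 4) (nat_lit 4) (nat_lit 2) (nat_lit 4) (nat_lit 407) (nat_lit 327) (nat_lit 166))) (XT.nd (nat_lit 78) (nat_lit 0) (nat_lit 0)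 (XT.lf (nat_lit 0) (nat_lit 1401660620784) (nat_lit 152) (nat_lit 1269330835089) (nat_lit 0) (nat_lit 1304321870769) (nat_lit 2) (nat_lit 5) (nat_lit 4) (nat_lit 4) (nat_lit 2) (nat_lit 4) (nat_lit 408) (nat_lit 327) (nat_lit 165)) (XT.lf (nat_lit 0) (nat_lit 1598041035709) (nat_lit 152) (nat_lit 1187215018644) (nat_lit 0) (nat_lit 1500702257941) (nat_lit 2) (nat_lit 5) (nat_lit 4) (nat_lit 4) (nat_lit 2) (nat_lit 4) (nat_lit 409) (nat_lit 327) (nat_lit 164)))) (XT.nd (nat_lit 40560) (nat_lit 0) (nat_lit 3952) (XT.nd (nat_lit 40482) (nat_lit 0) (nat_lit 3952) (XT.lf (nat_lit 0) (nat_lit 1810131833290) (nat_lit 152) (nat_lit 1098530037733) (nat_lit 0) (nat_lit 1712793029826) (nat_lit 2) (nat_lit 5) (nat_lit 4) (nat_lit 4) (nat_lit 2) (nat_lit 4) (nat_lit 410) (nat_lit 327) (nat_lit 163)) (XT.lf (nat_lit 0) (nat_lit 13344962193) (nat_lit 532) (nat_lit 2124482192) (nat_lit 532) (nat_lit 2124482192)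 (nat_lit 54) (nat_lit 3) (nat_lit 61) (nat_lit 3) (nat_lit 61) (nat_lit 5) (nat_lit 328) (nat_lit 328) (nat_lit 244))) (XT.nd (nat_lit 78) (nat_lit 0) (nat_lit 76) (XT.lf (nat_lit 76) (nat_lit 13064617945) (nat_lit 0) (nat_lit 15056160505) (nat_lit 532) (nat_lit 8445438662) (nat_lit 55) (nat_lit 5) (nat_lit 54) (nat_lit 3) (nat_lit 61) (nat_lit 5) (nat_lit 329) (nat_lit 328) (nat_lit 243)) (XT.nd (nat_lit 78) (nat_lit 0) (nat_lit 0) (XT.lf (nat_lit 0) (nat_lit 29830807546) (nat_lit 456) (nat_lit 6097335682) (nat_lit 532) (nat_lit 2113539385) (nat_lit 55) (nat_lit 5) (nat_lit 61) (nat_lit 5) (nat_lit 62) (nat_lit 5) (nat_lit 330) (nat_lit 328) (nat_lit 242)) (XT.lf (nat_lit 76) (nat_lit 12953156360) (nat_lit 0) (nat_lit 19422517660) (nat_lit 532) (nat_lit 7203676828) (nat_lit 56) (nat_lit 5) (nat_lit 55) (nat_lit 5) (nat_lit 62) (nat_lit 5) (nat_lit 331) (nat_lit 328) (nat_lit 241))))))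 (XT.nd (nat_lit 312) (nat_lit 532) (nat_lit 0) (XT.nd (nat_lit 156) (nat_lit 380) (nat_lit 0) (XT.nd (nat_lit 78) (nat_lit 0) (nat_lit 76) (XT.lf (nat_lit 76) (nat_lit 33871512160) (nat_lit 0) (nat_lit 1415038832) (nat_lit 532) (nat_lit 5940495543) (nat_lit 56) (nat_lit 5) (nat_lit 55) (nat_lit 5) (nat_lit 62) (nat_lit 5) (nat_lit 332) (nat_lit 328) (nat_lit 240)) (XT.lf (nat_lit 76) (nat_lit 13705620086) (nat_lit 0) (nat_lit 25484050743) (nat_lit 532) (nat_lit 3756144347) (nat_lit 57) (nat_lit 5) (nat_lit 56) (nat_lit 5) (nat_lit 63) (nat_lit 5) (nat_lit 333) (nat_lit 328) (nat_lit 239))) (XT.nd (nat_lit 78) (nat_lit 456) (nat_lit 0) (XT.lf (nat_lit 76) (nat_lit 36828296738) (nat_lit 0) (nat_lit 6809957838) (nat_lit 532) (nat_lit 1145180177) (nat_lit 57) (nat_lit 5) (nat_lit 56) (nat_lit 5) (nat_lit 63) (nat_lit 5) (nat_lit 334) (nat_lit 328) (nat_lit 238)) (XT.lf (nat_lit 0) (nat_lit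 2299004311) (nat_lit 532) (nat_lit 31288149750) (nat_lit 76) (nat_lit 13121044112) (nat_lit 50) (nat_lit 5) (nat_lit 57) (nat_lit 5) (nat_lit 51) (nat_lit 5) (nat_lit 335) (nat_lit 328) (nat_lit 237)))) (XT.nd (nat_lit 156) (nat_lit 228) (nat_lit 0) (XT.nd (nat_lit 78) (nat_lit 304) (nat_lit 0) (XT.lf (nat_lit 0) (nat_lit 6353554743) (nat_lit 532) (nat_lit 7867328645) (nat_lit 76) (nat_lit 34531948861) (nat_lit 50) (nat_lit 5) (nat_lit 57) (nat_lit 5) (nat_lit 51) (nat_lit 5) (nat_lit 336) (nat_lit 328) (nat_lit 236)) (XT.lf (nat_lit 0) (nat_lit 11342966164) (nat_lit 380) (nat_lit 32756722132) (nat_lit 76) (nat_lit 6812513840) (nat_lit 46) (nat_lit 5) (nat_lit 51) (nat_lit 5) (nat_lit 47) (nat_lit 5) (nat_lit 337) (nat_lit 328) (nat_lit 235))) (XT.nd (nat_lit 78) (nat_lit 228) (nat_lit 0) (XT.lf (nat_lit 0) (nat_lit 17318668421) (nat_lit 380) (nat_lit 6897645040) (nat_lit 76) (nat_lit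 28981041606) (nat_lit 46) (nat_lit 5) (nat_lit 51) (nat_lit 5) (nat_lit 47) (nat_lit 5) (nat_lit 338) (nat_lit 328) (nat_lit 234)) (XT.nd (nat_lit 78) (nat_lit 0) (nat_lit 0) (XT.lf (nat_lit 0) (nat_lit 22134541252) (nat_lit 228) (nat_lit 2167509292) (nat_lit 304) (nat_lit 31320903946) (nat_lit 43) (nat_lit 5) (nat_lit 46) (nat_lit 5) (nat_lit 47) (nat_lit 5) (nat_lit 339) (nat_lit 328) (nat_lit 233)) (XT.lf (nat_lit 0) (nat_lit 32555578724) (nat_lit 304) (nat_lit 4874411147) (nat_lit 76) (nat_lit 20755697801) (nat_lit 43) (nat_lit 5) (nat_lit 47) (nat_lit 5) (nat_lit 44) (nat_lit 5) (nat_lit 340) (nat_lit 328) (nat_lit 232))))))))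
noncomputable def xc176 : XT := (XT.nd (nat_lit 1326) (nat_lit 836) (nat_lit 0) (XT.nd (nat_lit 624) (nat_lit 684) (nat_lit 0) (XT.nd (nat_lit 312) (nat_lit 304) (nat_lit 0) (XT.nd (nat_lit 156) (nat_lit 456) (nat_lit 0) (XT.nd (nat_lit 78) (nat_lit 0) (nat_lit 0) (XT.lf (nat_lit 0) (nat_lit 27337141208) (nat_lit 228) (nat_lit 14843612779) (nat_lit 304) (nat_lit 18715779895) (nat_lit 40) (nat_lit 5) (nat_lit 43) (nat_lit 5) (nat_lit 44) (nat_lit 5) (nat_lit 341) (nat_lit 328) (nat_lit 231)) (XT.lf (nat_lit 0) (nat_lit 52940058417) (nat_lit 304) (nat_lit 1646777849) (nat_lit 76) (nat_lit 9208285609) (nat_lit 40) (nat_lit 5) (nat_lit 44) (nat_lit 5) (nat_lit 41) (nat_lit 5) (nat_lit 342) (nat_lit 328) (nat_lit 230))) (XT.nd (nat_lit 78) (nat_lit 304) (nat_lit 0) (XT.lf (nat_lit 0) (nat_lit 34138360630) (nat_lit 152) (nat_lit 31626201603) (nat_lit 228) (nat_lit 1064681323) (nat_lit 38) (nat_lit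 5) (nat_lit 40) (nat_lit 5) (nat_lit 41) (nat_lit 5) (nat_lit 343) (nat_lit 328) (nat_lit 229)) (XT.lf (nat_lit 0) (nat_lit 2678900159) (nat_lit 228) (nat_lit 6462896248) (nat_lit 304) (nat_lit 60937322756) (nat_lit 34) (nat_lit 5) (nat_lit 37) (nat_lit 5) (nat_lit 38) (nat_lit 5) (nat_lit 344) (nat_lit 328) (nat_lit 228)))) (XT.nd (nat_lit 156) (nat_lit 152) (nat_lit 0) (XT.nd (nat_lit 78) (nat_lit 152) (nat_lit 0) (XT.lf (nat_lit 0) (nat_lit 21520466372) (nat_lit 304) (nat_lit 31331880981) (nat_lit 76) (nat_lit 20621372008) (nat_lit 34) (nat_lit 5) (nat_lit 38) (nat_lit 5) (nat_lit 35) (nat_lit 5) (nat_lit 345) (nat_lit 328) (nat_lit 227)) (XT.lf (nat_lit 0) (nat_lit 7843847100) (nat_lit 152) (nat_lit 27400235694) (nat_lit 228) (nat_lit 41867434794) (nat_lit 32) (nat_lit 5) (nat_lit 34) (nat_lit 5) (nat_lit 35) (nat_lit 5) (nat_lit 346) (nat_lit 328) (nat_lit 226))) (XT.nd (nat_lit 78)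 (nat_lit 152) (nat_lit 0) (XT.lf (nat_lit 0) (nat_lit 50944826163) (nat_lit 228) (nat_lit 29063321273) (nat_lit 76) (nat_lit 961855304) (nat_lit 32) (nat_lit 5) (nat_lit 35) (nat_lit 5) (nat_lit 33) (nat_lit 5) (nat_lit 347) (nat_lit 328) (nat_lit 225)) (XT.lf (nat_lit 0) (nat_lit 14361654218) (nat_lit 152) (nat_lit 54595400544) (nat_lit 228) (nat_lit 16095679805) (nat_lit 30) (nat_lit 5) (nat_lit 32) (nat_lit 5) (nat_lit 33) (nat_lit 5) (nat_lit 348) (nat_lit 328) (nat_lit 224))))) (XT.nd (nat_lit 312) (nat_lit 304) (nat_lit 0) (XT.nd (nat_lit 156) (nat_lit 152) (nat_lit 0) (XT.nd (nat_lit 78) (nat_lit 228) (nat_lit 0) (XT.lf (nat_lit 0) (nat_lit 62911091405) (nat_lit 152) (nat_lit 26292212060) (nat_lit 228) (nat_lit 195339910) (nat_lit 30) (nat_lit 5) (nat_lit 32) (nat_lit 5) (nat_lit 33) (nat_lit 5) (nat_lit 349) (nat_lit 328) (nat_lit 223)) (XT.lf (nat_lit 0) (nat_lit 16780992962)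 (nat_lit 228) (nat_lit 72205435967) (nat_lit 76) (nat_lit 5020875618) (nat_lit 27) (nat_lit 5) (nat_lit 30) (nat_lit 5) (nat_lit 28) (nat_lit 5) (nat_lit 350) (nat_lit 328) (nat_lit 222))) (XT.nd (nat_lit 78) (nat_lit 152) (nat_lit 0) (XT.lf (nat_lit 0) (nat_lit 36529338939) (nat_lit 228) (nat_lit 24175046400) (nat_lit 76) (nat_lit 38165911994) (nat_lit 27) (nat_lit 5) (nat_lit 30) (nat_lit 5) (nat_lit 28) (nat_lit 5) (nat_lit 351) (nat_lit 328) (nat_lit 221)) (XT.lf (nat_lit 0) (nat_lit 29154010007) (nat_lit 152) (nat_lit 29403324889) (nat_lit 228) (nat_lit 45509013370) (nat_lit 25) (nat_lit 5) (nat_lit 27) (nat_lit 5) (nat_lit 28) (nat_lit 5) (nat_lit 352) (nat_lit 328) (nat_lit 220)))) (XT.nd (nat_lit 156) (nat_lit 228) (nat_lit 0) (XT.nd (nat_lit 78) (nat_lit 76) (nat_lit 0) (XT.lf (nat_lit 0) (nat_lit 83130251112) (nat_lit 228) (nat_lit 21626188453) (nat_lit 76) (nat_lit 4859030475)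 (nat_lit 25) (nat_lit 5) (nat_lit 28) (nat_lit 5) (nat_lit 26) (nat_lit 4) (nat_lit 353) (nat_lit 328) (nat_lit 219)) (XT.lf (nat_lit 0) (nat_lit 37008404715) (nat_lit 76) (nat_lit 74313130501) (nat_lit 152) (nat_lit 4154784694) (nat_lit 24) (nat_lit 5) (nat_lit 25) (nat_lit 5) (nat_lit 26) (nat_lit 4) (nat_lit 354) (nat_lit 328) (nat_lit 218))) (XT.nd (nat_lit 78) (nat_lit 152) (nat_lit 0) (XT.lf (nat_lit 0) (nat_lit 19568927662) (nat_lit 152) (nat_lit 20692565391) (nat_lit 76) (nat_lit 81457704376) (nat_lit 23) (nat_lit 5) (nat_lit 25) (nat_lit 5) (nat_lit 24) (nat_lit 5) (nat_lit 355) (nat_lit 328) (nat_lit 217)) (XT.nd (nat_lit 78) (nat_lit 0) (nat_lit 0) (XT.lf (nat_lit 0) (nat_lit 43785316322) (nat_lit 152) (nat_lit 2232654318) (nat_lit 228) (nat_lit 82350750087) (nat_lit 21) (nat_lit 5) (nat_lit 23) (nat_lit 5) (nat_lit 24) (nat_lit 5) (nat_lit 356) (nat_lit 328) (nat_lit 216))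 (XT.lf (nat_lit 0) (nat_lit 76096354198) (nat_lit 228) (nat_lit 21857394063) (nat_lit 76) (nat_lit 37475385083) (nat_lit 21) (nat_lit 5) (nat_lit 24) (nat_lit 5) (nat_lit 22) (nat_lit 4) (nat_lit 357) (nat_lit 328) (nat_lit 215))))))) (XT.nd (nat_lit 624) (nat_lit 380) (nat_lit 0) (XT.nd (nat_lit 312) (nat_lit 228) (nat_lit 0) (XT.nd (nat_lit 156) (nat_lit 152) (nat_lit 0) (XT.nd (nat_lit 78) (nat_lit 0) (nat_lit 0) (XT.lf (nat_lit 0) (nat_lit 48240092193) (nat_lit 76) (nat_lit 61558049048) (nat_lit 152) (nat_lit 33158867868) (nat_lit 20) (nat_lit 5) (nat_lit 21) (nat_lit 5) (nat_lit 22) (nat_lit 4) (nat_lit 358) (nat_lit 328) (nat_lit 214)) (XT.lf (nat_lit 0) (nat_lit 125186693071) (nat_lit 76) (nat_lit 21605999337) (nat_lit 152) (nat_lit 4246693541) (nat_lit 20) (nat_lit 5) (nat_lit 21) (nat_lit 5) (nat_lit 22) (nat_lit 4) (nat_lit 359) (nat_lit 328) (nat_lit 213))) (XT.nd (nat_lit 78)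 (nat_lit 0) (nat_lit 0) (XT.lf (nat_lit 0) (nat_lit 27406241665) (nat_lit 152) (nat_lit 109795035562) (nat_lit 76) (nat_lit 22372981038) (nat_lit 18) (nat_lit 5) (nat_lit 20) (nat_lit 5) (nat_lit 19) (nat_lit 4) (nat_lit 360) (nat_lit 328) (nat_lit 212)) (XT.lf (nat_lit 0) (nat_lit 62647458500) (nat_lit 152) (nat_lit 36494944244) (nat_lit 76) (nat_lit 69537855598) (nat_lit 18) (nat_lit 5) (nat_lit 20) (nat_lit 5) (nat_lit 19) (nat_lit 4) (nat_lit 361) (nat_lit 328) (nat_lit 211)))) (XT.nd (nat_lit 156) (nat_lit 152) (nat_lit 0) (XT.nd (nat_lit 78) (nat_lit 0) (nat_lit 0) (XT.lf (nat_lit 0) (nat_lit 44914407579) (nat_lit 76) (nat_lit 56872892298) (nat_lit 152) (nat_lit 76641092894) (nat_lit 17) (nat_lit 5) (nat_lit 18) (nat_lit 5) (nat_lit 19) (nat_lit 4) (nat_lit 362) (nat_lit 328) (nat_lit 210)) (XT.lf (nat_lit 0) (nat_lit 134910499168) (nat_lit 76) (nat_lit 10144828289) (nat_lit 152)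 (nat_lit 43821291066) (nat_lit 17) (nat_lit 5) (nat_lit 18) (nat_lit 5) (nat_lit 19) (nat_lit 4) (nat_lit 363) (nat_lit 328) (nat_lit 209))) (XT.nd (nat_lit 78) (nat_lit 76) (nat_lit 0) (XT.lf (nat_lit 0) (nat_lit 32605456097) (nat_lit 76) (nat_lit 160932445284) (nat_lit 76) (nat_lit 6482553070) (nat_lit 16) (nat_lit 4) (nat_lit 17) (nat_lit 5) (nat_lit 17) (nat_lit 4) (nat_lit 364) (nat_lit 328) (nat_lit 208)) (XT.lf (nat_lit 0) (nat_lit 33926876615) (nat_lit 152) (nat_lit 83883104805) (nat_lit 76) (nat_lit 94038576010) (nat_lit 15) (nat_lit 5) (nat_lit 17) (nat_lit 5) (nat_lit 16) (nat_lit 4) (nat_lit 365) (nat_lit 328) (nat_lit 207))))) (XT.nd (nat_lit 312) (nat_lit 228) (nat_lit 0) (XT.nd (nat_lit 156) (nat_lit 76) (nat_lit 0) (XT.nd (nat_lit 78) (nat_lit 0) (nat_lit 0) (XT.lf (nat_lit 0) (nat_lit 6486080339) (nat_lit 76) (nat_lit 70888016677) (nat_lit 152) (nat_lit 147222920737) (nat_lit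 14) (nat_lit 5) (nat_lit 15) (nat_lit 5) (nat_lit 16) (nat_lit 4) (nat_lit 366) (nat_lit 328) (nat_lit 206)) (XT.lf (nat_lit 0) (nat_lit 108853998868) (nat_lit 76) (nat_lit 17735903570) (nat_lit 152) (nat_lit 111592028201) (nat_lit 14) (nat_lit 5) (nat_lit 15) (nat_lit 5) (nat_lit 16) (nat_lit 4) (nat_lit 367) (nat_lit 328) (nat_lit 205))) (XT.nd (nat_lit 78) (nat_lit 76) (nat_lit 0) (XT.lf (nat_lit 0) (nat_lit 180696331234) (nat_lit 152) (nat_lit 34397561308) (nat_lit 0) (nat_lit 37683475601) (nat_lit 14) (nat_lit 5) (nat_lit 16) (nat_lit 4) (nat_lit 14) (nat_lit 4) (nat_lit 368) (nat_lit 328) (nat_lit 204)) (XT.lf (nat_lit 0) (nat_lit 71228548897) (nat_lit 76) (nat_lit 170075829422) (nat_lit 76) (nat_lit 27062214291) (nat_lit 13) (nat_lit 4) (nat_lit 14) (nat_lit 5) (nat_lit 14) (nat_lit 4) (nat_lit 369) (nat_lit 328) (nat_lit 203)))) (XT.nd (nat_lit 156) (nat_lit 76) (nat_lit 0) (XT.nd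 (nat_lit 78) (nat_lit 76) (nat_lit 0) (XT.lf (nat_lit 0) (nat_lit 21443994196) (nat_lit 152) (nat_lit 98410810440) (nat_lit 76) (nat_lit 165229528447) (nat_lit 12) (nat_lit 5) (nat_lit 14) (nat_lit 5) (nat_lit 13) (nat_lit 4) (nat_lit 370) (nat_lit 328) (nat_lit 202)) (XT.lf (nat_lit 0) (nat_lit 7906107490) (nat_lit 76) (nat_lit 64652102609) (nat_lit 152) (nat_lit 230509883887) (nat_lit 11) (nat_lit 5) (nat_lit 12) (nat_lit 5) (nat_lit 13) (nat_lit 4) (nat_lit 371) (nat_lit 328) (nat_lit 201))) (XT.nd (nat_lit 78) (nat_lit 76) (nat_lit 0) (XT.lf (nat_lit 0) (nat_lit 128324041191) (nat_lit 76) (nat_lit 2127696127) (nat_lit 152) (nat_lit 191823604727) (nat_lit 11) (nat_lit 5) (nat_lit 12) (nat_lit 5) (nat_lit 13) (nat_lit 4) (nat_lit 372) (nat_lit 328) (nat_lit 200)) (XT.nd (nat_lit 78) (nat_lit 76) (nat_lit 0) (XT.lf (nat_lit 0) (nat_lit 194549064060) (nat_lit 152) (nat_lit 86217599859)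 (nat_lit 0) (nat_lit 62126720833) (nat_lit 11) (nat_lit 5) (nat_lit 13) (nat_lit 4) (nat_lit 11) (nat_lit 4) (nat_lit 373) (nat_lit 328) (nat_lit 199)) (XT.lf (nat_lit 0) (nat_lit 31662492486) (nat_lit 76) (nat_lit 232927949597) (nat_lit 76) (nat_lit 100505127757) (nat_lit 10) (nat_lit 4) (nat_lit 11) (nat_lit 5) (nat_lit 11) (nat_lit 4) (nat_lit 374) (nat_lit 328) (nat_lit 198))))))))
noncomputable def xc177 : XT := (XT.nd (nat_lit 1326) (nat_lit 152) (nat_lit 0) (XT.nd (nat_lit 624) (nat_lit 228) (nat_lit 0) (XT.nd (nat_lit 312) (nat_lit 76) (nat_lit 0) (XT.nd (nat_lit 156) (nat_lit 76) (nat_lit 0) (XT.nd (nat_lit 78) (nat_lit 76) (nat_lit 0) (XT.lf (nat_lit 0) (nat_lit 163875360958) (nat_lit 76) (nat_lit 178716642063) (nat_lit 76) (nat_lit 46293377064) (nat_lit 10) (nat_lit 4) (nat_lit 11) (nat_lit 5) (nat_lit 11) (nat_lit 4) (nat_lit 375) (nat_lit 328) (nat_lit 197)) (XT.lf (nat_lit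 0) (nat_lit 11641807294) (nat_lit 152) (nat_lit 108208716160) (nat_lit 76) (nat_lit 294704308268) (nat_lit 9) (nat_lit 5) (nat_lit 11) (nat_lit 5) (nat_lit 10) (nat_lit 4) (nat_lit 376) (nat_lit 328) (nat_lit 196))) (XT.nd (nat_lit 78) (nat_lit 0) (nat_lit 0) (XT.lf (nat_lit 0) (nat_lit 17614624868) (nat_lit 76) (nat_lit 54519355967) (nat_lit 152) (nat_lit 370013807215) (nat_lit 8) (nat_lit 5) (nat_lit 9) (nat_lit 5) (nat_lit 10) (nat_lit 4) (nat_lit 377) (nat_lit 328) (nat_lit 195)) (XT.lf (nat_lit 0) (nat_lit 140886305162) (nat_lit 152) (nat_lit 312517100258) (nat_lit 0) (nat_lit 18271113435) (nat_lit 8) (nat_lit 5) (nat_lit 10) (nat_lit 4) (nat_lit 8) (nat_lit 4) (nat_lit 378) (nat_lit 328) (nat_lit 194)))) (XT.nd (nat_lit 156) (nat_lit 76) (nat_lit 0) (XT.nd (nat_lit 78) (nat_lit 0) (nat_lit 0) (XT.lf (nat_lit 0) (nat_lit 216554522970) (nat_lit 152) (nat_lit 192956579024) (nat_lit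 0) (nat_lit 93939029636) (nat_lit 8) (nat_lit 5) (nat_lit 10) (nat_lit 4) (nat_lit 8) (nat_lit 4) (nat_lit 379) (nat_lit 328) (nat_lit 193)) (XT.lf (nat_lit 0) (nat_lit 298275846693) (nat_lit 152) (nat_lit 63831900869) (nat_lit 0) (nat_lit 175660074092) (nat_lit 8) (nat_lit 5) (nat_lit 10) (nat_lit 4) (nat_lit 8) (nat_lit 4) (nat_lit 380) (nat_lit 328) (nat_lit 192))) (XT.nd (nat_lit 78) (nat_lit 0) (nat_lit 0) (XT.lf (nat_lit 0) (nat_lit 79604244179) (nat_lit 76) (nat_lit 308844790647) (nat_lit 76) (nat_lit 186228759467) (nat_lit 7) (nat_lit 4) (nat_lit 8) (nat_lit 5) (nat_lit 8) (nat_lit 4) (nat_lit 381) (nat_lit 328) (nat_lit 191)) (XT.lf (nat_lit 0) (nat_lit 238144839594) (nat_lit 76) (nat_lit 249436199479) (nat_lit 76) (nat_lit 126819928873) (nat_lit 7) (nat_lit 4) (nat_lit 8) (nat_lit 5) (nat_lit 8) (nat_lit 4) (nat_lit 382) (nat_lit 328) (nat_lit 190))))) (XT.nd (nat_lit 312) (nat_lit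 76) (nat_lit 0) (XT.nd (nat_lit 156) (nat_lit 76) (nat_lit 0) (XT.nd (nat_lit 78) (nat_lit 76) (nat_lit 0) (XT.lf (nat_lit 0) (nat_lit 409368110421) (nat_lit 76) (nat_lit 185275200437) (nat_lit 76) (nat_lit 62658708141) (nat_lit 7) (nat_lit 4) (nat_lit 8) (nat_lit 5) (nat_lit 8) (nat_lit 4) (nat_lit 383) (nat_lit 328) (nat_lit 189)) (XT.lf (nat_lit 0) (nat_lit 6303201927) (nat_lit 152) (nat_lit 109506037556) (nat_lit 76) (nat_lit 587813170440) (nat_lit 6) (nat_lit 5) (nat_lit 8) (nat_lit 5) (nat_lit 7) (nat_lit 4) (nat_lit 384) (nat_lit 328) (nat_lit 188))) (XT.nd (nat_lit 78) (nat_lit 0) (nat_lit 0) (XT.lf (nat_lit 0) (nat_lit 40388454063) (nat_lit 76) (nat_lit 37979498673) (nat_lit 152) (nat_lit 675072592682) (nat_lit 5) (nat_lit 5) (nat_lit 6) (nat_lit 5) (nat_lit 7) (nat_lit 4) (nat_lit 385) (nat_lit 328) (nat_lit 187)) (XT.lf (nat_lit 0) (nat_lit 160377628986) (nat_lit 152) (nat_lit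 599688812370) (nat_lit 0) (nat_lit 46843310826) (nat_lit 5) (nat_lit 5) (nat_lit 7) (nat_lit 4) (nat_lit 5) (nat_lit 4) (nat_lit 386) (nat_lit 328) (nat_lit 186)))) (XT.nd (nat_lit 156) (nat_lit 76) (nat_lit 0) (XT.nd (nat_lit 78) (nat_lit 0) (nat_lit 0) (XT.lf (nat_lit 0) (nat_lit 249934322643) (nat_lit 152) (nat_lit 478243419832) (nat_lit 0) (nat_lit 136399853604) (nat_lit 5) (nat_lit 5) (nat_lit 7) (nat_lit 4) (nat_lit 5) (nat_lit 4) (nat_lit 387) (nat_lit 328) (nat_lit 185)) (XT.lf (nat_lit 0) (nat_lit 346655332182) (nat_lit 152) (nat_lit 347082829486) (nat_lit 0) (nat_lit 233120723440) (nat_lit 5) (nat_lit 5) (nat_lit 7) (nat_lit 4) (nat_lit 5) (nat_lit 4) (nat_lit 388) (nat_lit 328) (nat_lit 184))) (XT.nd (nat_lit 78) (nat_lit 76) (nat_lit 0) (XT.lf (nat_lit 0) (nat_lit 451113819141) (nat_lit 152) (nat_lit 205429793389) (nat_lit 0) (nat_lit 337579081045) (nat_lit 5) (nat_lit 5) (nat_lit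 7) (nat_lit 4) (nat_lit 5) (nat_lit 4) (nat_lit 389) (nat_lit 328) (nat_lit 183)) (XT.nd (nat_lit 78) (nat_lit 76) (nat_lit 0) (XT.lf (nat_lit 0) (nat_lit 563928796777) (nat_lit 152) (nat_lit 52444886141) (nat_lit 0) (nat_lit 450393938909) (nat_lit 5) (nat_lit 5) (nat_lit 7) (nat_lit 4) (nat_lit 5) (nat_lit 4) (nat_lit 390) (nat_lit 328) (nat_lit 182)) (XT.lf (nat_lit 0) (nat_lit 118717183828) (nat_lit 76) (nat_lit 569906765588) (nat_lit 76) (nat_lit 456371796820) (nat_lit 4) (nat_lit 4) (nat_lit 5) (nat_lit 5) (nat_lit 5) (nat_lit 4) (nat_lit 391) (nat_lit 328) (nat_lit 181))))))) (XT.nd (nat_lit 624) (nat_lit 0) (nat_lit 0) (XT.nd (nat_lit 312) (nat_lit 152) (nat_lit 0) (XT.nd (nat_lit 156) (nat_lit 0) (nat_lit 0) (XT.nd (nat_lit 78) (nat_lit 0) (nat_lit 0) (XT.lf (nat_lit 0) (nat_lit 306554471053) (nat_lit 76) (nat_lit 518174009853) (nat_lit 76) (nat_lit 404638938399) (nat_lit 4) (nat_lit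 4) (nat_lit 5) (nat_lit 5) (nat_lit 5) (nat_lit 4) (nat_lit 392) (nat_lit 328) (nat_lit 180)) (XT.lf (nat_lit 0) (nat_lit 509418430620) (nat_lit 76) (nat_lit 462302787361) (nat_lit 76) (nat_lit 348767620827) (nat_lit 4) (nat_lit 4) (nat_lit 5) (nat_lit 5) (nat_lit 5) (nat_lit 4) (nat_lit 393) (nat_lit 328) (nat_lit 179))) (XT.nd (nat_lit 78) (nat_lit 0) (nat_lit 0) (XT.lf (nat_lit 0) (nat_lit 728511219326) (nat_lit 76) (nat_lit 401962009386) (nat_lit 76) (nat_lit 288426754817) (nat_lit 4) (nat_lit 4) (nat_lit 5) (nat_lit 5) (nat_lit 5) (nat_lit 4) (nat_lit 394) (nat_lit 328) (nat_lit 178)) (XT.lf (nat_lit 0) (nat_lit 965131164808) (nat_lit 76) (nat_lit 336794100949) (nat_lit 76) (nat_lit 223258764865) (nat_lit 4) (nat_lit 4) (nat_lit 5) (nat_lit 5) (nat_lit 5) (nat_lit 4) (nat_lit 395) (nat_lit 328) (nat_lit 177)))) (XT.nd (nat_lit 156) (nat_lit 152) (nat_lit 0) (XT.nd (nat_lit 78) (nat_lit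 0) (nat_lit 0) (XT.lf (nat_lit 0) (nat_lit 1220680459335) (nat_lit 76) (nat_lit 266412881851) (nat_lit 76) (nat_lit 152877470290) (nat_lit 4) (nat_lit 4) (nat_lit 5) (nat_lit 5) (nat_lit 5) (nat_lit 4) (nat_lit 396) (nat_lit 328) (nat_lit 176)) (XT.lf (nat_lit 0) (nat_lit 1496673469098) (nat_lit 76) (nat_lit 190401278201) (nat_lit 76) (nat_lit 76865796754) (nat_lit 4) (nat_lit 4) (nat_lit 5) (nat_lit 5) (nat_lit 5) (nat_lit 4) (nat_lit 397) (nat_lit 328) (nat_lit 175))) (XT.nd (nat_lit 78) (nat_lit 76) (nat_lit 0) (XT.lf (nat_lit 0) (nat_lit 4965234823) (nat_lit 152) (nat_lit 103207857724) (nat_lit 76) (nat_lit 1789644715086) (nat_lit 3) (nat_lit 5) (nat_lit 5) (nat_lit 5) (nat_lit 4) (nat_lit 4) (nat_lit 398) (nat_lit 328) (nat_lit 174)) (XT.lf (nat_lit 0) (nat_lit 75769688240) (nat_lit 76) (nat_lit 15242472487) (nat_lit 152) (nat_lit 1951087597549) (nat_lit 2) (nat_lit 5) (nat_lit 3)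 (nat_lit 5) (nat_lit 4) (nat_lit 4) (nat_lit 399) (nat_lit 328) (nat_lit 173))))) (XT.nd (nat_lit 312) (nat_lit 0) (nat_lit 0) (XT.nd (nat_lit 156) (nat_lit 0) (nat_lit 0) (XT.nd (nat_lit 78) (nat_lit 0) (nat_lit 0) (XT.lf (nat_lit 0) (nat_lit 188885121654) (nat_lit 152) (nat_lit 1924884251753) (nat_lit 0) (nat_lit 83759509107) (nat_lit 2) (nat_lit 5) (nat_lit 4) (nat_lit 4) (nat_lit 2) (nat_lit 4) (nat_lit 400) (nat_lit 328) (nat_lit 172)) (XT.lf (nat_lit 0) (nat_lit 294983734291) (nat_lit 152) (nat_lit 1880518863048) (nat_lit 0) (nat_lit 189858074181) (nat_lit 2) (nat_lit 5) (nat_lit 4) (nat_lit 4) (nat_lit 2) (nat_lit 4) (nat_lit 401) (nat_lit 328) (nat_lit 171))) (XT.nd (nat_lit 78) (nat_lit 0) (nat_lit 0) (XT.lf (nat_lit 0) (nat_lit 409570149329) (nat_lit 152) (nat_lit 1832604416086) (nat_lit 0) (nat_lit 304444445179) (nat_lit 2) (nat_lit 5) (nat_lit 4) (nat_lit 4) (nat_lit 2) (nat_lit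 4) (nat_lit 402) (nat_lit 328) (nat_lit 170)) (XT.lf (nat_lit 0) (nat_lit 533323397374) (nat_lit 152) (nat_lit 1780856973402) (nat_lit 0) (nat_lit 428197652447) (nat_lit 2) (nat_lit 5) (nat_lit 4) (nat_lit 4) (nat_lit 2) (nat_lit 4) (nat_lit 403) (nat_lit 328) (nat_lit 169)))) (XT.nd (nat_lit 156) (nat_lit 0) (nat_lit 0) (XT.nd (nat_lit 78) (nat_lit 0) (nat_lit 0) (XT.lf (nat_lit 0) (nat_lit 666976831009) (nat_lit 152) (nat_lit 1724969883485) (nat_lit 0) (nat_lit 561851048324) (nat_lit 2) (nat_lit 5) (nat_lit 4) (nat_lit 4) (nat_lit 2) (nat_lit 4) (nat_lit 404) (nat_lit 328) (nat_lit 168)) (XT.lf (nat_lit 0) (nat_lit 811322470579) (nat_lit 152) (nat_lit 1664611963579) (nat_lit 0) (nat_lit 706196652934) (nat_lit 2) (nat_lit 5) (nat_lit 4) (nat_lit 4) (nat_lit 2) (nat_lit 4) (nat_lit 405) (nat_lit 328) (nat_lit 167))) (XT.nd (nat_lit 78) (nat_lit 0) (nat_lit 0) (XT.lf (nat_lit 0) (nat_lit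 967215697654) (nat_lit 152) (nat_lit 1599425537122) (nat_lit 0) (nat_lit 862089847638) (nat_lit 2) (nat_lit 5) (nat_lit 4) (nat_lit 4) (nat_lit 2) (nat_lit 4) (nat_lit 406) (nat_lit 328) (nat_lit 166)) (XT.nd (nat_lit 78) (nat_lit 0) (nat_lit 0) (XT.lf (nat_lit 0) (nat_lit 1135580323949) (nat_lit 152) (nat_lit 1529024314179) (nat_lit 0) (nat_lit 1030454443960) (nat_lit 2) (nat_lit 5) (nat_lit 4) (nat_lit 4) (nat_lit 2) (nat_lit 4) (nat_lit 407) (nat_lit 328) (nat_lit 165)) (XT.lf (nat_lit 0) (nat_lit 1317414065768) (nat_lit 152) (nat_lit 1452991102319) (nat_lit 0) (nat_lit 1212288158026) (nat_lit 2) (nat_lit 5) (nat_lit 4) (nat_lit 4) (nat_lit 2) (nat_lit 4) (nat_lit 408) (nat_lit 328) (nat_lit 164))))))))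
noncomputable def xc178 : XT := (XT.nd (nat_lit 41886) (nat_lit 0) (nat_lit 1216) (XT.nd (nat_lit 41184) (nat_lit 0) (nat_lit 2736) (XT.nd (nat_lit 40872) (nat_lit 0) (nat_lit 4028) (XT.nd (nat_lit 40716) (nat_lit 0) (nat_lit 3952) (XT.nd (nat_lit 40638) (nat_lit 0) (nat_lit 3952) (XT.lf (nat_lit 0) (nat_lit 1513794456396) (nat_lit 152) (nat_lit 1370875334359) (nat_lit 0) (nat_lit 1408668522957) (nat_lit 2) (nat_lit 5) (nat_lit 4) (nat_lit 4) (nat_lit 2) (nat_lit 4) (nat_lit 409) (nat_lit 328) (nat_lit 163)) (XT.lf (nat_lit 0) (nat_lit 14460432162) (nat_lit 532) (nat_lit 2268545627) (nat_lit 532) (nat_lit 2268545627) (nat_lit 54) (nat_lit 3) (nat_lit 61) (nat_lit 3) (nat_lit 61) (nat_lit 5) (nat_lit 329) (nat_lit 329) (nat_lit 242))) (XT.nd (nat_lit 78) (nat_lit 0) (nat_lit 76) (XT.lf (nat_lit 76) (nat_lit 14160266517) (nat_lit 0) (nat_lit 16300041925) (nat_lit 532) (nat_lit 9023854679)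 (nat_lit 55) (nat_lit 5) (nat_lit 54) (nat_lit 3) (nat_lit 61) (nat_lit 5) (nat_lit 330) (nat_lit 329) (nat_lit 241)) (XT.lf (nat_lit 0) (nat_lit 32299605871) (nat_lit 456) (nat_lit 6530698655) (nat_lit 532) (nat_lit 2247976050) (nat_lit 55) (nat_lit 5) (nat_lit 61) (nat_lit 5) (nat_lit 62) (nat_lit 5) (nat_lit 331) (nat_lit 329) (nat_lit 240)))) (XT.nd (nat_lit 156) (nat_lit 0) (nat_lit 76) (XT.nd (nat_lit 78) (nat_lit 0) (nat_lit 0) (XT.lf (nat_lit 76) (nat_lit 14042454930) (nat_lit 0) (nat_lit 21000783698) (nat_lit 532) (nat_lit 7696120593) (nat_lit 56) (nat_lit 5) (nat_lit 55) (nat_lit 5) (nat_lit 62) (nat_lit 5) (nat_lit 332) (nat_lit 329) (nat_lit 239)) (XT.lf (nat_lit 76) (nat_lit 36630349857) (nat_lit 0) (nat_lit 1550894369) (nat_lit 532) (nat_lit 6338095944) (nat_lit 56) (nat_lit 5) (nat_lit 55) (nat_lit 5) (nat_lit 62) (nat_lit 5) (nat_lit 333) (nat_lit 329) (nat_lit 238))) (XT.nd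 (nat_lit 78) (nat_lit 0) (nat_lit 0) (XT.lf (nat_lit 76) (nat_lit 14856195433) (nat_lit 0) (nat_lit 27535899273) (nat_lit 532) (nat_lit 3983886636) (nat_lit 57) (nat_lit 5) (nat_lit 56) (nat_lit 5) (nat_lit 63) (nat_lit 5) (nat_lit 334) (nat_lit 329) (nat_lit 237)) (XT.lf (nat_lit 76) (nat_lit 39824676902) (nat_lit 0) (nat_lit 7366906752) (nat_lit 532) (nat_lit 1169434167) (nat_lit 57) (nat_lit 5) (nat_lit 56) (nat_lit 5) (nat_lit 63) (nat_lit 5) (nat_lit 335) (nat_lit 329) (nat_lit 236))))) (XT.nd (nat_lit 312) (nat_lit 608) (nat_lit 0) (XT.nd (nat_lit 156) (nat_lit 304) (nat_lit 0) (XT.nd (nat_lit 78) (nat_lit 0) (nat_lit 0) (XT.lf (nat_lit 0) (nat_lit 2543232525) (nat_lit 532) (nat_lit 33733836205) (nat_lit 76) (nat_lit 14162866175) (nat_lit 50) (nat_lit 5) (nat_lit 57) (nat_lit 5) (nat_lit 51) (nat_lit 5) (nat_lit 336) (nat_lit 329) (nat_lit 235)) (XT.lf (nat_lit 0) (nat_lit 6917679742)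 (nat_lit 532) (nat_lit 8443598709) (nat_lit 76) (nat_lit 37287225635) (nat_lit 50) (nat_lit 5) (nat_lit 57) (nat_lit 5) (nat_lit 51) (nat_lit 5) (nat_lit 337) (nat_lit 329) (nat_lit 234))) (XT.nd (nat_lit 78) (nat_lit 0) (nat_lit 0) (XT.lf (nat_lit 0) (nat_lit 12303324513) (nat_lit 380) (nat_lit 35321143100) (nat_lit 76) (nat_lit 7356395998) (nat_lit 46) (nat_lit 5) (nat_lit 51) (nat_lit 5) (nat_lit 47) (nat_lit 5) (nat_lit 338) (nat_lit 329) (nat_lit 233)) (XT.lf (nat_lit 0) (nat_lit 18753162872) (nat_lit 380) (nat_lit 7397496641) (nat_lit 76) (nat_lit 31298488871) (nat_lit 46) (nat_lit 5) (nat_lit 51) (nat_lit 5) (nat_lit 47) (nat_lit 5) (nat_lit 339) (nat_lit 329) (nat_lit 232)))) (XT.nd (nat_lit 156) (nat_lit 380) (nat_lit 0) (XT.nd (nat_lit 78) (nat_lit 0) (nat_lit 0) (XT.lf (nat_lit 0) (nat_lit 23955949111) (nat_lit 228) (nat_lit 2336854755) (nat_lit 304) (nat_lit 33776190386) (nat_lit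 43) (nat_lit 5) (nat_lit 46) (nat_lit 5) (nat_lit 47) (nat_lit 5) (nat_lit 340) (nat_lit 329) (nat_lit 231)) (XT.lf (nat_lit 0) (nat_lit 35203253547) (nat_lit 304) (nat_lit 5214045866) (nat_lit 76) (nat_lit 22419720680) (nat_lit 43) (nat_lit 5) (nat_lit 47) (nat_lit 5) (nat_lit 44) (nat_lit 5) (nat_lit 341) (nat_lit 329) (nat_lit 230))) (XT.nd (nat_lit 78) (nat_lit 152) (nat_lit 0) (XT.lf (nat_lit 0) (nat_lit 29573156800) (nat_lit 228) (nat_lit 16023263436) (nat_lit 304) (nat_lit 20168480337) (nat_lit 40) (nat_lit 5) (nat_lit 43) (nat_lit 5) (nat_lit 44) (nat_lit 5) (nat_lit 342) (nat_lit 329) (nat_lit 229)) (XT.nd (nat_lit 78) (nat_lit 152) (nat_lit 0) (XT.lf (nat_lit 0) (nat_lit 57213591278) (nat_lit 304) (nat_lit 1730175815) (nat_lit 76) (nat_lit 9951843141) (nat_lit 40) (nat_lit 5) (nat_lit 44) (nat_lit 5) (nat_lit 41) (nat_lit 5) (nat_lit 343) (nat_lit 329) (nat_lit 228)) (XT.lf (nat_lit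 0) (nat_lit 36916549836) (nat_lit 152) (nat_lit 34145799683) (nat_lit 228) (nat_lit 1110252685) (nat_lit 38) (nat_lit 5) (nat_lit 40) (nat_lit 5) (nat_lit 41) (nat_lit 5) (nat_lit 344) (nat_lit 329) (nat_lit 227))))))) (XT.nd (nat_lit 624) (nat_lit 684) (nat_lit 0) (XT.nd (nat_lit 312) (nat_lit 380) (nat_lit 0) (XT.nd (nat_lit 156) (nat_lit 152) (nat_lit 0) (XT.nd (nat_lit 78) (nat_lit 0) (nat_lit 0) (XT.lf (nat_lit 0) (nat_lit 2941116635) (nat_lit 228) (nat_lit 6968010805) (nat_lit 304) (nat_lit 65773398502) (nat_lit 34) (nat_lit 5) (nat_lit 37) (nat_lit 5) (nat_lit 38) (nat_lit 5) (nat_lit 345) (nat_lit 329) (nat_lit 226)) (XT.lf (nat_lit 0) (nat_lit 23275690651) (nat_lit 304) (nat_lit 33791634599) (nat_lit 76) (nat_lit 22281564175) (nat_lit 34) (nat_lit 5) (nat_lit 38) (nat_lit 5) (nat_lit 35) (nat_lit 5) (nat_lit 346) (nat_lit 329) (nat_lit 225))) (XT.nd (nat_lit 78) (nat_lit 0) (nat_lit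 0) (XT.lf (nat_lit 0) (nat_lit 8516966998) (nat_lit 152) (nat_lit 29578838439) (nat_lit 228) (nat_lit 45182020353) (nat_lit 32) (nat_lit 5) (nat_lit 34) (nat_lit 5) (nat_lit 35) (nat_lit 5) (nat_lit 347) (nat_lit 329) (nat_lit 224)) (XT.lf (nat_lit 0) (nat_lit 55050522142) (nat_lit 228) (nat_lit 31344032643) (nat_lit 76) (nat_lit 1050604638) (nat_lit 32) (nat_lit 5) (nat_lit 35) (nat_lit 5) (nat_lit 33) (nat_lit 5) (nat_lit 348) (nat_lit 329) (nat_lit 223)))) (XT.nd (nat_lit 156) (nat_lit 228) (nat_lit 0) (XT.nd (nat_lit 78) (nat_lit 0) (nat_lit 0) (XT.lf (nat_lit 0) (nat_lit 15553817992) (nat_lit 152) (nat_lit 58948720392) (nat_lit 228) (nat_lit 17352069238) (nat_lit 30) (nat_lit 5) (nat_lit 32) (nat_lit 5) (nat_lit 33) (nat_lit 5) (nat_lit 349) (nat_lit 329) (nat_lit 222)) (XT.lf (nat_lit 0) (nat_lit 67984007826) (nat_lit 152) (nat_lit 28382336992) (nat_lit 228) (nat_lit 182018073) (nat_lit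 30) (nat_lit 5) (nat_lit 32) (nat_lit 5) (nat_lit 33) (nat_lit 5) (nat_lit 350) (nat_lit 329) (nat_lit 221))) (XT.nd (nat_lit 78) (nat_lit 0) (nat_lit 0) (XT.lf (nat_lit 0) (nat_lit 18150246218) (nat_lit 228) (nat_lit 77939613407) (nat_lit 76) (nat_lit 5435861843) (nat_lit 27) (nat_lit 5) (nat_lit 30) (nat_lit 5) (nat_lit 28) (nat_lit 5) (nat_lit 351) (nat_lit 329) (nat_lit 220)) (XT.lf (nat_lit 0) (nat_lit 39476476627) (nat_lit 228) (nat_lit 26069922855) (nat_lit 76) (nat_lit 41231514745) (nat_lit 27) (nat_lit 5) (nat_lit 30) (nat_lit 5) (nat_lit 28) (nat_lit 5) (nat_lit 352) (nat_lit 329) (nat_lit 219))))) (XT.nd (nat_lit 312) (nat_lit 380) (nat_lit 0) (XT.nd (nat_lit 156) (nat_lit 152) (nat_lit 0) (XT.nd (nat_lit 78) (nat_lit 0) (nat_lit 0) (XT.lf (nat_lit 0) (nat_lit 31524467501) (nat_lit 152) (nat_lit 31741325609) (nat_lit 228) (nat_lit 49123931409) (nat_lit 25) (nat_lit 5) (nat_lit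 27) (nat_lit 5) (nat_lit 28) (nat_lit 5) (nat_lit 353) (nat_lit 329) (nat_lit 218)) (XT.lf (nat_lit 0) (nat_lit 89803092037) (nat_lit 228) (nat_lit 23319500916) (nat_lit 76) (nat_lit 5260300750) (nat_lit 25) (nat_lit 5) (nat_lit 28) (nat_lit 5) (nat_lit 26) (nat_lit 4) (nat_lit 354) (nat_lit 329) (nat_lit 217))) (XT.nd (nat_lit 78) (nat_lit 76) (nat_lit 0) (XT.lf (nat_lit 0) (nat_lit 40004928501) (nat_lit 76) (nat_lit 80243951793) (nat_lit 152) (nat_lit 4463796657) (nat_lit 24) (nat_lit 5) (nat_lit 25) (nat_lit 5) (nat_lit 26) (nat_lit 4) (nat_lit 355) (nat_lit 329) (nat_lit 216)) (XT.lf (nat_lit 0) (nat_lit 21154999014) (nat_lit 152) (nat_lit 22313676278) (nat_lit 76) (nat_lit 87986397266) (nat_lit 23) (nat_lit 5) (nat_lit 25) (nat_lit 5) (nat_lit 24) (nat_lit 5) (nat_lit 356) (nat_lit 329) (nat_lit 215)))) (XT.nd (nat_lit 156) (nat_lit 228) (nat_lit 0) (XT.nd (nat_lit 78) (nat_lit 0)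 (nat_lit 0) (XT.lf (nat_lit 0) (nat_lit 47321567761) (nat_lit 152) (nat_lit 2397678818) (nat_lit 228) (nat_lit 88917369842) (nat_lit 21) (nat_lit 5) (nat_lit 23) (nat_lit 5) (nat_lit 24) (nat_lit 5) (nat_lit 357) (nat_lit 329) (nat_lit 214)) (XT.lf (nat_lit 0) (nat_lit 82202733900) (nat_lit 228) (nat_lit 23573854746) (nat_lit 76) (nat_lit 40485367859) (nat_lit 21) (nat_lit 5) (nat_lit 24) (nat_lit 5) (nat_lit 22) (nat_lit 4) (nat_lit 358) (nat_lit 329) (nat_lit 213))) (XT.nd (nat_lit 78) (nat_lit 152) (nat_lit 0) (XT.lf (nat_lit 0) (nat_lit 52130616972) (nat_lit 76) (nat_lit 66469417055) (nat_lit 152) (nat_lit 35792079717) (nat_lit 20) (nat_lit 5) (nat_lit 21) (nat_lit 5) (nat_lit 22) (nat_lit 4) (nat_lit 359) (nat_lit 329) (nat_lit 212)) (XT.nd (nat_lit 78) (nat_lit 152) (nat_lit 0) (XT.lf (nat_lit 0) (nat_lit 135230626112) (nat_lit 76) (nat_lit 23322186768) (nat_lit 152) (nat_lit 4568375709)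 (nat_lit 20) (nat_lit 5) (nat_lit 21) (nat_lit 5) (nat_lit 22) (nat_lit 4) (nat_lit 360) (nat_lit 329) (nat_lit 211)) (XT.lf (nat_lit 0) (nat_lit 29615624381) (nat_lit 152) (nat_lit 118548449785) (nat_lit 76) (nat_lit 24174763947) (nat_lit 18) (nat_lit 5) (nat_lit 20) (nat_lit 5) (nat_lit 19) (nat_lit 4) (nat_lit 361) (nat_lit 329) (nat_lit 210))))))))
noncomputable def xc179 : XT := (XT.nd (nat_lit 1326) (nat_lit 304) (nat_lit 0) (XT.nd (nat_lit 624) (nat_lit 456) (nat_lit 0) (XT.nd (nat_lit 312) (nat_lit 152) (nat_lit 0) (XT.nd (nat_lit 156) (nat_lit 76) (nat_lit 0) (XT.nd (nat_lit 78) (nat_lit 76) (nat_lit 0) (XT.lf (nat_lit 0) (nat_lit 67674887943) (nat_lit 152) (nat_lit 39386587356) (nat_lit 76) (nat_lit 75111943700) (nat_lit 18) (nat_lit 5) (nat_lit 20) (nat_lit 5) (nat_lit 19) (nat_lit 4) (nat_lit 362) (nat_lit 329) (nat_lit 209)) (XT.lf (nat_lit 0) (nat_lit 48534804957) (nat_lit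 76) (nat_lit 61410608928) (nat_lit 152) (nat_lit 82756031212) (nat_lit 17) (nat_lit 5) (nat_lit 18) (nat_lit 5) (nat_lit 19) (nat_lit 4) (nat_lit 363) (nat_lit 329) (nat_lit 208))) (XT.nd (nat_lit 78) (nat_lit 76) (nat_lit 0) (XT.lf (nat_lit 0) (nat_lit 145728565742) (nat_lit 76) (nat_lit 10945197188) (nat_lit 152) (nat_lit 47311856284) (nat_lit 17) (nat_lit 5) (nat_lit 18) (nat_lit 5) (nat_lit 19) (nat_lit 4) (nat_lit 364) (nat_lit 329) (nat_lit 207)) (XT.lf (nat_lit 0) (nat_lit 35239317843) (nat_lit 76) (nat_lit 173795448472) (nat_lit 76) (nat_lit 6986210412) (nat_lit 16) (nat_lit 4) (nat_lit 17) (nat_lit 5) (nat_lit 17) (nat_lit 4) (nat_lit 365) (nat_lit 329) (nat_lit 206)))) (XT.nd (nat_lit 156) (nat_lit 0) (nat_lit 0) (XT.nd (nat_lit 78) (nat_lit 76) (nat_lit 0) (XT.lf (nat_lit 0) (nat_lit 36654174151) (nat_lit 152) (nat_lit 90569512573) (nat_lit 76) (nat_lit 101571697116) (nat_lit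 15) (nat_lit 5) (nat_lit 17) (nat_lit 5) (nat_lit 16) (nat_lit 4) (nat_lit 366) (nat_lit 329) (nat_lit 205)) (XT.lf (nat_lit 0) (nat_lit 7028593695) (nat_lit 76) (nat_lit 76548172835) (nat_lit 152) (nat_lit 158986987386) (nat_lit 14) (nat_lit 5) (nat_lit 15) (nat_lit 5) (nat_lit 16) (nat_lit 4) (nat_lit 367) (nat_lit 329) (nat_lit 204))) (XT.nd (nat_lit 78) (nat_lit 0) (nat_lit 0) (XT.lf (nat_lit 0) (nat_lit 117584195564) (nat_lit 76) (nat_lit 19144696988) (nat_lit 152) (nat_lit 120506643225) (nat_lit 14) (nat_lit 5) (nat_lit 15) (nat_lit 5) (nat_lit 16) (nat_lit 4) (nat_lit 368) (nat_lit 329) (nat_lit 203)) (XT.lf (nat_lit 0) (nat_lit 195163186174) (nat_lit 152) (nat_lit 37128455377) (nat_lit 0) (nat_lit 40707019095) (nat_lit 14) (nat_lit 5) (nat_lit 16) (nat_lit 4) (nat_lit 14) (nat_lit 4) (nat_lit 369) (nat_lit 329) (nat_lit 202))))) (XT.nd (nat_lit 312) (nat_lit 228) (nat_lit 0) (XT.nd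 (nat_lit 156) (nat_lit 76) (nat_lit 0) (XT.nd (nat_lit 78) (nat_lit 76) (nat_lit 0) (XT.lf (nat_lit 0) (nat_lit 76947214256) (nat_lit 76) (nat_lit 183672327133) (nat_lit 76) (nat_lit 29215508908) (nat_lit 13) (nat_lit 4) (nat_lit 14) (nat_lit 5) (nat_lit 14) (nat_lit 4) (nat_lit 370) (nat_lit 329) (nat_lit 201)) (XT.lf (nat_lit 0) (nat_lit 23169789769) (nat_lit 152) (nat_lit 106264258419) (nat_lit 76) (nat_lit 178456205431) (nat_lit 12) (nat_lit 5) (nat_lit 14) (nat_lit 5) (nat_lit 13) (nat_lit 4) (nat_lit 371) (nat_lit 329) (nat_lit 200))) (XT.nd (nat_lit 78) (nat_lit 0) (nat_lit 0) (XT.lf (nat_lit 0) (nat_lit 8557521379) (nat_lit 76) (nat_lit 69815315530) (nat_lit 152) (nat_lit 248939903267) (nat_lit 11) (nat_lit 5) (nat_lit 12) (nat_lit 5) (nat_lit 13) (nat_lit 4) (nat_lit 372) (nat_lit 329) (nat_lit 199)) (XT.lf (nat_lit 0) (nat_lit 138607487902) (nat_lit 76) (nat_lit 2289619884) (nat_lit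 152) (nat_lit 207159519650) (nat_lit 11) (nat_lit 5) (nat_lit 12) (nat_lit 5) (nat_lit 13) (nat_lit 4) (nat_lit 373) (nat_lit 329) (nat_lit 198)))) (XT.nd (nat_lit 156) (nat_lit 152) (nat_lit 0) (XT.nd (nat_lit 78) (nat_lit 76) (nat_lit 0) (XT.lf (nat_lit 0) (nat_lit 210121721504) (nat_lit 152) (nat_lit 93098280100) (nat_lit 0) (nat_lit 67104152144) (nat_lit 11) (nat_lit 5) (nat_lit 13) (nat_lit 4) (nat_lit 11) (nat_lit 4) (nat_lit 374) (nat_lit 329) (nat_lit 197)) (XT.lf (nat_lit 0) (nat_lit 34211796145) (nat_lit 76) (nat_lit 251554358903) (nat_lit 76) (nat_lit 108536379211) (nat_lit 10) (nat_lit 4) (nat_lit 11) (nat_lit 5) (nat_lit 11) (nat_lit 4) (nat_lit 375) (nat_lit 329) (nat_lit 196))) (XT.nd (nat_lit 78) (nat_lit 152) (nat_lit 0) (XT.lf (nat_lit 0) (nat_lit 177000486372) (nat_lit 76) (nat_lit 193006726520) (nat_lit 76) (nat_lit 49988366889) (nat_lit 10) (nat_lit 4) (nat_lit 11)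 (nat_lit 5) (nat_lit 11) (nat_lit 4) (nat_lit 376) (nat_lit 329) (nat_lit 195)) (XT.nd (nat_lit 78) (nat_lit 76) (nat_lit 0) (XT.lf (nat_lit 0) (nat_lit 12580611247) (nat_lit 152) (nat_lit 116851040030) (nat_lit 76) (nat_lit 318286967882) (nat_lit 9) (nat_lit 5) (nat_lit 11) (nat_lit 5) (nat_lit 10) (nat_lit 4) (nat_lit 377) (nat_lit 329) (nat_lit 194)) (XT.lf (nat_lit 0) (nat_lit 19037804395) (nat_lit 76) (nat_lit 58874138660) (nat_lit 152) (nat_lit 399607086363) (nat_lit 8) (nat_lit 5) (nat_lit 9) (nat_lit 5) (nat_lit 10) (nat_lit 4) (nat_lit 378) (nat_lit 329) (nat_lit 193))))))) (XT.nd (nat_lit 702) (nat_lit 76) (nat_lit 0) (XT.nd (nat_lit 312) (nat_lit 152) (nat_lit 0) (XT.nd (nat_lit 156) (nat_lit 76) (nat_lit 0) (XT.nd (nat_lit 78) (nat_lit 0) (nat_lit 0) (XT.lf (nat_lit 0) (nat_lit 152164067418) (nat_lit 152) (nat_lit 337505108559) (nat_lit 0) (nat_lit 19738753743) (nat_lit 8)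 (nat_lit 5) (nat_lit 10) (nat_lit 4) (nat_lit 8) (nat_lit 4) (nat_lit 379) (nat_lit 329) (nat_lit 192)) (XT.lf (nat_lit 0) (nat_lit 233885234663) (nat_lit 152) (nat_lit 208380735236) (nat_lit 0) (nat_lit 101459662409) (nat_lit 8) (nat_lit 5) (nat_lit 10) (nat_lit 4) (nat_lit 8) (nat_lit 4) (nat_lit 380) (nat_lit 329) (nat_lit 191))) (XT.nd (nat_lit 78) (nat_lit 76) (nat_lit 0) (XT.lf (nat_lit 0) (nat_lit 322143793923) (nat_lit 152) (nat_lit 68926999133) (nat_lit 0) (nat_lit 189717982243) (nat_lit 8) (nat_lit 5) (nat_lit 10) (nat_lit 4) (nat_lit 8) (nat_lit 4) (nat_lit 381) (nat_lit 329) (nat_lit 190)) (XT.lf (nat_lit 0) (nat_lit 85983747550) (nat_lit 76) (nat_lit 333546922530) (nat_lit 76) (nat_lit 201120889160) (nat_lit 7) (nat_lit 4) (nat_lit 8) (nat_lit 5) (nat_lit 8) (nat_lit 4) (nat_lit 382) (nat_lit 329) (nat_lit 189)))) (XT.nd (nat_lit 156) (nat_lit 152) (nat_lit 0) (XT.nd (nat_lit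 78) (nat_lit 0) (nat_lit 0) (XT.lf (nat_lit 0) (nat_lit 257206763647) (nat_lit 76) (nat_lit 269386047874) (nat_lit 76) (nat_lit 136959809235) (nat_lit 7) (nat_lit 4) (nat_lit 8) (nat_lit 5) (nat_lit 8) (nat_lit 4) (nat_lit 383) (nat_lit 329) (nat_lit 188)) (XT.lf (nat_lit 0) (nat_lit 442127130444) (nat_lit 76) (nat_lit 200092542802) (nat_lit 76) (nat_lit 67666114100) (nat_lit 7) (nat_lit 4) (nat_lit 8) (nat_lit 5) (nat_lit 8) (nat_lit 4) (nat_lit 384) (nat_lit 329) (nat_lit 187))) (XT.nd (nat_lit 78) (nat_lit 76) (nat_lit 0) (XT.lf (nat_lit 0) (nat_lit 6812111813) (nat_lit 152) (nat_lit 118257412114) (nat_lit 76) (nat_lit 634842305314) (nat_lit 6) (nat_lit 5) (nat_lit 8) (nat_lit 5) (nat_lit 7) (nat_lit 4) (nat_lit 385) (nat_lit 329) (nat_lit 186)) (XT.nd (nat_lit 78) (nat_lit 0) (nat_lit 0) (XT.lf (nat_lit 0) (nat_lit 43628408240) (nat_lit 76) (nat_lit 41013503238) (nat_lit 152) (nat_lit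 729073514682) (nat_lit 5) (nat_lit 5) (nat_lit 6) (nat_lit 5) (nat_lit 7) (nat_lit 4) (nat_lit 386) (nat_lit 329) (nat_lit 185)) (XT.lf (nat_lit 0) (nat_lit 173212123814) (nat_lit 152) (nat_lit 647655458103) (nat_lit 0) (nat_lit 50594606671) (nat_lit 5) (nat_lit 5) (nat_lit 7) (nat_lit 4) (nat_lit 5) (nat_lit 4) (nat_lit 387) (nat_lit 329) (nat_lit 184)))))) (XT.nd (nat_lit 312) (nat_lit 76) (nat_lit 0) (XT.nd (nat_lit 156) (nat_lit 0) (nat_lit 0) (XT.nd (nat_lit 78) (nat_lit 0) (nat_lit 0) (XT.lf (nat_lit 0) (nat_lit 269933035592) (nat_lit 152) (nat_lit 516495060774) (nat_lit 0) (nat_lit 147315389095) (nat_lit 5) (nat_lit 5) (nat_lit 7) (nat_lit 4) (nat_lit 5) (nat_lit 4) (nat_lit 388) (nat_lit 329) (nat_lit 183)) (XT.lf (nat_lit 0) (nat_lit 374391432032) (nat_lit 152) (nat_lit 374842203397) (nat_lit 0) (nat_lit 251773665762) (nat_lit 5) (nat_lit 5) (nat_lit 7) (nat_lit 4) (nat_lit 5)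 (nat_lit 4) (nat_lit 389) (nat_lit 329) (nat_lit 182))) (XT.nd (nat_lit 78) (nat_lit 0) (nat_lit 0) (XT.lf (nat_lit 0) (nat_lit 487206325854) (nat_lit 152) (nat_lit 221857461630) (nat_lit 0) (nat_lit 364588448684) (nat_lit 5) (nat_lit 5) (nat_lit 7) (nat_lit 4) (nat_lit 5) (nat_lit 4) (nat_lit 390) (nat_lit 329) (nat_lit 181)) (XT.lf (nat_lit 0) (nat_lit 609046249761) (nat_lit 152) (nat_lit 56634259226) (nat_lit 0) (nat_lit 486428269906) (nat_lit 5) (nat_lit 5) (nat_lit 7) (nat_lit 4) (nat_lit 5) (nat_lit 4) (nat_lit 391) (nat_lit 329) (nat_lit 180)))) (XT.nd (nat_lit 156) (nat_lit 0) (nat_lit 0) (XT.nd (nat_lit 78) (nat_lit 0) (nat_lit 0) (XT.lf (nat_lit 0) (nat_lit 128220618927) (nat_lit 76) (nat_lit 615496308159) (nat_lit 76) (nat_lit 492878233224) (nat_lit 4) (nat_lit 4) (nat_lit 5) (nat_lit 5) (nat_lit 5) (nat_lit 4) (nat_lit 392) (nat_lit 329) (nat_lit 179)) (XT.lf (nat_lit 0) (nat_lit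 331084440212) (nat_lit 76) (nat_lit 559625154089) (nat_lit 76) (nat_lit 437006991118) (nat_lit 4) (nat_lit 4) (nat_lit 5) (nat_lit 5) (nat_lit 5) (nat_lit 4) (nat_lit 393) (nat_lit 329) (nat_lit 178))) (XT.nd (nat_lit 78) (nat_lit 0) (nat_lit 0) (XT.lf (nat_lit 0) (nat_lit 550177100880) (nat_lit 76) (nat_lit 499284439468) (nat_lit 76) (nat_lit 376666194982) (nat_lit 4) (nat_lit 4) (nat_lit 5) (nat_lit 5) (nat_lit 5) (nat_lit 4) (nat_lit 394) (nat_lit 329) (nat_lit 177)) (XT.nd (nat_lit 78) (nat_lit 0) (nat_lit 0) (XT.lf (nat_lit 0) (nat_lit 786796927807) (nat_lit 76) (nat_lit 434116589692) (nat_lit 76) (nat_lit 311498269729) (nat_lit 4) (nat_lit 4) (nat_lit 5) (nat_lit 5) (nat_lit 5) (nat_lit 4) (nat_lit 395) (nat_lit 329) (nat_lit 176)) (XT.lf (nat_lit 0) (nat_lit 1042346112562) (nat_lit 76) (nat_lit 363735424909) (nat_lit 76) (nat_lit 241117035060) (nat_lit 4) (nat_lit 4) (nat_lit 5)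 (nat_lit 5) (nat_lit 5) (nat_lit 4) (nat_lit 396) (nat_lit 329) (nat_lit 175))))))))
noncomputable def xc180 : XT := (XT.nd (nat_lit 41964) (nat_lit 0) (nat_lit 2128) (XT.nd (nat_lit 624) (nat_lit 0) (nat_lit 0) (XT.nd (nat_lit 312) (nat_lit 0) (nat_lit 0) (XT.nd (nat_lit 156) (nat_lit 152) (nat_lit 0) (XT.nd (nat_lit 78) (nat_lit 0) (nat_lit 0) (XT.lf (nat_lit 0) (nat_lit 1318339020684) (nat_lit 76) (nat_lit 287723871551) (nat_lit 76) (nat_lit 165105416993) (nat_lit 4) (nat_lit 4) (nat_lit 5) (nat_lit 5) (nat_lit 5) (nat_lit 4) (nat_lit 397) (nat_lit 329) (nat_lit 174)) (XT.lf (nat_lit 0) (nat_lit 1616411165701) (nat_lit 76) (nat_lit 205631490783) (nat_lit 76) (nat_lit 83012976309) (nat_lit 4) (nat_lit 4) (nat_lit 5) (nat_lit 5) (nat_lit 5) (nat_lit 4) (nat_lit 398) (nat_lit 329) (nat_lit 173))) (XT.nd (nat_lit 78) (nat_lit 76) (nat_lit 0) (XT.lf (nat_lit 0) (nat_lit 5364286873) (nat_lit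 152) (nat_lit 111460853254) (nat_lit 76) (nat_lit 1932817945084) (nat_lit 3) (nat_lit 5) (nat_lit 5) (nat_lit 5) (nat_lit 4) (nat_lit 4) (nat_lit 399) (nat_lit 329) (nat_lit 172)) (XT.lf (nat_lit 0) (nat_lit 81834804410) (nat_lit 76) (nat_lit 16460111806) (nat_lit 152) (nat_lit 2107172679768) (nat_lit 2) (nat_lit 5) (nat_lit 3) (nat_lit 5) (nat_lit 4) (nat_lit 4) (nat_lit 400) (nat_lit 329) (nat_lit 171)))) (XT.nd (nat_lit 156) (nat_lit 0) (nat_lit 0) (XT.nd (nat_lit 78) (nat_lit 0) (nat_lit 0) (XT.lf (nat_lit 0) (nat_lit 203997621129) (nat_lit 152) (nat_lit 2078871619880) (nat_lit 0) (nat_lit 90461816607) (nat_lit 2) (nat_lit 5) (nat_lit 4) (nat_lit 4) (nat_lit 2) (nat_lit 4) (nat_lit 401) (nat_lit 329) (nat_lit 170)) (XT.lf (nat_lit 0) (nat_lit 318583997612) (nat_lit 152) (nat_lit 2030957249858) (nat_lit 0) (nat_lit 205048152312) (nat_lit 2) (nat_lit 5) (nat_lit 4) (nat_lit 4) (nat_lit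 2) (nat_lit 4) (nat_lit 402) (nat_lit 329) (nat_lit 169))) (XT.nd (nat_lit 78) (nat_lit 0) (nat_lit 0) (XT.lf (nat_lit 0) (nat_lit 442337209958) (nat_lit 152) (nat_lit 1979209878415) (nat_lit 0) (nat_lit 328801326901) (nat_lit 2) (nat_lit 5) (nat_lit 4) (nat_lit 4) (nat_lit 2) (nat_lit 4) (nat_lit 403) (nat_lit 329) (nat_lit 168)) (XT.lf (nat_lit 0) (nat_lit 575990610537) (nat_lit 152) (nat_lit 1923322854462) (nat_lit 0) (nat_lit 462454692520) (nat_lit 2) (nat_lit 5) (nat_lit 4) (nat_lit 4) (nat_lit 2) (nat_lit 4) (nat_lit 404) (nat_lit 329) (nat_lit 167))))) (XT.nd (nat_lit 312) (nat_lit 0) (nat_lit 0) (XT.nd (nat_lit 156) (nat_lit 0) (nat_lit 0) (XT.nd (nat_lit 78) (nat_lit 0) (nat_lit 0) (XT.lf (nat_lit 0) (nat_lit 720336219501) (nat_lit 152) (nat_lit 1862964995634) (nat_lit 0) (nat_lit 606800269113) (nat_lit 2) (nat_lit 5) (nat_lit 4) (nat_lit 4) (nat_lit 2) (nat_lit 4) (nat_lit 405)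 (nat_lit 329) (nat_lit 166)) (XT.lf (nat_lit 0) (nat_lit 876229418237) (nat_lit 152) (nat_lit 1797778625730) (nat_lit 0) (nat_lit 762693437876) (nat_lit 2) (nat_lit 5) (nat_lit 4) (nat_lit 4) (nat_lit 2) (nat_lit 4) (nat_lit 406) (nat_lit 329) (nat_lit 165))) (XT.nd (nat_lit 78) (nat_lit 0) (nat_lit 0) (XT.lf (nat_lit 0) (nat_lit 1044594018292) (nat_lit 152) (nat_lit 1727377455152) (nat_lit 0) (nat_lit 931058010178) (nat_lit 2) (nat_lit 5) (nat_lit 4) (nat_lit 4) (nat_lit 2) (nat_lit 4) (nat_lit 407) (nat_lit 329) (nat_lit 164)) (XT.lf (nat_lit 0) (nat_lit 1226427735814) (nat_lit 152) (nat_lit 1651344291777) (nat_lit 0) (nat_lit 1112891702003) (nat_lit 2) (nat_lit 5) (nat_lit 4) (nat_lit 4) (nat_lit 2) (nat_lit 4) (nat_lit 408) (nat_lit 329) (nat_lit 163)))) (XT.nd (nat_lit 40794) (nat_lit 0) (nat_lit 3952) (XT.nd (nat_lit 40716) (nat_lit 0) (nat_lit 3952) (XT.lf (nat_lit 0) (nat_lit 1422808103945)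 (nat_lit 152) (nat_lit 1569228568711) (nat_lit 0) (nat_lit 1309272046341) (nat_lit 2) (nat_lit 5) (nat_lit 4) (nat_lit 4) (nat_lit 2) (nat_lit 4) (nat_lit 409) (nat_lit 329) (nat_lit 162)) (XT.lf (nat_lit 0) (nat_lit 15658310111) (nat_lit 532) (nat_lit 2427828367) (nat_lit 532) (nat_lit 2427828367) (nat_lit 54) (nat_lit 3) (nat_lit 61) (nat_lit 3) (nat_lit 61) (nat_lit 5) (nat_lit 330) (nat_lit 330) (nat_lit 240))) (XT.nd (nat_lit 78) (nat_lit 0) (nat_lit 76) (XT.lf (nat_lit 76) (nat_lit 15336365561) (nat_lit 0) (nat_lit 17637814638) (nat_lit 532) (nat_lit 9662413365) (nat_lit 55) (nat_lit 5) (nat_lit 54) (nat_lit 3) (nat_lit 61) (nat_lit 5) (nat_lit 331) (nat_lit 330) (nat_lit 239)) (XT.nd (nat_lit 78) (nat_lit 0) (nat_lit 0) (XT.lf (nat_lit 0) (nat_lit 34954162237) (nat_lit 456) (nat_lit 7006494841) (nat_lit 532) (nat_lit 2398110358) (nat_lit 55) (nat_lit 5) (nat_lit 61) (nat_lit 5)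 (nat_lit 62) (nat_lit 5) (nat_lit 332) (nat_lit 330) (nat_lit 238)) (XT.lf (nat_lit 76) (nat_lit 15211329772) (nat_lit 0) (nat_lit 22701820867) (nat_lit 532) (nat_lit 8239922053) (nat_lit 56) (nat_lit 5) (nat_lit 55) (nat_lit 5) (nat_lit 62) (nat_lit 5) (nat_lit 333) (nat_lit 330) (nat_lit 237))))))) (XT.nd (nat_lit 624) (nat_lit 988) (nat_lit 0) (XT.nd (nat_lit 312) (nat_lit 532) (nat_lit 0) (XT.nd (nat_lit 156) (nat_lit 380) (nat_lit 0) (XT.nd (nat_lit 78) (nat_lit 0) (nat_lit 76) (XT.lf (nat_lit 76) (nat_lit 39602887519) (nat_lit 0) (nat_lit 1694386727) (nat_lit 532) (nat_lit 6778580484) (nat_lit 56) (nat_lit 5) (nat_lit 55) (nat_lit 5) (nat_lit 62) (nat_lit 5) (nat_lit 334) (nat_lit 330) (nat_lit 236)) (XT.lf (nat_lit 76) (nat_lit 16091095165) (nat_lit 0) (nat_lit 29750023332) (nat_lit 532) (nat_lit 4240226803) (nat_lit 57) (nat_lit 5) (nat_lit 56) (nat_lit 5) (nat_lit 63) (nat_lit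 5) (nat_lit 335) (nat_lit 330) (nat_lit 235))) (XT.nd (nat_lit 78) (nat_lit 456) (nat_lit 0) (XT.lf (nat_lit 76) (nat_lit 43053617812) (nat_lit 0) (nat_lit 7966677919) (nat_lit 532) (nat_lit 1205238193) (nat_lit 57) (nat_lit 5) (nat_lit 56) (nat_lit 5) (nat_lit 63) (nat_lit 5) (nat_lit 336) (nat_lit 330) (nat_lit 234)) (XT.lf (nat_lit 0) (nat_lit 2798395404) (nat_lit 532) (nat_lit 36383361409) (nat_lit 76) (nat_lit 15289155529) (nat_lit 50) (nat_lit 5) (nat_lit 57) (nat_lit 5) (nat_lit 51) (nat_lit 5) (nat_lit 337) (nat_lit 330) (nat_lit 233)))) (XT.nd (nat_lit 156) (nat_lit 228) (nat_lit 0) (XT.nd (nat_lit 78) (nat_lit 304) (nat_lit 0) (XT.lf (nat_lit 0) (nat_lit 7518968452) (nat_lit 532) (nat_lit 9073548003) (nat_lit 76) (nat_lit 40263963001) (nat_lit 50) (nat_lit 5) (nat_lit 57) (nat_lit 5) (nat_lit 51) (nat_lit 5) (nat_lit 338) (nat_lit 330) (nat_lit 232)) (XT.lf (nat_lit 0) (nat_lit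 13332961749) (nat_lit 380) (nat_lit 38098723435) (nat_lit 76) (nat_lit 7943948359) (nat_lit 46) (nat_lit 5) (nat_lit 51) (nat_lit 5) (nat_lit 47) (nat_lit 5) (nat_lit 339) (nat_lit 330) (nat_lit 231))) (XT.nd (nat_lit 78) (nat_lit 228) (nat_lit 0) (XT.lf (nat_lit 0) (nat_lit 20295426342) (nat_lit 380) (nat_lit 7944749045) (nat_lit 76) (nat_lit 33801479723) (nat_lit 46) (nat_lit 5) (nat_lit 51) (nat_lit 5) (nat_lit 47) (nat_lit 5) (nat_lit 340) (nat_lit 330) (nat_lit 230)) (XT.lf (nat_lit 0) (nat_lit 25915844587) (nat_lit 228) (nat_lit 2520326386) (nat_lit 304) (nat_lit 36435087851) (nat_lit 43) (nat_lit 5) (nat_lit 46) (nat_lit 5) (nat_lit 47) (nat_lit 5) (nat_lit 341) (nat_lit 330) (nat_lit 229))))) (XT.nd (nat_lit 312) (nat_lit 608) (nat_lit 0) (XT.nd (nat_lit 156) (nat_lit 152) (nat_lit 0) (XT.nd (nat_lit 78) (nat_lit 228) (nat_lit 0) (XT.lf (nat_lit 0) (nat_lit 38056575325) (nat_lit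 304) (nat_lit 5588029813) (nat_lit 76) (nat_lit 24216356510) (nat_lit 43) (nat_lit 5) (nat_lit 47) (nat_lit 5) (nat_lit 44) (nat_lit 5) (nat_lit 342) (nat_lit 330) (nat_lit 228)) (XT.lf (nat_lit 0) (nat_lit 31981056922) (nat_lit 228) (nat_lit 17298404376) (nat_lit 304) (nat_lit 21743754075) (nat_lit 40) (nat_lit 5) (nat_lit 43) (nat_lit 5) (nat_lit 44) (nat_lit 5) (nat_lit 343) (nat_lit 330) (nat_lit 227))) (XT.nd (nat_lit 78) (nat_lit 152) (nat_lit 0) (XT.lf (nat_lit 0) (nat_lit 61823538823) (nat_lit 304) (nat_lit 1827142469) (nat_lit 76) (nat_lit 10753901673) (nat_lit 40) (nat_lit 5) (nat_lit 44) (nat_lit 5) (nat_lit 41) (nat_lit 5) (nat_lit 344) (nat_lit 330) (nat_lit 226)) (XT.lf (nat_lit 0) (nat_lit 39910271934) (nat_lit 152) (nat_lit 36868463274) (nat_lit 228) (nat_lit 1165119587) (nat_lit 38) (nat_lit 5) (nat_lit 40) (nat_lit 5) (nat_lit 41) (nat_lit 5) (nat_lit 345) (nat_lit 330)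 (nat_lit 225)))) (XT.nd (nat_lit 156) (nat_lit 304) (nat_lit 0) (XT.nd (nat_lit 78) (nat_lit 0) (nat_lit 0) (XT.lf (nat_lit 0) (nat_lit 3217476322) (nat_lit 228) (nat_lit 7515234640) (nat_lit 304) (nat_lit 71001911266) (nat_lit 34) (nat_lit 5) (nat_lit 37) (nat_lit 5) (nat_lit 38) (nat_lit 5) (nat_lit 346) (nat_lit 330) (nat_lit 224)) (XT.lf (nat_lit 0) (nat_lit 25166541317) (nat_lit 304) (nat_lit 36454844601) (nat_lit 76) (nat_lit 24073076284) (nat_lit 34) (nat_lit 5) (nat_lit 38) (nat_lit 5) (nat_lit 35) (nat_lit 5) (nat_lit 347) (nat_lit 330) (nat_lit 223))) (XT.nd (nat_lit 78) (nat_lit 152) (nat_lit 0) (XT.lf (nat_lit 0) (nat_lit 9237429407) (nat_lit 152) (nat_lit 31933643361) (nat_lit 228) (nat_lit 48766738681) (nat_lit 32) (nat_lit 5) (nat_lit 34) (nat_lit 5) (nat_lit 35) (nat_lit 5) (nat_lit 348) (nat_lit 330) (nat_lit 222)) (XT.nd (nat_lit 78) (nat_lit 152) (nat_lit 0) (XT.lf (nat_lit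 0) (nat_lit 59480378288) (nat_lit 228) (nat_lit 33813528565) (nat_lit 76) (nat_lit 1144770387) (nat_lit 32) (nat_lit 5) (nat_lit 35) (nat_lit 5) (nat_lit 33) (nat_lit 5) (nat_lit 349) (nat_lit 330) (nat_lit 221)) (XT.lf (nat_lit 0) (nat_lit 16835187421) (nat_lit 152) (nat_lit 63652347623) (nat_lit 228) (nat_lit 18713430120) (nat_lit 30) (nat_lit 5) (nat_lit 32) (nat_lit 5) (nat_lit 33) (nat_lit 5) (nat_lit 350) (nat_lit 330) (nat_lit 220))))))))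
noncomputable def xc181 : XT := (XT.nd (nat_lit 1326) (nat_lit 608) (nat_lit 0) (XT.nd (nat_lit 624) (nat_lit 456) (nat_lit 0) (XT.nd (nat_lit 312) (nat_lit 304) (nat_lit 0) (XT.nd (nat_lit 156) (nat_lit 152) (nat_lit 0) (XT.nd (nat_lit 78) (nat_lit 228) (nat_lit 0) (XT.lf (nat_lit 0) (nat_lit 73457046960) (nat_lit 152) (nat_lit 30641562469) (nat_lit 228) (nat_lit 171760393) (nat_lit 30) (nat_lit 5) (nat_lit 32) (nat_lit 5) (nat_lit 33) (nat_lit 5) (nat_lit 351) (nat_lit 330) (nat_lit 219)) (XT.lf (nat_lit 0) (nat_lit 19625220150) (nat_lit 228) (nat_lit 84138553537) (nat_lit 76) (nat_lit 5882147264) (nat_lit 27) (nat_lit 5) (nat_lit 30) (nat_lit 5) (nat_lit 28) (nat_lit 5) (nat_lit 352) (nat_lit 330) (nat_lit 218))) (XT.nd (nat_lit 78) (nat_lit 152) (nat_lit 0) (XT.lf (nat_lit 0) (nat_lit 42655848678) (nat_lit 228) (nat_lit 28121971366) (nat_lit 76) (nat_lit 44540606734) (nat_lit 27) (nat_lit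 5) (nat_lit 30) (nat_lit 5) (nat_lit 28) (nat_lit 5) (nat_lit 353) (nat_lit 330) (nat_lit 217)) (XT.lf (nat_lit 0) (nat_lit 34079120969) (nat_lit 152) (nat_lit 34268401487) (nat_lit 228) (nat_lit 53031723981) (nat_lit 25) (nat_lit 5) (nat_lit 27) (nat_lit 5) (nat_lit 28) (nat_lit 5) (nat_lit 354) (nat_lit 330) (nat_lit 216)))) (XT.nd (nat_lit 156) (nat_lit 228) (nat_lit 0) (XT.nd (nat_lit 78) (nat_lit 76) (nat_lit 0) (XT.lf (nat_lit 0) (nat_lit 97006561654) (nat_lit 228) (nat_lit 25153525827) (nat_lit 76) (nat_lit 5691882558) (nat_lit 25) (nat_lit 5) (nat_lit 28) (nat_lit 5) (nat_lit 26) (nat_lit 4) (nat_lit 355) (nat_lit 330) (nat_lit 215)) (XT.lf (nat_lit 0) (nat_lit 43236059584) (nat_lit 76) (nat_lit 86651268737) (nat_lit 152) (nat_lit 4800863685) (nat_lit 24) (nat_lit 5) (nat_lit 25) (nat_lit 5) (nat_lit 26) (nat_lit 4) (nat_lit 356) (nat_lit 330) (nat_lit 214))) (XT.nd (nat_lit 78)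 (nat_lit 152) (nat_lit 0) (XT.lf (nat_lit 0) (nat_lit 22865023369) (nat_lit 152) (nat_lit 24069368508) (nat_lit 76) (nat_lit 95035662735) (nat_lit 23) (nat_lit 5) (nat_lit 25) (nat_lit 5) (nat_lit 24) (nat_lit 5) (nat_lit 357) (nat_lit 330) (nat_lit 213)) (XT.lf (nat_lit 0) (nat_lit 51135950703) (nat_lit 152) (nat_lit 2577843736) (nat_lit 228) (nat_lit 96012377870) (nat_lit 21) (nat_lit 5) (nat_lit 23) (nat_lit 5) (nat_lit 24) (nat_lit 5) (nat_lit 358) (nat_lit 330) (nat_lit 212))))) (XT.nd (nat_lit 312) (nat_lit 228) (nat_lit 0) (XT.nd (nat_lit 156) (nat_lit 152) (nat_lit 0) (XT.nd (nat_lit 78) (nat_lit 76) (nat_lit 0) (XT.lf (nat_lit 0) (nat_lit 88794960299) (nat_lit 228) (nat_lit 25432216108) (nat_lit 76) (nat_lit 43734444174) (nat_lit 21) (nat_lit 5) (nat_lit 24) (nat_lit 5) (nat_lit 22) (nat_lit 4) (nat_lit 359) (nat_lit 330) (nat_lit 211)) (XT.lf (nat_lit 0) (nat_lit 56327915955)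 (nat_lit 76) (nat_lit 71775588461) (nat_lit 152) (nat_lit 38638730061) (nat_lit 20) (nat_lit 5) (nat_lit 21) (nat_lit 5) (nat_lit 22) (nat_lit 4) (nat_lit 360) (nat_lit 330) (nat_lit 210))) (XT.nd (nat_lit 78) (nat_lit 152) (nat_lit 0) (XT.lf (nat_lit 0) (nat_lit 146073936965) (nat_lit 76) (nat_lit 25177422859) (nat_lit 152) (nat_lit 4918367958) (nat_lit 20) (nat_lit 5) (nat_lit 21) (nat_lit 5) (nat_lit 22) (nat_lit 4) (nat_lit 361) (nat_lit 330) (nat_lit 209)) (XT.lf (nat_lit 0) (nat_lit 31999349112) (nat_lit 152) (nat_lit 128006443891) (nat_lit 76) (nat_lit 26118985482) (nat_lit 18) (nat_lit 5) (nat_lit 20) (nat_lit 5) (nat_lit 19) (nat_lit 4) (nat_lit 362) (nat_lit 330) (nat_lit 208)))) (XT.nd (nat_lit 156) (nat_lit 152) (nat_lit 0) (XT.nd (nat_lit 78) (nat_lit 76) (nat_lit 0) (XT.lf (nat_lit 0) (nat_lit 73102281552) (nat_lit 152) (nat_lit 42513549643) (nat_lit 76) (nat_lit 81130381066)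 (nat_lit 18) (nat_lit 5) (nat_lit 20) (nat_lit 5) (nat_lit 19) (nat_lit 4) (nat_lit 363) (nat_lit 330) (nat_lit 207)) (XT.lf (nat_lit 0) (nat_lit 52440947353) (nat_lit 76) (nat_lit 66313071194) (nat_lit 152) (nat_lit 89362496979) (nat_lit 17) (nat_lit 5) (nat_lit 18) (nat_lit 5) (nat_lit 19) (nat_lit 4) (nat_lit 364) (nat_lit 330) (nat_lit 206))) (XT.nd (nat_lit 78) (nat_lit 152) (nat_lit 0) (XT.lf (nat_lit 0) (nat_lit 157408478779) (nat_lit 76) (nat_lit 11811195881) (nat_lit 152) (nat_lit 51083826333) (nat_lit 17) (nat_lit 5) (nat_lit 18) (nat_lit 5) (nat_lit 19) (nat_lit 4) (nat_lit 365) (nat_lit 330) (nat_lit 205)) (XT.nd (nat_lit 78) (nat_lit 76) (nat_lit 0) (XT.lf (nat_lit 0) (nat_lit 38080261332) (nat_lit 76) (nat_lit 187689145706) (nat_lit 76) (nat_lit 7532292684) (nat_lit 16) (nat_lit 4) (nat_lit 17) (nat_lit 5) (nat_lit 17) (nat_lit 4) (nat_lit 366) (nat_lit 330) (nat_lit 204))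 (XT.lf (nat_lit 0) (nat_lit 39597779866) (nat_lit 152) (nat_lit 97794291158) (nat_lit 76) (nat_lit 109706036303) (nat_lit 15) (nat_lit 5) (nat_lit 17) (nat_lit 5) (nat_lit 16) (nat_lit 4) (nat_lit 367) (nat_lit 330) (nat_lit 203))))))) (XT.nd (nat_lit 702) (nat_lit 228) (nat_lit 0) (XT.nd (nat_lit 312) (nat_lit 228) (nat_lit 0) (XT.nd (nat_lit 156) (nat_lit 76) (nat_lit 0) (XT.nd (nat_lit 78) (nat_lit 0) (nat_lit 0) (XT.lf (nat_lit 0) (nat_lit 7611137475) (nat_lit 76) (nat_lit 82662694377) (nat_lit 152) (nat_lit 171694143384) (nat_lit 14) (nat_lit 5) (nat_lit 15) (nat_lit 5) (nat_lit 16) (nat_lit 4) (nat_lit 368) (nat_lit 330) (nat_lit 202)) (XT.lf (nat_lit 0) (nat_lit 127009687028) (nat_lit 76) (nat_lit 20667631743) (nat_lit 152) (nat_lit 130136245986) (nat_lit 14) (nat_lit 5) (nat_lit 15) (nat_lit 5) (nat_lit 16) (nat_lit 4) (nat_lit 369) (nat_lit 330) (nat_lit 201))) (XT.nd (nat_lit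 78) (nat_lit 76) (nat_lit 0) (XT.lf (nat_lit 0) (nat_lit 210785799059) (nat_lit 152) (nat_lit 40080804136) (nat_lit 0) (nat_lit 43971181314) (nat_lit 14) (nat_lit 5) (nat_lit 16) (nat_lit 4) (nat_lit 14) (nat_lit 4) (nat_lit 370) (nat_lit 330) (nat_lit 200)) (XT.lf (nat_lit 0) (nat_lit 83120465202) (nat_lit 76) (nat_lit 198357909736) (nat_lit 76) (nat_lit 31542733737) (nat_lit 13) (nat_lit 4) (nat_lit 14) (nat_lit 5) (nat_lit 14) (nat_lit 4) (nat_lit 371) (nat_lit 330) (nat_lit 199)))) (XT.nd (nat_lit 156) (nat_lit 76) (nat_lit 0) (XT.nd (nat_lit 78) (nat_lit 76) (nat_lit 0) (XT.lf (nat_lit 0) (nat_lit 25032182995) (nat_lit 152) (nat_lit 114748752269) (nat_lit 76) (nat_lit 192739830388) (nat_lit 12) (nat_lit 5) (nat_lit 14) (nat_lit 5) (nat_lit 13) (nat_lit 4) (nat_lit 372) (nat_lit 330) (nat_lit 198)) (XT.lf (nat_lit 0) (nat_lit 9258348475) (nat_lit 76) (nat_lit 75392863057) (nat_lit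 152) (nat_lit 268845860847) (nat_lit 11) (nat_lit 5) (nat_lit 12) (nat_lit 5) (nat_lit 13) (nat_lit 4) (nat_lit 373) (nat_lit 330) (nat_lit 197))) (XT.nd (nat_lit 78) (nat_lit 76) (nat_lit 0) (XT.lf (nat_lit 0) (nat_lit 149711110440) (nat_lit 76) (nat_lit 2465680479) (nat_lit 152) (nat_lit 223723730591) (nat_lit 11) (nat_lit 5) (nat_lit 12) (nat_lit 5) (nat_lit 13) (nat_lit 4) (nat_lit 374) (nat_lit 330) (nat_lit 196)) (XT.nd (nat_lit 78) (nat_lit 76) (nat_lit 0) (XT.lf (nat_lit 0) (nat_lit 226938945781) (nat_lit 152) (nat_lit 100531801162) (nat_lit 0) (nat_lit 72478737441) (nat_lit 11) (nat_lit 5) (nat_lit 13) (nat_lit 4) (nat_lit 11) (nat_lit 4) (nat_lit 375) (nat_lit 330) (nat_lit 195)) (XT.lf (nat_lit 0) (nat_lit 36962718111) (nat_lit 76) (nat_lit 271671997515) (nat_lit 76) (nat_lit 117211437381) (nat_lit 10) (nat_lit 4) (nat_lit 11) (nat_lit 5) (nat_lit 11) (nat_lit 4) (nat_lit 376)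 (nat_lit 330) (nat_lit 194)))))) (XT.nd (nat_lit 312) (nat_lit 76) (nat_lit 0) (XT.nd (nat_lit 156) (nat_lit 76) (nat_lit 0) (XT.nd (nat_lit 78) (nat_lit 76) (nat_lit 0) (XT.lf (nat_lit 0) (nat_lit 191173468129) (nat_lit 76) (nat_lit 208441051586) (nat_lit 76) (nat_lit 53980165716) (nat_lit 10) (nat_lit 4) (nat_lit 11) (nat_lit 5) (nat_lit 11) (nat_lit 4) (nat_lit 377) (nat_lit 330) (nat_lit 193)) (XT.lf (nat_lit 0) (nat_lit 13593455353) (nat_lit 152) (nat_lit 126186800340) (nat_lit 76) (nat_lit 343755339367) (nat_lit 9) (nat_lit 5) (nat_lit 11) (nat_lit 5) (nat_lit 10) (nat_lit 4) (nat_lit 378) (nat_lit 330) (nat_lit 192))) (XT.nd (nat_lit 78) (nat_lit 0) (nat_lit 0) (XT.lf (nat_lit 0) (nat_lit 20572839667) (nat_lit 76) (nat_lit 63578269183) (nat_lit 152) (nat_lit 431568944228) (nat_lit 8) (nat_lit 5) (nat_lit 9) (nat_lit 5) (nat_lit 10) (nat_lit 4) (nat_lit 379) (nat_lit 330) (nat_lit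 191)) (XT.lf (nat_lit 0) (nat_lit 164343072306) (nat_lit 152) (nat_lit 364494063438) (nat_lit 0) (nat_lit 21322956267) (nat_lit 8) (nat_lit 5) (nat_lit 10) (nat_lit 4) (nat_lit 8) (nat_lit 4) (nat_lit 380) (nat_lit 330) (nat_lit 190)))) (XT.nd (nat_lit 156) (nat_lit 76) (nat_lit 0) (XT.nd (nat_lit 78) (nat_lit 0) (nat_lit 0) (XT.lf (nat_lit 0) (nat_lit 252601497412) (nat_lit 152) (nat_lit 225040588679) (nat_lit 0) (nat_lit 109581159683) (nat_lit 8) (nat_lit 5) (nat_lit 10) (nat_lit 4) (nat_lit 8) (nat_lit 4) (nat_lit 381) (nat_lit 330) (nat_lit 189)) (XT.lf (nat_lit 0) (nat_lit 347920338156) (nat_lit 152) (nat_lit 74431339271) (nat_lit 0) (nat_lit 204899795158) (nat_lit 8) (nat_lit 5) (nat_lit 10) (nat_lit 4) (nat_lit 8) (nat_lit 4) (nat_lit 382) (nat_lit 330) (nat_lit 188))) (XT.nd (nat_lit 78) (nat_lit 0) (nat_lit 0) (XT.lf (nat_lit 0) (nat_lit 92872018544) (nat_lit 76) (nat_lit 360226002662)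 (nat_lit 76) (nat_lit 217205269600) (nat_lit 7) (nat_lit 4) (nat_lit 8) (nat_lit 5) (nat_lit 8) (nat_lit 4) (nat_lit 383) (nat_lit 330) (nat_lit 187)) (XT.nd (nat_lit 78) (nat_lit 0) (nat_lit 0) (XT.lf (nat_lit 0) (nat_lit 277792166952) (nat_lit 76) (nat_lit 290932604231) (nat_lit 76) (nat_lit 147911695184) (nat_lit 7) (nat_lit 4) (nat_lit 8) (nat_lit 5) (nat_lit 8) (nat_lit 4) (nat_lit 384) (nat_lit 330) (nat_lit 186)) (XT.lf (nat_lit 0) (nat_lit 477505506633) (nat_lit 76) (nat_lit 216095939308) (nat_lit 76) (nat_lit 73074867312) (nat_lit 7) (nat_lit 4) (nat_lit 8) (nat_lit 5) (nat_lit 8) (nat_lit 4) (nat_lit 385) (nat_lit 330) (nat_lit 185))))))))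
noncomputable def xc182 : XT := (XT.nd (nat_lit 1326) (nat_lit 0) (nat_lit 0) (XT.nd (nat_lit 624) (nat_lit 152) (nat_lit 0) (XT.nd (nat_lit 312) (nat_lit 76) (nat_lit 0) (XT.nd (nat_lit 156) (nat_lit 0) (nat_lit 0) (XT.nd (nat_lit 78) (nat_lit 76) (nat_lit 0) (XT.lf (nat_lit 0) (nat_lit 7361070584) (nat_lit 152) (nat_lit 127710196059) (nat_lit 76) (nat_lit 685633188744) (nat_lit 6) (nat_lit 5) (nat_lit 8) (nat_lit 5) (nat_lit 7) (nat_lit 4) (nat_lit 386) (nat_lit 330) (nat_lit 184)) (XT.lf (nat_lit 0) (nat_lit 47126292227) (nat_lit 76) (nat_lit 44290849505) (nat_lit 152) (nat_lit 787395207401) (nat_lit 5) (nat_lit 5) (nat_lit 6) (nat_lit 5) (nat_lit 7) (nat_lit 4) (nat_lit 387) (nat_lit 330) (nat_lit 183))) (XT.nd (nat_lit 78) (nat_lit 0) (nat_lit 0) (XT.lf (nat_lit 0) (nat_lit 187072766995) (nat_lit 152) (nat_lit 699460642302) (nat_lit 0) (nat_lit 54645459651) (nat_lit 5) (nat_lit 5)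 (nat_lit 7) (nat_lit 4) (nat_lit 5) (nat_lit 4) (nat_lit 388) (nat_lit 330) (nat_lit 182)) (XT.lf (nat_lit 0) (nat_lit 291531079621) (nat_lit 152) (nat_lit 557807950406) (nat_lit 0) (nat_lit 159103661377) (nat_lit 5) (nat_lit 5) (nat_lit 7) (nat_lit 4) (nat_lit 5) (nat_lit 4) (nat_lit 389) (nat_lit 330) (nat_lit 181)))) (XT.nd (nat_lit 156) (nat_lit 76) (nat_lit 0) (XT.nd (nat_lit 78) (nat_lit 0) (nat_lit 0) (XT.lf (nat_lit 0) (nat_lit 404345895837) (nat_lit 152) (nat_lit 404823361862) (nat_lit 0) (nat_lit 271918374907) (nat_lit 5) (nat_lit 5) (nat_lit 7) (nat_lit 4) (nat_lit 5) (nat_lit 4) (nat_lit 390) (nat_lit 330) (nat_lit 180)) (XT.lf (nat_lit 0) (nat_lit 526185747887) (nat_lit 152) (nat_lit 239600301332) (nat_lit 0) (nat_lit 393758131878) (nat_lit 5) (nat_lit 5) (nat_lit 7) (nat_lit 4) (nat_lit 5) (nat_lit 4) (nat_lit 391) (nat_lit 330) (nat_lit 179))) (XT.nd (nat_lit 78) (nat_lit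 76) (nat_lit 0) (XT.lf (nat_lit 0) (nat_lit 657772649710) (nat_lit 152) (nat_lit 61159669198) (nat_lit 0) (nat_lit 525344945664) (nat_lit 5) (nat_lit 5) (nat_lit 7) (nat_lit 4) (nat_lit 5) (nat_lit 4) (nat_lit 392) (nat_lit 330) (nat_lit 178)) (XT.lf (nat_lit 0) (nat_lit 138483464252) (nat_lit 76) (nat_lit 664733441931) (nat_lit 76) (nat_lit 532305656371) (nat_lit 4) (nat_lit 4) (nat_lit 5) (nat_lit 5) (nat_lit 5) (nat_lit 4) (nat_lit 393) (nat_lit 330) (nat_lit 177))))) (XT.nd (nat_lit 312) (nat_lit 152) (nat_lit 0) (XT.nd (nat_lit 156) (nat_lit 0) (nat_lit 0) (XT.nd (nat_lit 78) (nat_lit 0) (nat_lit 0) (XT.lf (nat_lit 0) (nat_lit 357576006365) (nat_lit 76) (nat_lit 604392785971) (nat_lit 76) (nat_lit 471964924934) (nat_lit 4) (nat_lit 4) (nat_lit 5) (nat_lit 5) (nat_lit 5) (nat_lit 4) (nat_lit 394) (nat_lit 330) (nat_lit 176)) (XT.lf (nat_lit 0) (nat_lit 594195723520) (nat_lit 76) (nat_lit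 539224990510) (nat_lit 76) (nat_lit 406797059587) (nat_lit 4) (nat_lit 4) (nat_lit 5) (nat_lit 5) (nat_lit 5) (nat_lit 4) (nat_lit 395) (nat_lit 330) (nat_lit 175))) (XT.nd (nat_lit 78) (nat_lit 0) (nat_lit 0) (XT.lf (nat_lit 0) (nat_lit 849744806634) (nat_lit 76) (nat_lit 468843876019) (nat_lit 76) (nat_lit 336415880386) (nat_lit 4) (nat_lit 4) (nat_lit 5) (nat_lit 5) (nat_lit 5) (nat_lit 4) (nat_lit 396) (nat_lit 330) (nat_lit 174)) (XT.lf (nat_lit 0) (nat_lit 1125737620643) (nat_lit 76) (nat_lit 392832369228) (nat_lit 76) (nat_lit 260404313679) (nat_lit 4) (nat_lit 4) (nat_lit 5) (nat_lit 5) (nat_lit 5) (nat_lit 4) (nat_lit 397) (nat_lit 330) (nat_lit 173)))) (XT.nd (nat_lit 156) (nat_lit 152) (nat_lit 0) (XT.nd (nat_lit 78) (nat_lit 0) (nat_lit 0) (XT.lf (nat_lit 0) (nat_lit 1423809678520) (nat_lit 76) (nat_lit 310740031577) (nat_lit 76) (nat_lit 178311920550) (nat_lit 4) (nat_lit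 4) (nat_lit 5) (nat_lit 5) (nat_lit 5) (nat_lit 4) (nat_lit 398) (nat_lit 330) (nat_lit 172)) (XT.lf (nat_lit 0) (nat_lit 1745727333199) (nat_lit 76) (nat_lit 222080389955) (nat_lit 76) (nat_lit 89652227560) (nat_lit 4) (nat_lit 4) (nat_lit 5) (nat_lit 5) (nat_lit 5) (nat_lit 4) (nat_lit 399) (nat_lit 330) (nat_lit 171))) (XT.nd (nat_lit 78) (nat_lit 76) (nat_lit 0) (XT.lf (nat_lit 0) (nat_lit 5795001553) (nat_lit 152) (nat_lit 120374606727) (nat_lit 76) (nat_lit 2087444797693) (nat_lit 3) (nat_lit 5) (nat_lit 5) (nat_lit 5) (nat_lit 4) (nat_lit 4) (nat_lit 400) (nat_lit 330) (nat_lit 170)) (XT.nd (nat_lit 78) (nat_lit 0) (nat_lit 0) (XT.lf (nat_lit 0) (nat_lit 88384624696) (nat_lit 76) (nat_lit 17775413137) (nat_lit 152) (nat_lit 2275744843271) (nat_lit 2) (nat_lit 5) (nat_lit 3) (nat_lit 5) (nat_lit 4) (nat_lit 4) (nat_lit 401) (nat_lit 330) (nat_lit 169)) (XT.lf (nat_lit 0) (nat_lit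 220318879503) (nat_lit 152) (nat_lit 2245178458513) (nat_lit 0) (nat_lit 97700088044) (nat_lit 2) (nat_lit 5) (nat_lit 4) (nat_lit 4) (nat_lit 2) (nat_lit 4) (nat_lit 402) (nat_lit 330) (nat_lit 168))))))) (XT.nd (nat_lit 41340) (nat_lit 0) (nat_lit 3344) (XT.nd (nat_lit 312) (nat_lit 0) (nat_lit 0) (XT.nd (nat_lit 156) (nat_lit 0) (nat_lit 0) (XT.nd (nat_lit 78) (nat_lit 0) (nat_lit 0) (XT.lf (nat_lit 0) (nat_lit 344072058794) (nat_lit 152) (nat_lit 2193431153035) (nat_lit 0) (nat_lit 221453232374) (nat_lit 2) (nat_lit 5) (nat_lit 4) (nat_lit 4) (nat_lit 2) (nat_lit 4) (nat_lit 403) (nat_lit 330) (nat_lit 167)) (XT.lf (nat_lit 0) (nat_lit 477725428766) (nat_lit 152) (nat_lit 2137544190159) (nat_lit 0) (nat_lit 355106569976) (nat_lit 2) (nat_lit 5) (nat_lit 4) (nat_lit 4) (nat_lit 2) (nat_lit 4) (nat_lit 404) (nat_lit 330) (nat_lit 166))) (XT.nd (nat_lit 78) (nat_lit 0) (nat_lit 0) (XT.lf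 (nat_lit 0) (nat_lit 622071009391) (nat_lit 152) (nat_lit 2077186387884) (nat_lit 0) (nat_lit 499452120628) (nat_lit 2) (nat_lit 5) (nat_lit 4) (nat_lit 4) (nat_lit 2) (nat_lit 4) (nat_lit 405) (nat_lit 330) (nat_lit 165)) (XT.lf (nat_lit 0) (nat_lit 777964181887) (nat_lit 152) (nat_lit 2012000070344) (nat_lit 0) (nat_lit 655345265371) (nat_lit 2) (nat_lit 5) (nat_lit 4) (nat_lit 4) (nat_lit 2) (nat_lit 4) (nat_lit 406) (nat_lit 330) (nat_lit 164)))) (XT.nd (nat_lit 156) (nat_lit 0) (nat_lit 0) (XT.nd (nat_lit 78) (nat_lit 0) (nat_lit 0) (XT.lf (nat_lit 0) (nat_lit 946328757645) (nat_lit 152) (nat_lit 1941598948251) (nat_lit 0) (nat_lit 823709815432) (nat_lit 2) (nat_lit 5) (nat_lit 4) (nat_lit 4) (nat_lit 2) (nat_lit 4) (nat_lit 407) (nat_lit 330) (nat_lit 163)) (XT.lf (nat_lit 0) (nat_lit 1128162452671) (nat_lit 152) (nat_lit 1865565829770) (nat_lit 0) (nat_lit 1005543486665) (nat_lit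 2) (nat_lit 5) (nat_lit 4) (nat_lit 4) (nat_lit 2) (nat_lit 4) (nat_lit 408) (nat_lit 330) (nat_lit 162))) (XT.nd (nat_lit 40794) (nat_lit 0) (nat_lit 3952) (XT.lf (nat_lit 0) (nat_lit 1324542799972) (nat_lit 152) (nat_lit 1783450148273) (nat_lit 0) (nat_lit 1201923811935) (nat_lit 2) (nat_lit 5) (nat_lit 4) (nat_lit 4) (nat_lit 2) (nat_lit 4) (nat_lit 409) (nat_lit 330) (nat_lit 161)) (XT.lf (nat_lit 0) (nat_lit 16946162999) (nat_lit 532) (nat_lit 2603020935) (nat_lit 532) (nat_lit 2603020935) (nat_lit 54) (nat_lit 3) (nat_lit 61) (nat_lit 3) (nat_lit 61) (nat_lit 5) (nat_lit 331) (nat_lit 331) (nat_lit 238))))) (XT.nd (nat_lit 312) (nat_lit 608) (nat_lit 0) (XT.nd (nat_lit 156) (nat_lit 0) (nat_lit 76) (XT.nd (nat_lit 78) (nat_lit 0) (nat_lit 76) (XT.lf (nat_lit 76) (nat_lit 16600378477) (nat_lit 0) (nat_lit 19077791592) (nat_lit 532) (nat_lit 10363947512) (nat_lit 55) (nat_lit 5) (nat_lit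 54) (nat_lit 3) (nat_lit 61) (nat_lit 5) (nat_lit 332) (nat_lit 331) (nat_lit 237)) (XT.lf (nat_lit 0) (nat_lit 37811012960) (nat_lit 456) (nat_lit 7527011250) (nat_lit 532) (nat_lit 2564492985) (nat_lit 55) (nat_lit 5) (nat_lit 61) (nat_lit 5) (nat_lit 62) (nat_lit 5) (nat_lit 333) (nat_lit 331) (nat_lit 236))) (XT.nd (nat_lit 78) (nat_lit 0) (nat_lit 0) (XT.lf (nat_lit 76) (nat_lit 16467226593) (nat_lit 0) (nat_lit 24535948766) (nat_lit 532) (nat_lit 8837483284) (nat_lit 56) (nat_lit 5) (nat_lit 55) (nat_lit 5) (nat_lit 62) (nat_lit 5) (nat_lit 334) (nat_lit 331) (nat_lit 235)) (XT.lf (nat_lit 76) (nat_lit 42807220779) (nat_lit 0) (nat_lit 1846587878) (nat_lit 532) (nat_lit 7263799762) (nat_lit 56) (nat_lit 5) (nat_lit 55) (nat_lit 5) (nat_lit 62) (nat_lit 5) (nat_lit 335) (nat_lit 331) (nat_lit 234)))) (XT.nd (nat_lit 156) (nat_lit 760) (nat_lit 0) (XT.nd (nat_lit 78) (nat_lit 0) (nat_lit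 0) (XT.lf (nat_lit 76) (nat_lit 17418166813) (nat_lit 0) (nat_lit 32139672076) (nat_lit 532) (nat_lit 4525972070) (nat_lit 57) (nat_lit 5) (nat_lit 56) (nat_lit 5) (nat_lit 63) (nat_lit 5) (nat_lit 336) (nat_lit 331) (nat_lit 233)) (XT.lf (nat_lit 76) (nat_lit 46534744306) (nat_lit 0) (nat_lit 8612944446) (nat_lit 532) (nat_lit 1252145325) (nat_lit 57) (nat_lit 5) (nat_lit 56) (nat_lit 5) (nat_lit 63) (nat_lit 5) (nat_lit 337) (nat_lit 331) (nat_lit 232))) (XT.nd (nat_lit 78) (nat_lit 304) (nat_lit 0) (XT.lf (nat_lit 0) (nat_lit 3066595121) (nat_lit 532) (nat_lit 39251864949) (nat_lit 76) (nat_lit 16506509560) (nat_lit 50) (nat_lit 5) (nat_lit 57) (nat_lit 5) (nat_lit 51) (nat_lit 5) (nat_lit 338) (nat_lit 331) (nat_lit 231)) (XT.nd (nat_lit 78) (nat_lit 304) (nat_lit 0) (XT.lf (nat_lit 0) (nat_lit 8161530450) (nat_lit 532) (nat_lit 9760389831) (nat_lit 76) (nat_lit 43479729659) (nat_lit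 50) (nat_lit 5) (nat_lit 57) (nat_lit 5) (nat_lit 51) (nat_lit 5) (nat_lit 339) (nat_lit 331) (nat_lit 230)) (XT.lf (nat_lit 0) (nat_lit 14438497245) (nat_lit 380) (nat_lit 41105373785) (nat_lit 76) (nat_lit 8578641767) (nat_lit 46) (nat_lit 5) (nat_lit 51) (nat_lit 5) (nat_lit 47) (nat_lit 5) (nat_lit 340) (nat_lit 331) (nat_lit 229))))))))
noncomputable def xc183 : XT := (XT.nd (nat_lit 1326) (nat_lit 988) (nat_lit 0) (XT.nd (nat_lit 624) (nat_lit 760) (nat_lit 0) (XT.nd (nat_lit 312) (nat_lit 456) (nat_lit 0) (XT.nd (nat_lit 156) (nat_lit 228) (nat_lit 0) (XT.nd (nat_lit 78) (nat_lit 228) (nat_lit 0) (XT.lf (nat_lit 0) (nat_lit 21955077630) (nat_lit 380) (nat_lit 8542136816) (nat_lit 76) (nat_lit 36504836562) (nat_lit 46) (nat_lit 5) (nat_lit 51) (nat_lit 5) (nat_lit 47) (nat_lit 5) (nat_lit 341) (nat_lit 331) (nat_lit 228)) (XT.lf (nat_lit 0) (nat_lit 28026337416) (nat_lit 228) (nat_lit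 2718971744) (nat_lit 304) (nat_lit 39312859756) (nat_lit 43) (nat_lit 5) (nat_lit 46) (nat_lit 5) (nat_lit 47) (nat_lit 5) (nat_lit 342) (nat_lit 331) (nat_lit 227))) (XT.nd (nat_lit 78) (nat_lit 228) (nat_lit 0) (XT.lf (nat_lit 0) (nat_lit 41132875608) (nat_lit 304) (nat_lit 5998086839) (nat_lit 76) (nat_lit 26156286922) (nat_lit 43) (nat_lit 5) (nat_lit 47) (nat_lit 5) (nat_lit 44) (nat_lit 5) (nat_lit 343) (nat_lit 331) (nat_lit 226)) (XT.lf (nat_lit 0) (nat_lit 34575590496) (nat_lit 228) (nat_lit 18676515294) (nat_lit 304) (nat_lit 23450500037) (nat_lit 40) (nat_lit 5) (nat_lit 43) (nat_lit 5) (nat_lit 44) (nat_lit 5) (nat_lit 344) (nat_lit 331) (nat_lit 225)))) (XT.nd (nat_lit 156) (nat_lit 304) (nat_lit 0) (XT.nd (nat_lit 78) (nat_lit 152) (nat_lit 0) (XT.lf (nat_lit 0) (nat_lit 66797594291) (nat_lit 304) (nat_lit 1937779391) (nat_lit 76) (nat_lit 11619281605) (nat_lit 40) (nat_lit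 5) (nat_lit 44) (nat_lit 5) (nat_lit 41) (nat_lit 5) (nat_lit 345) (nat_lit 331) (nat_lit 224)) (XT.lf (nat_lit 0) (nat_lit 43137728557) (nat_lit 152) (nat_lit 39810223957) (nat_lit 228) (nat_lit 1229219662) (nat_lit 38) (nat_lit 5) (nat_lit 40) (nat_lit 5) (nat_lit 41) (nat_lit 5) (nat_lit 346) (nat_lit 331) (nat_lit 223))) (XT.nd (nat_lit 78) (nat_lit 0) (nat_lit 0) (XT.lf (nat_lit 0) (nat_lit 3510085639) (nat_lit 228) (nat_lit 8107693955) (nat_lit 304) (nat_lit 76653464101) (nat_lit 34) (nat_lit 5) (nat_lit 37) (nat_lit 5) (nat_lit 38) (nat_lit 5) (nat_lit 347) (nat_lit 331) (nat_lit 222)) (XT.lf (nat_lit 0) (nat_lit 27204552048) (nat_lit 304) (nat_lit 39336835080) (nat_lit 76) (nat_lit 26006627269) (nat_lit 34) (nat_lit 5) (nat_lit 38) (nat_lit 5) (nat_lit 35) (nat_lit 5) (nat_lit 348) (nat_lit 331) (nat_lit 221))))) (XT.nd (nat_lit 312) (nat_lit 456) (nat_lit 0) (XT.nd (nat_lit 156)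 (nat_lit 152) (nat_lit 0) (XT.nd (nat_lit 78) (nat_lit 0) (nat_lit 0) (XT.lf (nat_lit 0) (nat_lit 10009950037) (nat_lit 152) (nat_lit 34478473588) (nat_lit 228) (nat_lit 52642491956) (nat_lit 32) (nat_lit 5) (nat_lit 34) (nat_lit 5) (nat_lit 35) (nat_lit 5) (nat_lit 349) (nat_lit 331) (nat_lit 220)) (XT.lf (nat_lit 0) (nat_lit 64260940216) (nat_lit 228) (nat_lit 36486009092) (nat_lit 76) (nat_lit 1245026039) (nat_lit 32) (nat_lit 5) (nat_lit 35) (nat_lit 5) (nat_lit 33) (nat_lit 5) (nat_lit 350) (nat_lit 331) (nat_lit 219))) (XT.nd (nat_lit 78) (nat_lit 0) (nat_lit 0) (XT.lf (nat_lit 0) (nat_lit 18213778811) (nat_lit 152) (nat_lit 68734015541) (nat_lit 228) (nat_lit 20187523857) (nat_lit 30) (nat_lit 5) (nat_lit 32) (nat_lit 5) (nat_lit 33) (nat_lit 5) (nat_lit 351) (nat_lit 331) (nat_lit 218)) (XT.lf (nat_lit 0) (nat_lit 79363033307) (nat_lit 152) (nat_lit 33083146827) (nat_lit 228) (nat_lit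 164222824) (nat_lit 30) (nat_lit 5) (nat_lit 32) (nat_lit 5) (nat_lit 33) (nat_lit 5) (nat_lit 352) (nat_lit 331) (nat_lit 217)))) (XT.nd (nat_lit 156) (nat_lit 228) (nat_lit 0) (XT.nd (nat_lit 78) (nat_lit 0) (nat_lit 0) (XT.lf (nat_lit 0) (nat_lit 21214917318) (nat_lit 228) (nat_lit 90838577342) (nat_lit 76) (nat_lit 6362506831) (nat_lit 27) (nat_lit 5) (nat_lit 30) (nat_lit 5) (nat_lit 28) (nat_lit 5) (nat_lit 353) (nat_lit 331) (nat_lit 216)) (XT.lf (nat_lit 0) (nat_lit 46086538384) (nat_lit 228) (nat_lit 30342969374) (nat_lit 76) (nat_lit 48112918038) (nat_lit 27) (nat_lit 5) (nat_lit 30) (nat_lit 5) (nat_lit 28) (nat_lit 5) (nat_lit 354) (nat_lit 331) (nat_lit 215))) (XT.nd (nat_lit 78) (nat_lit 76) (nat_lit 0) (XT.lf (nat_lit 0) (nat_lit 36833482255) (nat_lit 152) (nat_lit 36999388206) (nat_lit 228) (nat_lit 57255295900) (nat_lit 25) (nat_lit 5) (nat_lit 27) (nat_lit 5) (nat_lit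 28) (nat_lit 5) (nat_lit 355) (nat_lit 331) (nat_lit 214)) (XT.nd (nat_lit 78) (nat_lit 76) (nat_lit 0) (XT.lf (nat_lit 0) (nat_lit 104783566570) (nat_lit 228) (nat_lit 27138771574) (nat_lit 76) (nat_lit 6156456197) (nat_lit 25) (nat_lit 5) (nat_lit 28) (nat_lit 5) (nat_lit 26) (nat_lit 4) (nat_lit 356) (nat_lit 331) (nat_lit 213)) (XT.lf (nat_lit 0) (nat_lit 46721296206) (nat_lit 76) (nat_lit 93572911387) (nat_lit 152) (nat_lit 5167754534) (nat_lit 24) (nat_lit 5) (nat_lit 25) (nat_lit 5) (nat_lit 26) (nat_lit 4) (nat_lit 357) (nat_lit 331) (nat_lit 212))))))) (XT.nd (nat_lit 702) (nat_lit 456) (nat_lit 0) (XT.nd (nat_lit 312) (nat_lit 228) (nat_lit 0) (XT.nd (nat_lit 156) (nat_lit 76) (nat_lit 0) (XT.nd (nat_lit 78) (nat_lit 152) (nat_lit 0) (XT.lf (nat_lit 0) (nat_lit 24709335349) (nat_lit 152) (nat_lit 25969710622) (nat_lit 76) (nat_lit 102647392371) (nat_lit 23) (nat_lit 5) (nat_lit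 25) (nat_lit 5) (nat_lit 24) (nat_lit 5) (nat_lit 358) (nat_lit 331) (nat_lit 211)) (XT.lf (nat_lit 0) (nat_lit 55251395965) (nat_lit 152) (nat_lit 2774083763) (nat_lit 228) (nat_lit 103677608874) (nat_lit 21) (nat_lit 5) (nat_lit 23) (nat_lit 5) (nat_lit 24) (nat_lit 5) (nat_lit 359) (nat_lit 331) (nat_lit 210))) (XT.nd (nat_lit 78) (nat_lit 76) (nat_lit 0) (XT.lf (nat_lit 0) (nat_lit 95912281134) (nat_lit 228) (nat_lit 27443176268) (nat_lit 76) (nat_lit 47241984762) (nat_lit 21) (nat_lit 5) (nat_lit 24) (nat_lit 5) (nat_lit 22) (nat_lit 4) (nat_lit 360) (nat_lit 331) (nat_lit 209)) (XT.lf (nat_lit 0) (nat_lit 60857168457) (nat_lit 76) (nat_lit 77507877342) (nat_lit 152) (nat_lit 41715497162) (nat_lit 20) (nat_lit 5) (nat_lit 21) (nat_lit 5) (nat_lit 22) (nat_lit 4) (nat_lit 361) (nat_lit 331) (nat_lit 208)))) (XT.nd (nat_lit 156) (nat_lit 76) (nat_lit 0) (XT.nd (nat_lit 78) (nat_lit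 152) (nat_lit 0) (XT.lf (nat_lit 0) (nat_lit 157781166020) (nat_lit 76) (nat_lit 27182581322) (nat_lit 152) (nat_lit 5298567669) (nat_lit 20) (nat_lit 5) (nat_lit 21) (nat_lit 5) (nat_lit 22) (nat_lit 4) (nat_lit 362) (nat_lit 331) (nat_lit 207)) (XT.lf (nat_lit 0) (nat_lit 34571706832) (nat_lit 152) (nat_lit 138224769864) (nat_lit 76) (nat_lit 28217283831) (nat_lit 18) (nat_lit 5) (nat_lit 20) (nat_lit 5) (nat_lit 19) (nat_lit 4) (nat_lit 363) (nat_lit 331) (nat_lit 206))) (XT.nd (nat_lit 78) (nat_lit 76) (nat_lit 0) (XT.lf (nat_lit 0) (nat_lit 78961954624) (nat_lit 152) (nat_lit 45894087746) (nat_lit 76) (nat_lit 87628940727) (nat_lit 18) (nat_lit 5) (nat_lit 20) (nat_lit 5) (nat_lit 19) (nat_lit 4) (nat_lit 364) (nat_lit 331) (nat_lit 205)) (XT.nd (nat_lit 78) (nat_lit 0) (nat_lit 0) (XT.lf (nat_lit 0) (nat_lit 56656248862) (nat_lit 76) (nat_lit 71609212184) (nat_lit 152) (nat_lit 96499479651)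 (nat_lit 17) (nat_lit 5) (nat_lit 18) (nat_lit 5) (nat_lit 19) (nat_lit 4) (nat_lit 365) (nat_lit 331) (nat_lit 204)) (XT.lf (nat_lit 0) (nat_lit 170019699414) (nat_lit 76) (nat_lit 12747846454) (nat_lit 152) (nat_lit 55159405508) (nat_lit 17) (nat_lit 5) (nat_lit 18) (nat_lit 5) (nat_lit 19) (nat_lit 4) (nat_lit 366) (nat_lit 331) (nat_lit 203)))))) (XT.nd (nat_lit 312) (nat_lit 228) (nat_lit 0) (XT.nd (nat_lit 156) (nat_lit 76) (nat_lit 0) (XT.nd (nat_lit 78) (nat_lit 76) (nat_lit 0) (XT.lf (nat_lit 0) (nat_lit 41145370562) (nat_lit 76) (nat_lit 202695756577) (nat_lit 76) (nat_lit 8123889678) (nat_lit 16) (nat_lit 4) (nat_lit 17) (nat_lit 5) (nat_lit 17) (nat_lit 4) (nat_lit 367) (nat_lit 331) (nat_lit 202)) (XT.lf (nat_lit 0) (nat_lit 42775265991) (nat_lit 152) (nat_lit 105600016874) (nat_lit 76) (nat_lit 118489895250) (nat_lit 15) (nat_lit 5) (nat_lit 17) (nat_lit 5) (nat_lit 16) (nat_lit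 4) (nat_lit 368) (nat_lit 331) (nat_lit 201))) (XT.nd (nat_lit 78) (nat_lit 0) (nat_lit 0) (XT.lf (nat_lit 0) (nat_lit 8237394971) (nat_lit 76) (nat_lit 89267708997) (nat_lit 152) (nat_lit 185419555691) (nat_lit 14) (nat_lit 5) (nat_lit 15) (nat_lit 5) (nat_lit 16) (nat_lit 4) (nat_lit 369) (nat_lit 331) (nat_lit 200)) (XT.lf (nat_lit 0) (nat_lit 137186542081) (nat_lit 76) (nat_lit 22313634015) (nat_lit 152) (nat_lit 140537776068) (nat_lit 14) (nat_lit 5) (nat_lit 15) (nat_lit 5) (nat_lit 16) (nat_lit 4) (nat_lit 370) (nat_lit 331) (nat_lit 199)))) (XT.nd (nat_lit 156) (nat_lit 152) (nat_lit 0) (XT.nd (nat_lit 78) (nat_lit 76) (nat_lit 0) (XT.lf (nat_lit 0) (nat_lit 227656857421) (nat_lit 152) (nat_lit 43271898379) (nat_lit 0) (nat_lit 47495392186) (nat_lit 14) (nat_lit 5) (nat_lit 16) (nat_lit 4) (nat_lit 14) (nat_lit 4) (nat_lit 371) (nat_lit 331) (nat_lit 198)) (XT.lf (nat_lit 0) (nat_lit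 89785083390) (nat_lit 76) (nat_lit 214219509277) (nat_lit 76) (nat_lit 34057565430) (nat_lit 13) (nat_lit 4) (nat_lit 14) (nat_lit 5) (nat_lit 14) (nat_lit 4) (nat_lit 372) (nat_lit 331) (nat_lit 197))) (XT.nd (nat_lit 78) (nat_lit 76) (nat_lit 0) (XT.lf (nat_lit 0) (nat_lit 27042310829) (nat_lit 152) (nat_lit 123914380482) (nat_lit 76) (nat_lit 208165128378) (nat_lit 12) (nat_lit 5) (nat_lit 14) (nat_lit 5) (nat_lit 13) (nat_lit 4) (nat_lit 373) (nat_lit 331) (nat_lit 196)) (XT.nd (nat_lit 78) (nat_lit 0) (nat_lit 0) (XT.lf (nat_lit 0) (nat_lit 10012927005) (nat_lit 76) (nat_lit 81417709699) (nat_lit 152) (nat_lit 290345612465) (nat_lit 11) (nat_lit 5) (nat_lit 12) (nat_lit 5) (nat_lit 13) (nat_lit 4) (nat_lit 374) (nat_lit 331) (nat_lit 195)) (XT.lf (nat_lit 0) (nat_lit 161700879509) (nat_lit 76) (nat_lit 2656840100) (nat_lit 152) (nat_lit 241614298251) (nat_lit 11) (nat_lit 5) (nat_lit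 12) (nat_lit 5) (nat_lit 13) (nat_lit 4) (nat_lit 375) (nat_lit 331) (nat_lit 194))))))))
noncomputable def xc184 : XT := (XT.nd (nat_lit 1326) (nat_lit 228) (nat_lit 0) (XT.nd (nat_lit 624) (nat_lit 228) (nat_lit 0) (XT.nd (nat_lit 312) (nat_lit 76) (nat_lit 0) (XT.nd (nat_lit 156) (nat_lit 76) (nat_lit 0) (XT.nd (nat_lit 78) (nat_lit 76) (nat_lit 0) (XT.lf (nat_lit 0) (nat_lit 245100479958) (nat_lit 152) (nat_lit 108562049861) (nat_lit 0) (nat_lit 78282397483) (nat_lit 11) (nat_lit 5) (nat_lit 13) (nat_lit 4) (nat_lit 11) (nat_lit 4) (nat_lit 376) (nat_lit 331) (nat_lit 193)) (XT.lf (nat_lit 0) (nat_lit 39931719678) (nat_lit 76) (nat_lit 293400004487) (nat_lit 76) (nat_lit 126581620405) (nat_lit 10) (nat_lit 4) (nat_lit 11) (nat_lit 5) (nat_lit 11) (nat_lit 4) (nat_lit 377) (nat_lit 331) (nat_lit 192))) (XT.nd (nat_lit 78) (nat_lit 76) (nat_lit 0) (XT.lf (nat_lit 0) (nat_lit 206478441984)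 (nat_lit 76) (nat_lit 225111009019) (nat_lit 76) (nat_lit 58292345670) (nat_lit 10) (nat_lit 4) (nat_lit 11) (nat_lit 5) (nat_lit 11) (nat_lit 4) (nat_lit 378) (nat_lit 331) (nat_lit 191)) (XT.lf (nat_lit 0) (nat_lit 14686414641) (nat_lit 152) (nat_lit 136271179474) (nat_lit 76) (nat_lit 371260408196) (nat_lit 9) (nat_lit 5) (nat_lit 11) (nat_lit 5) (nat_lit 10) (nat_lit 4) (nat_lit 379) (nat_lit 331) (nat_lit 190)))) (XT.nd (nat_lit 156) (nat_lit 0) (nat_lit 0) (XT.nd (nat_lit 78) (nat_lit 0) (nat_lit 0) (XT.lf (nat_lit 0) (nat_lit 22228964269) (nat_lit 76) (nat_lit 68659557664) (nat_lit 152) (nat_lit 466088707842) (nat_lit 8) (nat_lit 5) (nat_lit 9) (nat_lit 5) (nat_lit 10) (nat_lit 4) (nat_lit 380) (nat_lit 331) (nat_lit 189)) (XT.lf (nat_lit 0) (nat_lit 177495558810) (nat_lit 152) (nat_lit 393643768721) (nat_lit 0) (nat_lit 23033167103) (nat_lit 8) (nat_lit 5) (nat_lit 10) (nat_lit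 4) (nat_lit 8) (nat_lit 4) (nat_lit 381) (nat_lit 331) (nat_lit 188))) (XT.nd (nat_lit 78) (nat_lit 0) (nat_lit 0) (XT.lf (nat_lit 0) (nat_lit 272814284538) (nat_lit 152) (nat_lit 243034743374) (nat_lit 0) (nat_lit 118351702767) (nat_lit 8) (nat_lit 5) (nat_lit 10) (nat_lit 4) (nat_lit 8) (nat_lit 4) (nat_lit 382) (nat_lit 331) (nat_lit 187)) (XT.lf (nat_lit 0) (nat_lit 375758286813) (nat_lit 152) (nat_lit 80377427523) (nat_lit 0) (nat_lit 221295529057) (nat_lit 8) (nat_lit 5) (nat_lit 10) (nat_lit 4) (nat_lit 8) (nat_lit 4) (nat_lit 383) (nat_lit 331) (nat_lit 186))))) (XT.nd (nat_lit 312) (nat_lit 76) (nat_lit 0) (XT.nd (nat_lit 156) (nat_lit 76) (nat_lit 0) (XT.nd (nat_lit 78) (nat_lit 0) (nat_lit 0) (XT.lf (nat_lit 0) (nat_lit 100309985780) (nat_lit 76) (nat_lit 389040075957) (nat_lit 76) (nat_lit 234577155252) (nat_lit 7) (nat_lit 4) (nat_lit 8) (nat_lit 5) (nat_lit 8) (nat_lit 4)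 (nat_lit 384) (nat_lit 331) (nat_lit 185)) (XT.lf (nat_lit 0) (nat_lit 300023138227) (nat_lit 76) (nat_lit 314203502460) (nat_lit 76) (nat_lit 159740430877) (nat_lit 7) (nat_lit 4) (nat_lit 8) (nat_lit 5) (nat_lit 8) (nat_lit 4) (nat_lit 385) (nat_lit 331) (nat_lit 184))) (XT.nd (nat_lit 78) (nat_lit 76) (nat_lit 0) (XT.lf (nat_lit 0) (nat_lit 515712982274) (nat_lit 76) (nat_lit 233380179165) (nat_lit 76) (nat_lit 78916967879) (nat_lit 7) (nat_lit 4) (nat_lit 8) (nat_lit 5) (nat_lit 8) (nat_lit 4) (nat_lit 386) (nat_lit 331) (nat_lit 183)) (XT.lf (nat_lit 0) (nat_lit 7953376862) (nat_lit 152) (nat_lit 137920316765) (nat_lit 76) (nat_lit 740486843677) (nat_lit 6) (nat_lit 5) (nat_lit 8) (nat_lit 5) (nat_lit 7) (nat_lit 4) (nat_lit 387) (nat_lit 331) (nat_lit 182)))) (XT.nd (nat_lit 156) (nat_lit 0) (nat_lit 0) (XT.nd (nat_lit 78) (nat_lit 0) (nat_lit 0) (XT.lf (nat_lit 0) (nat_lit 50902921091)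 (nat_lit 76) (nat_lit 47830916169) (nat_lit 152) (nat_lit 850383233068) (nat_lit 5) (nat_lit 5) (nat_lit 6) (nat_lit 5) (nat_lit 7) (nat_lit 4) (nat_lit 388) (nat_lit 331) (nat_lit 181)) (XT.lf (nat_lit 0) (nat_lit 202041737597) (nat_lit 152) (nat_lit 755411275881) (nat_lit 0) (nat_lit 59019912307) (nat_lit 5) (nat_lit 5) (nat_lit 7) (nat_lit 4) (nat_lit 5) (nat_lit 4) (nat_lit 389) (nat_lit 331) (nat_lit 180))) (XT.nd (nat_lit 78) (nat_lit 0) (nat_lit 0) (XT.lf (nat_lit 0) (nat_lit 314856481956) (nat_lit 152) (nat_lit 602426829211) (nat_lit 0) (nat_lit 171834561587) (nat_lit 5) (nat_lit 5) (nat_lit 7) (nat_lit 4) (nat_lit 5) (nat_lit 4) (nat_lit 390) (nat_lit 331) (nat_lit 179)) (XT.nd (nat_lit 78) (nat_lit 0) (nat_lit 0) (XT.lf (nat_lit 0) (nat_lit 436696267471) (nat_lit 152) (nat_lit 437203900045) (nat_lit 0) (nat_lit 293674259066) (nat_lit 5) (nat_lit 5) (nat_lit 7) (nat_lit 4) (nat_lit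 5) (nat_lit 4) (nat_lit 391) (nat_lit 331) (nat_lit 178)) (XT.lf (nat_lit 0) (nat_lit 568283107688) (nat_lit 152) (nat_lit 258763389544) (nat_lit 0) (nat_lit 425261017768) (nat_lit 5) (nat_lit 5) (nat_lit 7) (nat_lit 4) (nat_lit 5) (nat_lit 4) (nat_lit 392) (nat_lit 331) (nat_lit 177))))))) (XT.nd (nat_lit 624) (nat_lit 152) (nat_lit 0) (XT.nd (nat_lit 312) (nat_lit 0) (nat_lit 0) (XT.nd (nat_lit 156) (nat_lit 0) (nat_lit 0) (XT.nd (nat_lit 78) (nat_lit 76) (nat_lit 0) (XT.lf (nat_lit 0) (nat_lit 710396776473) (nat_lit 152) (nat_lit 66047872461) (nat_lit 0) (nat_lit 567374611076) (nat_lit 5) (nat_lit 5) (nat_lit 7) (nat_lit 4) (nat_lit 5) (nat_lit 4) (nat_lit 393) (nat_lit 331) (nat_lit 176)) (XT.lf (nat_lit 0) (nat_lit 149566595962) (nat_lit 76) (nat_lit 717909913169) (nat_lit 76) (nat_lit 574887677886) (nat_lit 4) (nat_lit 4) (nat_lit 5) (nat_lit 5) (nat_lit 5) (nat_lit 4) (nat_lit 394)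 (nat_lit 331) (nat_lit 175))) (XT.nd (nat_lit 78) (nat_lit 0) (nat_lit 0) (XT.lf (nat_lit 0) (nat_lit 386186211476) (nat_lit 76) (nat_lit 652742168000) (nat_lit 76) (nat_lit 509719868008) (nat_lit 4) (nat_lit 4) (nat_lit 5) (nat_lit 5) (nat_lit 5) (nat_lit 4) (nat_lit 395) (nat_lit 331) (nat_lit 174)) (XT.lf (nat_lit 0) (nat_lit 641735200477) (nat_lit 76) (nat_lit 582361100076) (nat_lit 76) (nat_lit 439338740168) (nat_lit 4) (nat_lit 4) (nat_lit 5) (nat_lit 5) (nat_lit 5) (nat_lit 4) (nat_lit 396) (nat_lit 331) (nat_lit 173)))) (XT.nd (nat_lit 156) (nat_lit 0) (nat_lit 0) (XT.nd (nat_lit 78) (nat_lit 0) (nat_lit 0) (XT.lf (nat_lit 0) (nat_lit 917727927345) (nat_lit 76) (nat_lit 506349636402) (nat_lit 76) (nat_lit 363327221016) (nat_lit 4) (nat_lit 4) (nat_lit 5) (nat_lit 5) (nat_lit 5) (nat_lit 4) (nat_lit 397) (nat_lit 331) (nat_lit 172)) (XT.lf (nat_lit 0) (nat_lit 1215799904536) (nat_lit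 76) (nat_lit 424257338675) (nat_lit 76) (nat_lit 281234871920) (nat_lit 4) (nat_lit 4) (nat_lit 5) (nat_lit 5) (nat_lit 5) (nat_lit 4) (nat_lit 398) (nat_lit 331) (nat_lit 171))) (XT.nd (nat_lit 78) (nat_lit 0) (nat_lit 0) (XT.lf (nat_lit 0) (nat_lit 1537717484507) (nat_lit 76) (nat_lit 335597734018) (nat_lit 76) (nat_lit 192575219701) (nat_lit 4) (nat_lit 4) (nat_lit 5) (nat_lit 5) (nat_lit 5) (nat_lit 4) (nat_lit 399) (nat_lit 331) (nat_lit 170)) (XT.lf (nat_lit 0) (nat_lit 1885388326990) (nat_lit 76) (nat_lit 239845432184) (nat_lit 76) (nat_lit 96822873826) (nat_lit 4) (nat_lit 4) (nat_lit 5) (nat_lit 5) (nat_lit 5) (nat_lit 4) (nat_lit 400) (nat_lit 331) (nat_lit 169))))) (XT.nd (nat_lit 312) (nat_lit 0) (nat_lit 0) (XT.nd (nat_lit 156) (nat_lit 0) (nat_lit 0) (XT.nd (nat_lit 78) (nat_lit 76) (nat_lit 0) (XT.lf (nat_lit 0) (nat_lit 6259949181) (nat_lit 152) (nat_lit 130001904837) (nat_lit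 76) (nat_lit 2254441596360) (nat_lit 3) (nat_lit 5) (nat_lit 5) (nat_lit 5) (nat_lit 4) (nat_lit 4) (nat_lit 401) (nat_lit 331) (nat_lit 168)) (XT.lf (nat_lit 0) (nat_lit 95457997494) (nat_lit 76) (nat_lit 19196153653) (nat_lit 152) (nat_lit 2457803015370) (nat_lit 2) (nat_lit 5) (nat_lit 3) (nat_lit 5) (nat_lit 4) (nat_lit 4) (nat_lit 402) (nat_lit 331) (nat_lit 167))) (XT.nd (nat_lit 78) (nat_lit 0) (nat_lit 0) (XT.lf (nat_lit 0) (nat_lit 237945631875) (nat_lit 152) (nat_lit 2424790256665) (nat_lit 0) (nat_lit 105517232011) (nat_lit 2) (nat_lit 5) (nat_lit 4) (nat_lit 4) (nat_lit 2) (nat_lit 4) (nat_lit 403) (nat_lit 331) (nat_lit 166)) (XT.lf (nat_lit 0) (nat_lit 371598973508) (nat_lit 152) (nat_lit 2368903350342) (nat_lit 0) (nat_lit 239170543671) (nat_lit 2) (nat_lit 5) (nat_lit 4) (nat_lit 4) (nat_lit 2) (nat_lit 4) (nat_lit 404) (nat_lit 331) (nat_lit 165)))) (XT.nd (nat_lit 156)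 (nat_lit 0) (nat_lit 0) (XT.nd (nat_lit 78) (nat_lit 0) (nat_lit 0) (XT.lf (nat_lit 0) (nat_lit 515944527893) (nat_lit 152) (nat_lit 2308545600432) (nat_lit 0) (nat_lit 383516070303) (nat_lit 2) (nat_lit 5) (nat_lit 4) (nat_lit 4) (nat_lit 2) (nat_lit 4) (nat_lit 405) (nat_lit 331) (nat_lit 164)) (XT.lf (nat_lit 0) (nat_lit 671837676092) (nat_lit 152) (nat_lit 2243359331378) (nat_lit 0) (nat_lit 539409192805) (nat_lit 2) (nat_lit 5) (nat_lit 4) (nat_lit 4) (nat_lit 2) (nat_lit 4) (nat_lit 406) (nat_lit 331) (nat_lit 163))) (XT.nd (nat_lit 78) (nat_lit 0) (nat_lit 0) (XT.lf (nat_lit 0) (nat_lit 840202229353) (nat_lit 152) (nat_lit 2172958254179) (nat_lit 0) (nat_lit 707773722273) (nat_lit 2) (nat_lit 5) (nat_lit 4) (nat_lit 4) (nat_lit 2) (nat_lit 4) (nat_lit 407) (nat_lit 331) (nat_lit 162)) (XT.nd (nat_lit 78) (nat_lit 0) (nat_lit 0) (XT.lf (nat_lit 0) (nat_lit 1022035903549) (nat_lit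 152) (nat_lit 2096925177266) (nat_lit 0) (nat_lit 889607374438) (nat_lit 2) (nat_lit 5) (nat_lit 4) (nat_lit 4) (nat_lit 2) (nat_lit 4) (nat_lit 408) (nat_lit 331) (nat_lit 161)) (XT.lf (nat_lit 0) (nat_lit 1218416231563) (nat_lit 152) (nat_lit 2014809534258) (nat_lit 0) (nat_lit 1085987682052) (nat_lit 2) (nat_lit 5) (nat_lit 4) (nat_lit 4) (nat_lit 2) (nat_lit 4) (nat_lit 409) (nat_lit 331) (nat_lit 160))))))))
noncomputable def xc185 : XT := (XT.nd (nat_lit 1326) (nat_lit 1216) (nat_lit 0) (XT.nd (nat_lit 624) (nat_lit 1216) (nat_lit 0) (XT.nd (nat_lit 312) (nat_lit 304) (nat_lit 0) (XT.nd (nat_lit 156) (nat_lit 0) (nat_lit 76) (XT.nd (nat_lit 78) (nat_lit 0) (nat_lit 0) (XT.lf (nat_lit 0) (nat_lit 18332024145) (nat_lit 532) (nat_lit 2794944278) (nat_lit 532) (nat_lit 2794944278) (nat_lit 54) (nat_lit 3) (nat_lit 61) (nat_lit 3) (nat_lit 61) (nat_lit 5) (nat_lit 332) (nat_lit 332) (nat_lit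 236)) (XT.lf (nat_lit 76) (nat_lit 17960219173) (nat_lit 0) (nat_lit 20628836406) (nat_lit 532) (nat_lit 11131798804) (nat_lit 55) (nat_lit 5) (nat_lit 54) (nat_lit 3) (nat_lit 61) (nat_lit 5) (nat_lit 333) (nat_lit 332) (nat_lit 235))) (XT.nd (nat_lit 78) (nat_lit 0) (nat_lit 0) (XT.lf (nat_lit 0) (nat_lit 40887778207) (nat_lit 456) (nat_lit 8094875873) (nat_lit 532) (nat_lit 2747819261) (nat_lit 55) (nat_lit 5) (nat_lit 61) (nat_lit 5) (nat_lit 62) (nat_lit 5) (nat_lit 334) (nat_lit 332) (nat_lit 234)) (XT.lf (nat_lit 76) (nat_lit 17818032738) (nat_lit 0) (nat_lit 26514241531) (nat_lit 532) (nat_lit 9491641983) (nat_lit 56) (nat_lit 5) (nat_lit 55) (nat_lit 5) (nat_lit 62) (nat_lit 5) (nat_lit 335) (nat_lit 332) (nat_lit 233)))) (XT.nd (nat_lit 156) (nat_lit 380) (nat_lit 0) (XT.nd (nat_lit 78) (nat_lit 0) (nat_lit 76) (XT.lf (nat_lit 76) (nat_lit 46262750309) (nat_lit 0) (nat_lit 2008589782)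 (nat_lit 532) (nat_lit 7795977850) (nat_lit 56) (nat_lit 5) (nat_lit 55) (nat_lit 5) (nat_lit 62) (nat_lit 5) (nat_lit 336) (nat_lit 332) (nat_lit 232)) (XT.lf (nat_lit 76) (nat_lit 18845728555) (nat_lit 0) (nat_lit 34719116484) (nat_lit 532) (nat_lit 4842205462) (nat_lit 57) (nat_lit 5) (nat_lit 56) (nat_lit 5) (nat_lit 63) (nat_lit 5) (nat_lit 337) (nat_lit 332) (nat_lit 231))) (XT.nd (nat_lit 78) (nat_lit 456) (nat_lit 0) (XT.lf (nat_lit 76) (nat_lit 50289105699) (nat_lit 0) (nat_lit 9309638004) (nat_lit 532) (nat_lit 1309868457) (nat_lit 57) (nat_lit 5) (nat_lit 56) (nat_lit 5) (nat_lit 63) (nat_lit 5) (nat_lit 338) (nat_lit 332) (nat_lit 230)) (XT.lf (nat_lit 0) (nat_lit 3349926918) (nat_lit 532) (nat_lit 42355864133) (nat_lit 76) (nat_lit 17822076268) (nat_lit 50) (nat_lit 5) (nat_lit 57) (nat_lit 5) (nat_lit 51) (nat_lit 5) (nat_lit 339) (nat_lit 332) (nat_lit 229))))) (XT.nd (nat_lit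 312) (nat_lit 684) (nat_lit 0) (XT.nd (nat_lit 156) (nat_lit 228) (nat_lit 0) (XT.nd (nat_lit 78) (nat_lit 304) (nat_lit 0) (XT.lf (nat_lit 0) (nat_lit 8849641949) (nat_lit 532) (nat_lit 10507748784) (nat_lit 76) (nat_lit 46953520942) (nat_lit 50) (nat_lit 5) (nat_lit 57) (nat_lit 5) (nat_lit 51) (nat_lit 5) (nat_lit 340) (nat_lit 332) (nat_lit 228)) (XT.lf (nat_lit 0) (nat_lit 15626926267) (nat_lit 380) (nat_lit 44358440583) (nat_lit 76) (nat_lit 9264227980) (nat_lit 46) (nat_lit 5) (nat_lit 51) (nat_lit 5) (nat_lit 47) (nat_lit 5) (nat_lit 341) (nat_lit 332) (nat_lit 227))) (XT.nd (nat_lit 78) (nat_lit 228) (nat_lit 0) (XT.lf (nat_lit 0) (nat_lit 23742362769) (nat_lit 380) (nat_lit 9192764146) (nat_lit 76) (nat_lit 39424570591) (nat_lit 46) (nat_lit 5) (nat_lit 51) (nat_lit 5) (nat_lit 47) (nat_lit 5) (nat_lit 342) (nat_lit 332) (nat_lit 226)) (XT.lf (nat_lit 0) (nat_lit 30300359073)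 (nat_lit 228) (nat_lit 2933933969) (nat_lit 304) (nat_lit 42426136889) (nat_lit 43) (nat_lit 5) (nat_lit 46) (nat_lit 5) (nat_lit 47) (nat_lit 5) (nat_lit 343) (nat_lit 332) (nat_lit 225)))) (XT.nd (nat_lit 156) (nat_lit 456) (nat_lit 0) (XT.nd (nat_lit 78) (nat_lit 228) (nat_lit 0) (XT.lf (nat_lit 0) (nat_lit 44450746960) (nat_lit 304) (nat_lit 6446224802) (nat_lit 76) (nat_lit 28251037726) (nat_lit 43) (nat_lit 5) (nat_lit 47) (nat_lit 5) (nat_lit 44) (nat_lit 5) (nat_lit 344) (nat_lit 332) (nat_lit 224)) (XT.lf (nat_lit 0) (nat_lit 37372543961) (nat_lit 228) (nat_lit 20165697017) (nat_lit 304) (nat_lit 25298458453) (nat_lit 40) (nat_lit 5) (nat_lit 43) (nat_lit 5) (nat_lit 44) (nat_lit 5) (nat_lit 345) (nat_lit 332) (nat_lit 223))) (XT.nd (nat_lit 78) (nat_lit 456) (nat_lit 0) (XT.lf (nat_lit 0) (nat_lit 72165555093) (nat_lit 304) (nat_lit 2062336657) (nat_lit 76) (nat_lit 12553168954)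 (nat_lit 40) (nat_lit 5) (nat_lit 44) (nat_lit 5) (nat_lit 41) (nat_lit 5) (nat_lit 346) (nat_lit 332) (nat_lit 222)) (XT.nd (nat_lit 78) (nat_lit 304) (nat_lit 0) (XT.lf (nat_lit 0) (nat_lit 46618440658) (nat_lit 152) (nat_lit 42988426323) (nat_lit 228) (nat_lit 1302600536) (nat_lit 38) (nat_lit 5) (nat_lit 40) (nat_lit 5) (nat_lit 41) (nat_lit 5) (nat_lit 347) (nat_lit 332) (nat_lit 221)) (XT.lf (nat_lit 0) (nat_lit 3821080428) (nat_lit 228) (nat_lit 8748799650) (nat_lit 304) (nat_lit 82761221282) (nat_lit 34) (nat_lit 5) (nat_lit 37) (nat_lit 5) (nat_lit 38) (nat_lit 5) (nat_lit 348) (nat_lit 332) (nat_lit 220))))))) (XT.nd (nat_lit 624) (nat_lit 532) (nat_lit 0) (XT.nd (nat_lit 312) (nat_lit 380) (nat_lit 0) (XT.nd (nat_lit 156) (nat_lit 152) (nat_lit 0) (XT.nd (nat_lit 78) (nat_lit 152) (nat_lit 0) (XT.lf (nat_lit 0) (nat_lit 29402081700) (nat_lit 304) (nat_lit 42454291926) (nat_lit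 76) (nat_lit 28093763144) (nat_lit 34) (nat_lit 5) (nat_lit 38) (nat_lit 5) (nat_lit 35) (nat_lit 5) (nat_lit 349) (nat_lit 332) (nat_lit 219)) (XT.lf (nat_lit 0) (nat_lit 10839489419) (nat_lit 152) (nat_lit 37228297050) (nat_lit 228) (nat_lit 56831955596) (nat_lit 32) (nat_lit 5) (nat_lit 34) (nat_lit 5) (nat_lit 35) (nat_lit 5) (nat_lit 350) (nat_lit 332) (nat_lit 218))) (XT.nd (nat_lit 78) (nat_lit 152) (nat_lit 0) (XT.lf (nat_lit 0) (nat_lit 69420789769) (nat_lit 228) (nat_lit 39376939067) (nat_lit 76) (nat_lit 1352064697) (nat_lit 32) (nat_lit 5) (nat_lit 35) (nat_lit 5) (nat_lit 33) (nat_lit 5) (nat_lit 351) (nat_lit 332) (nat_lit 217)) (XT.lf (nat_lit 0) (nat_lit 19698124254) (nat_lit 152) (nat_lit 74223717674) (nat_lit 228) (nat_lit 21782823543) (nat_lit 30) (nat_lit 5) (nat_lit 32) (nat_lit 5) (nat_lit 33) (nat_lit 5) (nat_lit 352) (nat_lit 332) (nat_lit 216)))) (XT.nd (nat_lit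 156) (nat_lit 152) (nat_lit 0) (XT.nd (nat_lit 78) (nat_lit 228) (nat_lit 0) (XT.lf (nat_lit 0) (nat_lit 85737301100) (nat_lit 152) (nat_lit 35721447544) (nat_lit 228) (nat_lit 159117851) (nat_lit 30) (nat_lit 5) (nat_lit 32) (nat_lit 5) (nat_lit 33) (nat_lit 5) (nat_lit 353) (nat_lit 332) (nat_lit 215)) (XT.lf (nat_lit 0) (nat_lit 22928982751) (nat_lit 228) (nat_lit 98079034176) (nat_lit 76) (nat_lit 6879898827) (nat_lit 27) (nat_lit 5) (nat_lit 30) (nat_lit 5) (nat_lit 28) (nat_lit 5) (nat_lit 354) (nat_lit 332) (nat_lit 214))) (XT.nd (nat_lit 78) (nat_lit 152) (nat_lit 0) (XT.lf (nat_lit 0) (nat_lit 49789083721) (nat_lit 228) (nat_lit 32745750115) (nat_lit 76) (nat_lit 51969721341) (nat_lit 27) (nat_lit 5) (nat_lit 30) (nat_lit 5) (nat_lit 28) (nat_lit 5) (nat_lit 355) (nat_lit 332) (nat_lit 213)) (XT.lf (nat_lit 0) (nat_lit 39804193422) (nat_lit 152) (nat_lit 39950349723) (nat_lit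 228) (nat_lit 61819459286) (nat_lit 25) (nat_lit 5) (nat_lit 27) (nat_lit 5) (nat_lit 28) (nat_lit 5) (nat_lit 356) (nat_lit 332) (nat_lit 212))))) (XT.nd (nat_lit 312) (nat_lit 228) (nat_lit 0) (XT.nd (nat_lit 156) (nat_lit 228) (nat_lit 0) (XT.nd (nat_lit 78) (nat_lit 76) (nat_lit 0) (XT.lf (nat_lit 0) (nat_lit 113180380825) (nat_lit 228) (nat_lit 29286694014) (nat_lit 76) (nat_lit 6656879959) (nat_lit 25) (nat_lit 5) (nat_lit 28) (nat_lit 5) (nat_lit 26) (nat_lit 4) (nat_lit 357) (nat_lit 332) (nat_lit 211)) (XT.lf (nat_lit 0) (nat_lit 50481592371) (nat_lit 76) (nat_lit 101049777522) (nat_lit 152) (nat_lit 5566447320) (nat_lit 24) (nat_lit 5) (nat_lit 25) (nat_lit 5) (nat_lit 26) (nat_lit 4) (nat_lit 358) (nat_lit 332) (nat_lit 210))) (XT.nd (nat_lit 78) (nat_lit 152) (nat_lit 0) (XT.lf (nat_lit 0) (nat_lit 26699036662) (nat_lit 152) (nat_lit 28025676218) (nat_lit 76) (nat_lit 110866794030)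 (nat_lit 23) (nat_lit 5) (nat_lit 25) (nat_lit 5) (nat_lit 24) (nat_lit 5) (nat_lit 359) (nat_lit 332) (nat_lit 209)) (XT.lf (nat_lit 0) (nat_lit 59692571776) (nat_lit 152) (nat_lit 2987447817) (nat_lit 228) (nat_lit 111958306589) (nat_lit 21) (nat_lit 5) (nat_lit 23) (nat_lit 5) (nat_lit 24) (nat_lit 5) (nat_lit 360) (nat_lit 332) (nat_lit 208)))) (XT.nd (nat_lit 156) (nat_lit 152) (nat_lit 0) (XT.nd (nat_lit 78) (nat_lit 76) (nat_lit 0) (XT.lf (nat_lit 0) (nat_lit 103597029753) (nat_lit 228) (nat_lit 29618382489) (nat_lit 76) (nat_lit 51028875311) (nat_lit 21) (nat_lit 5) (nat_lit 24) (nat_lit 5) (nat_lit 22) (nat_lit 4) (nat_lit 361) (nat_lit 332) (nat_lit 207)) (XT.lf (nat_lit 0) (nat_lit 65745477209) (nat_lit 76) (nat_lit 83700141451) (nat_lit 152) (nat_lit 45040450152) (nat_lit 20) (nat_lit 5) (nat_lit 21) (nat_lit 5) (nat_lit 22) (nat_lit 4) (nat_lit 362) (nat_lit 332) (nat_lit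 206))) (XT.nd (nat_lit 78) (nat_lit 152) (nat_lit 0) (XT.lf (nat_lit 0) (nat_lit 170421932706) (nat_lit 76) (nat_lit 29349441458) (nat_lit 152) (nat_lit 5711076432) (nat_lit 20) (nat_lit 5) (nat_lit 21) (nat_lit 5) (nat_lit 22) (nat_lit 4) (nat_lit 363) (nat_lit 332) (nat_lit 205)) (XT.nd (nat_lit 78) (nat_lit 0) (nat_lit 0) (XT.lf (nat_lit 0) (nat_lit 37348082774) (nat_lit 152) (nat_lit 149263727501) (nat_lit 76) (nat_lit 30482193552) (nat_lit 18) (nat_lit 5) (nat_lit 20) (nat_lit 5) (nat_lit 19) (nat_lit 4) (nat_lit 364) (nat_lit 332) (nat_lit 204)) (XT.lf (nat_lit 0) (nat_lit 85288762286) (nat_lit 152) (nat_lit 49547999995) (nat_lit 76) (nat_lit 94646225443) (nat_lit 18) (nat_lit 5) (nat_lit 20) (nat_lit 5) (nat_lit 19) (nat_lit 4) (nat_lit 365) (nat_lit 332) (nat_lit 203))))))))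
noncomputable def xc186 : XT := (XT.nd (nat_lit 1326) (nat_lit 304) (nat_lit 0) (XT.nd (nat_lit 624) (nat_lit 380) (nat_lit 0) (XT.nd (nat_lit 312) (nat_lit 152) (nat_lit 0) (XT.nd (nat_lit 156) (nat_lit 152) (nat_lit 0) (XT.nd (nat_lit 78) (nat_lit 0) (nat_lit 0) (XT.lf (nat_lit 0) (nat_lit 61205917598) (nat_lit 76) (nat_lit 77330314809) (nat_lit 152) (nat_lit 104209135308) (nat_lit 17) (nat_lit 5) (nat_lit 18) (nat_lit 5) (nat_lit 19) (nat_lit 4) (nat_lit 366) (nat_lit 332) (nat_lit 202)) (XT.lf (nat_lit 0) (nat_lit 183637172430) (nat_lit 76) (nat_lit 13760605328) (nat_lit 152) (nat_lit 59562618397) (nat_lit 17) (nat_lit 5) (nat_lit 18) (nat_lit 5) (nat_lit 19) (nat_lit 4) (nat_lit 367) (nat_lit 332) (nat_lit 201))) (XT.nd (nat_lit 78) (nat_lit 76) (nat_lit 0) (XT.lf (nat_lit 0) (nat_lit 44453022433) (nat_lit 76) (nat_lit 218904111903) (nat_lit 76) (nat_lit 8764381767) (nat_lit 16) (nat_lit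 4) (nat_lit 17) (nat_lit 5) (nat_lit 17) (nat_lit 4) (nat_lit 368) (nat_lit 332) (nat_lit 200)) (XT.lf (nat_lit 0) (nat_lit 46205572367) (nat_lit 152) (nat_lit 114032742524) (nat_lit 76) (nat_lit 127975410639) (nat_lit 15) (nat_lit 5) (nat_lit 17) (nat_lit 5) (nat_lit 16) (nat_lit 4) (nat_lit 369) (nat_lit 332) (nat_lit 199)))) (XT.nd (nat_lit 156) (nat_lit 76) (nat_lit 0) (XT.nd (nat_lit 78) (nat_lit 0) (nat_lit 0) (XT.lf (nat_lit 0) (nat_lit 8911275542) (nat_lit 76) (nat_lit 96402266210) (nat_lit 152) (nat_lit 200244444594) (nat_lit 14) (nat_lit 5) (nat_lit 15) (nat_lit 5) (nat_lit 16) (nat_lit 4) (nat_lit 370) (nat_lit 332) (nat_lit 198)) (XT.lf (nat_lit 0) (nat_lit 148175251534) (nat_lit 76) (nat_lit 24092373340) (nat_lit 152) (nat_lit 151772765235) (nat_lit 14) (nat_lit 5) (nat_lit 15) (nat_lit 5) (nat_lit 16) (nat_lit 4) (nat_lit 371) (nat_lit 332) (nat_lit 197))) (XT.nd (nat_lit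 78) (nat_lit 76) (nat_lit 0) (XT.lf (nat_lit 0) (nat_lit 245876431423) (nat_lit 152) (nat_lit 46720472876) (nat_lit 0) (nat_lit 51300610296) (nat_lit 14) (nat_lit 5) (nat_lit 16) (nat_lit 4) (nat_lit 14) (nat_lit 4) (nat_lit 372) (nat_lit 332) (nat_lit 196)) (XT.lf (nat_lit 0) (nat_lit 96980733831) (nat_lit 76) (nat_lit 231351040151) (nat_lit 76) (nat_lit 36774808690) (nat_lit 13) (nat_lit 4) (nat_lit 14) (nat_lit 5) (nat_lit 14) (nat_lit 4) (nat_lit 373) (nat_lit 332) (nat_lit 195))))) (XT.nd (nat_lit 312) (nat_lit 228) (nat_lit 0) (XT.nd (nat_lit 156) (nat_lit 0) (nat_lit 0) (XT.nd (nat_lit 78) (nat_lit 76) (nat_lit 0) (XT.lf (nat_lit 0) (nat_lit 29212171341) (nat_lit 152) (nat_lit 133815295008) (nat_lit 76) (nat_lit 224823578326) (nat_lit 12) (nat_lit 5) (nat_lit 14) (nat_lit 5) (nat_lit 13) (nat_lit 4) (nat_lit 374) (nat_lit 332) (nat_lit 194)) (XT.lf (nat_lit 0) (nat_lit 10825887309)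 (nat_lit 76) (nat_lit 87925483124) (nat_lit 152) (nat_lit 313566473696) (nat_lit 11) (nat_lit 5) (nat_lit 12) (nat_lit 5) (nat_lit 13) (nat_lit 4) (nat_lit 375) (nat_lit 332) (nat_lit 193))) (XT.nd (nat_lit 78) (nat_lit 0) (nat_lit 0) (XT.lf (nat_lit 0) (nat_lit 174647992595) (nat_lit 76) (nat_lit 2864161984) (nat_lit 152) (nat_lit 260937157143) (nat_lit 11) (nat_lit 5) (nat_lit 12) (nat_lit 5) (nat_lit 13) (nat_lit 4) (nat_lit 376) (nat_lit 332) (nat_lit 192)) (XT.lf (nat_lit 0) (nat_lit 264714021198) (nat_lit 152) (nat_lit 117236472532) (nat_lit 0) (nat_lit 84549585515) (nat_lit 11) (nat_lit 5) (nat_lit 13) (nat_lit 4) (nat_lit 11) (nat_lit 4) (nat_lit 377) (nat_lit 332) (nat_lit 191)))) (XT.nd (nat_lit 156) (nat_lit 152) (nat_lit 0) (XT.nd (nat_lit 78) (nat_lit 0) (nat_lit 0) (XT.lf (nat_lit 0) (nat_lit 43136531701) (nat_lit 76) (nat_lit 316867072722) (nat_lit 76) (nat_lit 136702378460)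 (nat_lit 10) (nat_lit 4) (nat_lit 11) (nat_lit 5) (nat_lit 11) (nat_lit 4) (nat_lit 378) (nat_lit 332) (nat_lit 190)) (XT.lf (nat_lit 0) (nat_lit 223006230722) (nat_lit 76) (nat_lit 243115322959) (nat_lit 76) (nat_lit 62950389272) (nat_lit 10) (nat_lit 4) (nat_lit 11) (nat_lit 5) (nat_lit 11) (nat_lit 4) (nat_lit 379) (nat_lit 332) (nat_lit 189))) (XT.nd (nat_lit 78) (nat_lit 76) (nat_lit 0) (XT.lf (nat_lit 0) (nat_lit 15866028480) (nat_lit 152) (nat_lit 147163816138) (nat_lit 76) (nat_lit 400965220343) (nat_lit 9) (nat_lit 5) (nat_lit 11) (nat_lit 5) (nat_lit 10) (nat_lit 4) (nat_lit 380) (nat_lit 332) (nat_lit 188)) (XT.nd (nat_lit 78) (nat_lit 0) (nat_lit 0) (XT.lf (nat_lit 0) (nat_lit 24016109796) (nat_lit 76) (nat_lit 74148058685) (nat_lit 152) (nat_lit 503370873122) (nat_lit 8) (nat_lit 5) (nat_lit 9) (nat_lit 5) (nat_lit 10) (nat_lit 4) (nat_lit 381) (nat_lit 332) (nat_lit 187))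 (XT.lf (nat_lit 0) (nat_lit 191699525119) (nat_lit 152) (nat_lit 425126851329) (nat_lit 0) (nat_lit 24879570758) (nat_lit 8) (nat_lit 5) (nat_lit 10) (nat_lit 4) (nat_lit 8) (nat_lit 4) (nat_lit 382) (nat_lit 332) (nat_lit 186))))))) (XT.nd (nat_lit 624) (nat_lit 76) (nat_lit 0) (XT.nd (nat_lit 312) (nat_lit 152) (nat_lit 0) (XT.nd (nat_lit 156) (nat_lit 76) (nat_lit 0) (XT.nd (nat_lit 78) (nat_lit 0) (nat_lit 0) (XT.lf (nat_lit 0) (nat_lit 294643428787) (nat_lit 152) (nat_lit 262469727576) (nat_lit 0) (nat_lit 127823311477) (nat_lit 8) (nat_lit 5) (nat_lit 10) (nat_lit 4) (nat_lit 8) (nat_lit 4) (nat_lit 383) (nat_lit 332) (nat_lit 185)) (XT.lf (nat_lit 0) (nat_lit 405822654837) (nat_lit 152) (nat_lit 86800403885) (nat_lit 0) (nat_lit 239002386648) (nat_lit 8) (nat_lit 5) (nat_lit 10) (nat_lit 4) (nat_lit 8) (nat_lit 4) (nat_lit 384) (nat_lit 332) (nat_lit 184))) (XT.nd (nat_lit 78) (nat_lit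 0) (nat_lit 0) (XT.lf (nat_lit 0) (nat_lit 108341819753) (nat_lit 76) (nat_lit 420159846746) (nat_lit 76) (nat_lit 253339438855) (nat_lit 7) (nat_lit 4) (nat_lit 8) (nat_lit 5) (nat_lit 8) (nat_lit 4) (nat_lit 385) (nat_lit 332) (nat_lit 183)) (XT.lf (nat_lit 0) (nat_lit 324031503277) (nat_lit 76) (nat_lit 339336601836) (nat_lit 76) (nat_lit 172516064590) (nat_lit 7) (nat_lit 4) (nat_lit 8) (nat_lit 5) (nat_lit 8) (nat_lit 4) (nat_lit 386) (nat_lit 332) (nat_lit 182)))) (XT.nd (nat_lit 156) (nat_lit 76) (nat_lit 0) (XT.nd (nat_lit 78) (nat_lit 76) (nat_lit 0) (XT.lf (nat_lit 0) (nat_lit 556976052329) (nat_lit 76) (nat_lit 252047648294) (nat_lit 76) (nat_lit 85226991276) (nat_lit 7) (nat_lit 4) (nat_lit 8) (nat_lit 5) (nat_lit 8) (nat_lit 4) (nat_lit 387) (nat_lit 332) (nat_lit 181)) (XT.lf (nat_lit 0) (nat_lit 8592579652) (nat_lit 152) (nat_lit 148948202240) (nat_lit 76) (nat_lit 799728363044)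 (nat_lit 6) (nat_lit 5) (nat_lit 8) (nat_lit 5) (nat_lit 7) (nat_lit 4) (nat_lit 388) (nat_lit 332) (nat_lit 180))) (XT.nd (nat_lit 78) (nat_lit 0) (nat_lit 0) (XT.lf (nat_lit 0) (nat_lit 54980749331) (nat_lit 76) (nat_lit 51654644867) (nat_lit 152) (nat_lit 918410813074) (nat_lit 5) (nat_lit 5) (nat_lit 6) (nat_lit 5) (nat_lit 7) (nat_lit 4) (nat_lit 389) (nat_lit 332) (nat_lit 179)) (XT.lf (nat_lit 0) (nat_lit 218207776572) (nat_lit 152) (nat_lit 815838847185) (nat_lit 0) (nat_lit 63743919458) (nat_lit 5) (nat_lit 5) (nat_lit 7) (nat_lit 4) (nat_lit 5) (nat_lit 4) (nat_lit 390) (nat_lit 332) (nat_lit 178))))) (XT.nd (nat_lit 312) (nat_lit 76) (nat_lit 0) (XT.nd (nat_lit 156) (nat_lit 0) (nat_lit 0) (XT.nd (nat_lit 78) (nat_lit 0) (nat_lit 0) (XT.lf (nat_lit 0) (nat_lit 340047500482) (nat_lit 152) (nat_lit 650616039653) (nat_lit 0) (nat_lit 185583561853) (nat_lit 5) (nat_lit 5) (nat_lit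 7) (nat_lit 4) (nat_lit 5) (nat_lit 4) (nat_lit 391) (nat_lit 332) (nat_lit 177)) (XT.lf (nat_lit 0) (nat_lit 471634283656) (nat_lit 152) (nat_lit 472175641776) (nat_lit 0) (nat_lit 317170269550) (nat_lit 5) (nat_lit 5) (nat_lit 7) (nat_lit 4) (nat_lit 5) (nat_lit 4) (nat_lit 392) (nat_lit 332) (nat_lit 176))) (XT.nd (nat_lit 78) (nat_lit 0) (nat_lit 0) (XT.lf (nat_lit 0) (nat_lit 613747899624) (nat_lit 152) (nat_lit 279460228973) (nat_lit 0) (nat_lit 459283815632) (nat_lit 5) (nat_lit 5) (nat_lit 7) (nat_lit 4) (nat_lit 5) (nat_lit 4) (nat_lit 393) (nat_lit 332) (nat_lit 175)) (XT.lf (nat_lit 0) (nat_lit 767230503148) (nat_lit 152) (nat_lit 71327783985) (nat_lit 0) (nat_lit 612766354447) (nat_lit 5) (nat_lit 5) (nat_lit 7) (nat_lit 4) (nat_lit 5) (nat_lit 4) (nat_lit 394) (nat_lit 332) (nat_lit 174)))) (XT.nd (nat_lit 156) (nat_lit 0) (nat_lit 0) (XT.nd (nat_lit 78) (nat_lit 0) (nat_lit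 0) (XT.lf (nat_lit 0) (nat_lit 161535742715) (nat_lit 76) (nat_lit 775340816549) (nat_lit 76) (nat_lit 620876607932) (nat_lit 4) (nat_lit 4) (nat_lit 5) (nat_lit 5) (nat_lit 5) (nat_lit 4) (nat_lit 395) (nat_lit 332) (nat_lit 173)) (XT.lf (nat_lit 0) (nat_lit 417084644575) (nat_lit 76) (nat_lit 704959791742) (nat_lit 76) (nat_lit 550495527647) (nat_lit 4) (nat_lit 4) (nat_lit 5) (nat_lit 5) (nat_lit 5) (nat_lit 4) (nat_lit 396) (nat_lit 332) (nat_lit 172))) (XT.nd (nat_lit 78) (nat_lit 0) (nat_lit 0) (XT.lf (nat_lit 0) (nat_lit 693077290757) (nat_lit 76) (nat_lit 628948367991) (nat_lit 76) (nat_lit 474484052528) (nat_lit 4) (nat_lit 4) (nat_lit 5) (nat_lit 5) (nat_lit 5) (nat_lit 4) (nat_lit 397) (nat_lit 332) (nat_lit 171)) (XT.nd (nat_lit 78) (nat_lit 0) (nat_lit 0) (XT.lf (nat_lit 0) (nat_lit 991149193239) (nat_lit 76) (nat_lit 546856107230) (nat_lit 76) (nat_lit 392391744203) (nat_lit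 4) (nat_lit 4) (nat_lit 5) (nat_lit 5) (nat_lit 5) (nat_lit 4) (nat_lit 398) (nat_lit 332) (nat_lit 170)) (XT.lf (nat_lit 0) (nat_lit 1313066704034) (nat_lit 76) (nat_lit 458196536802) (nat_lit 76) (nat_lit 303732129735) (nat_lit 4) (nat_lit 4) (nat_lit 5) (nat_lit 5) (nat_lit 5) (nat_lit 4) (nat_lit 399) (nat_lit 332) (nat_lit 169))))))))
noncomputable def xc187 : XT := (XT.nd (nat_lit 42198) (nat_lit 0) (nat_lit 1748) (XT.nd (nat_lit 624) (nat_lit 0) (nat_lit 0) (XT.nd (nat_lit 312) (nat_lit 0) (nat_lit 0) (XT.nd (nat_lit 156) (nat_lit 152) (nat_lit 0) (XT.nd (nat_lit 78) (nat_lit 0) (nat_lit 0) (XT.lf (nat_lit 0) (nat_lit 1660737482466) (nat_lit 76) (nat_lit 362444266659) (nat_lit 76) (nat_lit 207979818815) (nat_lit 4) (nat_lit 4) (nat_lit 5) (nat_lit 5) (nat_lit 5) (nat_lit 4) (nat_lit 400) (nat_lit 332) (nat_lit 168)) (XT.lf (nat_lit 0) (nat_lit 2036221799815) (nat_lit 76) (nat_lit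 259031875943) (nat_lit 76) (nat_lit 104567390342) (nat_lit 4) (nat_lit 4) (nat_lit 5) (nat_lit 5) (nat_lit 5) (nat_lit 4) (nat_lit 401) (nat_lit 332) (nat_lit 167))) (XT.nd (nat_lit 78) (nat_lit 76) (nat_lit 0) (XT.lf (nat_lit 0) (nat_lit 6761900384) (nat_lit 152) (nat_lit 140399767762) (nat_lit 76) (nat_lit 2434797965607) (nat_lit 3) (nat_lit 5) (nat_lit 5) (nat_lit 5) (nat_lit 4) (nat_lit 4) (nat_lit 402) (nat_lit 332) (nat_lit 166)) (XT.lf (nat_lit 0) (nat_lit 103096868794) (nat_lit 76) (nat_lit 20730737804) (nat_lit 152) (nat_lit 2654426043154) (nat_lit 2) (nat_lit 5) (nat_lit 3) (nat_lit 5) (nat_lit 4) (nat_lit 4) (nat_lit 403) (nat_lit 332) (nat_lit 165)))) (XT.nd (nat_lit 156) (nat_lit 0) (nat_lit 0) (XT.nd (nat_lit 78) (nat_lit 0) (nat_lit 0) (XT.lf (nat_lit 0) (nat_lit 256982347250) (nat_lit 152) (nat_lit 2618771352258) (nat_lit 0) (nat_lit 113959585300) (nat_lit 2) (nat_lit 5)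 (nat_lit 4) (nat_lit 4) (nat_lit 2) (nat_lit 4) (nat_lit 404) (nat_lit 332) (nat_lit 164)) (XT.lf (nat_lit 0) (nat_lit 401327877338) (nat_lit 152) (nat_lit 2558413650833) (nat_lit 0) (nat_lit 258305089691) (nat_lit 2) (nat_lit 5) (nat_lit 4) (nat_lit 4) (nat_lit 2) (nat_lit 4) (nat_lit 405) (nat_lit 332) (nat_lit 163))) (XT.nd (nat_lit 78) (nat_lit 0) (nat_lit 0) (XT.lf (nat_lit 0) (nat_lit 557221003040) (nat_lit 152) (nat_lit 2493227426673) (nat_lit 0) (nat_lit 414198191600) (nat_lit 2) (nat_lit 5) (nat_lit 4) (nat_lit 4) (nat_lit 2) (nat_lit 4) (nat_lit 406) (nat_lit 332) (nat_lit 162)) (XT.lf (nat_lit 0) (nat_lit 725585535471) (nat_lit 152) (nat_lit 2422826391042) (nat_lit 0) (nat_lit 582562702000) (nat_lit 2) (nat_lit 5) (nat_lit 4) (nat_lit 4) (nat_lit 2) (nat_lit 4) (nat_lit 407) (nat_lit 332) (nat_lit 161))))) (XT.nd (nat_lit 41184) (nat_lit 0) (nat_lit 4028) (XT.nd (nat_lit 41028)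 (nat_lit 0) (nat_lit 3952) (XT.nd (nat_lit 78) (nat_lit 0) (nat_lit 0) (XT.lf (nat_lit 0) (nat_lit 907419190380) (nat_lit 152) (nat_lit 2346793352619) (nat_lit 0) (nat_lit 764396336510) (nat_lit 2) (nat_lit 5) (nat_lit 4) (nat_lit 4) (nat_lit 2) (nat_lit 4) (nat_lit 408) (nat_lit 332) (nat_lit 160)) (XT.lf (nat_lit 0) (nat_lit 1103799500535) (nat_lit 152) (nat_lit 2264677745249) (nat_lit 0) (nat_lit 960776627777) (nat_lit 2) (nat_lit 5) (nat_lit 4) (nat_lit 4) (nat_lit 2) (nat_lit 4) (nat_lit 409) (nat_lit 332) (nat_lit 159))) (XT.nd (nat_lit 78) (nat_lit 0) (nat_lit 0) (XT.lf (nat_lit 0) (nat_lit 19824450366) (nat_lit 532) (nat_lit 3004549482) (nat_lit 532) (nat_lit 3004549482) (nat_lit 54) (nat_lit 3) (nat_lit 61) (nat_lit 3) (nat_lit 61) (nat_lit 5) (nat_lit 333) (nat_lit 333) (nat_lit 234)) (XT.lf (nat_lit 76) (nat_lit 19424309014) (nat_lit 0) (nat_lit 22300423743) (nat_lit 532) (nat_lit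 11969818266) (nat_lit 55) (nat_lit 5) (nat_lit 54) (nat_lit 3) (nat_lit 61) (nat_lit 5) (nat_lit 334) (nat_lit 333) (nat_lit 233)))) (XT.nd (nat_lit 156) (nat_lit 0) (nat_lit 0) (XT.nd (nat_lit 78) (nat_lit 0) (nat_lit 0) (XT.lf (nat_lit 0) (nat_lit 44203282812) (nat_lit 456) (nat_lit 8713062414) (nat_lit 532) (nat_lit 2948926384) (nat_lit 55) (nat_lit 5) (nat_lit 61) (nat_lit 5) (nat_lit 62) (nat_lit 5) (nat_lit 335) (nat_lit 333) (nat_lit 232)) (XT.lf (nat_lit 76) (nat_lit 19272134493) (nat_lit 0) (nat_lit 28648598330) (nat_lit 532) (nat_lit 10205671590) (nat_lit 56) (nat_lit 5) (nat_lit 55) (nat_lit 5) (nat_lit 62) (nat_lit 5) (nat_lit 336) (nat_lit 333) (nat_lit 231))) (XT.nd (nat_lit 78) (nat_lit 0) (nat_lit 76) (XT.lf (nat_lit 76) (nat_lit 49990306571) (nat_lit 0) (nat_lit 2181515368) (nat_lit 532) (nat_lit 8377710012) (nat_lit 56) (nat_lit 5) (nat_lit 55) (nat_lit 5) (nat_lit 62)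 (nat_lit 5) (nat_lit 337) (nat_lit 333) (nat_lit 230)) (XT.nd (nat_lit 78) (nat_lit 0) (nat_lit 0) (XT.lf (nat_lit 76) (nat_lit 20382629292) (nat_lit 0) (nat_lit 37503736546) (nat_lit 532) (nat_lit 5190277738) (nat_lit 57) (nat_lit 5) (nat_lit 56) (nat_lit 5) (nat_lit 63) (nat_lit 5) (nat_lit 338) (nat_lit 333) (nat_lit 229)) (XT.lf (nat_lit 76) (nat_lit 54339310501) (nat_lit 0) (nat_lit 10060974547) (nat_lit 532) (nat_lit 1378265192) (nat_lit 57) (nat_lit 5) (nat_lit 56) (nat_lit 5) (nat_lit 63) (nat_lit 5) (nat_lit 339) (nat_lit 333) (nat_lit 228))))))) (XT.nd (nat_lit 702) (nat_lit 988) (nat_lit 0) (XT.nd (nat_lit 312) (nat_lit 608) (nat_lit 0) (XT.nd (nat_lit 156) (nat_lit 304) (nat_lit 0) (XT.nd (nat_lit 78) (nat_lit 0) (nat_lit 0) (XT.lf (nat_lit 0) (nat_lit 3650503536) (nat_lit 532) (nat_lit 45713340456) (nat_lit 76) (nat_lit 19243595064) (nat_lit 50) (nat_lit 5) (nat_lit 57) (nat_lit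 5) (nat_lit 51) (nat_lit 5) (nat_lit 340) (nat_lit 333) (nat_lit 227)) (XT.lf (nat_lit 0) (nat_lit 9587782254) (nat_lit 532) (nat_lit 11319671642) (nat_lit 76) (nat_lit 50705869928) (nat_lit 50) (nat_lit 5) (nat_lit 57) (nat_lit 5) (nat_lit 51) (nat_lit 5) (nat_lit 341) (nat_lit 333) (nat_lit 226))) (XT.nd (nat_lit 78) (nat_lit 0) (nat_lit 0) (XT.lf (nat_lit 0) (nat_lit 16905671968) (nat_lit 380) (nat_lit 47876797668) (nat_lit 76) (nat_lit 10004761685) (nat_lit 46) (nat_lit 5) (nat_lit 51) (nat_lit 5) (nat_lit 47) (nat_lit 5) (nat_lit 342) (nat_lit 333) (nat_lit 225)) (XT.lf (nat_lit 0) (nat_lit 25668225494) (nat_lit 380) (nat_lit 9900112905) (nat_lit 76) (nat_lit 42577976485) (nat_lit 46) (nat_lit 5) (nat_lit 51) (nat_lit 5) (nat_lit 47) (nat_lit 5) (nat_lit 343) (nat_lit 333) (nat_lit 224)))) (XT.nd (nat_lit 156) (nat_lit 380) (nat_lit 0) (XT.nd (nat_lit 78) (nat_lit 0) (nat_lit 0) (XT.lf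 (nat_lit 0) (nat_lit 32751749478) (nat_lit 228) (nat_lit 3166457744) (nat_lit 304) (nat_lit 45793005920) (nat_lit 43) (nat_lit 5) (nat_lit 46) (nat_lit 5) (nat_lit 47) (nat_lit 5) (nat_lit 344) (nat_lit 333) (nat_lit 223)) (XT.lf (nat_lit 0) (nat_lit 48030161744) (nat_lit 304) (nat_lit 6934737444) (nat_lit 76) (nat_lit 30513047913) (nat_lit 43) (nat_lit 5) (nat_lit 47) (nat_lit 5) (nat_lit 44) (nat_lit 5) (nat_lit 345) (nat_lit 333) (nat_lit 222))) (XT.nd (nat_lit 78) (nat_lit 152) (nat_lit 0) (XT.lf (nat_lit 0) (nat_lit 40388844584) (nat_lit 228) (nat_lit 21774717954) (nat_lit 304) (nat_lit 27298259695) (nat_lit 40) (nat_lit 5) (nat_lit 43) (nat_lit 5) (nat_lit 44) (nat_lit 5) (nat_lit 346) (nat_lit 333) (nat_lit 221)) (XT.nd (nat_lit 78) (nat_lit 152) (nat_lit 0) (XT.lf (nat_lit 0) (nat_lit 77959507028) (nat_lit 304) (nat_lit 2201204690) (nat_lit 76) (nat_lit 13561147454) (nat_lit 40)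 (nat_lit 5) (nat_lit 44) (nat_lit 5) (nat_lit 41) (nat_lit 5) (nat_lit 347) (nat_lit 333) (nat_lit 220)) (XT.lf (nat_lit 0) (nat_lit 50373373573) (nat_lit 152) (nat_lit 46421828660) (nat_lit 228) (nat_lit 1385412233) (nat_lit 38) (nat_lit 5) (nat_lit 40) (nat_lit 5) (nat_lit 41) (nat_lit 5) (nat_lit 348) (nat_lit 333) (nat_lit 219)))))) (XT.nd (nat_lit 312) (nat_lit 532) (nat_lit 0) (XT.nd (nat_lit 156) (nat_lit 152) (nat_lit 0) (XT.nd (nat_lit 78) (nat_lit 0) (nat_lit 0) (XT.lf (nat_lit 0) (nat_lit 4152648153) (nat_lit 228) (nat_lit 9442265160) (nat_lit 304) (nat_lit 89361097083) (nat_lit 34) (nat_lit 5) (nat_lit 37) (nat_lit 5) (nat_lit 38) (nat_lit 5) (nat_lit 349) (nat_lit 333) (nat_lit 218)) (XT.lf (nat_lit 0) (nat_lit 31772394231) (nat_lit 304) (nat_lit 45825352392) (nat_lit 76) (nat_lit 30346927514) (nat_lit 34) (nat_lit 5) (nat_lit 38) (nat_lit 5) (nat_lit 35) (nat_lit 5) (nat_lit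 350) (nat_lit 333) (nat_lit 217))) (XT.nd (nat_lit 78) (nat_lit 0) (nat_lit 0) (XT.lf (nat_lit 0) (nat_lit 11731291387) (nat_lit 152) (nat_lit 40199312507) (nat_lit 228) (nat_lit 61359705703) (nat_lit 32) (nat_lit 5) (nat_lit 34) (nat_lit 5) (nat_lit 35) (nat_lit 5) (nat_lit 351) (nat_lit 333) (nat_lit 216)) (XT.lf (nat_lit 0) (nat_lit 74990720386) (nat_lit 228) (nat_lit 42503130928) (nat_lit 76) (nat_lit 1466605537) (nat_lit 32) (nat_lit 5) (nat_lit 35) (nat_lit 5) (nat_lit 33) (nat_lit 5) (nat_lit 352) (nat_lit 333) (nat_lit 215)))) (XT.nd (nat_lit 156) (nat_lit 380) (nat_lit 0) (XT.nd (nat_lit 78) (nat_lit 0) (nat_lit 0) (XT.lf (nat_lit 0) (nat_lit 21297330795) (nat_lit 152) (nat_lit 80153882654) (nat_lit 228) (nat_lit 23508557946) (nat_lit 30) (nat_lit 5) (nat_lit 32) (nat_lit 5) (nat_lit 33) (nat_lit 5) (nat_lit 353) (nat_lit 333) (nat_lit 214)) (XT.lf (nat_lit 0) (nat_lit 92617911669)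 (nat_lit 152) (nat_lit 38572003687) (nat_lit 228) (nat_lit 156207019) (nat_lit 30) (nat_lit 5) (nat_lit 32) (nat_lit 5) (nat_lit 33) (nat_lit 5) (nat_lit 354) (nat_lit 333) (nat_lit 213))) (XT.nd (nat_lit 78) (nat_lit 152) (nat_lit 0) (XT.lf (nat_lit 0) (nat_lit 24777766432) (nat_lit 228) (nat_lit 105902526531) (nat_lit 76) (nat_lit 7437485048) (nat_lit 27) (nat_lit 5) (nat_lit 30) (nat_lit 5) (nat_lit 28) (nat_lit 5) (nat_lit 355) (nat_lit 333) (nat_lit 212)) (XT.nd (nat_lit 78) (nat_lit 152) (nat_lit 0) (XT.lf (nat_lit 0) (nat_lit 53785603994) (nat_lit 228) (nat_lit 35344270884) (nat_lit 76) (nat_lit 56133960451) (nat_lit 27) (nat_lit 5) (nat_lit 30) (nat_lit 5) (nat_lit 28) (nat_lit 5) (nat_lit 356) (nat_lit 333) (nat_lit 211)) (XT.lf (nat_lit 0) (nat_lit 43009132965) (nat_lit 152) (nat_lit 43138670618) (nat_lit 228) (nat_lit 66751075453) (nat_lit 25) (nat_lit 5) (nat_lit 27) (nat_lit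 5) (nat_lit 28) (nat_lit 5) (nat_lit 357) (nat_lit 333) (nat_lit 210))))))))
noncomputable def xc188 : XT := (XT.nd (nat_lit 1326) (nat_lit 608) (nat_lit 0) (XT.nd (nat_lit 624) (nat_lit 380) (nat_lit 0) (XT.nd (nat_lit 312) (nat_lit 228) (nat_lit 0) (XT.nd (nat_lit 156) (nat_lit 228) (nat_lit 0) (XT.nd (nat_lit 78) (nat_lit 76) (nat_lit 0) (XT.lf (nat_lit 0) (nat_lit 122246924572) (nat_lit 228) (nat_lit 31609757034) (nat_lit 76) (nat_lit 7196209562) (nat_lit 25) (nat_lit 5) (nat_lit 28) (nat_lit 5) (nat_lit 26) (nat_lit 4) (nat_lit 358) (nat_lit 333) (nat_lit 209)) (XT.lf (nat_lit 0) (nat_lit 54539489161) (nat_lit 76) (nat_lit 109126072158) (nat_lit 152) (nat_lit 5999136583) (nat_lit 24) (nat_lit 5) (nat_lit 25) (nat_lit 5) (nat_lit 26) (nat_lit 4) (nat_lit 359) (nat_lit 333) (nat_lit 208))) (XT.nd (nat_lit 78) (nat_lit 152) (nat_lit 0) (XT.lf (nat_lit 0) (nat_lit 28846065978) (nat_lit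 152) (nat_lit 30249202148) (nat_lit 76) (nat_lit 119742662131) (nat_lit 23) (nat_lit 5) (nat_lit 25) (nat_lit 5) (nat_lit 24) (nat_lit 5) (nat_lit 360) (nat_lit 333) (nat_lit 207)) (XT.lf (nat_lit 0) (nat_lit 64486036617) (nat_lit 152) (nat_lit 3219102552) (nat_lit 228) (nat_lit 120903387615) (nat_lit 21) (nat_lit 5) (nat_lit 23) (nat_lit 5) (nat_lit 24) (nat_lit 5) (nat_lit 361) (nat_lit 333) (nat_lit 206)))) (XT.nd (nat_lit 156) (nat_lit 152) (nat_lit 0) (XT.nd (nat_lit 78) (nat_lit 76) (nat_lit 0) (XT.lf (nat_lit 0) (nat_lit 111894879691) (nat_lit 228) (nat_lit 31970493794) (nat_lit 76) (nat_lit 55117642613) (nat_lit 21) (nat_lit 5) (nat_lit 24) (nat_lit 5) (nat_lit 22) (nat_lit 4) (nat_lit 362) (nat_lit 333) (nat_lit 205)) (XT.lf (nat_lit 0) (nat_lit 71022035204) (nat_lit 76) (nat_lit 90388980202) (nat_lit 152) (nat_lit 48633152229) (nat_lit 20) (nat_lit 5) (nat_lit 21) (nat_lit 5)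 (nat_lit 22) (nat_lit 4) (nat_lit 363) (nat_lit 333) (nat_lit 204))) (XT.nd (nat_lit 78) (nat_lit 152) (nat_lit 0) (XT.lf (nat_lit 0) (nat_lit 184071353821) (nat_lit 76) (nat_lit 31690755511) (nat_lit 152) (nat_lit 6158208902) (nat_lit 20) (nat_lit 5) (nat_lit 21) (nat_lit 5) (nat_lit 22) (nat_lit 4) (nat_lit 364) (nat_lit 333) (nat_lit 203)) (XT.lf (nat_lit 0) (nat_lit 40345050962) (nat_lit 152) (nat_lit 161188515728) (nat_lit 76) (nat_lit 32927222237) (nat_lit 18) (nat_lit 5) (nat_lit 20) (nat_lit 5) (nat_lit 19) (nat_lit 4) (nat_lit 365) (nat_lit 333) (nat_lit 202))))) (XT.nd (nat_lit 312) (nat_lit 228) (nat_lit 0) (XT.nd (nat_lit 156) (nat_lit 76) (nat_lit 0) (XT.nd (nat_lit 78) (nat_lit 76) (nat_lit 0) (XT.lf (nat_lit 0) (nat_lit 92120309164) (nat_lit 152) (nat_lit 53496738168) (nat_lit 76) (nat_lit 102223898666) (nat_lit 18) (nat_lit 5) (nat_lit 20) (nat_lit 5) (nat_lit 19) (nat_lit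 4) (nat_lit 366) (nat_lit 333) (nat_lit 201)) (XT.lf (nat_lit 0) (nat_lit 66117110508) (nat_lit 76) (nat_lit 83510194769) (nat_lit 152) (nat_lit 112537033216) (nat_lit 17) (nat_lit 5) (nat_lit 18) (nat_lit 5) (nat_lit 19) (nat_lit 4) (nat_lit 367) (nat_lit 333) (nat_lit 200))) (XT.nd (nat_lit 78) (nat_lit 76) (nat_lit 0) (XT.lf (nat_lit 0) (nat_lit 198341775393) (nat_lit 76) (nat_lit 14855393361) (nat_lit 152) (nat_lit 64319449242) (nat_lit 17) (nat_lit 5) (nat_lit 18) (nat_lit 5) (nat_lit 19) (nat_lit 4) (nat_lit 368) (nat_lit 333) (nat_lit 199)) (XT.lf (nat_lit 0) (nat_lit 48023000704) (nat_lit 76) (nat_lit 236410177823) (nat_lit 76) (nat_lit 9457456962) (nat_lit 16) (nat_lit 4) (nat_lit 17) (nat_lit 5) (nat_lit 17) (nat_lit 4) (nat_lit 369) (nat_lit 333) (nat_lit 198)))) (XT.nd (nat_lit 156) (nat_lit 76) (nat_lit 0) (XT.nd (nat_lit 78) (nat_lit 76) (nat_lit 0) (XT.lf (nat_lit 0) (nat_lit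 49909121291) (nat_lit 152) (nat_lit 123142265476) (nat_lit 76) (nat_lit 138218865102) (nat_lit 15) (nat_lit 5) (nat_lit 17) (nat_lit 5) (nat_lit 16) (nat_lit 4) (nat_lit 370) (nat_lit 333) (nat_lit 197)) (XT.lf (nat_lit 0) (nat_lit 9636942481) (nat_lit 76) (nat_lit 104108566584) (nat_lit 152) (nat_lit 216256562274) (nat_lit 14) (nat_lit 5) (nat_lit 15) (nat_lit 5) (nat_lit 16) (nat_lit 4) (nat_lit 371) (nat_lit 333) (nat_lit 196))) (XT.nd (nat_lit 78) (nat_lit 76) (nat_lit 0) (XT.lf (nat_lit 0) (nat_lit 160041091004) (nat_lit 76) (nat_lit 26014317909) (nat_lit 152) (nat_lit 163907699521) (nat_lit 14) (nat_lit 5) (nat_lit 15) (nat_lit 5) (nat_lit 16) (nat_lit 4) (nat_lit 372) (nat_lit 333) (nat_lit 195)) (XT.nd (nat_lit 78) (nat_lit 76) (nat_lit 0) (XT.lf (nat_lit 0) (nat_lit 265552569093) (nat_lit 152) (nat_lit 50446813232) (nat_lit 0) (nat_lit 55409448844) (nat_lit 14) (nat_lit 5) (nat_lit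 16) (nat_lit 4) (nat_lit 14) (nat_lit 4) (nat_lit 373) (nat_lit 333) (nat_lit 194)) (XT.lf (nat_lit 0) (nat_lit 104750203999) (nat_lit 76) (nat_lit 249853953724) (nat_lit 76) (nat_lit 39710481680) (nat_lit 13) (nat_lit 4) (nat_lit 14) (nat_lit 5) (nat_lit 14) (nat_lit 4) (nat_lit 374) (nat_lit 333) (nat_lit 193))))))) (XT.nd (nat_lit 624) (nat_lit 228) (nat_lit 0) (XT.nd (nat_lit 312) (nat_lit 228) (nat_lit 0) (XT.nd (nat_lit 156) (nat_lit 0) (nat_lit 0) (XT.nd (nat_lit 78) (nat_lit 76) (nat_lit 0) (XT.lf (nat_lit 0) (nat_lit 31554696871) (nat_lit 152) (nat_lit 144510028285) (nat_lit 76) (nat_lit 242813956770) (nat_lit 12) (nat_lit 5) (nat_lit 14) (nat_lit 5) (nat_lit 13) (nat_lit 4) (nat_lit 375) (nat_lit 333) (nat_lit 192)) (XT.lf (nat_lit 0) (nat_lit 11702183039) (nat_lit 76) (nat_lit 94954683511) (nat_lit 152) (nat_lit 338645972176) (nat_lit 11) (nat_lit 5) (nat_lit 12) (nat_lit 5)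 (nat_lit 13) (nat_lit 4) (nat_lit 376) (nat_lit 333) (nat_lit 191))) (XT.nd (nat_lit 78) (nat_lit 0) (nat_lit 0) (XT.lf (nat_lit 0) (nat_lit 188629299359) (nat_lit 76) (nat_lit 3088815069) (nat_lit 152) (nat_lit 281806741367) (nat_lit 11) (nat_lit 5) (nat_lit 12) (nat_lit 5) (nat_lit 13) (nat_lit 4) (nat_lit 377) (nat_lit 333) (nat_lit 190)) (XT.lf (nat_lit 0) (nat_lit 285895860694) (nat_lit 152) (nat_lit 126606352853) (nat_lit 0) (nat_lit 91317492886) (nat_lit 11) (nat_lit 5) (nat_lit 13) (nat_lit 4) (nat_lit 11) (nat_lit 4) (nat_lit 378) (nat_lit 333) (nat_lit 189)))) (XT.nd (nat_lit 156) (nat_lit 152) (nat_lit 0) (XT.nd (nat_lit 78) (nat_lit 0) (nat_lit 0) (XT.lf (nat_lit 0) (nat_lit 46596262921) (nat_lit 76) (nat_lit 342212210039) (nat_lit 76) (nat_lit 147633620541) (nat_lit 10) (nat_lit 4) (nat_lit 11) (nat_lit 5) (nat_lit 11) (nat_lit 4) (nat_lit 379) (nat_lit 333) (nat_lit 188))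 (XT.lf (nat_lit 0) (nat_lit 240854885369) (nat_lit 76) (nat_lit 262560633517) (nat_lit 76) (nat_lit 67981838750) (nat_lit 10) (nat_lit 4) (nat_lit 11) (nat_lit 5) (nat_lit 11) (nat_lit 4) (nat_lit 380) (nat_lit 333) (nat_lit 187))) (XT.nd (nat_lit 78) (nat_lit 76) (nat_lit 0) (XT.lf (nat_lit 0) (nat_lit 17139340824) (nat_lit 152) (nat_lit 158929155916) (nat_lit 76) (nat_lit 433045849744) (nat_lit 9) (nat_lit 5) (nat_lit 11) (nat_lit 5) (nat_lit 10) (nat_lit 4) (nat_lit 381) (nat_lit 333) (nat_lit 186)) (XT.lf (nat_lit 0) (nat_lit 25944967497) (nat_lit 76) (nat_lit 80076248037) (nat_lit 152) (nat_lit 543636315136) (nat_lit 8) (nat_lit 5) (nat_lit 9) (nat_lit 5) (nat_lit 10) (nat_lit 4) (nat_lit 382) (nat_lit 333) (nat_lit 185))))) (XT.nd (nat_lit 312) (nat_lit 152) (nat_lit 0) (XT.nd (nat_lit 156) (nat_lit 76) (nat_lit 0) (XT.nd (nat_lit 78) (nat_lit 0) (nat_lit 0) (XT.lf (nat_lit 0) (nat_lit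 207039192208) (nat_lit 152) (nat_lit 459129781595) (nat_lit 0) (nat_lit 26873151685) (nat_lit 8) (nat_lit 5) (nat_lit 10) (nat_lit 4) (nat_lit 8) (nat_lit 4) (nat_lit 383) (nat_lit 333) (nat_lit 184)) (XT.lf (nat_lit 0) (nat_lit 318218333719) (nat_lit 152) (nat_lit 283460622596) (nat_lit 0) (nat_lit 138052153493) (nat_lit 8) (nat_lit 5) (nat_lit 10) (nat_lit 4) (nat_lit 8) (nat_lit 4) (nat_lit 384) (nat_lit 333) (nat_lit 183))) (XT.nd (nat_lit 78) (nat_lit 76) (nat_lit 0) (XT.lf (nat_lit 0) (nat_lit 438291643732) (nat_lit 152) (nat_lit 93738248061) (nat_lit 0) (nat_lit 258125334153) (nat_lit 8) (nat_lit 5) (nat_lit 10) (nat_lit 4) (nat_lit 8) (nat_lit 4) (nat_lit 385) (nat_lit 333) (nat_lit 182)) (XT.lf (nat_lit 0) (nat_lit 117015196806) (nat_lit 76) (nat_lit 453769689281) (nat_lit 76) (nat_lit 273603259930) (nat_lit 7) (nat_lit 4) (nat_lit 8) (nat_lit 5) (nat_lit 8) (nat_lit 4) (nat_lit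 386) (nat_lit 333) (nat_lit 181)))) (XT.nd (nat_lit 156) (nat_lit 152) (nat_lit 0) (XT.nd (nat_lit 78) (nat_lit 0) (nat_lit 0) (XT.lf (nat_lit 0) (nat_lit 349959608236) (nat_lit 76) (nat_lit 366480802941) (nat_lit 76) (nat_lit 186314262689) (nat_lit 7) (nat_lit 4) (nat_lit 8) (nat_lit 5) (nat_lit 8) (nat_lit 4) (nat_lit 387) (nat_lit 333) (nat_lit 180)) (XT.lf (nat_lit 0) (nat_lit 601539307532) (nat_lit 76) (nat_lit 272208935119) (nat_lit 76) (nat_lit 92042292181) (nat_lit 7) (nat_lit 4) (nat_lit 8) (nat_lit 5) (nat_lit 8) (nat_lit 4) (nat_lit 388) (nat_lit 333) (nat_lit 179))) (XT.nd (nat_lit 78) (nat_lit 76) (nat_lit 0) (XT.lf (nat_lit 0) (nat_lit 9282500291) (nat_lit 152) (nat_lit 160859137409) (nat_lit 76) (nat_lit 863708837054) (nat_lit 6) (nat_lit 5) (nat_lit 8) (nat_lit 5) (nat_lit 7) (nat_lit 4) (nat_lit 389) (nat_lit 333) (nat_lit 178)) (XT.nd (nat_lit 78) (nat_lit 0) (nat_lit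 0) (XT.lf (nat_lit 0) (nat_lit 59384005705) (nat_lit 76) (nat_lit 55784663409) (nat_lit 152) (nat_lit 991881038682) (nat_lit 5) (nat_lit 5) (nat_lit 6) (nat_lit 5) (nat_lit 7) (nat_lit 4) (nat_lit 390) (nat_lit 333) (nat_lit 177)) (XT.lf (nat_lit 0) (nat_lit 235666713485) (nat_lit 152) (nat_lit 881101384686) (nat_lit 0) (nat_lit 68845502774) (nat_lit 5) (nat_lit 5) (nat_lit 7) (nat_lit 4) (nat_lit 5) (nat_lit 4) (nat_lit 391) (nat_lit 333) (nat_lit 176))))))))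
noncomputable def xc189 : XT := (XT.nd (nat_lit 42354) (nat_lit 0) (nat_lit 2432) (XT.nd (nat_lit 624) (nat_lit 152) (nat_lit 0) (XT.nd (nat_lit 312) (nat_lit 76) (nat_lit 0) (XT.nd (nat_lit 156) (nat_lit 0) (nat_lit 0) (XT.nd (nat_lit 78) (nat_lit 0) (nat_lit 0) (XT.lf (nat_lit 0) (nat_lit 367253443842) (nat_lit 152) (nat_lit 702661091091) (nat_lit 0) (nat_lit 200432163245) (nat_lit 5) (nat_lit 5) (nat_lit 7) (nat_lit 4) (nat_lit 5) (nat_lit 4) (nat_lit 392) (nat_lit 333) (nat_lit 175)) (XT.lf (nat_lit 0) (nat_lit 509367010905) (nat_lit 152) (nat_lit 509945774845) (nat_lit 0) (nat_lit 342545665599) (nat_lit 5) (nat_lit 5) (nat_lit 7) (nat_lit 4) (nat_lit 5) (nat_lit 4) (nat_lit 393) (nat_lit 333) (nat_lit 174))) (XT.nd (nat_lit 78) (nat_lit 0) (nat_lit 0) (XT.lf (nat_lit 0) (nat_lit 662849569147) (nat_lit 152) (nat_lit 301813419261) (nat_lit 0) (nat_lit 496028163924) (nat_lit 5) (nat_lit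 5) (nat_lit 7) (nat_lit 4) (nat_lit 5) (nat_lit 4) (nat_lit 394) (nat_lit 333) (nat_lit 173)) (XT.lf (nat_lit 0) (nat_lit 828610644837) (nat_lit 152) (nat_lit 77030647417) (nat_lit 0) (nat_lit 661789184137) (nat_lit 5) (nat_lit 5) (nat_lit 7) (nat_lit 4) (nat_lit 5) (nat_lit 4) (nat_lit 395) (nat_lit 333) (nat_lit 172)))) (XT.nd (nat_lit 156) (nat_lit 0) (nat_lit 0) (XT.nd (nat_lit 78) (nat_lit 0) (nat_lit 0) (XT.lf (nat_lit 0) (nat_lit 174461876374) (nat_lit 76) (nat_lit 837366461781) (nat_lit 76) (nat_lit 670544949713) (nat_lit 4) (nat_lit 4) (nat_lit 5) (nat_lit 5) (nat_lit 5) (nat_lit 4) (nat_lit 396) (nat_lit 333) (nat_lit 171)) (XT.lf (nat_lit 0) (nat_lit 450454447846) (nat_lit 76) (nat_lit 761355074997) (nat_lit 76) (nat_lit 594533515365) (nat_lit 4) (nat_lit 4) (nat_lit 5) (nat_lit 5) (nat_lit 5) (nat_lit 4) (nat_lit 397) (nat_lit 333) (nat_lit 170))) (XT.nd (nat_lit 78) (nat_lit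 0) (nat_lit 0) (XT.lf (nat_lit 0) (nat_lit 748526281153) (nat_lit 76) (nat_lit 679262848463) (nat_lit 76) (nat_lit 512441244792) (nat_lit 4) (nat_lit 4) (nat_lit 5) (nat_lit 5) (nat_lit 5) (nat_lit 4) (nat_lit 398) (nat_lit 333) (nat_lit 169)) (XT.lf (nat_lit 0) (nat_lit 1070443727896) (nat_lit 76) (nat_lit 590603309728) (nat_lit 76) (nat_lit 423781665278) (nat_lit 4) (nat_lit 4) (nat_lit 5) (nat_lit 5) (nat_lit 5) (nat_lit 4) (nat_lit 399) (nat_lit 333) (nat_lit 168))))) (XT.nd (nat_lit 312) (nat_lit 76) (nat_lit 0) (XT.nd (nat_lit 156) (nat_lit 76) (nat_lit 0) (XT.nd (nat_lit 78) (nat_lit 0) (nat_lit 0) (XT.lf (nat_lit 0) (nat_lit 1418114447022) (nat_lit 76) (nat_lit 494851068930) (nat_lit 76) (nat_lit 328029386723) (nat_lit 4) (nat_lit 4) (nat_lit 5) (nat_lit 5) (nat_lit 5) (nat_lit 4) (nat_lit 400) (nat_lit 333) (nat_lit 167)) (XT.lf (nat_lit 0) (nat_lit 1793598709457) (nat_lit 76)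 (nat_lit 391438705385) (nat_lit 76) (nat_lit 224616988218) (nat_lit 4) (nat_lit 4) (nat_lit 5) (nat_lit 5) (nat_lit 5) (nat_lit 4) (nat_lit 401) (nat_lit 333) (nat_lit 166))) (XT.nd (nat_lit 78) (nat_lit 76) (nat_lit 0) (XT.lf (nat_lit 0) (nat_lit 2199121607128) (nat_lit 76) (nat_lit 279753405086) (nat_lit 76) (nat_lit 112931655548) (nat_lit 4) (nat_lit 4) (nat_lit 5) (nat_lit 5) (nat_lit 5) (nat_lit 4) (nat_lit 402) (nat_lit 333) (nat_lit 165)) (XT.lf (nat_lit 0) (nat_lit 7303842871) (nat_lit 152) (nat_lit 151629786338) (nat_lit 76) (nat_lit 2629582695808) (nat_lit 3) (nat_lit 5) (nat_lit 5) (nat_lit 5) (nat_lit 4) (nat_lit 4) (nat_lit 403) (nat_lit 333) (nat_lit 164)))) (XT.nd (nat_lit 156) (nat_lit 0) (nat_lit 0) (XT.nd (nat_lit 78) (nat_lit 0) (nat_lit 0) (XT.lf (nat_lit 0) (nat_lit 111346531450) (nat_lit 76) (nat_lit 22388246777) (nat_lit 152) (nat_lit 2866779086273) (nat_lit 2) (nat_lit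 5) (nat_lit 3) (nat_lit 5) (nat_lit 4) (nat_lit 4) (nat_lit 404) (nat_lit 333) (nat_lit 163)) (XT.lf (nat_lit 0) (nat_lit 277541847946) (nat_lit 152) (nat_lit 2828271238645) (nat_lit 0) (nat_lit 123077187797) (nat_lit 2) (nat_lit 5) (nat_lit 4) (nat_lit 4) (nat_lit 2) (nat_lit 4) (nat_lit 405) (nat_lit 333) (nat_lit 162))) (XT.nd (nat_lit 78) (nat_lit 0) (nat_lit 0) (XT.lf (nat_lit 0) (nat_lit 433434952817) (nat_lit 152) (nat_lit 2763085056054) (nat_lit 0) (nat_lit 278970270638) (nat_lit 2) (nat_lit 5) (nat_lit 4) (nat_lit 4) (nat_lit 2) (nat_lit 4) (nat_lit 406) (nat_lit 333) (nat_lit 161)) (XT.nd (nat_lit 78) (nat_lit 0) (nat_lit 0) (XT.lf (nat_lit 0) (nat_lit 601799465962) (nat_lit 152) (nat_lit 2692684058912) (nat_lit 0) (nat_lit 447334763383) (nat_lit 2) (nat_lit 5) (nat_lit 4) (nat_lit 4) (nat_lit 2) (nat_lit 4) (nat_lit 407) (nat_lit 333) (nat_lit 160)) (XT.lf (nat_lit 0) (nat_lit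 783633103011) (nat_lit 152) (nat_lit 2616651056127) (nat_lit 0) (nat_lit 629168381544) (nat_lit 2) (nat_lit 5) (nat_lit 4) (nat_lit 4) (nat_lit 2) (nat_lit 4) (nat_lit 408) (nat_lit 333) (nat_lit 159))))))) (XT.nd (nat_lit 702) (nat_lit 1216) (nat_lit 0) (XT.nd (nat_lit 312) (nat_lit 304) (nat_lit 0) (XT.nd (nat_lit 156) (nat_lit 0) (nat_lit 76) (XT.nd (nat_lit 78) (nat_lit 0) (nat_lit 0) (XT.lf (nat_lit 0) (nat_lit 21432580854) (nat_lit 532) (nat_lit 3232918980) (nat_lit 532) (nat_lit 3232918980) (nat_lit 54) (nat_lit 3) (nat_lit 61) (nat_lit 3) (nat_lit 61) (nat_lit 5) (nat_lit 334) (nat_lit 334) (nat_lit 232)) (XT.lf (nat_lit 76) (nat_lit 21001635342) (nat_lit 0) (nat_lit 24102702177) (nat_lit 532) (nat_lit 12882372485) (nat_lit 55) (nat_lit 5) (nat_lit 54) (nat_lit 3) (nat_lit 61) (nat_lit 5) (nat_lit 335) (nat_lit 334) (nat_lit 231))) (XT.nd (nat_lit 78) (nat_lit 0) (nat_lit 0) (XT.lf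 (nat_lit 0) (nat_lit 47777681881) (nat_lit 456) (nat_lit 9384898619) (nat_lit 532) (nat_lit 3168792469) (nat_lit 55) (nat_lit 5) (nat_lit 61) (nat_lit 5) (nat_lit 62) (nat_lit 5) (nat_lit 336) (nat_lit 334) (nat_lit 230)) (XT.lf (nat_lit 76) (nat_lit 20838475843) (nat_lit 0) (nat_lit 30951818051) (nat_lit 532) (nat_lit 10983286366) (nat_lit 56) (nat_lit 5) (nat_lit 55) (nat_lit 5) (nat_lit 62) (nat_lit 5) (nat_lit 337) (nat_lit 334) (nat_lit 229)))) (XT.nd (nat_lit 156) (nat_lit 380) (nat_lit 0) (XT.nd (nat_lit 78) (nat_lit 0) (nat_lit 76) (XT.lf (nat_lit 76) (nat_lit 54012281644) (nat_lit 0) (nat_lit 2366529056) (nat_lit 532) (nat_lit 9011964821) (nat_lit 56) (nat_lit 5) (nat_lit 55) (nat_lit 5) (nat_lit 62) (nat_lit 5) (nat_lit 338) (nat_lit 334) (nat_lit 228)) (XT.lf (nat_lit 76) (nat_lit 22038310326) (nat_lit 0) (nat_lit 40510114638) (nat_lit 532) (nat_lit 5571802974) (nat_lit 57)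 (nat_lit 5) (nat_lit 56) (nat_lit 5) (nat_lit 63) (nat_lit 5) (nat_lit 339) (nat_lit 334) (nat_lit 227))) (XT.nd (nat_lit 78) (nat_lit 456) (nat_lit 0) (XT.lf (nat_lit 76) (nat_lit 58709668943) (nat_lit 0) (nat_lit 10871481371) (nat_lit 532) (nat_lit 1457325497) (nat_lit 57) (nat_lit 5) (nat_lit 56) (nat_lit 5) (nat_lit 63) (nat_lit 5) (nat_lit 340) (nat_lit 334) (nat_lit 226)) (XT.nd (nat_lit 78) (nat_lit 0) (nat_lit 0) (XT.lf (nat_lit 0) (nat_lit 3970478031) (nat_lit 532) (nat_lit 49343836355) (nat_lit 76) (nat_lit 20779441290) (nat_lit 50) (nat_lit 5) (nat_lit 57) (nat_lit 5) (nat_lit 51) (nat_lit 5) (nat_lit 341) (nat_lit 334) (nat_lit 225)) (XT.lf (nat_lit 0) (nat_lit 10380669846) (nat_lit 532) (nat_lit 12200642283) (nat_lit 76) (nat_lit 54758967874) (nat_lit 50) (nat_lit 5) (nat_lit 57) (nat_lit 5) (nat_lit 51) (nat_lit 5) (nat_lit 342) (nat_lit 334) (nat_lit 224)))))) (XT.nd (nat_lit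 312) (nat_lit 684) (nat_lit 0) (XT.nd (nat_lit 156) (nat_lit 228) (nat_lit 0) (XT.nd (nat_lit 78) (nat_lit 0) (nat_lit 0) (XT.lf (nat_lit 0) (nat_lit 18282638414) (nat_lit 380) (nat_lit 51680948544) (nat_lit 76) (nat_lit 10804624330) (nat_lit 46) (nat_lit 5) (nat_lit 51) (nat_lit 5) (nat_lit 47) (nat_lit 5) (nat_lit 343) (nat_lit 334) (nat_lit 223)) (XT.lf (nat_lit 0) (nat_lit 27744380467) (nat_lit 380) (nat_lit 10668054403) (nat_lit 76) (nat_lit 45983734706) (nat_lit 46) (nat_lit 5) (nat_lit 51) (nat_lit 5) (nat_lit 47) (nat_lit 5) (nat_lit 344) (nat_lit 334) (nat_lit 222))) (XT.nd (nat_lit 78) (nat_lit 0) (nat_lit 0) (XT.lf (nat_lit 0) (nat_lit 35395347666) (nat_lit 228) (nat_lit 3417895984) (nat_lit 304) (nat_lit 49433107984) (nat_lit 43) (nat_lit 5) (nat_lit 46) (nat_lit 5) (nat_lit 47) (nat_lit 5) (nat_lit 345) (nat_lit 334) (nat_lit 221)) (XT.lf (nat_lit 0) (nat_lit 51892597856)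 (nat_lit 304) (nat_lit 7466209389) (nat_lit 76) (nat_lit 32955743982) (nat_lit 43) (nat_lit 5) (nat_lit 47) (nat_lit 5) (nat_lit 44) (nat_lit 5) (nat_lit 346) (nat_lit 334) (nat_lit 220)))) (XT.nd (nat_lit 156) (nat_lit 456) (nat_lit 0) (XT.nd (nat_lit 78) (nat_lit 0) (nat_lit 0) (XT.lf (nat_lit 0) (nat_lit 43642669149) (nat_lit 228) (nat_lit 23513064710) (nat_lit 304) (nat_lit 29461479666) (nat_lit 40) (nat_lit 5) (nat_lit 43) (nat_lit 5) (nat_lit 44) (nat_lit 5) (nat_lit 347) (nat_lit 334) (nat_lit 219)) (XT.lf (nat_lit 0) (nat_lit 84214020957) (nat_lit 304) (nat_lit 2354908318) (nat_lit 76) (nat_lit 14649232823) (nat_lit 40) (nat_lit 5) (nat_lit 44) (nat_lit 5) (nat_lit 41) (nat_lit 5) (nat_lit 348) (nat_lit 334) (nat_lit 218))) (XT.nd (nat_lit 78) (nat_lit 304) (nat_lit 0) (XT.lf (nat_lit 0) (nat_lit 54425069301) (nat_lit 152) (nat_lit 50130712325) (nat_lit 228) (nat_lit 1477901294)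 (nat_lit 38) (nat_lit 5) (nat_lit 40) (nat_lit 5) (nat_lit 41) (nat_lit 5) (nat_lit 349) (nat_lit 334) (nat_lit 217)) (XT.nd (nat_lit 78) (nat_lit 0) (nat_lit 0) (XT.lf (nat_lit 0) (nat_lit 4507049041) (nat_lit 228) (nat_lit 10192126430) (nat_lit 304) (nat_lit 96491961957) (nat_lit 34) (nat_lit 5) (nat_lit 37) (nat_lit 5) (nat_lit 38) (nat_lit 5) (nat_lit 350) (nat_lit 334) (nat_lit 216)) (XT.lf (nat_lit 0) (nat_lit 34329743036) (nat_lit 304) (nat_lit 49469704583) (nat_lit 76) (nat_lit 32779537098) (nat_lit 34) (nat_lit 5) (nat_lit 38) (nat_lit 5) (nat_lit 35) (nat_lit 5) (nat_lit 351) (nat_lit 334) (nat_lit 215))))))))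
noncomputable def xc190 : XT := (XT.nd (nat_lit 1326) (nat_lit 684) (nat_lit 0) (XT.nd (nat_lit 624) (nat_lit 608) (nat_lit 0) (XT.nd (nat_lit 312) (nat_lit 380) (nat_lit 0) (XT.nd (nat_lit 156) (nat_lit 152) (nat_lit 0) (XT.nd (nat_lit 78) (nat_lit 0) (nat_lit 0) (XT.lf (nat_lit 0) (nat_lit 12690921940) (nat_lit 152) (nat_lit 43409043252) (nat_lit 228) (nat_lit 66252358753) (nat_lit 32) (nat_lit 5) (nat_lit 34) (nat_lit 5) (nat_lit 35) (nat_lit 5) (nat_lit 352) (nat_lit 334) (nat_lit 214)) (XT.lf (nat_lit 0) (nat_lit 81003924720) (nat_lit 228) (nat_lit 45882836764) (nat_lit 76) (nat_lit 1589400085) (nat_lit 32) (nat_lit 5) (nat_lit 35) (nat_lit 5) (nat_lit 33) (nat_lit 5) (nat_lit 353) (nat_lit 334) (nat_lit 213))) (XT.nd (nat_lit 78) (nat_lit 0) (nat_lit 0) (XT.lf (nat_lit 0) (nat_lit 23021141778) (nat_lit 152) (nat_lit 86559563950) (nat_lit 228) (nat_lit 25374760860) (nat_lit 30) (nat_lit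 5) (nat_lit 32) (nat_lit 5) (nat_lit 33) (nat_lit 5) (nat_lit 354) (nat_lit 334) (nat_lit 212)) (XT.lf (nat_lit 0) (nat_lit 100045885825) (nat_lit 152) (nat_lit 41651625727) (nat_lit 228) (nat_lit 155294579) (nat_lit 30) (nat_lit 5) (nat_lit 32) (nat_lit 5) (nat_lit 33) (nat_lit 5) (nat_lit 355) (nat_lit 334) (nat_lit 211)))) (XT.nd (nat_lit 156) (nat_lit 152) (nat_lit 0) (XT.nd (nat_lit 78) (nat_lit 0) (nat_lit 0) (XT.lf (nat_lit 0) (nat_lit 26772389206) (nat_lit 228) (nat_lit 114355155283) (nat_lit 76) (nat_lit 8038651817) (nat_lit 27) (nat_lit 5) (nat_lit 30) (nat_lit 5) (nat_lit 28) (nat_lit 5) (nat_lit 356) (nat_lit 334) (nat_lit 210)) (XT.lf (nat_lit 0) (nat_lit 58099935145) (nat_lit 228) (nat_lit 38153689064) (nat_lit 76) (nat_lit 60630388366) (nat_lit 27) (nat_lit 5) (nat_lit 30) (nat_lit 5) (nat_lit 28) (nat_lit 5) (nat_lit 357) (nat_lit 334) (nat_lit 209))) (XT.nd (nat_lit 78)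 (nat_lit 0) (nat_lit 0) (XT.lf (nat_lit 0) (nat_lit 46467528270) (nat_lit 152) (nat_lit 46583156687) (nat_lit 228) (nat_lit 72079209694) (nat_lit 25) (nat_lit 5) (nat_lit 27) (nat_lit 5) (nat_lit 28) (nat_lit 5) (nat_lit 358) (nat_lit 334) (nat_lit 208)) (XT.lf (nat_lit 0) (nat_lit 132037063723) (nat_lit 228) (nat_lit 34121500130) (nat_lit 76) (nat_lit 7777718404) (nat_lit 25) (nat_lit 5) (nat_lit 28) (nat_lit 5) (nat_lit 26) (nat_lit 4) (nat_lit 359) (nat_lit 334) (nat_lit 207))))) (XT.nd (nat_lit 312) (nat_lit 304) (nat_lit 0) (XT.nd (nat_lit 156) (nat_lit 152) (nat_lit 0) (XT.nd (nat_lit 78) (nat_lit 76) (nat_lit 0) (XT.lf (nat_lit 0) (nat_lit 58919254433) (nat_lit 76) (nat_lit 117849567083) (nat_lit 152) (nat_lit 6468242301) (nat_lit 24) (nat_lit 5) (nat_lit 25) (nat_lit 5) (nat_lit 26) (nat_lit 4) (nat_lit 360) (nat_lit 334) (nat_lit 206)) (XT.lf (nat_lit 0) (nat_lit 31163273189)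 (nat_lit 152) (nat_lit 32653253403) (nat_lit 76) (nat_lit 129327668877) (nat_lit 23) (nat_lit 5) (nat_lit 25) (nat_lit 5) (nat_lit 24) (nat_lit 5) (nat_lit 361) (nat_lit 334) (nat_lit 205))) (XT.nd (nat_lit 78) (nat_lit 0) (nat_lit 0) (XT.lf (nat_lit 0) (nat_lit 69660402314) (nat_lit 152) (nat_lit 3470336954) (nat_lit 228) (nat_lit 130565727640) (nat_lit 21) (nat_lit 5) (nat_lit 23) (nat_lit 5) (nat_lit 24) (nat_lit 5) (nat_lit 362) (nat_lit 334) (nat_lit 204)) (XT.lf (nat_lit 0) (nat_lit 120855118522) (nat_lit 228) (nat_lit 34513250501) (nat_lit 76) (nat_lit 59532590096) (nat_lit 21) (nat_lit 5) (nat_lit 24) (nat_lit 5) (nat_lit 22) (nat_lit 4) (nat_lit 363) (nat_lit 334) (nat_lit 203)))) (XT.nd (nat_lit 156) (nat_lit 228) (nat_lit 0) (XT.nd (nat_lit 78) (nat_lit 0) (nat_lit 0) (XT.lf (nat_lit 0) (nat_lit 76718304038) (nat_lit 76) (nat_lit 97613949300) (nat_lit 152) (nat_lit 52514773255)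 (nat_lit 20) (nat_lit 5) (nat_lit 21) (nat_lit 5) (nat_lit 22) (nat_lit 4) (nat_lit 364) (nat_lit 334) (nat_lit 202)) (XT.lf (nat_lit 0) (nat_lit 198810493624) (nat_lit 76) (nat_lit 34220322139) (nat_lit 152) (nat_lit 6642503436) (nat_lit 20) (nat_lit 5) (nat_lit 21) (nat_lit 5) (nat_lit 22) (nat_lit 4) (nat_lit 365) (nat_lit 334) (nat_lit 201))) (XT.nd (nat_lit 78) (nat_lit 76) (nat_lit 0) (XT.lf (nat_lit 0) (nat_lit 43580475313) (nat_lit 152) (nat_lit 174069613814) (nat_lit 76) (nat_lit 35566932597) (nat_lit 18) (nat_lit 5) (nat_lit 20) (nat_lit 5) (nat_lit 19) (nat_lit 4) (nat_lit 366) (nat_lit 334) (nat_lit 200)) (XT.nd (nat_lit 78) (nat_lit 76) (nat_lit 0) (XT.lf (nat_lit 0) (nat_lit 99497174891) (nat_lit 152) (nat_lit 57763529839) (nat_lit 76) (nat_lit 110406933319) (nat_lit 18) (nat_lit 5) (nat_lit 20) (nat_lit 5) (nat_lit 19) (nat_lit 4) (nat_lit 367) (nat_lit 334) (nat_lit 199))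 (XT.lf (nat_lit 0) (nat_lit 71419098949) (nat_lit 76) (nat_lit 90185398875) (nat_lit 152) (nat_lit 121532423070) (nat_lit 17) (nat_lit 5) (nat_lit 18) (nat_lit 5) (nat_lit 19) (nat_lit 4) (nat_lit 368) (nat_lit 334) (nat_lit 198))))))) (XT.nd (nat_lit 624) (nat_lit 304) (nat_lit 0) (XT.nd (nat_lit 312) (nat_lit 152) (nat_lit 0) (XT.nd (nat_lit 156) (nat_lit 152) (nat_lit 0) (XT.nd (nat_lit 78) (nat_lit 76) (nat_lit 0) (XT.lf (nat_lit 0) (nat_lit 214220802240) (nat_lit 76) (nat_lit 16038629020) (nat_lit 152) (nat_lit 69457993327) (nat_lit 17) (nat_lit 5) (nat_lit 18) (nat_lit 5) (nat_lit 19) (nat_lit 4) (nat_lit 369) (nat_lit 334) (nat_lit 197)) (XT.lf (nat_lit 0) (nat_lit 51876617574) (nat_lit 76) (nat_lit 255317622509) (nat_lit 76) (nat_lit 10207130210) (nat_lit 16) (nat_lit 4) (nat_lit 17) (nat_lit 5) (nat_lit 17) (nat_lit 4) (nat_lit 370) (nat_lit 334) (nat_lit 196))) (XT.nd (nat_lit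 78) (nat_lit 76) (nat_lit 0) (XT.lf (nat_lit 0) (nat_lit 53907940788) (nat_lit 152) (nat_lit 132982418618) (nat_lit 76) (nat_lit 149281022469) (nat_lit 15) (nat_lit 5) (nat_lit 17) (nat_lit 5) (nat_lit 16) (nat_lit 4) (nat_lit 371) (nat_lit 334) (nat_lit 195)) (XT.lf (nat_lit 0) (nat_lit 10418841719) (nat_lit 76) (nat_lit 112432209968) (nat_lit 152) (nat_lit 233550710466) (nat_lit 14) (nat_lit 5) (nat_lit 15) (nat_lit 5) (nat_lit 16) (nat_lit 4) (nat_lit 372) (nat_lit 334) (nat_lit 194)))) (XT.nd (nat_lit 156) (nat_lit 152) (nat_lit 0) (XT.nd (nat_lit 78) (nat_lit 0) (nat_lit 0) (XT.lf (nat_lit 0) (nat_lit 172854511469) (nat_lit 76) (nat_lit 28090794876) (nat_lit 152) (nat_lit 177014411048) (nat_lit 14) (nat_lit 5) (nat_lit 15) (nat_lit 5) (nat_lit 16) (nat_lit 4) (nat_lit 373) (nat_lit 334) (nat_lit 193)) (XT.lf (nat_lit 0) (nat_lit 286801938506) (nat_lit 152) (nat_lit 54472872528) (nat_lit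 0) (nat_lit 59846311168) (nat_lit 14) (nat_lit 5) (nat_lit 16) (nat_lit 4) (nat_lit 14) (nat_lit 4) (nat_lit 374) (nat_lit 334) (nat_lit 192))) (XT.nd (nat_lit 78) (nat_lit 76) (nat_lit 0) (XT.lf (nat_lit 0) (nat_lit 113139660873) (nat_lit 76) (nat_lit 269837837889) (nat_lit 76) (nat_lit 42881908944) (nat_lit 13) (nat_lit 4) (nat_lit 14) (nat_lit 5) (nat_lit 14) (nat_lit 4) (nat_lit 375) (nat_lit 334) (nat_lit 191)) (XT.lf (nat_lit 0) (nat_lit 34083832415) (nat_lit 152) (nat_lit 156061836787) (nat_lit 76) (nat_lit 262242924631) (nat_lit 12) (nat_lit 5) (nat_lit 14) (nat_lit 5) (nat_lit 13) (nat_lit 4) (nat_lit 376) (nat_lit 334) (nat_lit 190))))) (XT.nd (nat_lit 312) (nat_lit 152) (nat_lit 0) (XT.nd (nat_lit 156) (nat_lit 76) (nat_lit 0) (XT.nd (nat_lit 78) (nat_lit 0) (nat_lit 0) (XT.lf (nat_lit 0) (nat_lit 12647123753) (nat_lit 76) (nat_lit 102546910162) (nat_lit 152) (nat_lit 365732660740)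 (nat_lit 11) (nat_lit 5) (nat_lit 12) (nat_lit 5) (nat_lit 13) (nat_lit 4) (nat_lit 377) (nat_lit 334) (nat_lit 189)) (XT.lf (nat_lit 0) (nat_lit 203727760040) (nat_lit 76) (nat_lit 3332079505) (nat_lit 152) (nat_lit 304346661037) (nat_lit 11) (nat_lit 5) (nat_lit 12) (nat_lit 5) (nat_lit 13) (nat_lit 4) (nat_lit 378) (nat_lit 334) (nat_lit 188))) (XT.nd (nat_lit 78) (nat_lit 76) (nat_lit 0) (XT.lf (nat_lit 0) (nat_lit 308771574303) (nat_lit 152) (nat_lit 136727112898) (nat_lit 0) (nat_lit 98626270686) (nat_lit 11) (nat_lit 5) (nat_lit 13) (nat_lit 4) (nat_lit 11) (nat_lit 4) (nat_lit 379) (nat_lit 334) (nat_lit 187)) (XT.lf (nat_lit 0) (nat_lit 50331515982) (nat_lit 76) (nat_lit 369585561583) (nat_lit 76) (nat_lit 159440067903) (nat_lit 10) (nat_lit 4) (nat_lit 11) (nat_lit 5) (nat_lit 11) (nat_lit 4) (nat_lit 380) (nat_lit 334) (nat_lit 186)))) (XT.nd (nat_lit 156) (nat_lit 76) (nat_lit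 0) (XT.nd (nat_lit 78) (nat_lit 76) (nat_lit 0) (XT.lf (nat_lit 0) (nat_lit 260130268816) (nat_lit 76) (nat_lit 283562127477) (nat_lit 76) (nat_lit 73416457812) (nat_lit 10) (nat_lit 4) (nat_lit 11) (nat_lit 5) (nat_lit 11) (nat_lit 4) (nat_lit 381) (nat_lit 334) (nat_lit 185)) (XT.lf (nat_lit 0) (nat_lit 18513943221) (nat_lit 152) (nat_lit 171636830714) (nat_lit 76) (nat_lit 467692442768) (nat_lit 9) (nat_lit 5) (nat_lit 11) (nat_lit 5) (nat_lit 10) (nat_lit 4) (nat_lit 382) (nat_lit 334) (nat_lit 184))) (XT.nd (nat_lit 78) (nat_lit 0) (nat_lit 0) (XT.lf (nat_lit 0) (nat_lit 28027054024) (nat_lit 76) (nat_lit 86479214013) (nat_lit 152) (nat_lit 587123595659) (nat_lit 8) (nat_lit 5) (nat_lit 9) (nat_lit 5) (nat_lit 10) (nat_lit 4) (nat_lit 383) (nat_lit 334) (nat_lit 183)) (XT.nd (nat_lit 78) (nat_lit 0) (nat_lit 0) (XT.lf (nat_lit 0) (nat_lit 223605504093) (nat_lit 152) (nat_lit 495853975988)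 (nat_lit 0) (nat_lit 29025760393) (nat_lit 8) (nat_lit 5) (nat_lit 10) (nat_lit 4) (nat_lit 8) (nat_lit 4) (nat_lit 384) (nat_lit 334) (nat_lit 182)) (XT.lf (nat_lit 0) (nat_lit 343678741627) (nat_lit 152) (nat_lit 306131742649) (nat_lit 0) (nat_lit 149098878155) (nat_lit 8) (nat_lit 5) (nat_lit 10) (nat_lit 4) (nat_lit 8) (nat_lit 4) (nat_lit 385) (nat_lit 334) (nat_lit 181))))))))
noncomputable def xc191 : XT := (XT.nd (nat_lit 1326) (nat_lit 152) (nat_lit 0) (XT.nd (nat_lit 624) (nat_lit 76) (nat_lit 0) (XT.nd (nat_lit 312) (nat_lit 152) (nat_lit 0) (XT.nd (nat_lit 156) (nat_lit 0) (nat_lit 0) (XT.nd (nat_lit 78) (nat_lit 76) (nat_lit 0) (XT.lf (nat_lit 0) (nat_lit 473357698575) (nat_lit 152) (nat_lit 101232002578) (nat_lit 0) (nat_lit 278777724202) (nat_lit 8) (nat_lit 5) (nat_lit 10) (nat_lit 4) (nat_lit 8) (nat_lit 4) (nat_lit 386) (nat_lit 334) (nat_lit 180)) (XT.lf (nat_lit 0)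 (nat_lit 126381583567) (nat_lit 76) (nat_lit 490068739385) (nat_lit 76) (nat_lit 295488662327) (nat_lit 7) (nat_lit 4) (nat_lit 8) (nat_lit 5) (nat_lit 8) (nat_lit 4) (nat_lit 387) (nat_lit 334) (nat_lit 179))) (XT.nd (nat_lit 78) (nat_lit 0) (nat_lit 0) (XT.lf (nat_lit 0) (nat_lit 377961164873) (nat_lit 76) (nat_lit 395796929178) (nat_lit 76) (nat_lit 201216757041) (nat_lit 7) (nat_lit 4) (nat_lit 8) (nat_lit 5) (nat_lit 8) (nat_lit 4) (nat_lit 388) (nat_lit 334) (nat_lit 178)) (XT.lf (nat_lit 0) (nat_lit 649666885447) (nat_lit 76) (nat_lit 293983485115) (nat_lit 76) (nat_lit 99403224941) (nat_lit 7) (nat_lit 4) (nat_lit 8) (nat_lit 5) (nat_lit 8) (nat_lit 4) (nat_lit 389) (nat_lit 334) (nat_lit 177)))) (XT.nd (nat_lit 156) (nat_lit 0) (nat_lit 0) (XT.nd (nat_lit 78) (nat_lit 76) (nat_lit 0) (XT.lf (nat_lit 0) (nat_lit 10027255893) (nat_lit 152) (nat_lit 173723649429) (nat_lit 76) (nat_lit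 932807434422) (nat_lit 6) (nat_lit 5) (nat_lit 8) (nat_lit 5) (nat_lit 7) (nat_lit 4) (nat_lit 390) (nat_lit 334) (nat_lit 176)) (XT.lf (nat_lit 0) (nat_lit 64138838325) (nat_lit 76) (nat_lit 60245419122) (nat_lit 152) (nat_lit 1071229258885) (nat_lit 5) (nat_lit 5) (nat_lit 6) (nat_lit 5) (nat_lit 7) (nat_lit 4) (nat_lit 391) (nat_lit 334) (nat_lit 175))) (XT.nd (nat_lit 78) (nat_lit 0) (nat_lit 0) (XT.lf (nat_lit 0) (nat_lit 254522035120) (nat_lit 152) (nat_lit 951585577189) (nat_lit 0) (nat_lit 74354917480) (nat_lit 5) (nat_lit 5) (nat_lit 7) (nat_lit 4) (nat_lit 5) (nat_lit 4) (nat_lit 392) (nat_lit 334) (nat_lit 174)) (XT.lf (nat_lit 0) (nat_lit 396635556902) (nat_lit 152) (nat_lit 758870350348) (nat_lit 0) (nat_lit 216468379345) (nat_lit 5) (nat_lit 5) (nat_lit 7) (nat_lit 4) (nat_lit 5) (nat_lit 4) (nat_lit 393) (nat_lit 334) (nat_lit 173))))) (XT.nd (nat_lit 312) (nat_lit 0) (nat_lit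 0) (XT.nd (nat_lit 156) (nat_lit 76) (nat_lit 0) (XT.nd (nat_lit 78) (nat_lit 0) (nat_lit 0) (XT.lf (nat_lit 0) (nat_lit 550118073215) (nat_lit 152) (nat_lit 550738077546) (nat_lit 0) (nat_lit 369950840181) (nat_lit 5) (nat_lit 5) (nat_lit 7) (nat_lit 4) (nat_lit 5) (nat_lit 4) (nat_lit 394) (nat_lit 334) (nat_lit 172)) (XT.lf (nat_lit 0) (nat_lit 715879110083) (nat_lit 152) (nat_lit 325955382351) (nat_lit 0) (nat_lit 535711825681) (nat_lit 5) (nat_lit 5) (nat_lit 7) (nat_lit 4) (nat_lit 5) (nat_lit 4) (nat_lit 395) (nat_lit 334) (nat_lit 171))) (XT.nd (nat_lit 78) (nat_lit 76) (nat_lit 0) (XT.lf (nat_lit 0) (nat_lit 894900955133) (nat_lit 152) (nat_lit 83190219163) (nat_lit 0) (nat_lit 714733623167) (nat_lit 5) (nat_lit 5) (nat_lit 7) (nat_lit 4) (nat_lit 5) (nat_lit 4) (nat_lit 396) (nat_lit 334) (nat_lit 170)) (XT.lf (nat_lit 0) (nat_lit 188421633618) (nat_lit 76) (nat_lit 904354389757)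 (nat_lit 76) (nat_lit 724187013751) (nat_lit 4) (nat_lit 4) (nat_lit 5) (nat_lit 5) (nat_lit 5) (nat_lit 4) (nat_lit 397) (nat_lit 334) (nat_lit 169)))) (XT.nd (nat_lit 156) (nat_lit 0) (nat_lit 0) (XT.nd (nat_lit 78) (nat_lit 0) (nat_lit 0) (XT.lf (nat_lit 0) (nat_lit 486493402873) (nat_lit 76) (nat_lit 822262194916) (nat_lit 76) (nat_lit 642094778133) (nat_lit 4) (nat_lit 4) (nat_lit 5) (nat_lit 5) (nat_lit 5) (nat_lit 4) (nat_lit 398) (nat_lit 334) (nat_lit 168)) (XT.lf (nat_lit 0) (nat_lit 808410790310) (nat_lit 76) (nat_lit 733602685525) (nat_lit 76) (nat_lit 553435230984) (nat_lit 4) (nat_lit 4) (nat_lit 5) (nat_lit 5) (nat_lit 5) (nat_lit 4) (nat_lit 399) (nat_lit 334) (nat_lit 167))) (XT.nd (nat_lit 78) (nat_lit 0) (nat_lit 0) (XT.lf (nat_lit 0) (nat_lit 1156081454522) (nat_lit 76) (nat_lit 637850471899) (nat_lit 76) (nat_lit 457682982398) (nat_lit 4) (nat_lit 4) (nat_lit 5) (nat_lit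 5) (nat_lit 5) (nat_lit 4) (nat_lit 400) (nat_lit 334) (nat_lit 166)) (XT.nd (nat_lit 78) (nat_lit 0) (nat_lit 0) (XT.lf (nat_lit 0) (nat_lit 1531565666112) (nat_lit 76) (nat_lit 534438133513) (nat_lit 76) (nat_lit 354270611641) (nat_lit 4) (nat_lit 4) (nat_lit 5) (nat_lit 5) (nat_lit 5) (nat_lit 4) (nat_lit 401) (nat_lit 334) (nat_lit 165)) (XT.lf (nat_lit 0) (nat_lit 1937088516703) (nat_lit 76) (nat_lit 422752856509) (nat_lit 76) (nat_lit 242585304664) (nat_lit 4) (nat_lit 4) (nat_lit 5) (nat_lit 5) (nat_lit 5) (nat_lit 4) (nat_lit 402) (nat_lit 334) (nat_lit 164))))))) (XT.nd (nat_lit 41808) (nat_lit 0) (nat_lit 3116) (XT.nd (nat_lit 312) (nat_lit 0) (nat_lit 0) (XT.nd (nat_lit 156) (nat_lit 76) (nat_lit 0) (XT.nd (nat_lit 78) (nat_lit 76) (nat_lit 0) (XT.lf (nat_lit 0) (nat_lit 2375053104669) (nat_lit 76) (nat_lit 302132802209) (nat_lit 76) (nat_lit 121965222611) (nat_lit 4) (nat_lit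 4) (nat_lit 5) (nat_lit 5) (nat_lit 5) (nat_lit 4) (nat_lit 403) (nat_lit 334) (nat_lit 163)) (XT.lf (nat_lit 0) (nat_lit 7888999457) (nat_lit 152) (nat_lit 163758486422) (nat_lit 76) (nat_lit 2839950077035) (nat_lit 3) (nat_lit 5) (nat_lit 5) (nat_lit 5) (nat_lit 4) (nat_lit 4) (nat_lit 404) (nat_lit 334) (nat_lit 162))) (XT.nd (nat_lit 78) (nat_lit 0) (nat_lit 0) (XT.lf (nat_lit 0) (nat_lit 120255894186) (nat_lit 76) (nat_lit 24178492003) (nat_lit 152) (nat_lit 3096120521256) (nat_lit 2) (nat_lit 5) (nat_lit 3) (nat_lit 5) (nat_lit 4) (nat_lit 4) (nat_lit 405) (nat_lit 334) (nat_lit 161)) (XT.lf (nat_lit 0) (nat_lit 299745978459) (nat_lit 152) (nat_lit 3054531375843) (nat_lit 0) (nat_lit 132924079275) (nat_lit 2) (nat_lit 5) (nat_lit 4) (nat_lit 4) (nat_lit 2) (nat_lit 4) (nat_lit 406) (nat_lit 334) (nat_lit 160)))) (XT.nd (nat_lit 41262) (nat_lit 0) (nat_lit 3952) (XT.nd (nat_lit 78)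 (nat_lit 0) (nat_lit 0) (XT.lf (nat_lit 0) (nat_lit 468110473745) (nat_lit 152) (nat_lit 2984130414340) (nat_lit 0) (nat_lit 301288555673) (nat_lit 2) (nat_lit 5) (nat_lit 4) (nat_lit 4) (nat_lit 2) (nat_lit 4) (nat_lit 407) (nat_lit 334) (nat_lit 159)) (XT.lf (nat_lit 0) (nat_lit 649944094259) (nat_lit 152) (nat_lit 2908097444553) (nat_lit 0) (nat_lit 483122158698) (nat_lit 2) (nat_lit 5) (nat_lit 4) (nat_lit 4) (nat_lit 2) (nat_lit 4) (nat_lit 408) (nat_lit 334) (nat_lit 158))) (XT.nd (nat_lit 78) (nat_lit 0) (nat_lit 0) (XT.lf (nat_lit 0) (nat_lit 23166198347) (nat_lit 532) (nat_lit 3481269181) (nat_lit 532) (nat_lit 3481269181) (nat_lit 54) (nat_lit 3) (nat_lit 61) (nat_lit 3) (nat_lit 61) (nat_lit 5) (nat_lit 335) (nat_lit 335) (nat_lit 230)) (XT.nd (nat_lit 78) (nat_lit 0) (nat_lit 76) (XT.lf (nat_lit 76) (nat_lit 22701812128) (nat_lit 0) (nat_lit 26046560098) (nat_lit 532) (nat_lit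 13874355251) (nat_lit 55) (nat_lit 5) (nat_lit 54) (nat_lit 3) (nat_lit 61) (nat_lit 5) (nat_lit 336) (nat_lit 335) (nat_lit 229)) (XT.lf (nat_lit 0) (nat_lit 51632592285) (nat_lit 456) (nat_lit 10114078037) (nat_lit 532) (nat_lit 3408537270) (nat_lit 55) (nat_lit 5) (nat_lit 61) (nat_lit 5) (nat_lit 62) (nat_lit 5) (nat_lit 337) (nat_lit 335) (nat_lit 228)))))) (XT.nd (nat_lit 312) (nat_lit 912) (nat_lit 0) (XT.nd (nat_lit 156) (nat_lit 0) (nat_lit 76) (XT.nd (nat_lit 78) (nat_lit 0) (nat_lit 0) (XT.lf (nat_lit 76) (nat_lit 22526619231) (nat_lit 0) (nat_lit 33437678734) (nat_lit 532) (nat_lit 11828651135) (nat_lit 56) (nat_lit 5) (nat_lit 55) (nat_lit 5) (nat_lit 62) (nat_lit 5) (nat_lit 338) (nat_lit 335) (nat_lit 227)) (XT.lf (nat_lit 76) (nat_lit 58352769102) (nat_lit 0) (nat_lit 2564846972) (nat_lit 532) (nat_lit 9702090396) (nat_lit 56) (nat_lit 5) (nat_lit 55) (nat_lit 5) (nat_lit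 62) (nat_lit 5) (nat_lit 339) (nat_lit 335) (nat_lit 226))) (XT.nd (nat_lit 78) (nat_lit 0) (nat_lit 0) (XT.lf (nat_lit 76) (nat_lit 23822869228) (nat_lit 0) (nat_lit 43756135717) (nat_lit 532) (nat_lit 5988657480) (nat_lit 57) (nat_lit 5) (nat_lit 56) (nat_lit 5) (nat_lit 63) (nat_lit 5) (nat_lit 340) (nat_lit 335) (nat_lit 225)) (XT.lf (nat_lit 76) (nat_lit 63426344380) (nat_lit 0) (nat_lit 11746025721) (nat_lit 532) (nat_lit 1547161785) (nat_lit 57) (nat_lit 5) (nat_lit 56) (nat_lit 5) (nat_lit 63) (nat_lit 5) (nat_lit 341) (nat_lit 335) (nat_lit 224)))) (XT.nd (nat_lit 156) (nat_lit 532) (nat_lit 0) (XT.nd (nat_lit 78) (nat_lit 0) (nat_lit 0) (XT.lf (nat_lit 0) (nat_lit 4312065358) (nat_lit 532) (nat_lit 53268562624) (nat_lit 76) (nat_lit 22438674697) (nat_lit 50) (nat_lit 5) (nat_lit 57) (nat_lit 5) (nat_lit 51) (nat_lit 5) (nat_lit 342) (nat_lit 335) (nat_lit 223)) (XT.lf (nat_lit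 0) (nat_lit 11233298512) (nat_lit 532) (nat_lit 13155600482) (nat_lit 76) (nat_lit 59136794659) (nat_lit 50) (nat_lit 5) (nat_lit 57) (nat_lit 5) (nat_lit 51) (nat_lit 5) (nat_lit 343) (nat_lit 335) (nat_lit 222))) (XT.nd (nat_lit 78) (nat_lit 228) (nat_lit 0) (XT.lf (nat_lit 0) (nat_lit 19766265166) (nat_lit 380) (nat_lit 55793139673) (nat_lit 76) (nat_lit 11668549926) (nat_lit 46) (nat_lit 5) (nat_lit 51) (nat_lit 5) (nat_lit 47) (nat_lit 5) (nat_lit 344) (nat_lit 335) (nat_lit 221)) (XT.nd (nat_lit 78) (nat_lit 228) (nat_lit 0) (XT.lf (nat_lit 0) (nat_lit 29983389866) (nat_lit 380) (nat_lit 11500864723) (nat_lit 76) (nat_lit 49662022047) (nat_lit 46) (nat_lit 5) (nat_lit 51) (nat_lit 5) (nat_lit 47) (nat_lit 5) (nat_lit 345) (nat_lit 335) (nat_lit 220)) (XT.lf (nat_lit 0) (nat_lit 38247087131) (nat_lit 228) (nat_lit 3689717255) (nat_lit 304) (nat_lit 53367747698) (nat_lit 43) (nat_lit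 5) (nat_lit 46) (nat_lit 5) (nat_lit 47) (nat_lit 5) (nat_lit 346) (nat_lit 335) (nat_lit 219))))))))
noncomputable def xc192 : XT := (XT.nd (nat_lit 1326) (nat_lit 760) (nat_lit 0) (XT.nd (nat_lit 624) (nat_lit 836) (nat_lit 0) (XT.nd (nat_lit 312) (nat_lit 456) (nat_lit 0) (XT.nd (nat_lit 156) (nat_lit 152) (nat_lit 0) (XT.nd (nat_lit 78) (nat_lit 228) (nat_lit 0) (XT.lf (nat_lit 0) (nat_lit 56061172327) (nat_lit 304) (nat_lit 8043524102) (nat_lit 76) (nat_lit 35593620028) (nat_lit 43) (nat_lit 5) (nat_lit 47) (nat_lit 5) (nat_lit 44) (nat_lit 5) (nat_lit 347) (nat_lit 335) (nat_lit 218)) (XT.lf (nat_lit 0) (nat_lit 47153558845) (nat_lit 228) (nat_lit 25390997164) (nat_lit 304) (nat_lit 31800701876) (nat_lit 40) (nat_lit 5) (nat_lit 43) (nat_lit 5) (nat_lit 44) (nat_lit 5) (nat_lit 348) (nat_lit 335) (nat_lit 217))) (XT.nd (nat_lit 78) (nat_lit 152) (nat_lit 0) (XT.lf (nat_lit 0) (nat_lit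 90966363284) (nat_lit 304) (nat_lit 2524102812) (nat_lit 76) (nat_lit 15823909423) (nat_lit 40) (nat_lit 5) (nat_lit 44) (nat_lit 5) (nat_lit 41) (nat_lit 5) (nat_lit 349) (nat_lit 335) (nat_lit 216)) (XT.lf (nat_lit 0) (nat_lit 58797786987) (nat_lit 152) (nat_lit 54137000392) (nat_lit 228) (nat_lit 1580406444) (nat_lit 38) (nat_lit 5) (nat_lit 40) (nat_lit 5) (nat_lit 41) (nat_lit 5) (nat_lit 350) (nat_lit 335) (nat_lit 215)))) (XT.nd (nat_lit 156) (nat_lit 152) (nat_lit 0) (XT.nd (nat_lit 78) (nat_lit 0) (nat_lit 0) (XT.lf (nat_lit 0) (nat_lit 4886636486) (nat_lit 228) (nat_lit 11002764083) (nat_lit 304) (nat_lit 104195867188) (nat_lit 34) (nat_lit 5) (nat_lit 37) (nat_lit 5) (nat_lit 38) (nat_lit 5) (nat_lit 351) (nat_lit 335) (nat_lit 214)) (XT.lf (nat_lit 0) (nat_lit 37089460327) (nat_lit 304) (nat_lit 53408697272) (nat_lit 76) (nat_lit 35406062774) (nat_lit 34) (nat_lit 5) (nat_lit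 38) (nat_lit 5) (nat_lit 35) (nat_lit 5) (nat_lit 352) (nat_lit 335) (nat_lit 213))) (XT.nd (nat_lit 78) (nat_lit 0) (nat_lit 0) (XT.lf (nat_lit 0) (nat_lit 13724308899) (nat_lit 152) (nat_lit 46876438990) (nat_lit 228) (nat_lit 71538724231) (nat_lit 32) (nat_lit 5) (nat_lit 34) (nat_lit 5) (nat_lit 35) (nat_lit 5) (nat_lit 353) (nat_lit 335) (nat_lit 212)) (XT.lf (nat_lit 0) (nat_lit 87496195747) (nat_lit 228) (nat_lit 49535849990) (nat_lit 76) (nat_lit 1721238395) (nat_lit 32) (nat_lit 5) (nat_lit 35) (nat_lit 5) (nat_lit 33) (nat_lit 5) (nat_lit 354) (nat_lit 335) (nat_lit 211))))) (XT.nd (nat_lit 312) (nat_lit 456) (nat_lit 0) (XT.nd (nat_lit 156) (nat_lit 228) (nat_lit 0) (XT.nd (nat_lit 78) (nat_lit 0) (nat_lit 0) (XT.lf (nat_lit 0) (nat_lit 24880000919) (nat_lit 152) (nat_lit 93478645497) (nat_lit 228) (nat_lit 27392325986) (nat_lit 30) (nat_lit 5) (nat_lit 32) (nat_lit 5) (nat_lit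 33) (nat_lit 5) (nat_lit 355) (nat_lit 335) (nat_lit 210)) (XT.lf (nat_lit 0) (nat_lit 108065452801) (nat_lit 152) (nat_lit 44978493220) (nat_lit 228) (nat_lit 156222088) (nat_lit 30) (nat_lit 5) (nat_lit 32) (nat_lit 5) (nat_lit 33) (nat_lit 5) (nat_lit 356) (nat_lit 335) (nat_lit 209))) (XT.nd (nat_lit 78) (nat_lit 0) (nat_lit 0) (XT.lf (nat_lit 0) (nat_lit 28924812594) (nat_lit 228) (nat_lit 123486786696) (nat_lit 76) (nat_lit 8687031999) (nat_lit 27) (nat_lit 5) (nat_lit 30) (nat_lit 5) (nat_lit 28) (nat_lit 5) (nat_lit 357) (nat_lit 335) (nat_lit 208)) (XT.lf (nat_lit 0) (nat_lit 62757774635) (nat_lit 228) (nat_lit 41190446217) (nat_lit 76) (nat_lit 65485715765) (nat_lit 27) (nat_lit 5) (nat_lit 30) (nat_lit 5) (nat_lit 28) (nat_lit 5) (nat_lit 358) (nat_lit 335) (nat_lit 207)))) (XT.nd (nat_lit 156) (nat_lit 304) (nat_lit 0) (XT.nd (nat_lit 78) (nat_lit 0) (nat_lit 0) (XT.lf (nat_lit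 0) (nat_lit 50200075137) (nat_lit 152) (nat_lit 50304144287) (nat_lit 228) (nat_lit 77835299730) (nat_lit 25) (nat_lit 5) (nat_lit 27) (nat_lit 5) (nat_lit 28) (nat_lit 5) (nat_lit 359) (nat_lit 335) (nat_lit 206)) (XT.lf (nat_lit 0) (nat_lit 142608932443) (nat_lit 228) (nat_lit 36836613258) (nat_lit 76) (nat_lit 8404918795) (nat_lit 25) (nat_lit 5) (nat_lit 28) (nat_lit 5) (nat_lit 26) (nat_lit 4) (nat_lit 360) (nat_lit 335) (nat_lit 205))) (XT.nd (nat_lit 78) (nat_lit 228) (nat_lit 0) (XT.lf (nat_lit 0) (nat_lit 63647031875) (nat_lit 76) (nat_lit 127271881859) (nat_lit 152) (nat_lit 6976420814) (nat_lit 24) (nat_lit 5) (nat_lit 25) (nat_lit 5) (nat_lit 26) (nat_lit 4) (nat_lit 361) (nat_lit 335) (nat_lit 204)) (XT.nd (nat_lit 78) (nat_lit 152) (nat_lit 0) (XT.lf (nat_lit 0) (nat_lit 33664498567) (nat_lit 152) (nat_lit 35251894920) (nat_lit 76) (nat_lit 139678678147) (nat_lit 23) (nat_lit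 5) (nat_lit 25) (nat_lit 5) (nat_lit 24) (nat_lit 5) (nat_lit 362) (nat_lit 335) (nat_lit 203)) (XT.lf (nat_lit 0) (nat_lit 75246508476) (nat_lit 152) (nat_lit 3742567990) (nat_lit 228) (nat_lit 141002471632) (nat_lit 21) (nat_lit 5) (nat_lit 23) (nat_lit 5) (nat_lit 24) (nat_lit 5) (nat_lit 363) (nat_lit 335) (nat_lit 202))))))) (XT.nd (nat_lit 624) (nat_lit 380) (nat_lit 0) (XT.nd (nat_lit 312) (nat_lit 152) (nat_lit 0) (XT.nd (nat_lit 156) (nat_lit 152) (nat_lit 0) (XT.nd (nat_lit 78) (nat_lit 76) (nat_lit 0) (XT.lf (nat_lit 0) (nat_lit 130530942660) (nat_lit 228) (nat_lit 37261550942) (nat_lit 76) (nat_lit 64299943595) (nat_lit 21) (nat_lit 5) (nat_lit 24) (nat_lit 5) (nat_lit 22) (nat_lit 4) (nat_lit 364) (nat_lit 335) (nat_lit 201)) (XT.lf (nat_lit 0) (nat_lit 82868204933) (nat_lit 76) (nat_lit 105417793195) (nat_lit 152) (nat_lit 56708212357) (nat_lit 20) (nat_lit 5) (nat_lit 21)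 (nat_lit 5) (nat_lit 22) (nat_lit 4) (nat_lit 365) (nat_lit 335) (nat_lit 200))) (XT.nd (nat_lit 78) (nat_lit 152) (nat_lit 0) (XT.lf (nat_lit 0) (nat_lit 214726848458) (nat_lit 76) (nat_lit 36953066383) (nat_lit 152) (nat_lit 7166734491) (nat_lit 20) (nat_lit 5) (nat_lit 21) (nat_lit 5) (nat_lit 22) (nat_lit 4) (nat_lit 366) (nat_lit 335) (nat_lit 199)) (XT.lf (nat_lit 0) (nat_lit 47073617962) (nat_lit 152) (nat_lit 187983194602) (nat_lit 76) (nat_lit 38417030500) (nat_lit 18) (nat_lit 5) (nat_lit 20) (nat_lit 5) (nat_lit 19) (nat_lit 4) (nat_lit 367) (nat_lit 335) (nat_lit 198)))) (XT.nd (nat_lit 156) (nat_lit 76) (nat_lit 0) (XT.nd (nat_lit 78) (nat_lit 76) (nat_lit 0) (XT.lf (nat_lit 0) (nat_lit 107463156867) (nat_lit 152) (nat_lit 62373511932) (nat_lit 76) (nat_lit 119243879925) (nat_lit 18) (nat_lit 5) (nat_lit 20) (nat_lit 5) (nat_lit 19) (nat_lit 4) (nat_lit 368) (nat_lit 335)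 (nat_lit 197)) (XT.lf (nat_lit 0) (nat_lit 77143446138) (nat_lit 76) (nat_lit 97395419850) (nat_lit 152) (nat_lit 131248524458) (nat_lit 17) (nat_lit 5) (nat_lit 18) (nat_lit 5) (nat_lit 19) (nat_lit 4) (nat_lit 369) (nat_lit 335) (nat_lit 196))) (XT.nd (nat_lit 78) (nat_lit 76) (nat_lit 0) (XT.lf (nat_lit 0) (nat_lit 231368484265) (nat_lit 76) (nat_lit 17317264771) (nat_lit 152) (nat_lit 75008621258) (nat_lit 17) (nat_lit 5) (nat_lit 18) (nat_lit 5) (nat_lit 19) (nat_lit 4) (nat_lit 370) (nat_lit 335) (nat_lit 195)) (XT.lf (nat_lit 0) (nat_lit 56036843700) (nat_lit 76) (nat_lit 275738428794) (nat_lit 76) (nat_lit 11017765006) (nat_lit 16) (nat_lit 4) (nat_lit 17) (nat_lit 5) (nat_lit 17) (nat_lit 4) (nat_lit 371) (nat_lit 335) (nat_lit 194))))) (XT.nd (nat_lit 312) (nat_lit 228) (nat_lit 0) (XT.nd (nat_lit 156) (nat_lit 0) (nat_lit 0) (XT.nd (nat_lit 78) (nat_lit 76) (nat_lit 0) (XT.lf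 (nat_lit 0) (nat_lit 58225797067) (nat_lit 152) (nat_lit 143611385826) (nat_lit 76) (nat_lit 161227489313) (nat_lit 15) (nat_lit 5) (nat_lit 17) (nat_lit 5) (nat_lit 16) (nat_lit 4) (nat_lit 372) (nat_lit 335) (nat_lit 193)) (XT.lf (nat_lit 0) (nat_lit 11261731635) (nat_lit 76) (nat_lit 121422464112) (nat_lit 152) (nat_lit 252229300234) (nat_lit 14) (nat_lit 5) (nat_lit 15) (nat_lit 5) (nat_lit 16) (nat_lit 4) (nat_lit 373) (nat_lit 335) (nat_lit 192))) (XT.nd (nat_lit 78) (nat_lit 0) (nat_lit 0) (XT.lf (nat_lit 0) (nat_lit 186691559960) (nat_lit 76) (nat_lit 30334056009) (nat_lit 152) (nat_lit 191170501831) (nat_lit 14) (nat_lit 5) (nat_lit 15) (nat_lit 5) (nat_lit 16) (nat_lit 4) (nat_lit 374) (nat_lit 335) (nat_lit 191)) (XT.lf (nat_lit 0) (nat_lit 309750520786) (nat_lit 152) (nat_lit 58822398350) (nat_lit 0) (nat_lit 64637536652) (nat_lit 14) (nat_lit 5) (nat_lit 16) (nat_lit 4) (nat_lit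 14) (nat_lit 4) (nat_lit 375) (nat_lit 335) (nat_lit 190)))) (XT.nd (nat_lit 156) (nat_lit 76) (nat_lit 0) (XT.nd (nat_lit 78) (nat_lit 76) (nat_lit 0) (XT.lf (nat_lit 0) (nat_lit 122198927496) (nat_lit 76) (nat_lit 291421065081) (nat_lit 76) (nat_lit 46307822367) (nat_lit 13) (nat_lit 4) (nat_lit 14) (nat_lit 5) (nat_lit 14) (nat_lit 4) (nat_lit 376) (nat_lit 335) (nat_lit 189)) (XT.lf (nat_lit 0) (nat_lit 36814619763) (nat_lit 152) (nat_lit 168539073030) (nat_lit 76) (nat_lit 283225660486) (nat_lit 12) (nat_lit 5) (nat_lit 14) (nat_lit 5) (nat_lit 13) (nat_lit 4) (nat_lit 377) (nat_lit 335) (nat_lit 188))) (XT.nd (nat_lit 78) (nat_lit 0) (nat_lit 0) (XT.lf (nat_lit 0) (nat_lit 13666409146) (nat_lit 76) (nat_lit 110747106707) (nat_lit 152) (nat_lit 394986996155) (nat_lit 11) (nat_lit 5) (nat_lit 12) (nat_lit 5) (nat_lit 13) (nat_lit 4) (nat_lit 378) (nat_lit 335) (nat_lit 187)) (XT.nd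 (nat_lit 78) (nat_lit 0) (nat_lit 0) (XT.lf (nat_lit 0) (nat_lit 220032939633) (nat_lit 76) (nat_lit 3595353025) (nat_lit 152) (nat_lit 328690433324) (nat_lit 11) (nat_lit 5) (nat_lit 12) (nat_lit 5) (nat_lit 13) (nat_lit 4) (nat_lit 379) (nat_lit 335) (nat_lit 186)) (XT.lf (nat_lit 0) (nat_lit 333476767971) (nat_lit 152) (nat_lit 147658639112) (nat_lit 0) (nat_lit 106519268748) (nat_lit 11) (nat_lit 5) (nat_lit 13) (nat_lit 4) (nat_lit 11) (nat_lit 4) (nat_lit 380) (nat_lit 335) (nat_lit 185))))))))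
noncomputable def xc193 : XT := (XT.nd (nat_lit 1326) (nat_lit 228) (nat_lit 0) (XT.nd (nat_lit 624) (nat_lit 152) (nat_lit 0) (XT.nd (nat_lit 312) (nat_lit 76) (nat_lit 0) (XT.nd (nat_lit 156) (nat_lit 152) (nat_lit 0) (XT.nd (nat_lit 78) (nat_lit 0) (nat_lit 0) (XT.lf (nat_lit 0) (nat_lit 54364511906) (nat_lit 76) (nat_lit 399149298435) (nat_lit 76) (nat_lit 172191636263) (nat_lit 10) (nat_lit 4) (nat_lit 11) (nat_lit 5) (nat_lit 11) (nat_lit 4) (nat_lit 381) (nat_lit 335) (nat_lit 184)) (XT.lf (nat_lit 0) (nat_lit 280946685364) (nat_lit 76) (nat_lit 306244219828) (nat_lit 76) (nat_lit 79286406777) (nat_lit 10) (nat_lit 4) (nat_lit 11) (nat_lit 5) (nat_lit 11) (nat_lit 4) (nat_lit 382) (nat_lit 335) (nat_lit 183))) (XT.nd (nat_lit 78) (nat_lit 76) (nat_lit 0) (XT.lf (nat_lit 0) (nat_lit 19998020897) (nat_lit 152) (nat_lit 185362069288) (nat_lit 76) (nat_lit 505110345945) (nat_lit 9)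 (nat_lit 5) (nat_lit 11) (nat_lit 5) (nat_lit 10) (nat_lit 4) (nat_lit 383) (nat_lit 335) (nat_lit 182)) (XT.lf (nat_lit 0) (nat_lit 30274781726) (nat_lit 76) (nat_lit 93394864347) (nat_lit 152) (nat_lit 634090375726) (nat_lit 8) (nat_lit 5) (nat_lit 9) (nat_lit 5) (nat_lit 10) (nat_lit 4) (nat_lit 384) (nat_lit 335) (nat_lit 181)))) (XT.nd (nat_lit 156) (nat_lit 76) (nat_lit 0) (XT.nd (nat_lit 78) (nat_lit 0) (nat_lit 0) (XT.lf (nat_lit 0) (nat_lit 241496667764) (nat_lit 152) (nat_lit 535516988739) (nat_lit 0) (nat_lit 31350184541) (nat_lit 8) (nat_lit 5) (nat_lit 10) (nat_lit 4) (nat_lit 8) (nat_lit 4) (nat_lit 385) (nat_lit 335) (nat_lit 180)) (XT.lf (nat_lit 0) (nat_lit 371175562572) (nat_lit 152) (nat_lit 330617369720) (nat_lit 0) (nat_lit 161028976664) (nat_lit 8) (nat_lit 5) (nat_lit 10) (nat_lit 4) (nat_lit 8) (nat_lit 4) (nat_lit 386) (nat_lit 335) (nat_lit 179))) (XT.nd (nat_lit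 78) (nat_lit 76) (nat_lit 0) (XT.lf (nat_lit 0) (nat_lit 511228649289) (nat_lit 152) (nat_lit 109326014320) (nat_lit 0) (nat_lit 301081968302) (nat_lit 8) (nat_lit 5) (nat_lit 10) (nat_lit 4) (nat_lit 8) (nat_lit 4) (nat_lit 387) (nat_lit 335) (nat_lit 178)) (XT.lf (nat_lit 0) (nat_lit 136496543565) (nat_lit 76) (nat_lit 529272073723) (nat_lit 76) (nat_lit 319125304699) (nat_lit 7) (nat_lit 4) (nat_lit 8) (nat_lit 5) (nat_lit 8) (nat_lit 4) (nat_lit 388) (nat_lit 335) (nat_lit 177))))) (XT.nd (nat_lit 312) (nat_lit 0) (nat_lit 0) (XT.nd (nat_lit 156) (nat_lit 152) (nat_lit 0) (XT.nd (nat_lit 78) (nat_lit 0) (nat_lit 0) (XT.lf (nat_lit 0) (nat_lit 408202162983) (nat_lit 76) (nat_lit 427458679055) (nat_lit 76) (nat_lit 217311828516) (nat_lit 7) (nat_lit 4) (nat_lit 8) (nat_lit 5) (nat_lit 8) (nat_lit 4) (nat_lit 389) (nat_lit 335) (nat_lit 176)) (XT.lf (nat_lit 0) (nat_lit 701644037134)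 (nat_lit 76) (nat_lit 317500307945) (nat_lit 76) (nat_lit 107353381930) (nat_lit 7) (nat_lit 4) (nat_lit 8) (nat_lit 5) (nat_lit 8) (nat_lit 4) (nat_lit 390) (nat_lit 335) (nat_lit 175))) (XT.nd (nat_lit 78) (nat_lit 76) (nat_lit 0) (XT.lf (nat_lit 0) (nat_lit 10831284426) (nat_lit 152) (nat_lit 187617924295) (nat_lit 76) (nat_lit 1007433649892) (nat_lit 6) (nat_lit 5) (nat_lit 8) (nat_lit 5) (nat_lit 7) (nat_lit 4) (nat_lit 391) (nat_lit 335) (nat_lit 174)) (XT.lf (nat_lit 0) (nat_lit 69273470908) (nat_lit 76) (nat_lit 65063323091) (nat_lit 152) (nat_lit 1156925659530) (nat_lit 5) (nat_lit 5) (nat_lit 6) (nat_lit 5) (nat_lit 7) (nat_lit 4) (nat_lit 392) (nat_lit 335) (nat_lit 173)))) (XT.nd (nat_lit 156) (nat_lit 0) (nat_lit 0) (XT.nd (nat_lit 78) (nat_lit 0) (nat_lit 0) (XT.lf (nat_lit 0) (nat_lit 274885499367) (nat_lit 152) (nat_lit 1027709064077) (nat_lit 0) (nat_lit 80304832213) (nat_lit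 5) (nat_lit 5) (nat_lit 7) (nat_lit 4) (nat_lit 5) (nat_lit 4) (nat_lit 393) (nat_lit 335) (nat_lit 172)) (XT.lf (nat_lit 0) (nat_lit 428367976859) (nat_lit 152) (nat_lit 819576867925) (nat_lit 0) (nat_lit 233787258336) (nat_lit 5) (nat_lit 5) (nat_lit 7) (nat_lit 4) (nat_lit 5) (nat_lit 4) (nat_lit 394) (nat_lit 335) (nat_lit 171))) (XT.nd (nat_lit 78) (nat_lit 0) (nat_lit 0) (XT.lf (nat_lit 0) (nat_lit 594128977781) (nat_lit 152) (nat_lit 594794243702) (nat_lit 0) (nat_lit 399548211695) (nat_lit 5) (nat_lit 5) (nat_lit 7) (nat_lit 4) (nat_lit 5) (nat_lit 4) (nat_lit 395) (nat_lit 335) (nat_lit 170)) (XT.nd (nat_lit 78) (nat_lit 0) (nat_lit 0) (XT.lf (nat_lit 0) (nat_lit 773150789546) (nat_lit 152) (nat_lit 352029146229) (nat_lit 0) (nat_lit 578569979420) (nat_lit 5) (nat_lit 5) (nat_lit 7) (nat_lit 4) (nat_lit 5) (nat_lit 4) (nat_lit 396) (nat_lit 335) (nat_lit 169)) (XT.lf (nat_lit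 0) (nat_lit 966494282151) (nat_lit 152) (nat_lit 89842967520) (nat_lit 0) (nat_lit 771913431247) (nat_lit 5) (nat_lit 5) (nat_lit 7) (nat_lit 4) (nat_lit 5) (nat_lit 4) (nat_lit 397) (nat_lit 335) (nat_lit 168))))))) (XT.nd (nat_lit 624) (nat_lit 76) (nat_lit 0) (XT.nd (nat_lit 312) (nat_lit 76) (nat_lit 0) (XT.nd (nat_lit 156) (nat_lit 0) (nat_lit 0) (XT.nd (nat_lit 78) (nat_lit 0) (nat_lit 0) (XT.lf (nat_lit 0) (nat_lit 203497770973) (nat_lit 76) (nat_lit 976701550122) (nat_lit 76) (nat_lit 782120661461) (nat_lit 4) (nat_lit 4) (nat_lit 5) (nat_lit 5) (nat_lit 5) (nat_lit 4) (nat_lit 398) (nat_lit 335) (nat_lit 167)) (XT.lf (nat_lit 0) (nat_lit 525415103497) (nat_lit 76) (nat_lit 888042067902) (nat_lit 76) (nat_lit 693461144281) (nat_lit 4) (nat_lit 4) (nat_lit 5) (nat_lit 5) (nat_lit 5) (nat_lit 4) (nat_lit 399) (nat_lit 335) (nat_lit 166))) (XT.nd (nat_lit 78) (nat_lit 0) (nat_lit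 0) (XT.lf (nat_lit 0) (nat_lit 873085716863) (nat_lit 76) (nat_lit 792289879435) (nat_lit 76) (nat_lit 597708923443) (nat_lit 4) (nat_lit 4) (nat_lit 5) (nat_lit 5) (nat_lit 5) (nat_lit 4) (nat_lit 400) (nat_lit 335) (nat_lit 165)) (XT.lf (nat_lit 0) (nat_lit 1248569881373) (nat_lit 76) (nat_lit 688877564343) (nat_lit 76) (nat_lit 494296578378) (nat_lit 4) (nat_lit 4) (nat_lit 5) (nat_lit 5) (nat_lit 5) (nat_lit 4) (nat_lit 401) (nat_lit 335) (nat_lit 164)))) (XT.nd (nat_lit 156) (nat_lit 76) (nat_lit 0) (XT.nd (nat_lit 78) (nat_lit 0) (nat_lit 0) (XT.lf (nat_lit 0) (nat_lit 1654092688372) (nat_lit 76) (nat_lit 577192308909) (nat_lit 76) (nat_lit 382611295191) (nat_lit 4) (nat_lit 4) (nat_lit 5) (nat_lit 5) (nat_lit 5) (nat_lit 4) (nat_lit 402) (nat_lit 335) (nat_lit 163)) (XT.lf (nat_lit 0) (nat_lit 2092057235975) (nat_lit 76) (nat_lit 456572274580) (nat_lit 76) (nat_lit 261991235165)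 (nat_lit 4) (nat_lit 4) (nat_lit 5) (nat_lit 5) (nat_lit 5) (nat_lit 4) (nat_lit 403) (nat_lit 335) (nat_lit 162))) (XT.nd (nat_lit 78) (nat_lit 76) (nat_lit 0) (XT.lf (nat_lit 0) (nat_lit 2565058869650) (nat_lit 76) (nat_lit 326302675970) (nat_lit 76) (nat_lit 131721612761) (nat_lit 4) (nat_lit 4) (nat_lit 5) (nat_lit 5) (nat_lit 5) (nat_lit 4) (nat_lit 404) (nat_lit 335) (nat_lit 161)) (XT.lf (nat_lit 0) (nat_lit 8520847428) (nat_lit 152) (nat_lit 176857722587) (nat_lit 76) (nat_lit 3067146739544) (nat_lit 3) (nat_lit 5) (nat_lit 5) (nat_lit 5) (nat_lit 4) (nat_lit 4) (nat_lit 405) (nat_lit 335) (nat_lit 160))))) (XT.nd (nat_lit 41496) (nat_lit 0) (nat_lit 3952) (XT.nd (nat_lit 156) (nat_lit 0) (nat_lit 0) (XT.nd (nat_lit 78) (nat_lit 0) (nat_lit 0) (XT.lf (nat_lit 0) (nat_lit 129877771945) (nat_lit 76) (nat_lit 26112073046) (nat_lit 152) (nat_lit 3343809398280) (nat_lit 2) (nat_lit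 5) (nat_lit 3) (nat_lit 5) (nat_lit 4) (nat_lit 4) (nat_lit 406) (nat_lit 335) (nat_lit 159)) (XT.lf (nat_lit 0) (nat_lit 323726327757) (nat_lit 152) (nat_lit 3298892546838) (nat_lit 0) (nat_lit 143558619862) (nat_lit 2) (nat_lit 5) (nat_lit 4) (nat_lit 4) (nat_lit 2) (nat_lit 4) (nat_lit 407) (nat_lit 335) (nat_lit 158))) (XT.nd (nat_lit 41262) (nat_lit 0) (nat_lit 3952) (XT.lf (nat_lit 0) (nat_lit 505559932960) (nat_lit 152) (nat_lit 3222859607605) (nat_lit 0) (nat_lit 325392208871) (nat_lit 2) (nat_lit 5) (nat_lit 4) (nat_lit 4) (nat_lit 2) (nat_lit 4) (nat_lit 408) (nat_lit 335) (nat_lit 157)) (XT.lf (nat_lit 0) (nat_lit 25035793104) (nat_lit 532) (nat_lit 3750954429) (nat_lit 532) (nat_lit 3750954429) (nat_lit 54) (nat_lit 3) (nat_lit 61) (nat_lit 3) (nat_lit 61) (nat_lit 5) (nat_lit 336) (nat_lit 336) (nat_lit 228)))) (XT.nd (nat_lit 156) (nat_lit 0) (nat_lit 76) (XT.nd (nat_lit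 78) (nat_lit 0) (nat_lit 76) (XT.lf (nat_lit 76) (nat_lit 24535143278) (nat_lit 0) (nat_lit 28143695183) (nat_lit 532) (nat_lit 14951204363) (nat_lit 55) (nat_lit 5) (nat_lit 54) (nat_lit 3) (nat_lit 61) (nat_lit 5) (nat_lit 337) (nat_lit 336) (nat_lit 227)) (XT.lf (nat_lit 0) (nat_lit 55791231093) (nat_lit 456) (nat_lit 10904675068) (nat_lit 532) (nat_lit 3669424474) (nat_lit 55) (nat_lit 5) (nat_lit 61) (nat_lit 5) (nat_lit 62) (nat_lit 5) (nat_lit 338) (nat_lit 336) (nat_lit 226))) (XT.nd (nat_lit 78) (nat_lit 0) (nat_lit 0) (XT.lf (nat_lit 76) (nat_lit 24346808887) (nat_lit 0) (nat_lit 36121022285) (nat_lit 532) (nat_lit 12746395438) (nat_lit 56) (nat_lit 5) (nat_lit 55) (nat_lit 5) (nat_lit 62) (nat_lit 5) (nat_lit 339) (nat_lit 336) (nat_lit 225)) (XT.nd (nat_lit 78) (nat_lit 0) (nat_lit 76) (XT.lf (nat_lit 76) (nat_lit 63037712961) (nat_lit 0) (nat_lit 2777747000) (nat_lit 532)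 (nat_lit 10451824490) (nat_lit 56) (nat_lit 5) (nat_lit 55) (nat_lit 5) (nat_lit 62) (nat_lit 5) (nat_lit 340) (nat_lit 336) (nat_lit 224)) (XT.lf (nat_lit 76) (nat_lit 25747126472) (nat_lit 0) (nat_lit 47261094945) (nat_lit 532) (nat_lit 6442981790) (nat_lit 57) (nat_lit 5) (nat_lit 56) (nat_lit 5) (nat_lit 63) (nat_lit 5) (nat_lit 341) (nat_lit 336) (nat_lit 223))))))))
noncomputable def xc194 : XT := (XT.nd (nat_lit 1326) (nat_lit 988) (nat_lit 0) (XT.nd (nat_lit 624) (nat_lit 988) (nat_lit 0) (XT.nd (nat_lit 312) (nat_lit 456) (nat_lit 0) (XT.nd (nat_lit 156) (nat_lit 304) (nat_lit 0) (XT.nd (nat_lit 78) (nat_lit 456) (nat_lit 0) (XT.lf (nat_lit 76) (nat_lit 68517514621) (nat_lit 0) (nat_lit 12689845159) (nat_lit 532) (nat_lit 1648001127) (nat_lit 57) (nat_lit 5) (nat_lit 56) (nat_lit 5) (nat_lit 63) (nat_lit 5) (nat_lit 342) (nat_lit 336) (nat_lit 222)) (XT.lf (nat_lit 0) (nat_lit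 4677563067) (nat_lit 532) (nat_lit 57510516907) (nat_lit 76) (nat_lit 24231092150) (nat_lit 50) (nat_lit 5) (nat_lit 57) (nat_lit 5) (nat_lit 51) (nat_lit 5) (nat_lit 343) (nat_lit 336) (nat_lit 221))) (XT.nd (nat_lit 78) (nat_lit 304) (nat_lit 0) (XT.lf (nat_lit 0) (nat_lit 12150973948) (nat_lit 532) (nat_lit 14189964514) (nat_lit 76) (nat_lit 63865259970) (nat_lit 50) (nat_lit 5) (nat_lit 57) (nat_lit 5) (nat_lit 51) (nat_lit 5) (nat_lit 344) (nat_lit 336) (nat_lit 220)) (XT.lf (nat_lit 0) (nat_lit 21365583937) (nat_lit 380) (nat_lit 60237485262) (nat_lit 76) (nat_lit 12601652962) (nat_lit 46) (nat_lit 5) (nat_lit 51) (nat_lit 5) (nat_lit 47) (nat_lit 5) (nat_lit 345) (nat_lit 336) (nat_lit 219)))) (XT.nd (nat_lit 156) (nat_lit 228) (nat_lit 0) (XT.nd (nat_lit 78) (nat_lit 228) (nat_lit 0) (XT.lf (nat_lit 0) (nat_lit 32398743980) (nat_lit 380) (nat_lit 12403243545) (nat_lit 76) (nat_lit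 53634631072) (nat_lit 46) (nat_lit 5) (nat_lit 51) (nat_lit 5) (nat_lit 47) (nat_lit 5) (nat_lit 346) (nat_lit 336) (nat_lit 218)) (XT.lf (nat_lit 0) (nat_lit 41324096601) (nat_lit 228) (nat_lit 3983513970) (nat_lit 304) (nat_lit 57620013087) (nat_lit 43) (nat_lit 5) (nat_lit 46) (nat_lit 5) (nat_lit 47) (nat_lit 5) (nat_lit 347) (nat_lit 336) (nat_lit 217))) (XT.nd (nat_lit 78) (nat_lit 228) (nat_lit 0) (XT.lf (nat_lit 0) (nat_lit 60560783742) (nat_lit 304) (nat_lit 8669874653) (nat_lit 76) (nat_lit 38442324073) (nat_lit 43) (nat_lit 5) (nat_lit 47) (nat_lit 5) (nat_lit 44) (nat_lit 5) (nat_lit 348) (nat_lit 336) (nat_lit 216)) (XT.lf (nat_lit 0) (nat_lit 50942541224) (nat_lit 228) (nat_lit 27419608279) (nat_lit 304) (nat_lit 34329586418) (nat_lit 40) (nat_lit 5) (nat_lit 43) (nat_lit 5) (nat_lit 44) (nat_lit 5) (nat_lit 349) (nat_lit 336) (nat_lit 215))))) (XT.nd (nat_lit 312) (nat_lit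 532) (nat_lit 0) (XT.nd (nat_lit 156) (nat_lit 304) (nat_lit 0) (XT.nd (nat_lit 78) (nat_lit 152) (nat_lit 0) (XT.lf (nat_lit 0) (nat_lit 98256721601) (nat_lit 304) (nat_lit 2709571699) (nat_lit 76) (nat_lit 17092169548) (nat_lit 40) (nat_lit 5) (nat_lit 44) (nat_lit 5) (nat_lit 41) (nat_lit 5) (nat_lit 350) (nat_lit 336) (nat_lit 214)) (XT.lf (nat_lit 0) (nat_lit 63517652591) (nat_lit 152) (nat_lit 58464386247) (nat_lit 228) (nat_lit 1693355632) (nat_lit 38) (nat_lit 5) (nat_lit 40) (nat_lit 5) (nat_lit 41) (nat_lit 5) (nat_lit 351) (nat_lit 336) (nat_lit 213))) (XT.nd (nat_lit 78) (nat_lit 0) (nat_lit 0) (XT.lf (nat_lit 0) (nat_lit 5293877008) (nat_lit 228) (nat_lit 11878927886) (nat_lit 304) (nat_lit 112518289198) (nat_lit 34) (nat_lit 5) (nat_lit 37) (nat_lit 5) (nat_lit 38) (nat_lit 5) (nat_lit 352) (nat_lit 336) (nat_lit 212)) (XT.lf (nat_lit 0) (nat_lit 40068052207) (nat_lit 304)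 (nat_lit 57665460546) (nat_lit 76) (nat_lit 38242116647) (nat_lit 34) (nat_lit 5) (nat_lit 38) (nat_lit 5) (nat_lit 35) (nat_lit 5) (nat_lit 353) (nat_lit 336) (nat_lit 211)))) (XT.nd (nat_lit 156) (nat_lit 380) (nat_lit 0) (XT.nd (nat_lit 78) (nat_lit 0) (nat_lit 0) (XT.lf (nat_lit 0) (nat_lit 14837782764) (nat_lit 152) (nat_lit 50621986447) (nat_lit 228) (nat_lit 77249970985) (nat_lit 32) (nat_lit 5) (nat_lit 34) (nat_lit 5) (nat_lit 35) (nat_lit 5) (nat_lit 354) (nat_lit 336) (nat_lit 210)) (XT.lf (nat_lit 0) (nat_lit 94506142650) (nat_lit 228) (nat_lit 53483617068) (nat_lit 76) (nat_lit 1862955217) (nat_lit 32) (nat_lit 5) (nat_lit 35) (nat_lit 5) (nat_lit 33) (nat_lit 5) (nat_lit 355) (nat_lit 336) (nat_lit 209))) (XT.nd (nat_lit 78) (nat_lit 228) (nat_lit 0) (XT.lf (nat_lit 0) (nat_lit 26885119613) (nat_lit 152) (nat_lit 100952064391) (nat_lit 228) (nat_lit 29573067567) (nat_lit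 30) (nat_lit 5) (nat_lit 32) (nat_lit 5) (nat_lit 33) (nat_lit 5) (nat_lit 356) (nat_lit 336) (nat_lit 208)) (XT.nd (nat_lit 78) (nat_lit 228) (nat_lit 0) (XT.lf (nat_lit 0) (nat_lit 116724317377) (nat_lit 152) (nat_lit 48572260877) (nat_lit 228) (nat_lit 158863838) (nat_lit 30) (nat_lit 5) (nat_lit 32) (nat_lit 5) (nat_lit 33) (nat_lit 5) (nat_lit 357) (nat_lit 336) (nat_lit 207)) (XT.lf (nat_lit 0) (nat_lit 31247913044) (nat_lit 228) (nat_lit 133351342621) (nat_lit 76) (nat_lit 9386528197) (nat_lit 27) (nat_lit 5) (nat_lit 30) (nat_lit 5) (nat_lit 28) (nat_lit 5) (nat_lit 358) (nat_lit 336) (nat_lit 206))))))) (XT.nd (nat_lit 624) (nat_lit 456) (nat_lit 0) (XT.nd (nat_lit 312) (nat_lit 304) (nat_lit 0) (XT.nd (nat_lit 156) (nat_lit 76) (nat_lit 0) (XT.nd (nat_lit 78) (nat_lit 152) (nat_lit 0) (XT.lf (nat_lit 0) (nat_lit 67786836830) (nat_lit 228) (nat_lit 44472360608) (nat_lit 76) (nat_lit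 70728770840) (nat_lit 27) (nat_lit 5) (nat_lit 30) (nat_lit 5) (nat_lit 28) (nat_lit 5) (nat_lit 359) (nat_lit 336) (nat_lit 205)) (XT.lf (nat_lit 0) (nat_lit 54229065207) (nat_lit 152) (nat_lit 54323619061) (nat_lit 228) (nat_lit 84053338782) (nat_lit 25) (nat_lit 5) (nat_lit 27) (nat_lit 5) (nat_lit 28) (nat_lit 5) (nat_lit 360) (nat_lit 336) (nat_lit 204))) (XT.nd (nat_lit 78) (nat_lit 76) (nat_lit 0) (XT.lf (nat_lit 0) (nat_lit 154025280460) (nat_lit 228) (nat_lit 39771019272) (nat_lit 76) (nat_lit 9081584348) (nat_lit 25) (nat_lit 5) (nat_lit 28) (nat_lit 5) (nat_lit 26) (nat_lit 4) (nat_lit 361) (nat_lit 336) (nat_lit 203)) (XT.lf (nat_lit 0) (nat_lit 68751000433) (nat_lit 76) (nat_lit 137448787938) (nat_lit 152) (nat_lit 7526577628) (nat_lit 24) (nat_lit 5) (nat_lit 25) (nat_lit 5) (nat_lit 26) (nat_lit 4) (nat_lit 362) (nat_lit 336) (nat_lit 202)))) (XT.nd (nat_lit 156) (nat_lit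 76) (nat_lit 0) (XT.nd (nat_lit 78) (nat_lit 152) (nat_lit 0) (XT.lf (nat_lit 0) (nat_lit 36364657357) (nat_lit 152) (nat_lit 38060370625) (nat_lit 76) (nat_lit 150857083991) (nat_lit 23) (nat_lit 5) (nat_lit 25) (nat_lit 5) (nat_lit 24) (nat_lit 5) (nat_lit 363) (nat_lit 336) (nat_lit 201)) (XT.lf (nat_lit 0) (nat_lit 81277609450) (nat_lit 152) (nat_lit 4037347298) (nat_lit 228) (nat_lit 152275369792) (nat_lit 21) (nat_lit 5) (nat_lit 23) (nat_lit 5) (nat_lit 24) (nat_lit 5) (nat_lit 364) (nat_lit 336) (nat_lit 200))) (XT.nd (nat_lit 78) (nat_lit 76) (nat_lit 0) (XT.lf (nat_lit 0) (nat_lit 140979774945) (nat_lit 228) (nat_lit 40231535718) (nat_lit 76) (nat_lit 69448008263) (nat_lit 21) (nat_lit 5) (nat_lit 24) (nat_lit 5) (nat_lit 22) (nat_lit 4) (nat_lit 365) (nat_lit 336) (nat_lit 199)) (XT.lf (nat_lit 0) (nat_lit 89508323683) (nat_lit 76) (nat_lit 113846696718) (nat_lit 152) (nat_lit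 61238231180) (nat_lit 20) (nat_lit 5) (nat_lit 21) (nat_lit 5) (nat_lit 22) (nat_lit 4) (nat_lit 366) (nat_lit 336) (nat_lit 198))))) (XT.nd (nat_lit 312) (nat_lit 228) (nat_lit 0) (XT.nd (nat_lit 156) (nat_lit 76) (nat_lit 0) (XT.nd (nat_lit 78) (nat_lit 152) (nat_lit 0) (XT.lf (nat_lit 0) (nat_lit 231914868886) (nat_lit 76) (nat_lit 39905126572) (nat_lit 152) (nat_lit 7733926800) (nat_lit 20) (nat_lit 5) (nat_lit 21) (nat_lit 5) (nat_lit 22) (nat_lit 4) (nat_lit 367) (nat_lit 336) (nat_lit 197)) (XT.lf (nat_lit 0) (nat_lit 50845255533) (nat_lit 152) (nat_lit 203011572120) (nat_lit 76) (nat_lit 41494459552) (nat_lit 18) (nat_lit 5) (nat_lit 20) (nat_lit 5) (nat_lit 19) (nat_lit 4) (nat_lit 368) (nat_lit 336) (nat_lit 196))) (XT.nd (nat_lit 78) (nat_lit 76) (nat_lit 0) (XT.lf (nat_lit 0) (nat_lit 116065531763) (nat_lit 152) (nat_lit 67353876175) (nat_lit 76) (nat_lit 128787155700) (nat_lit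 18) (nat_lit 5) (nat_lit 20) (nat_lit 5) (nat_lit 19) (nat_lit 4) (nat_lit 369) (nat_lit 336) (nat_lit 195)) (XT.lf (nat_lit 0) (nat_lit 83324197612) (nat_lit 76) (nat_lit 105182928837) (nat_lit 152) (nat_lit 141742840178) (nat_lit 17) (nat_lit 5) (nat_lit 18) (nat_lit 5) (nat_lit 19) (nat_lit 4) (nat_lit 370) (nat_lit 336) (nat_lit 194)))) (XT.nd (nat_lit 156) (nat_lit 152) (nat_lit 0) (XT.nd (nat_lit 78) (nat_lit 76) (nat_lit 0) (XT.lf (nat_lit 0) (nat_lit 249886551694) (nat_lit 76) (nat_lit 18698826878) (nat_lit 152) (nat_lit 81004157036) (nat_lit 17) (nat_lit 5) (nat_lit 18) (nat_lit 5) (nat_lit 19) (nat_lit 4) (nat_lit 371) (nat_lit 336) (nat_lit 193)) (XT.lf (nat_lit 0) (nat_lit 60528447506) (nat_lit 76) (nat_lit 297793556326) (nat_lit 76) (nat_lit 11894097368) (nat_lit 16) (nat_lit 4) (nat_lit 17) (nat_lit 5) (nat_lit 17) (nat_lit 4) (nat_lit 372) (nat_lit 336) (nat_lit 192))) (XT.nd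 (nat_lit 78) (nat_lit 76) (nat_lit 0) (XT.lf (nat_lit 0) (nat_lit 62888337012) (nat_lit 152) (nat_lit 155092043706) (nat_lit 76) (nat_lit 174129104994) (nat_lit 15) (nat_lit 5) (nat_lit 17) (nat_lit 5) (nat_lit 16) (nat_lit 4) (nat_lit 373) (nat_lit 336) (nat_lit 191)) (XT.nd (nat_lit 78) (nat_lit 0) (nat_lit 0) (XT.lf (nat_lit 0) (nat_lit 12170714215) (nat_lit 76) (nat_lit 131132555263) (nat_lit 152) (nat_lit 272402957122) (nat_lit 14) (nat_lit 5) (nat_lit 15) (nat_lit 5) (nat_lit 16) (nat_lit 4) (nat_lit 374) (nat_lit 336) (nat_lit 190)) (XT.lf (nat_lit 0) (nat_lit 201634332950) (nat_lit 76) (nat_lit 32757349028) (nat_lit 152) (nat_lit 206459802041) (nat_lit 14) (nat_lit 5) (nat_lit 15) (nat_lit 5) (nat_lit 16) (nat_lit 4) (nat_lit 375) (nat_lit 336) (nat_lit 189))))))))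
noncomputable def xc195 : XT := (XT.nd (nat_lit 1326) (nat_lit 304) (nat_lit 0) (XT.nd (nat_lit 624) (nat_lit 304) (nat_lit 0) (XT.nd (nat_lit 312) (nat_lit 76) (nat_lit 0) (XT.nd (nat_lit 156) (nat_lit 152) (nat_lit 0) (XT.nd (nat_lit 78) (nat_lit 76) (nat_lit 0) (XT.lf (nat_lit 0) (nat_lit 334534358059) (nat_lit 152) (nat_lit 63521070893) (nat_lit 0) (nat_lit 69811557923) (nat_lit 14) (nat_lit 5) (nat_lit 16) (nat_lit 4) (nat_lit 14) (nat_lit 4) (nat_lit 376) (nat_lit 336) (nat_lit 188)) (XT.lf (nat_lit 0) (nat_lit 131981780784) (nat_lit 76) (nat_lit 314731492537) (nat_lit 76) (nat_lit 50008470712) (nat_lit 13) (nat_lit 4) (nat_lit 14) (nat_lit 5) (nat_lit 14) (nat_lit 4) (nat_lit 377) (nat_lit 336) (nat_lit 187))) (XT.nd (nat_lit 78) (nat_lit 76) (nat_lit 0) (XT.lf (nat_lit 0) (nat_lit 39763287934) (nat_lit 152) (nat_lit 182015588189) (nat_lit 76) (nat_lit 305886544160) (nat_lit 12)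 (nat_lit 5) (nat_lit 14) (nat_lit 5) (nat_lit 13) (nat_lit 4) (nat_lit 378) (nat_lit 336) (nat_lit 186)) (XT.lf (nat_lit 0) (nat_lit 14766165201) (nat_lit 76) (nat_lit 119603826317) (nat_lit 152) (nat_lit 426582288629) (nat_lit 11) (nat_lit 5) (nat_lit 12) (nat_lit 5) (nat_lit 13) (nat_lit 4) (nat_lit 379) (nat_lit 336) (nat_lit 185)))) (XT.nd (nat_lit 156) (nat_lit 76) (nat_lit 0) (XT.nd (nat_lit 78) (nat_lit 0) (nat_lit 0) (XT.lf (nat_lit 0) (nat_lit 237641540844) (nat_lit 76) (nat_lit 3880158187) (nat_lit 152) (nat_lit 354982272417) (nat_lit 11) (nat_lit 5) (nat_lit 12) (nat_lit 5) (nat_lit 13) (nat_lit 4) (nat_lit 380) (nat_lit 336) (nat_lit 184)) (XT.lf (nat_lit 0) (nat_lit 360157882424) (nat_lit 152) (nat_lit 159465635094) (nat_lit 0) (nat_lit 115043293449) (nat_lit 11) (nat_lit 5) (nat_lit 13) (nat_lit 4) (nat_lit 11) (nat_lit 4) (nat_lit 381) (nat_lit 336) (nat_lit 183))) (XT.nd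 (nat_lit 78) (nat_lit 0) (nat_lit 0) (XT.lf (nat_lit 0) (nat_lit 58719223824) (nat_lit 76) (nat_lit 431078577637) (nat_lit 76) (nat_lit 185963848960) (nat_lit 10) (nat_lit 4) (nat_lit 11) (nat_lit 5) (nat_lit 11) (nat_lit 4) (nat_lit 382) (nat_lit 336) (nat_lit 182)) (XT.lf (nat_lit 0) (nat_lit 303427559975) (nat_lit 76) (nat_lit 330741290125) (nat_lit 76) (nat_lit 85626432094) (nat_lit 10) (nat_lit 4) (nat_lit 11) (nat_lit 5) (nat_lit 11) (nat_lit 4) (nat_lit 383) (nat_lit 336) (nat_lit 181))))) (XT.nd (nat_lit 312) (nat_lit 152) (nat_lit 0) (XT.nd (nat_lit 156) (nat_lit 0) (nat_lit 0) (XT.nd (nat_lit 78) (nat_lit 76) (nat_lit 0) (XT.lf (nat_lit 0) (nat_lit 21600402193) (nat_lit 152) (nat_lit 200186141240) (nat_lit 76) (nat_lit 545521323616) (nat_lit 9) (nat_lit 5) (nat_lit 11) (nat_lit 5) (nat_lit 10) (nat_lit 4) (nat_lit 384) (nat_lit 336) (nat_lit 180)) (XT.lf (nat_lit 0) (nat_lit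 32701533966) (nat_lit 76) (nat_lit 100864150009) (nat_lit 152) (nat_lit 684814941530) (nat_lit 8) (nat_lit 5) (nat_lit 9) (nat_lit 5) (nat_lit 10) (nat_lit 4) (nat_lit 385) (nat_lit 336) (nat_lit 179))) (XT.nd (nat_lit 78) (nat_lit 0) (nat_lit 0) (XT.lf (nat_lit 0) (nat_lit 260818736014) (nat_lit 152) (nat_lit 578353799374) (nat_lit 0) (nat_lit 33860225468) (nat_lit 8) (nat_lit 5) (nat_lit 10) (nat_lit 4) (nat_lit 8) (nat_lit 4) (nat_lit 386) (nat_lit 336) (nat_lit 178)) (XT.lf (nat_lit 0) (nat_lit 400871769456) (nat_lit 152) (nat_lit 357062547757) (nat_lit 0) (nat_lit 173913170874) (nat_lit 8) (nat_lit 5) (nat_lit 10) (nat_lit 4) (nat_lit 8) (nat_lit 4) (nat_lit 387) (nat_lit 336) (nat_lit 177)))) (XT.nd (nat_lit 156) (nat_lit 76) (nat_lit 0) (XT.nd (nat_lit 78) (nat_lit 76) (nat_lit 0) (XT.lf (nat_lit 0) (nat_lit 552128942971) (nat_lit 152) (nat_lit 118068195891) (nat_lit 0) (nat_lit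 325170262875) (nat_lit 8) (nat_lit 5) (nat_lit 10) (nat_lit 4) (nat_lit 8) (nat_lit 4) (nat_lit 388) (nat_lit 336) (nat_lit 176)) (XT.lf (nat_lit 0) (nat_lit 147420067902) (nat_lit 76) (nat_lit 571611983642) (nat_lit 76) (nat_lit 344653228068) (nat_lit 7) (nat_lit 4) (nat_lit 8) (nat_lit 5) (nat_lit 8) (nat_lit 4) (nat_lit 389) (nat_lit 336) (nat_lit 175))) (XT.nd (nat_lit 78) (nat_lit 76) (nat_lit 0) (XT.lf (nat_lit 0) (nat_lit 440861855328) (nat_lit 76) (nat_lit 461653654881) (nat_lit 76) (nat_lit 234694829421) (nat_lit 7) (nat_lit 4) (nat_lit 8) (nat_lit 5) (nat_lit 8) (nat_lit 4) (nat_lit 390) (nat_lit 336) (nat_lit 174)) (XT.nd (nat_lit 78) (nat_lit 76) (nat_lit 0) (XT.lf (nat_lit 0) (nat_lit 757778818722) (nat_lit 76) (nat_lit 342898741378) (nat_lit 76) (nat_lit 115939851210) (nat_lit 7) (nat_lit 4) (nat_lit 8) (nat_lit 5) (nat_lit 8) (nat_lit 4) (nat_lit 391) (nat_lit 336) (nat_lit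 173)) (XT.lf (nat_lit 0) (nat_lit 11699371594) (nat_lit 152) (nat_lit 202624257167) (nat_lit 76) (nat_lit 1088029731387) (nat_lit 6) (nat_lit 5) (nat_lit 8) (nat_lit 5) (nat_lit 7) (nat_lit 4) (nat_lit 392) (nat_lit 336) (nat_lit 172))))))) (XT.nd (nat_lit 702) (nat_lit 152) (nat_lit 0) (XT.nd (nat_lit 312) (nat_lit 76) (nat_lit 0) (XT.nd (nat_lit 156) (nat_lit 0) (nat_lit 0) (XT.nd (nat_lit 78) (nat_lit 0) (nat_lit 0) (XT.lf (nat_lit 0) (nat_lit 74818371144) (nat_lit 76) (nat_lit 70266906118) (nat_lit 152) (nat_lit 1249478049000) (nat_lit 5) (nat_lit 5) (nat_lit 6) (nat_lit 5) (nat_lit 7) (nat_lit 4) (nat_lit 393) (nat_lit 336) (nat_lit 171)) (XT.lf (nat_lit 0) (nat_lit 296877798025) (nat_lit 152) (nat_lit 1109922909156) (nat_lit 0) (nat_lit 86730523089) (nat_lit 5) (nat_lit 5) (nat_lit 7) (nat_lit 4) (nat_lit 5) (nat_lit 4) (nat_lit 394) (nat_lit 336) (nat_lit 170))) (XT.nd (nat_lit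 78) (nat_lit 0) (nat_lit 0) (XT.lf (nat_lit 0) (nat_lit 462638765663) (nat_lit 152) (nat_lit 885140350648) (nat_lit 0) (nat_lit 252491446687) (nat_lit 5) (nat_lit 5) (nat_lit 7) (nat_lit 4) (nat_lit 5) (nat_lit 4) (nat_lit 395) (nat_lit 336) (nat_lit 169)) (XT.lf (nat_lit 0) (nat_lit 641660546611) (nat_lit 152) (nat_lit 642375314022) (nat_lit 0) (nat_lit 431513186857) (nat_lit 5) (nat_lit 5) (nat_lit 7) (nat_lit 4) (nat_lit 5) (nat_lit 4) (nat_lit 396) (nat_lit 336) (nat_lit 168)))) (XT.nd (nat_lit 156) (nat_lit 76) (nat_lit 0) (XT.nd (nat_lit 78) (nat_lit 0) (nat_lit 0) (XT.lf (nat_lit 0) (nat_lit 835004010680) (nat_lit 152) (nat_lit 380189191653) (nat_lit 0) (nat_lit 624856613168) (nat_lit 5) (nat_lit 5) (nat_lit 7) (nat_lit 4) (nat_lit 5) (nat_lit 4) (nat_lit 397) (nat_lit 336) (nat_lit 167)) (XT.lf (nat_lit 0) (nat_lit 1043814896917) (nat_lit 152) (nat_lit 97028288001) (nat_lit 0)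 (nat_lit 833667464445) (nat_lit 5) (nat_lit 5) (nat_lit 7) (nat_lit 4) (nat_lit 5) (nat_lit 4) (nat_lit 398) (nat_lit 336) (nat_lit 166))) (XT.nd (nat_lit 78) (nat_lit 0) (nat_lit 0) (XT.lf (nat_lit 0) (nat_lit 219779655979) (nat_lit 76) (nat_lit 1054836653200) (nat_lit 76) (nat_lit 844689188357) (nat_lit 4) (nat_lit 4) (nat_lit 5) (nat_lit 5) (nat_lit 5) (nat_lit 4) (nat_lit 399) (nat_lit 336) (nat_lit 165)) (XT.nd (nat_lit 78) (nat_lit 0) (nat_lit 0) (XT.lf (nat_lit 0) (nat_lit 567450222265) (nat_lit 76) (nat_lit 959084488027) (nat_lit 76) (nat_lit 748936993212) (nat_lit 4) (nat_lit 4) (nat_lit 5) (nat_lit 5) (nat_lit 5) (nat_lit 4) (nat_lit 400) (nat_lit 336) (nat_lit 164)) (XT.lf (nat_lit 0) (nat_lit 942934343183) (nat_lit 76) (nat_lit 855672194505) (nat_lit 76) (nat_lit 645524671937) (nat_lit 4) (nat_lit 4) (nat_lit 5) (nat_lit 5) (nat_lit 5) (nat_lit 4) (nat_lit 401) (nat_lit 336)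 (nat_lit 163)))))) (XT.nd (nat_lit 312) (nat_lit 152) (nat_lit 0) (XT.nd (nat_lit 156) (nat_lit 0) (nat_lit 0) (XT.nd (nat_lit 78) (nat_lit 0) (nat_lit 0) (XT.lf (nat_lit 0) (nat_lit 1348457109819) (nat_lit 76) (nat_lit 743986959042) (nat_lit 76) (nat_lit 533839410777) (nat_lit 4) (nat_lit 4) (nat_lit 5) (nat_lit 5) (nat_lit 5) (nat_lit 4) (nat_lit 402) (nat_lit 336) (nat_lit 162)) (XT.lf (nat_lit 0) (nat_lit 1786421620049) (nat_lit 76) (nat_lit 623366943206) (nat_lit 76) (nat_lit 413219371147) (nat_lit 4) (nat_lit 4) (nat_lit 5) (nat_lit 5) (nat_lit 5) (nat_lit 4) (nat_lit 403) (nat_lit 336) (nat_lit 161))) (XT.nd (nat_lit 78) (nat_lit 0) (nat_lit 0) (XT.lf (nat_lit 0) (nat_lit 2259423219119) (nat_lit 76) (nat_lit 493097361717) (nat_lit 76) (nat_lit 282949767628) (nat_lit 4) (nat_lit 4) (nat_lit 5) (nat_lit 5) (nat_lit 5) (nat_lit 4) (nat_lit 404) (nat_lit 336) (nat_lit 160)) (XT.lf (nat_lit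 0) (nat_lit 2770264879469) (nat_lit 76) (nat_lit 352406246687) (nat_lit 76) (nat_lit 142258632198) (nat_lit 4) (nat_lit 4) (nat_lit 5) (nat_lit 5) (nat_lit 5) (nat_lit 4) (nat_lit 405) (nat_lit 336) (nat_lit 159)))) (XT.nd (nat_lit 156) (nat_lit 0) (nat_lit 0) (XT.nd (nat_lit 78) (nat_lit 76) (nat_lit 0) (XT.lf (nat_lit 0) (nat_lit 9203139378) (nat_lit 152) (nat_lit 191005103469) (nat_lit 76) (nat_lit 3312519041418) (nat_lit 3) (nat_lit 5) (nat_lit 5) (nat_lit 5) (nat_lit 4) (nat_lit 4) (nat_lit 406) (nat_lit 336) (nat_lit 158)) (XT.lf (nat_lit 0) (nat_lit 140269199311) (nat_lit 76) (nat_lit 28200440196) (nat_lit 152) (nat_lit 3611313494556) (nat_lit 2) (nat_lit 5) (nat_lit 3) (nat_lit 5) (nat_lit 4) (nat_lit 4) (nat_lit 407) (nat_lit 336) (nat_lit 157))) (XT.nd (nat_lit 41340) (nat_lit 0) (nat_lit 3952) (XT.lf (nat_lit 0) (nat_lit 349625009269) (nat_lit 152) (nat_lit 3562802802546) (nat_lit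 0) (nat_lit 155043836066) (nat_lit 2) (nat_lit 5) (nat_lit 4) (nat_lit 4) (nat_lit 2) (nat_lit 4) (nat_lit 408) (nat_lit 336) (nat_lit 156)) (XT.nd (nat_lit 78) (nat_lit 0) (nat_lit 0) (XT.lf (nat_lit 0) (nat_lit 27052630223) (nat_lit 532) (nat_lit 4043472239) (nat_lit 532) (nat_lit 4043472239) (nat_lit 54) (nat_lit 3) (nat_lit 61) (nat_lit 3) (nat_lit 61) (nat_lit 5) (nat_lit 337) (nat_lit 337) (nat_lit 226)) (XT.lf (nat_lit 76) (nat_lit 26512689119) (nat_lit 0) (nat_lit 30406687949) (nat_lit 532) (nat_lit 16118923391) (nat_lit 55) (nat_lit 5) (nat_lit 54) (nat_lit 3) (nat_lit 61) (nat_lit 5) (nat_lit 338) (nat_lit 337) (nat_lit 225))))))))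
noncomputable def xc196 : XT := (XT.nd (nat_lit 1326) (nat_lit 1140) (nat_lit 0) (XT.nd (nat_lit 624) (nat_lit 1064) (nat_lit 0) (XT.nd (nat_lit 312) (nat_lit 684) (nat_lit 0) (XT.nd (nat_lit 156) (nat_lit 0) (nat_lit 0) (XT.nd (nat_lit 78) (nat_lit 0) (nat_lit 0) (XT.lf (nat_lit 0) (nat_lit 60278562009) (nat_lit 456) (nat_lit 11761163262) (nat_lit 532) (nat_lit 3952865453) (nat_lit 55) (nat_lit 5) (nat_lit 61) (nat_lit 5) (nat_lit 62) (nat_lit 5) (nat_lit 339) (nat_lit 337) (nat_lit 224)) (XT.lf (nat_lit 76) (nat_lit 26310037238) (nat_lit 0) (nat_lit 39017845059) (nat_lit 532) (nat_lit 13741631946) (nat_lit 56) (nat_lit 5) (nat_lit 55) (nat_lit 5) (nat_lit 62) (nat_lit 5) (nat_lit 340) (nat_lit 337) (nat_lit 223))) (XT.nd (nat_lit 78) (nat_lit 0) (nat_lit 76) (XT.lf (nat_lit 76) (nat_lit 68095066702) (nat_lit 0) (nat_lit 3006578788) (nat_lit 532) (nat_lit 11265308295) (nat_lit 56) (nat_lit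 5) (nat_lit 55) (nat_lit 5) (nat_lit 62) (nat_lit 5) (nat_lit 341) (nat_lit 337) (nat_lit 222)) (XT.lf (nat_lit 76) (nat_lit 27822695377) (nat_lit 0) (nat_lit 51045813449) (nat_lit 532) (nat_lit 6937185518) (nat_lit 57) (nat_lit 5) (nat_lit 56) (nat_lit 5) (nat_lit 63) (nat_lit 5) (nat_lit 342) (nat_lit 337) (nat_lit 221)))) (XT.nd (nat_lit 156) (nat_lit 304) (nat_lit 0) (XT.nd (nat_lit 78) (nat_lit 456) (nat_lit 0) (XT.lf (nat_lit 76) (nat_lit 74013544298) (nat_lit 0) (nat_lit 13708579909) (nat_lit 532) (nat_lit 1760179352) (nat_lit 57) (nat_lit 5) (nat_lit 56) (nat_lit 5) (nat_lit 63) (nat_lit 5) (nat_lit 343) (nat_lit 337) (nat_lit 220)) (XT.lf (nat_lit 0) (nat_lit 5069371405) (nat_lit 532) (nat_lit 62094613810) (nat_lit 76) (nat_lit 26167284835) (nat_lit 50) (nat_lit 5) (nat_lit 57) (nat_lit 5) (nat_lit 51) (nat_lit 5) (nat_lit 344) (nat_lit 337) (nat_lit 219))) (XT.nd (nat_lit 78)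 (nat_lit 304) (nat_lit 0) (XT.lf (nat_lit 0) (nat_lit 13139351208) (nat_lit 532) (nat_lit 15309657555) (nat_lit 76) (nat_lit 68972356058) (nat_lit 50) (nat_lit 5) (nat_lit 57) (nat_lit 5) (nat_lit 51) (nat_lit 5) (nat_lit 345) (nat_lit 337) (nat_lit 218)) (XT.lf (nat_lit 0) (nat_lit 23090277804) (nat_lit 380) (nat_lit 65040104123) (nat_lit 76) (nat_lit 13609458588) (nat_lit 46) (nat_lit 5) (nat_lit 51) (nat_lit 5) (nat_lit 47) (nat_lit 5) (nat_lit 346) (nat_lit 337) (nat_lit 217))))) (XT.nd (nat_lit 312) (nat_lit 608) (nat_lit 0) (XT.nd (nat_lit 156) (nat_lit 228) (nat_lit 0) (XT.nd (nat_lit 78) (nat_lit 228) (nat_lit 0) (XT.lf (nat_lit 0) (nat_lit 35004946416) (nat_lit 380) (nat_lit 13380336399) (nat_lit 76) (nat_lit 57925099140) (nat_lit 46) (nat_lit 5) (nat_lit 51) (nat_lit 5) (nat_lit 47) (nat_lit 5) (nat_lit 347) (nat_lit 337) (nat_lit 216)) (XT.lf (nat_lit 0) (nat_lit 44644806993)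 (nat_lit 228) (nat_lit 4301011390) (nat_lit 304) (nat_lit 62214906977) (nat_lit 43) (nat_lit 5) (nat_lit 46) (nat_lit 5) (nat_lit 47) (nat_lit 5) (nat_lit 348) (nat_lit 337) (nat_lit 215))) (XT.nd (nat_lit 78) (nat_lit 228) (nat_lit 0) (XT.lf (nat_lit 0) (nat_lit 65418264436) (nat_lit 304) (nat_lit 9348777230) (nat_lit 76) (nat_lit 41518751188) (nat_lit 43) (nat_lit 5) (nat_lit 47) (nat_lit 5) (nat_lit 44) (nat_lit 5) (nat_lit 349) (nat_lit 337) (nat_lit 214)) (XT.lf (nat_lit 0) (nat_lit 55032260084) (nat_lit 228) (nat_lit 29610888997) (nat_lit 304) (nat_lit 37062946123) (nat_lit 40) (nat_lit 5) (nat_lit 43) (nat_lit 5) (nat_lit 44) (nat_lit 5) (nat_lit 350) (nat_lit 337) (nat_lit 213)))) (XT.nd (nat_lit 156) (nat_lit 456) (nat_lit 0) (XT.nd (nat_lit 78) (nat_lit 152) (nat_lit 0) (XT.lf (nat_lit 0) (nat_lit 106128446962) (nat_lit 304) (nat_lit 2912226206) (nat_lit 76) (nat_lit 18461555604)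 (nat_lit 40) (nat_lit 5) (nat_lit 44) (nat_lit 5) (nat_lit 41) (nat_lit 5) (nat_lit 351) (nat_lit 337) (nat_lit 212)) (XT.lf (nat_lit 0) (nat_lit 68612818781) (nat_lit 152) (nat_lit 63138472867) (nat_lit 228) (nat_lit 1817264302) (nat_lit 38) (nat_lit 5) (nat_lit 40) (nat_lit 5) (nat_lit 41) (nat_lit 5) (nat_lit 352) (nat_lit 337) (nat_lit 211))) (XT.nd (nat_lit 78) (nat_lit 152) (nat_lit 0) (XT.lf (nat_lit 0) (nat_lit 5731370025) (nat_lit 228) (nat_lit 12825763617) (nat_lit 304) (nat_lit 121508394855) (nat_lit 34) (nat_lit 5) (nat_lit 37) (nat_lit 5) (nat_lit 38) (nat_lit 5) (nat_lit 353) (nat_lit 337) (nat_lit 210)) (XT.nd (nat_lit 78) (nat_lit 152) (nat_lit 0) (XT.lf (nat_lit 0) (nat_lit 43283300101) (nat_lit 304) (nat_lit 62265037832) (nat_lit 76) (nat_lit 41304545694) (nat_lit 34) (nat_lit 5) (nat_lit 38) (nat_lit 5) (nat_lit 35) (nat_lit 5) (nat_lit 354) (nat_lit 337) (nat_lit 209))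 (XT.lf (nat_lit 0) (nat_lit 16038119132) (nat_lit 152) (nat_lit 54667829328) (nat_lit 228) (nat_lit 83419808183) (nat_lit 32) (nat_lit 5) (nat_lit 34) (nat_lit 5) (nat_lit 35) (nat_lit 5) (nat_lit 355) (nat_lit 337) (nat_lit 208))))))) (XT.nd (nat_lit 624) (nat_lit 532) (nat_lit 0) (XT.nd (nat_lit 312) (nat_lit 228) (nat_lit 0) (XT.nd (nat_lit 156) (nat_lit 228) (nat_lit 0) (XT.nd (nat_lit 78) (nat_lit 152) (nat_lit 0) (XT.lf (nat_lit 0) (nat_lit 102075422851) (nat_lit 228) (nat_lit 57749359827) (nat_lit 76) (nat_lit 2015436207) (nat_lit 32) (nat_lit 5) (nat_lit 35) (nat_lit 5) (nat_lit 33) (nat_lit 5) (nat_lit 356) (nat_lit 337) (nat_lit 207)) (XT.lf (nat_lit 0) (nat_lit 29048548026) (nat_lit 152) (nat_lit 109024051949) (nat_lit 228) (nat_lit 31929787031) (nat_lit 30) (nat_lit 5) (nat_lit 32) (nat_lit 5) (nat_lit 33) (nat_lit 5) (nat_lit 357) (nat_lit 337) (nat_lit 206))) (XT.nd (nat_lit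 78) (nat_lit 228) (nat_lit 0) (XT.lf (nat_lit 0) (nat_lit 126073946882) (nat_lit 152) (nat_lit 52454173605) (nat_lit 228) (nat_lit 163122999) (nat_lit 30) (nat_lit 5) (nat_lit 32) (nat_lit 5) (nat_lit 33) (nat_lit 5) (nat_lit 358) (nat_lit 337) (nat_lit 205)) (XT.lf (nat_lit 0) (nat_lit 33755561110) (nat_lit 228) (nat_lit 144007115487) (nat_lit 76) (nat_lit 10141337318) (nat_lit 27) (nat_lit 5) (nat_lit 30) (nat_lit 5) (nat_lit 28) (nat_lit 5) (nat_lit 359) (nat_lit 337) (nat_lit 204)))) (XT.nd (nat_lit 156) (nat_lit 76) (nat_lit 0) (XT.nd (nat_lit 78) (nat_lit 152) (nat_lit 0) (XT.lf (nat_lit 0) (nat_lit 73217019908) (nat_lit 228) (nat_lit 48018728583) (nat_lit 76) (nat_lit 76390671456) (nat_lit 27) (nat_lit 5) (nat_lit 30) (nat_lit 5) (nat_lit 28) (nat_lit 5) (nat_lit 360) (nat_lit 337) (nat_lit 203)) (XT.lf (nat_lit 0) (nat_lit 58578522161) (nat_lit 152) (nat_lit 58665344689) (nat_lit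 228) (nat_lit 90770074225) (nat_lit 25) (nat_lit 5) (nat_lit 27) (nat_lit 5) (nat_lit 28) (nat_lit 5) (nat_lit 361) (nat_lit 337) (nat_lit 202))) (XT.nd (nat_lit 78) (nat_lit 76) (nat_lit 0) (XT.lf (nat_lit 0) (nat_lit 166353847325) (nat_lit 228) (nat_lit 42941964320) (nat_lit 76) (nat_lit 9811773690) (nat_lit 25) (nat_lit 5) (nat_lit 28) (nat_lit 5) (nat_lit 26) (nat_lit 4) (nat_lit 362) (nat_lit 337) (nat_lit 201)) (XT.lf (nat_lit 0) (nat_lit 74261545151) (nat_lit 76) (nat_lit 148440537620) (nat_lit 152) (nat_lit 8121882121) (nat_lit 24) (nat_lit 5) (nat_lit 25) (nat_lit 5) (nat_lit 26) (nat_lit 4) (nat_lit 363) (nat_lit 337) (nat_lit 200))))) (XT.nd (nat_lit 312) (nat_lit 228) (nat_lit 0) (XT.nd (nat_lit 156) (nat_lit 76) (nat_lit 0) (XT.nd (nat_lit 78) (nat_lit 152) (nat_lit 0) (XT.lf (nat_lit 0) (nat_lit 39279830378) (nat_lit 152) (nat_lit 41095190083) (nat_lit 76) (nat_lit 162929175737)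 (nat_lit 23) (nat_lit 5) (nat_lit 25) (nat_lit 5) (nat_lit 24) (nat_lit 5) (nat_lit 364) (nat_lit 337) (nat_lit 199)) (XT.lf (nat_lit 0) (nat_lit 87789574976) (nat_lit 152) (nat_lit 4356368919) (nat_lit 228) (nat_lit 164451141171) (nat_lit 21) (nat_lit 5) (nat_lit 23) (nat_lit 5) (nat_lit 24) (nat_lit 5) (nat_lit 365) (nat_lit 337) (nat_lit 198))) (XT.nd (nat_lit 78) (nat_lit 76) (nat_lit 0) (XT.lf (nat_lit 0) (nat_lit 152263606935) (nat_lit 228) (nat_lit 43440679889) (nat_lit 76) (nat_lit 75007337589) (nat_lit 21) (nat_lit 5) (nat_lit 24) (nat_lit 5) (nat_lit 22) (nat_lit 4) (nat_lit 366) (nat_lit 337) (nat_lit 197)) (XT.lf (nat_lit 0) (nat_lit 96678130829) (nat_lit 76) (nat_lit 122950557342) (nat_lit 152) (nat_lit 66131598516) (nat_lit 20) (nat_lit 5) (nat_lit 21) (nat_lit 5) (nat_lit 22) (nat_lit 4) (nat_lit 367) (nat_lit 337) (nat_lit 196)))) (XT.nd (nat_lit 156) (nat_lit 76) (nat_lit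 0) (XT.nd (nat_lit 78) (nat_lit 152) (nat_lit 0) (XT.lf (nat_lit 0) (nat_lit 250476522518) (nat_lit 76) (nat_lit 43093948629) (nat_lit 152) (nat_lit 8347371353) (nat_lit 20) (nat_lit 5) (nat_lit 21) (nat_lit 5) (nat_lit 22) (nat_lit 4) (nat_lit 368) (nat_lit 337) (nat_lit 195)) (XT.lf (nat_lit 0) (nat_lit 54917804074) (nat_lit 152) (nat_lit 219243686119) (nat_lit 76) (nat_lit 44817502780) (nat_lit 18) (nat_lit 5) (nat_lit 20) (nat_lit 5) (nat_lit 19) (nat_lit 4) (nat_lit 369) (nat_lit 337) (nat_lit 194))) (XT.nd (nat_lit 78) (nat_lit 76) (nat_lit 0) (XT.lf (nat_lit 0) (nat_lit 125355337358) (nat_lit 152) (nat_lit 72734027221) (nat_lit 76) (nat_lit 139093356363) (nat_lit 18) (nat_lit 5) (nat_lit 20) (nat_lit 5) (nat_lit 19) (nat_lit 4) (nat_lit 370) (nat_lit 337) (nat_lit 193)) (XT.nd (nat_lit 78) (nat_lit 0) (nat_lit 0) (XT.lf (nat_lit 0) (nat_lit 89998085910) (nat_lit 76) (nat_lit 113594026962)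 (nat_lit 152) (nat_lit 153077495242) (nat_lit 17) (nat_lit 5) (nat_lit 18) (nat_lit 5) (nat_lit 19) (nat_lit 4) (nat_lit 371) (nat_lit 337) (nat_lit 192)) (XT.lf (nat_lit 0) (nat_lit 269884839245) (nat_lit 76) (nat_lit 20191458786) (nat_lit 152) (nat_lit 87480070941) (nat_lit 17) (nat_lit 5) (nat_lit 18) (nat_lit 5) (nat_lit 19) (nat_lit 4) (nat_lit 372) (nat_lit 337) (nat_lit 191))))))))
noncomputable def xc197 : XT := (XT.nd (nat_lit 1326) (nat_lit 304) (nat_lit 0) (XT.nd (nat_lit 624) (nat_lit 228) (nat_lit 0) (XT.nd (nat_lit 312) (nat_lit 228) (nat_lit 0) (XT.nd (nat_lit 156) (nat_lit 76) (nat_lit 0) (XT.nd (nat_lit 78) (nat_lit 76) (nat_lit 0) (XT.lf (nat_lit 0) (nat_lit 65378144697) (nat_lit 76) (nat_lit 321613657110) (nat_lit 76) (nat_lit 12841262298) (nat_lit 16) (nat_lit 4) (nat_lit 17) (nat_lit 5) (nat_lit 17) (nat_lit 4) (nat_lit 373) (nat_lit 337) (nat_lit 190)) (XT.lf (nat_lit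 0) (nat_lit 67923241576) (nat_lit 152) (nat_lit 167492331598) (nat_lit 76) (nat_lit 188062362522) (nat_lit 15) (nat_lit 5) (nat_lit 17) (nat_lit 5) (nat_lit 16) (nat_lit 4) (nat_lit 374) (nat_lit 337) (nat_lit 189))) (XT.nd (nat_lit 78) (nat_lit 0) (nat_lit 0) (XT.lf (nat_lit 0) (nat_lit 13151267828) (nat_lit 76) (nat_lit 141619982405) (nat_lit 152) (nat_lit 294191175233) (nat_lit 14) (nat_lit 5) (nat_lit 15) (nat_lit 5) (nat_lit 16) (nat_lit 4) (nat_lit 375) (nat_lit 337) (nat_lit 188)) (XT.lf (nat_lit 0) (nat_lit 217771465212) (nat_lit 76) (nat_lit 35374995025) (nat_lit 152) (nat_lit 222972865409) (nat_lit 14) (nat_lit 5) (nat_lit 15) (nat_lit 5) (nat_lit 16) (nat_lit 4) (nat_lit 376) (nat_lit 337) (nat_lit 187)))) (XT.nd (nat_lit 156) (nat_lit 152) (nat_lit 0) (XT.nd (nat_lit 78) (nat_lit 76) (nat_lit 0) (XT.lf (nat_lit 0) (nat_lit 361300360827) (nat_lit 152) (nat_lit 68596652891) (nat_lit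 0) (nat_lit 75399070296) (nat_lit 14) (nat_lit 5) (nat_lit 16) (nat_lit 4) (nat_lit 14) (nat_lit 4) (nat_lit 377) (nat_lit 337) (nat_lit 186)) (XT.lf (nat_lit 0) (nat_lit 142546272397) (nat_lit 76) (nat_lit 339907218945) (nat_lit 76) (nat_lit 54005738350) (nat_lit 13) (nat_lit 4) (nat_lit 14) (nat_lit 5) (nat_lit 14) (nat_lit 4) (nat_lit 378) (nat_lit 337) (nat_lit 185))) (XT.nd (nat_lit 78) (nat_lit 76) (nat_lit 0) (XT.lf (nat_lit 0) (nat_lit 42947350446) (nat_lit 152) (nat_lit 196571167649) (nat_lit 76) (nat_lit 330359894677) (nat_lit 12) (nat_lit 5) (nat_lit 14) (nat_lit 5) (nat_lit 13) (nat_lit 4) (nat_lit 379) (nat_lit 337) (nat_lit 184)) (XT.lf (nat_lit 0) (nat_lit 15952982529) (nat_lit 76) (nat_lit 129169518459) (nat_lit 152) (nat_lit 460705727670) (nat_lit 11) (nat_lit 5) (nat_lit 12) (nat_lit 5) (nat_lit 13) (nat_lit 4) (nat_lit 380) (nat_lit 337) (nat_lit 183))))) (XT.nd (nat_lit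 312) (nat_lit 152) (nat_lit 0) (XT.nd (nat_lit 156) (nat_lit 76) (nat_lit 0) (XT.nd (nat_lit 78) (nat_lit 0) (nat_lit 0) (XT.lf (nat_lit 0) (nat_lit 256657979030) (nat_lit 76) (nat_lit 4188150506) (nat_lit 152) (nat_lit 383377943053) (nat_lit 11) (nat_lit 5) (nat_lit 12) (nat_lit 5) (nat_lit 13) (nat_lit 4) (nat_lit 381) (nat_lit 337) (nat_lit 182)) (XT.lf (nat_lit 0) (nat_lit 388973061898) (nat_lit 152) (nat_lit 172218003232) (nat_lit 0) (nat_lit 124248885871) (nat_lit 11) (nat_lit 5) (nat_lit 13) (nat_lit 4) (nat_lit 11) (nat_lit 4) (nat_lit 382) (nat_lit 337) (nat_lit 181))) (XT.nd (nat_lit 78) (nat_lit 0) (nat_lit 0) (XT.lf (nat_lit 0) (nat_lit 63421520788) (nat_lit 76) (nat_lit 465562579320) (nat_lit 76) (nat_lit 200838283521) (nat_lit 10) (nat_lit 4) (nat_lit 11) (nat_lit 5) (nat_lit 11) (nat_lit 4) (nat_lit 383) (nat_lit 337) (nat_lit 180)) (XT.lf (nat_lit 0) (nat_lit 327706171309)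 (nat_lit 76) (nat_lit 357198478031) (nat_lit 76) (nat_lit 92474071331) (nat_lit 10) (nat_lit 4) (nat_lit 11) (nat_lit 5) (nat_lit 11) (nat_lit 4) (nat_lit 384) (nat_lit 337) (nat_lit 179)))) (XT.nd (nat_lit 156) (nat_lit 0) (nat_lit 0) (XT.nd (nat_lit 78) (nat_lit 76) (nat_lit 0) (XT.lf (nat_lit 0) (nat_lit 23330611687) (nat_lit 152) (nat_lit 216196837075) (nat_lit 76) (nat_lit 589164872780) (nat_lit 9) (nat_lit 5) (nat_lit 11) (nat_lit 5) (nat_lit 10) (nat_lit 4) (nat_lit 385) (nat_lit 337) (nat_lit 178)) (XT.lf (nat_lit 0) (nat_lit 35321745934) (nat_lit 76) (nat_lit 108931307142) (nat_lit 152) (nat_lit 739597852685) (nat_lit 8) (nat_lit 5) (nat_lit 9) (nat_lit 5) (nat_lit 10) (nat_lit 4) (nat_lit 386) (nat_lit 337) (nat_lit 177))) (XT.nd (nat_lit 78) (nat_lit 0) (nat_lit 0) (XT.lf (nat_lit 0) (nat_lit 281686236634) (nat_lit 152) (nat_lit 624618203750) (nat_lit 0) (nat_lit 36570780614)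 (nat_lit 8) (nat_lit 5) (nat_lit 10) (nat_lit 4) (nat_lit 8) (nat_lit 4) (nat_lit 387) (nat_lit 337) (nat_lit 176)) (XT.nd (nat_lit 78) (nat_lit 0) (nat_lit 0) (XT.lf (nat_lit 0) (nat_lit 432943364475) (nat_lit 152) (nat_lit 385623940861) (nat_lit 0) (nat_lit 187827832978) (nat_lit 8) (nat_lit 5) (nat_lit 10) (nat_lit 4) (nat_lit 8) (nat_lit 4) (nat_lit 388) (nat_lit 337) (nat_lit 175)) (XT.lf (nat_lit 0) (nat_lit 596300974578) (nat_lit 152) (nat_lit 127510308305) (nat_lit 0) (nat_lit 351185373195) (nat_lit 8) (nat_lit 5) (nat_lit 10) (nat_lit 4) (nat_lit 8) (nat_lit 4) (nat_lit 389) (nat_lit 337) (nat_lit 174))))))) (XT.nd (nat_lit 624) (nat_lit 76) (nat_lit 0) (XT.nd (nat_lit 312) (nat_lit 76) (nat_lit 0) (XT.nd (nat_lit 156) (nat_lit 76) (nat_lit 0) (XT.nd (nat_lit 78) (nat_lit 0) (nat_lit 0) (XT.lf (nat_lit 0) (nat_lit 159216931951) (nat_lit 76) (nat_lit 617339351131) (nat_lit 76)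 (nat_lit 372223685039) (nat_lit 7) (nat_lit 4) (nat_lit 8) (nat_lit 5) (nat_lit 8) (nat_lit 4) (nat_lit 390) (nat_lit 337) (nat_lit 173)) (XT.lf (nat_lit 0) (nat_lit 476133820992) (nat_lit 76) (nat_lit 498584473935) (nat_lit 76) (nat_lit 253468747928) (nat_lit 7) (nat_lit 4) (nat_lit 8) (nat_lit 5) (nat_lit 8) (nat_lit 4) (nat_lit 391) (nat_lit 337) (nat_lit 172))) (XT.nd (nat_lit 78) (nat_lit 76) (nat_lit 0) (XT.lf (nat_lit 0) (nat_lit 818403917959) (nat_lit 76) (nat_lit 370329276489) (nat_lit 76) (nat_lit 125213495004) (nat_lit 7) (nat_lit 4) (nat_lit 8) (nat_lit 5) (nat_lit 8) (nat_lit 4) (nat_lit 392) (nat_lit 337) (nat_lit 171)) (XT.lf (nat_lit 0) (nat_lit 12636679702) (nat_lit 152) (nat_lit 218831539072) (nat_lit 76) (nat_lit 1175073301172) (nat_lit 6) (nat_lit 5) (nat_lit 8) (nat_lit 5) (nat_lit 7) (nat_lit 4) (nat_lit 393) (nat_lit 337) (nat_lit 170)))) (XT.nd (nat_lit 156) (nat_lit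 0) (nat_lit 0) (XT.nd (nat_lit 78) (nat_lit 0) (nat_lit 0) (XT.lf (nat_lit 0) (nat_lit 80806432196) (nat_lit 76) (nat_lit 75886987329) (nat_lit 152) (nat_lit 1349434866914) (nat_lit 5) (nat_lit 5) (nat_lit 6) (nat_lit 5) (nat_lit 7) (nat_lit 4) (nat_lit 394) (nat_lit 337) (nat_lit 169)) (XT.lf (nat_lit 0) (nat_lit 320629272475) (nat_lit 152) (nat_lit 1198714272712) (nat_lit 0) (nat_lit 93670083162) (nat_lit 5) (nat_lit 5) (nat_lit 7) (nat_lit 4) (nat_lit 5) (nat_lit 4) (nat_lit 395) (nat_lit 337) (nat_lit 168))) (XT.nd (nat_lit 78) (nat_lit 0) (nat_lit 0) (XT.lf (nat_lit 0) (nat_lit 499651024886) (nat_lit 152) (nat_lit 955949292426) (nat_lit 0) (nat_lit 272691797817) (nat_lit 5) (nat_lit 5) (nat_lit 7) (nat_lit 4) (nat_lit 5) (nat_lit 4) (nat_lit 396) (nat_lit 337) (nat_lit 167)) (XT.lf (nat_lit 0) (nat_lit 692994462534) (nat_lit 152) (nat_lit 693763222223) (nat_lit 0) (nat_lit 466035200504)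 (nat_lit 5) (nat_lit 5) (nat_lit 7) (nat_lit 4) (nat_lit 5) (nat_lit 4) (nat_lit 397) (nat_lit 337) (nat_lit 166))))) (XT.nd (nat_lit 312) (nat_lit 0) (nat_lit 0) (XT.nd (nat_lit 156) (nat_lit 76) (nat_lit 0) (XT.nd (nat_lit 78) (nat_lit 0) (nat_lit 0) (XT.lf (nat_lit 0) (nat_lit 901805324306) (nat_lit 152) (nat_lit 410602366873) (nat_lit 0) (nat_lit 674846029906) (nat_lit 5) (nat_lit 5) (nat_lit 7) (nat_lit 4) (nat_lit 5) (nat_lit 4) (nat_lit 398) (nat_lit 337) (nat_lit 165)) (XT.lf (nat_lit 0) (nat_lit 1127321007904) (nat_lit 152) (nat_lit 104788736122) (nat_lit 0) (nat_lit 900361683531) (nat_lit 5) (nat_lit 5) (nat_lit 7) (nat_lit 4) (nat_lit 5) (nat_lit 4) (nat_lit 399) (nat_lit 337) (nat_lit 164))) (XT.nd (nat_lit 78) (nat_lit 0) (nat_lit 0) (XT.lf (nat_lit 0) (nat_lit 237363797428) (nat_lit 76) (nat_lit 1139222710171) (nat_lit 76) (nat_lit 912263358045) (nat_lit 4) (nat_lit 4) (nat_lit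 5) (nat_lit 5) (nat_lit 5) (nat_lit 4) (nat_lit 400) (nat_lit 337) (nat_lit 163)) (XT.lf (nat_lit 0) (nat_lit 612847877983) (nat_lit 76) (nat_lit 1035810436620) (nat_lit 76) (nat_lit 808851058797) (nat_lit 4) (nat_lit 4) (nat_lit 5) (nat_lit 5) (nat_lit 5) (nat_lit 4) (nat_lit 401) (nat_lit 337) (nat_lit 162)))) (XT.nd (nat_lit 156) (nat_lit 0) (nat_lit 0) (XT.nd (nat_lit 78) (nat_lit 0) (nat_lit 0) (XT.lf (nat_lit 0) (nat_lit 1018370607245) (nat_lit 76) (nat_lit 924125219650) (nat_lit 76) (nat_lit 697165818033) (nat_lit 4) (nat_lit 4) (nat_lit 5) (nat_lit 5) (nat_lit 5) (nat_lit 4) (nat_lit 402) (nat_lit 337) (nat_lit 161)) (XT.lf (nat_lit 0) (nat_lit 1456335082870) (nat_lit 76) (nat_lit 803505220936) (nat_lit 76) (nat_lit 576545797288) (nat_lit 4) (nat_lit 4) (nat_lit 5) (nat_lit 5) (nat_lit 5) (nat_lit 4) (nat_lit 403) (nat_lit 337) (nat_lit 160))) (XT.nd (nat_lit 78) (nat_lit 0) (nat_lit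 0) (XT.lf (nat_lit 0) (nat_lit 1929336649899) (nat_lit 76) (nat_lit 673235655302) (nat_lit 76) (nat_lit 446276211255) (nat_lit 4) (nat_lit 4) (nat_lit 5) (nat_lit 5) (nat_lit 5) (nat_lit 4) (nat_lit 404) (nat_lit 337) (nat_lit 159)) (XT.nd (nat_lit 78) (nat_lit 0) (nat_lit 0) (XT.lf (nat_lit 0) (nat_lit 2440178280581) (nat_lit 76) (nat_lit 532544554951) (nat_lit 76) (nat_lit 305585092016) (nat_lit 4) (nat_lit 4) (nat_lit 5) (nat_lit 5) (nat_lit 5) (nat_lit 4) (nat_lit 405) (nat_lit 337) (nat_lit 158)) (XT.lf (nat_lit 0) (nat_lit 2991887184578) (nat_lit 76) (nat_lit 380598194844) (nat_lit 76) (nat_lit 153638714420) (nat_lit 4) (nat_lit 4) (nat_lit 5) (nat_lit 5) (nat_lit 5) (nat_lit 4) (nat_lit 406) (nat_lit 337) (nat_lit 157))))))))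
noncomputable def xc198 : XT := (XT.nd (nat_lit 42666) (nat_lit 0) (nat_lit 1368) (XT.nd (nat_lit 41964) (nat_lit 0) (nat_lit 2888) (XT.nd (nat_lit 41652) (nat_lit 0) (nat_lit 4028) (XT.nd (nat_lit 41496) (nat_lit 0) (nat_lit 3952) (XT.nd (nat_lit 78) (nat_lit 76) (nat_lit 0) (XT.lf (nat_lit 0) (nat_lit 9939925641) (nat_lit 152) (nat_lit 206284451283) (nat_lit 76) (nat_lit 3577521047166) (nat_lit 3) (nat_lit 5) (nat_lit 5) (nat_lit 5) (nat_lit 4) (nat_lit 4) (nat_lit 407) (nat_lit 337) (nat_lit 156)) (XT.lf (nat_lit 0) (nat_lit 151491768872) (nat_lit 76) (nat_lit 30455962128) (nat_lit 152) (nat_lit 3900218012061) (nat_lit 2) (nat_lit 5) (nat_lit 3) (nat_lit 5) (nat_lit 4) (nat_lit 4) (nat_lit 408) (nat_lit 337) (nat_lit 155))) (XT.nd (nat_lit 78) (nat_lit 0) (nat_lit 0) (XT.lf (nat_lit 0) (nat_lit 29228820810) (nat_lit 532) (nat_lit 4360469784) (nat_lit 532) (nat_lit 4360469784) (nat_lit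 54) (nat_lit 3) (nat_lit 61) (nat_lit 3) (nat_lit 61) (nat_lit 5) (nat_lit 338) (nat_lit 338) (nat_lit 224)) (XT.lf (nat_lit 76) (nat_lit 28646336603) (nat_lit 0) (nat_lit 32849079939) (nat_lit 532) (nat_lit 17384108282) (nat_lit 55) (nat_lit 5) (nat_lit 54) (nat_lit 3) (nat_lit 61) (nat_lit 5) (nat_lit 339) (nat_lit 338) (nat_lit 223)))) (XT.nd (nat_lit 156) (nat_lit 0) (nat_lit 0) (XT.nd (nat_lit 78) (nat_lit 0) (nat_lit 0) (XT.lf (nat_lit 0) (nat_lit 65121450904) (nat_lit 456) (nat_lit 12688436799) (nat_lit 532) (nat_lit 4260424440) (nat_lit 55) (nat_lit 5) (nat_lit 61) (nat_lit 5) (nat_lit 62) (nat_lit 5) (nat_lit 340) (nat_lit 338) (nat_lit 222)) (XT.lf (nat_lit 76) (nat_lit 28428114943) (nat_lit 0) (nat_lit 42145394912) (nat_lit 532) (nat_lit 14819979025) (nat_lit 56) (nat_lit 5) (nat_lit 55) (nat_lit 5) (nat_lit 62) (nat_lit 5) (nat_lit 341) (nat_lit 338) (nat_lit 221))) (XT.nd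 (nat_lit 78) (nat_lit 0) (nat_lit 76) (XT.lf (nat_lit 76) (nat_lit 73554963450) (nat_lit 0) (nat_lit 3252773840) (nat_lit 532) (nat_lit 12147103813) (nat_lit 56) (nat_lit 5) (nat_lit 55) (nat_lit 5) (nat_lit 62) (nat_lit 5) (nat_lit 342) (nat_lit 338) (nat_lit 220)) (XT.lf (nat_lit 76) (nat_lit 30062055921) (nat_lit 0) (nat_lit 55132762910) (nat_lit 532) (nat_lit 7473954928) (nat_lit 57) (nat_lit 5) (nat_lit 56) (nat_lit 5) (nat_lit 63) (nat_lit 5) (nat_lit 343) (nat_lit 338) (nat_lit 219))))) (XT.nd (nat_lit 312) (nat_lit 456) (nat_lit 0) (XT.nd (nat_lit 156) (nat_lit 304) (nat_lit 0) (XT.nd (nat_lit 78) (nat_lit 456) (nat_lit 0) (XT.lf (nat_lit 76) (nat_lit 79947169429) (nat_lit 0) (nat_lit 14808307400) (nat_lit 532) (nat_lit 1884136819) (nat_lit 57) (nat_lit 5) (nat_lit 56) (nat_lit 5) (nat_lit 63) (nat_lit 5) (nat_lit 344) (nat_lit 338) (nat_lit 218)) (XT.lf (nat_lit 0) (nat_lit 5490013103)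 (nat_lit 532) (nat_lit 67047827248) (nat_lit 76) (nat_lit 28258700297) (nat_lit 50) (nat_lit 5) (nat_lit 57) (nat_lit 5) (nat_lit 51) (nat_lit 5) (nat_lit 345) (nat_lit 338) (nat_lit 217))) (XT.nd (nat_lit 78) (nat_lit 304) (nat_lit 0) (XT.lf (nat_lit 0) (nat_lit 14204473366) (nat_lit 532) (nat_lit 16521137875) (nat_lit 76) (nat_lit 74488322946) (nat_lit 50) (nat_lit 5) (nat_lit 57) (nat_lit 5) (nat_lit 51) (nat_lit 5) (nat_lit 346) (nat_lit 338) (nat_lit 216)) (XT.lf (nat_lit 0) (nat_lit 24950743471) (nat_lit 380) (nat_lit 70229269278) (nat_lit 76) (nat_lit 14697935259) (nat_lit 46) (nat_lit 5) (nat_lit 51) (nat_lit 5) (nat_lit 47) (nat_lit 5) (nat_lit 347) (nat_lit 338) (nat_lit 215)))) (XT.nd (nat_lit 156) (nat_lit 228) (nat_lit 0) (XT.nd (nat_lit 78) (nat_lit 228) (nat_lit 0) (XT.lf (nat_lit 0) (nat_lit 37817604577) (nat_lit 380) (nat_lit 14437760371) (nat_lit 76) (nat_lit 62558847797)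 (nat_lit 46) (nat_lit 5) (nat_lit 51) (nat_lit 5) (nat_lit 47) (nat_lit 5) (nat_lit 348) (nat_lit 338) (nat_lit 214)) (XT.lf (nat_lit 0) (nat_lit 48229065304) (nat_lit 228) (nat_lit 4644077471) (nat_lit 304) (nat_lit 67179490519) (nat_lit 43) (nat_lit 5) (nat_lit 46) (nat_lit 5) (nat_lit 47) (nat_lit 5) (nat_lit 349) (nat_lit 338) (nat_lit 213))) (XT.nd (nat_lit 78) (nat_lit 228) (nat_lit 0) (XT.lf (nat_lit 0) (nat_lit 70662543487) (nat_lit 304) (nat_lit 10084087335) (nat_lit 76) (nat_lit 44841143935) (nat_lit 43) (nat_lit 5) (nat_lit 47) (nat_lit 5) (nat_lit 44) (nat_lit 5) (nat_lit 350) (nat_lit 338) (nat_lit 212)) (XT.nd (nat_lit 78) (nat_lit 0) (nat_lit 0) (XT.lf (nat_lit 0) (nat_lit 59447114178) (nat_lit 228) (nat_lit 31977798574) (nat_lit 304) (nat_lit 40016830228) (nat_lit 40) (nat_lit 5) (nat_lit 43) (nat_lit 5) (nat_lit 44) (nat_lit 5) (nat_lit 351) (nat_lit 338) (nat_lit 211))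 (XT.lf (nat_lit 0) (nat_lit 114628314310) (nat_lit 304) (nat_lit 3133106198) (nat_lit 76) (nat_lit 19940205441) (nat_lit 40) (nat_lit 5) (nat_lit 44) (nat_lit 5) (nat_lit 41) (nat_lit 5) (nat_lit 352) (nat_lit 338) (nat_lit 210))))))) (XT.nd (nat_lit 624) (nat_lit 532) (nat_lit 0) (XT.nd (nat_lit 312) (nat_lit 380) (nat_lit 0) (XT.nd (nat_lit 156) (nat_lit 152) (nat_lit 0) (XT.nd (nat_lit 78) (nat_lit 304) (nat_lit 0) (XT.lf (nat_lit 0) (nat_lit 74113636107) (nat_lit 152) (nat_lit 68186923570) (nat_lit 228) (nat_lit 1952734798) (nat_lit 38) (nat_lit 5) (nat_lit 40) (nat_lit 5) (nat_lit 41) (nat_lit 5) (nat_lit 353) (nat_lit 338) (nat_lit 209)) (XT.lf (nat_lit 0) (nat_lit 6201867672) (nat_lit 228) (nat_lit 13848842453) (nat_lit 304) (nat_lit 131219329235) (nat_lit 34) (nat_lit 5) (nat_lit 37) (nat_lit 5) (nat_lit 38) (nat_lit 5) (nat_lit 354) (nat_lit 338) (nat_lit 208))) (XT.nd (nat_lit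 78) (nat_lit 152) (nat_lit 0) (XT.lf (nat_lit 0) (nat_lit 46754369215) (nat_lit 304) (nat_lit 67234529990) (nat_lit 76) (nat_lit 44611532561) (nat_lit 34) (nat_lit 5) (nat_lit 38) (nat_lit 5) (nat_lit 35) (nat_lit 5) (nat_lit 355) (nat_lit 338) (nat_lit 207)) (XT.lf (nat_lit 0) (nat_lit 17332583053) (nat_lit 152) (nat_lit 59037898305) (nat_lit 228) (nat_lit 90084681863) (nat_lit 32) (nat_lit 5) (nat_lit 34) (nat_lit 5) (nat_lit 35) (nat_lit 5) (nat_lit 356) (nat_lit 338) (nat_lit 206)))) (XT.nd (nat_lit 156) (nat_lit 228) (nat_lit 0) (XT.nd (nat_lit 78) (nat_lit 152) (nat_lit 0) (XT.lf (nat_lit 0) (nat_lit 110248991649) (nat_lit 228) (nat_lit 62358208985) (nat_lit 76) (nat_lit 2179624270) (nat_lit 32) (nat_lit 5) (nat_lit 35) (nat_lit 5) (nat_lit 33) (nat_lit 5) (nat_lit 357) (nat_lit 338) (nat_lit 205)) (XT.lf (nat_lit 0) (nat_lit 31383250493) (nat_lit 152) (nat_lit 117742394492) (nat_lit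 228) (nat_lit 34476345970) (nat_lit 30) (nat_lit 5) (nat_lit 32) (nat_lit 5) (nat_lit 33) (nat_lit 5) (nat_lit 358) (nat_lit 338) (nat_lit 204))) (XT.nd (nat_lit 78) (nat_lit 228) (nat_lit 0) (XT.lf (nat_lit 0) (nat_lit 136169879878) (nat_lit 152) (nat_lit 56647191185) (nat_lit 228) (nat_lit 168928373) (nat_lit 30) (nat_lit 5) (nat_lit 32) (nat_lit 5) (nat_lit 33) (nat_lit 5) (nat_lit 359) (nat_lit 338) (nat_lit 203)) (XT.lf (nat_lit 0) (nat_lit 36462706121) (nat_lit 228) (nat_lit 155517109843) (nat_lit 76) (nat_lit 10955976663) (nat_lit 27) (nat_lit 5) (nat_lit 30) (nat_lit 5) (nat_lit 28) (nat_lit 5) (nat_lit 360) (nat_lit 338) (nat_lit 202))))) (XT.nd (nat_lit 312) (nat_lit 304) (nat_lit 0) (XT.nd (nat_lit 156) (nat_lit 76) (nat_lit 0) (XT.nd (nat_lit 78) (nat_lit 152) (nat_lit 0) (XT.lf (nat_lit 0) (nat_lit 79080585318) (nat_lit 228) (nat_lit 51850435312) (nat_lit 76) (nat_lit 82505010691)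 (nat_lit 27) (nat_lit 5) (nat_lit 30) (nat_lit 5) (nat_lit 28) (nat_lit 5) (nat_lit 361) (nat_lit 338) (nat_lit 201)) (XT.lf (nat_lit 0) (nat_lit 63274347604) (nat_lit 152) (nat_lit 63355002394) (nat_lit 228) (nat_lit 98025222980) (nat_lit 25) (nat_lit 5) (nat_lit 27) (nat_lit 5) (nat_lit 28) (nat_lit 5) (nat_lit 362) (nat_lit 338) (nat_lit 200))) (XT.nd (nat_lit 78) (nat_lit 76) (nat_lit 0) (XT.lf (nat_lit 0) (nat_lit 179667765903) (nat_lit 228) (nat_lit 46368116652) (nat_lit 76) (nat_lit 10599855669) (nat_lit 25) (nat_lit 5) (nat_lit 28) (nat_lit 5) (nat_lit 26) (nat_lit 4) (nat_lit 363) (nat_lit 338) (nat_lit 199)) (XT.lf (nat_lit 0) (nat_lit 80211440544) (nat_lit 76) (nat_lit 160312219799) (nat_lit 152) (nat_lit 8765784167) (nat_lit 24) (nat_lit 5) (nat_lit 25) (nat_lit 5) (nat_lit 26) (nat_lit 4) (nat_lit 364) (nat_lit 338) (nat_lit 198)))) (XT.nd (nat_lit 156) (nat_lit 76) (nat_lit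 0) (XT.nd (nat_lit 78) (nat_lit 152) (nat_lit 0) (XT.lf (nat_lit 0) (nat_lit 42427361213) (nat_lit 152) (nat_lit 44374223164) (nat_lit 76) (nat_lit 175966531939) (nat_lit 23) (nat_lit 5) (nat_lit 25) (nat_lit 5) (nat_lit 24) (nat_lit 5) (nat_lit 365) (nat_lit 338) (nat_lit 197)) (XT.lf (nat_lit 0) (nat_lit 94821105831) (nat_lit 152) (nat_lit 4701478087) (nat_lit 228) (nat_lit 177601867062) (nat_lit 21) (nat_lit 5) (nat_lit 23) (nat_lit 5) (nat_lit 24) (nat_lit 5) (nat_lit 366) (nat_lit 338) (nat_lit 196))) (XT.nd (nat_lit 78) (nat_lit 76) (nat_lit 0) (XT.lf (nat_lit 0) (nat_lit 164449367981) (nat_lit 228) (nat_lit 46907893568) (nat_lit 76) (nat_lit 81010915565) (nat_lit 21) (nat_lit 5) (nat_lit 24) (nat_lit 5) (nat_lit 22) (nat_lit 4) (nat_lit 367) (nat_lit 338) (nat_lit 195)) (XT.nd (nat_lit 78) (nat_lit 0) (nat_lit 0) (XT.lf (nat_lit 0) (nat_lit 104420218445) (nat_lit 76) (nat_lit 132783279644)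 (nat_lit 152) (nat_lit 71417247147) (nat_lit 20) (nat_lit 5) (nat_lit 21) (nat_lit 5) (nat_lit 22) (nat_lit 4) (nat_lit 368) (nat_lit 338) (nat_lit 194)) (XT.lf (nat_lit 0) (nat_lit 270521900940) (nat_lit 76) (nat_lit 46538388330) (nat_lit 152) (nat_lit 9010643237) (nat_lit 20) (nat_lit 5) (nat_lit 21) (nat_lit 5) (nat_lit 22) (nat_lit 4) (nat_lit 369) (nat_lit 338) (nat_lit 193))))))))
noncomputable def xc199 : XT := (XT.nd (nat_lit 1326) (nat_lit 380) (nat_lit 0) (XT.nd (nat_lit 624) (nat_lit 380) (nat_lit 0) (XT.nd (nat_lit 312) (nat_lit 228) (nat_lit 0) (XT.nd (nat_lit 156) (nat_lit 76) (nat_lit 0) (XT.nd (nat_lit 78) (nat_lit 0) (nat_lit 0) (XT.lf (nat_lit 0) (nat_lit 59315453451) (nat_lit 152) (nat_lit 236775626335) (nat_lit 76) (nat_lit 48405892084) (nat_lit 18) (nat_lit 5) (nat_lit 20) (nat_lit 5) (nat_lit 19) (nat_lit 4) (nat_lit 370) (nat_lit 338) (nat_lit 192)) (XT.lf (nat_lit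 0) (nat_lit 135387676431) (nat_lit 152) (nat_lit 78545754331) (nat_lit 76) (nat_lit 150223592540) (nat_lit 18) (nat_lit 5) (nat_lit 20) (nat_lit 5) (nat_lit 19) (nat_lit 4) (nat_lit 371) (nat_lit 338) (nat_lit 191))) (XT.nd (nat_lit 78) (nat_lit 0) (nat_lit 0) (XT.lf (nat_lit 0) (nat_lit 97204750761) (nat_lit 76) (nat_lit 122678517414) (nat_lit 152) (nat_lit 165319603512) (nat_lit 17) (nat_lit 5) (nat_lit 18) (nat_lit 5) (nat_lit 19) (nat_lit 4) (nat_lit 372) (nat_lit 338) (nat_lit 190)) (XT.lf (nat_lit 0) (nat_lit 291481939327) (nat_lit 76) (nat_lit 21803968354) (nat_lit 152) (nat_lit 94474688330) (nat_lit 17) (nat_lit 5) (nat_lit 18) (nat_lit 5) (nat_lit 19) (nat_lit 4) (nat_lit 373) (nat_lit 338) (nat_lit 189)))) (XT.nd (nat_lit 156) (nat_lit 76) (nat_lit 0) (XT.nd (nat_lit 78) (nat_lit 76) (nat_lit 0) (XT.lf (nat_lit 0) (nat_lit 70614758919) (nat_lit 76) (nat_lit 347339848684) (nat_lit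 76) (nat_lit 13864822834) (nat_lit 16) (nat_lit 4) (nat_lit 17) (nat_lit 5) (nat_lit 17) (nat_lit 4) (nat_lit 374) (nat_lit 338) (nat_lit 188)) (XT.lf (nat_lit 0) (nat_lit 73360391028) (nat_lit 152) (nat_lit 180885651935) (nat_lit 76) (nat_lit 203109862779) (nat_lit 15) (nat_lit 5) (nat_lit 17) (nat_lit 5) (nat_lit 16) (nat_lit 4) (nat_lit 375) (nat_lit 338) (nat_lit 187))) (XT.nd (nat_lit 78) (nat_lit 0) (nat_lit 0) (XT.lf (nat_lit 0) (nat_lit 14209281870) (nat_lit 76) (nat_lit 152946856992) (nat_lit 152) (nat_lit 317723024070) (nat_lit 14) (nat_lit 5) (nat_lit 15) (nat_lit 5) (nat_lit 16) (nat_lit 4) (nat_lit 376) (nat_lit 338) (nat_lit 186)) (XT.lf (nat_lit 0) (nat_lit 235198657073) (nat_lit 76) (nat_lit 38202472401) (nat_lit 152) (nat_lit 240807504659) (nat_lit 14) (nat_lit 5) (nat_lit 15) (nat_lit 5) (nat_lit 16) (nat_lit 4) (nat_lit 377) (nat_lit 338) (nat_lit 185))))) (XT.nd (nat_lit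 312) (nat_lit 152) (nat_lit 0) (XT.nd (nat_lit 156) (nat_lit 152) (nat_lit 0) (XT.nd (nat_lit 78) (nat_lit 76) (nat_lit 0) (XT.lf (nat_lit 0) (nat_lit 390207179580) (nat_lit 152) (nat_lit 74079152206) (nat_lit 0) (nat_lit 81433214489) (nat_lit 14) (nat_lit 5) (nat_lit 16) (nat_lit 4) (nat_lit 14) (nat_lit 4) (nat_lit 378) (nat_lit 338) (nat_lit 184)) (XT.lf (nat_lit 0) (nat_lit 153955074626) (nat_lit 76) (nat_lit 367097401917) (nat_lit 76) (nat_lit 58323273877) (nat_lit 13) (nat_lit 4) (nat_lit 14) (nat_lit 5) (nat_lit 14) (nat_lit 4) (nat_lit 379) (nat_lit 338) (nat_lit 183))) (XT.nd (nat_lit 78) (nat_lit 76) (nat_lit 0) (XT.lf (nat_lit 0) (nat_lit 46385710050) (nat_lit 152) (nat_lit 212292002012) (nat_lit 76) (nat_lit 356790766999) (nat_lit 12) (nat_lit 5) (nat_lit 14) (nat_lit 5) (nat_lit 13) (nat_lit 4) (nat_lit 380) (nat_lit 338) (nat_lit 182)) (XT.lf (nat_lit 0) (nat_lit 17233957167)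 (nat_lit 76) (nat_lit 139500838884) (nat_lit 152) (nat_lit 497559490368) (nat_lit 11) (nat_lit 5) (nat_lit 12) (nat_lit 5) (nat_lit 13) (nat_lit 4) (nat_lit 381) (nat_lit 338) (nat_lit 181)))) (XT.nd (nat_lit 156) (nat_lit 152) (nat_lit 0) (XT.nd (nat_lit 78) (nat_lit 0) (nat_lit 0) (XT.lf (nat_lit 0) (nat_lit 277195002570) (nat_lit 76) (nat_lit 4521127499) (nat_lit 152) (nat_lit 414045682650) (nat_lit 11) (nat_lit 5) (nat_lit 12) (nat_lit 5) (nat_lit 13) (nat_lit 4) (nat_lit 382) (nat_lit 338) (nat_lit 180)) (XT.lf (nat_lit 0) (nat_lit 420093092105) (nat_lit 152) (nat_lit 185991257388) (nat_lit 0) (nat_lit 134190621968) (nat_lit 11) (nat_lit 5) (nat_lit 13) (nat_lit 4) (nat_lit 11) (nat_lit 4) (nat_lit 383) (nat_lit 338) (nat_lit 179))) (XT.nd (nat_lit 78) (nat_lit 76) (nat_lit 0) (XT.lf (nat_lit 0) (nat_lit 68499322576) (nat_lit 76) (nat_lit 502805627052) (nat_lit 76) (nat_lit 216903054230)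 (nat_lit 10) (nat_lit 4) (nat_lit 11) (nat_lit 5) (nat_lit 11) (nat_lit 4) (nat_lit 384) (nat_lit 338) (nat_lit 178)) (XT.nd (nat_lit 78) (nat_lit 76) (nat_lit 0) (XT.lf (nat_lit 0) (nat_lit 353926442907) (nat_lit 76) (nat_lit 385772542742) (nat_lit 76) (nat_lit 99869874841) (nat_lit 10) (nat_lit 4) (nat_lit 11) (nat_lit 5) (nat_lit 11) (nat_lit 4) (nat_lit 385) (nat_lit 338) (nat_lit 177)) (XT.lf (nat_lit 0) (nat_lit 25198927322) (nat_lit 152) (nat_lit 233488987106) (nat_lit 76) (nat_lit 636299642913) (nat_lit 9) (nat_lit 5) (nat_lit 11) (nat_lit 5) (nat_lit 10) (nat_lit 4) (nat_lit 386) (nat_lit 338) (nat_lit 176))))))) (XT.nd (nat_lit 702) (nat_lit 76) (nat_lit 0) (XT.nd (nat_lit 312) (nat_lit 228) (nat_lit 0) (XT.nd (nat_lit 156) (nat_lit 0) (nat_lit 0) (XT.nd (nat_lit 78) (nat_lit 0) (nat_lit 0) (XT.lf (nat_lit 0) (nat_lit 38150991482) (nat_lit 76) (nat_lit 117644118582) (nat_lit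 152) (nat_lit 798763722593) (nat_lit 8) (nat_lit 5) (nat_lit 9) (nat_lit 5) (nat_lit 10) (nat_lit 4) (nat_lit 387) (nat_lit 338) (nat_lit 175)) (XT.lf (nat_lit 0) (nat_lit 304222851733) (nat_lit 152) (nat_lit 674584316793) (nat_lit 0) (nat_lit 39497932354) (nat_lit 8) (nat_lit 5) (nat_lit 10) (nat_lit 4) (nat_lit 8) (nat_lit 4) (nat_lit 388) (nat_lit 338) (nat_lit 174))) (XT.nd (nat_lit 78) (nat_lit 0) (nat_lit 0) (XT.lf (nat_lit 0) (nat_lit 467580422678) (nat_lit 152) (nat_lit 416470760522) (nat_lit 0) (nat_lit 202855438589) (nat_lit 8) (nat_lit 5) (nat_lit 10) (nat_lit 4) (nat_lit 8) (nat_lit 4) (nat_lit 389) (nat_lit 338) (nat_lit 173)) (XT.lf (nat_lit 0) (nat_lit 644006523882) (nat_lit 152) (nat_lit 137708266666) (nat_lit 0) (nat_lit 379281479877) (nat_lit 8) (nat_lit 5) (nat_lit 10) (nat_lit 4) (nat_lit 8) (nat_lit 4) (nat_lit 390) (nat_lit 338) (nat_lit 172)))) (XT.nd (nat_lit 156)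 (nat_lit 152) (nat_lit 0) (XT.nd (nat_lit 78) (nat_lit 0) (nat_lit 0) (XT.lf (nat_lit 0) (nat_lit 171957080246) (nat_lit 76) (nat_lit 666725135021) (nat_lit 76) (nat_lit 402000035539) (nat_lit 7) (nat_lit 4) (nat_lit 8) (nat_lit 5) (nat_lit 8) (nat_lit 4) (nat_lit 391) (nat_lit 338) (nat_lit 171)) (XT.lf (nat_lit 0) (nat_lit 514227113467) (nat_lit 76) (nat_lit 538469968702) (nat_lit 76) (nat_lit 273744817852) (nat_lit 7) (nat_lit 4) (nat_lit 8) (nat_lit 5) (nat_lit 8) (nat_lit 4) (nat_lit 392) (nat_lit 338) (nat_lit 170))) (XT.nd (nat_lit 78) (nat_lit 152) (nat_lit 0) (XT.lf (nat_lit 0) (nat_lit 883878626577) (nat_lit 76) (nat_lit 399954449027) (nat_lit 76) (nat_lit 135229250613) (nat_lit 7) (nat_lit 4) (nat_lit 8) (nat_lit 5) (nat_lit 8) (nat_lit 4) (nat_lit 393) (nat_lit 338) (nat_lit 169)) (XT.nd (nat_lit 78) (nat_lit 76) (nat_lit 0) (XT.lf (nat_lit 0) (nat_lit 13648778670) (nat_lit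 152) (nat_lit 236335782818) (nat_lit 76) (nat_lit 1269080186593) (nat_lit 6) (nat_lit 5) (nat_lit 8) (nat_lit 5) (nat_lit 7) (nat_lit 4) (nat_lit 394) (nat_lit 338) (nat_lit 168)) (XT.lf (nat_lit 0) (nat_lit 87273168445) (nat_lit 76) (nat_lit 81956856399) (nat_lit 152) (nat_lit 1457388433697) (nat_lit 5) (nat_lit 5) (nat_lit 6) (nat_lit 5) (nat_lit 7) (nat_lit 4) (nat_lit 395) (nat_lit 338) (nat_lit 167)))))) (XT.nd (nat_lit 312) (nat_lit 76) (nat_lit 0) (XT.nd (nat_lit 156) (nat_lit 0) (nat_lit 0) (XT.nd (nat_lit 78) (nat_lit 0) (nat_lit 0) (XT.lf (nat_lit 0) (nat_lit 346280686467) (nat_lit 152) (nat_lit 1294609297609) (nat_lit 0) (nat_lit 101164648514) (nat_lit 5) (nat_lit 5) (nat_lit 7) (nat_lit 4) (nat_lit 5) (nat_lit 4) (nat_lit 396) (nat_lit 338) (nat_lit 166)) (XT.lf (nat_lit 0) (nat_lit 539624099650) (nat_lit 152) (nat_lit 1032423275708) (nat_lit 0) (nat_lit 294508029326) (nat_lit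 5) (nat_lit 5) (nat_lit 7) (nat_lit 4) (nat_lit 5) (nat_lit 4) (nat_lit 397) (nat_lit 338) (nat_lit 165))) (XT.nd (nat_lit 78) (nat_lit 0) (nat_lit 0) (XT.lf (nat_lit 0) (nat_lit 748434938770) (nat_lit 152) (nat_lit 749262465083) (nat_lit 0) (nat_lit 503318838474) (nat_lit 5) (nat_lit 5) (nat_lit 7) (nat_lit 4) (nat_lit 5) (nat_lit 4) (nat_lit 398) (nat_lit 338) (nat_lit 164)) (XT.lf (nat_lit 0) (nat_lit 973950601393) (nat_lit 152) (nat_lit 443448875743) (nat_lit 0) (nat_lit 728834473344) (nat_lit 5) (nat_lit 5) (nat_lit 7) (nat_lit 4) (nat_lit 5) (nat_lit 4) (nat_lit 399) (nat_lit 338) (nat_lit 163)))) (XT.nd (nat_lit 156) (nat_lit 0) (nat_lit 0) (XT.nd (nat_lit 78) (nat_lit 76) (nat_lit 0) (XT.lf (nat_lit 0) (nat_lit 1217507476631) (nat_lit 152) (nat_lit 113170279012) (nat_lit 0) (nat_lit 972391322885) (nat_lit 5) (nat_lit 5) (nat_lit 7) (nat_lit 4) (nat_lit 5) (nat_lit 4) (nat_lit 400)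 (nat_lit 338) (nat_lit 162)) (XT.lf (nat_lit 0) (nat_lit 256354417830) (nat_lit 76) (nat_lit 1230359776569) (nat_lit 76) (nat_lit 985243599029) (nat_lit 4) (nat_lit 4) (nat_lit 5) (nat_lit 5) (nat_lit 5) (nat_lit 4) (nat_lit 401) (nat_lit 338) (nat_lit 161))) (XT.nd (nat_lit 78) (nat_lit 0) (nat_lit 0) (XT.lf (nat_lit 0) (nat_lit 661877112488) (nat_lit 76) (nat_lit 1118674576721) (nat_lit 76) (nat_lit 873558377150) (nat_lit 4) (nat_lit 4) (nat_lit 5) (nat_lit 5) (nat_lit 5) (nat_lit 4) (nat_lit 402) (nat_lit 338) (nat_lit 160)) (XT.nd (nat_lit 78) (nat_lit 0) (nat_lit 0) (XT.lf (nat_lit 0) (nat_lit 1099841556071) (nat_lit 76) (nat_lit 998054593861) (nat_lit 76) (nat_lit 752938373892) (nat_lit 4) (nat_lit 4) (nat_lit 5) (nat_lit 5) (nat_lit 5) (nat_lit 4) (nat_lit 403) (nat_lit 338) (nat_lit 159)) (XT.lf (nat_lit 0) (nat_lit 1572843093432) (nat_lit 76) (nat_lit 867785042907) (nat_lit 76)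 (nat_lit 622668804049) (nat_lit 4) (nat_lit 4) (nat_lit 5) (nat_lit 5) (nat_lit 5) (nat_lit 4) (nat_lit 404) (nat_lit 338) (nat_lit 158))))))))
noncomputable def xc200 : XT := (XT.nd (nat_lit 42744) (nat_lit 0) (nat_lit 1368) (XT.nd (nat_lit 42042) (nat_lit 0) (nat_lit 3040) (XT.nd (nat_lit 41730) (nat_lit 0) (nat_lit 3876) (XT.nd (nat_lit 156) (nat_lit 76) (nat_lit 0) (XT.nd (nat_lit 78) (nat_lit 0) (nat_lit 0) (XT.lf (nat_lit 0) (nat_lit 2083684696643) (nat_lit 76) (nat_lit 727093956148) (nat_lit 76) (nat_lit 481977699802) (nat_lit 4) (nat_lit 4) (nat_lit 5) (nat_lit 5) (nat_lit 5) (nat_lit 4) (nat_lit 405) (nat_lit 338) (nat_lit 157)) (XT.lf (nat_lit 0) (nat_lit 2635393575205) (nat_lit 76) (nat_lit 575147608626) (nat_lit 76) (nat_lit 330031336087) (nat_lit 4) (nat_lit 4) (nat_lit 5) (nat_lit 5) (nat_lit 5) (nat_lit 4) (nat_lit 406) (nat_lit 338) (nat_lit 156))) (XT.nd (nat_lit 78) (nat_lit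 76) (nat_lit 0) (XT.lf (nat_lit 0) (nat_lit 3231239115064) (nat_lit 76) (nat_lit 411045577542) (nat_lit 76) (nat_lit 165929290008) (nat_lit 4) (nat_lit 4) (nat_lit 5) (nat_lit 5) (nat_lit 5) (nat_lit 4) (nat_lit 407) (nat_lit 338) (nat_lit 155)) (XT.lf (nat_lit 0) (nat_lit 10735578465) (nat_lit 152) (nat_lit 222786298208) (nat_lit 76) (nat_lit 3863723144548) (nat_lit 3) (nat_lit 5) (nat_lit 5) (nat_lit 5) (nat_lit 4) (nat_lit 4) (nat_lit 408) (nat_lit 338) (nat_lit 154)))) (XT.nd (nat_lit 156) (nat_lit 0) (nat_lit 76) (XT.nd (nat_lit 78) (nat_lit 0) (nat_lit 0) (XT.lf (nat_lit 0) (nat_lit 31577397540) (nat_lit 532) (nat_lit 4703751611) (nat_lit 532) (nat_lit 4703751611) (nat_lit 54) (nat_lit 3) (nat_lit 61) (nat_lit 3) (nat_lit 61) (nat_lit 5) (nat_lit 339) (nat_lit 339) (nat_lit 222)) (XT.lf (nat_lit 76) (nat_lit 30948873739) (nat_lit 0) (nat_lit 35485457083) (nat_lit 532) (nat_lit 18753978767)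 (nat_lit 55) (nat_lit 5) (nat_lit 54) (nat_lit 3) (nat_lit 61) (nat_lit 5) (nat_lit 340) (nat_lit 339) (nat_lit 221))) (XT.nd (nat_lit 78) (nat_lit 0) (nat_lit 0) (XT.lf (nat_lit 0) (nat_lit 70348831528) (nat_lit 456) (nat_lit 13691835197) (nat_lit 532) (nat_lit 4593825054) (nat_lit 55) (nat_lit 5) (nat_lit 61) (nat_lit 5) (nat_lit 62) (nat_lit 5) (nat_lit 341) (nat_lit 339) (nat_lit 220)) (XT.lf (nat_lit 76) (nat_lit 30713745075) (nat_lit 0) (nat_lit 45522275347) (nat_lit 532) (nat_lit 15987587398) (nat_lit 56) (nat_lit 5) (nat_lit 55) (nat_lit 5) (nat_lit 62) (nat_lit 5) (nat_lit 342) (nat_lit 339) (nat_lit 219))))) (XT.nd (nat_lit 312) (nat_lit 532) (nat_lit 0) (XT.nd (nat_lit 156) (nat_lit 380) (nat_lit 0) (XT.nd (nat_lit 78) (nat_lit 0) (nat_lit 76) (XT.lf (nat_lit 76) (nat_lit 79449898431) (nat_lit 0) (nat_lit 3517855786) (nat_lit 532) (nat_lit 13102214758) (nat_lit 56) (nat_lit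 5) (nat_lit 55) (nat_lit 5) (nat_lit 62) (nat_lit 5) (nat_lit 343) (nat_lit 339) (nat_lit 218)) (XT.lf (nat_lit 76) (nat_lit 32478632975) (nat_lit 0) (nat_lit 59546199775) (nat_lit 532) (nat_lit 8056263099) (nat_lit 57) (nat_lit 5) (nat_lit 56) (nat_lit 5) (nat_lit 63) (nat_lit 5) (nat_lit 344) (nat_lit 339) (nat_lit 217))) (XT.nd (nat_lit 78) (nat_lit 456) (nat_lit 0) (XT.lf (nat_lit 76) (nat_lit 86353695372) (nat_lit 0) (nat_lit 15995579243) (nat_lit 532) (nat_lit 2020415706) (nat_lit 57) (nat_lit 5) (nat_lit 56) (nat_lit 5) (nat_lit 63) (nat_lit 5) (nat_lit 345) (nat_lit 339) (nat_lit 216)) (XT.lf (nat_lit 0) (nat_lit 5942153096) (nat_lit 532) (nat_lit 72399345757) (nat_lit 76) (nat_lit 30517709658) (nat_lit 50) (nat_lit 5) (nat_lit 57) (nat_lit 5) (nat_lit 51) (nat_lit 5) (nat_lit 346) (nat_lit 339) (nat_lit 215)))) (XT.nd (nat_lit 156) (nat_lit 228) (nat_lit 0) (XT.nd (nat_lit 78)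 (nat_lit 304) (nat_lit 0) (XT.lf (nat_lit 0) (nat_lit 15352811740) (nat_lit 532) (nat_lit 17831432914) (nat_lit 76) (nat_lit 80445827057) (nat_lit 50) (nat_lit 5) (nat_lit 57) (nat_lit 5) (nat_lit 51) (nat_lit 5) (nat_lit 347) (nat_lit 339) (nat_lit 214)) (XT.lf (nat_lit 0) (nat_lit 26958157066) (nat_lit 380) (nat_lit 75835571061) (nat_lit 76) (nat_lit 15873530011) (nat_lit 46) (nat_lit 5) (nat_lit 51) (nat_lit 5) (nat_lit 47) (nat_lit 5) (nat_lit 348) (nat_lit 339) (nat_lit 213))) (XT.nd (nat_lit 78) (nat_lit 228) (nat_lit 0) (XT.lf (nat_lit 0) (nat_lit 40853526015) (nat_lit 380) (nat_lit 15581633275) (nat_lit 76) (nat_lit 67563333335) (nat_lit 46) (nat_lit 5) (nat_lit 51) (nat_lit 5) (nat_lit 47) (nat_lit 5) (nat_lit 349) (nat_lit 339) (nat_lit 212)) (XT.nd (nat_lit 78) (nat_lit 0) (nat_lit 0) (XT.lf (nat_lit 0) (nat_lit 52098256228) (nat_lit 228) (nat_lit 5014733616) (nat_lit 304) (nat_lit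 72543039562) (nat_lit 43) (nat_lit 5) (nat_lit 46) (nat_lit 5) (nat_lit 47) (nat_lit 5) (nat_lit 350) (nat_lit 339) (nat_lit 211)) (XT.lf (nat_lit 0) (nat_lit 76324821569) (nat_lit 304) (nat_lit 10880018648) (nat_lit 76) (nat_lit 48429200756) (nat_lit 43) (nat_lit 5) (nat_lit 47) (nat_lit 5) (nat_lit 44) (nat_lit 5) (nat_lit 351) (nat_lit 339) (nat_lit 210))))))) (XT.nd (nat_lit 624) (nat_lit 684) (nat_lit 0) (XT.nd (nat_lit 312) (nat_lit 304) (nat_lit 0) (XT.nd (nat_lit 156) (nat_lit 456) (nat_lit 0) (XT.nd (nat_lit 78) (nat_lit 0) (nat_lit 0) (XT.lf (nat_lit 0) (nat_lit 64213405678) (nat_lit 228) (nat_lit 34534340753) (nat_lit 304) (nat_lit 43208615960) (nat_lit 40) (nat_lit 5) (nat_lit 43) (nat_lit 5) (nat_lit 44) (nat_lit 5) (nat_lit 352) (nat_lit 339) (nat_lit 209)) (XT.lf (nat_lit 0) (nat_lit 123806802699) (nat_lit 304) (nat_lit 3373382520) (nat_lit 76) (nat_lit 21536901118) (nat_lit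 40) (nat_lit 5) (nat_lit 44) (nat_lit 5) (nat_lit 41) (nat_lit 5) (nat_lit 353) (nat_lit 339) (nat_lit 208))) (XT.nd (nat_lit 78) (nat_lit 304) (nat_lit 0) (XT.lf (nat_lit 0) (nat_lit 80052836584) (nat_lit 152) (nat_lit 73639625118) (nat_lit 228) (nat_lit 2100456799) (nat_lit 38) (nat_lit 5) (nat_lit 40) (nat_lit 5) (nat_lit 41) (nat_lit 5) (nat_lit 354) (nat_lit 339) (nat_lit 207)) (XT.lf (nat_lit 0) (nat_lit 6708294903) (nat_lit 228) (nat_lit 14954193047) (nat_lit 304) (nat_lit 141708527487) (nat_lit 34) (nat_lit 5) (nat_lit 37) (nat_lit 5) (nat_lit 38) (nat_lit 5) (nat_lit 355) (nat_lit 339) (nat_lit 206)))) (XT.nd (nat_lit 156) (nat_lit 152) (nat_lit 0) (XT.nd (nat_lit 78) (nat_lit 152) (nat_lit 0) (XT.lf (nat_lit 0) (nat_lit 50501924777) (nat_lit 304) (nat_lit 72603252207) (nat_lit 76) (nat_lit 48182704148) (nat_lit 34) (nat_lit 5) (nat_lit 38) (nat_lit 5) (nat_lit 35) (nat_lit 5)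 (nat_lit 356) (nat_lit 339) (nat_lit 205)) (XT.lf (nat_lit 0) (nat_lit 18728975698) (nat_lit 152) (nat_lit 63758051767) (nat_lit 228) (nat_lit 97283988155) (nat_lit 32) (nat_lit 5) (nat_lit 34) (nat_lit 5) (nat_lit 35) (nat_lit 5) (nat_lit 357) (nat_lit 339) (nat_lit 204))) (XT.nd (nat_lit 78) (nat_lit 152) (nat_lit 0) (XT.lf (nat_lit 0) (nat_lit 119075371003) (nat_lit 228) (nat_lit 67337349561) (nat_lit 76) (nat_lit 2356526076) (nat_lit 32) (nat_lit 5) (nat_lit 35) (nat_lit 5) (nat_lit 33) (nat_lit 5) (nat_lit 358) (nat_lit 339) (nat_lit 203)) (XT.lf (nat_lit 0) (nat_lit 33903185760) (nat_lit 152) (nat_lit 127158715396) (nat_lit 228) (nat_lit 37227745808) (nat_lit 30) (nat_lit 5) (nat_lit 32) (nat_lit 5) (nat_lit 33) (nat_lit 5) (nat_lit 359) (nat_lit 339) (nat_lit 202))))) (XT.nd (nat_lit 312) (nat_lit 304) (nat_lit 0) (XT.nd (nat_lit 156) (nat_lit 152) (nat_lit 0) (XT.nd (nat_lit 78)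 (nat_lit 228) (nat_lit 0) (XT.lf (nat_lit 0) (nat_lit 147072058442) (nat_lit 152) (nat_lit 61176123280) (nat_lit 228) (nat_lit 176231681) (nat_lit 30) (nat_lit 5) (nat_lit 32) (nat_lit 5) (nat_lit 33) (nat_lit 5) (nat_lit 360) (nat_lit 339) (nat_lit 201)) (XT.lf (nat_lit 0) (nat_lit 39385466886) (nat_lit 228) (nat_lit 167949412373) (nat_lit 76) (nat_lit 11835311758) (nat_lit 27) (nat_lit 5) (nat_lit 30) (nat_lit 5) (nat_lit 28) (nat_lit 5) (nat_lit 361) (nat_lit 339) (nat_lit 200))) (XT.nd (nat_lit 78) (nat_lit 152) (nat_lit 0) (XT.lf (nat_lit 0) (nat_lit 85412350917) (nat_lit 228) (nat_lit 55990075454) (nat_lit 76) (nat_lit 89108056881) (nat_lit 27) (nat_lit 5) (nat_lit 30) (nat_lit 5) (nat_lit 28) (nat_lit 5) (nat_lit 362) (nat_lit 339) (nat_lit 199)) (XT.lf (nat_lit 0) (nat_lit 68344477572) (nat_lit 152) (nat_lit 68420341998) (nat_lit 228) (nat_lit 105861704824) (nat_lit 25) (nat_lit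 5) (nat_lit 27) (nat_lit 5) (nat_lit 28) (nat_lit 5) (nat_lit 363) (nat_lit 339) (nat_lit 198)))) (XT.nd (nat_lit 156) (nat_lit 228) (nat_lit 0) (XT.nd (nat_lit 78) (nat_lit 76) (nat_lit 0) (XT.lf (nat_lit 0) (nat_lit 194045997526) (nat_lit 228) (nat_lit 50069674340) (nat_lit 76) (nat_lit 11450536239) (nat_lit 25) (nat_lit 5) (nat_lit 28) (nat_lit 5) (nat_lit 26) (nat_lit 4) (nat_lit 364) (nat_lit 339) (nat_lit 197)) (XT.lf (nat_lit 0) (nat_lit 86636047642) (nat_lit 76) (nat_lit 173134144545) (nat_lit 152) (nat_lit 9462032735) (nat_lit 24) (nat_lit 5) (nat_lit 25) (nat_lit 5) (nat_lit 26) (nat_lit 4) (nat_lit 365) (nat_lit 339) (nat_lit 196))) (XT.nd (nat_lit 78) (nat_lit 152) (nat_lit 0) (XT.lf (nat_lit 0) (nat_lit 45825960607) (nat_lit 152) (nat_lit 47916803227) (nat_lit 76) (nat_lit 190046445494) (nat_lit 23) (nat_lit 5) (nat_lit 25) (nat_lit 5) (nat_lit 24) (nat_lit 5) (nat_lit 366)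 (nat_lit 339) (nat_lit 195)) (XT.nd (nat_lit 78) (nat_lit 0) (nat_lit 0) (XT.lf (nat_lit 0) (nat_lit 102413965815) (nat_lit 152) (nat_lit 5074681087) (nat_lit 228) (nat_lit 191805416460) (nat_lit 21) (nat_lit 5) (nat_lit 23) (nat_lit 5) (nat_lit 24) (nat_lit 5) (nat_lit 367) (nat_lit 339) (nat_lit 194)) (XT.lf (nat_lit 0) (nat_lit 177609323327) (nat_lit 228) (nat_lit 50653631439) (nat_lit 76) (nat_lit 87494353084) (nat_lit 21) (nat_lit 5) (nat_lit 24) (nat_lit 5) (nat_lit 22) (nat_lit 4) (nat_lit 368) (nat_lit 339) (nat_lit 193))))))))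
noncomputable def xc201 : XT := (XT.nd (nat_lit 1326) (nat_lit 456) (nat_lit 0) (XT.nd (nat_lit 624) (nat_lit 380) (nat_lit 0) (XT.nd (nat_lit 312) (nat_lit 228) (nat_lit 0) (XT.nd (nat_lit 156) (nat_lit 152) (nat_lit 0) (XT.nd (nat_lit 78) (nat_lit 0) (nat_lit 0) (XT.lf (nat_lit 0) (nat_lit 112780555013) (nat_lit 76) (nat_lit 143403093692) (nat_lit 152) (nat_lit 77126443748) (nat_lit 20) (nat_lit 5) (nat_lit 21) (nat_lit 5) (nat_lit 22) (nat_lit 4) (nat_lit 369) (nat_lit 339) (nat_lit 192)) (XT.lf (nat_lit 0) (nat_lit 292169874397) (nat_lit 76) (nat_lit 50258822059) (nat_lit 152) (nat_lit 9727621389) (nat_lit 20) (nat_lit 5) (nat_lit 21) (nat_lit 5) (nat_lit 22) (nat_lit 4) (nat_lit 370) (nat_lit 339) (nat_lit 191))) (XT.nd (nat_lit 78) (nat_lit 0) (nat_lit 0) (XT.lf (nat_lit 0) (nat_lit 64064312026) (nat_lit 152) (nat_lit 255711199528) (nat_lit 76) (nat_lit 52280926106) (nat_lit 18)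 (nat_lit 5) (nat_lit 20) (nat_lit 5) (nat_lit 19) (nat_lit 4) (nat_lit 371) (nat_lit 339) (nat_lit 190)) (XT.lf (nat_lit 0) (nat_lit 146222044526) (nat_lit 152) (nat_lit 84823417535) (nat_lit 76) (nat_lit 162243852772) (nat_lit 18) (nat_lit 5) (nat_lit 20) (nat_lit 5) (nat_lit 19) (nat_lit 4) (nat_lit 372) (nat_lit 339) (nat_lit 189)))) (XT.nd (nat_lit 156) (nat_lit 152) (nat_lit 0) (XT.nd (nat_lit 78) (nat_lit 0) (nat_lit 0) (XT.lf (nat_lit 0) (nat_lit 104986976139) (nat_lit 76) (nat_lit 132490199609) (nat_lit 152) (nat_lit 178541664120) (nat_lit 17) (nat_lit 5) (nat_lit 18) (nat_lit 5) (nat_lit 19) (nat_lit 4) (nat_lit 373) (nat_lit 339) (nat_lit 188)) (XT.lf (nat_lit 0) (nat_lit 314805906803) (nat_lit 76) (nat_lit 23545879157) (nat_lit 152) (nat_lit 102029415551) (nat_lit 17) (nat_lit 5) (nat_lit 18) (nat_lit 5) (nat_lit 19) (nat_lit 4) (nat_lit 374) (nat_lit 339) (nat_lit 187))) (XT.nd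 (nat_lit 78) (nat_lit 76) (nat_lit 0) (XT.lf (nat_lit 0) (nat_lit 76269394576) (nat_lit 76) (nat_lit 375124549442) (nat_lit 76) (nat_lit 14970801829) (nat_lit 16) (nat_lit 4) (nat_lit 17) (nat_lit 5) (nat_lit 17) (nat_lit 4) (nat_lit 375) (nat_lit 339) (nat_lit 186)) (XT.lf (nat_lit 0) (nat_lit 79232043063) (nat_lit 152) (nat_lit 195351303310) (nat_lit 76) (nat_lit 219360804798) (nat_lit 15) (nat_lit 5) (nat_lit 17) (nat_lit 5) (nat_lit 16) (nat_lit 4) (nat_lit 376) (nat_lit 339) (nat_lit 185))))) (XT.nd (nat_lit 312) (nat_lit 228) (nat_lit 0) (XT.nd (nat_lit 156) (nat_lit 76) (nat_lit 0) (XT.nd (nat_lit 78) (nat_lit 0) (nat_lit 0) (XT.lf (nat_lit 0) (nat_lit 15351093535) (nat_lit 76) (nat_lit 165180270157) (nat_lit 152) (nat_lit 343137912309) (nat_lit 14) (nat_lit 5) (nat_lit 15) (nat_lit 5) (nat_lit 16) (nat_lit 4) (nat_lit 377) (nat_lit 339) (nat_lit 184)) (XT.lf (nat_lit 0) (nat_lit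 254019243265) (nat_lit 76) (nat_lit 41256507790) (nat_lit 152) (nat_lit 260069370136) (nat_lit 14) (nat_lit 5) (nat_lit 15) (nat_lit 5) (nat_lit 16) (nat_lit 4) (nat_lit 378) (nat_lit 339) (nat_lit 183))) (XT.nd (nat_lit 78) (nat_lit 76) (nat_lit 0) (XT.lf (nat_lit 0) (nat_lit 421426145824) (nat_lit 152) (nat_lit 80000998000) (nat_lit 0) (nat_lit 87949773714) (nat_lit 14) (nat_lit 5) (nat_lit 16) (nat_lit 4) (nat_lit 14) (nat_lit 4) (nat_lit 379) (nat_lit 339) (nat_lit 182)) (XT.lf (nat_lit 0) (nat_lit 166275853399) (nat_lit 76) (nat_lit 396463141135) (nat_lit 76) (nat_lit 62986629322) (nat_lit 13) (nat_lit 4) (nat_lit 14) (nat_lit 5) (nat_lit 14) (nat_lit 4) (nat_lit 380) (nat_lit 339) (nat_lit 181)))) (XT.nd (nat_lit 156) (nat_lit 76) (nat_lit 0) (XT.nd (nat_lit 78) (nat_lit 76) (nat_lit 0) (XT.lf (nat_lit 0) (nat_lit 50098771560) (nat_lit 152) (nat_lit 229271196322) (nat_lit 76) (nat_lit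 385335812264) (nat_lit 12) (nat_lit 5) (nat_lit 14) (nat_lit 5) (nat_lit 13) (nat_lit 4) (nat_lit 381) (nat_lit 339) (nat_lit 180)) (XT.lf (nat_lit 0) (nat_lit 18616734127) (nat_lit 76) (nat_lit 150658984654) (nat_lit 152) (nat_lit 537361938628) (nat_lit 11) (nat_lit 5) (nat_lit 12) (nat_lit 5) (nat_lit 13) (nat_lit 4) (nat_lit 382) (nat_lit 339) (nat_lit 179))) (XT.nd (nat_lit 78) (nat_lit 76) (nat_lit 0) (XT.lf (nat_lit 0) (nat_lit 299374362394) (nat_lit 76) (nat_lit 4881038679) (nat_lit 152) (nat_lit 447167197475) (nat_lit 11) (nat_lit 5) (nat_lit 12) (nat_lit 5) (nat_lit 13) (nat_lit 4) (nat_lit 383) (nat_lit 339) (nat_lit 178)) (XT.nd (nat_lit 78) (nat_lit 76) (nat_lit 0) (XT.lf (nat_lit 0) (nat_lit 453702412976) (nat_lit 152) (nat_lit 200866969071) (nat_lit 0) (nat_lit 144927436564) (nat_lit 11) (nat_lit 5) (nat_lit 13) (nat_lit 4) (nat_lit 11) (nat_lit 4) (nat_lit 384) (nat_lit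 339) (nat_lit 177)) (XT.lf (nat_lit 0) (nat_lit 73982766432) (nat_lit 76) (nat_lit 543028398020) (nat_lit 76) (nat_lit 234253333571) (nat_lit 10) (nat_lit 4) (nat_lit 11) (nat_lit 5) (nat_lit 11) (nat_lit 4) (nat_lit 385) (nat_lit 339) (nat_lit 176))))))) (XT.nd (nat_lit 624) (nat_lit 228) (nat_lit 0) (XT.nd (nat_lit 312) (nat_lit 76) (nat_lit 0) (XT.nd (nat_lit 156) (nat_lit 76) (nat_lit 0) (XT.nd (nat_lit 78) (nat_lit 76) (nat_lit 0) (XT.lf (nat_lit 0) (nat_lit 382243797274) (nat_lit 76) (nat_lit 416632791350) (nat_lit 76) (nat_lit 107857645387) (nat_lit 10) (nat_lit 4) (nat_lit 11) (nat_lit 5) (nat_lit 11) (nat_lit 4) (nat_lit 386) (nat_lit 339) (nat_lit 175)) (XT.lf (nat_lit 0) (nat_lit 27216441902) (nat_lit 152) (nat_lit 252165022283) (nat_lit 76) (nat_lit 687204969208) (nat_lit 9) (nat_lit 5) (nat_lit 11) (nat_lit 5) (nat_lit 10) (nat_lit 4) (nat_lit 387) (nat_lit 339) (nat_lit 174)))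 (XT.nd (nat_lit 78) (nat_lit 0) (nat_lit 0) (XT.lf (nat_lit 0) (nat_lit 41206076521) (nat_lit 76) (nat_lit 127054196482) (nat_lit 152) (nat_lit 862663141469) (nat_lit 8) (nat_lit 5) (nat_lit 9) (nat_lit 5) (nat_lit 10) (nat_lit 4) (nat_lit 388) (nat_lit 339) (nat_lit 173)) (XT.lf (nat_lit 0) (nat_lit 328562151209) (nat_lit 152) (nat_lit 728548195833) (nat_lit 0) (nat_lit 42659043769) (nat_lit 8) (nat_lit 5) (nat_lit 10) (nat_lit 4) (nat_lit 8) (nat_lit 4) (nat_lit 389) (nat_lit 339) (nat_lit 172)))) (XT.nd (nat_lit 156) (nat_lit 76) (nat_lit 0) (XT.nd (nat_lit 78) (nat_lit 0) (nat_lit 0) (XT.lf (nat_lit 0) (nat_lit 504988218842) (nat_lit 152) (nat_lit 449785767378) (nat_lit 0) (nat_lit 219085055923) (nat_lit 8) (nat_lit 5) (nat_lit 10) (nat_lit 4) (nat_lit 8) (nat_lit 4) (nat_lit 390) (nat_lit 339) (nat_lit 171)) (XT.lf (nat_lit 0) (nat_lit 695528307227) (nat_lit 152) (nat_lit 148722470606)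 (nat_lit 0) (nat_lit 409625092941) (nat_lit 8) (nat_lit 5) (nat_lit 10) (nat_lit 4) (nat_lit 8) (nat_lit 4) (nat_lit 391) (nat_lit 339) (nat_lit 170))) (XT.nd (nat_lit 78) (nat_lit 0) (nat_lit 0) (XT.lf (nat_lit 0) (nat_lit 185716041847) (nat_lit 76) (nat_lit 720061976242) (nat_lit 76) (nat_lit 434158714392) (nat_lit 7) (nat_lit 4) (nat_lit 8) (nat_lit 5) (nat_lit 8) (nat_lit 4) (nat_lit 392) (nat_lit 339) (nat_lit 169)) (XT.lf (nat_lit 0) (nat_lit 555367500305) (nat_lit 76) (nat_lit 581546483253) (nat_lit 76) (nat_lit 295643177363) (nat_lit 7) (nat_lit 4) (nat_lit 8) (nat_lit 5) (nat_lit 8) (nat_lit 4) (nat_lit 393) (nat_lit 339) (nat_lit 168))))) (XT.nd (nat_lit 312) (nat_lit 76) (nat_lit 0) (XT.nd (nat_lit 156) (nat_lit 76) (nat_lit 0) (XT.nd (nat_lit 78) (nat_lit 76) (nat_lit 0) (XT.lf (nat_lit 0) (nat_lit 954590970185) (nat_lit 76) (nat_lit 431949802222) (nat_lit 76) (nat_lit 146046455554)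 (nat_lit 7) (nat_lit 4) (nat_lit 8) (nat_lit 5) (nat_lit 8) (nat_lit 4) (nat_lit 394) (nat_lit 339) (nat_lit 167)) (XT.lf (nat_lit 0) (nat_lit 14741679414) (nat_lit 152) (nat_lit 255240691243) (nat_lit 76) (nat_lit 1370607477143) (nat_lit 6) (nat_lit 5) (nat_lit 8) (nat_lit 5) (nat_lit 7) (nat_lit 4) (nat_lit 395) (nat_lit 339) (nat_lit 166))) (XT.nd (nat_lit 78) (nat_lit 0) (nat_lit 0) (XT.lf (nat_lit 0) (nat_lit 94256926648) (nat_lit 76) (nat_lit 88512470483) (nat_lit 152) (nat_lit 1573978460236) (nat_lit 5) (nat_lit 5) (nat_lit 6) (nat_lit 5) (nat_lit 7) (nat_lit 4) (nat_lit 396) (nat_lit 339) (nat_lit 165)) (XT.lf (nat_lit 0) (nat_lit 373984060618) (nat_lit 152) (nat_lit 1398176226499) (nat_lit 0) (nat_lit 109258642325) (nat_lit 5) (nat_lit 5) (nat_lit 7) (nat_lit 4) (nat_lit 5) (nat_lit 4) (nat_lit 397) (nat_lit 339) (nat_lit 164)))) (XT.nd (nat_lit 156) (nat_lit 76) (nat_lit 0) (XT.nd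 (nat_lit 78) (nat_lit 0) (nat_lit 0) (XT.lf (nat_lit 0) (nat_lit 582794878764) (nat_lit 152) (nat_lit 1115015457285) (nat_lit 0) (nat_lit 318069432718) (nat_lit 5) (nat_lit 5) (nat_lit 7) (nat_lit 4) (nat_lit 5) (nat_lit 4) (nat_lit 398) (nat_lit 339) (nat_lit 163)) (XT.lf (nat_lit 0) (nat_lit 808310521966) (nat_lit 152) (nat_lit 809201906290) (nat_lit 0) (nat_lit 543585050224) (nat_lit 5) (nat_lit 5) (nat_lit 7) (nat_lit 4) (nat_lit 5) (nat_lit 4) (nat_lit 399) (nat_lit 339) (nat_lit 162))) (XT.nd (nat_lit 78) (nat_lit 76) (nat_lit 0) (XT.lf (nat_lit 0) (nat_lit 1051867379222) (nat_lit 152) (nat_lit 478923345062) (nat_lit 0) (nat_lit 787141883686) (nat_lit 5) (nat_lit 5) (nat_lit 7) (nat_lit 4) (nat_lit 5) (nat_lit 4) (nat_lit 400) (nat_lit 339) (nat_lit 161)) (XT.nd (nat_lit 78) (nat_lit 76) (nat_lit 0) (XT.lf (nat_lit 0) (nat_lit 1314908750426) (nat_lit 152) (nat_lit 122222567314) (nat_lit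 0) (nat_lit 1050183232859) (nat_lit 5) (nat_lit 5) (nat_lit 7) (nat_lit 4) (nat_lit 5) (nat_lit 4) (nat_lit 401) (nat_lit 339) (nat_lit 160)) (XT.lf (nat_lit 0) (nat_lit 276864071503) (nat_lit 76) (nat_lit 1328787915334) (nat_lit 76) (nat_lit 1064062377368) (nat_lit 4) (nat_lit 4) (nat_lit 5) (nat_lit 5) (nat_lit 5) (nat_lit 4) (nat_lit 402) (nat_lit 339) (nat_lit 159))))))))
noncomputable def xc202 : XT := (XT.nd (nat_lit 42900) (nat_lit 0) (nat_lit 1292) (XT.nd (nat_lit 42198) (nat_lit 0) (nat_lit 2964) (XT.nd (nat_lit 312) (nat_lit 0) (nat_lit 0) (XT.nd (nat_lit 156) (nat_lit 0) (nat_lit 0) (XT.nd (nat_lit 78) (nat_lit 0) (nat_lit 0) (XT.lf (nat_lit 0) (nat_lit 714828485419) (nat_lit 76) (nat_lit 1208167947154) (nat_lit 76) (nat_lit 943442390300) (nat_lit 4) (nat_lit 4) (nat_lit 5) (nat_lit 5) (nat_lit 5) (nat_lit 4) (nat_lit 403) (nat_lit 339) (nat_lit 158)) (XT.lf (nat_lit 0) (nat_lit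 1187829995309) (nat_lit 76) (nat_lit 1077898409792) (nat_lit 76) (nat_lit 813172835449) (nat_lit 4) (nat_lit 4) (nat_lit 5) (nat_lit 5) (nat_lit 5) (nat_lit 4) (nat_lit 404) (nat_lit 339) (nat_lit 157))) (XT.nd (nat_lit 78) (nat_lit 0) (nat_lit 0) (XT.lf (nat_lit 0) (nat_lit 1698671573084) (nat_lit 76) (nat_lit 937207335619) (nat_lit 76) (nat_lit 672481745082) (nat_lit 4) (nat_lit 4) (nat_lit 5) (nat_lit 5) (nat_lit 5) (nat_lit 4) (nat_lit 405) (nat_lit 339) (nat_lit 156)) (XT.lf (nat_lit 0) (nat_lit 2250380428094) (nat_lit 76) (nat_lit 785260999751) (nat_lit 76) (nat_lit 520535394220) (nat_lit 4) (nat_lit 4) (nat_lit 5) (nat_lit 5) (nat_lit 5) (nat_lit 4) (nat_lit 406) (nat_lit 339) (nat_lit 155)))) (XT.nd (nat_lit 41730) (nat_lit 0) (nat_lit 3800) (XT.nd (nat_lit 41652) (nat_lit 0) (nat_lit 3800) (XT.lf (nat_lit 0) (nat_lit 2846225946147) (nat_lit 76) (nat_lit 621158979456) (nat_lit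 76) (nat_lit 356433360043) (nat_lit 4) (nat_lit 4) (nat_lit 5) (nat_lit 5) (nat_lit 5) (nat_lit 4) (nat_lit 407) (nat_lit 339) (nat_lit 154)) (XT.lf (nat_lit 0) (nat_lit 34112395126) (nat_lit 532) (nat_lit 5075288574) (nat_lit 532) (nat_lit 5075288574) (nat_lit 54) (nat_lit 3) (nat_lit 61) (nat_lit 3) (nat_lit 61) (nat_lit 5) (nat_lit 340) (nat_lit 340) (nat_lit 220))) (XT.nd (nat_lit 78) (nat_lit 0) (nat_lit 76) (XT.lf (nat_lit 76) (nat_lit 33434068796) (nat_lit 0) (nat_lit 38331538806) (nat_lit 532) (nat_lit 20236414542) (nat_lit 55) (nat_lit 5) (nat_lit 54) (nat_lit 3) (nat_lit 61) (nat_lit 5) (nat_lit 341) (nat_lit 340) (nat_lit 219)) (XT.lf (nat_lit 0) (nat_lit 75991882557) (nat_lit 456) (nat_lit 14777171256) (nat_lit 532) (nat_lit 4954958166) (nat_lit 55) (nat_lit 5) (nat_lit 61) (nat_lit 5) (nat_lit 62) (nat_lit 5) (nat_lit 342) (nat_lit 340) (nat_lit 218))))) (XT.nd (nat_lit 312)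 (nat_lit 912) (nat_lit 0) (XT.nd (nat_lit 156) (nat_lit 0) (nat_lit 76) (XT.nd (nat_lit 78) (nat_lit 0) (nat_lit 0) (XT.lf (nat_lit 76) (nat_lit 33180602001) (nat_lit 0) (nat_lit 49168557410) (nat_lit 532) (nat_lit 17251170908) (nat_lit 56) (nat_lit 5) (nat_lit 55) (nat_lit 5) (nat_lit 62) (nat_lit 5) (nat_lit 343) (nat_lit 340) (nat_lit 217)) (XT.lf (nat_lit 76) (nat_lit 85814924861) (nat_lit 0) (nat_lit 3803450949) (nat_lit 532) (nat_lit 14136110937) (nat_lit 56) (nat_lit 5) (nat_lit 55) (nat_lit 5) (nat_lit 62) (nat_lit 5) (nat_lit 344) (nat_lit 340) (nat_lit 216))) (XT.nd (nat_lit 78) (nat_lit 0) (nat_lit 0) (XT.lf (nat_lit 76) (nat_lit 35086879529) (nat_lit 0) (nat_lit 64312309878) (nat_lit 532) (nat_lit 8687382612) (nat_lit 57) (nat_lit 5) (nat_lit 56) (nat_lit 5) (nat_lit 63) (nat_lit 5) (nat_lit 345) (nat_lit 340) (nat_lit 215)) (XT.lf (nat_lit 76) (nat_lit 93271209443) (nat_lit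 0) (nat_lit 17277460880) (nat_lit 532) (nat_lit 2169658652) (nat_lit 57) (nat_lit 5) (nat_lit 56) (nat_lit 5) (nat_lit 63) (nat_lit 5) (nat_lit 346) (nat_lit 340) (nat_lit 214)))) (XT.nd (nat_lit 156) (nat_lit 532) (nat_lit 0) (XT.nd (nat_lit 78) (nat_lit 0) (nat_lit 0) (XT.lf (nat_lit 0) (nat_lit 6428618404) (nat_lit 532) (nat_lit 78180741574) (nat_lit 76) (nat_lit 32957680389) (nat_lit 50) (nat_lit 5) (nat_lit 57) (nat_lit 5) (nat_lit 51) (nat_lit 5) (nat_lit 347) (nat_lit 340) (nat_lit 213)) (XT.lf (nat_lit 0) (nat_lit 16591308031) (nat_lit 532) (nat_lit 19248177322) (nat_lit 76) (nat_lit 86880154293) (nat_lit 50) (nat_lit 5) (nat_lit 57) (nat_lit 5) (nat_lit 51) (nat_lit 5) (nat_lit 348) (nat_lit 340) (nat_lit 212))) (XT.nd (nat_lit 78) (nat_lit 228) (nat_lit 0) (XT.lf (nat_lit 0) (nat_lit 29124543957) (nat_lit 380) (nat_lit 81892094593) (nat_lit 76) (nat_lit 17143206592) (nat_lit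 46) (nat_lit 5) (nat_lit 51) (nat_lit 5) (nat_lit 47) (nat_lit 5) (nat_lit 349) (nat_lit 340) (nat_lit 211)) (XT.nd (nat_lit 78) (nat_lit 228) (nat_lit 0) (XT.lf (nat_lit 0) (nat_lit 44130821360) (nat_lit 380) (nat_lit 16818606388) (nat_lit 76) (nat_lit 72968209428) (nat_lit 46) (nat_lit 5) (nat_lit 51) (nat_lit 5) (nat_lit 47) (nat_lit 5) (nat_lit 350) (nat_lit 340) (nat_lit 210)) (XT.lf (nat_lit 0) (nat_lit 56275432312) (nat_lit 228) (nat_lit 5415166374) (nat_lit 304) (nat_lit 78337214723) (nat_lit 43) (nat_lit 5) (nat_lit 46) (nat_lit 5) (nat_lit 47) (nat_lit 5) (nat_lit 351) (nat_lit 340) (nat_lit 209))))))) (XT.nd (nat_lit 624) (nat_lit 836) (nat_lit 0) (XT.nd (nat_lit 312) (nat_lit 456) (nat_lit 0) (XT.nd (nat_lit 156) (nat_lit 152) (nat_lit 0) (XT.nd (nat_lit 78) (nat_lit 228) (nat_lit 0) (XT.lf (nat_lit 0) (nat_lit 82438758771) (nat_lit 304) (nat_lit 11741164589) (nat_lit 76) (nat_lit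 52304192942) (nat_lit 43) (nat_lit 5) (nat_lit 47) (nat_lit 5) (nat_lit 44) (nat_lit 5) (nat_lit 352) (nat_lit 340) (nat_lit 208)) (XT.lf (nat_lit 0) (nat_lit 69359499365) (nat_lit 228) (nat_lit 37295646220) (nat_lit 304) (nat_lit 46657108490) (nat_lit 40) (nat_lit 5) (nat_lit 43) (nat_lit 5) (nat_lit 44) (nat_lit 5) (nat_lit 353) (nat_lit 340) (nat_lit 207))) (XT.nd (nat_lit 78) (nat_lit 152) (nat_lit 0) (XT.lf (nat_lit 0) (nat_lit 133718397021) (nat_lit 304) (nat_lit 3634360653) (nat_lit 76) (nat_lit 23261121419) (nat_lit 40) (nat_lit 5) (nat_lit 44) (nat_lit 5) (nat_lit 41) (nat_lit 5) (nat_lit 354) (nat_lit 340) (nat_lit 206)) (XT.lf (nat_lit 0) (nat_lit 86465730853) (nat_lit 152) (nat_lit 79528864111) (nat_lit 228) (nat_lit 2261208720) (nat_lit 38) (nat_lit 5) (nat_lit 40) (nat_lit 5) (nat_lit 41) (nat_lit 5) (nat_lit 355) (nat_lit 340) (nat_lit 205)))) (XT.nd (nat_lit 156) (nat_lit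 152) (nat_lit 0) (XT.nd (nat_lit 78) (nat_lit 0) (nat_lit 0) (XT.lf (nat_lit 0) (nat_lit 7253770067) (nat_lit 228) (nat_lit 16148336446) (nat_lit 304) (nat_lit 153038052547) (nat_lit 34) (nat_lit 5) (nat_lit 37) (nat_lit 5) (nat_lit 38) (nat_lit 5) (nat_lit 356) (nat_lit 340) (nat_lit 204)) (XT.lf (nat_lit 0) (nat_lit 54548256763) (nat_lit 304) (nat_lit 78402904545) (nat_lit 76) (nat_lit 52039248619) (nat_lit 34) (nat_lit 5) (nat_lit 38) (nat_lit 5) (nat_lit 35) (nat_lit 5) (nat_lit 357) (nat_lit 340) (nat_lit 203))) (XT.nd (nat_lit 78) (nat_lit 0) (nat_lit 0) (XT.lf (nat_lit 0) (nat_lit 20235683673) (nat_lit 152) (nat_lit 68856228142) (nat_lit 228) (nat_lit 105060304381) (nat_lit 32) (nat_lit 5) (nat_lit 34) (nat_lit 5) (nat_lit 35) (nat_lit 5) (nat_lit 358) (nat_lit 340) (nat_lit 202)) (XT.lf (nat_lit 0) (nat_lit 128606939111) (nat_lit 228) (nat_lit 72716178968) (nat_lit 76) (nat_lit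 2547218827) (nat_lit 32) (nat_lit 5) (nat_lit 35) (nat_lit 5) (nat_lit 33) (nat_lit 5) (nat_lit 359) (nat_lit 340) (nat_lit 201))))) (XT.nd (nat_lit 312) (nat_lit 456) (nat_lit 0) (XT.nd (nat_lit 156) (nat_lit 228) (nat_lit 0) (XT.nd (nat_lit 78) (nat_lit 0) (nat_lit 0) (XT.lf (nat_lit 0) (nat_lit 36623392633) (nat_lit 152) (nat_lit 137328780035) (nat_lit 228) (nat_lit 40200214582) (nat_lit 30) (nat_lit 5) (nat_lit 32) (nat_lit 5) (nat_lit 33) (nat_lit 5) (nat_lit 360) (nat_lit 340) (nat_lit 200)) (XT.lf (nat_lit 0) (nat_lit 158845186091) (nat_lit 152) (nat_lit 66067775557) (nat_lit 228) (nat_lit 185005316) (nat_lit 30) (nat_lit 5) (nat_lit 32) (nat_lit 5) (nat_lit 33) (nat_lit 5) (nat_lit 361) (nat_lit 340) (nat_lit 199))) (XT.nd (nat_lit 78) (nat_lit 0) (nat_lit 0) (XT.lf (nat_lit 0) (nat_lit 42541229027) (nat_lit 228) (nat_lit 181377592509) (nat_lit 76) (nat_lit 12784586082) (nat_lit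 27) (nat_lit 5) (nat_lit 30) (nat_lit 5) (nat_lit 28) (nat_lit 5) (nat_lit 362) (nat_lit 340) (nat_lit 198)) (XT.lf (nat_lit 0) (nat_lit 92249898981) (nat_lit 228) (nat_lit 60462084402) (nat_lit 76) (nat_lit 96238969380) (nat_lit 27) (nat_lit 5) (nat_lit 30) (nat_lit 5) (nat_lit 28) (nat_lit 5) (nat_lit 363) (nat_lit 340) (nat_lit 197)))) (XT.nd (nat_lit 156) (nat_lit 304) (nat_lit 0) (XT.nd (nat_lit 78) (nat_lit 0) (nat_lit 0) (XT.lf (nat_lit 0) (nat_lit 73819050661) (nat_lit 152) (nat_lit 73891345396) (nat_lit 228) (nat_lit 114325894987) (nat_lit 25) (nat_lit 5) (nat_lit 27) (nat_lit 5) (nat_lit 28) (nat_lit 5) (nat_lit 364) (nat_lit 340) (nat_lit 196)) (XT.lf (nat_lit 0) (nat_lit 209573801428) (nat_lit 228) (nat_lit 54068482475) (nat_lit 76) (nat_lit 12368887194) (nat_lit 25) (nat_lit 5) (nat_lit 28) (nat_lit 5) (nat_lit 26) (nat_lit 4) (nat_lit 365) (nat_lit 340) (nat_lit 195))) (XT.nd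 (nat_lit 78) (nat_lit 228) (nat_lit 0) (XT.lf (nat_lit 0) (nat_lit 93573525980) (nat_lit 76) (nat_lit 186982258793) (nat_lit 152) (nat_lit 10214696515) (nat_lit 24) (nat_lit 5) (nat_lit 25) (nat_lit 5) (nat_lit 26) (nat_lit 4) (nat_lit 366) (nat_lit 340) (nat_lit 194)) (XT.nd (nat_lit 78) (nat_lit 152) (nat_lit 0) (XT.lf (nat_lit 0) (nat_lit 49495818746) (nat_lit 152) (nat_lit 51743839366) (nat_lit 76) (nat_lit 205252382498) (nat_lit 23) (nat_lit 5) (nat_lit 25) (nat_lit 5) (nat_lit 24) (nat_lit 5) (nat_lit 367) (nat_lit 340) (nat_lit 193)) (XT.lf (nat_lit 0) (nat_lit 110613231500) (nat_lit 152) (nat_lit 5478156218) (nat_lit 228) (nat_lit 207145906046) (nat_lit 21) (nat_lit 5) (nat_lit 23) (nat_lit 5) (nat_lit 24) (nat_lit 5) (nat_lit 368) (nat_lit 340) (nat_lit 192))))))))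
noncomputable def xc203 : XT := (XT.nd (nat_lit 1326) (nat_lit 532) (nat_lit 0) (XT.nd (nat_lit 624) (nat_lit 380) (nat_lit 0) (XT.nd (nat_lit 312) (nat_lit 152) (nat_lit 0) (XT.nd (nat_lit 156) (nat_lit 152) (nat_lit 0) (XT.nd (nat_lit 78) (nat_lit 76) (nat_lit 0) (XT.lf (nat_lit 0) (nat_lit 191821503614) (nat_lit 228) (nat_lit 54700011791) (nat_lit 76) (nat_lit 94496099782) (nat_lit 21) (nat_lit 5) (nat_lit 24) (nat_lit 5) (nat_lit 22) (nat_lit 4) (nat_lit 369) (nat_lit 340) (nat_lit 191)) (XT.lf (nat_lit 0) (nat_lit 121808759953) (nat_lit 76) (nat_lit 154872899208) (nat_lit 152) (nat_lit 83292972853) (nat_lit 20) (nat_lit 5) (nat_lit 21) (nat_lit 5) (nat_lit 22) (nat_lit 4) (nat_lit 370) (nat_lit 340) (nat_lit 190))) (XT.nd (nat_lit 78) (nat_lit 152) (nat_lit 0) (XT.lf (nat_lit 0) (nat_lit 315548798181) (nat_lit 76) (nat_lit 54277266732) (nat_lit 152) (nat_lit 10502510364) (nat_lit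 20) (nat_lit 5) (nat_lit 21) (nat_lit 5) (nat_lit 22) (nat_lit 4) (nat_lit 371) (nat_lit 340) (nat_lit 189)) (XT.lf (nat_lit 0) (nat_lit 69192562527) (nat_lit 152) (nat_lit 276162542580) (nat_lit 76) (nat_lit 56465597258) (nat_lit 18) (nat_lit 5) (nat_lit 20) (nat_lit 5) (nat_lit 19) (nat_lit 4) (nat_lit 372) (nat_lit 340) (nat_lit 188)))) (XT.nd (nat_lit 156) (nat_lit 76) (nat_lit 0) (XT.nd (nat_lit 78) (nat_lit 76) (nat_lit 0) (XT.lf (nat_lit 0) (nat_lit 157922683587) (nat_lit 152) (nat_lit 91604149354) (nat_lit 76) (nat_lit 175225395312) (nat_lit 18) (nat_lit 5) (nat_lit 20) (nat_lit 5) (nat_lit 19) (nat_lit 4) (nat_lit 373) (nat_lit 340) (nat_lit 187)) (XT.lf (nat_lit 0) (nat_lit 113390945647) (nat_lit 76) (nat_lit 143087187183) (nat_lit 152) (nat_lit 192821989985) (nat_lit 17) (nat_lit 5) (nat_lit 18) (nat_lit 5) (nat_lit 19) (nat_lit 4) (nat_lit 374) (nat_lit 340) (nat_lit 186)))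 (XT.nd (nat_lit 78) (nat_lit 76) (nat_lit 0) (XT.lf (nat_lit 0) (nat_lit 339995019549) (nat_lit 76) (nat_lit 25427486162) (nat_lit 152) (nat_lit 110188984291) (nat_lit 17) (nat_lit 5) (nat_lit 18) (nat_lit 5) (nat_lit 19) (nat_lit 4) (nat_lit 375) (nat_lit 340) (nat_lit 185)) (XT.lf (nat_lit 0) (nat_lit 82375622877) (nat_lit 76) (nat_lit 405132381080) (nat_lit 76) (nat_lit 16165716635) (nat_lit 16) (nat_lit 4) (nat_lit 17) (nat_lit 5) (nat_lit 17) (nat_lit 4) (nat_lit 376) (nat_lit 340) (nat_lit 184))))) (XT.nd (nat_lit 312) (nat_lit 228) (nat_lit 0) (XT.nd (nat_lit 156) (nat_lit 0) (nat_lit 0) (XT.nd (nat_lit 78) (nat_lit 76) (nat_lit 0) (XT.lf (nat_lit 0) (nat_lit 85573024849) (nat_lit 152) (nat_lit 210974948743) (nat_lit 76) (nat_lit 236911515030) (nat_lit 15) (nat_lit 5) (nat_lit 17) (nat_lit 5) (nat_lit 16) (nat_lit 4) (nat_lit 377) (nat_lit 340) (nat_lit 183)) (XT.lf (nat_lit 0)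 (nat_lit 16583526968) (nat_lit 76) (nat_lit 178392689544) (nat_lit 152) (nat_lit 370586412982) (nat_lit 14) (nat_lit 5) (nat_lit 15) (nat_lit 5) (nat_lit 16) (nat_lit 4) (nat_lit 378) (nat_lit 340) (nat_lit 182))) (XT.nd (nat_lit 78) (nat_lit 0) (nat_lit 0) (XT.lf (nat_lit 0) (nat_lit 274344806753) (nat_lit 76) (nat_lit 44555174501) (nat_lit 152) (nat_lit 280872575015) (nat_lit 14) (nat_lit 5) (nat_lit 15) (nat_lit 5) (nat_lit 16) (nat_lit 4) (nat_lit 379) (nat_lit 340) (nat_lit 181)) (XT.lf (nat_lit 0) (nat_lit 455142288140) (nat_lit 152) (nat_lit 86397231491) (nat_lit 0) (nat_lit 94987386326) (nat_lit 14) (nat_lit 5) (nat_lit 16) (nat_lit 4) (nat_lit 14) (nat_lit 4) (nat_lit 380) (nat_lit 340) (nat_lit 180)))) (XT.nd (nat_lit 156) (nat_lit 76) (nat_lit 0) (XT.nd (nat_lit 78) (nat_lit 76) (nat_lit 0) (XT.lf (nat_lit 0) (nat_lit 179581670645) (nat_lit 76) (nat_lit 428178432365) (nat_lit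 76) (nat_lit 68023410778) (nat_lit 13) (nat_lit 4) (nat_lit 14) (nat_lit 5) (nat_lit 14) (nat_lit 4) (nat_lit 381) (nat_lit 340) (nat_lit 179)) (XT.lf (nat_lit 0) (nat_lit 54108563464) (nat_lit 152) (nat_lit 247609320481) (nat_lit 76) (nat_lit 416164206657) (nat_lit 12) (nat_lit 5) (nat_lit 14) (nat_lit 5) (nat_lit 13) (nat_lit 4) (nat_lit 382) (nat_lit 340) (nat_lit 178))) (XT.nd (nat_lit 78) (nat_lit 0) (nat_lit 0) (XT.lf (nat_lit 0) (nat_lit 20109553985) (nat_lit 76) (nat_lit 162710056186) (nat_lit 152) (nat_lit 580348912434) (nat_lit 11) (nat_lit 5) (nat_lit 12) (nat_lit 5) (nat_lit 13) (nat_lit 4) (nat_lit 383) (nat_lit 340) (nat_lit 177)) (XT.nd (nat_lit 78) (nat_lit 0) (nat_lit 0) (XT.lf (nat_lit 0) (nat_lit 323327534651) (nat_lit 76) (nat_lit 5269996552) (nat_lit 152) (nat_lit 482938738751) (nat_lit 11) (nat_lit 5) (nat_lit 12) (nat_lit 5) (nat_lit 13) (nat_lit 4) (nat_lit 384)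 (nat_lit 340) (nat_lit 176)) (XT.lf (nat_lit 0) (nat_lit 490000212242) (nat_lit 152) (nat_lit 216933249687) (nat_lit 0) (nat_lit 156522973086) (nat_lit 11) (nat_lit 5) (nat_lit 13) (nat_lit 4) (nat_lit 11) (nat_lit 4) (nat_lit 385) (nat_lit 340) (nat_lit 175))))))) (XT.nd (nat_lit 702) (nat_lit 228) (nat_lit 0) (XT.nd (nat_lit 312) (nat_lit 76) (nat_lit 0) (XT.nd (nat_lit 156) (nat_lit 152) (nat_lit 0) (XT.nd (nat_lit 78) (nat_lit 0) (nat_lit 0) (XT.lf (nat_lit 0) (nat_lit 79904386761) (nat_lit 76) (nat_lit 586469230221) (nat_lit 76) (nat_lit 252991915589) (nat_lit 10) (nat_lit 4) (nat_lit 11) (nat_lit 5) (nat_lit 11) (nat_lit 4) (nat_lit 386) (nat_lit 340) (nat_lit 174)) (XT.lf (nat_lit 0) (nat_lit 412826077921) (nat_lit 76) (nat_lit 449962081658) (nat_lit 76) (nat_lit 116484697140) (nat_lit 10) (nat_lit 4) (nat_lit 11) (nat_lit 5) (nat_lit 11) (nat_lit 4) (nat_lit 387) (nat_lit 340)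 (nat_lit 173))) (XT.nd (nat_lit 78) (nat_lit 76) (nat_lit 0) (XT.lf (nat_lit 0) (nat_lit 29395129335) (nat_lit 152) (nat_lit 272335580211) (nat_lit 76) (nat_lit 742182528321) (nat_lit 9) (nat_lit 5) (nat_lit 11) (nat_lit 5) (nat_lit 10) (nat_lit 4) (nat_lit 388) (nat_lit 340) (nat_lit 172)) (XT.lf (nat_lit 0) (nat_lit 44505139565) (nat_lit 76) (nat_lit 137217287699) (nat_lit 152) (nat_lit 931674753373) (nat_lit 8) (nat_lit 5) (nat_lit 9) (nat_lit 5) (nat_lit 10) (nat_lit 4) (nat_lit 389) (nat_lit 340) (nat_lit 171)))) (XT.nd (nat_lit 156) (nat_lit 76) (nat_lit 0) (XT.nd (nat_lit 78) (nat_lit 0) (nat_lit 0) (XT.lf (nat_lit 0) (nat_lit 354848384741) (nat_lit 152) (nat_lit 786829594106) (nat_lit 0) (nat_lit 46072861943) (nat_lit 8) (nat_lit 5) (nat_lit 10) (nat_lit 4) (nat_lit 8) (nat_lit 4) (nat_lit 390) (nat_lit 340) (nat_lit 170)) (XT.lf (nat_lit 0) (nat_lit 545388444345) (nat_lit 152)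 (nat_lit 485766353404) (nat_lit 0) (nat_lit 236612873983) (nat_lit 8) (nat_lit 5) (nat_lit 10) (nat_lit 4) (nat_lit 8) (nat_lit 4) (nat_lit 391) (nat_lit 340) (nat_lit 169))) (XT.nd (nat_lit 78) (nat_lit 76) (nat_lit 0) (XT.lf (nat_lit 0) (nat_lit 751171653283) (nat_lit 152) (nat_lit 160618161436) (nat_lit 0) (nat_lit 442396038882) (nat_lit 8) (nat_lit 5) (nat_lit 10) (nat_lit 4) (nat_lit 8) (nat_lit 4) (nat_lit 392) (nat_lit 340) (nat_lit 168)) (XT.nd (nat_lit 78) (nat_lit 0) (nat_lit 0) (XT.lf (nat_lit 0) (nat_lit 200575378676) (nat_lit 76) (nat_lit 777665931614) (nat_lit 76) (nat_lit 468890276434) (nat_lit 7) (nat_lit 4) (nat_lit 8) (nat_lit 5) (nat_lit 8) (nat_lit 4) (nat_lit 393) (nat_lit 340) (nat_lit 167)) (XT.lf (nat_lit 0) (nat_lit 599798801701) (nat_lit 76) (nat_lit 628069273462) (nat_lit 76) (nat_lit 319293580525) (nat_lit 7) (nat_lit 4) (nat_lit 8) (nat_lit 5) (nat_lit 8) (nat_lit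 4) (nat_lit 394) (nat_lit 340) (nat_lit 166)))))) (XT.nd (nat_lit 312) (nat_lit 76) (nat_lit 0) (XT.nd (nat_lit 156) (nat_lit 76) (nat_lit 0) (XT.nd (nat_lit 78) (nat_lit 76) (nat_lit 0) (XT.lf (nat_lit 0) (nat_lit 1030960008329) (nat_lit 76) (nat_lit 466504926722) (nat_lit 76) (nat_lit 157729198825) (nat_lit 7) (nat_lit 4) (nat_lit 8) (nat_lit 5) (nat_lit 8) (nat_lit 4) (nat_lit 395) (nat_lit 340) (nat_lit 165)) (XT.lf (nat_lit 0) (nat_lit 15921869777) (nat_lit 152) (nat_lit 275658271130) (nat_lit 76) (nat_lit 1480256826019) (nat_lit 6) (nat_lit 5) (nat_lit 8) (nat_lit 5) (nat_lit 7) (nat_lit 4) (nat_lit 396) (nat_lit 340) (nat_lit 164))) (XT.nd (nat_lit 78) (nat_lit 0) (nat_lit 0) (XT.lf (nat_lit 0) (nat_lit 101799113777) (nat_lit 76) (nat_lit 95592667000) (nat_lit 152) (nat_lit 1699895838429) (nat_lit 5) (nat_lit 5) (nat_lit 6) (nat_lit 5) (nat_lit 7) (nat_lit 4) (nat_lit 397) (nat_lit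 340) (nat_lit 163)) (XT.lf (nat_lit 0) (nat_lit 403903573562) (nat_lit 152) (nat_lit 1510028768619) (nat_lit 0) (nat_lit 118000038383) (nat_lit 5) (nat_lit 5) (nat_lit 7) (nat_lit 4) (nat_lit 5) (nat_lit 4) (nat_lit 398) (nat_lit 340) (nat_lit 162)))) (XT.nd (nat_lit 156) (nat_lit 76) (nat_lit 0) (XT.nd (nat_lit 78) (nat_lit 0) (nat_lit 0) (XT.lf (nat_lit 0) (nat_lit 629419198783) (nat_lit 152) (nat_lit 1204215253127) (nat_lit 0) (nat_lit 343515639810) (nat_lit 5) (nat_lit 5) (nat_lit 7) (nat_lit 4) (nat_lit 5) (nat_lit 4) (nat_lit 399) (nat_lit 340) (nat_lit 161)) (XT.lf (nat_lit 0) (nat_lit 872976039388) (nat_lit 152) (nat_lit 873936724774) (nat_lit 0) (nat_lit 587072458385) (nat_lit 5) (nat_lit 5) (nat_lit 7) (nat_lit 4) (nat_lit 5) (nat_lit 4) (nat_lit 400) (nat_lit 340) (nat_lit 160))) (XT.nd (nat_lit 78) (nat_lit 76) (nat_lit 0) (XT.lf (nat_lit 0) (nat_lit 1136017395175) (nat_lit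 152) (nat_lit 517235977464) (nat_lit 0) (nat_lit 850113793773) (nat_lit 5) (nat_lit 5) (nat_lit 7) (nat_lit 4) (nat_lit 5) (nat_lit 4) (nat_lit 401) (nat_lit 340) (nat_lit 159)) (XT.nd (nat_lit 78) (nat_lit 76) (nat_lit 0) (XT.lf (nat_lit 0) (nat_lit 1420102029733) (nat_lit 152) (nat_lit 131999228993) (nat_lit 0) (nat_lit 1134198409443) (nat_lit 5) (nat_lit 5) (nat_lit 7) (nat_lit 4) (nat_lit 5) (nat_lit 4) (nat_lit 402) (nat_lit 340) (nat_lit 158)) (XT.lf (nat_lit 0) (nat_lit 299014311975) (nat_lit 76) (nat_lit 1435090396983) (nat_lit 76) (nat_lit 1149186759203) (nat_lit 4) (nat_lit 4) (nat_lit 5) (nat_lit 5) (nat_lit 5) (nat_lit 4) (nat_lit 403) (nat_lit 340) (nat_lit 157))))))))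
noncomputable def xc204 : XT := (XT.nd (nat_lit 42978) (nat_lit 0) (nat_lit 1292) (XT.nd (nat_lit 42276) (nat_lit 0) (nat_lit 2964) (XT.nd (nat_lit 41964) (nat_lit 0) (nat_lit 3800) (XT.nd (nat_lit 156) (nat_lit 0) (nat_lit 0) (XT.nd (nat_lit 78) (nat_lit 0) (nat_lit 0) (XT.lf (nat_lit 0) (nat_lit 772015796430) (nat_lit 76) (nat_lit 1304820872206) (nat_lit 76) (nat_lit 1018917218233) (nat_lit 4) (nat_lit 4) (nat_lit 5) (nat_lit 5) (nat_lit 5) (nat_lit 4) (nat_lit 404) (nat_lit 340) (nat_lit 156)) (XT.lf (nat_lit 0) (nat_lit 1282857350654) (nat_lit 76) (nat_lit 1164129809686) (nat_lit 76) (nat_lit 878226140720) (nat_lit 4) (nat_lit 4) (nat_lit 5) (nat_lit 5) (nat_lit 5) (nat_lit 4) (nat_lit 405) (nat_lit 340) (nat_lit 155))) (XT.nd (nat_lit 78) (nat_lit 0) (nat_lit 0) (XT.lf (nat_lit 0) (nat_lit 1834566183857) (nat_lit 76) (nat_lit 1012183484608) (nat_lit 76) (nat_lit 726279801758) (nat_lit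 4) (nat_lit 4) (nat_lit 5) (nat_lit 5) (nat_lit 5) (nat_lit 4) (nat_lit 406) (nat_lit 340) (nat_lit 154)) (XT.lf (nat_lit 0) (nat_lit 2430411681718) (nat_lit 76) (nat_lit 848081474305) (nat_lit 76) (nat_lit 562177778600) (nat_lit 4) (nat_lit 4) (nat_lit 5) (nat_lit 5) (nat_lit 5) (nat_lit 4) (nat_lit 407) (nat_lit 340) (nat_lit 153)))) (XT.nd (nat_lit 156) (nat_lit 0) (nat_lit 76) (XT.nd (nat_lit 78) (nat_lit 0) (nat_lit 0) (XT.lf (nat_lit 0) (nat_lit 36848936276) (nat_lit 532) (nat_lit 5477228014) (nat_lit 532) (nat_lit 5477228014) (nat_lit 54) (nat_lit 3) (nat_lit 61) (nat_lit 3) (nat_lit 61) (nat_lit 5) (nat_lit 341) (nat_lit 341) (nat_lit 218)) (XT.lf (nat_lit 76) (nat_lit 36116754826) (nat_lit 0) (nat_lit 41404273463) (nat_lit 532) (nat_lit 21839996321) (nat_lit 55) (nat_lit 5) (nat_lit 54) (nat_lit 3) (nat_lit 61) (nat_lit 5) (nat_lit 342) (nat_lit 341) (nat_lit 217))) (XT.nd (nat_lit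 78) (nat_lit 0) (nat_lit 0) (XT.lf (nat_lit 0) (nat_lit 82084217135) (nat_lit 456) (nat_lit 15950762347) (nat_lit 532) (nat_lit 5345891092) (nat_lit 55) (nat_lit 5) (nat_lit 61) (nat_lit 5) (nat_lit 62) (nat_lit 5) (nat_lit 343) (nat_lit 341) (nat_lit 216)) (XT.lf (nat_lit 76) (nat_lit 35843415490) (nat_lit 0) (nat_lit 53105900058) (nat_lit 532) (nat_lit 18618041431) (nat_lit 56) (nat_lit 5) (nat_lit 55) (nat_lit 5) (nat_lit 62) (nat_lit 5) (nat_lit 344) (nat_lit 341) (nat_lit 215))))) (XT.nd (nat_lit 312) (nat_lit 532) (nat_lit 0) (XT.nd (nat_lit 156) (nat_lit 380) (nat_lit 0) (XT.nd (nat_lit 78) (nat_lit 0) (nat_lit 76) (XT.lf (nat_lit 76) (nat_lit 92687864525) (nat_lit 0) (nat_lit 4111299298) (nat_lit 532) (nat_lit 15254756155) (nat_lit 56) (nat_lit 5) (nat_lit 55) (nat_lit 5) (nat_lit 62) (nat_lit 5) (nat_lit 345) (nat_lit 341) (nat_lit 214)) (XT.lf (nat_lit 76) (nat_lit 37902365485)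 (nat_lit 0) (nat_lit 69459364389) (nat_lit 532) (nat_lit 9370900711) (nat_lit 57) (nat_lit 5) (nat_lit 56) (nat_lit 5) (nat_lit 63) (nat_lit 5) (nat_lit 346) (nat_lit 341) (nat_lit 213))) (XT.nd (nat_lit 78) (nat_lit 456) (nat_lit 0) (XT.lf (nat_lit 76) (nat_lit 100740809525) (nat_lit 0) (nat_lit 18661574158) (nat_lit 532) (nat_lit 2332608650) (nat_lit 57) (nat_lit 5) (nat_lit 56) (nat_lit 5) (nat_lit 63) (nat_lit 5) (nat_lit 347) (nat_lit 341) (nat_lit 212)) (XT.lf (nat_lit 0) (nat_lit 6952418387) (nat_lit 532) (nat_lit 84426154395) (nat_lit 76) (nat_lit 35593055072) (nat_lit 50) (nat_lit 5) (nat_lit 57) (nat_lit 5) (nat_lit 51) (nat_lit 5) (nat_lit 348) (nat_lit 341) (nat_lit 211)))) (XT.nd (nat_lit 156) (nat_lit 228) (nat_lit 0) (XT.nd (nat_lit 78) (nat_lit 304) (nat_lit 0) (XT.lf (nat_lit 0) (nat_lit 17927418702) (nat_lit 532) (nat_lit 20779655114) (nat_lit 76) (nat_lit 93829418722)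 (nat_lit 50) (nat_lit 5) (nat_lit 57) (nat_lit 5) (nat_lit 51) (nat_lit 5) (nat_lit 349) (nat_lit 341) (nat_lit 210)) (XT.lf (nat_lit 0) (nat_lit 31462853089) (nat_lit 380) (nat_lit 88434612577) (nat_lit 76) (nat_lit 18514486662) (nat_lit 46) (nat_lit 5) (nat_lit 51) (nat_lit 5) (nat_lit 47) (nat_lit 5) (nat_lit 350) (nat_lit 341) (nat_lit 209))) (XT.nd (nat_lit 78) (nat_lit 228) (nat_lit 0) (XT.lf (nat_lit 0) (nat_lit 47669014491) (nat_lit 380) (nat_lit 18155900841) (nat_lit 76) (nat_lit 78805502796) (nat_lit 46) (nat_lit 5) (nat_lit 51) (nat_lit 5) (nat_lit 47) (nat_lit 5) (nat_lit 351) (nat_lit 341) (nat_lit 208)) (XT.nd (nat_lit 78) (nat_lit 0) (nat_lit 0) (XT.lf (nat_lit 0) (nat_lit 60785453511) (nat_lit 228) (nat_lit 5847740169) (nat_lit 304) (nat_lit 84596246082) (nat_lit 43) (nat_lit 5) (nat_lit 46) (nat_lit 5) (nat_lit 47) (nat_lit 5) (nat_lit 352) (nat_lit 341) (nat_lit 207))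 (XT.lf (nat_lit 0) (nat_lit 89040676583) (nat_lit 304) (nat_lit 12672522614) (nat_lit 76) (nat_lit 56489090900) (nat_lit 43) (nat_lit 5) (nat_lit 47) (nat_lit 5) (nat_lit 44) (nat_lit 5) (nat_lit 353) (nat_lit 341) (nat_lit 206))))))) (XT.nd (nat_lit 624) (nat_lit 684) (nat_lit 0) (XT.nd (nat_lit 312) (nat_lit 304) (nat_lit 0) (XT.nd (nat_lit 156) (nat_lit 456) (nat_lit 0) (XT.nd (nat_lit 78) (nat_lit 0) (nat_lit 0) (XT.lf (nat_lit 0) (nat_lit 74915993567) (nat_lit 228) (nat_lit 40278061813) (nat_lit 304) (nat_lit 50382649779) (nat_lit 40) (nat_lit 5) (nat_lit 43) (nat_lit 5) (nat_lit 44) (nat_lit 5) (nat_lit 354) (nat_lit 341) (nat_lit 205)) (XT.lf (nat_lit 0) (nat_lit 144421913112) (nat_lit 304) (nat_lit 3917485648) (nat_lit 76) (nat_lit 25123098420) (nat_lit 40) (nat_lit 5) (nat_lit 44) (nat_lit 5) (nat_lit 41) (nat_lit 5) (nat_lit 355) (nat_lit 341) (nat_lit 204))) (XT.nd (nat_lit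 78) (nat_lit 304) (nat_lit 0) (XT.lf (nat_lit 0) (nat_lit 93390420170) (nat_lit 152) (nat_lit 85889517705) (nat_lit 228) (nat_lit 2435860029) (nat_lit 38) (nat_lit 5) (nat_lit 40) (nat_lit 5) (nat_lit 41) (nat_lit 5) (nat_lit 356) (nat_lit 341) (nat_lit 203)) (XT.lf (nat_lit 0) (nat_lit 7841626174) (nat_lit 228) (nat_lit 17438324036) (nat_lit 304) (nat_lit 165274960658) (nat_lit 34) (nat_lit 5) (nat_lit 37) (nat_lit 5) (nat_lit 38) (nat_lit 5) (nat_lit 357) (nat_lit 341) (nat_lit 202)))) (XT.nd (nat_lit 156) (nat_lit 152) (nat_lit 0) (XT.nd (nat_lit 78) (nat_lit 152) (nat_lit 0) (XT.lf (nat_lit 0) (nat_lit 58917413947) (nat_lit 304) (nat_lit 84667757075) (nat_lit 76) (nat_lit 56204041577) (nat_lit 34) (nat_lit 5) (nat_lit 38) (nat_lit 5) (nat_lit 35) (nat_lit 5) (nat_lit 358) (nat_lit 341) (nat_lit 201)) (XT.lf (nat_lit 0) (nat_lit 21861731369) (nat_lit 152) (nat_lit 74362610682) (nat_lit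 228) (nat_lit 113459639340) (nat_lit 32) (nat_lit 5) (nat_lit 34) (nat_lit 5) (nat_lit 35) (nat_lit 5) (nat_lit 359) (nat_lit 341) (nat_lit 200))) (XT.nd (nat_lit 78) (nat_lit 152) (nat_lit 0) (XT.lf (nat_lit 0) (nat_lit 138900242549) (nat_lit 228) (nat_lit 78526478637) (nat_lit 76) (nat_lit 2752857329) (nat_lit 32) (nat_lit 5) (nat_lit 35) (nat_lit 5) (nat_lit 33) (nat_lit 5) (nat_lit 360) (nat_lit 341) (nat_lit 199)) (XT.lf (nat_lit 0) (nat_lit 39560081613) (nat_lit 152) (nat_lit 148312825414) (nat_lit 228) (nat_lit 43411301287) (nat_lit 30) (nat_lit 5) (nat_lit 32) (nat_lit 5) (nat_lit 33) (nat_lit 5) (nat_lit 361) (nat_lit 341) (nat_lit 198))))) (XT.nd (nat_lit 312) (nat_lit 304) (nat_lit 0) (XT.nd (nat_lit 156) (nat_lit 152) (nat_lit 0) (XT.nd (nat_lit 78) (nat_lit 228) (nat_lit 0) (XT.lf (nat_lit 0) (nat_lit 171559113543) (nat_lit 152) (nat_lit 71351107765) (nat_lit 228) (nat_lit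 195240499) (nat_lit 30) (nat_lit 5) (nat_lit 32) (nat_lit 5) (nat_lit 33) (nat_lit 5) (nat_lit 362) (nat_lit 341) (nat_lit 197)) (XT.lf (nat_lit 0) (nat_lit 45948749562) (nat_lit 228) (nat_lit 195881135939) (nat_lit 76) (nat_lit 13809452921) (nat_lit 27) (nat_lit 5) (nat_lit 30) (nat_lit 5) (nat_lit 28) (nat_lit 5) (nat_lit 363) (nat_lit 341) (nat_lit 196))) (XT.nd (nat_lit 78) (nat_lit 152) (nat_lit 0) (XT.lf (nat_lit 0) (nat_lit 99633800356) (nat_lit 228) (nat_lit 65292880812) (nat_lit 76) (nat_lit 103940031330) (nat_lit 27) (nat_lit 5) (nat_lit 30) (nat_lit 5) (nat_lit 28) (nat_lit 5) (nat_lit 364) (nat_lit 341) (nat_lit 195)) (XT.lf (nat_lit 0) (nat_lit 79730588845) (nat_lit 152) (nat_lit 79800403404) (nat_lit 228) (nat_lit 123467897465) (nat_lit 25) (nat_lit 5) (nat_lit 27) (nat_lit 5) (nat_lit 28) (nat_lit 5) (nat_lit 365) (nat_lit 341) (nat_lit 194)))) (XT.nd (nat_lit 156) (nat_lit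 228) (nat_lit 0) (XT.nd (nat_lit 78) (nat_lit 76) (nat_lit 0) (XT.lf (nat_lit 0) (nat_lit 226343241293) (nat_lit 228) (nat_lit 58388160479) (nat_lit 76) (nat_lit 13360376955) (nat_lit 25) (nat_lit 5) (nat_lit 28) (nat_lit 5) (nat_lit 26) (nat_lit 4) (nat_lit 366) (nat_lit 341) (nat_lit 193)) (XT.lf (nat_lit 0) (nat_lit 101065061802) (nat_lit 76) (nat_lit 201938595569) (nat_lit 152) (nat_lit 11028186674) (nat_lit 24) (nat_lit 5) (nat_lit 25) (nat_lit 5) (nat_lit 26) (nat_lit 4) (nat_lit 367) (nat_lit 341) (nat_lit 192))) (XT.nd (nat_lit 78) (nat_lit 152) (nat_lit 0) (XT.lf (nat_lit 0) (nat_lit 53458726093) (nat_lit 152) (nat_lit 55877938320) (nat_lit 76) (nat_lit 221674477561) (nat_lit 23) (nat_lit 5) (nat_lit 25) (nat_lit 5) (nat_lit 24) (nat_lit 5) (nat_lit 368) (nat_lit 341) (nat_lit 191)) (XT.nd (nat_lit 78) (nat_lit 0) (nat_lit 0) (XT.lf (nat_lit 0) (nat_lit 119467561299) (nat_lit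 152) (nat_lit 5914265922) (nat_lit 228) (nat_lit 223714197416) (nat_lit 21) (nat_lit 5) (nat_lit 23) (nat_lit 5) (nat_lit 24) (nat_lit 5) (nat_lit 369) (nat_lit 341) (nat_lit 190)) (XT.lf (nat_lit 0) (nat_lit 207170168365) (nat_lit 228) (nat_lit 59070945722) (nat_lit 76) (nat_lit 102057672582) (nat_lit 21) (nat_lit 5) (nat_lit 24) (nat_lit 5) (nat_lit 22) (nat_lit 4) (nat_lit 370) (nat_lit 341) (nat_lit 189))))))))
noncomputable def xc205 : XT := (XT.nd (nat_lit 1326) (nat_lit 456) (nat_lit 0) (XT.nd (nat_lit 624) (nat_lit 380) (nat_lit 0) (XT.nd (nat_lit 312) (nat_lit 228) (nat_lit 0) (XT.nd (nat_lit 156) (nat_lit 152) (nat_lit 0) (XT.nd (nat_lit 78) (nat_lit 0) (nat_lit 0) (XT.lf (nat_lit 0) (nat_lit 131558399483) (nat_lit 76) (nat_lit 167260637542) (nat_lit 152) (nat_lit 89953335925) (nat_lit 20) (nat_lit 5) (nat_lit 21) (nat_lit 5) (nat_lit 22) (nat_lit 4) (nat_lit 371) (nat_lit 341)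 (nat_lit 188)) (XT.lf (nat_lit 0) (nat_lit 340797274937) (nat_lit 76) (nat_lit 58617509549) (nat_lit 152) (nat_lit 11339864198) (nat_lit 20) (nat_lit 5) (nat_lit 21) (nat_lit 5) (nat_lit 22) (nat_lit 4) (nat_lit 372) (nat_lit 341) (nat_lit 187))) (XT.nd (nat_lit 78) (nat_lit 0) (nat_lit 0) (XT.lf (nat_lit 0) (nat_lit 74730630027) (nat_lit 152) (nat_lit 298250785260) (nat_lit 76) (nat_lit 60984728667) (nat_lit 18) (nat_lit 5) (nat_lit 20) (nat_lit 5) (nat_lit 19) (nat_lit 4) (nat_lit 373) (nat_lit 341) (nat_lit 186)) (XT.lf (nat_lit 0) (nat_lit 170558963550) (nat_lit 152) (nat_lit 98928073223) (nat_lit 76) (nat_lit 189245171037) (nat_lit 18) (nat_lit 5) (nat_lit 20) (nat_lit 5) (nat_lit 19) (nat_lit 4) (nat_lit 374) (nat_lit 341) (nat_lit 185)))) (XT.nd (nat_lit 156) (nat_lit 152) (nat_lit 0) (XT.nd (nat_lit 78) (nat_lit 0) (nat_lit 0) (XT.lf (nat_lit 0) (nat_lit 122466517781) (nat_lit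 76) (nat_lit 154532251669) (nat_lit 152) (nat_lit 208245170939) (nat_lit 17) (nat_lit 5) (nat_lit 18) (nat_lit 5) (nat_lit 19) (nat_lit 4) (nat_lit 375) (nat_lit 341) (nat_lit 184)) (XT.lf (nat_lit 0) (nat_lit 367198599337) (nat_lit 76) (nat_lit 27459916084) (nat_lit 152) (nat_lit 119001715771) (nat_lit 17) (nat_lit 5) (nat_lit 18) (nat_lit 5) (nat_lit 19) (nat_lit 4) (nat_lit 376) (nat_lit 341) (nat_lit 183))) (XT.nd (nat_lit 78) (nat_lit 76) (nat_lit 0) (XT.lf (nat_lit 0) (nat_lit 88969682254) (nat_lit 76) (nat_lit 437541143447) (nat_lit 76) (nat_lit 17456616849) (nat_lit 16) (nat_lit 4) (nat_lit 17) (nat_lit 5) (nat_lit 17) (nat_lit 4) (nat_lit 377) (nat_lit 341) (nat_lit 182)) (XT.lf (nat_lit 0) (nat_lit 92420940174) (nat_lit 152) (nat_lit 227849121914) (nat_lit 76) (nat_lit 255866018749) (nat_lit 15) (nat_lit 5) (nat_lit 17) (nat_lit 5) (nat_lit 16) (nat_lit 4) (nat_lit 378) (nat_lit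 341) (nat_lit 181))))) (XT.nd (nat_lit 312) (nat_lit 228) (nat_lit 0) (XT.nd (nat_lit 156) (nat_lit 76) (nat_lit 0) (XT.nd (nat_lit 78) (nat_lit 0) (nat_lit 0) (XT.lf (nat_lit 0) (nat_lit 17913935076) (nat_lit 76) (nat_lit 192662388123) (nat_lit 152) (nat_lit 400231154973) (nat_lit 14) (nat_lit 5) (nat_lit 15) (nat_lit 5) (nat_lit 16) (nat_lit 4) (nat_lit 379) (nat_lit 341) (nat_lit 180)) (XT.lf (nat_lit 0) (nat_lit 296295841248) (nat_lit 76) (nat_lit 48117999031) (nat_lit 152) (nat_lit 303340370786) (nat_lit 14) (nat_lit 5) (nat_lit 15) (nat_lit 5) (nat_lit 16) (nat_lit 4) (nat_lit 380) (nat_lit 341) (nat_lit 179))) (XT.nd (nat_lit 78) (nat_lit 76) (nat_lit 0) (XT.lf (nat_lit 0) (nat_lit 491555429293) (nat_lit 152) (nat_lit 93305712385) (nat_lit 0) (nat_lit 102587775307) (nat_lit 14) (nat_lit 5) (nat_lit 16) (nat_lit 4) (nat_lit 14) (nat_lit 4) (nat_lit 381) (nat_lit 341) (nat_lit 178))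 (XT.lf (nat_lit 0) (nat_lit 193951418437) (nat_lit 76) (nat_lit 462431197986) (nat_lit 76) (nat_lit 73463441314) (nat_lit 13) (nat_lit 4) (nat_lit 14) (nat_lit 5) (nat_lit 14) (nat_lit 4) (nat_lit 382) (nat_lit 341) (nat_lit 177)))) (XT.nd (nat_lit 156) (nat_lit 76) (nat_lit 0) (XT.nd (nat_lit 78) (nat_lit 76) (nat_lit 0) (XT.lf (nat_lit 0) (nat_lit 58438869065) (nat_lit 152) (nat_lit 267415004094) (nat_lit 76) (nat_lit 449458654414) (nat_lit 12) (nat_lit 5) (nat_lit 14) (nat_lit 5) (nat_lit 13) (nat_lit 4) (nat_lit 383) (nat_lit 341) (nat_lit 176)) (XT.lf (nat_lit 0) (nat_lit 21721302809) (nat_lit 76) (nat_lit 175725448438) (nat_lit 152) (nat_lit 626775126797) (nat_lit 11) (nat_lit 5) (nat_lit 12) (nat_lit 5) (nat_lit 13) (nat_lit 4) (nat_lit 384) (nat_lit 341) (nat_lit 175))) (XT.nd (nat_lit 78) (nat_lit 76) (nat_lit 0) (XT.lf (nat_lit 0) (nat_lit 349196500855) (nat_lit 76) (nat_lit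 5690288643) (nat_lit 152) (nat_lit 521572265044) (nat_lit 11) (nat_lit 5) (nat_lit 12) (nat_lit 5) (nat_lit 13) (nat_lit 4) (nat_lit 385) (nat_lit 341) (nat_lit 174)) (XT.nd (nat_lit 78) (nat_lit 76) (nat_lit 0) (XT.lf (nat_lit 0) (nat_lit 529201606302) (nat_lit 152) (nat_lit 234285271707) (nat_lit 0) (nat_lit 169045961136) (nat_lit 11) (nat_lit 5) (nat_lit 13) (nat_lit 4) (nat_lit 11) (nat_lit 4) (nat_lit 386) (nat_lit 341) (nat_lit 173)) (XT.lf (nat_lit 0) (nat_lit 86299308873) (nat_lit 76) (nat_lit 633385534380) (nat_lit 76) (nat_lit 273229824504) (nat_lit 10) (nat_lit 4) (nat_lit 11) (nat_lit 5) (nat_lit 11) (nat_lit 4) (nat_lit 387) (nat_lit 341) (nat_lit 172))))))) (XT.nd (nat_lit 702) (nat_lit 228) (nat_lit 0) (XT.nd (nat_lit 312) (nat_lit 76) (nat_lit 0) (XT.nd (nat_lit 156) (nat_lit 76) (nat_lit 0) (XT.nd (nat_lit 78) (nat_lit 76) (nat_lit 0) (XT.lf (nat_lit 0) (nat_lit 445854544869)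 (nat_lit 76) (nat_lit 485957905358) (nat_lit 76) (nat_lit 125802135567) (nat_lit 10) (nat_lit 4) (nat_lit 11) (nat_lit 5) (nat_lit 11) (nat_lit 4) (nat_lit 388) (nat_lit 341) (nat_lit 171)) (XT.lf (nat_lit 0) (nat_lit 31747916019) (nat_lit 152) (nat_lit 294120159949) (nat_lit 76) (nat_lit 801558126450) (nat_lit 9) (nat_lit 5) (nat_lit 11) (nat_lit 5) (nat_lit 10) (nat_lit 4) (nat_lit 389) (nat_lit 341) (nat_lit 170))) (XT.nd (nat_lit 78) (nat_lit 0) (nat_lit 0) (XT.lf (nat_lit 0) (nat_lit 48067760025) (nat_lit 76) (nat_lit 148193603755) (nat_lit 152) (nat_lit 1006207499578) (nat_lit 8) (nat_lit 5) (nat_lit 9) (nat_lit 5) (nat_lit 10) (nat_lit 4) (nat_lit 390) (nat_lit 341) (nat_lit 169)) (XT.lf (nat_lit 0) (nat_lit 383237336998) (nat_lit 152) (nat_lit 849773854815) (nat_lit 0) (nat_lit 49759629404) (nat_lit 8) (nat_lit 5) (nat_lit 10) (nat_lit 4) (nat_lit 8) (nat_lit 4) (nat_lit 391) (nat_lit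 341) (nat_lit 168)))) (XT.nd (nat_lit 156) (nat_lit 76) (nat_lit 0) (XT.nd (nat_lit 78) (nat_lit 0) (nat_lit 0) (XT.lf (nat_lit 0) (nat_lit 589020521260) (nat_lit 152) (nat_lit 524625710919) (nat_lit 0) (nat_lit 255542772889) (nat_lit 8) (nat_lit 5) (nat_lit 10) (nat_lit 4) (nat_lit 8) (nat_lit 4) (nat_lit 392) (nat_lit 341) (nat_lit 167)) (XT.lf (nat_lit 0) (nat_lit 811266312738) (nat_lit 152) (nat_lit 173465808093) (nat_lit 0) (nat_lit 477788526610) (nat_lit 8) (nat_lit 5) (nat_lit 10) (nat_lit 4) (nat_lit 8) (nat_lit 4) (nat_lit 393) (nat_lit 341) (nat_lit 166))) (XT.nd (nat_lit 78) (nat_lit 0) (nat_lit 0) (XT.lf (nat_lit 0) (nat_lit 216623169500) (nat_lit 76) (nat_lit 839878346466) (nat_lit 76) (nat_lit 506400525377) (nat_lit 7) (nat_lit 4) (nat_lit 8) (nat_lit 5) (nat_lit 8) (nat_lit 4) (nat_lit 394) (nat_lit 341) (nat_lit 165)) (XT.nd (nat_lit 78) (nat_lit 0) (nat_lit 0) (XT.lf (nat_lit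 0) (nat_lit 647784335957) (nat_lit 76) (nat_lit 678314019341) (nat_lit 76) (nat_lit 344836165882) (nat_lit 7) (nat_lit 4) (nat_lit 8) (nat_lit 5) (nat_lit 8) (nat_lit 4) (nat_lit 395) (nat_lit 341) (nat_lit 164)) (XT.lf (nat_lit 0) (nat_lit 1113438318366) (nat_lit 76) (nat_lit 503824583825) (nat_lit 76) (nat_lit 170346700392) (nat_lit 7) (nat_lit 4) (nat_lit 8) (nat_lit 5) (nat_lit 8) (nat_lit 4) (nat_lit 396) (nat_lit 341) (nat_lit 163)))))) (XT.nd (nat_lit 312) (nat_lit 76) (nat_lit 0) (XT.nd (nat_lit 156) (nat_lit 0) (nat_lit 0) (XT.nd (nat_lit 78) (nat_lit 76) (nat_lit 0) (XT.lf (nat_lit 0) (nat_lit 17196353249) (nat_lit 152) (nat_lit 297709496425) (nat_lit 76) (nat_lit 1598678015710) (nat_lit 6) (nat_lit 5) (nat_lit 8) (nat_lit 5) (nat_lit 7) (nat_lit 4) (nat_lit 397) (nat_lit 341) (nat_lit 162)) (XT.lf (nat_lit 0) (nat_lit 109944442911) (nat_lit 76) (nat_lit 103239393528) (nat_lit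 152) (nat_lit 1835886735077) (nat_lit 5) (nat_lit 5) (nat_lit 6) (nat_lit 5) (nat_lit 7) (nat_lit 4) (nat_lit 398) (nat_lit 341) (nat_lit 161))) (XT.nd (nat_lit 78) (nat_lit 0) (nat_lit 0) (XT.lf (nat_lit 0) (nat_lit 436216535111) (nat_lit 152) (nat_lit 1630829736090) (nat_lit 0) (nat_lit 127440645597) (nat_lit 5) (nat_lit 5) (nat_lit 7) (nat_lit 4) (nat_lit 5) (nat_lit 4) (nat_lit 399) (nat_lit 341) (nat_lit 160)) (XT.lf (nat_lit 0) (nat_lit 679773360300) (nat_lit 152) (nat_lit 1300551238175) (nat_lit 0) (nat_lit 370997450386) (nat_lit 5) (nat_lit 5) (nat_lit 7) (nat_lit 4) (nat_lit 5) (nat_lit 4) (nat_lit 400) (nat_lit 341) (nat_lit 159)))) (XT.nd (nat_lit 156) (nat_lit 76) (nat_lit 0) (XT.nd (nat_lit 78) (nat_lit 0) (nat_lit 0) (XT.lf (nat_lit 0) (nat_lit 942814701812) (nat_lit 152) (nat_lit 943850519049) (nat_lit 0) (nat_lit 634038773011) (nat_lit 5) (nat_lit 5) (nat_lit 7) (nat_lit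 4) (nat_lit 5) (nat_lit 4) (nat_lit 401) (nat_lit 341) (nat_lit 158)) (XT.lf (nat_lit 0) (nat_lit 1226899323153) (nat_lit 152) (nat_lit 558613796674) (nat_lit 0) (nat_lit 918123376862) (nat_lit 5) (nat_lit 5) (nat_lit 7) (nat_lit 4) (nat_lit 5) (nat_lit 4) (nat_lit 402) (nat_lit 341) (nat_lit 157))) (XT.nd (nat_lit 78) (nat_lit 76) (nat_lit 0) (XT.lf (nat_lit 0) (nat_lit 1533710688745) (nat_lit 152) (nat_lit 142558186769) (nat_lit 0) (nat_lit 1224934726261) (nat_lit 5) (nat_lit 5) (nat_lit 7) (nat_lit 4) (nat_lit 5) (nat_lit 4) (nat_lit 403) (nat_lit 341) (nat_lit 156)) (XT.nd (nat_lit 78) (nat_lit 0) (nat_lit 0) (XT.lf (nat_lit 0) (nat_lit 322936412653) (nat_lit 76) (nat_lit 1549897155852) (nat_lit 76) (nat_lit 1241121178374) (nat_lit 4) (nat_lit 4) (nat_lit 5) (nat_lit 5) (nat_lit 5) (nat_lit 4) (nat_lit 404) (nat_lit 341) (nat_lit 155)) (XT.lf (nat_lit 0) (nat_lit 833777945070) (nat_lit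 76) (nat_lit 1409206104122) (nat_lit 76) (nat_lit 1100430112761) (nat_lit 4) (nat_lit 4) (nat_lit 5) (nat_lit 5) (nat_lit 5) (nat_lit 4) (nat_lit 405) (nat_lit 341) (nat_lit 154))))))))
noncomputable def xc206 : XT := (XT.nd (nat_lit 43056) (nat_lit 0) (nat_lit 1216) (XT.nd (nat_lit 42354) (nat_lit 0) (nat_lit 2736) (XT.nd (nat_lit 42042) (nat_lit 0) (nat_lit 3876) (XT.nd (nat_lit 41886) (nat_lit 0) (nat_lit 3800) (XT.nd (nat_lit 78) (nat_lit 0) (nat_lit 0) (XT.lf (nat_lit 0) (nat_lit 1385486758082) (nat_lit 76) (nat_lit 1257259789035) (nat_lit 76) (nat_lit 948483784819) (nat_lit 4) (nat_lit 4) (nat_lit 5) (nat_lit 5) (nat_lit 5) (nat_lit 4) (nat_lit 406) (nat_lit 341) (nat_lit 153)) (XT.lf (nat_lit 0) (nat_lit 1981332237247) (nat_lit 76) (nat_lit 1093157787982) (nat_lit 76) (nat_lit 784381771863) (nat_lit 4) (nat_lit 4) (nat_lit 5) (nat_lit 5) (nat_lit 5) (nat_lit 4) (nat_lit 407) (nat_lit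 341) (nat_lit 152))) (XT.nd (nat_lit 78) (nat_lit 0) (nat_lit 0) (XT.lf (nat_lit 0) (nat_lit 39803323691) (nat_lit 532) (nat_lit 5911905186) (nat_lit 532) (nat_lit 5911905186) (nat_lit 54) (nat_lit 3) (nat_lit 61) (nat_lit 3) (nat_lit 61) (nat_lit 5) (nat_lit 342) (nat_lit 342) (nat_lit 216)) (XT.lf (nat_lit 76) (nat_lit 39012920080) (nat_lit 0) (nat_lit 44721940746) (nat_lit 532) (nat_lit 23574051836) (nat_lit 55) (nat_lit 5) (nat_lit 54) (nat_lit 3) (nat_lit 61) (nat_lit 5) (nat_lit 343) (nat_lit 342) (nat_lit 215)))) (XT.nd (nat_lit 156) (nat_lit 0) (nat_lit 0) (XT.nd (nat_lit 78) (nat_lit 0) (nat_lit 0) (XT.lf (nat_lit 0) (nat_lit 88662086170) (nat_lit 456) (nat_lit 17219465130) (nat_lit 532) (nat_lit 5768878113) (nat_lit 55) (nat_lit 5) (nat_lit 61) (nat_lit 5) (nat_lit 62) (nat_lit 5) (nat_lit 344) (nat_lit 342) (nat_lit 214)) (XT.lf (nat_lit 76) (nat_lit 38718060650) (nat_lit 0)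 (nat_lit 57357679723) (nat_lit 532) (nat_lit 20096148026) (nat_lit 56) (nat_lit 5) (nat_lit 55) (nat_lit 5) (nat_lit 62) (nat_lit 5) (nat_lit 345) (nat_lit 342) (nat_lit 213))) (XT.nd (nat_lit 78) (nat_lit 0) (nat_lit 76) (XT.lf (nat_lit 76) (nat_lit 100109534354) (nat_lit 0) (nat_lit 4443265890) (nat_lit 532) (nat_lit 16464639685) (nat_lit 56) (nat_lit 5) (nat_lit 55) (nat_lit 5) (nat_lit 62) (nat_lit 5) (nat_lit 346) (nat_lit 342) (nat_lit 212)) (XT.lf (nat_lit 76) (nat_lit 40941872619) (nat_lit 0) (nat_lit 75017887991) (nat_lit 532) (nat_lit 10110736940) (nat_lit 57) (nat_lit 5) (nat_lit 56) (nat_lit 5) (nat_lit 63) (nat_lit 5) (nat_lit 347) (nat_lit 342) (nat_lit 211))))) (XT.nd (nat_lit 312) (nat_lit 456) (nat_lit 0) (XT.nd (nat_lit 156) (nat_lit 304) (nat_lit 0) (XT.nd (nat_lit 78) (nat_lit 456) (nat_lit 0) (XT.lf (nat_lit 76) (nat_lit 108806850117) (nat_lit 0) (nat_lit 20156143102)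 (nat_lit 532) (nat_lit 2510110093) (nat_lit 57) (nat_lit 5) (nat_lit 56) (nat_lit 5) (nat_lit 63) (nat_lit 5) (nat_lit 348) (nat_lit 342) (nat_lit 210)) (XT.lf (nat_lit 0) (nat_lit 7516765588) (nat_lit 532) (nat_lit 91172490826) (nat_lit 76) (nat_lit 38439436594) (nat_lit 50) (nat_lit 5) (nat_lit 57) (nat_lit 5) (nat_lit 51) (nat_lit 5) (nat_lit 349) (nat_lit 342) (nat_lit 209))) (XT.nd (nat_lit 78) (nat_lit 304) (nat_lit 0) (XT.lf (nat_lit 0) (nat_lit 19369161949) (nat_lit 532) (nat_lit 22434846115) (nat_lit 76) (nat_lit 101334788068) (nat_lit 50) (nat_lit 5) (nat_lit 57) (nat_lit 5) (nat_lit 51) (nat_lit 5) (nat_lit 350) (nat_lit 342) (nat_lit 208)) (XT.lf (nat_lit 0) (nat_lit 33987036357) (nat_lit 380) (nat_lit 95501794493) (nat_lit 76) (nat_lit 19995494311) (nat_lit 46) (nat_lit 5) (nat_lit 51) (nat_lit 5) (nat_lit 47) (nat_lit 5) (nat_lit 351) (nat_lit 342) (nat_lit 207)))) (XT.nd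 (nat_lit 156) (nat_lit 228) (nat_lit 0) (XT.nd (nat_lit 78) (nat_lit 228) (nat_lit 0) (XT.lf (nat_lit 0) (nat_lit 51489160669) (nat_lit 380) (nat_lit 19601347824) (nat_lit 76) (nat_lit 85109802942) (nat_lit 46) (nat_lit 5) (nat_lit 51) (nat_lit 5) (nat_lit 47) (nat_lit 5) (nat_lit 352) (nat_lit 342) (nat_lit 206)) (XT.lf (nat_lit 0) (nat_lit 65655137025) (nat_lit 228) (nat_lit 6315011102) (nat_lit 304) (nat_lit 91357133509) (nat_lit 43) (nat_lit 5) (nat_lit 46) (nat_lit 5) (nat_lit 47) (nat_lit 5) (nat_lit 353) (nat_lit 342) (nat_lit 205))) (XT.nd (nat_lit 78) (nat_lit 228) (nat_lit 0) (XT.lf (nat_lit 0) (nat_lit 96169775282) (nat_lit 304) (nat_lit 13679521318) (nat_lit 76) (nat_lit 61008700444) (nat_lit 43) (nat_lit 5) (nat_lit 47) (nat_lit 5) (nat_lit 44) (nat_lit 5) (nat_lit 354) (nat_lit 342) (nat_lit 204)) (XT.nd (nat_lit 78) (nat_lit 0) (nat_lit 0) (XT.lf (nat_lit 0) (nat_lit 80915903927)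 (nat_lit 228) (nat_lit 43499246997) (nat_lit 304) (nat_lit 54407236907) (nat_lit 40) (nat_lit 5) (nat_lit 43) (nat_lit 5) (nat_lit 44) (nat_lit 5) (nat_lit 355) (nat_lit 342) (nat_lit 203)) (XT.lf (nat_lit 0) (nat_lit 155980848200) (nat_lit 304) (nat_lit 4224348270) (nat_lit 76) (nat_lit 27133878467) (nat_lit 40) (nat_lit 5) (nat_lit 44) (nat_lit 5) (nat_lit 41) (nat_lit 5) (nat_lit 356) (nat_lit 342) (nat_lit 202))))))) (XT.nd (nat_lit 624) (nat_lit 532) (nat_lit 0) (XT.nd (nat_lit 312) (nat_lit 380) (nat_lit 0) (XT.nd (nat_lit 156) (nat_lit 152) (nat_lit 0) (XT.nd (nat_lit 78) (nat_lit 304) (nat_lit 0) (XT.lf (nat_lit 0) (nat_lit 100868024539) (nat_lit 152) (nat_lit 92759259766) (nat_lit 228) (nat_lit 2625374416) (nat_lit 38) (nat_lit 5) (nat_lit 40) (nat_lit 5) (nat_lit 41) (nat_lit 5) (nat_lit 357) (nat_lit 342) (nat_lit 201)) (XT.lf (nat_lit 0) (nat_lit 8475433036) (nat_lit 228) (nat_lit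 18831778740) (nat_lit 304) (nat_lit 178491696800) (nat_lit 34) (nat_lit 5) (nat_lit 37) (nat_lit 5) (nat_lit 38) (nat_lit 5) (nat_lit 358) (nat_lit 342) (nat_lit 200))) (XT.nd (nat_lit 78) (nat_lit 152) (nat_lit 0) (XT.lf (nat_lit 0) (nat_lit 63635348081) (nat_lit 304) (nat_lit 91434850623) (nat_lit 76) (nat_lit 60701782143) (nat_lit 34) (nat_lit 5) (nat_lit 38) (nat_lit 5) (nat_lit 35) (nat_lit 5) (nat_lit 359) (nat_lit 342) (nat_lit 199)) (XT.lf (nat_lit 0) (nat_lit 23616836719) (nat_lit 152) (nat_lit 80309805655) (nat_lit 228) (nat_lit 122531704218) (nat_lit 32) (nat_lit 5) (nat_lit 34) (nat_lit 5) (nat_lit 35) (nat_lit 5) (nat_lit 360) (nat_lit 342) (nat_lit 198)))) (XT.nd (nat_lit 156) (nat_lit 228) (nat_lit 0) (XT.nd (nat_lit 78) (nat_lit 152) (nat_lit 0) (XT.lf (nat_lit 0) (nat_lit 150016332863) (nat_lit 228) (nat_lit 84802600144) (nat_lit 76) (nat_lit 2974681419) (nat_lit 32) (nat_lit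 5) (nat_lit 35) (nat_lit 5) (nat_lit 33) (nat_lit 5) (nat_lit 361) (nat_lit 342) (nat_lit 197)) (XT.lf (nat_lit 0) (nat_lit 42730733109) (nat_lit 152) (nat_lit 160175916413) (nat_lit 228) (nat_lit 46879978313) (nat_lit 30) (nat_lit 5) (nat_lit 32) (nat_lit 5) (nat_lit 33) (nat_lit 5) (nat_lit 362) (nat_lit 342) (nat_lit 196))) (XT.nd (nat_lit 78) (nat_lit 228) (nat_lit 0) (XT.lf (nat_lit 0) (nat_lit 185289254632) (nat_lit 152) (nat_lit 77057404688) (nat_lit 228) (nat_lit 206945779) (nat_lit 30) (nat_lit 5) (nat_lit 32) (nat_lit 5) (nat_lit 33) (nat_lit 5) (nat_lit 363) (nat_lit 342) (nat_lit 195)) (XT.lf (nat_lit 0) (nat_lit 49628269395) (nat_lit 228) (nat_lit 211545913535) (nat_lit 76) (nat_lit 14916009525) (nat_lit 27) (nat_lit 5) (nat_lit 30) (nat_lit 5) (nat_lit 28) (nat_lit 5) (nat_lit 364) (nat_lit 342) (nat_lit 194))))) (XT.nd (nat_lit 312) (nat_lit 304) (nat_lit 0) (XT.nd (nat_lit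 156) (nat_lit 76) (nat_lit 0) (XT.nd (nat_lit 78) (nat_lit 152) (nat_lit 0) (XT.lf (nat_lit 0) (nat_lit 107607856114) (nat_lit 228) (nat_lit 70511021203) (nat_lit 76) (nat_lit 112256900846) (nat_lit 27) (nat_lit 5) (nat_lit 30) (nat_lit 5) (nat_lit 28) (nat_lit 5) (nat_lit 365) (nat_lit 342) (nat_lit 193)) (XT.lf (nat_lit 0) (nat_lit 86114192101) (nat_lit 152) (nat_lit 86182506987) (nat_lit 228) (nat_lit 133341840647) (nat_lit 25) (nat_lit 5) (nat_lit 27) (nat_lit 5) (nat_lit 28) (nat_lit 5) (nat_lit 366) (nat_lit 342) (nat_lit 192))) (XT.nd (nat_lit 78) (nat_lit 76) (nat_lit 0) (XT.lf (nat_lit 0) (nat_lit 244453731933) (nat_lit 228) (nat_lit 63054240244) (nat_lit 76) (nat_lit 14430903601) (nat_lit 25) (nat_lit 5) (nat_lit 28) (nat_lit 5) (nat_lit 26) (nat_lit 4) (nat_lit 367) (nat_lit 342) (nat_lit 191)) (XT.lf (nat_lit 0) (nat_lit 109155113920) (nat_lit 76) (nat_lit 218091759409) (nat_lit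 152) (nat_lit 11907281833) (nat_lit 24) (nat_lit 5) (nat_lit 25) (nat_lit 5) (nat_lit 26) (nat_lit 4) (nat_lit 368) (nat_lit 342) (nat_lit 190)))) (XT.nd (nat_lit 156) (nat_lit 76) (nat_lit 0) (XT.nd (nat_lit 78) (nat_lit 152) (nat_lit 0) (XT.lf (nat_lit 0) (nat_lit 57738203542) (nat_lit 152) (nat_lit 60343536730) (nat_lit 76) (nat_lit 239410068535) (nat_lit 23) (nat_lit 5) (nat_lit 25) (nat_lit 5) (nat_lit 24) (nat_lit 5) (nat_lit 369) (nat_lit 342) (nat_lit 189)) (XT.lf (nat_lit 0) (nat_lit 129029485475) (nat_lit 152) (nat_lit 6385570095) (nat_lit 228) (nat_lit 241608434449) (nat_lit 21) (nat_lit 5) (nat_lit 23) (nat_lit 5) (nat_lit 24) (nat_lit 5) (nat_lit 370) (nat_lit 342) (nat_lit 188))) (XT.nd (nat_lit 78) (nat_lit 76) (nat_lit 0) (XT.lf (nat_lit 0) (nat_lit 223746306236) (nat_lit 228) (nat_lit 63792277233) (nat_lit 76) (nat_lit 110223902316) (nat_lit 21) (nat_lit 5) (nat_lit 24)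 (nat_lit 5) (nat_lit 22) (nat_lit 4) (nat_lit 371) (nat_lit 342) (nat_lit 187)) (XT.nd (nat_lit 78) (nat_lit 0) (nat_lit 0) (XT.lf (nat_lit 0) (nat_lit 142087305610) (nat_lit 76) (nat_lit 180639693618) (nat_lit 152) (nat_lit 97146966692) (nat_lit 20) (nat_lit 5) (nat_lit 21) (nat_lit 5) (nat_lit 22) (nat_lit 4) (nat_lit 372) (nat_lit 342) (nat_lit 186)) (XT.lf (nat_lit 0) (nat_lit 368064977458) (nat_lit 76) (nat_lit 63305248343) (nat_lit 152) (nat_lit 12244612494) (nat_lit 20) (nat_lit 5) (nat_lit 21) (nat_lit 5) (nat_lit 22) (nat_lit 4) (nat_lit 373) (nat_lit 342) (nat_lit 185))))))))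
noncomputable def xc207 : XT := (XT.nd (nat_lit 1326) (nat_lit 380) (nat_lit 0) (XT.nd (nat_lit 624) (nat_lit 380) (nat_lit 0) (XT.nd (nat_lit 312) (nat_lit 228) (nat_lit 0) (XT.nd (nat_lit 156) (nat_lit 76) (nat_lit 0) (XT.nd (nat_lit 78) (nat_lit 0) (nat_lit 0) (XT.lf (nat_lit 0) (nat_lit 80711363092) (nat_lit 152) (nat_lit 322106766526) (nat_lit 76) (nat_lit 65865121868) (nat_lit 18) (nat_lit 5) (nat_lit 20) (nat_lit 5) (nat_lit 19) (nat_lit 4) (nat_lit 374) (nat_lit 342) (nat_lit 184)) (XT.lf (nat_lit 0) (nat_lit 184205794211) (nat_lit 152) (nat_lit 106838539863) (nat_lit 76) (nat_lit 204386280005) (nat_lit 18) (nat_lit 5) (nat_lit 20) (nat_lit 5) (nat_lit 19) (nat_lit 4) (nat_lit 375) (nat_lit 342) (nat_lit 183))) (XT.nd (nat_lit 78) (nat_lit 0) (nat_lit 0) (XT.lf (nat_lit 0) (nat_lit 132267522744) (nat_lit 76) (nat_lit 166893193867) (nat_lit 152) (nat_lit 224902574186) (nat_lit 17)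 (nat_lit 5) (nat_lit 18) (nat_lit 5) (nat_lit 19) (nat_lit 4) (nat_lit 376) (nat_lit 342) (nat_lit 182)) (XT.lf (nat_lit 0) (nat_lit 396577897970) (nat_lit 76) (nat_lit 29655192764) (nat_lit 152) (nat_lit 128519806339) (nat_lit 17) (nat_lit 5) (nat_lit 18) (nat_lit 5) (nat_lit 19) (nat_lit 4) (nat_lit 377) (nat_lit 342) (nat_lit 181)))) (XT.nd (nat_lit 156) (nat_lit 76) (nat_lit 0) (XT.nd (nat_lit 78) (nat_lit 76) (nat_lit 0) (XT.lf (nat_lit 0) (nat_lit 96090694374) (nat_lit 76) (nat_lit 472542867605) (nat_lit 76) (nat_lit 18851125349) (nat_lit 16) (nat_lit 4) (nat_lit 17) (nat_lit 5) (nat_lit 17) (nat_lit 4) (nat_lit 378) (nat_lit 342) (nat_lit 180)) (XT.lf (nat_lit 0) (nat_lit 99816392940) (nat_lit 152) (nat_lit 246073774293) (nat_lit 76) (nat_lit 276336657002) (nat_lit 15) (nat_lit 5) (nat_lit 17) (nat_lit 5) (nat_lit 16) (nat_lit 4) (nat_lit 379) (nat_lit 342) (nat_lit 179))) (XT.nd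 (nat_lit 78) (nat_lit 0) (nat_lit 0) (XT.lf (nat_lit 0) (nat_lit 19350244285) (nat_lit 76) (nat_lit 208073907477) (nat_lit 152) (nat_lit 432247786046) (nat_lit 14) (nat_lit 5) (nat_lit 15) (nat_lit 5) (nat_lit 16) (nat_lit 4) (nat_lit 380) (nat_lit 342) (nat_lit 178)) (XT.lf (nat_lit 0) (nat_lit 320002466328) (nat_lit 76) (nat_lit 51966076273) (nat_lit 152) (nat_lit 327605877001) (nat_lit 14) (nat_lit 5) (nat_lit 15) (nat_lit 5) (nat_lit 16) (nat_lit 4) (nat_lit 381) (nat_lit 342) (nat_lit 177))))) (XT.nd (nat_lit 312) (nat_lit 152) (nat_lit 0) (XT.nd (nat_lit 156) (nat_lit 152) (nat_lit 0) (XT.nd (nat_lit 78) (nat_lit 76) (nat_lit 0) (XT.lf (nat_lit 0) (nat_lit 530881370926) (nat_lit 152) (nat_lit 100767342194) (nat_lit 0) (nat_lit 110795995955) (nat_lit 14) (nat_lit 5) (nat_lit 16) (nat_lit 4) (nat_lit 14) (nat_lit 4) (nat_lit 382) (nat_lit 342) (nat_lit 176)) (XT.lf (nat_lit 0) (nat_lit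 209470287520) (nat_lit 76) (nat_lit 499424400128) (nat_lit 76) (nat_lit 79338937121) (nat_lit 13) (nat_lit 4) (nat_lit 14) (nat_lit 5) (nat_lit 14) (nat_lit 4) (nat_lit 383) (nat_lit 342) (nat_lit 175))) (XT.nd (nat_lit 78) (nat_lit 76) (nat_lit 0) (XT.lf (nat_lit 0) (nat_lit 63115367929) (nat_lit 152) (nat_lit 288805579229) (nat_lit 76) (nat_lit 485416470930) (nat_lit 12) (nat_lit 5) (nat_lit 14) (nat_lit 5) (nat_lit 13) (nat_lit 4) (nat_lit 384) (nat_lit 342) (nat_lit 174)) (XT.lf (nat_lit 0) (nat_lit 23461565767) (nat_lit 76) (nat_lit 189782273543) (nat_lit 152) (nat_lit 676915680637) (nat_lit 11) (nat_lit 5) (nat_lit 12) (nat_lit 5) (nat_lit 13) (nat_lit 4) (nat_lit 385) (nat_lit 342) (nat_lit 173)))) (XT.nd (nat_lit 156) (nat_lit 152) (nat_lit 0) (XT.nd (nat_lit 78) (nat_lit 0) (nat_lit 0) (XT.lf (nat_lit 0) (nat_lit 377134590120) (nat_lit 76) (nat_lit 6144390651) (nat_lit 152) (nat_lit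 563296697819) (nat_lit 11) (nat_lit 5) (nat_lit 12) (nat_lit 5) (nat_lit 13) (nat_lit 4) (nat_lit 386) (nat_lit 342) (nat_lit 172)) (XT.lf (nat_lit 0) (nat_lit 571538915431) (nat_lit 152) (nat_lit 253025831823) (nat_lit 0) (nat_lit 182570624140) (nat_lit 11) (nat_lit 5) (nat_lit 13) (nat_lit 4) (nat_lit 11) (nat_lit 4) (nat_lit 387) (nat_lit 342) (nat_lit 171))) (XT.nd (nat_lit 78) (nat_lit 76) (nat_lit 0) (XT.lf (nat_lit 0) (nat_lit 93205457947) (nat_lit 76) (nat_lit 684055318952) (nat_lit 76) (nat_lit 295086972183) (nat_lit 10) (nat_lit 4) (nat_lit 11) (nat_lit 5) (nat_lit 11) (nat_lit 4) (nat_lit 388) (nat_lit 342) (nat_lit 170)) (XT.nd (nat_lit 78) (nat_lit 76) (nat_lit 0) (XT.lf (nat_lit 0) (nat_lit 481524949536) (nat_lit 76) (nat_lit 524833557992) (nat_lit 76) (nat_lit 135865159855) (nat_lit 10) (nat_lit 4) (nat_lit 11) (nat_lit 5) (nat_lit 11) (nat_lit 4) (nat_lit 389) (nat_lit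 342) (nat_lit 169)) (XT.lf (nat_lit 0) (nat_lit 34288757820) (nat_lit 152) (nat_lit 317647829432) (nat_lit 76) (nat_lit 865683630359) (nat_lit 9) (nat_lit 5) (nat_lit 11) (nat_lit 5) (nat_lit 10) (nat_lit 4) (nat_lit 390) (nat_lit 342) (nat_lit 168))))))) (XT.nd (nat_lit 702) (nat_lit 76) (nat_lit 0) (XT.nd (nat_lit 312) (nat_lit 228) (nat_lit 0) (XT.nd (nat_lit 156) (nat_lit 0) (nat_lit 0) (XT.nd (nat_lit 78) (nat_lit 0) (nat_lit 0) (XT.lf (nat_lit 0) (nat_lit 51915074941) (nat_lit 76) (nat_lit 160048177309) (nat_lit 152) (nat_lit 1086703041533) (nat_lit 8) (nat_lit 5) (nat_lit 9) (nat_lit 5) (nat_lit 10) (nat_lit 4) (nat_lit 391) (nat_lit 342) (nat_lit 167)) (XT.lf (nat_lit 0) (nat_lit 413897251150) (nat_lit 152) (nat_lit 917753956943) (nat_lit 0) (nat_lit 53741204374) (nat_lit 8) (nat_lit 5) (nat_lit 10) (nat_lit 4) (nat_lit 8) (nat_lit 4) (nat_lit 392) (nat_lit 342) (nat_lit 166)))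 (XT.nd (nat_lit 78) (nat_lit 0) (nat_lit 0) (XT.lf (nat_lit 0) (nat_lit 636143021472) (nat_lit 152) (nat_lit 566594095331) (nat_lit 0) (nat_lit 275986939736) (nat_lit 8) (nat_lit 5) (nat_lit 10) (nat_lit 4) (nat_lit 8) (nat_lit 4) (nat_lit 393) (nat_lit 342) (nat_lit 165)) (XT.lf (nat_lit 0) (nat_lit 876168412675) (nat_lit 152) (nat_lit 187341524166) (nat_lit 0) (nat_lit 516012298568) (nat_lit 8) (nat_lit 5) (nat_lit 10) (nat_lit 4) (nat_lit 8) (nat_lit 4) (nat_lit 394) (nat_lit 342) (nat_lit 164)))) (XT.nd (nat_lit 156) (nat_lit 152) (nat_lit 0) (XT.nd (nat_lit 78) (nat_lit 0) (nat_lit 0) (XT.lf (nat_lit 0) (nat_lit 233954532431) (nat_lit 76) (nat_lit 907067877148) (nat_lit 76) (nat_lit 546911733068) (nat_lit 7) (nat_lit 4) (nat_lit 8) (nat_lit 5) (nat_lit 8) (nat_lit 4) (nat_lit 395) (nat_lit 342) (nat_lit 163)) (XT.lf (nat_lit 0) (nat_lit 699608480399) (nat_lit 76) (nat_lit 732578458449)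 (nat_lit 76) (nat_lit 372422286616) (nat_lit 7) (nat_lit 4) (nat_lit 8) (nat_lit 5) (nat_lit 8) (nat_lit 4) (nat_lit 396) (nat_lit 342) (nat_lit 162))) (XT.nd (nat_lit 78) (nat_lit 152) (nat_lit 0) (XT.lf (nat_lit 0) (nat_lit 1202514677877) (nat_lit 76) (nat_lit 544129918643) (nat_lit 76) (nat_lit 183973721113) (nat_lit 7) (nat_lit 4) (nat_lit 8) (nat_lit 5) (nat_lit 8) (nat_lit 4) (nat_lit 397) (nat_lit 342) (nat_lit 161)) (XT.nd (nat_lit 78) (nat_lit 76) (nat_lit 0) (XT.lf (nat_lit 0) (nat_lit 18572690702) (nat_lit 152) (nat_lit 321525024661) (nat_lit 76) (nat_lit 1726572808757) (nat_lit 6) (nat_lit 5) (nat_lit 8) (nat_lit 5) (nat_lit 7) (nat_lit 4) (nat_lit 398) (nat_lit 342) (nat_lit 160)) (XT.lf (nat_lit 0) (nat_lit 118741198645) (nat_lit 76) (nat_lit 111497956162) (nat_lit 152) (nat_lit 1982757013366) (nat_lit 5) (nat_lit 5) (nat_lit 6) (nat_lit 5) (nat_lit 7) (nat_lit 4) (nat_lit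 399) (nat_lit 342) (nat_lit 159)))))) (XT.nd (nat_lit 312) (nat_lit 76) (nat_lit 0) (XT.nd (nat_lit 156) (nat_lit 0) (nat_lit 0) (XT.nd (nat_lit 78) (nat_lit 0) (nat_lit 0) (XT.lf (nat_lit 0) (nat_lit 471114437194) (nat_lit 152) (nat_lit 1761294971270) (nat_lit 0) (nat_lit 137636415200) (nat_lit 5) (nat_lit 5) (nat_lit 7) (nat_lit 4) (nat_lit 5) (nat_lit 4) (nat_lit 400) (nat_lit 342) (nat_lit 158)) (XT.lf (nat_lit 0) (nat_lit 734155765488) (nat_lit 152) (nat_lit 1404594278241) (nat_lit 0) (nat_lit 400677726005) (nat_lit 5) (nat_lit 5) (nat_lit 7) (nat_lit 4) (nat_lit 5) (nat_lit 4) (nat_lit 401) (nat_lit 342) (nat_lit 157))) (XT.nd (nat_lit 78) (nat_lit 0) (nat_lit 0) (XT.lf (nat_lit 0) (nat_lit 1018240374591) (nat_lit 152) (nat_lit 1019357580029) (nat_lit 0) (nat_lit 684762318914) (nat_lit 5) (nat_lit 5) (nat_lit 7) (nat_lit 4) (nat_lit 5) (nat_lit 4) (nat_lit 402) (nat_lit 342) (nat_lit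 156)) (XT.lf (nat_lit 0) (nat_lit 1325051728851) (nat_lit 152) (nat_lit 603301992497) (nat_lit 0) (nat_lit 991573658181) (nat_lit 5) (nat_lit 5) (nat_lit 7) (nat_lit 4) (nat_lit 5) (nat_lit 4) (nat_lit 403) (nat_lit 342) (nat_lit 155)))) (XT.nd (nat_lit 156) (nat_lit 0) (nat_lit 0) (XT.nd (nat_lit 78) (nat_lit 76) (nat_lit 0) (XT.lf (nat_lit 0) (nat_lit 1656407969628) (nat_lit 152) (nat_lit 153962001052) (nat_lit 0) (nat_lit 1322929885075) (nat_lit 5) (nat_lit 5) (nat_lit 7) (nat_lit 4) (nat_lit 5) (nat_lit 4) (nat_lit 404) (nat_lit 342) (nat_lit 154)) (XT.lf (nat_lit 0) (nat_lit 348772145041) (nat_lit 76) (nat_lit 1673888522894) (nat_lit 76) (nat_lit 1340410425486) (nat_lit 4) (nat_lit 4) (nat_lit 5) (nat_lit 5) (nat_lit 5) (nat_lit 4) (nat_lit 405) (nat_lit 342) (nat_lit 153))) (XT.nd (nat_lit 78) (nat_lit 0) (nat_lit 0) (XT.lf (nat_lit 0) (nat_lit 900480939357) (nat_lit 76) (nat_lit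 1521942217058) (nat_lit 76) (nat_lit 1188464107747) (nat_lit 4) (nat_lit 4) (nat_lit 5) (nat_lit 5) (nat_lit 5) (nat_lit 4) (nat_lit 406) (nat_lit 342) (nat_lit 152)) (XT.nd (nat_lit 41886) (nat_lit 0) (nat_lit 3800) (XT.lf (nat_lit 0) (nat_lit 1496326401211) (nat_lit 76) (nat_lit 1357840224570) (nat_lit 76) (nat_lit 1024362104238) (nat_lit 4) (nat_lit 4) (nat_lit 5) (nat_lit 5) (nat_lit 5) (nat_lit 4) (nat_lit 407) (nat_lit 342) (nat_lit 151)) (XT.lf (nat_lit 0) (nat_lit 42993138723) (nat_lit 532) (nat_lit 6381855999) (nat_lit 532) (nat_lit 6381855999) (nat_lit 54) (nat_lit 3) (nat_lit 61) (nat_lit 3) (nat_lit 61) (nat_lit 5) (nat_lit 343) (nat_lit 343) (nat_lit 214))))))))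
noncomputable def xc208 : XT := (XT.nd (nat_lit 1326) (nat_lit 1292) (nat_lit 0) (XT.nd (nat_lit 624) (nat_lit 1216) (nat_lit 0) (XT.nd (nat_lit 312) (nat_lit 304) (nat_lit 0) (XT.nd (nat_lit 156) (nat_lit 0) (nat_lit 76) (XT.nd (nat_lit 78) (nat_lit 0) (nat_lit 76) (XT.lf (nat_lit 76) (nat_lit 42139804911) (nat_lit 0) (nat_lit 48304261682) (nat_lit 532) (nat_lit 25448706959) (nat_lit 55) (nat_lit 5) (nat_lit 54) (nat_lit 3) (nat_lit 61) (nat_lit 5) (nat_lit 344) (nat_lit 343) (nat_lit 213)) (XT.lf (nat_lit 0) (nat_lit 95764596672) (nat_lit 456) (nat_lit 18590713866) (nat_lit 532) (nat_lit 6226372359) (nat_lit 55) (nat_lit 5) (nat_lit 61) (nat_lit 5) (nat_lit 62) (nat_lit 5) (nat_lit 345) (nat_lit 343) (nat_lit 212))) (XT.nd (nat_lit 78) (nat_lit 0) (nat_lit 0) (XT.lf (nat_lit 76) (nat_lit 41821654269) (nat_lit 0) (nat_lit 61949129887) (nat_lit 532) (nat_lit 21694120459) (nat_lit 56) (nat_lit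 5) (nat_lit 55) (nat_lit 5) (nat_lit 62) (nat_lit 5) (nat_lit 346) (nat_lit 343) (nat_lit 211)) (XT.lf (nat_lit 76) (nat_lit 108123990405) (nat_lit 0) (nat_lit 4801352889) (nat_lit 532) (nat_lit 17772811407) (nat_lit 56) (nat_lit 5) (nat_lit 55) (nat_lit 5) (nat_lit 62) (nat_lit 5) (nat_lit 347) (nat_lit 343) (nat_lit 210)))) (XT.nd (nat_lit 156) (nat_lit 456) (nat_lit 0) (XT.nd (nat_lit 78) (nat_lit 0) (nat_lit 0) (XT.lf (nat_lit 76) (nat_lit 44223496345) (nat_lit 0) (nat_lit 81020840337) (nat_lit 532) (nat_lit 10911163257) (nat_lit 57) (nat_lit 5) (nat_lit 56) (nat_lit 5) (nat_lit 63) (nat_lit 5) (nat_lit 348) (nat_lit 343) (nat_lit 209)) (XT.lf (nat_lit 76) (nat_lit 117517207307) (nat_lit 0) (nat_lit 21770043167) (nat_lit 532) (nat_lit 2703110903) (nat_lit 57) (nat_lit 5) (nat_lit 56) (nat_lit 5) (nat_lit 63) (nat_lit 5) (nat_lit 349) (nat_lit 343) (nat_lit 208))) (XT.nd (nat_lit 78)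 (nat_lit 0) (nat_lit 0) (XT.lf (nat_lit 0) (nat_lit 8125097345) (nat_lit 532) (nat_lit 98459640641) (nat_lit 76) (nat_lit 41513680269) (nat_lit 50) (nat_lit 5) (nat_lit 57) (nat_lit 5) (nat_lit 51) (nat_lit 5) (nat_lit 350) (nat_lit 343) (nat_lit 207)) (XT.lf (nat_lit 0) (nat_lit 20925167599) (nat_lit 532) (nat_lit 24223476905) (nat_lit 76) (nat_lit 109440727362) (nat_lit 50) (nat_lit 5) (nat_lit 57) (nat_lit 5) (nat_lit 51) (nat_lit 5) (nat_lit 351) (nat_lit 343) (nat_lit 206))))) (XT.nd (nat_lit 312) (nat_lit 684) (nat_lit 0) (XT.nd (nat_lit 156) (nat_lit 228) (nat_lit 0) (XT.nd (nat_lit 78) (nat_lit 0) (nat_lit 0) (XT.lf (nat_lit 0) (nat_lit 36712133542) (nat_lit 380) (nat_lit 103135433345) (nat_lit 76) (nat_lit 21595004154) (nat_lit 46) (nat_lit 5) (nat_lit 51) (nat_lit 5) (nat_lit 47) (nat_lit 5) (nat_lit 352) (nat_lit 343) (nat_lit 205)) (XT.lf (nat_lit 0) (nat_lit 55613973408) (nat_lit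 380) (nat_lit 21163432773) (nat_lit 76) (nat_lit 91918467083) (nat_lit 46) (nat_lit 5) (nat_lit 51) (nat_lit 5) (nat_lit 47) (nat_lit 5) (nat_lit 353) (nat_lit 343) (nat_lit 204))) (XT.nd (nat_lit 78) (nat_lit 0) (nat_lit 0) (XT.lf (nat_lit 0) (nat_lit 70913418387) (nat_lit 228) (nat_lit 6819741927) (nat_lit 304) (nat_lit 98659863776) (nat_lit 43) (nat_lit 5) (nat_lit 46) (nat_lit 5) (nat_lit 47) (nat_lit 5) (nat_lit 354) (nat_lit 343) (nat_lit 203)) (XT.lf (nat_lit 0) (nat_lit 103868368084) (nat_lit 304) (nat_lit 14768050456) (nat_lit 76) (nat_lit 65889809950) (nat_lit 43) (nat_lit 5) (nat_lit 47) (nat_lit 5) (nat_lit 44) (nat_lit 5) (nat_lit 355) (nat_lit 343) (nat_lit 202)))) (XT.nd (nat_lit 156) (nat_lit 456) (nat_lit 0) (XT.nd (nat_lit 78) (nat_lit 0) (nat_lit 0) (XT.lf (nat_lit 0) (nat_lit 87394861148) (nat_lit 228) (nat_lit 46978278182) (nat_lit 304) (nat_lit 58754650518) (nat_lit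 40) (nat_lit 5) (nat_lit 43) (nat_lit 5) (nat_lit 44) (nat_lit 5) (nat_lit 356) (nat_lit 343) (nat_lit 201)) (XT.lf (nat_lit 0) (nat_lit 168463758819) (nat_lit 304) (nat_lit 4556692369) (nat_lit 76) (nat_lit 29305387933) (nat_lit 40) (nat_lit 5) (nat_lit 44) (nat_lit 5) (nat_lit 41) (nat_lit 5) (nat_lit 357) (nat_lit 343) (nat_lit 200))) (XT.nd (nat_lit 78) (nat_lit 304) (nat_lit 0) (XT.lf (nat_lit 0) (nat_lit 108942928398) (nat_lit 152) (nat_lit 100178783680) (nat_lit 228) (nat_lit 2830813822) (nat_lit 38) (nat_lit 5) (nat_lit 40) (nat_lit 5) (nat_lit 41) (nat_lit 5) (nat_lit 358) (nat_lit 343) (nat_lit 199)) (XT.nd (nat_lit 78) (nat_lit 0) (nat_lit 0) (XT.lf (nat_lit 0) (nat_lit 9159020463) (nat_lit 228) (nat_lit 20336939679) (nat_lit 304) (nat_lit 192766522333) (nat_lit 34) (nat_lit 5) (nat_lit 37) (nat_lit 5) (nat_lit 38) (nat_lit 5) (nat_lit 359) (nat_lit 343) (nat_lit 198)) (XT.lf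 (nat_lit 0) (nat_lit 68730069118) (nat_lit 304) (nat_lit 98744214274) (nat_lit 76) (nat_lit 65559139770) (nat_lit 34) (nat_lit 5) (nat_lit 38) (nat_lit 5) (nat_lit 35) (nat_lit 5) (nat_lit 360) (nat_lit 343) (nat_lit 197))))))) (XT.nd (nat_lit 624) (nat_lit 608) (nat_lit 0) (XT.nd (nat_lit 312) (nat_lit 380) (nat_lit 0) (XT.nd (nat_lit 156) (nat_lit 152) (nat_lit 0) (XT.nd (nat_lit 78) (nat_lit 0) (nat_lit 0) (XT.lf (nat_lit 0) (nat_lit 25511470728) (nat_lit 152) (nat_lit 86733034996) (nat_lit 228) (nat_lit 132330205689) (nat_lit 32) (nat_lit 5) (nat_lit 34) (nat_lit 5) (nat_lit 35) (nat_lit 5) (nat_lit 361) (nat_lit 343) (nat_lit 196)) (XT.lf (nat_lit 0) (nat_lit 162021129641) (nat_lit 228) (nat_lit 91581666880) (nat_lit 76) (nat_lit 3214023820) (nat_lit 32) (nat_lit 5) (nat_lit 35) (nat_lit 5) (nat_lit 33) (nat_lit 5) (nat_lit 362) (nat_lit 343) (nat_lit 195))) (XT.nd (nat_lit 78) (nat_lit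 0) (nat_lit 0) (XT.lf (nat_lit 0) (nat_lit 46154202874) (nat_lit 152) (nat_lit 172988330746) (nat_lit 228) (nat_lit 50626752541) (nat_lit 30) (nat_lit 5) (nat_lit 32) (nat_lit 5) (nat_lit 33) (nat_lit 5) (nat_lit 363) (nat_lit 343) (nat_lit 194)) (XT.lf (nat_lit 0) (nat_lit 200117034926) (nat_lit 152) (nat_lit 83220460970) (nat_lit 228) (nat_lit 220145851) (nat_lit 30) (nat_lit 5) (nat_lit 32) (nat_lit 5) (nat_lit 33) (nat_lit 5) (nat_lit 364) (nat_lit 343) (nat_lit 193)))) (XT.nd (nat_lit 156) (nat_lit 152) (nat_lit 0) (XT.nd (nat_lit 78) (nat_lit 0) (nat_lit 0) (XT.lf (nat_lit 0) (nat_lit 53601634399) (nat_lit 228) (nat_lit 228464688400) (nat_lit 76) (nat_lit 16110833814) (nat_lit 27) (nat_lit 5) (nat_lit 30) (nat_lit 5) (nat_lit 28) (nat_lit 5) (nat_lit 365) (nat_lit 343) (nat_lit 192)) (XT.lf (nat_lit 0) (nat_lit 116219358170) (nat_lit 228) (nat_lit 76147367513) (nat_lit 76) (nat_lit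 121238882106) (nat_lit 27) (nat_lit 5) (nat_lit 30) (nat_lit 5) (nat_lit 28) (nat_lit 5) (nat_lit 366) (nat_lit 343) (nat_lit 191))) (XT.nd (nat_lit 78) (nat_lit 0) (nat_lit 0) (XT.lf (nat_lit 0) (nat_lit 93007748035) (nat_lit 152) (nat_lit 93075454005) (nat_lit 228) (nat_lit 144006196973) (nat_lit 25) (nat_lit 5) (nat_lit 27) (nat_lit 5) (nat_lit 28) (nat_lit 5) (nat_lit 367) (nat_lit 343) (nat_lit 190)) (XT.lf (nat_lit 0) (nat_lit 264012629371) (nat_lit 228) (nat_lit 68094315854) (nat_lit 76) (nat_lit 15586830356) (nat_lit 25) (nat_lit 5) (nat_lit 28) (nat_lit 5) (nat_lit 26) (nat_lit 4) (nat_lit 368) (nat_lit 343) (nat_lit 189))))) (XT.nd (nat_lit 312) (nat_lit 304) (nat_lit 0) (XT.nd (nat_lit 156) (nat_lit 152) (nat_lit 0) (XT.nd (nat_lit 78) (nat_lit 76) (nat_lit 0) (XT.lf (nat_lit 0) (nat_lit 117891678703) (nat_lit 76) (nat_lit 235537450808) (nat_lit 152) (nat_lit 12857155382) (nat_lit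 24) (nat_lit 5) (nat_lit 25) (nat_lit 5) (nat_lit 26) (nat_lit 4) (nat_lit 369) (nat_lit 343) (nat_lit 188)) (XT.lf (nat_lit 0) (nat_lit 62359642680) (nat_lit 152) (nat_lit 65167044483) (nat_lit 76) (nat_lit 258564273855) (nat_lit 23) (nat_lit 5) (nat_lit 25) (nat_lit 5) (nat_lit 24) (nat_lit 5) (nat_lit 370) (nat_lit 343) (nat_lit 187))) (XT.nd (nat_lit 78) (nat_lit 0) (nat_lit 0) (XT.lf (nat_lit 0) (nat_lit 139355718861) (nat_lit 152) (nat_lit 6894840685) (nat_lit 228) (nat_lit 260934623986) (nat_lit 21) (nat_lit 5) (nat_lit 23) (nat_lit 5) (nat_lit 24) (nat_lit 5) (nat_lit 371) (nat_lit 343) (nat_lit 186)) (XT.lf (nat_lit 0) (nat_lit 241648175003) (nat_lit 228) (nat_lit 68891935006) (nat_lit 76) (nat_lit 119043199899) (nat_lit 21) (nat_lit 5) (nat_lit 24) (nat_lit 5) (nat_lit 22) (nat_lit 4) (nat_lit 372) (nat_lit 343) (nat_lit 185)))) (XT.nd (nat_lit 156) (nat_lit 228) (nat_lit 0)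 (XT.nd (nat_lit 78) (nat_lit 0) (nat_lit 0) (XT.lf (nat_lit 0) (nat_lit 153457920175) (nat_lit 76) (nat_lit 195089330247) (nat_lit 152) (nat_lit 104916463990) (nat_lit 20) (nat_lit 5) (nat_lit 21) (nat_lit 5) (nat_lit 22) (nat_lit 4) (nat_lit 373) (nat_lit 343) (nat_lit 184)) (XT.lf (nat_lit 0) (nat_lit 397513536874) (nat_lit 76) (nat_lit 68368243340) (nat_lit 152) (nat_lit 13222088866) (nat_lit 20) (nat_lit 5) (nat_lit 21) (nat_lit 5) (nat_lit 22) (nat_lit 4) (nat_lit 374) (nat_lit 343) (nat_lit 183))) (XT.nd (nat_lit 78) (nat_lit 76) (nat_lit 0) (XT.lf (nat_lit 0) (nat_lit 87170229156) (nat_lit 152) (nat_lit 347871808573) (nat_lit 76) (nat_lit 71135716140) (nat_lit 18) (nat_lit 5) (nat_lit 20) (nat_lit 5) (nat_lit 19) (nat_lit 4) (nat_lit 375) (nat_lit 343) (nat_lit 182)) (XT.nd (nat_lit 78) (nat_lit 76) (nat_lit 0) (XT.lf (nat_lit 0) (nat_lit 198944069800) (nat_lit 152) (nat_lit 115382382983)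 (nat_lit 76) (nat_lit 220738464371) (nat_lit 18) (nat_lit 5) (nat_lit 20) (nat_lit 5) (nat_lit 19) (nat_lit 4) (nat_lit 376) (nat_lit 343) (nat_lit 181)) (XT.lf (nat_lit 0) (nat_lit 142852082607) (nat_lit 76) (nat_lit 180243245110) (nat_lit 152) (nat_lit 242892885034) (nat_lit 17) (nat_lit 5) (nat_lit 18) (nat_lit 5) (nat_lit 19) (nat_lit 4) (nat_lit 377) (nat_lit 343) (nat_lit 180))))))))
noncomputable def xc209 : XT := (XT.nd (nat_lit 1326) (nat_lit 304) (nat_lit 0) (XT.nd (nat_lit 624) (nat_lit 304) (nat_lit 0) (XT.nd (nat_lit 312) (nat_lit 152) (nat_lit 0) (XT.nd (nat_lit 156) (nat_lit 152) (nat_lit 0) (XT.nd (nat_lit 78) (nat_lit 76) (nat_lit 0) (XT.lf (nat_lit 0) (nat_lit 428307053921) (nat_lit 76) (nat_lit 32026307938) (nat_lit 152) (nat_lit 138799636137) (nat_lit 17) (nat_lit 5) (nat_lit 18) (nat_lit 5) (nat_lit 19) (nat_lit 4) (nat_lit 378) (nat_lit 343) (nat_lit 179)) (XT.lf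 (nat_lit 0) (nat_lit 103780897060) (nat_lit 76) (nat_lit 510344953291) (nat_lit 76) (nat_lit 20357482825) (nat_lit 16) (nat_lit 4) (nat_lit 17) (nat_lit 5) (nat_lit 17) (nat_lit 4) (nat_lit 379) (nat_lit 343) (nat_lit 178))) (XT.nd (nat_lit 78) (nat_lit 76) (nat_lit 0) (XT.lf (nat_lit 0) (nat_lit 107803228340) (nat_lit 152) (nat_lit 265756866416) (nat_lit 76) (nat_lit 298444752760) (nat_lit 15) (nat_lit 5) (nat_lit 17) (nat_lit 5) (nat_lit 16) (nat_lit 4) (nat_lit 380) (nat_lit 343) (nat_lit 177)) (XT.lf (nat_lit 0) (nat_lit 20901002513) (nat_lit 76) (nat_lit 224718558334) (nat_lit 152) (nat_lit 466826013145) (nat_lit 14) (nat_lit 5) (nat_lit 15) (nat_lit 5) (nat_lit 16) (nat_lit 4) (nat_lit 381) (nat_lit 343) (nat_lit 176)))) (XT.nd (nat_lit 156) (nat_lit 152) (nat_lit 0) (XT.nd (nat_lit 78) (nat_lit 0) (nat_lit 0) (XT.lf (nat_lit 0) (nat_lit 345605199454) (nat_lit 76) (nat_lit 56122194096)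 (nat_lit 152) (nat_lit 353812869582) (nat_lit 14) (nat_lit 5) (nat_lit 15) (nat_lit 5) (nat_lit 16) (nat_lit 4) (nat_lit 382) (nat_lit 343) (nat_lit 175)) (XT.lf (nat_lit 0) (nat_lit 573353172857) (nat_lit 152) (nat_lit 108826305717) (nat_lit 0) (nat_lit 119660703258) (nat_lit 14) (nat_lit 5) (nat_lit 16) (nat_lit 4) (nat_lit 14) (nat_lit 4) (nat_lit 383) (nat_lit 343) (nat_lit 174))) (XT.nd (nat_lit 78) (nat_lit 76) (nat_lit 0) (XT.lf (nat_lit 0) (nat_lit 226230273011) (nat_lit 76) (nat_lit 539377243001) (nat_lit 76) (nat_lit 85684697925) (nat_lit 13) (nat_lit 4) (nat_lit 14) (nat_lit 5) (nat_lit 14) (nat_lit 4) (nat_lit 384) (nat_lit 343) (nat_lit 173)) (XT.lf (nat_lit 0) (nat_lit 68165788497) (nat_lit 152) (nat_lit 311907774887) (nat_lit 76) (nat_lit 524250752394) (nat_lit 12) (nat_lit 5) (nat_lit 14) (nat_lit 5) (nat_lit 13) (nat_lit 4) (nat_lit 385) (nat_lit 343) (nat_lit 172)))))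 (XT.nd (nat_lit 312) (nat_lit 152) (nat_lit 0) (XT.nd (nat_lit 156) (nat_lit 76) (nat_lit 0) (XT.nd (nat_lit 78) (nat_lit 0) (nat_lit 0) (XT.lf (nat_lit 0) (nat_lit 25340684729) (nat_lit 76) (nat_lit 204963817386) (nat_lit 152) (nat_lit 731067686543) (nat_lit 11) (nat_lit 5) (nat_lit 12) (nat_lit 5) (nat_lit 13) (nat_lit 4) (nat_lit 386) (nat_lit 343) (nat_lit 171)) (XT.lf (nat_lit 0) (nat_lit 407307388534) (nat_lit 76) (nat_lit 6634980754) (nat_lit 152) (nat_lit 608359277584) (nat_lit 11) (nat_lit 5) (nat_lit 12) (nat_lit 5) (nat_lit 13) (nat_lit 4) (nat_lit 387) (nat_lit 343) (nat_lit 170))) (XT.nd (nat_lit 78) (nat_lit 76) (nat_lit 0) (XT.lf (nat_lit 0) (nat_lit 617263040862) (nat_lit 152) (nat_lit 273265959393) (nat_lit 0) (nat_lit 197177119505) (nat_lit 11) (nat_lit 5) (nat_lit 13) (nat_lit 4) (nat_lit 11) (nat_lit 4) (nat_lit 388) (nat_lit 343) (nat_lit 169)) (XT.lf (nat_lit 0) (nat_lit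 100663784470) (nat_lit 76) (nat_lit 738778837251) (nat_lit 76) (nat_lit 318692868331) (nat_lit 10) (nat_lit 4) (nat_lit 11) (nat_lit 5) (nat_lit 11) (nat_lit 4) (nat_lit 389) (nat_lit 343) (nat_lit 168)))) (XT.nd (nat_lit 156) (nat_lit 76) (nat_lit 0) (XT.nd (nat_lit 78) (nat_lit 76) (nat_lit 0) (XT.lf (nat_lit 0) (nat_lit 520048695395) (nat_lit 76) (nat_lit 566819402616) (nat_lit 76) (nat_lit 146733389656) (nat_lit 10) (nat_lit 4) (nat_lit 11) (nat_lit 5) (nat_lit 11) (nat_lit 4) (nat_lit 390) (nat_lit 343) (nat_lit 167)) (XT.lf (nat_lit 0) (nat_lit 37032723089) (nat_lit 152) (nat_lit 343057989710) (nat_lit 76) (nat_lit 934939052777) (nat_lit 9) (nat_lit 5) (nat_lit 11) (nat_lit 5) (nat_lit 10) (nat_lit 4) (nat_lit 391) (nat_lit 343) (nat_lit 166))) (XT.nd (nat_lit 78) (nat_lit 0) (nat_lit 0) (XT.lf (nat_lit 0) (nat_lit 56069904834) (nat_lit 76) (nat_lit 172851247247) (nat_lit 152) (nat_lit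 1173638377781) (nat_lit 8) (nat_lit 5) (nat_lit 9) (nat_lit 5) (nat_lit 10) (nat_lit 4) (nat_lit 392) (nat_lit 343) (nat_lit 165)) (XT.nd (nat_lit 78) (nat_lit 0) (nat_lit 0) (XT.lf (nat_lit 0) (nat_lit 447009826161) (nat_lit 152) (nat_lit 991172724924) (nat_lit 0) (nat_lit 58041190554) (nat_lit 8) (nat_lit 5) (nat_lit 10) (nat_lit 4) (nat_lit 8) (nat_lit 4) (nat_lit 393) (nat_lit 343) (nat_lit 164)) (XT.lf (nat_lit 0) (nat_lit 687035199226) (nat_lit 152) (nat_lit 611920189092) (nat_lit 0) (nat_lit 298066533646) (nat_lit 8) (nat_lit 5) (nat_lit 10) (nat_lit 4) (nat_lit 8) (nat_lit 4) (nat_lit 394) (nat_lit 343) (nat_lit 163))))))) (XT.nd (nat_lit 624) (nat_lit 76) (nat_lit 0) (XT.nd (nat_lit 312) (nat_lit 152) (nat_lit 0) (XT.nd (nat_lit 156) (nat_lit 0) (nat_lit 0) (XT.nd (nat_lit 78) (nat_lit 76) (nat_lit 0) (XT.lf (nat_lit 0) (nat_lit 946262567204) (nat_lit 152) (nat_lit 202327518446)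 (nat_lit 0) (nat_lit 557293873871) (nat_lit 8) (nat_lit 5) (nat_lit 10) (nat_lit 4) (nat_lit 8) (nat_lit 4) (nat_lit 395) (nat_lit 343) (nat_lit 162)) (XT.lf (nat_lit 0) (nat_lit 252672189067) (nat_lit 76) (nat_lit 979632675432) (nat_lit 76) (nat_lit 590663956402) (nat_lit 7) (nat_lit 4) (nat_lit 8) (nat_lit 5) (nat_lit 8) (nat_lit 4) (nat_lit 396) (nat_lit 343) (nat_lit 161))) (XT.nd (nat_lit 78) (nat_lit 0) (nat_lit 0) (XT.lf (nat_lit 0) (nat_lit 755578357018) (nat_lit 76) (nat_lit 791184150043) (nat_lit 76) (nat_lit 402215407221) (nat_lit 7) (nat_lit 4) (nat_lit 8) (nat_lit 5) (nat_lit 8) (nat_lit 4) (nat_lit 397) (nat_lit 343) (nat_lit 160)) (XT.lf (nat_lit 0) (nat_lit 1298716961539) (nat_lit 76) (nat_lit 587659770392) (nat_lit 76) (nat_lit 198691005538) (nat_lit 7) (nat_lit 4) (nat_lit 8) (nat_lit 5) (nat_lit 8) (nat_lit 4) (nat_lit 398) (nat_lit 343) (nat_lit 159)))) (XT.nd (nat_lit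 156) (nat_lit 0) (nat_lit 0) (XT.nd (nat_lit 78) (nat_lit 76) (nat_lit 0) (XT.lf (nat_lit 0) (nat_lit 20059045390) (nat_lit 152) (nat_lit 347245970840) (nat_lit 76) (nat_lit 1864699106529) (nat_lit 6) (nat_lit 5) (nat_lit 8) (nat_lit 5) (nat_lit 7) (nat_lit 4) (nat_lit 399) (nat_lit 343) (nat_lit 158)) (XT.lf (nat_lit 0) (nat_lit 128241523601) (nat_lit 76) (nat_lit 120417287812) (nat_lit 152) (nat_lit 2141377008149) (nat_lit 5) (nat_lit 5) (nat_lit 6) (nat_lit 5) (nat_lit 7) (nat_lit 4) (nat_lit 400) (nat_lit 343) (nat_lit 157))) (XT.nd (nat_lit 78) (nat_lit 0) (nat_lit 0) (XT.lf (nat_lit 0) (nat_lit 508804088803) (nat_lit 152) (nat_lit 1902197588428) (nat_lit 0) (nat_lit 148647772479) (nat_lit 5) (nat_lit 5) (nat_lit 7) (nat_lit 4) (nat_lit 5) (nat_lit 4) (nat_lit 401) (nat_lit 343) (nat_lit 156)) (XT.lf (nat_lit 0) (nat_lit 792888686573) (nat_lit 152) (nat_lit 1516960912590) (nat_lit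 0) (nat_lit 432732355255) (nat_lit 5) (nat_lit 5) (nat_lit 7) (nat_lit 4) (nat_lit 5) (nat_lit 4) (nat_lit 402) (nat_lit 343) (nat_lit 155))))) (XT.nd (nat_lit 312) (nat_lit 0) (nat_lit 0) (XT.nd (nat_lit 156) (nat_lit 76) (nat_lit 0) (XT.nd (nat_lit 78) (nat_lit 0) (nat_lit 0) (XT.lf (nat_lit 0) (nat_lit 1099700030341) (nat_lit 152) (nat_lit 1100905345773) (nat_lit 0) (nat_lit 739543685140) (nat_lit 5) (nat_lit 5) (nat_lit 7) (nat_lit 4) (nat_lit 5) (nat_lit 4) (nat_lit 403) (nat_lit 343) (nat_lit 154)) (XT.lf (nat_lit 0) (nat_lit 1431056261403) (nat_lit 152) (nat_lit 651565373510) (nat_lit 0) (nat_lit 1070899903347) (nat_lit 5) (nat_lit 5) (nat_lit 7) (nat_lit 4) (nat_lit 5) (nat_lit 4) (nat_lit 404) (nat_lit 343) (nat_lit 153))) (XT.nd (nat_lit 78) (nat_lit 76) (nat_lit 0) (XT.lf (nat_lit 0) (nat_lit 1788920972239) (nat_lit 152) (nat_lit 166278240407) (nat_lit 0) (nat_lit 1428764602280)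 (nat_lit 5) (nat_lit 5) (nat_lit 7) (nat_lit 4) (nat_lit 5) (nat_lit 4) (nat_lit 405) (nat_lit 343) (nat_lit 152)) (XT.lf (nat_lit 0) (nat_lit 376674619127) (nat_lit 76) (nat_lit 1807799257138) (nat_lit 76) (nat_lit 1447642876159) (nat_lit 4) (nat_lit 4) (nat_lit 5) (nat_lit 5) (nat_lit 5) (nat_lit 4) (nat_lit 406) (nat_lit 343) (nat_lit 151)))) (XT.nd (nat_lit 42042) (nat_lit 0) (nat_lit 3800) (XT.nd (nat_lit 41964) (nat_lit 0) (nat_lit 3800) (XT.lf (nat_lit 0) (nat_lit 972520064953) (nat_lit 76) (nat_lit 1643697272582) (nat_lit 76) (nat_lit 1283540881398) (nat_lit 4) (nat_lit 4) (nat_lit 5) (nat_lit 5) (nat_lit 5) (nat_lit 4) (nat_lit 407) (nat_lit 343) (nat_lit 150)) (XT.lf (nat_lit 0) (nat_lit 46437347311) (nat_lit 532) (nat_lit 6889831089) (nat_lit 532) (nat_lit 6889831089) (nat_lit 54) (nat_lit 3) (nat_lit 61) (nat_lit 3) (nat_lit 61) (nat_lit 5) (nat_lit 344) (nat_lit 344) (nat_lit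 212))) (XT.nd (nat_lit 78) (nat_lit 0) (nat_lit 76) (XT.lf (nat_lit 76) (nat_lit 45516005786) (nat_lit 0) (nat_lit 52172516949) (nat_lit 532) (nat_lit 27474942143) (nat_lit 55) (nat_lit 5) (nat_lit 54) (nat_lit 3) (nat_lit 61) (nat_lit 5) (nat_lit 345) (nat_lit 344) (nat_lit 211)) (XT.nd (nat_lit 78) (nat_lit 0) (nat_lit 0) (XT.lf (nat_lit 0) (nat_lit 103433946512) (nat_lit 456) (nat_lit 20072562475) (nat_lit 532) (nat_lit 6721039073) (nat_lit 55) (nat_lit 5) (nat_lit 61) (nat_lit 5) (nat_lit 62) (nat_lit 5) (nat_lit 346) (nat_lit 344) (nat_lit 210)) (XT.lf (nat_lit 76) (nat_lit 45172658186) (nat_lit 0) (nat_lit 66907491507) (nat_lit 532) (nat_lit 23421317268) (nat_lit 56) (nat_lit 5) (nat_lit 55) (nat_lit 5) (nat_lit 62) (nat_lit 5) (nat_lit 347) (nat_lit 344) (nat_lit 209))))))))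
noncomputable def xc210 : XT := (XT.nd (nat_lit 1326) (nat_lit 1140) (nat_lit 0) (XT.nd (nat_lit 624) (nat_lit 988) (nat_lit 0) (XT.nd (nat_lit 312) (nat_lit 532) (nat_lit 0) (XT.nd (nat_lit 156) (nat_lit 380) (nat_lit 0) (XT.nd (nat_lit 78) (nat_lit 0) (nat_lit 76) (XT.lf (nat_lit 76) (nat_lit 116778790726) (nat_lit 0) (nat_lit 5187712258) (nat_lit 532) (nat_lit 19186920738) (nat_lit 56) (nat_lit 5) (nat_lit 55) (nat_lit 5) (nat_lit 62) (nat_lit 5) (nat_lit 348) (nat_lit 344) (nat_lit 208)) (XT.lf (nat_lit 76) (nat_lit 47766754924) (nat_lit 0) (nat_lit 87503811839) (nat_lit 532) (nat_lit 11776826691) (nat_lit 57) (nat_lit 5) (nat_lit 56) (nat_lit 5) (nat_lit 63) (nat_lit 5) (nat_lit 349) (nat_lit 344) (nat_lit 207))) (XT.nd (nat_lit 78) (nat_lit 456) (nat_lit 0) (XT.lf (nat_lit 76) (nat_lit 126923564329) (nat_lit 0) (nat_lit 23512854282) (nat_lit 532) (nat_lit 2912665676) (nat_lit 57)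 (nat_lit 5) (nat_lit 56) (nat_lit 5) (nat_lit 63) (nat_lit 5) (nat_lit 350) (nat_lit 344) (nat_lit 206)) (XT.lf (nat_lit 0) (nat_lit 8781098368) (nat_lit 532) (nat_lit 106330711059) (nat_lit 76) (nat_lit 44833993439) (nat_lit 50) (nat_lit 5) (nat_lit 57) (nat_lit 5) (nat_lit 51) (nat_lit 5) (nat_lit 351) (nat_lit 344) (nat_lit 205)))) (XT.nd (nat_lit 156) (nat_lit 228) (nat_lit 0) (XT.nd (nat_lit 78) (nat_lit 304) (nat_lit 0) (XT.lf (nat_lit 0) (nat_lit 22604730299) (nat_lit 532) (nat_lit 26156076508) (nat_lit 76) (nat_lit 118195262170) (nat_lit 50) (nat_lit 5) (nat_lit 57) (nat_lit 5) (nat_lit 51) (nat_lit 5) (nat_lit 352) (nat_lit 344) (nat_lit 204)) (XT.lf (nat_lit 0) (nat_lit 39654363378) (nat_lit 380) (nat_lit 111380691275) (nat_lit 76) (nat_lit 23322493289) (nat_lit 46) (nat_lit 5) (nat_lit 51) (nat_lit 5) (nat_lit 47) (nat_lit 5) (nat_lit 353) (nat_lit 344) (nat_lit 203))) (XT.nd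 (nat_lit 78) (nat_lit 228) (nat_lit 0) (XT.lf (nat_lit 0) (nat_lit 60067960867) (nat_lit 380) (nat_lit 22851343749) (nat_lit 76) (nat_lit 99271841488) (nat_lit 46) (nat_lit 5) (nat_lit 51) (nat_lit 5) (nat_lit 47) (nat_lit 5) (nat_lit 354) (nat_lit 344) (nat_lit 202)) (XT.lf (nat_lit 0) (nat_lit 76591524779) (nat_lit 228) (nat_lit 7364918278) (nat_lit 304) (nat_lit 106547645664) (nat_lit 43) (nat_lit 5) (nat_lit 46) (nat_lit 5) (nat_lit 47) (nat_lit 5) (nat_lit 355) (nat_lit 344) (nat_lit 201))))) (XT.nd (nat_lit 312) (nat_lit 608) (nat_lit 0) (XT.nd (nat_lit 156) (nat_lit 152) (nat_lit 0) (XT.nd (nat_lit 78) (nat_lit 228) (nat_lit 0) (XT.lf (nat_lit 0) (nat_lit 112182133467) (nat_lit 304) (nat_lit 15944494007) (nat_lit 76) (nat_lit 71161349230) (nat_lit 43) (nat_lit 5) (nat_lit 47) (nat_lit 5) (nat_lit 44) (nat_lit 5) (nat_lit 356) (nat_lit 344) (nat_lit 200)) (XT.lf (nat_lit 0) (nat_lit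 94391323931) (nat_lit 228) (nat_lit 50735761481) (nat_lit 304) (nat_lit 63450594112) (nat_lit 40) (nat_lit 5) (nat_lit 43) (nat_lit 5) (nat_lit 44) (nat_lit 5) (nat_lit 357) (nat_lit 344) (nat_lit 199))) (XT.nd (nat_lit 78) (nat_lit 152) (nat_lit 0) (XT.lf (nat_lit 0) (nat_lit 181944668477) (nat_lit 304) (nat_lit 4916423434) (nat_lit 76) (nat_lit 31650504143) (nat_lit 40) (nat_lit 5) (nat_lit 44) (nat_lit 5) (nat_lit 41) (nat_lit 5) (nat_lit 358) (nat_lit 344) (nat_lit 198)) (XT.lf (nat_lit 0) (nat_lit 117663045365) (nat_lit 152) (nat_lit 108192043106) (nat_lit 228) (nat_lit 3053343273) (nat_lit 38) (nat_lit 5) (nat_lit 40) (nat_lit 5) (nat_lit 41) (nat_lit 5) (nat_lit 359) (nat_lit 344) (nat_lit 197)))) (XT.nd (nat_lit 156) (nat_lit 304) (nat_lit 0) (XT.nd (nat_lit 78) (nat_lit 0) (nat_lit 0) (XT.lf (nat_lit 0) (nat_lit 9896502718) (nat_lit 228) (nat_lit 21962710559) (nat_lit 304) (nat_lit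 208183977340) (nat_lit 34) (nat_lit 5) (nat_lit 37) (nat_lit 5) (nat_lit 38) (nat_lit 5) (nat_lit 360) (nat_lit 344) (nat_lit 196)) (XT.lf (nat_lit 0) (nat_lit 74231812431) (nat_lit 304) (nat_lit 106639100869) (nat_lit 76) (nat_lit 70804912665) (nat_lit 34) (nat_lit 5) (nat_lit 38) (nat_lit 5) (nat_lit 35) (nat_lit 5) (nat_lit 361) (nat_lit 344) (nat_lit 195))) (XT.nd (nat_lit 78) (nat_lit 152) (nat_lit 0) (XT.lf (nat_lit 0) (nat_lit 27556921198) (nat_lit 152) (nat_lit 93670344538) (nat_lit 228) (nat_lit 142913162896) (nat_lit 32) (nat_lit 5) (nat_lit 34) (nat_lit 5) (nat_lit 35) (nat_lit 5) (nat_lit 362) (nat_lit 344) (nat_lit 194)) (XT.nd (nat_lit 78) (nat_lit 152) (nat_lit 0) (XT.lf (nat_lit 0) (nat_lit 174985812252) (nat_lit 228) (nat_lit 98903792415) (nat_lit 76) (nat_lit 3472318469) (nat_lit 32) (nat_lit 5) (nat_lit 35) (nat_lit 5) (nat_lit 33) (nat_lit 5) (nat_lit 363) (nat_lit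 344) (nat_lit 193)) (XT.lf (nat_lit 0) (nat_lit 49850835329) (nat_lit 152) (nat_lit 186825974898) (nat_lit 228) (nat_lit 54673785717) (nat_lit 30) (nat_lit 5) (nat_lit 32) (nat_lit 5) (nat_lit 33) (nat_lit 5) (nat_lit 364) (nat_lit 344) (nat_lit 192))))))) (XT.nd (nat_lit 624) (nat_lit 456) (nat_lit 0) (XT.nd (nat_lit 312) (nat_lit 304) (nat_lit 0) (XT.nd (nat_lit 156) (nat_lit 152) (nat_lit 0) (XT.nd (nat_lit 78) (nat_lit 228) (nat_lit 0) (XT.lf (nat_lit 0) (nat_lit 216130375706) (nat_lit 152) (nat_lit 89876780896) (nat_lit 228) (nat_lit 234880642) (nat_lit 30) (nat_lit 5) (nat_lit 32) (nat_lit 5) (nat_lit 33) (nat_lit 5) (nat_lit 365) (nat_lit 344) (nat_lit 191)) (XT.lf (nat_lit 0) (nat_lit 57892425862) (nat_lit 228) (nat_lit 246737664041) (nat_lit 76) (nat_lit 17401023845) (nat_lit 27) (nat_lit 5) (nat_lit 30) (nat_lit 5) (nat_lit 28) (nat_lit 5) (nat_lit 366) (nat_lit 344) (nat_lit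 190))) (XT.nd (nat_lit 78) (nat_lit 152) (nat_lit 0) (XT.lf (nat_lit 0) (nat_lit 125519370445) (nat_lit 228) (nat_lit 82235268552) (nat_lit 76) (nat_lit 130939217976) (nat_lit 27) (nat_lit 5) (nat_lit 30) (nat_lit 5) (nat_lit 28) (nat_lit 5) (nat_lit 367) (nat_lit 344) (nat_lit 189)) (XT.lf (nat_lit 0) (nat_lit 100452157801) (nat_lit 152) (nat_lit 100520072681) (nat_lit 228) (nat_lit 155524128495) (nat_lit 25) (nat_lit 5) (nat_lit 27) (nat_lit 5) (nat_lit 28) (nat_lit 5) (nat_lit 368) (nat_lit 344) (nat_lit 188)))) (XT.nd (nat_lit 156) (nat_lit 228) (nat_lit 0) (XT.nd (nat_lit 78) (nat_lit 76) (nat_lit 0) (XT.lf (nat_lit 0) (nat_lit 285135867843) (nat_lit 228) (nat_lit 73538205764) (nat_lit 76) (nat_lit 16835023755) (nat_lit 25) (nat_lit 5) (nat_lit 28) (nat_lit 5) (nat_lit 26) (nat_lit 4) (nat_lit 369) (nat_lit 344) (nat_lit 187)) (XT.lf (nat_lit 0) (nat_lit 127326575817) (nat_lit 76)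 (nat_lit 254379032818) (nat_lit 152) (nat_lit 13883405283) (nat_lit 24) (nat_lit 5) (nat_lit 25) (nat_lit 5) (nat_lit 26) (nat_lit 4) (nat_lit 370) (nat_lit 344) (nat_lit 186))) (XT.nd (nat_lit 78) (nat_lit 152) (nat_lit 0) (XT.lf (nat_lit 0) (nat_lit 67350457008) (nat_lit 152) (nat_lit 70376999962) (nat_lit 76) (nat_lit 279250615897) (nat_lit 23) (nat_lit 5) (nat_lit 25) (nat_lit 5) (nat_lit 24) (nat_lit 5) (nat_lit 371) (nat_lit 344) (nat_lit 185)) (XT.lf (nat_lit 0) (nat_lit 150507498169) (nat_lit 152) (nat_lit 7445077615) (nat_lit 228) (nat_lit 281807263230) (nat_lit 21) (nat_lit 5) (nat_lit 23) (nat_lit 5) (nat_lit 24) (nat_lit 5) (nat_lit 372) (nat_lit 344) (nat_lit 184))))) (XT.nd (nat_lit 312) (nat_lit 228) (nat_lit 0) (XT.nd (nat_lit 156) (nat_lit 152) (nat_lit 0) (XT.nd (nat_lit 78) (nat_lit 76) (nat_lit 0) (XT.lf (nat_lit 0) (nat_lit 260981884513) (nat_lit 228) (nat_lit 74400096729)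 (nat_lit 76) (nat_lit 128567843645) (nat_lit 21) (nat_lit 5) (nat_lit 24) (nat_lit 5) (nat_lit 22) (nat_lit 4) (nat_lit 373) (nat_lit 344) (nat_lit 183)) (XT.lf (nat_lit 0) (nat_lit 165737666029) (nat_lit 76) (nat_lit 210695157341) (nat_lit 152) (nat_lit 113307843492) (nat_lit 20) (nat_lit 5) (nat_lit 21) (nat_lit 5) (nat_lit 22) (nat_lit 4) (nat_lit 374) (nat_lit 344) (nat_lit 182))) (XT.nd (nat_lit 78) (nat_lit 152) (nat_lit 0) (XT.lf (nat_lit 0) (nat_lit 429317501528) (nat_lit 76) (nat_lit 73836481210) (nat_lit 152) (nat_lit 14278061885) (nat_lit 20) (nat_lit 5) (nat_lit 21) (nat_lit 5) (nat_lit 22) (nat_lit 4) (nat_lit 375) (nat_lit 344) (nat_lit 181)) (XT.lf (nat_lit 0) (nat_lit 94145525314) (nat_lit 152) (nat_lit 375698553194) (nat_lit 76) (nat_lit 76827760436) (nat_lit 18) (nat_lit 5) (nat_lit 20) (nat_lit 5) (nat_lit 19) (nat_lit 4) (nat_lit 376) (nat_lit 344) (nat_lit 180))))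 (XT.nd (nat_lit 156) (nat_lit 152) (nat_lit 0) (XT.nd (nat_lit 78) (nat_lit 76) (nat_lit 0) (XT.lf (nat_lit 0) (nat_lit 214861148926) (nat_lit 152) (nat_lit 124610195784) (nat_lit 76) (nat_lit 238398640600) (nat_lit 18) (nat_lit 5) (nat_lit 20) (nat_lit 5) (nat_lit 19) (nat_lit 4) (nat_lit 377) (nat_lit 344) (nat_lit 179)) (XT.lf (nat_lit 0) (nat_lit 154282956728) (nat_lit 76) (nat_lit 194661500787) (nat_lit 152) (nat_lit 262322691105) (nat_lit 17) (nat_lit 5) (nat_lit 18) (nat_lit 5) (nat_lit 19) (nat_lit 4) (nat_lit 378) (nat_lit 344) (nat_lit 178))) (XT.nd (nat_lit 78) (nat_lit 152) (nat_lit 0) (XT.lf (nat_lit 0) (nat_lit 462574125191) (nat_lit 76) (nat_lit 34587297822) (nat_lit 152) (nat_lit 149902102647) (nat_lit 17) (nat_lit 5) (nat_lit 18) (nat_lit 5) (nat_lit 19) (nat_lit 4) (nat_lit 379) (nat_lit 344) (nat_lit 177)) (XT.nd (nat_lit 78) (nat_lit 76) (nat_lit 0) (XT.lf (nat_lit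 0) (nat_lit 112085895520) (nat_lit 76) (nat_lit 551171397529) (nat_lit 76) (nat_lit 21984596068) (nat_lit 16) (nat_lit 4) (nat_lit 17) (nat_lit 5) (nat_lit 17) (nat_lit 4) (nat_lit 380) (nat_lit 344) (nat_lit 176)) (XT.lf (nat_lit 0) (nat_lit 116428793162) (nat_lit 152) (nat_lit 287015006762) (nat_lit 76) (nat_lit 322321330235) (nat_lit 15) (nat_lit 5) (nat_lit 17) (nat_lit 5) (nat_lit 16) (nat_lit 4) (nat_lit 381) (nat_lit 344) (nat_lit 175))))))))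
noncomputable def xc211 : XT := (XT.nd (nat_lit 1326) (nat_lit 228) (nat_lit 0) (XT.nd (nat_lit 624) (nat_lit 304) (nat_lit 0) (XT.nd (nat_lit 312) (nat_lit 152) (nat_lit 0) (XT.nd (nat_lit 156) (nat_lit 76) (nat_lit 0) (XT.nd (nat_lit 78) (nat_lit 0) (nat_lit 0) (XT.lf (nat_lit 0) (nat_lit 22575430696) (nat_lit 76) (nat_lit 242694961261) (nat_lit 152) (nat_lit 504170726067) (nat_lit 14) (nat_lit 5) (nat_lit 15) (nat_lit 5) (nat_lit 16) (nat_lit 4) (nat_lit 382) (nat_lit 344) (nat_lit 174)) (XT.lf (nat_lit 0) (nat_lit 373255789467) (nat_lit 76) (nat_lit 60610968012) (nat_lit 152) (nat_lit 382116632362) (nat_lit 14) (nat_lit 5) (nat_lit 15) (nat_lit 5) (nat_lit 16) (nat_lit 4) (nat_lit 383) (nat_lit 344) (nat_lit 173))) (XT.nd (nat_lit 78) (nat_lit 76) (nat_lit 0) (XT.lf (nat_lit 0) (nat_lit 619222534588) (nat_lit 152) (nat_lit 117530332111) (nat_lit 0) (nat_lit 129234440543) (nat_lit 14)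 (nat_lit 5) (nat_lit 16) (nat_lit 4) (nat_lit 14) (nat_lit 4) (nat_lit 384) (nat_lit 344) (nat_lit 172)) (XT.lf (nat_lit 0) (nat_lit 244330720306) (nat_lit 76) (nat_lit 582526471535) (nat_lit 76) (nat_lit 92538312781) (nat_lit 13) (nat_lit 4) (nat_lit 14) (nat_lit 5) (nat_lit 14) (nat_lit 4) (nat_lit 385) (nat_lit 344) (nat_lit 171)))) (XT.nd (nat_lit 156) (nat_lit 0) (nat_lit 0) (XT.nd (nat_lit 78) (nat_lit 76) (nat_lit 0) (XT.lf (nat_lit 0) (nat_lit 73620072782) (nat_lit 152) (nat_lit 336858467283) (nat_lit 76) (nat_lit 566191638879) (nat_lit 12) (nat_lit 5) (nat_lit 14) (nat_lit 5) (nat_lit 13) (nat_lit 4) (nat_lit 386) (nat_lit 344) (nat_lit 170)) (XT.lf (nat_lit 0) (nat_lit 27369820252) (nat_lit 76) (nat_lit 221360032824) (nat_lit 152) (nat_lit 789552031041) (nat_lit 11) (nat_lit 5) (nat_lit 12) (nat_lit 5) (nat_lit 13) (nat_lit 4) (nat_lit 387) (nat_lit 344) (nat_lit 169))) (XT.nd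 (nat_lit 78) (nat_lit 0) (nat_lit 0) (XT.lf (nat_lit 0) (nat_lit 439893721047) (nat_lit 76) (nat_lit 7164955185) (nat_lit 152) (nat_lit 657027028655) (nat_lit 11) (nat_lit 5) (nat_lit 12) (nat_lit 5) (nat_lit 13) (nat_lit 4) (nat_lit 388) (nat_lit 344) (nat_lit 168)) (XT.lf (nat_lit 0) (nat_lit 666644951925) (nat_lit 152) (nat_lit 295125573786) (nat_lit 0) (nat_lit 212952013889) (nat_lit 11) (nat_lit 5) (nat_lit 13) (nat_lit 4) (nat_lit 11) (nat_lit 4) (nat_lit 389) (nat_lit 344) (nat_lit 167))))) (XT.nd (nat_lit 312) (nat_lit 76) (nat_lit 0) (XT.nd (nat_lit 156) (nat_lit 152) (nat_lit 0) (XT.nd (nat_lit 78) (nat_lit 0) (nat_lit 0) (XT.lf (nat_lit 0) (nat_lit 108718507502) (nat_lit 76) (nat_lit 797880366438) (nat_lit 76) (nat_lit 344187387624) (nat_lit 10) (nat_lit 4) (nat_lit 11) (nat_lit 5) (nat_lit 11) (nat_lit 4) (nat_lit 390) (nat_lit 344) (nat_lit 166)) (XT.lf (nat_lit 0) (nat_lit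 561654091280) (nat_lit 76) (nat_lit 612164234647) (nat_lit 76) (nat_lit 158471218075) (nat_lit 10) (nat_lit 4) (nat_lit 11) (nat_lit 5) (nat_lit 11) (nat_lit 4) (nat_lit 391) (nat_lit 344) (nat_lit 165))) (XT.nd (nat_lit 78) (nat_lit 76) (nat_lit 0) (XT.lf (nat_lit 0) (nat_lit 39996082229) (nat_lit 152) (nat_lit 370501200495) (nat_lit 76) (nat_lit 1009734804563) (nat_lit 9) (nat_lit 5) (nat_lit 11) (nat_lit 5) (nat_lit 10) (nat_lit 4) (nat_lit 392) (nat_lit 344) (nat_lit 164)) (XT.lf (nat_lit 0) (nat_lit 60556889451) (nat_lit 76) (nat_lit 186678674661) (nat_lit 152) (nat_lit 1267528670333) (nat_lit 8) (nat_lit 5) (nat_lit 9) (nat_lit 5) (nat_lit 10) (nat_lit 4) (nat_lit 393) (nat_lit 344) (nat_lit 163)))) (XT.nd (nat_lit 156) (nat_lit 76) (nat_lit 0) (XT.nd (nat_lit 78) (nat_lit 0) (nat_lit 0) (XT.lf (nat_lit 0) (nat_lit 482771293768) (nat_lit 152) (nat_lit 1070465215265) (nat_lit 0) (nat_lit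 62685077216) (nat_lit 8) (nat_lit 5) (nat_lit 10) (nat_lit 4) (nat_lit 8) (nat_lit 4) (nat_lit 394) (nat_lit 344) (nat_lit 162)) (XT.lf (nat_lit 0) (nat_lit 741998646195) (nat_lit 152) (nat_lit 660872574911) (nat_lit 0) (nat_lit 321912403947) (nat_lit 8) (nat_lit 5) (nat_lit 10) (nat_lit 4) (nat_lit 8) (nat_lit 4) (nat_lit 395) (nat_lit 344) (nat_lit 161))) (XT.nd (nat_lit 78) (nat_lit 76) (nat_lit 0) (XT.lf (nat_lit 0) (nat_lit 1021964156868) (nat_lit 152) (nat_lit 218512581673) (nat_lit 0) (nat_lit 601877890826) (nat_lit 8) (nat_lit 5) (nat_lit 10) (nat_lit 4) (nat_lit 8) (nat_lit 4) (nat_lit 396) (nat_lit 344) (nat_lit 160)) (XT.nd (nat_lit 78) (nat_lit 0) (nat_lit 0) (XT.lf (nat_lit 0) (nat_lit 272887073624) (nat_lit 76) (nat_lit 1058002747724) (nat_lit 76) (nat_lit 637916459651) (nat_lit 7) (nat_lit 4) (nat_lit 8) (nat_lit 5) (nat_lit 8) (nat_lit 4) (nat_lit 397) (nat_lit 344) (nat_lit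 159)) (XT.lf (nat_lit 0) (nat_lit 816025652831) (nat_lit 76) (nat_lit 854478380433) (nat_lit 76) (nat_lit 434392071961) (nat_lit 7) (nat_lit 4) (nat_lit 8) (nat_lit 5) (nat_lit 8) (nat_lit 4) (nat_lit 398) (nat_lit 344) (nat_lit 158))))))) (XT.nd (nat_lit 42666) (nat_lit 0) (nat_lit 3496) (XT.nd (nat_lit 312) (nat_lit 76) (nat_lit 0) (XT.nd (nat_lit 156) (nat_lit 76) (nat_lit 0) (XT.nd (nat_lit 78) (nat_lit 76) (nat_lit 0) (XT.lf (nat_lit 0) (nat_lit 1402615269622) (nat_lit 76) (nat_lit 634672087566) (nat_lit 76) (nat_lit 214585760206) (nat_lit 7) (nat_lit 4) (nat_lit 8) (nat_lit 5) (nat_lit 8) (nat_lit 4) (nat_lit 399) (nat_lit 344) (nat_lit 157)) (XT.lf (nat_lit 0) (nat_lit 21664231497) (nat_lit 152) (nat_lit 375024743335) (nat_lit 76) (nat_lit 2013875440634) (nat_lit 6) (nat_lit 5) (nat_lit 8) (nat_lit 5) (nat_lit 7) (nat_lit 4) (nat_lit 400) (nat_lit 344) (nat_lit 156))) (XT.nd (nat_lit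 78) (nat_lit 0) (nat_lit 0) (XT.lf (nat_lit 0) (nat_lit 138501727747) (nat_lit 76) (nat_lit 130050238017) (nat_lit 152) (nat_lit 2312686683301) (nat_lit 5) (nat_lit 5) (nat_lit 6) (nat_lit 5) (nat_lit 7) (nat_lit 4) (nat_lit 401) (nat_lit 344) (nat_lit 155)) (XT.lf (nat_lit 0) (nat_lit 549508841690) (nat_lit 152) (nat_lit 2054372554844) (nat_lit 0) (nat_lit 160539974990) (nat_lit 5) (nat_lit 5) (nat_lit 7) (nat_lit 4) (nat_lit 5) (nat_lit 4) (nat_lit 402) (nat_lit 344) (nat_lit 154)))) (XT.nd (nat_lit 156) (nat_lit 76) (nat_lit 0) (XT.nd (nat_lit 78) (nat_lit 0) (nat_lit 0) (XT.lf (nat_lit 0) (nat_lit 856320175743) (nat_lit 152) (nat_lit 1638317007209) (nat_lit 0) (nat_lit 467351296187) (nat_lit 5) (nat_lit 5) (nat_lit 7) (nat_lit 4) (nat_lit 5) (nat_lit 4) (nat_lit 403) (nat_lit 344) (nat_lit 153)) (XT.lf (nat_lit 0) (nat_lit 1187676397809) (nat_lit 152) (nat_lit 1188977052706) (nat_lit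 0) (nat_lit 798707506351) (nat_lit 5) (nat_lit 5) (nat_lit 7) (nat_lit 4) (nat_lit 5) (nat_lit 4) (nat_lit 404) (nat_lit 344) (nat_lit 152))) (XT.nd (nat_lit 78) (nat_lit 76) (nat_lit 0) (XT.lf (nat_lit 0) (nat_lit 1545541100315) (nat_lit 152) (nat_lit 703689936049) (nat_lit 0) (nat_lit 1156572197837) (nat_lit 5) (nat_lit 5) (nat_lit 7) (nat_lit 4) (nat_lit 5) (nat_lit 4) (nat_lit 405) (nat_lit 344) (nat_lit 151)) (XT.nd (nat_lit 78) (nat_lit 76) (nat_lit 0) (XT.lf (nat_lit 0) (nat_lit 1932034962981) (nat_lit 152) (nat_lit 179579881731) (nat_lit 0) (nat_lit 1543066050298) (nat_lit 5) (nat_lit 5) (nat_lit 7) (nat_lit 4) (nat_lit 5) (nat_lit 4) (nat_lit 406) (nat_lit 344) (nat_lit 150)) (XT.lf (nat_lit 0) (nat_lit 406809190923) (nat_lit 76) (nat_lit 1952422899709) (nat_lit 76) (nat_lit 1563453977577) (nat_lit 4) (nat_lit 4) (nat_lit 5) (nat_lit 5) (nat_lit 5) (nat_lit 4) (nat_lit 407) (nat_lit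 344) (nat_lit 149)))))) (XT.nd (nat_lit 312) (nat_lit 304) (nat_lit 0) (XT.nd (nat_lit 156) (nat_lit 0) (nat_lit 76) (XT.nd (nat_lit 78) (nat_lit 0) (nat_lit 0) (XT.lf (nat_lit 0) (nat_lit 50156413878) (nat_lit 532) (nat_lit 7438811309) (nat_lit 532) (nat_lit 7438811309) (nat_lit 54) (nat_lit 3) (nat_lit 61) (nat_lit 3) (nat_lit 61) (nat_lit 5) (nat_lit 345) (nat_lit 345) (nat_lit 210)) (XT.lf (nat_lit 76) (nat_lit 49161587073) (nat_lit 0) (nat_lit 56349674214) (nat_lit 532) (nat_lit 29664654445) (nat_lit 55) (nat_lit 5) (nat_lit 54) (nat_lit 3) (nat_lit 61) (nat_lit 5) (nat_lit 346) (nat_lit 345) (nat_lit 209))) (XT.nd (nat_lit 78) (nat_lit 0) (nat_lit 0) (XT.lf (nat_lit 0) (nat_lit 111715677069) (nat_lit 456) (nat_lit 21673730556) (nat_lit 532) (nat_lit 7255770316) (nat_lit 55) (nat_lit 5) (nat_lit 61) (nat_lit 5) (nat_lit 62) (nat_lit 5) (nat_lit 347) (nat_lit 345) (nat_lit 208)) (XT.lf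 (nat_lit 76) (nat_lit 48790990368) (nat_lit 0) (nat_lit 72262175215) (nat_lit 532) (nat_lit 25287878594) (nat_lit 56) (nat_lit 5) (nat_lit 55) (nat_lit 5) (nat_lit 62) (nat_lit 5) (nat_lit 348) (nat_lit 345) (nat_lit 207)))) (XT.nd (nat_lit 156) (nat_lit 380) (nat_lit 0) (XT.nd (nat_lit 78) (nat_lit 0) (nat_lit 76) (XT.lf (nat_lit 76) (nat_lit 126125278732) (nat_lit 0) (nat_lit 5604659227) (nat_lit 532) (nat_lit 20715259531) (nat_lit 56) (nat_lit 5) (nat_lit 55) (nat_lit 5) (nat_lit 62) (nat_lit 5) (nat_lit 349) (nat_lit 345) (nat_lit 206)) (XT.lf (nat_lit 76) (nat_lit 51592706834) (nat_lit 0) (nat_lit 94505234991) (nat_lit 532) (nat_lit 12712774586) (nat_lit 57) (nat_lit 5) (nat_lit 56) (nat_lit 5) (nat_lit 63) (nat_lit 5) (nat_lit 350) (nat_lit 345) (nat_lit 205))) (XT.nd (nat_lit 78) (nat_lit 456) (nat_lit 0) (XT.lf (nat_lit 76) (nat_lit 137081719397) (nat_lit 0) (nat_lit 25394918000)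 (nat_lit 532) (nat_lit 3139939819) (nat_lit 57) (nat_lit 5) (nat_lit 56) (nat_lit 5) (nat_lit 63) (nat_lit 5) (nat_lit 351) (nat_lit 345) (nat_lit 204)) (XT.nd (nat_lit 78) (nat_lit 0) (nat_lit 0) (XT.lf (nat_lit 0) (nat_lit 9488724471) (nat_lit 532) (nat_lit 114832280399) (nat_lit 76) (nat_lit 48420043117) (nat_lit 50) (nat_lit 5) (nat_lit 57) (nat_lit 5) (nat_lit 51) (nat_lit 5) (nat_lit 352) (nat_lit 345) (nat_lit 203)) (XT.lf (nat_lit 0) (nat_lit 24417866346) (nat_lit 532) (nat_lit 28244037124) (nat_lit 76) (nat_lit 127650262961) (nat_lit 50) (nat_lit 5) (nat_lit 57) (nat_lit 5) (nat_lit 51) (nat_lit 5) (nat_lit 353) (nat_lit 345) (nat_lit 202))))))))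
noncomputable def xc212 : XT := (XT.nd (nat_lit 1326) (nat_lit 988) (nat_lit 0) (XT.nd (nat_lit 624) (nat_lit 684) (nat_lit 0) (XT.nd (nat_lit 312) (nat_lit 684) (nat_lit 0) (XT.nd (nat_lit 156) (nat_lit 228) (nat_lit 0) (XT.nd (nat_lit 78) (nat_lit 0) (nat_lit 0) (XT.lf (nat_lit 0) (nat_lit 42831221325) (nat_lit 380) (nat_lit 120286365422) (nat_lit 76) (nat_lit 25188197417) (nat_lit 46) (nat_lit 5) (nat_lit 51) (nat_lit 5) (nat_lit 47) (nat_lit 5) (nat_lit 354) (nat_lit 345) (nat_lit 201)) (XT.lf (nat_lit 0) (nat_lit 64877572622) (nat_lit 380) (nat_lit 24675024254) (nat_lit 76) (nat_lit 107213500535) (nat_lit 46) (nat_lit 5) (nat_lit 51) (nat_lit 5) (nat_lit 47) (nat_lit 5) (nat_lit 355) (nat_lit 345) (nat_lit 200))) (XT.nd (nat_lit 78) (nat_lit 0) (nat_lit 0) (XT.lf (nat_lit 0) (nat_lit 82723161680) (nat_lit 228) (nat_lit 7953766231) (nat_lit 304) (nat_lit 115067164439) (nat_lit 43)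 (nat_lit 5) (nat_lit 46) (nat_lit 5) (nat_lit 47) (nat_lit 5) (nat_lit 356) (nat_lit 345) (nat_lit 199)) (XT.lf (nat_lit 0) (nat_lit 121160387216) (nat_lit 304) (nat_lit 17215766417) (nat_lit 76) (nat_lit 76854561082) (nat_lit 43) (nat_lit 5) (nat_lit 47) (nat_lit 5) (nat_lit 44) (nat_lit 5) (nat_lit 357) (nat_lit 345) (nat_lit 198)))) (XT.nd (nat_lit 156) (nat_lit 456) (nat_lit 0) (XT.nd (nat_lit 78) (nat_lit 0) (nat_lit 0) (XT.lf (nat_lit 0) (nat_lit 101946808422) (nat_lit 228) (nat_lit 54793954571) (nat_lit 304) (nat_lit 68522844961) (nat_lit 40) (nat_lit 5) (nat_lit 43) (nat_lit 5) (nat_lit 44) (nat_lit 5) (nat_lit 358) (nat_lit 345) (nat_lit 197)) (XT.lf (nat_lit 0) (nat_lit 196503507519) (nat_lit 304) (nat_lit 5305618376) (nat_lit 76) (nat_lit 34183131901) (nat_lit 40) (nat_lit 5) (nat_lit 44) (nat_lit 5) (nat_lit 41) (nat_lit 5) (nat_lit 359) (nat_lit 345) (nat_lit 196))) (XT.nd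 (nat_lit 78) (nat_lit 304) (nat_lit 0) (XT.lf (nat_lit 0) (nat_lit 127080103650) (nat_lit 152) (nat_lit 116846512121) (nat_lit 228) (nat_lit 3294236545) (nat_lit 38) (nat_lit 5) (nat_lit 40) (nat_lit 5) (nat_lit 41) (nat_lit 5) (nat_lit 360) (nat_lit 345) (nat_lit 195)) (XT.lf (nat_lit 0) (nat_lit 10692304398) (nat_lit 228) (nat_lit 23718712063) (nat_lit 304) (nat_lit 224835380388) (nat_lit 34) (nat_lit 5) (nat_lit 37) (nat_lit 5) (nat_lit 38) (nat_lit 5) (nat_lit 361) (nat_lit 345) (nat_lit 194))))) (XT.nd (nat_lit 312) (nat_lit 380) (nat_lit 0) (XT.nd (nat_lit 156) (nat_lit 152) (nat_lit 0) (XT.nd (nat_lit 78) (nat_lit 152) (nat_lit 0) (XT.lf (nat_lit 0) (nat_lit 80173219037) (nat_lit 304) (nat_lit 115166241844) (nat_lit 76) (nat_lit 76470198780) (nat_lit 34) (nat_lit 5) (nat_lit 38) (nat_lit 5) (nat_lit 35) (nat_lit 5) (nat_lit 362) (nat_lit 345) (nat_lit 193)) (XT.lf (nat_lit 0) (nat_lit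 29765361050) (nat_lit 152) (nat_lit 101162829048) (nat_lit 228) (nat_lit 154343250181) (nat_lit 32) (nat_lit 5) (nat_lit 34) (nat_lit 5) (nat_lit 35) (nat_lit 5) (nat_lit 363) (nat_lit 345) (nat_lit 192))) (XT.nd (nat_lit 78) (nat_lit 152) (nat_lit 0) (XT.lf (nat_lit 0) (nat_lit 188987242596) (nat_lit 228) (nat_lit 106812316817) (nat_lit 76) (nat_lit 3751109384) (nat_lit 32) (nat_lit 5) (nat_lit 35) (nat_lit 5) (nat_lit 33) (nat_lit 5) (nat_lit 364) (nat_lit 345) (nat_lit 191)) (XT.lf (nat_lit 0) (nat_lit 53842585476) (nat_lit 152) (nat_lit 201770833490) (nat_lit 228) (nat_lit 59045024799) (nat_lit 30) (nat_lit 5) (nat_lit 32) (nat_lit 5) (nat_lit 33) (nat_lit 5) (nat_lit 365) (nat_lit 345) (nat_lit 190)))) (XT.nd (nat_lit 156) (nat_lit 152) (nat_lit 0) (XT.nd (nat_lit 78) (nat_lit 228) (nat_lit 0) (XT.lf (nat_lit 0) (nat_lit 233424216244) (nat_lit 152) (nat_lit 97065794294) (nat_lit 228)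 (nat_lit 251204635) (nat_lit 30) (nat_lit 5) (nat_lit 32) (nat_lit 5) (nat_lit 33) (nat_lit 5) (nat_lit 366) (nat_lit 345) (nat_lit 189)) (XT.lf (nat_lit 0) (nat_lit 62526101062) (nat_lit 228) (nat_lit 266473076829) (nat_lit 76) (nat_lit 18794240292) (nat_lit 27) (nat_lit 5) (nat_lit 30) (nat_lit 5) (nat_lit 28) (nat_lit 5) (nat_lit 367) (nat_lit 345) (nat_lit 188))) (XT.nd (nat_lit 78) (nat_lit 152) (nat_lit 0) (XT.lf (nat_lit 0) (nat_lit 135563032239) (nat_lit 228) (nat_lit 88810756392) (nat_lit 76) (nat_lit 141415405913) (nat_lit 27) (nat_lit 5) (nat_lit 30) (nat_lit 5) (nat_lit 28) (nat_lit 5) (nat_lit 368) (nat_lit 345) (nat_lit 187)) (XT.nd (nat_lit 78) (nat_lit 0) (nat_lit 0) (XT.lf (nat_lit 0) (nat_lit 108491579673) (nat_lit 152) (nat_lit 108560463094) (nat_lit 228) (nat_lit 167963860355) (nat_lit 25) (nat_lit 5) (nat_lit 27) (nat_lit 5) (nat_lit 28) (nat_lit 5) (nat_lit 369) (nat_lit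 345) (nat_lit 186)) (XT.lf (nat_lit 0) (nat_lit 307948647527) (nat_lit 228) (nat_lit 79418128345) (nat_lit 76) (nat_lit 18182894732) (nat_lit 25) (nat_lit 5) (nat_lit 28) (nat_lit 5) (nat_lit 26) (nat_lit 4) (nat_lit 370) (nat_lit 345) (nat_lit 185))))))) (XT.nd (nat_lit 624) (nat_lit 456) (nat_lit 0) (XT.nd (nat_lit 312) (nat_lit 228) (nat_lit 0) (XT.nd (nat_lit 156) (nat_lit 152) (nat_lit 0) (XT.nd (nat_lit 78) (nat_lit 76) (nat_lit 0) (XT.lf (nat_lit 0) (nat_lit 137515756424) (nat_lit 76) (nat_lit 274728143119) (nat_lit 152) (nat_lit 14992086512) (nat_lit 24) (nat_lit 5) (nat_lit 25) (nat_lit 5) (nat_lit 26) (nat_lit 4) (nat_lit 371) (nat_lit 345) (nat_lit 184)) (XT.lf (nat_lit 0) (nat_lit 72740245038) (nat_lit 152) (nat_lit 76004238079) (nat_lit 76) (nat_lit 301591694091) (nat_lit 23) (nat_lit 5) (nat_lit 25) (nat_lit 5) (nat_lit 24) (nat_lit 5) (nat_lit 372) (nat_lit 345) (nat_lit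 183))) (XT.nd (nat_lit 78) (nat_lit 0) (nat_lit 0) (XT.lf (nat_lit 0) (nat_lit 162550945931) (nat_lit 152) (nat_lit 8039526140) (nat_lit 228) (nat_lit 304350017578) (nat_lit 21) (nat_lit 5) (nat_lit 23) (nat_lit 5) (nat_lit 24) (nat_lit 5) (nat_lit 373) (nat_lit 345) (nat_lit 182)) (XT.lf (nat_lit 0) (nat_lit 281862026076) (nat_lit 228) (nat_lit 80349366919) (nat_lit 76) (nat_lit 138854289445) (nat_lit 21) (nat_lit 5) (nat_lit 24) (nat_lit 5) (nat_lit 22) (nat_lit 4) (nat_lit 374) (nat_lit 345) (nat_lit 181)))) (XT.nd (nat_lit 156) (nat_lit 152) (nat_lit 0) (XT.nd (nat_lit 78) (nat_lit 0) (nat_lit 0) (XT.lf (nat_lit 0) (nat_lit 178999347556) (nat_lit 76) (nat_lit 227549638820) (nat_lit 152) (nat_lit 122370809777) (nat_lit 20) (nat_lit 5) (nat_lit 21) (nat_lit 5) (nat_lit 22) (nat_lit 4) (nat_lit 375) (nat_lit 345) (nat_lit 180)) (XT.lf (nat_lit 0) (nat_lit 463665372246) (nat_lit 76) (nat_lit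 79742352384) (nat_lit 152) (nat_lit 15418768693) (nat_lit 20) (nat_lit 5) (nat_lit 21) (nat_lit 5) (nat_lit 22) (nat_lit 4) (nat_lit 376) (nat_lit 345) (nat_lit 179))) (XT.nd (nat_lit 78) (nat_lit 0) (nat_lit 0) (XT.lf (nat_lit 0) (nat_lit 101678605804) (nat_lit 152) (nat_lit 405751865378) (nat_lit 76) (nat_lit 82974998937) (nat_lit 18) (nat_lit 5) (nat_lit 20) (nat_lit 5) (nat_lit 19) (nat_lit 4) (nat_lit 377) (nat_lit 345) (nat_lit 178)) (XT.lf (nat_lit 0) (nat_lit 232051372752) (nat_lit 152) (nat_lit 134576629898) (nat_lit 76) (nat_lit 257471474131) (nat_lit 18) (nat_lit 5) (nat_lit 20) (nat_lit 5) (nat_lit 19) (nat_lit 4) (nat_lit 378) (nat_lit 345) (nat_lit 177))))) (XT.nd (nat_lit 312) (nat_lit 228) (nat_lit 0) (XT.nd (nat_lit 156) (nat_lit 152) (nat_lit 0) (XT.nd (nat_lit 78) (nat_lit 0) (nat_lit 0) (XT.lf (nat_lit 0) (nat_lit 166627914522) (nat_lit 76) (nat_lit 210233388673) (nat_lit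 152) (nat_lit 283307113449) (nat_lit 17) (nat_lit 5) (nat_lit 18) (nat_lit 5) (nat_lit 19) (nat_lit 4) (nat_lit 379) (nat_lit 345) (nat_lit 176)) (XT.lf (nat_lit 0) (nat_lit 499582204518) (nat_lit 76) (nat_lit 37353325928) (nat_lit 152) (nat_lit 161892981095) (nat_lit 17) (nat_lit 5) (nat_lit 18) (nat_lit 5) (nat_lit 19) (nat_lit 4) (nat_lit 380) (nat_lit 345) (nat_lit 175))) (XT.nd (nat_lit 78) (nat_lit 76) (nat_lit 0) (XT.lf (nat_lit 0) (nat_lit 121054933394) (nat_lit 76) (nat_lit 595264121656) (nat_lit 76) (nat_lit 23742090277) (nat_lit 16) (nat_lit 4) (nat_lit 17) (nat_lit 5) (nat_lit 17) (nat_lit 4) (nat_lit 381) (nat_lit 345) (nat_lit 174)) (XT.lf (nat_lit 0) (nat_lit 125744216775) (nat_lit 152) (nat_lit 309974142001) (nat_lit 76) (nat_lit 348107891638) (nat_lit 15) (nat_lit 5) (nat_lit 17) (nat_lit 5) (nat_lit 16) (nat_lit 4) (nat_lit 382) (nat_lit 345) (nat_lit 173)))) (XT.nd (nat_lit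 156) (nat_lit 152) (nat_lit 0) (XT.nd (nat_lit 78) (nat_lit 0) (nat_lit 0) (XT.lf (nat_lit 0) (nat_lit 24383478167) (nat_lit 76) (nat_lit 262109630745) (nat_lit 152) (nat_lit 544503211203) (nat_lit 14) (nat_lit 5) (nat_lit 15) (nat_lit 5) (nat_lit 16) (nat_lit 4) (nat_lit 383) (nat_lit 345) (nat_lit 172)) (XT.lf (nat_lit 0) (nat_lit 403118116528) (nat_lit 76) (nat_lit 65458986733) (nat_lit 152) (nat_lit 412684876887) (nat_lit 14) (nat_lit 5) (nat_lit 15) (nat_lit 5) (nat_lit 16) (nat_lit 4) (nat_lit 384) (nat_lit 345) (nat_lit 171))) (XT.nd (nat_lit 78) (nat_lit 152) (nat_lit 0) (XT.lf (nat_lit 0) (nat_lit 668761287203) (nat_lit 152) (nat_lit 126930977076) (nat_lit 0) (nat_lit 139573951123) (nat_lit 14) (nat_lit 5) (nat_lit 16) (nat_lit 4) (nat_lit 14) (nat_lit 4) (nat_lit 385) (nat_lit 345) (nat_lit 170)) (XT.nd (nat_lit 78) (nat_lit 76) (nat_lit 0) (XT.lf (nat_lit 0) (nat_lit 263878914430)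 (nat_lit 76) (nat_lit 629127774009) (nat_lit 76) (nat_lit 99940382452) (nat_lit 13) (nat_lit 4) (nat_lit 14) (nat_lit 5) (nat_lit 14) (nat_lit 4) (nat_lit 386) (nat_lit 345) (nat_lit 169)) (XT.lf (nat_lit 0) (nat_lit 79510554123) (nat_lit 152) (nat_lit 363805490348) (nat_lit 76) (nat_lit 611487678403) (nat_lit 12) (nat_lit 5) (nat_lit 14) (nat_lit 5) (nat_lit 13) (nat_lit 4) (nat_lit 387) (nat_lit 345) (nat_lit 168))))))))
noncomputable def xc213 : XT := (XT.nd (nat_lit 1326) (nat_lit 0) (nat_lit 0) (XT.nd (nat_lit 624) (nat_lit 228) (nat_lit 0) (XT.nd (nat_lit 312) (nat_lit 152) (nat_lit 0) (XT.nd (nat_lit 156) (nat_lit 76) (nat_lit 0) (XT.nd (nat_lit 78) (nat_lit 0) (nat_lit 0) (XT.lf (nat_lit 0) (nat_lit 29561018308) (nat_lit 76) (nat_lit 239068072459) (nat_lit 152) (nat_lit 852715275806) (nat_lit 11) (nat_lit 5) (nat_lit 12) (nat_lit 5) (nat_lit 13) (nat_lit 4) (nat_lit 388) (nat_lit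 345) (nat_lit 167)) (XT.lf (nat_lit 0) (nat_lit 475086711727) (nat_lit 76) (nat_lit 7737445126) (nat_lit 152) (nat_lit 709588341209) (nat_lit 11) (nat_lit 5) (nat_lit 12) (nat_lit 5) (nat_lit 13) (nat_lit 4) (nat_lit 389) (nat_lit 345) (nat_lit 166))) (XT.nd (nat_lit 78) (nat_lit 76) (nat_lit 0) (XT.lf (nat_lit 0) (nat_lit 719977292073) (nat_lit 152) (nat_lit 318734194484) (nat_lit 0) (nat_lit 229988796419) (nat_lit 11) (nat_lit 5) (nat_lit 13) (nat_lit 4) (nat_lit 11) (nat_lit 4) (nat_lit 390) (nat_lit 345) (nat_lit 165)) (XT.lf (nat_lit 0) (nat_lit 117417377226) (nat_lit 76) (nat_lit 861710128921) (nat_lit 76) (nat_lit 371721598306) (nat_lit 10) (nat_lit 4) (nat_lit 11) (nat_lit 5) (nat_lit 11) (nat_lit 4) (nat_lit 391) (nat_lit 345) (nat_lit 164)))) (XT.nd (nat_lit 156) (nat_lit 76) (nat_lit 0) (XT.nd (nat_lit 78) (nat_lit 76) (nat_lit 0) (XT.lf (nat_lit 0) (nat_lit 606587704808) (nat_lit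 76) (nat_lit 661136755981) (nat_lit 76) (nat_lit 171148192996) (nat_lit 10) (nat_lit 4) (nat_lit 11) (nat_lit 5) (nat_lit 11) (nat_lit 4) (nat_lit 392) (nat_lit 345) (nat_lit 163)) (XT.lf (nat_lit 0) (nat_lit 43196404346) (nat_lit 152) (nat_lit 400140071918) (nat_lit 76) (nat_lit 1090514126962) (nat_lit 9) (nat_lit 5) (nat_lit 11) (nat_lit 5) (nat_lit 10) (nat_lit 4) (nat_lit 393) (nat_lit 345) (nat_lit 162))) (XT.nd (nat_lit 78) (nat_lit 0) (nat_lit 0) (XT.lf (nat_lit 0) (nat_lit 65402634220) (nat_lit 76) (nat_lit 201612392188) (nat_lit 152) (nat_lit 1368930297233) (nat_lit 8) (nat_lit 5) (nat_lit 9) (nat_lit 5) (nat_lit 10) (nat_lit 4) (nat_lit 394) (nat_lit 345) (nat_lit 161)) (XT.lf (nat_lit 0) (nat_lit 521393581558) (nat_lit 152) (nat_lit 1156101294237) (nat_lit 0) (nat_lit 67700390439) (nat_lit 8) (nat_lit 5) (nat_lit 10) (nat_lit 4) (nat_lit 8) (nat_lit 4) (nat_lit 395) (nat_lit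 345) (nat_lit 160))))) (XT.nd (nat_lit 312) (nat_lit 152) (nat_lit 0) (XT.nd (nat_lit 156) (nat_lit 76) (nat_lit 0) (XT.nd (nat_lit 78) (nat_lit 0) (nat_lit 0) (XT.lf (nat_lit 0) (nat_lit 801359078899) (nat_lit 152) (nat_lit 713741326970) (nat_lit 0) (nat_lit 347665865749) (nat_lit 8) (nat_lit 5) (nat_lit 10) (nat_lit 4) (nat_lit 8) (nat_lit 4) (nat_lit 396) (nat_lit 345) (nat_lit 159)) (XT.lf (nat_lit 0) (nat_lit 1103721790351) (nat_lit 152) (nat_lit 235992612342) (nat_lit 0) (nat_lit 650028556802) (nat_lit 8) (nat_lit 5) (nat_lit 10) (nat_lit 4) (nat_lit 8) (nat_lit 4) (nat_lit 397) (nat_lit 345) (nat_lit 158))) (XT.nd (nat_lit 78) (nat_lit 0) (nat_lit 0) (XT.lf (nat_lit 0) (nat_lit 294718990674) (nat_lit 76) (nat_lit 1142642503085) (nat_lit 76) (nat_lit 688949250648) (nat_lit 7) (nat_lit 4) (nat_lit 8) (nat_lit 5) (nat_lit 8) (nat_lit 4) (nat_lit 398) (nat_lit 345) (nat_lit 157)) (XT.lf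 (nat_lit 0) (nat_lit 881308585761) (nat_lit 76) (nat_lit 922836220815) (nat_lit 76) (nat_lit 469142950890) (nat_lit 7) (nat_lit 4) (nat_lit 8) (nat_lit 5) (nat_lit 8) (nat_lit 4) (nat_lit 399) (nat_lit 345) (nat_lit 156)))) (XT.nd (nat_lit 156) (nat_lit 76) (nat_lit 0) (XT.nd (nat_lit 78) (nat_lit 76) (nat_lit 0) (XT.lf (nat_lit 0) (nat_lit 1514825306657) (nat_lit 76) (nat_lit 685445456375) (nat_lit 76) (nat_lit 231752170256) (nat_lit 7) (nat_lit 4) (nat_lit 8) (nat_lit 5) (nat_lit 8) (nat_lit 4) (nat_lit 400) (nat_lit 345) (nat_lit 155)) (XT.lf (nat_lit 0) (nat_lit 23397766515) (nat_lit 152) (nat_lit 405025946761) (nat_lit 76) (nat_lit 2174985823607) (nat_lit 6) (nat_lit 5) (nat_lit 8) (nat_lit 5) (nat_lit 7) (nat_lit 4) (nat_lit 401) (nat_lit 345) (nat_lit 154))) (XT.nd (nat_lit 78) (nat_lit 0) (nat_lit 0) (XT.lf (nat_lit 0) (nat_lit 149582622360) (nat_lit 76) (nat_lit 140453885984)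 (nat_lit 152) (nat_lit 2497701201728) (nat_lit 5) (nat_lit 5) (nat_lit 6) (nat_lit 5) (nat_lit 7) (nat_lit 4) (nat_lit 402) (nat_lit 345) (nat_lit 153)) (XT.nd (nat_lit 78) (nat_lit 0) (nat_lit 0) (XT.lf (nat_lit 0) (nat_lit 593469914065) (nat_lit 152) (nat_lit 2218721638503) (nat_lit 0) (nat_lit 173383499388) (nat_lit 5) (nat_lit 5) (nat_lit 7) (nat_lit 4) (nat_lit 5) (nat_lit 4) (nat_lit 403) (nat_lit 345) (nat_lit 152)) (XT.lf (nat_lit 0) (nat_lit 924826127802) (nat_lit 152) (nat_lit 1769381700445) (nat_lit 0) (nat_lit 504739702104) (nat_lit 5) (nat_lit 5) (nat_lit 7) (nat_lit 4) (nat_lit 5) (nat_lit 4) (nat_lit 404) (nat_lit 345) (nat_lit 151))))))) (XT.nd (nat_lit 42822) (nat_lit 0) (nat_lit 2508) (XT.nd (nat_lit 42432) (nat_lit 0) (nat_lit 3800) (XT.nd (nat_lit 42276) (nat_lit 0) (nat_lit 3724) (XT.nd (nat_lit 78) (nat_lit 0) (nat_lit 0) (XT.lf (nat_lit 0) (nat_lit 1282690822597)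 (nat_lit 152) (nat_lit 1284094599014) (nat_lit 0) (nat_lit 862604386694) (nat_lit 5) (nat_lit 5) (nat_lit 7) (nat_lit 4) (nat_lit 5) (nat_lit 4) (nat_lit 405) (nat_lit 345) (nat_lit 150)) (XT.lf (nat_lit 0) (nat_lit 1669184678122) (nat_lit 152) (nat_lit 759984558795) (nat_lit 0) (nat_lit 1249098232770) (nat_lit 5) (nat_lit 5) (nat_lit 7) (nat_lit 4) (nat_lit 5) (nat_lit 4) (nat_lit 406) (nat_lit 345) (nat_lit 149))) (XT.nd (nat_lit 78) (nat_lit 0) (nat_lit 0) (XT.lf (nat_lit 0) (nat_lit 54172423885) (nat_lit 532) (nat_lit 8032024695) (nat_lit 532) (nat_lit 8032024695) (nat_lit 54) (nat_lit 3) (nat_lit 61) (nat_lit 3) (nat_lit 61) (nat_lit 5) (nat_lit 346) (nat_lit 346) (nat_lit 208)) (XT.lf (nat_lit 76) (nat_lit 53098201303) (nat_lit 0) (nat_lit 60860525302) (nat_lit 532) (nat_lit 32030725403) (nat_lit 55) (nat_lit 5) (nat_lit 54) (nat_lit 3) (nat_lit 61) (nat_lit 5) (nat_lit 347) (nat_lit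 346) (nat_lit 207)))) (XT.nd (nat_lit 156) (nat_lit 0) (nat_lit 0) (XT.nd (nat_lit 78) (nat_lit 0) (nat_lit 0) (XT.lf (nat_lit 0) (nat_lit 120658945327) (nat_lit 456) (nat_lit 23403653591) (nat_lit 532) (nat_lit 7833701179) (nat_lit 55) (nat_lit 5) (nat_lit 61) (nat_lit 5) (nat_lit 62) (nat_lit 5) (nat_lit 348) (nat_lit 346) (nat_lit 206)) (XT.lf (nat_lit 76) (nat_lit 52698144363) (nat_lit 0) (nat_lit 78044936258) (nat_lit 532) (nat_lit 27304784004) (nat_lit 56) (nat_lit 5) (nat_lit 55) (nat_lit 5) (nat_lit 62) (nat_lit 5) (nat_lit 349) (nat_lit 346) (nat_lit 205))) (XT.nd (nat_lit 78) (nat_lit 0) (nat_lit 76) (XT.lf (nat_lit 76) (nat_lit 136218888776) (nat_lit 0) (nat_lit 6054686619) (nat_lit 532) (nat_lit 22366809111) (nat_lit 56) (nat_lit 5) (nat_lit 55) (nat_lit 5) (nat_lit 62) (nat_lit 5) (nat_lit 350) (nat_lit 346) (nat_lit 204)) (XT.nd (nat_lit 78) (nat_lit 0) (nat_lit 0) (XT.lf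 (nat_lit 76) (nat_lit 55724077011) (nat_lit 0) (nat_lit 102066612472) (nat_lit 532) (nat_lit 13724482561) (nat_lit 57) (nat_lit 5) (nat_lit 56) (nat_lit 5) (nat_lit 63) (nat_lit 5) (nat_lit 351) (nat_lit 346) (nat_lit 203)) (XT.lf (nat_lit 76) (nat_lit 148051917718) (nat_lit 0) (nat_lit 27427399107) (nat_lit 532) (nat_lit 3386214642) (nat_lit 57) (nat_lit 5) (nat_lit 56) (nat_lit 5) (nat_lit 63) (nat_lit 5) (nat_lit 352) (nat_lit 346) (nat_lit 202)))))) (XT.nd (nat_lit 312) (nat_lit 608) (nat_lit 0) (XT.nd (nat_lit 156) (nat_lit 304) (nat_lit 0) (XT.nd (nat_lit 78) (nat_lit 0) (nat_lit 0) (XT.lf (nat_lit 0) (nat_lit 10252227635) (nat_lit 532) (nat_lit 124014672548) (nat_lit 76) (nat_lit 52293072324) (nat_lit 50) (nat_lit 5) (nat_lit 57) (nat_lit 5) (nat_lit 51) (nat_lit 5) (nat_lit 353) (nat_lit 346) (nat_lit 201)) (XT.lf (nat_lit 0) (nat_lit 26375374549) (nat_lit 532) (nat_lit 30499680203)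 (nat_lit 76) (nat_lit 137861752291) (nat_lit 50) (nat_lit 5) (nat_lit 57) (nat_lit 5) (nat_lit 51) (nat_lit 5) (nat_lit 354) (nat_lit 346) (nat_lit 200))) (XT.nd (nat_lit 78) (nat_lit 0) (nat_lit 0) (XT.lf (nat_lit 0) (nat_lit 46261584666) (nat_lit 380) (nat_lit 129905175587) (nat_lit 76) (nat_lit 27203171477) (nat_lit 46) (nat_lit 5) (nat_lit 51) (nat_lit 5) (nat_lit 47) (nat_lit 5) (nat_lit 355) (nat_lit 346) (nat_lit 199)) (XT.lf (nat_lit 0) (nat_lit 70071357723) (nat_lit 380) (nat_lit 26645230760) (nat_lit 76) (nat_lit 115790504898) (nat_lit 46) (nat_lit 5) (nat_lit 51) (nat_lit 5) (nat_lit 47) (nat_lit 5) (nat_lit 356) (nat_lit 346) (nat_lit 198)))) (XT.nd (nat_lit 156) (nat_lit 380) (nat_lit 0) (XT.nd (nat_lit 78) (nat_lit 0) (nat_lit 0) (XT.lf (nat_lit 0) (nat_lit 89344713962) (nat_lit 228) (nat_lit 8589771310) (nat_lit 304) (nat_lit 124268857142) (nat_lit 43) (nat_lit 5) (nat_lit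 46) (nat_lit 5) (nat_lit 47) (nat_lit 5) (nat_lit 357) (nat_lit 346) (nat_lit 197)) (XT.lf (nat_lit 0) (nat_lit 130856375835) (nat_lit 304) (nat_lit 18589352224) (nat_lit 76) (nat_lit 83003186525) (nat_lit 43) (nat_lit 5) (nat_lit 47) (nat_lit 5) (nat_lit 44) (nat_lit 5) (nat_lit 358) (nat_lit 346) (nat_lit 196))) (XT.nd (nat_lit 78) (nat_lit 152) (nat_lit 0) (XT.lf (nat_lit 0) (nat_lit 110106135551) (nat_lit 228) (nat_lit 59176898381) (nat_lit 304) (nat_lit 74001417517) (nat_lit 40) (nat_lit 5) (nat_lit 43) (nat_lit 5) (nat_lit 44) (nat_lit 5) (nat_lit 359) (nat_lit 346) (nat_lit 195)) (XT.nd (nat_lit 78) (nat_lit 152) (nat_lit 0) (XT.lf (nat_lit 0) (nat_lit 212226587815) (nat_lit 304) (nat_lit 5726536525) (nat_lit 76) (nat_lit 36918286078) (nat_lit 40) (nat_lit 5) (nat_lit 44) (nat_lit 5) (nat_lit 41) (nat_lit 5) (nat_lit 360) (nat_lit 346) (nat_lit 194)) (XT.lf (nat_lit 0) (nat_lit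 137249953863) (nat_lit 152) (nat_lit 126193466257) (nat_lit 228) (nat_lit 3554882645) (nat_lit 38) (nat_lit 5) (nat_lit 40) (nat_lit 5) (nat_lit 41) (nat_lit 5) (nat_lit 361) (nat_lit 346) (nat_lit 193))))))))
noncomputable def xc214 : XT := (XT.nd (nat_lit 1326) (nat_lit 760) (nat_lit 0) (XT.nd (nat_lit 624) (nat_lit 684) (nat_lit 0) (XT.nd (nat_lit 312) (nat_lit 380) (nat_lit 0) (XT.nd (nat_lit 156) (nat_lit 152) (nat_lit 0) (XT.nd (nat_lit 78) (nat_lit 0) (nat_lit 0) (XT.lf (nat_lit 0) (nat_lit 11551187946) (nat_lit 228) (nat_lit 25615338536) (nat_lit 304) (nat_lit 242819368620) (nat_lit 34) (nat_lit 5) (nat_lit 37) (nat_lit 5) (nat_lit 38) (nat_lit 5) (nat_lit 362) (nat_lit 346) (nat_lit 192)) (XT.lf (nat_lit 0) (nat_lit 86589529930) (nat_lit 304) (nat_lit 124376122900) (nat_lit 76) (nat_lit 82588580373) (nat_lit 34) (nat_lit 5) (nat_lit 38) (nat_lit 5) (nat_lit 35) (nat_lit 5) (nat_lit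 363) (nat_lit 346) (nat_lit 191))) (XT.nd (nat_lit 78) (nat_lit 0) (nat_lit 0) (XT.lf (nat_lit 0) (nat_lit 32149921686) (nat_lit 152) (nat_lit 109254875388) (nat_lit 228) (nat_lit 166688167545) (nat_lit 32) (nat_lit 5) (nat_lit 34) (nat_lit 5) (nat_lit 35) (nat_lit 5) (nat_lit 364) (nat_lit 346) (nat_lit 190)) (XT.lf (nat_lit 0) (nat_lit 204108421390) (nat_lit 228) (nat_lit 115354062287) (nat_lit 76) (nat_lit 4052060136) (nat_lit 32) (nat_lit 5) (nat_lit 35) (nat_lit 5) (nat_lit 33) (nat_lit 5) (nat_lit 365) (nat_lit 346) (nat_lit 189)))) (XT.nd (nat_lit 156) (nat_lit 228) (nat_lit 0) (XT.nd (nat_lit 78) (nat_lit 0) (nat_lit 0) (XT.lf (nat_lit 0) (nat_lit 58153150167) (nat_lit 152) (nat_lit 217911454731) (nat_lit 228) (nat_lit 63766343025) (nat_lit 30) (nat_lit 5) (nat_lit 32) (nat_lit 5) (nat_lit 33) (nat_lit 5) (nat_lit 366) (nat_lit 346) (nat_lit 188)) (XT.lf (nat_lit 0) (nat_lit 252101077482)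 (nat_lit 152) (nat_lit 104830089839) (nat_lit 228) (nat_lit 269186415) (nat_lit 30) (nat_lit 5) (nat_lit 32) (nat_lit 5) (nat_lit 33) (nat_lit 5) (nat_lit 367) (nat_lit 346) (nat_lit 187))) (XT.nd (nat_lit 78) (nat_lit 0) (nat_lit 0) (XT.lf (nat_lit 0) (nat_lit 67530144849) (nat_lit 228) (nat_lit 287787836268) (nat_lit 76) (nat_lit 20298752199) (nat_lit 27) (nat_lit 5) (nat_lit 30) (nat_lit 5) (nat_lit 28) (nat_lit 5) (nat_lit 368) (nat_lit 346) (nat_lit 186)) (XT.lf (nat_lit 0) (nat_lit 146409885653) (nat_lit 228) (nat_lit 95912758841) (nat_lit 76) (nat_lit 152729539020) (nat_lit 27) (nat_lit 5) (nat_lit 30) (nat_lit 5) (nat_lit 28) (nat_lit 5) (nat_lit 369) (nat_lit 346) (nat_lit 185))))) (XT.nd (nat_lit 312) (nat_lit 380) (nat_lit 0) (XT.nd (nat_lit 156) (nat_lit 152) (nat_lit 0) (XT.nd (nat_lit 78) (nat_lit 0) (nat_lit 0) (XT.lf (nat_lit 0) (nat_lit 117173691753) (nat_lit 152) (nat_lit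 117244258131) (nat_lit 228) (nat_lit 181399084393) (nat_lit 25) (nat_lit 5) (nat_lit 27) (nat_lit 5) (nat_lit 28) (nat_lit 5) (nat_lit 370) (nat_lit 346) (nat_lit 184)) (XT.lf (nat_lit 0) (nat_lit 332586177066) (nat_lit 228) (nat_lit 85768891815) (nat_lit 76) (nat_lit 19638442871) (nat_lit 25) (nat_lit 5) (nat_lit 28) (nat_lit 5) (nat_lit 26) (nat_lit 4) (nat_lit 371) (nat_lit 346) (nat_lit 183))) (XT.nd (nat_lit 78) (nat_lit 76) (nat_lit 0) (XT.lf (nat_lit 0) (nat_lit 148519635715) (nat_lit 76) (nat_lit 296705355197) (nat_lit 152) (nat_lit 16189746304) (nat_lit 24) (nat_lit 5) (nat_lit 25) (nat_lit 5) (nat_lit 26) (nat_lit 4) (nat_lit 372) (nat_lit 346) (nat_lit 182)) (XT.lf (nat_lit 0) (nat_lit 78560966244) (nat_lit 152) (nat_lit 82082072084) (nat_lit 76) (nat_lit 325719911753) (nat_lit 23) (nat_lit 5) (nat_lit 25) (nat_lit 5) (nat_lit 24) (nat_lit 5) (nat_lit 373) (nat_lit 346) (nat_lit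 181)))) (XT.nd (nat_lit 156) (nat_lit 228) (nat_lit 0) (XT.nd (nat_lit 78) (nat_lit 0) (nat_lit 0) (XT.lf (nat_lit 0) (nat_lit 175557463228) (nat_lit 152) (nat_lit 8681695703) (nat_lit 228) (nat_lit 328696452874) (nat_lit 21) (nat_lit 5) (nat_lit 23) (nat_lit 5) (nat_lit 24) (nat_lit 5) (nat_lit 374) (nat_lit 346) (nat_lit 180)) (XT.lf (nat_lit 0) (nat_lit 304412352018) (nat_lit 228) (nat_lit 86774969265) (nat_lit 76) (nat_lit 149963505636) (nat_lit 21) (nat_lit 5) (nat_lit 24) (nat_lit 5) (nat_lit 22) (nat_lit 4) (nat_lit 375) (nat_lit 346) (nat_lit 179))) (XT.nd (nat_lit 78) (nat_lit 152) (nat_lit 0) (XT.lf (nat_lit 0) (nat_lit 193321582949) (nat_lit 76) (nat_lit 245752640182) (nat_lit 152) (nat_lit 132159050352) (nat_lit 20) (nat_lit 5) (nat_lit 21) (nat_lit 5) (nat_lit 22) (nat_lit 4) (nat_lit 376) (nat_lit 346) (nat_lit 178)) (XT.nd (nat_lit 78) (nat_lit 152) (nat_lit 0) (XT.lf (nat_lit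 0) (nat_lit 500760720164) (nat_lit 76) (nat_lit 86120842664) (nat_lit 152) (nat_lit 16650951478) (nat_lit 20) (nat_lit 5) (nat_lit 21) (nat_lit 5) (nat_lit 22) (nat_lit 4) (nat_lit 377) (nat_lit 346) (nat_lit 177)) (XT.lf (nat_lit 0) (nat_lit 109814127520) (nat_lit 152) (nat_lit 438209809471) (nat_lit 76) (nat_lit 89613871336) (nat_lit 18) (nat_lit 5) (nat_lit 20) (nat_lit 5) (nat_lit 19) (nat_lit 4) (nat_lit 378) (nat_lit 346) (nat_lit 176))))))) (XT.nd (nat_lit 624) (nat_lit 456) (nat_lit 0) (XT.nd (nat_lit 312) (nat_lit 152) (nat_lit 0) (XT.nd (nat_lit 156) (nat_lit 76) (nat_lit 0) (XT.nd (nat_lit 78) (nat_lit 76) (nat_lit 0) (XT.lf (nat_lit 0) (nat_lit 250616624472) (nat_lit 152) (nat_lit 145340718497) (nat_lit 76) (nat_lit 278069999917) (nat_lit 18) (nat_lit 5) (nat_lit 20) (nat_lit 5) (nat_lit 19) (nat_lit 4) (nat_lit 379) (nat_lit 346) (nat_lit 175)) (XT.lf (nat_lit 0) (nat_lit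 179960137786) (nat_lit 76) (nat_lit 227051174841) (nat_lit 152) (nat_lit 305970488299) (nat_lit 17) (nat_lit 5) (nat_lit 18) (nat_lit 5) (nat_lit 19) (nat_lit 4) (nat_lit 380) (nat_lit 346) (nat_lit 174))) (XT.nd (nat_lit 78) (nat_lit 76) (nat_lit 0) (XT.lf (nat_lit 0) (nat_lit 539550623567) (nat_lit 76) (nat_lit 40340772626) (nat_lit 152) (nat_lit 174843313817) (nat_lit 17) (nat_lit 5) (nat_lit 18) (nat_lit 5) (nat_lit 19) (nat_lit 4) (nat_lit 381) (nat_lit 346) (nat_lit 173)) (XT.lf (nat_lit 0) (nat_lit 130741185262) (nat_lit 76) (nat_lit 642884404615) (nat_lit 76) (nat_lit 25640365698) (nat_lit 16) (nat_lit 4) (nat_lit 17) (nat_lit 5) (nat_lit 17) (nat_lit 4) (nat_lit 382) (nat_lit 346) (nat_lit 172)))) (XT.nd (nat_lit 156) (nat_lit 0) (nat_lit 0) (XT.nd (nat_lit 78) (nat_lit 76) (nat_lit 0) (XT.lf (nat_lit 0) (nat_lit 135804714473) (nat_lit 152) (nat_lit 334770302698) (nat_lit 76)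 (nat_lit 375957255981) (nat_lit 15) (nat_lit 5) (nat_lit 17) (nat_lit 5) (nat_lit 16) (nat_lit 4) (nat_lit 383) (nat_lit 346) (nat_lit 171)) (XT.lf (nat_lit 0) (nat_lit 26335882256) (nat_lit 76) (nat_lit 283077606093) (nat_lit 152) (nat_lit 588062462484) (nat_lit 14) (nat_lit 5) (nat_lit 15) (nat_lit 5) (nat_lit 16) (nat_lit 4) (nat_lit 384) (nat_lit 346) (nat_lit 170))) (XT.nd (nat_lit 78) (nat_lit 0) (nat_lit 0) (XT.lf (nat_lit 0) (nat_lit 435369163846) (nat_lit 76) (nat_lit 70694969458) (nat_lit 152) (nat_lit 445698735912) (nat_lit 14) (nat_lit 5) (nat_lit 15) (nat_lit 5) (nat_lit 16) (nat_lit 4) (nat_lit 385) (nat_lit 346) (nat_lit 169)) (XT.lf (nat_lit 0) (nat_lit 722263004521) (nat_lit 152) (nat_lit 137083927804) (nat_lit 0) (nat_lit 150740514792) (nat_lit 14) (nat_lit 5) (nat_lit 16) (nat_lit 4) (nat_lit 14) (nat_lit 4) (nat_lit 386) (nat_lit 346) (nat_lit 168))))) (XT.nd (nat_lit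 312) (nat_lit 228) (nat_lit 0) (XT.nd (nat_lit 156) (nat_lit 76) (nat_lit 0) (XT.nd (nat_lit 78) (nat_lit 76) (nat_lit 0) (XT.lf (nat_lit 0) (nat_lit 284990716354) (nat_lit 76) (nat_lit 679457296986) (nat_lit 76) (nat_lit 107934759694) (nat_lit 13) (nat_lit 4) (nat_lit 14) (nat_lit 5) (nat_lit 14) (nat_lit 4) (nat_lit 387) (nat_lit 346) (nat_lit 167)) (XT.lf (nat_lit 0) (nat_lit 85872149069) (nat_lit 152) (nat_lit 392908511266) (nat_lit 76) (nat_lit 660407300025) (nat_lit 12) (nat_lit 5) (nat_lit 14) (nat_lit 5) (nat_lit 13) (nat_lit 4) (nat_lit 388) (nat_lit 346) (nat_lit 166))) (XT.nd (nat_lit 78) (nat_lit 0) (nat_lit 0) (XT.lf (nat_lit 0) (nat_lit 31927282176) (nat_lit 76) (nat_lit 258192864114) (nat_lit 152) (nat_lit 920931711075) (nat_lit 11) (nat_lit 5) (nat_lit 12) (nat_lit 5) (nat_lit 13) (nat_lit 4) (nat_lit 389) (nat_lit 346) (nat_lit 165)) (XT.lf (nat_lit 0) (nat_lit 513094928668)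 (nat_lit 76) (nat_lit 8355835050) (nat_lit 152) (nat_lit 766354679992) (nat_lit 11) (nat_lit 5) (nat_lit 12) (nat_lit 5) (nat_lit 13) (nat_lit 4) (nat_lit 390) (nat_lit 346) (nat_lit 164)))) (XT.nd (nat_lit 156) (nat_lit 152) (nat_lit 0) (XT.nd (nat_lit 78) (nat_lit 76) (nat_lit 0) (XT.lf (nat_lit 0) (nat_lit 777576113294) (nat_lit 152) (nat_lit 344231708160) (nat_lit 0) (nat_lit 248388432899) (nat_lit 11) (nat_lit 5) (nat_lit 13) (nat_lit 4) (nat_lit 11) (nat_lit 4) (nat_lit 391) (nat_lit 346) (nat_lit 163)) (XT.lf (nat_lit 0) (nat_lit 126811958353) (nat_lit 76) (nat_lit 930646367534) (nat_lit 76) (nat_lit 401458657166) (nat_lit 10) (nat_lit 4) (nat_lit 11) (nat_lit 5) (nat_lit 11) (nat_lit 4) (nat_lit 392) (nat_lit 346) (nat_lit 162))) (XT.nd (nat_lit 78) (nat_lit 152) (nat_lit 0) (XT.lf (nat_lit 0) (nat_lit 655115823924) (nat_lit 76) (nat_lit 714027167107) (nat_lit 76) (nat_lit 184839428986)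 (nat_lit 10) (nat_lit 4) (nat_lit 11) (nat_lit 5) (nat_lit 11) (nat_lit 4) (nat_lit 393) (nat_lit 346) (nat_lit 161)) (XT.nd (nat_lit 78) (nat_lit 76) (nat_lit 0) (XT.lf (nat_lit 0) (nat_lit 46652661565) (nat_lit 152) (nat_lit 432150227761) (nat_lit 76) (nat_lit 1177755718397) (nat_lit 9) (nat_lit 5) (nat_lit 11) (nat_lit 5) (nat_lit 10) (nat_lit 4) (nat_lit 394) (nat_lit 346) (nat_lit 160)) (XT.lf (nat_lit 0) (nat_lit 70635868289) (nat_lit 76) (nat_lit 217740889355) (nat_lit 152) (nat_lit 1478444149401) (nat_lit 8) (nat_lit 5) (nat_lit 9) (nat_lit 5) (nat_lit 10) (nat_lit 4) (nat_lit 395) (nat_lit 346) (nat_lit 159))))))))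
noncomputable def xc215 : XT := (XT.nd (nat_lit 43524) (nat_lit 0) (nat_lit 1672) (XT.nd (nat_lit 624) (nat_lit 0) (nat_lit 0) (XT.nd (nat_lit 312) (nat_lit 152) (nat_lit 0) (XT.nd (nat_lit 156) (nat_lit 76) (nat_lit 0) (XT.nd (nat_lit 78) (nat_lit 0) (nat_lit 0) (XT.lf (nat_lit 0) (nat_lit 563105569015) (nat_lit 152) (nat_lit 1248588421911) (nat_lit 0) (nat_lit 73116856384) (nat_lit 8) (nat_lit 5) (nat_lit 10) (nat_lit 4) (nat_lit 8) (nat_lit 4) (nat_lit 396) (nat_lit 346) (nat_lit 158)) (XT.lf (nat_lit 0) (nat_lit 865468269038) (nat_lit 152) (nat_lit 770839729549) (nat_lit 0) (nat_lit 375479537518) (nat_lit 8) (nat_lit 5) (nat_lit 10) (nat_lit 4) (nat_lit 8) (nat_lit 4) (nat_lit 397) (nat_lit 346) (nat_lit 157))) (XT.nd (nat_lit 78) (nat_lit 76) (nat_lit 0) (XT.lf (nat_lit 0) (nat_lit 1192019963049) (nat_lit 152) (nat_lit 254871184683) (nat_lit 0) (nat_lit 702031214040) (nat_lit 8) (nat_lit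 5) (nat_lit 10) (nat_lit 4) (nat_lit 8) (nat_lit 4) (nat_lit 398) (nat_lit 346) (nat_lit 156)) (XT.lf (nat_lit 0) (nat_lit 318297325394) (nat_lit 76) (nat_lit 1234053505135) (nat_lit 76) (nat_lit 744064739933) (nat_lit 7) (nat_lit 4) (nat_lit 8) (nat_lit 5) (nat_lit 8) (nat_lit 4) (nat_lit 399) (nat_lit 346) (nat_lit 155)))) (XT.nd (nat_lit 156) (nat_lit 152) (nat_lit 0) (XT.nd (nat_lit 78) (nat_lit 0) (nat_lit 0) (XT.lf (nat_lit 0) (nat_lit 951814027683) (nat_lit 76) (nat_lit 996662749780) (nat_lit 76) (nat_lit 506673969584) (nat_lit 7) (nat_lit 4) (nat_lit 8) (nat_lit 5) (nat_lit 8) (nat_lit 4) (nat_lit 400) (nat_lit 346) (nat_lit 154)) (XT.lf (nat_lit 0) (nat_lit 1636012030320) (nat_lit 76) (nat_lit 740280751495) (nat_lit 76) (nat_lit 250291957416) (nat_lit 7) (nat_lit 4) (nat_lit 8) (nat_lit 5) (nat_lit 8) (nat_lit 4) (nat_lit 401) (nat_lit 346) (nat_lit 153))) (XT.nd (nat_lit 78)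 (nat_lit 76) (nat_lit 0) (XT.lf (nat_lit 0) (nat_lit 25269927769) (nat_lit 152) (nat_lit 437427357173) (nat_lit 76) (nat_lit 2348984987611) (nat_lit 6) (nat_lit 5) (nat_lit 8) (nat_lit 5) (nat_lit 7) (nat_lit 4) (nat_lit 402) (nat_lit 346) (nat_lit 152)) (XT.lf (nat_lit 0) (nat_lit 161549880634) (nat_lit 76) (nat_lit 151689878726) (nat_lit 152) (nat_lit 2697516941010) (nat_lit 5) (nat_lit 5) (nat_lit 6) (nat_lit 5) (nat_lit 7) (nat_lit 4) (nat_lit 403) (nat_lit 346) (nat_lit 151))))) (XT.nd (nat_lit 42510) (nat_lit 0) (nat_lit 3724) (XT.nd (nat_lit 156) (nat_lit 0) (nat_lit 0) (XT.nd (nat_lit 78) (nat_lit 0) (nat_lit 0) (XT.lf (nat_lit 0) (nat_lit 640947820154) (nat_lit 152) (nat_lit 2396218751674) (nat_lit 0) (nat_lit 187254459174) (nat_lit 5) (nat_lit 5) (nat_lit 7) (nat_lit 4) (nat_lit 5) (nat_lit 4) (nat_lit 404) (nat_lit 346) (nat_lit 150)) (XT.lf (nat_lit 0) (nat_lit 998812507807)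 (nat_lit 152) (nat_lit 1910931664342) (nat_lit 0) (nat_lit 545119137379) (nat_lit 5) (nat_lit 5) (nat_lit 7) (nat_lit 4) (nat_lit 5) (nat_lit 4) (nat_lit 405) (nat_lit 346) (nat_lit 149))) (XT.nd (nat_lit 42276) (nat_lit 0) (nat_lit 3724) (XT.lf (nat_lit 0) (nat_lit 1385306356720) (nat_lit 152) (nat_lit 1386821637178) (nat_lit 0) (nat_lit 931612977543) (nat_lit 5) (nat_lit 5) (nat_lit 7) (nat_lit 4) (nat_lit 5) (nat_lit 4) (nat_lit 406) (nat_lit 346) (nat_lit 148)) (XT.lf (nat_lit 0) (nat_lit 58509215822) (nat_lit 532) (nat_lit 8672964998) (nat_lit 532) (nat_lit 8672964998) (nat_lit 54) (nat_lit 3) (nat_lit 61) (nat_lit 3) (nat_lit 61) (nat_lit 5) (nat_lit 347) (nat_lit 347) (nat_lit 206)))) (XT.nd (nat_lit 156) (nat_lit 0) (nat_lit 76) (XT.nd (nat_lit 78) (nat_lit 0) (nat_lit 76) (XT.lf (nat_lit 76) (nat_lit 57349218642) (nat_lit 0) (nat_lit 65731834019) (nat_lit 532) (nat_lit 34587095132)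 (nat_lit 55) (nat_lit 5) (nat_lit 54) (nat_lit 3) (nat_lit 61) (nat_lit 5) (nat_lit 348) (nat_lit 347) (nat_lit 205)) (XT.lf (nat_lit 0) (nat_lit 130316817068) (nat_lit 456) (nat_lit 25272537606) (nat_lit 532) (nat_lit 8458227551) (nat_lit 55) (nat_lit 5) (nat_lit 61) (nat_lit 5) (nat_lit 62) (nat_lit 5) (nat_lit 349) (nat_lit 347) (nat_lit 204))) (XT.nd (nat_lit 78) (nat_lit 0) (nat_lit 0) (XT.lf (nat_lit 76) (nat_lit 56917317900) (nat_lit 0) (nat_lit 84290063245) (nat_lit 532) (nat_lit 29483915630) (nat_lit 56) (nat_lit 5) (nat_lit 55) (nat_lit 5) (nat_lit 62) (nat_lit 5) (nat_lit 350) (nat_lit 347) (nat_lit 203)) (XT.nd (nat_lit 78) (nat_lit 0) (nat_lit 76) (XT.lf (nat_lit 76) (nat_lit 147119475792) (nat_lit 0) (nat_lit 6540480147) (nat_lit 532) (nat_lit 24151291715) (nat_lit 56) (nat_lit 5) (nat_lit 55) (nat_lit 5) (nat_lit 62) (nat_lit 5) (nat_lit 351) (nat_lit 347) (nat_lit 202))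 (XT.lf (nat_lit 76) (nat_lit 60185392774) (nat_lit 0) (nat_lit 110232763384) (nat_lit 532) (nat_lit 14817885274) (nat_lit 57) (nat_lit 5) (nat_lit 56) (nat_lit 5) (nat_lit 63) (nat_lit 5) (nat_lit 352) (nat_lit 347) (nat_lit 201))))))) (XT.nd (nat_lit 702) (nat_lit 988) (nat_lit 0) (XT.nd (nat_lit 312) (nat_lit 456) (nat_lit 0) (XT.nd (nat_lit 156) (nat_lit 304) (nat_lit 0) (XT.nd (nat_lit 78) (nat_lit 456) (nat_lit 0) (XT.lf (nat_lit 76) (nat_lit 159899209656) (nat_lit 0) (nat_lit 29622352068) (nat_lit 532) (nat_lit 3652893395) (nat_lit 57) (nat_lit 5) (nat_lit 56) (nat_lit 5) (nat_lit 63) (nat_lit 5) (nat_lit 353) (nat_lit 347) (nat_lit 200)) (XT.lf (nat_lit 0) (nat_lit 11076182601) (nat_lit 532) (nat_lit 133932253860) (nat_lit 76) (nat_lit 56476025789) (nat_lit 50) (nat_lit 5) (nat_lit 57) (nat_lit 5) (nat_lit 51) (nat_lit 5) (nat_lit 354) (nat_lit 347) (nat_lit 199))) (XT.nd (nat_lit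 78) (nat_lit 304) (nat_lit 0) (XT.lf (nat_lit 0) (nat_lit 28488901508) (nat_lit 532) (nat_lit 32936328238) (nat_lit 76) (nat_lit 148890236622) (nat_lit 50) (nat_lit 5) (nat_lit 57) (nat_lit 5) (nat_lit 51) (nat_lit 5) (nat_lit 355) (nat_lit 347) (nat_lit 198)) (XT.lf (nat_lit 0) (nat_lit 49965825598) (nat_lit 380) (nat_lit 140294075343) (nat_lit 76) (nat_lit 29379355121) (nat_lit 46) (nat_lit 5) (nat_lit 51) (nat_lit 5) (nat_lit 47) (nat_lit 5) (nat_lit 356) (nat_lit 347) (nat_lit 197)))) (XT.nd (nat_lit 156) (nat_lit 228) (nat_lit 0) (XT.nd (nat_lit 78) (nat_lit 228) (nat_lit 0) (XT.lf (nat_lit 0) (nat_lit 75680135007) (nat_lit 380) (nat_lit 28773595248) (nat_lit 76) (nat_lit 125053680407) (nat_lit 46) (nat_lit 5) (nat_lit 51) (nat_lit 5) (nat_lit 47) (nat_lit 5) (nat_lit 357) (nat_lit 347) (nat_lit 196)) (XT.lf (nat_lit 0) (nat_lit 96495462673) (nat_lit 228) (nat_lit 9276699054) (nat_lit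 304) (nat_lit 134207210319) (nat_lit 43) (nat_lit 5) (nat_lit 46) (nat_lit 5) (nat_lit 47) (nat_lit 5) (nat_lit 358) (nat_lit 347) (nat_lit 195))) (XT.nd (nat_lit 78) (nat_lit 228) (nat_lit 0) (XT.lf (nat_lit 0) (nat_lit 141327593070) (nat_lit 304) (nat_lit 20073349248) (nat_lit 76) (nat_lit 89643664833) (nat_lit 43) (nat_lit 5) (nat_lit 47) (nat_lit 5) (nat_lit 44) (nat_lit 5) (nat_lit 359) (nat_lit 347) (nat_lit 194)) (XT.nd (nat_lit 78) (nat_lit 0) (nat_lit 0) (XT.lf (nat_lit 0) (nat_lit 118917697774) (nat_lit 228) (nat_lit 63910559377) (nat_lit 304) (nat_lit 79918740245) (nat_lit 40) (nat_lit 5) (nat_lit 43) (nat_lit 5) (nat_lit 44) (nat_lit 5) (nat_lit 360) (nat_lit 347) (nat_lit 193)) (XT.lf (nat_lit 0) (nat_lit 229207115126) (nat_lit 304) (nat_lit 6181631908) (nat_lit 76) (nat_lit 39872180741) (nat_lit 40) (nat_lit 5) (nat_lit 44) (nat_lit 5) (nat_lit 41) (nat_lit 5) (nat_lit 361)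 (nat_lit 347) (nat_lit 192)))))) (XT.nd (nat_lit 312) (nat_lit 380) (nat_lit 0) (XT.nd (nat_lit 156) (nat_lit 152) (nat_lit 0) (XT.nd (nat_lit 78) (nat_lit 304) (nat_lit 0) (XT.lf (nat_lit 0) (nat_lit 148232901065) (nat_lit 152) (nat_lit 136288286122) (nat_lit 228) (nat_lit 3836793126) (nat_lit 38) (nat_lit 5) (nat_lit 40) (nat_lit 5) (nat_lit 41) (nat_lit 5) (nat_lit 362) (nat_lit 347) (nat_lit 191)) (XT.lf (nat_lit 0) (nat_lit 12478282979) (nat_lit 228) (nat_lit 27663819313) (nat_lit 304) (nat_lit 262242481383) (nat_lit 34) (nat_lit 5) (nat_lit 37) (nat_lit 5) (nat_lit 38) (nat_lit 5) (nat_lit 363) (nat_lit 347) (nat_lit 190))) (XT.nd (nat_lit 78) (nat_lit 152) (nat_lit 0) (XT.lf (nat_lit 0) (nat_lit 93518795694) (nat_lit 304) (nat_lit 134323282099) (nat_lit 76) (nat_lit 89196323259) (nat_lit 34) (nat_lit 5) (nat_lit 38) (nat_lit 5) (nat_lit 35) (nat_lit 5) (nat_lit 364) (nat_lit 347)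 (nat_lit 189)) (XT.lf (nat_lit 0) (nat_lit 34724771861) (nat_lit 152) (nat_lit 117994425241) (nat_lit 228) (nat_lit 180021041035) (nat_lit 32) (nat_lit 5) (nat_lit 34) (nat_lit 5) (nat_lit 35) (nat_lit 5) (nat_lit 365) (nat_lit 347) (nat_lit 188)))) (XT.nd (nat_lit 156) (nat_lit 228) (nat_lit 0) (XT.nd (nat_lit 78) (nat_lit 152) (nat_lit 0) (XT.lf (nat_lit 0) (nat_lit 220438980720) (nat_lit 228) (nat_lit 124579609599) (nat_lit 76) (nat_lit 4376963974) (nat_lit 32) (nat_lit 5) (nat_lit 35) (nat_lit 5) (nat_lit 33) (nat_lit 5) (nat_lit 366) (nat_lit 347) (nat_lit 187)) (XT.lf (nat_lit 0) (nat_lit 62808109531) (nat_lit 152) (nat_lit 235343474814) (nat_lit 228) (nat_lit 68865692513) (nat_lit 30) (nat_lit 5) (nat_lit 32) (nat_lit 5) (nat_lit 33) (nat_lit 5) (nat_lit 367) (nat_lit 347) (nat_lit 186))) (XT.nd (nat_lit 78) (nat_lit 228) (nat_lit 0) (XT.lf (nat_lit 0) (nat_lit 272271670487) (nat_lit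 152) (nat_lit 113215667123) (nat_lit 228) (nat_lit 288908408) (nat_lit 30) (nat_lit 5) (nat_lit 32) (nat_lit 5) (nat_lit 33) (nat_lit 5) (nat_lit 368) (nat_lit 347) (nat_lit 185)) (XT.nd (nat_lit 78) (nat_lit 0) (nat_lit 0) (XT.lf (nat_lit 0) (nat_lit 72934233136) (nat_lit 228) (nat_lit 310808216815) (nat_lit 76) (nat_lit 21923486295) (nat_lit 27) (nat_lit 5) (nat_lit 30) (nat_lit 5) (nat_lit 28) (nat_lit 5) (nat_lit 369) (nat_lit 347) (nat_lit 184)) (XT.lf (nat_lit 0) (nat_lit 158124229004) (nat_lit 228) (nat_lit 103583329220) (nat_lit 76) (nat_lit 164948674289) (nat_lit 27) (nat_lit 5) (nat_lit 30) (nat_lit 5) (nat_lit 28) (nat_lit 5) (nat_lit 370) (nat_lit 347) (nat_lit 183))))))))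
noncomputable def xc216 : XT := (XT.nd (nat_lit 1326) (nat_lit 684) (nat_lit 0) (XT.nd (nat_lit 624) (nat_lit 456) (nat_lit 0) (XT.nd (nat_lit 312) (nat_lit 228) (nat_lit 0) (XT.nd (nat_lit 156) (nat_lit 152) (nat_lit 0) (XT.nd (nat_lit 78) (nat_lit 0) (nat_lit 0) (XT.lf (nat_lit 0) (nat_lit 126549975388) (nat_lit 152) (nat_lit 126622905425) (nat_lit 228) (nat_lit 195909395241) (nat_lit 25) (nat_lit 5) (nat_lit 27) (nat_lit 5) (nat_lit 28) (nat_lit 5) (nat_lit 371) (nat_lit 347) (nat_lit 182)) (XT.lf (nat_lit 0) (nat_lit 359194475326) (nat_lit 228) (nat_lit 92628099665) (nat_lit 76) (nat_lit 21210304103) (nat_lit 25) (nat_lit 5) (nat_lit 28) (nat_lit 5) (nat_lit 26) (nat_lit 4) (nat_lit 372) (nat_lit 347) (nat_lit 181))) (XT.nd (nat_lit 78) (nat_lit 76) (nat_lit 0) (XT.lf (nat_lit 0) (nat_lit 160403451751) (nat_lit 76) (nat_lit 320440892518) (nat_lit 152) (nat_lit 17483462422) (nat_lit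 24) (nat_lit 5) (nat_lit 25) (nat_lit 5) (nat_lit 26) (nat_lit 4) (nat_lit 373) (nat_lit 347) (nat_lit 180)) (XT.lf (nat_lit 0) (nat_lit 84847130926) (nat_lit 152) (nat_lit 88646490182) (nat_lit 76) (nat_lit 351778260981) (nat_lit 23) (nat_lit 5) (nat_lit 25) (nat_lit 5) (nat_lit 24) (nat_lit 5) (nat_lit 374) (nat_lit 347) (nat_lit 179)))) (XT.nd (nat_lit 156) (nat_lit 76) (nat_lit 0) (XT.nd (nat_lit 78) (nat_lit 0) (nat_lit 0) (XT.lf (nat_lit 0) (nat_lit 189604153583) (nat_lit 152) (nat_lit 9375380426) (nat_lit 228) (nat_lit 354990826418) (nat_lit 21) (nat_lit 5) (nat_lit 23) (nat_lit 5) (nat_lit 24) (nat_lit 5) (nat_lit 375) (nat_lit 347) (nat_lit 178)) (XT.lf (nat_lit 0) (nat_lit 328766509465) (nat_lit 228) (nat_lit 93714954626) (nat_lit 76) (nat_lit 161961334574) (nat_lit 21) (nat_lit 5) (nat_lit 24) (nat_lit 5) (nat_lit 22) (nat_lit 4) (nat_lit 376) (nat_lit 347) (nat_lit 177))) (XT.nd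 (nat_lit 78) (nat_lit 0) (nat_lit 0) (XT.lf (nat_lit 0) (nat_lit 208789270824) (nat_lit 76) (nat_lit 265412019998) (nat_lit 152) (nat_lit 142730553353) (nat_lit 20) (nat_lit 5) (nat_lit 21) (nat_lit 5) (nat_lit 22) (nat_lit 4) (nat_lit 377) (nat_lit 347) (nat_lit 176)) (XT.lf (nat_lit 0) (nat_lit 540823393739) (nat_lit 76) (nat_lit 93009740263) (nat_lit 152) (nat_lit 17981897015) (nat_lit 20) (nat_lit 5) (nat_lit 21) (nat_lit 5) (nat_lit 22) (nat_lit 4) (nat_lit 378) (nat_lit 347) (nat_lit 175))))) (XT.nd (nat_lit 312) (nat_lit 228) (nat_lit 0) (XT.nd (nat_lit 156) (nat_lit 76) (nat_lit 0) (XT.nd (nat_lit 78) (nat_lit 0) (nat_lit 0) (XT.lf (nat_lit 0) (nat_lit 118600315037) (nat_lit 152) (nat_lit 473264703679) (nat_lit 76) (nat_lit 96783729058) (nat_lit 18) (nat_lit 5) (nat_lit 20) (nat_lit 5) (nat_lit 19) (nat_lit 4) (nat_lit 379) (nat_lit 347) (nat_lit 174)) (XT.lf (nat_lit 0) (nat_lit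 270666933425) (nat_lit 152) (nat_lit 156966225467) (nat_lit 76) (nat_lit 300316292517) (nat_lit 18) (nat_lit 5) (nat_lit 20) (nat_lit 5) (nat_lit 19) (nat_lit 4) (nat_lit 380) (nat_lit 347) (nat_lit 173))) (XT.nd (nat_lit 78) (nat_lit 0) (nat_lit 0) (XT.lf (nat_lit 0) (nat_lit 194358655002) (nat_lit 76) (nat_lit 245214510147) (nat_lit 152) (nat_lit 330447103506) (nat_lit 17) (nat_lit 5) (nat_lit 18) (nat_lit 5) (nat_lit 19) (nat_lit 4) (nat_lit 381) (nat_lit 347) (nat_lit 172)) (XT.lf (nat_lit 0) (nat_lit 582716253260) (nat_lit 76) (nat_lit 43567331953) (nat_lit 152) (nat_lit 188829830908) (nat_lit 17) (nat_lit 5) (nat_lit 18) (nat_lit 5) (nat_lit 19) (nat_lit 4) (nat_lit 382) (nat_lit 347) (nat_lit 171)))) (XT.nd (nat_lit 156) (nat_lit 76) (nat_lit 0) (XT.nd (nat_lit 78) (nat_lit 76) (nat_lit 0) (XT.lf (nat_lit 0) (nat_lit 141202072329) (nat_lit 76) (nat_lit 694314431013) (nat_lit 76)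 (nat_lit 27690658910) (nat_lit 16) (nat_lit 4) (nat_lit 17) (nat_lit 5) (nat_lit 17) (nat_lit 4) (nat_lit 383) (nat_lit 347) (nat_lit 170)) (XT.lf (nat_lit 0) (nat_lit 146669914982) (nat_lit 152) (nat_lit 361550408856) (nat_lit 76) (nat_lit 406034464898) (nat_lit 15) (nat_lit 5) (nat_lit 17) (nat_lit 5) (nat_lit 16) (nat_lit 4) (nat_lit 384) (nat_lit 347) (nat_lit 169))) (XT.nd (nat_lit 78) (nat_lit 0) (nat_lit 0) (XT.lf (nat_lit 0) (nat_lit 28444232463) (nat_lit 76) (nat_lit 305723132901) (nat_lit 152) (nat_lit 635106597329) (nat_lit 14) (nat_lit 5) (nat_lit 15) (nat_lit 5) (nat_lit 16) (nat_lit 4) (nat_lit 385) (nat_lit 347) (nat_lit 168)) (XT.nd (nat_lit 78) (nat_lit 0) (nat_lit 0) (XT.lf (nat_lit 0) (nat_lit 470200066979) (nat_lit 76) (nat_lit 76349935830) (nat_lit 152) (nat_lit 481353836495) (nat_lit 14) (nat_lit 5) (nat_lit 15) (nat_lit 5) (nat_lit 16) (nat_lit 4) (nat_lit 386) (nat_lit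 347) (nat_lit 167)) (XT.lf (nat_lit 0) (nat_lit 780044743049) (nat_lit 152) (nat_lit 148049332496) (nat_lit 0) (nat_lit 162800311171) (nat_lit 14) (nat_lit 5) (nat_lit 16) (nat_lit 4) (nat_lit 14) (nat_lit 4) (nat_lit 387) (nat_lit 347) (nat_lit 166))))))) (XT.nd (nat_lit 624) (nat_lit 304) (nat_lit 0) (XT.nd (nat_lit 312) (nat_lit 152) (nat_lit 0) (XT.nd (nat_lit 156) (nat_lit 76) (nat_lit 0) (XT.nd (nat_lit 78) (nat_lit 76) (nat_lit 0) (XT.lf (nat_lit 0) (nat_lit 307791250042) (nat_lit 76) (nat_lit 733813281512) (nat_lit 76) (nat_lit 116568808856) (nat_lit 13) (nat_lit 4) (nat_lit 14) (nat_lit 5) (nat_lit 14) (nat_lit 4) (nat_lit 388) (nat_lit 347) (nat_lit 165)) (XT.lf (nat_lit 0) (nat_lit 92742564527) (nat_lit 152) (nat_lit 424339976195) (nat_lit 76) (nat_lit 713240404733) (nat_lit 12) (nat_lit 5) (nat_lit 14) (nat_lit 5) (nat_lit 13) (nat_lit 4) (nat_lit 389) (nat_lit 347) (nat_lit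 164))) (XT.nd (nat_lit 78) (nat_lit 0) (nat_lit 0) (XT.lf (nat_lit 0) (nat_lit 34482649938) (nat_lit 76) (nat_lit 278847732422) (nat_lit 152) (nat_lit 994605573411) (nat_lit 11) (nat_lit 5) (nat_lit 12) (nat_lit 5) (nat_lit 13) (nat_lit 4) (nat_lit 390) (nat_lit 347) (nat_lit 163)) (XT.lf (nat_lit 0) (nat_lit 554143620358) (nat_lit 76) (nat_lit 9023782575) (nat_lit 152) (nat_lit 827662429808) (nat_lit 11) (nat_lit 5) (nat_lit 12) (nat_lit 5) (nat_lit 13) (nat_lit 4) (nat_lit 391) (nat_lit 347) (nat_lit 162)))) (XT.nd (nat_lit 156) (nat_lit 76) (nat_lit 0) (XT.nd (nat_lit 78) (nat_lit 76) (nat_lit 0) (XT.lf (nat_lit 0) (nat_lit 839782749215) (nat_lit 152) (nat_lit 371769197244) (nat_lit 0) (nat_lit 268259964292) (nat_lit 11) (nat_lit 5) (nat_lit 13) (nat_lit 4) (nat_lit 11) (nat_lit 4) (nat_lit 392) (nat_lit 347) (nat_lit 161)) (XT.lf (nat_lit 0) (nat_lit 136957936069) (nat_lit 76) (nat_lit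 1005097586796) (nat_lit 76) (nat_lit 433574776176) (nat_lit 10) (nat_lit 4) (nat_lit 11) (nat_lit 5) (nat_lit 11) (nat_lit 4) (nat_lit 393) (nat_lit 347) (nat_lit 160))) (XT.nd (nat_lit 78) (nat_lit 76) (nat_lit 0) (XT.lf (nat_lit 0) (nat_lit 707526035253) (nat_lit 76) (nat_lit 771148886641) (nat_lit 76) (nat_lit 199626052228) (nat_lit 10) (nat_lit 4) (nat_lit 11) (nat_lit 5) (nat_lit 11) (nat_lit 4) (nat_lit 394) (nat_lit 347) (nat_lit 159)) (XT.lf (nat_lit 0) (nat_lit 50385341630) (nat_lit 152) (nat_lit 466721345852) (nat_lit 76) (nat_lit 1271976571340) (nat_lit 9) (nat_lit 5) (nat_lit 11) (nat_lit 5) (nat_lit 10) (nat_lit 4) (nat_lit 395) (nat_lit 347) (nat_lit 158))))) (XT.nd (nat_lit 312) (nat_lit 228) (nat_lit 0) (XT.nd (nat_lit 156) (nat_lit 0) (nat_lit 0) (XT.nd (nat_lit 78) (nat_lit 0) (nat_lit 0) (XT.lf (nat_lit 0) (nat_lit 76287615093) (nat_lit 76) (nat_lit 235159736799) (nat_lit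 152) (nat_lit 1596719191288) (nat_lit 8) (nat_lit 5) (nat_lit 9) (nat_lit 5) (nat_lit 10) (nat_lit 4) (nat_lit 396) (nat_lit 347) (nat_lit 157)) (XT.lf (nat_lit 0) (nat_lit 608154444006) (nat_lit 152) (nat_lit 1348474659017) (nat_lit 0) (nat_lit 78966577588) (nat_lit 8) (nat_lit 5) (nat_lit 10) (nat_lit 4) (nat_lit 8) (nat_lit 4) (nat_lit 397) (nat_lit 347) (nat_lit 156))) (XT.nd (nat_lit 78) (nat_lit 0) (nat_lit 0) (XT.lf (nat_lit 0) (nat_lit 934706128218) (nat_lit 152) (nat_lit 832506133241) (nat_lit 0) (nat_lit 405518245606) (nat_lit 8) (nat_lit 5) (nat_lit 10) (nat_lit 4) (nat_lit 8) (nat_lit 4) (nat_lit 398) (nat_lit 347) (nat_lit 155)) (XT.lf (nat_lit 0) (nat_lit 1287381928294) (nat_lit 152) (nat_lit 275260162167) (nat_lit 0) (nat_lit 758194030688) (nat_lit 8) (nat_lit 5) (nat_lit 10) (nat_lit 4) (nat_lit 8) (nat_lit 4) (nat_lit 399) (nat_lit 347) (nat_lit 154)))) (XT.nd (nat_lit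 156) (nat_lit 152) (nat_lit 0) (XT.nd (nat_lit 78) (nat_lit 0) (nat_lit 0) (XT.lf (nat_lit 0) (nat_lit 343761810556) (nat_lit 76) (nat_lit 1332777444156) (nat_lit 76) (nat_lit 803589532667) (nat_lit 7) (nat_lit 4) (nat_lit 8) (nat_lit 5) (nat_lit 8) (nat_lit 4) (nat_lit 400) (nat_lit 347) (nat_lit 153)) (XT.lf (nat_lit 0) (nat_lit 1027959797241) (nat_lit 76) (nat_lit 1076395453661) (nat_lit 76) (nat_lit 547207529317) (nat_lit 7) (nat_lit 4) (nat_lit 8) (nat_lit 5) (nat_lit 8) (nat_lit 4) (nat_lit 401) (nat_lit 347) (nat_lit 152))) (XT.nd (nat_lit 78) (nat_lit 152) (nat_lit 0) (XT.lf (nat_lit 0) (nat_lit 1766893592138) (nat_lit 76) (nat_lit 799502918928) (nat_lit 76) (nat_lit 270314982682) (nat_lit 7) (nat_lit 4) (nat_lit 8) (nat_lit 5) (nat_lit 8) (nat_lit 4) (nat_lit 402) (nat_lit 347) (nat_lit 151)) (XT.nd (nat_lit 78) (nat_lit 76) (nat_lit 0) (XT.lf (nat_lit 0) (nat_lit 27291813429)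 (nat_lit 152) (nat_lit 472420975334) (nat_lit 76) (nat_lit 2536904042206) (nat_lit 6) (nat_lit 5) (nat_lit 8) (nat_lit 5) (nat_lit 7) (nat_lit 4) (nat_lit 403) (nat_lit 347) (nat_lit 150)) (XT.lf (nat_lit 0) (nat_lit 174474427057) (nat_lit 76) (nat_lit 163824796274) (nat_lit 152) (nat_lit 2913317990344) (nat_lit 5) (nat_lit 5) (nat_lit 6) (nat_lit 5) (nat_lit 7) (nat_lit 4) (nat_lit 404) (nat_lit 347) (nat_lit 149))))))))
noncomputable def xc217 : XT := (XT.nd (nat_lit 43602) (nat_lit 0) (nat_lit 1140) (XT.nd (nat_lit 42900) (nat_lit 0) (nat_lit 2660) (XT.nd (nat_lit 42588) (nat_lit 0) (nat_lit 3800) (XT.nd (nat_lit 42432) (nat_lit 0) (nat_lit 3724) (XT.nd (nat_lit 78) (nat_lit 0) (nat_lit 0) (XT.lf (nat_lit 0) (nat_lit 692223914082) (nat_lit 152) (nat_lit 2587915722051) (nat_lit 0) (nat_lit 202235055822) (nat_lit 5) (nat_lit 5) (nat_lit 7) (nat_lit 4) (nat_lit 5) (nat_lit 4) (nat_lit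 405) (nat_lit 347) (nat_lit 148)) (XT.lf (nat_lit 0) (nat_lit 1078717756872) (nat_lit 152) (nat_lit 2063805706974) (nat_lit 0) (nat_lit 588728890512) (nat_lit 5) (nat_lit 5) (nat_lit 7) (nat_lit 4) (nat_lit 5) (nat_lit 4) (nat_lit 406) (nat_lit 347) (nat_lit 147))) (XT.nd (nat_lit 78) (nat_lit 0) (nat_lit 0) (XT.lf (nat_lit 0) (nat_lit 63192523412) (nat_lit 532) (nat_lit 9365411876) (nat_lit 532) (nat_lit 9365411876) (nat_lit 54) (nat_lit 3) (nat_lit 61) (nat_lit 3) (nat_lit 61) (nat_lit 5) (nat_lit 348) (nat_lit 348) (nat_lit 204)) (XT.lf (nat_lit 76) (nat_lit 61939866383) (nat_lit 0) (nat_lit 70992495532) (nat_lit 532) (nat_lit 37348843004) (nat_lit 55) (nat_lit 5) (nat_lit 54) (nat_lit 3) (nat_lit 61) (nat_lit 5) (nat_lit 349) (nat_lit 348) (nat_lit 203)))) (XT.nd (nat_lit 156) (nat_lit 0) (nat_lit 0) (XT.nd (nat_lit 78) (nat_lit 0) (nat_lit 0) (XT.lf (nat_lit 0) (nat_lit 140746582970)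 (nat_lit 456) (nat_lit 27291418570) (nat_lit 532) (nat_lit 9133025569) (nat_lit 55) (nat_lit 5) (nat_lit 61) (nat_lit 5) (nat_lit 62) (nat_lit 5) (nat_lit 350) (nat_lit 348) (nat_lit 202)) (XT.lf (nat_lit 76) (nat_lit 61473551400) (nat_lit 0) (nat_lit 91034581822) (nat_lit 532) (nat_lit 31838126913) (nat_lit 56) (nat_lit 5) (nat_lit 55) (nat_lit 5) (nat_lit 62) (nat_lit 5) (nat_lit 351) (nat_lit 348) (nat_lit 201))) (XT.nd (nat_lit 78) (nat_lit 0) (nat_lit 76) (XT.lf (nat_lit 76) (nat_lit 158891670956) (nat_lit 0) (nat_lit 7064934779) (nat_lit 532) (nat_lit 26079226564) (nat_lit 56) (nat_lit 5) (nat_lit 55) (nat_lit 5) (nat_lit 62) (nat_lit 5) (nat_lit 352) (nat_lit 348) (nat_lit 200)) (XT.lf (nat_lit 76) (nat_lit 65003130233) (nat_lit 0) (nat_lit 119052089114) (nat_lit 532) (nat_lit 15999410154) (nat_lit 57) (nat_lit 5) (nat_lit 56) (nat_lit 5) (nat_lit 63) (nat_lit 5) (nat_lit 353) (nat_lit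 348) (nat_lit 199))))) (XT.nd (nat_lit 312) (nat_lit 456) (nat_lit 0) (XT.nd (nat_lit 156) (nat_lit 304) (nat_lit 0) (XT.nd (nat_lit 78) (nat_lit 456) (nat_lit 0) (XT.lf (nat_lit 76) (nat_lit 172693837203) (nat_lit 0) (nat_lit 31992792695) (nat_lit 532) (nat_lit 3941508253) (nat_lit 57) (nat_lit 5) (nat_lit 56) (nat_lit 5) (nat_lit 63) (nat_lit 5) (nat_lit 354) (nat_lit 348) (nat_lit 198)) (XT.lf (nat_lit 0) (nat_lit 11965515167) (nat_lit 532) (nat_lit 144643754187) (nat_lit 76) (nat_lit 60993685766) (nat_lit 50) (nat_lit 5) (nat_lit 57) (nat_lit 5) (nat_lit 51) (nat_lit 5) (nat_lit 355) (nat_lit 348) (nat_lit 197))) (XT.nd (nat_lit 78) (nat_lit 304) (nat_lit 0) (XT.lf (nat_lit 0) (nat_lit 30771011738) (nat_lit 532) (nat_lit 35568382662) (nat_lit 76) (nat_lit 160801064732) (nat_lit 50) (nat_lit 5) (nat_lit 57) (nat_lit 5) (nat_lit 51) (nat_lit 5) (nat_lit 356) (nat_lit 348) (nat_lit 196))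 (XT.lf (nat_lit 0) (nat_lit 53965933002) (nat_lit 380) (nat_lit 151514588433) (nat_lit 76) (nat_lit 31729643454) (nat_lit 46) (nat_lit 5) (nat_lit 51) (nat_lit 5) (nat_lit 47) (nat_lit 5) (nat_lit 357) (nat_lit 348) (nat_lit 195)))) (XT.nd (nat_lit 156) (nat_lit 228) (nat_lit 0) (XT.nd (nat_lit 78) (nat_lit 228) (nat_lit 0) (XT.lf (nat_lit 0) (nat_lit 81737176693) (nat_lit 380) (nat_lit 31072693110) (nat_lit 76) (nat_lit 135057919213) (nat_lit 46) (nat_lit 5) (nat_lit 51) (nat_lit 5) (nat_lit 47) (nat_lit 5) (nat_lit 358) (nat_lit 348) (nat_lit 194)) (XT.lf (nat_lit 0) (nat_lit 104217818817) (nat_lit 228) (nat_lit 10018617249) (nat_lit 304) (nat_lit 144941081903) (nat_lit 43) (nat_lit 5) (nat_lit 46) (nat_lit 5) (nat_lit 47) (nat_lit 5) (nat_lit 359) (nat_lit 348) (nat_lit 193))) (XT.nd (nat_lit 78) (nat_lit 228) (nat_lit 0) (XT.lf (nat_lit 0) (nat_lit 152636121476) (nat_lit 304) (nat_lit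 21676515581) (nat_lit 76) (nat_lit 96815349536) (nat_lit 43) (nat_lit 5) (nat_lit 47) (nat_lit 5) (nat_lit 44) (nat_lit 5) (nat_lit 360) (nat_lit 348) (nat_lit 192)) (XT.nd (nat_lit 78) (nat_lit 0) (nat_lit 0) (XT.lf (nat_lit 0) (nat_lit 128433746807) (nat_lit 228) (nat_lit 69022983281) (nat_lit 304) (nat_lit 86309846912) (nat_lit 40) (nat_lit 5) (nat_lit 43) (nat_lit 5) (nat_lit 44) (nat_lit 5) (nat_lit 361) (nat_lit 348) (nat_lit 191)) (XT.lf (nat_lit 0) (nat_lit 247545742195) (nat_lit 304) (nat_lit 6673566834) (nat_lit 76) (nat_lit 43062325379) (nat_lit 40) (nat_lit 5) (nat_lit 44) (nat_lit 5) (nat_lit 41) (nat_lit 5) (nat_lit 362) (nat_lit 348) (nat_lit 190))))))) (XT.nd (nat_lit 624) (nat_lit 532) (nat_lit 0) (XT.nd (nat_lit 312) (nat_lit 380) (nat_lit 0) (XT.nd (nat_lit 156) (nat_lit 152) (nat_lit 0) (XT.nd (nat_lit 78) (nat_lit 304) (nat_lit 0) (XT.lf (nat_lit 0) (nat_lit 160094063064)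 (nat_lit 152) (nat_lit 147190785367) (nat_lit 228) (nat_lit 4141610265) (nat_lit 38) (nat_lit 5) (nat_lit 40) (nat_lit 5) (nat_lit 41) (nat_lit 5) (nat_lit 363) (nat_lit 348) (nat_lit 189)) (XT.lf (nat_lit 0) (nat_lit 13479117631) (nat_lit 228) (nat_lit 29876285021) (nat_lit 304) (nat_lit 283219790793) (nat_lit 34) (nat_lit 5) (nat_lit 37) (nat_lit 5) (nat_lit 38) (nat_lit 5) (nat_lit 364) (nat_lit 348) (nat_lit 188))) (XT.nd (nat_lit 78) (nat_lit 152) (nat_lit 0) (XT.lf (nat_lit 0) (nat_lit 101002102651) (nat_lit 304) (nat_lit 145066632121) (nat_lit 76) (nat_lit 96332591925) (nat_lit 34) (nat_lit 5) (nat_lit 38) (nat_lit 5) (nat_lit 35) (nat_lit 5) (nat_lit 365) (nat_lit 348) (nat_lit 187)) (XT.lf (nat_lit 0) (nat_lit 37505202547) (nat_lit 152) (nat_lit 127433258943) (nat_lit 228) (nat_lit 194420855394) (nat_lit 32) (nat_lit 5) (nat_lit 34) (nat_lit 5) (nat_lit 35) (nat_lit 5) (nat_lit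 366) (nat_lit 348) (nat_lit 186)))) (XT.nd (nat_lit 156) (nat_lit 228) (nat_lit 0) (XT.nd (nat_lit 78) (nat_lit 152) (nat_lit 0) (XT.lf (nat_lit 0) (nat_lit 238075715792) (nat_lit 228) (nat_lit 134543596961) (nat_lit 76) (nat_lit 4727754689) (nat_lit 32) (nat_lit 5) (nat_lit 35) (nat_lit 5) (nat_lit 33) (nat_lit 5) (nat_lit 367) (nat_lit 348) (nat_lit 185)) (XT.lf (nat_lit 0) (nat_lit 67835079410) (nat_lit 152) (nat_lit 254170184371) (nat_lit 228) (nat_lit 74373269284) (nat_lit 30) (nat_lit 5) (nat_lit 32) (nat_lit 5) (nat_lit 33) (nat_lit 5) (nat_lit 368) (nat_lit 348) (nat_lit 184))) (XT.nd (nat_lit 78) (nat_lit 228) (nat_lit 0) (XT.lf (nat_lit 0) (nat_lit 294055553308) (nat_lit 152) (nat_lit 122272208985) (nat_lit 228) (nat_lit 310466793) (nat_lit 30) (nat_lit 5) (nat_lit 32) (nat_lit 5) (nat_lit 33) (nat_lit 5) (nat_lit 369) (nat_lit 348) (nat_lit 183)) (XT.lf (nat_lit 0) (nat_lit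 78770409286) (nat_lit 228) (nat_lit 335670605338) (nat_lit 76) (nat_lit 23678080150) (nat_lit 27) (nat_lit 5) (nat_lit 30) (nat_lit 5) (nat_lit 28) (nat_lit 5) (nat_lit 370) (nat_lit 348) (nat_lit 182))))) (XT.nd (nat_lit 312) (nat_lit 304) (nat_lit 0) (XT.nd (nat_lit 156) (nat_lit 76) (nat_lit 0) (XT.nd (nat_lit 78) (nat_lit 152) (nat_lit 0) (XT.lf (nat_lit 0) (nat_lit 170775498343) (nat_lit 228) (nat_lit 111867894797) (nat_lit 76) (nat_lit 178145230225) (nat_lit 27) (nat_lit 5) (nat_lit 30) (nat_lit 5) (nat_lit 28) (nat_lit 5) (nat_lit 371) (nat_lit 348) (nat_lit 181)) (XT.lf (nat_lit 0) (nat_lit 136676020996) (nat_lit 152) (nat_lit 136751971949) (nat_lit 228) (nat_lit 211580761483) (nat_lit 25) (nat_lit 5) (nat_lit 27) (nat_lit 5) (nat_lit 28) (nat_lit 5) (nat_lit 372) (nat_lit 348) (nat_lit 180))) (XT.nd (nat_lit 78) (nat_lit 76) (nat_lit 0) (XT.lf (nat_lit 0) (nat_lit 387931237138)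 (nat_lit 228) (nat_lit 100036372762) (nat_lit 76) (nat_lit 22907802131) (nat_lit 25) (nat_lit 5) (nat_lit 28) (nat_lit 5) (nat_lit 26) (nat_lit 4) (nat_lit 373) (nat_lit 348) (nat_lit 179)) (XT.lf (nat_lit 0) (nat_lit 173237652771) (nat_lit 76) (nat_lit 346075399950) (nat_lit 152) (nat_lit 18880884625) (nat_lit 24) (nat_lit 5) (nat_lit 25) (nat_lit 5) (nat_lit 26) (nat_lit 4) (nat_lit 374) (nat_lit 348) (nat_lit 178)))) (XT.nd (nat_lit 156) (nat_lit 76) (nat_lit 0) (XT.nd (nat_lit 78) (nat_lit 152) (nat_lit 0) (XT.lf (nat_lit 0) (nat_lit 91636005122) (nat_lit 152) (nat_lit 95736368117) (nat_lit 76) (nat_lit 379921170255) (nat_lit 23) (nat_lit 5) (nat_lit 25) (nat_lit 5) (nat_lit 24) (nat_lit 5) (nat_lit 375) (nat_lit 348) (nat_lit 177)) (XT.lf (nat_lit 0) (nat_lit 204774280535) (nat_lit 152) (nat_lit 10124681322) (nat_lit 228) (nat_lit 383388941394) (nat_lit 21) (nat_lit 5) (nat_lit 23)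 (nat_lit 5) (nat_lit 24) (nat_lit 5) (nat_lit 376) (nat_lit 348) (nat_lit 176))) (XT.nd (nat_lit 78) (nat_lit 76) (nat_lit 0) (XT.lf (nat_lit 0) (nat_lit 355068832697) (nat_lit 228) (nat_lit 101210425876) (nat_lit 76) (nat_lit 174918883047) (nat_lit 21) (nat_lit 5) (nat_lit 24) (nat_lit 5) (nat_lit 22) (nat_lit 4) (nat_lit 377) (nat_lit 348) (nat_lit 175)) (XT.nd (nat_lit 78) (nat_lit 0) (nat_lit 0) (XT.lf (nat_lit 0) (nat_lit 225494093937) (nat_lit 76) (nat_lit 286644268808) (nat_lit 152) (nat_lit 154147950786) (nat_lit 20) (nat_lit 5) (nat_lit 21) (nat_lit 5) (nat_lit 22) (nat_lit 4) (nat_lit 378) (nat_lit 348) (nat_lit 174)) (XT.lf (nat_lit 0) (nat_lit 584090822133) (nat_lit 76) (nat_lit 100449859493) (nat_lit 152) (nat_lit 19419479485) (nat_lit 20) (nat_lit 5) (nat_lit 21) (nat_lit 5) (nat_lit 22) (nat_lit 4) (nat_lit 379) (nat_lit 348) (nat_lit 173))))))))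
noncomputable def xc218 : XT := (XT.nd (nat_lit 1326) (nat_lit 304) (nat_lit 0) (XT.nd (nat_lit 624) (nat_lit 380) (nat_lit 0) (XT.nd (nat_lit 312) (nat_lit 228) (nat_lit 0) (XT.nd (nat_lit 156) (nat_lit 76) (nat_lit 0) (XT.nd (nat_lit 78) (nat_lit 0) (nat_lit 0) (XT.lf (nat_lit 0) (nat_lit 128089246717) (nat_lit 152) (nat_lit 511124259132) (nat_lit 76) (nat_lit 104527068684) (nat_lit 18) (nat_lit 5) (nat_lit 20) (nat_lit 5) (nat_lit 19) (nat_lit 4) (nat_lit 380) (nat_lit 348) (nat_lit 172)) (XT.lf (nat_lit 0) (nat_lit 292321127430) (nat_lit 152) (nat_lit 169522022726) (nat_lit 76) (nat_lit 324342189716) (nat_lit 18) (nat_lit 5) (nat_lit 20) (nat_lit 5) (nat_lit 19) (nat_lit 4) (nat_lit 381) (nat_lit 348) (nat_lit 171))) (XT.nd (nat_lit 78) (nat_lit 0) (nat_lit 0) (XT.lf (nat_lit 0) (nat_lit 209908810187) (nat_lit 76) (nat_lit 264831020511) (nat_lit 152) (nat_lit 356881993995) (nat_lit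 17) (nat_lit 5) (nat_lit 18) (nat_lit 5) (nat_lit 19) (nat_lit 4) (nat_lit 382) (nat_lit 348) (nat_lit 170)) (XT.lf (nat_lit 0) (nat_lit 629334907951) (nat_lit 76) (nat_lit 47052116244) (nat_lit 152) (nat_lit 203935404610) (nat_lit 17) (nat_lit 5) (nat_lit 18) (nat_lit 5) (nat_lit 19) (nat_lit 4) (nat_lit 383) (nat_lit 348) (nat_lit 169)))) (XT.nd (nat_lit 156) (nat_lit 76) (nat_lit 0) (XT.nd (nat_lit 78) (nat_lit 76) (nat_lit 0) (XT.lf (nat_lit 0) (nat_lit 152499603209) (nat_lit 76) (nat_lit 749858963091) (nat_lit 76) (nat_lit 29905109116) (nat_lit 16) (nat_lit 4) (nat_lit 17) (nat_lit 5) (nat_lit 17) (nat_lit 4) (nat_lit 384) (nat_lit 348) (nat_lit 168)) (XT.lf (nat_lit 0) (nat_lit 158404214071) (nat_lit 152) (nat_lit 390473140074) (nat_lit 76) (nat_lit 438517760876) (nat_lit 15) (nat_lit 5) (nat_lit 17) (nat_lit 5) (nat_lit 16) (nat_lit 4) (nat_lit 385) (nat_lit 348) (nat_lit 167)))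 (XT.nd (nat_lit 78) (nat_lit 0) (nat_lit 0) (XT.lf (nat_lit 0) (nat_lit 30721039602) (nat_lit 76) (nat_lit 330180399103) (nat_lit 152) (nat_lit 685914385958) (nat_lit 14) (nat_lit 5) (nat_lit 15) (nat_lit 5) (nat_lit 16) (nat_lit 4) (nat_lit 386) (nat_lit 348) (nat_lit 166)) (XT.lf (nat_lit 0) (nat_lit 507817246912) (nat_lit 76) (nat_lit 82457389557) (nat_lit 152) (nat_lit 519861459010) (nat_lit 14) (nat_lit 5) (nat_lit 15) (nat_lit 5) (nat_lit 16) (nat_lit 4) (nat_lit 387) (nat_lit 348) (nat_lit 165))))) (XT.nd (nat_lit 312) (nat_lit 152) (nat_lit 0) (XT.nd (nat_lit 156) (nat_lit 152) (nat_lit 0) (XT.nd (nat_lit 78) (nat_lit 76) (nat_lit 0) (XT.lf (nat_lit 0) (nat_lit 842448921058) (nat_lit 152) (nat_lit 159892156383) (nat_lit 0) (nat_lit 175824812054) (nat_lit 14) (nat_lit 5) (nat_lit 16) (nat_lit 4) (nat_lit 14) (nat_lit 4) (nat_lit 388) (nat_lit 348) (nat_lit 164)) (XT.lf (nat_lit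 0) (nat_lit 332415644335) (nat_lit 76) (nat_lit 792517830288) (nat_lit 76) (nat_lit 125893686324) (nat_lit 13) (nat_lit 4) (nat_lit 14) (nat_lit 5) (nat_lit 14) (nat_lit 4) (nat_lit 389) (nat_lit 348) (nat_lit 163))) (XT.nd (nat_lit 78) (nat_lit 76) (nat_lit 0) (XT.lf (nat_lit 0) (nat_lit 100162521415) (nat_lit 152) (nat_lit 458286131791) (nat_lit 76) (nat_lit 770300083532) (nat_lit 12) (nat_lit 5) (nat_lit 14) (nat_lit 5) (nat_lit 13) (nat_lit 4) (nat_lit 390) (nat_lit 348) (nat_lit 162)) (XT.lf (nat_lit 0) (nat_lit 37242278041) (nat_lit 76) (nat_lit 301155070203) (nat_lit 152) (nat_lit 1074173440966) (nat_lit 11) (nat_lit 5) (nat_lit 12) (nat_lit 5) (nat_lit 13) (nat_lit 4) (nat_lit 391) (nat_lit 348) (nat_lit 161)))) (XT.nd (nat_lit 156) (nat_lit 152) (nat_lit 0) (XT.nd (nat_lit 78) (nat_lit 0) (nat_lit 0) (XT.lf (nat_lit 0) (nat_lit 598476050827) (nat_lit 76) (nat_lit 9745239983) (nat_lit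 152) (nat_lit 893874888713) (nat_lit 11) (nat_lit 5) (nat_lit 12) (nat_lit 5) (nat_lit 13) (nat_lit 4) (nat_lit 392) (nat_lit 348) (nat_lit 160)) (XT.lf (nat_lit 0) (nat_lit 906965837995) (nat_lit 152) (nat_lit 401509834903) (nat_lit 0) (nat_lit 289721153035) (nat_lit 11) (nat_lit 5) (nat_lit 13) (nat_lit 4) (nat_lit 11) (nat_lit 4) (nat_lit 393) (nat_lit 348) (nat_lit 159))) (XT.nd (nat_lit 78) (nat_lit 76) (nat_lit 0) (XT.lf (nat_lit 0) (nat_lit 147915446338) (nat_lit 76) (nat_lit 1085504973522) (nat_lit 76) (nat_lit 468260266531) (nat_lit 10) (nat_lit 4) (nat_lit 11) (nat_lit 5) (nat_lit 11) (nat_lit 4) (nat_lit 394) (nat_lit 348) (nat_lit 158)) (XT.nd (nat_lit 78) (nat_lit 76) (nat_lit 0) (XT.lf (nat_lit 0) (nat_lit 764128928613) (nat_lit 76) (nat_lit 832840408483) (nat_lit 76) (nat_lit 215595681092) (nat_lit 10) (nat_lit 4) (nat_lit 11) (nat_lit 5) (nat_lit 11) (nat_lit 4) (nat_lit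 395) (nat_lit 348) (nat_lit 157)) (XT.lf (nat_lit 0) (nat_lit 54416569458) (nat_lit 152) (nat_lit 504058281805) (nat_lit 76) (nat_lit 1373735036100) (nat_lit 9) (nat_lit 5) (nat_lit 11) (nat_lit 5) (nat_lit 10) (nat_lit 4) (nat_lit 396) (nat_lit 348) (nat_lit 156))))))) (XT.nd (nat_lit 624) (nat_lit 76) (nat_lit 0) (XT.nd (nat_lit 312) (nat_lit 152) (nat_lit 0) (XT.nd (nat_lit 156) (nat_lit 0) (nat_lit 0) (XT.nd (nat_lit 78) (nat_lit 0) (nat_lit 0) (XT.lf (nat_lit 0) (nat_lit 82391376480) (nat_lit 76) (nat_lit 253972152484) (nat_lit 152) (nat_lit 1724456306441) (nat_lit 8) (nat_lit 5) (nat_lit 9) (nat_lit 5) (nat_lit 10) (nat_lit 4) (nat_lit 397) (nat_lit 348) (nat_lit 155)) (XT.lf (nat_lit 0) (nat_lit 656807167728) (nat_lit 152) (nat_lit 1456351914449) (nat_lit 0) (nat_lit 85284223319) (nat_lit 8) (nat_lit 5) (nat_lit 10) (nat_lit 4) (nat_lit 8) (nat_lit 4) (nat_lit 398) (nat_lit 348)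 (nat_lit 154))) (XT.nd (nat_lit 78) (nat_lit 0) (nat_lit 0) (XT.lf (nat_lit 0) (nat_lit 1009482959402) (nat_lit 152) (nat_lit 899105959743) (nat_lit 0) (nat_lit 437960001111) (nat_lit 8) (nat_lit 5) (nat_lit 10) (nat_lit 4) (nat_lit 8) (nat_lit 4) (nat_lit 399) (nat_lit 348) (nat_lit 153)) (XT.lf (nat_lit 0) (nat_lit 1390372798230) (nat_lit 152) (nat_lit 297280360181) (nat_lit 0) (nat_lit 818849827084) (nat_lit 8) (nat_lit 5) (nat_lit 10) (nat_lit 4) (nat_lit 8) (nat_lit 4) (nat_lit 400) (nat_lit 348) (nat_lit 152)))) (XT.nd (nat_lit 156) (nat_lit 76) (nat_lit 0) (XT.nd (nat_lit 78) (nat_lit 0) (nat_lit 0) (XT.lf (nat_lit 0) (nat_lit 371263354792) (nat_lit 76) (nat_lit 1439399347002) (nat_lit 76) (nat_lit 867876363953) (nat_lit 7) (nat_lit 4) (nat_lit 8) (nat_lit 5) (nat_lit 8) (nat_lit 4) (nat_lit 401) (nat_lit 348) (nat_lit 151)) (XT.lf (nat_lit 0) (nat_lit 1110197136012) (nat_lit 76)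 (nat_lit 1162506818948) (nat_lit 76) (nat_lit 590983824878) (nat_lit 7) (nat_lit 4) (nat_lit 8) (nat_lit 5) (nat_lit 8) (nat_lit 4) (nat_lit 402) (nat_lit 348) (nat_lit 150))) (XT.nd (nat_lit 78) (nat_lit 76) (nat_lit 0) (XT.lf (nat_lit 0) (nat_lit 1908245593391) (nat_lit 76) (nat_lit 863462901511) (nat_lit 76) (nat_lit 291939897236) (nat_lit 7) (nat_lit 4) (nat_lit 8) (nat_lit 5) (nat_lit 8) (nat_lit 4) (nat_lit 403) (nat_lit 348) (nat_lit 149)) (XT.lf (nat_lit 0) (nat_lit 29475408364) (nat_lit 152) (nat_lit 510214164324) (nat_lit 76) (nat_lit 2739856584706) (nat_lit 6) (nat_lit 5) (nat_lit 8) (nat_lit 5) (nat_lit 7) (nat_lit 4) (nat_lit 404) (nat_lit 348) (nat_lit 148))))) (XT.nd (nat_lit 42666) (nat_lit 0) (nat_lit 3800) (XT.nd (nat_lit 42510) (nat_lit 0) (nat_lit 3724) (XT.nd (nat_lit 78) (nat_lit 0) (nat_lit 0) (XT.lf (nat_lit 0) (nat_lit 188432857877) (nat_lit 76) (nat_lit 176930546136)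 (nat_lit 152) (nat_lit 3146383167271) (nat_lit 5) (nat_lit 5) (nat_lit 6) (nat_lit 5) (nat_lit 7) (nat_lit 4) (nat_lit 405) (nat_lit 348) (nat_lit 147)) (XT.lf (nat_lit 0) (nat_lit 747602057246) (nat_lit 152) (nat_lit 2794948525633) (nat_lit 0) (nat_lit 218414065975) (nat_lit 5) (nat_lit 5) (nat_lit 7) (nat_lit 4) (nat_lit 5) (nat_lit 4) (nat_lit 406) (nat_lit 348) (nat_lit 146))) (XT.nd (nat_lit 78) (nat_lit 0) (nat_lit 0) (XT.lf (nat_lit 0) (nat_lit 68250128923) (nat_lit 532) (nat_lit 10113452848) (nat_lit 532) (nat_lit 10113452848) (nat_lit 54) (nat_lit 3) (nat_lit 61) (nat_lit 3) (nat_lit 61) (nat_lit 5) (nat_lit 349) (nat_lit 349) (nat_lit 202)) (XT.lf (nat_lit 76) (nat_lit 66897379295) (nat_lit 0) (nat_lit 76673708268) (nat_lit 532) (nat_lit 40332275359) (nat_lit 55) (nat_lit 5) (nat_lit 54) (nat_lit 3) (nat_lit 61) (nat_lit 5) (nat_lit 350) (nat_lit 349) (nat_lit 201)))) (XT.nd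 (nat_lit 156) (nat_lit 0) (nat_lit 0) (XT.nd (nat_lit 78) (nat_lit 0) (nat_lit 0) (XT.lf (nat_lit 0) (nat_lit 152010099506) (nat_lit 456) (nat_lit 29472226874) (nat_lit 532) (nat_lit 9862072805) (nat_lit 55) (nat_lit 5) (nat_lit 61) (nat_lit 5) (nat_lit 62) (nat_lit 5) (nat_lit 351) (nat_lit 349) (nat_lit 200)) (XT.lf (nat_lit 76) (nat_lit 66393877272) (nat_lit 0) (nat_lit 98318474498) (nat_lit 532) (nat_lit 34381317355) (nat_lit 56) (nat_lit 5) (nat_lit 55) (nat_lit 5) (nat_lit 62) (nat_lit 5) (nat_lit 352) (nat_lit 349) (nat_lit 199))) (XT.nd (nat_lit 78) (nat_lit 0) (nat_lit 76) (XT.lf (nat_lit 76) (nat_lit 171605265522) (nat_lit 0) (nat_lit 7631172274) (nat_lit 532) (nat_lit 28161990882) (nat_lit 56) (nat_lit 5) (nat_lit 55) (nat_lit 5) (nat_lit 62) (nat_lit 5) (nat_lit 353) (nat_lit 349) (nat_lit 198)) (XT.nd (nat_lit 78) (nat_lit 0) (nat_lit 0) (XT.lf (nat_lit 76) (nat_lit 70205872110)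 (nat_lit 0) (nat_lit 128576860374) (nat_lit 532) (nat_lit 17276014250) (nat_lit 57) (nat_lit 5) (nat_lit 56) (nat_lit 5) (nat_lit 63) (nat_lit 5) (nat_lit 354) (nat_lit 349) (nat_lit 197)) (XT.lf (nat_lit 76) (nat_lit 186511651085) (nat_lit 0) (nat_lit 34552775492) (nat_lit 532) (nat_lit 4253728250) (nat_lit 57) (nat_lit 5) (nat_lit 56) (nat_lit 5) (nat_lit 63) (nat_lit 5) (nat_lit 355) (nat_lit 349) (nat_lit 196))))))))
noncomputable def xc219 : XT := (XT.nd (nat_lit 1326) (nat_lit 1064) (nat_lit 0) (XT.nd (nat_lit 624) (nat_lit 988) (nat_lit 0) (XT.nd (nat_lit 312) (nat_lit 456) (nat_lit 0) (XT.nd (nat_lit 156) (nat_lit 304) (nat_lit 0) (XT.nd (nat_lit 78) (nat_lit 0) (nat_lit 0) (XT.lf (nat_lit 0) (nat_lit 12925532408) (nat_lit 532) (nat_lit 156212613933) (nat_lit 76) (nat_lit 65872818757) (nat_lit 50) (nat_lit 5) (nat_lit 57) (nat_lit 5) (nat_lit 51) (nat_lit 5) (nat_lit 356) (nat_lit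 349) (nat_lit 195)) (XT.lf (nat_lit 0) (nat_lit 33235263073) (nat_lit 532) (nat_lit 38411408285) (nat_lit 76) (nat_lit 173664814845) (nat_lit 50) (nat_lit 5) (nat_lit 57) (nat_lit 5) (nat_lit 51) (nat_lit 5) (nat_lit 357) (nat_lit 349) (nat_lit 194))) (XT.nd (nat_lit 78) (nat_lit 0) (nat_lit 0) (XT.lf (nat_lit 0) (nat_lit 58285643648) (nat_lit 380) (nat_lit 163633172399) (nat_lit 76) (nat_lit 34267963424) (nat_lit 46) (nat_lit 5) (nat_lit 51) (nat_lit 5) (nat_lit 47) (nat_lit 5) (nat_lit 358) (nat_lit 349) (nat_lit 193)) (XT.lf (nat_lit 0) (nat_lit 88278406389) (nat_lit 380) (nat_lit 33556116792) (nat_lit 76) (nat_lit 145862505059) (nat_lit 46) (nat_lit 5) (nat_lit 51) (nat_lit 5) (nat_lit 47) (nat_lit 5) (nat_lit 359) (nat_lit 349) (nat_lit 192)))) (XT.nd (nat_lit 156) (nat_lit 228) (nat_lit 0) (XT.nd (nat_lit 78) (nat_lit 0) (nat_lit 0) (XT.lf (nat_lit 0) (nat_lit 112557575539) (nat_lit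 228) (nat_lit 10819919960) (nat_lit 304) (nat_lit 156534049147) (nat_lit 43) (nat_lit 5) (nat_lit 46) (nat_lit 5) (nat_lit 47) (nat_lit 5) (nat_lit 360) (nat_lit 349) (nat_lit 191)) (XT.lf (nat_lit 0) (nat_lit 164849001043) (nat_lit 304) (nat_lit 23408320635) (nat_lit 76) (nat_lit 104560741694) (nat_lit 43) (nat_lit 5) (nat_lit 47) (nat_lit 5) (nat_lit 44) (nat_lit 5) (nat_lit 361) (nat_lit 349) (nat_lit 190))) (XT.nd (nat_lit 78) (nat_lit 0) (nat_lit 0) (XT.lf (nat_lit 0) (nat_lit 138710704106) (nat_lit 228) (nat_lit 74544461137) (nat_lit 304) (nat_lit 93212583437) (nat_lit 40) (nat_lit 5) (nat_lit 43) (nat_lit 5) (nat_lit 44) (nat_lit 5) (nat_lit 362) (nat_lit 349) (nat_lit 189)) (XT.lf (nat_lit 0) (nat_lit 267351165853) (nat_lit 304) (nat_lit 7205226849) (nat_lit 76) (nat_lit 46507628778) (nat_lit 40) (nat_lit 5) (nat_lit 44) (nat_lit 5) (nat_lit 41) (nat_lit 5) (nat_lit 363) (nat_lit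 349) (nat_lit 188))))) (XT.nd (nat_lit 312) (nat_lit 380) (nat_lit 0) (XT.nd (nat_lit 156) (nat_lit 152) (nat_lit 0) (XT.nd (nat_lit 78) (nat_lit 304) (nat_lit 0) (XT.lf (nat_lit 0) (nat_lit 172903757104) (nat_lit 152) (nat_lit 158965564961) (nat_lit 228) (nat_lit 4471116116) (nat_lit 38) (nat_lit 5) (nat_lit 40) (nat_lit 5) (nat_lit 41) (nat_lit 5) (nat_lit 364) (nat_lit 349) (nat_lit 187)) (XT.lf (nat_lit 0) (nat_lit 14559652128) (nat_lit 228) (nat_lit 32265839266) (nat_lit 304) (nat_lit 305875582990) (nat_lit 34) (nat_lit 5) (nat_lit 37) (nat_lit 5) (nat_lit 38) (nat_lit 5) (nat_lit 365) (nat_lit 349) (nat_lit 186))) (XT.nd (nat_lit 78) (nat_lit 152) (nat_lit 0) (XT.lf (nat_lit 0) (nat_lit 109083816902) (nat_lit 304) (nat_lit 156669808588) (nat_lit 76) (nat_lit 104039681794) (nat_lit 34) (nat_lit 5) (nat_lit 38) (nat_lit 5) (nat_lit 35) (nat_lit 5) (nat_lit 366) (nat_lit 349) (nat_lit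 185)) (XT.lf (nat_lit 0) (nat_lit 40507718320) (nat_lit 152) (nat_lit 137627302102) (nat_lit 228) (nat_lit 209972921524) (nat_lit 32) (nat_lit 5) (nat_lit 34) (nat_lit 5) (nat_lit 35) (nat_lit 5) (nat_lit 367) (nat_lit 349) (nat_lit 184)))) (XT.nd (nat_lit 156) (nat_lit 228) (nat_lit 0) (XT.nd (nat_lit 78) (nat_lit 152) (nat_lit 0) (XT.lf (nat_lit 0) (nat_lit 257123159041) (nat_lit 228) (nat_lit 145305043047) (nat_lit 76) (nat_lit 5106518271) (nat_lit 32) (nat_lit 5) (nat_lit 35) (nat_lit 5) (nat_lit 33) (nat_lit 5) (nat_lit 368) (nat_lit 349) (nat_lit 183)) (XT.lf (nat_lit 0) (nat_lit 73263875747) (nat_lit 152) (nat_lit 274503140317) (nat_lit 228) (nat_lit 80321691672) (nat_lit 30) (nat_lit 5) (nat_lit 32) (nat_lit 5) (nat_lit 33) (nat_lit 5) (nat_lit 369) (nat_lit 349) (nat_lit 182))) (XT.nd (nat_lit 78) (nat_lit 228) (nat_lit 0) (XT.lf (nat_lit 0) (nat_lit 317581840150) (nat_lit 152)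 (nat_lit 132053375700) (nat_lit 228) (nat_lit 333971586) (nat_lit 30) (nat_lit 5) (nat_lit 32) (nat_lit 5) (nat_lit 33) (nat_lit 5) (nat_lit 370) (nat_lit 349) (nat_lit 181)) (XT.nd (nat_lit 78) (nat_lit 0) (nat_lit 0) (XT.lf (nat_lit 0) (nat_lit 85073274452) (nat_lit 228) (nat_lit 362522308616) (nat_lit 76) (nat_lit 25572939519) (nat_lit 27) (nat_lit 5) (nat_lit 30) (nat_lit 5) (nat_lit 28) (nat_lit 5) (nat_lit 371) (nat_lit 349) (nat_lit 180)) (XT.lf (nat_lit 0) (nat_lit 184438679343) (nat_lit 228) (nat_lit 120815525316) (nat_lit 76) (nat_lit 192397416195) (nat_lit 27) (nat_lit 5) (nat_lit 30) (nat_lit 5) (nat_lit 28) (nat_lit 5) (nat_lit 372) (nat_lit 349) (nat_lit 179))))))) (XT.nd (nat_lit 702) (nat_lit 380) (nat_lit 0) (XT.nd (nat_lit 312) (nat_lit 380) (nat_lit 0) (XT.nd (nat_lit 156) (nat_lit 152) (nat_lit 0) (XT.nd (nat_lit 78) (nat_lit 0) (nat_lit 0) (XT.lf (nat_lit 0) (nat_lit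 147611858143) (nat_lit 152) (nat_lit 147691473062) (nat_lit 228) (nat_lit 228506034664) (nat_lit 25) (nat_lit 5) (nat_lit 27) (nat_lit 5) (nat_lit 28) (nat_lit 5) (nat_lit 373) (nat_lit 349) (nat_lit 178)) (XT.lf (nat_lit 0) (nat_lit 418966768161) (nat_lit 228) (nat_lit 108037589445) (nat_lit 76) (nat_lit 24741003890) (nat_lit 25) (nat_lit 5) (nat_lit 28) (nat_lit 5) (nat_lit 26) (nat_lit 4) (nat_lit 374) (nat_lit 349) (nat_lit 177))) (XT.nd (nat_lit 78) (nat_lit 76) (nat_lit 0) (XT.lf (nat_lit 0) (nat_lit 187098315266) (nat_lit 76) (nat_lit 373760776965) (nat_lit 152) (nat_lit 20390279615) (nat_lit 24) (nat_lit 5) (nat_lit 25) (nat_lit 5) (nat_lit 26) (nat_lit 4) (nat_lit 375) (nat_lit 349) (nat_lit 176)) (XT.lf (nat_lit 0) (nat_lit 98967831797) (nat_lit 152) (nat_lit 103393698966) (nat_lit 76) (nat_lit 410315419770) (nat_lit 23) (nat_lit 5) (nat_lit 25) (nat_lit 5) (nat_lit 24) (nat_lit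 5) (nat_lit 376) (nat_lit 349) (nat_lit 175)))) (XT.nd (nat_lit 156) (nat_lit 228) (nat_lit 0) (XT.nd (nat_lit 78) (nat_lit 0) (nat_lit 0) (XT.lf (nat_lit 0) (nat_lit 221157761614) (nat_lit 152) (nat_lit 10934030367) (nat_lit 228) (nat_lit 414059069791) (nat_lit 21) (nat_lit 5) (nat_lit 23) (nat_lit 5) (nat_lit 24) (nat_lit 5) (nat_lit 377) (nat_lit 349) (nat_lit 174)) (XT.lf (nat_lit 0) (nat_lit 383475198773) (nat_lit 228) (nat_lit 109305780933) (nat_lit 76) (nat_lit 188912943851) (nat_lit 21) (nat_lit 5) (nat_lit 24) (nat_lit 5) (nat_lit 22) (nat_lit 4) (nat_lit 378) (nat_lit 349) (nat_lit 173))) (XT.nd (nat_lit 78) (nat_lit 152) (nat_lit 0) (XT.lf (nat_lit 0) (nat_lit 243535063021) (nat_lit 76) (nat_lit 309575199209) (nat_lit 152) (nat_lit 166478889358) (nat_lit 20) (nat_lit 5) (nat_lit 21) (nat_lit 5) (nat_lit 22) (nat_lit 4) (nat_lit 379) (nat_lit 349) (nat_lit 172)) (XT.nd (nat_lit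 78) (nat_lit 152) (nat_lit 0) (XT.lf (nat_lit 0) (nat_lit 630819422691) (nat_lit 76) (nat_lit 108485282417) (nat_lit 152) (nat_lit 20972206833) (nat_lit 20) (nat_lit 5) (nat_lit 21) (nat_lit 5) (nat_lit 22) (nat_lit 4) (nat_lit 380) (nat_lit 349) (nat_lit 171)) (XT.lf (nat_lit 0) (nat_lit 138337163612) (nat_lit 152) (nat_lit 552012810252) (nat_lit 76) (nat_lit 112889783992) (nat_lit 18) (nat_lit 5) (nat_lit 20) (nat_lit 5) (nat_lit 19) (nat_lit 4) (nat_lit 381) (nat_lit 349) (nat_lit 170)))))) (XT.nd (nat_lit 312) (nat_lit 228) (nat_lit 0) (XT.nd (nat_lit 156) (nat_lit 76) (nat_lit 0) (XT.nd (nat_lit 78) (nat_lit 76) (nat_lit 0) (XT.lf (nat_lit 0) (nat_lit 315707537215) (nat_lit 152) (nat_lit 183082497867) (nat_lit 76) (nat_lit 350290073980) (nat_lit 18) (nat_lit 5) (nat_lit 20) (nat_lit 5) (nat_lit 19) (nat_lit 4) (nat_lit 382) (nat_lit 349) (nat_lit 169)) (XT.lf (nat_lit 0) (nat_lit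 226702769104) (nat_lit 76) (nat_lit 286016944499) (nat_lit 152) (nat_lit 385431800950) (nat_lit 17) (nat_lit 5) (nat_lit 18) (nat_lit 5) (nat_lit 19) (nat_lit 4) (nat_lit 383) (nat_lit 349) (nat_lit 168))) (XT.nd (nat_lit 78) (nat_lit 76) (nat_lit 0) (XT.lf (nat_lit 0) (nat_lit 679682861793) (nat_lit 76) (nat_lit 50815769198) (nat_lit 152) (nat_lit 220249540160) (nat_lit 17) (nat_lit 5) (nat_lit 18) (nat_lit 5) (nat_lit 19) (nat_lit 4) (nat_lit 384) (nat_lit 349) (nat_lit 167)) (XT.lf (nat_lit 0) (nat_lit 164700741815) (nat_lit 76) (nat_lit 809847146527) (nat_lit 76) (nat_lit 32296829826) (nat_lit 16) (nat_lit 4) (nat_lit 17) (nat_lit 5) (nat_lit 17) (nat_lit 4) (nat_lit 385) (nat_lit 349) (nat_lit 166)))) (XT.nd (nat_lit 156) (nat_lit 76) (nat_lit 0) (XT.nd (nat_lit 78) (nat_lit 76) (nat_lit 0) (XT.lf (nat_lit 0) (nat_lit 171077156384) (nat_lit 152) (nat_lit 421709875462) (nat_lit 76)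 (nat_lit 473599643667) (nat_lit 15) (nat_lit 5) (nat_lit 17) (nat_lit 5) (nat_lit 16) (nat_lit 4) (nat_lit 386) (nat_lit 349) (nat_lit 165)) (XT.lf (nat_lit 0) (nat_lit 33179810339) (nat_lit 76) (nat_lit 356594329977) (nat_lit 152) (nat_lit 740786903126) (nat_lit 14) (nat_lit 5) (nat_lit 15) (nat_lit 5) (nat_lit 16) (nat_lit 4) (nat_lit 387) (nat_lit 349) (nat_lit 164))) (XT.nd (nat_lit 78) (nat_lit 76) (nat_lit 0) (XT.lf (nat_lit 0) (nat_lit 548443633674) (nat_lit 76) (nat_lit 89053516782) (nat_lit 152) (nat_lit 561449788964) (nat_lit 14) (nat_lit 5) (nat_lit 15) (nat_lit 5) (nat_lit 16) (nat_lit 4) (nat_lit 388) (nat_lit 349) (nat_lit 163)) (XT.nd (nat_lit 78) (nat_lit 76) (nat_lit 0) (XT.lf (nat_lit 0) (nat_lit 909845347916) (nat_lit 152) (nat_lit 172682566348) (nat_lit 0) (nat_lit 189891205103) (nat_lit 14) (nat_lit 5) (nat_lit 16) (nat_lit 4) (nat_lit 14) (nat_lit 4) (nat_lit 389)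 (nat_lit 349) (nat_lit 162)) (XT.lf (nat_lit 0) (nat_lit 359009834059) (nat_lit 76) (nat_lit 855918816258) (nat_lit 76) (nat_lit 135964643473) (nat_lit 13) (nat_lit 4) (nat_lit 14) (nat_lit 5) (nat_lit 14) (nat_lit 4) (nat_lit 390) (nat_lit 349) (nat_lit 161))))))))
noncomputable def xc220 : XT := (XT.nd (nat_lit 43758) (nat_lit 0) (nat_lit 2204) (XT.nd (nat_lit 624) (nat_lit 228) (nat_lit 0) (XT.nd (nat_lit 312) (nat_lit 228) (nat_lit 0) (XT.nd (nat_lit 156) (nat_lit 0) (nat_lit 0) (XT.nd (nat_lit 78) (nat_lit 76) (nat_lit 0) (XT.lf (nat_lit 0) (nat_lit 108175996143) (nat_lit 152) (nat_lit 494948128558) (nat_lit 76) (nat_lit 831924472948) (nat_lit 12) (nat_lit 5) (nat_lit 14) (nat_lit 5) (nat_lit 13) (nat_lit 4) (nat_lit 391) (nat_lit 349) (nat_lit 160)) (XT.lf (nat_lit 0) (nat_lit 40222531433) (nat_lit 76) (nat_lit 325247063599) (nat_lit 152) (nat_lit 1160106820429) (nat_lit 11) (nat_lit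 5) (nat_lit 12) (nat_lit 5) (nat_lit 13) (nat_lit 4) (nat_lit 392) (nat_lit 349) (nat_lit 159))) (XT.nd (nat_lit 78) (nat_lit 0) (nat_lit 0) (XT.lf (nat_lit 0) (nat_lit 646354941513) (nat_lit 76) (nat_lit 10524477496) (nat_lit 152) (nat_lit 965384420722) (nat_lit 11) (nat_lit 5) (nat_lit 12) (nat_lit 5) (nat_lit 13) (nat_lit 4) (nat_lit 393) (nat_lit 349) (nat_lit 158)) (XT.lf (nat_lit 0) (nat_lit 979523506992) (nat_lit 152) (nat_lit 433629851702) (nat_lit 0) (nat_lit 312899181011) (nat_lit 11) (nat_lit 5) (nat_lit 13) (nat_lit 4) (nat_lit 11) (nat_lit 4) (nat_lit 394) (nat_lit 349) (nat_lit 157)))) (XT.nd (nat_lit 156) (nat_lit 152) (nat_lit 0) (XT.nd (nat_lit 78) (nat_lit 0) (nat_lit 0) (XT.lf (nat_lit 0) (nat_lit 159749432545) (nat_lit 76) (nat_lit 1172345011136) (nat_lit 76) (nat_lit 505720666267) (nat_lit 10) (nat_lit 4) (nat_lit 11) (nat_lit 5) (nat_lit 11) (nat_lit 4) (nat_lit 395)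 (nat_lit 349) (nat_lit 156)) (XT.lf (nat_lit 0) (nat_lit 825259937810) (nat_lit 76) (nat_lit 899467307580) (nat_lit 76) (nat_lit 232842945222) (nat_lit 10) (nat_lit 4) (nat_lit 11) (nat_lit 5) (nat_lit 11) (nat_lit 4) (nat_lit 396) (nat_lit 349) (nat_lit 155))) (XT.nd (nat_lit 78) (nat_lit 76) (nat_lit 0) (XT.lf (nat_lit 0) (nat_lit 58770238376) (nat_lit 152) (nat_lit 544382282727) (nat_lit 76) (nat_lit 1483634129671) (nat_lit 9) (nat_lit 5) (nat_lit 11) (nat_lit 5) (nat_lit 10) (nat_lit 4) (nat_lit 397) (nat_lit 349) (nat_lit 154)) (XT.lf (nat_lit 0) (nat_lit 88983331470) (nat_lit 76) (nat_lit 274289613248) (nat_lit 152) (nat_lit 1862412450744) (nat_lit 8) (nat_lit 5) (nat_lit 9) (nat_lit 5) (nat_lit 10) (nat_lit 4) (nat_lit 398) (nat_lit 349) (nat_lit 153))))) (XT.nd (nat_lit 312) (nat_lit 152) (nat_lit 0) (XT.nd (nat_lit 156) (nat_lit 76) (nat_lit 0) (XT.nd (nat_lit 78) (nat_lit 0)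 (nat_lit 0) (XT.lf (nat_lit 0) (nat_lit 709352056819) (nat_lit 152) (nat_lit 1572859452645) (nat_lit 0) (nat_lit 92107235126) (nat_lit 8) (nat_lit 5) (nat_lit 10) (nat_lit 4) (nat_lit 8) (nat_lit 4) (nat_lit 399) (nat_lit 349) (nat_lit 152)) (XT.lf (nat_lit 0) (nat_lit 1090241888444) (nat_lit 152) (nat_lit 971033867114) (nat_lit 0) (nat_lit 472997054848) (nat_lit 8) (nat_lit 5) (nat_lit 10) (nat_lit 4) (nat_lit 8) (nat_lit 4) (nat_lit 400) (nat_lit 349) (nat_lit 151))) (XT.nd (nat_lit 78) (nat_lit 76) (nat_lit 0) (XT.lf (nat_lit 0) (nat_lit 1501602892727) (nat_lit 152) (nat_lit 321062261766) (nat_lit 0) (nat_lit 884358048111) (nat_lit 8) (nat_lit 5) (nat_lit 10) (nat_lit 4) (nat_lit 8) (nat_lit 4) (nat_lit 401) (nat_lit 349) (nat_lit 150)) (XT.lf (nat_lit 0) (nat_lit 400964937057) (nat_lit 76) (nat_lit 1554551043830) (nat_lit 76) (nat_lit 937306189009) (nat_lit 7) (nat_lit 4) (nat_lit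 8) (nat_lit 5) (nat_lit 8) (nat_lit 4) (nat_lit 402) (nat_lit 349) (nat_lit 149)))) (XT.nd (nat_lit 156) (nat_lit 152) (nat_lit 0) (XT.nd (nat_lit 78) (nat_lit 0) (nat_lit 0) (XT.lf (nat_lit 0) (nat_lit 1199013382710) (nat_lit 76) (nat_lit 1255507132119) (nat_lit 76) (nat_lit 638262267850) (nat_lit 7) (nat_lit 4) (nat_lit 8) (nat_lit 5) (nat_lit 8) (nat_lit 4) (nat_lit 403) (nat_lit 349) (nat_lit 148)) (XT.lf (nat_lit 0) (nat_lit 2060905681433) (nat_lit 76) (nat_lit 932539718498) (nat_lit 76) (nat_lit 315294845480) (nat_lit 7) (nat_lit 4) (nat_lit 8) (nat_lit 5) (nat_lit 8) (nat_lit 4) (nat_lit 404) (nat_lit 349) (nat_lit 147))) (XT.nd (nat_lit 78) (nat_lit 76) (nat_lit 0) (XT.lf (nat_lit 0) (nat_lit 31833655249) (nat_lit 152) (nat_lit 551030878200) (nat_lit 76) (nat_lit 2959045299346) (nat_lit 6) (nat_lit 5) (nat_lit 8) (nat_lit 5) (nat_lit 7) (nat_lit 4) (nat_lit 405) (nat_lit 349) (nat_lit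 146)) (XT.nd (nat_lit 42510) (nat_lit 0) (nat_lit 3724) (XT.lf (nat_lit 0) (nat_lit 203507895163) (nat_lit 76) (nat_lit 191084789347) (nat_lit 152) (nat_lit 3398093595772) (nat_lit 5) (nat_lit 5) (nat_lit 6) (nat_lit 5) (nat_lit 7) (nat_lit 4) (nat_lit 406) (nat_lit 349) (nat_lit 145)) (XT.lf (nat_lit 0) (nat_lit 73712028502) (nat_lit 532) (nat_lit 10921507147) (nat_lit 532) (nat_lit 10921507147) (nat_lit 54) (nat_lit 3) (nat_lit 61) (nat_lit 3) (nat_lit 61) (nat_lit 5) (nat_lit 350) (nat_lit 350) (nat_lit 200))))))) (XT.nd (nat_lit 624) (nat_lit 1216) (nat_lit 0) (XT.nd (nat_lit 312) (nat_lit 304) (nat_lit 0) (XT.nd (nat_lit 156) (nat_lit 0) (nat_lit 76) (XT.nd (nat_lit 78) (nat_lit 0) (nat_lit 76) (XT.lf (nat_lit 76) (nat_lit 72251161753) (nat_lit 0) (nat_lit 82809159365) (nat_lit 532) (nat_lit 43555020724) (nat_lit 55) (nat_lit 5) (nat_lit 54) (nat_lit 3) (nat_lit 61) (nat_lit 5) (nat_lit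 351) (nat_lit 350) (nat_lit 199)) (XT.lf (nat_lit 0) (nat_lit 164174156693) (nat_lit 456) (nat_lit 31827857234) (nat_lit 532) (nat_lit 10649671336) (nat_lit 55) (nat_lit 5) (nat_lit 61) (nat_lit 5) (nat_lit 62) (nat_lit 5) (nat_lit 352) (nat_lit 350) (nat_lit 198))) (XT.nd (nat_lit 78) (nat_lit 0) (nat_lit 0) (XT.lf (nat_lit 76) (nat_lit 71707480869) (nat_lit 0) (nat_lit 106184917932) (nat_lit 532) (nat_lit 37128513663) (nat_lit 56) (nat_lit 5) (nat_lit 55) (nat_lit 5) (nat_lit 62) (nat_lit 5) (nat_lit 353) (nat_lit 350) (nat_lit 197)) (XT.lf (nat_lit 76) (nat_lit 185335625111) (nat_lit 0) (nat_lit 8242560014) (nat_lit 532) (nat_lit 30411886190) (nat_lit 56) (nat_lit 5) (nat_lit 55) (nat_lit 5) (nat_lit 62) (nat_lit 5) (nat_lit 354) (nat_lit 350) (nat_lit 196)))) (XT.nd (nat_lit 156) (nat_lit 456) (nat_lit 0) (XT.nd (nat_lit 78) (nat_lit 0) (nat_lit 0) (XT.lf (nat_lit 76) (nat_lit 75824477903)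 (nat_lit 0) (nat_lit 138863527150) (nat_lit 532) (nat_lit 18655224405) (nat_lit 57) (nat_lit 5) (nat_lit 56) (nat_lit 5) (nat_lit 63) (nat_lit 5) (nat_lit 355) (nat_lit 350) (nat_lit 195)) (XT.lf (nat_lit 76) (nat_lit 201434560972) (nat_lit 0) (nat_lit 37317477111) (nat_lit 532) (nat_lit 4591368191) (nat_lit 57) (nat_lit 5) (nat_lit 56) (nat_lit 5) (nat_lit 63) (nat_lit 5) (nat_lit 356) (nat_lit 350) (nat_lit 194))) (XT.nd (nat_lit 78) (nat_lit 0) (nat_lit 0) (XT.lf (nat_lit 0) (nat_lit 13961954997) (nat_lit 532) (nat_lit 168707359169) (nat_lit 76) (nat_lit 71142334012) (nat_lit 50) (nat_lit 5) (nat_lit 57) (nat_lit 5) (nat_lit 51) (nat_lit 5) (nat_lit 357) (nat_lit 350) (nat_lit 193)) (XT.lf (nat_lit 0) (nat_lit 35896287819) (nat_lit 532) (nat_lit 41482224763) (nat_lit 76) (nat_lit 187557712768) (nat_lit 50) (nat_lit 5) (nat_lit 57) (nat_lit 5) (nat_lit 51) (nat_lit 5) (nat_lit 358) (nat_lit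 350) (nat_lit 192))))) (XT.nd (nat_lit 312) (nat_lit 684) (nat_lit 0) (XT.nd (nat_lit 156) (nat_lit 228) (nat_lit 0) (XT.nd (nat_lit 78) (nat_lit 0) (nat_lit 0) (XT.lf (nat_lit 0) (nat_lit 62950583622) (nat_lit 380) (nat_lit 176721611591) (nat_lit 76) (nat_lit 37009356340) (nat_lit 46) (nat_lit 5) (nat_lit 51) (nat_lit 5) (nat_lit 47) (nat_lit 5) (nat_lit 359) (nat_lit 350) (nat_lit 191)) (XT.lf (nat_lit 0) (nat_lit 95342612680) (nat_lit 380) (nat_lit 36238555580) (nat_lit 76) (nat_lit 157531464576) (nat_lit 46) (nat_lit 5) (nat_lit 51) (nat_lit 5) (nat_lit 47) (nat_lit 5) (nat_lit 360) (nat_lit 350) (nat_lit 190))) (XT.nd (nat_lit 78) (nat_lit 0) (nat_lit 0) (XT.lf (nat_lit 0) (nat_lit 121564180224) (nat_lit 228) (nat_lit 11685353519) (nat_lit 304) (nat_lit 169054784645) (nat_lit 43) (nat_lit 5) (nat_lit 46) (nat_lit 5) (nat_lit 47) (nat_lit 5) (nat_lit 361) (nat_lit 350) (nat_lit 189))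 (XT.lf (nat_lit 0) (nat_lit 178038627102) (nat_lit 304) (nat_lit 25279000524) (nat_lit 76) (nat_lit 112925741800) (nat_lit 43) (nat_lit 5) (nat_lit 47) (nat_lit 5) (nat_lit 44) (nat_lit 5) (nat_lit 362) (nat_lit 350) (nat_lit 188)))) (XT.nd (nat_lit 156) (nat_lit 456) (nat_lit 0) (XT.nd (nat_lit 78) (nat_lit 0) (nat_lit 0) (XT.lf (nat_lit 0) (nat_lit 149809495924) (nat_lit 228) (nat_lit 80507708693) (nat_lit 304) (nat_lit 100667831514) (nat_lit 40) (nat_lit 5) (nat_lit 43) (nat_lit 5) (nat_lit 44) (nat_lit 5) (nat_lit 363) (nat_lit 350) (nat_lit 187)) (XT.lf (nat_lit 0) (nat_lit 288740771709) (nat_lit 304) (nat_lit 7779737134) (nat_lit 76) (nat_lit 50228511173) (nat_lit 40) (nat_lit 5) (nat_lit 44) (nat_lit 5) (nat_lit 41) (nat_lit 5) (nat_lit 364) (nat_lit 350) (nat_lit 186))) (XT.nd (nat_lit 78) (nat_lit 304) (nat_lit 0) (XT.lf (nat_lit 0) (nat_lit 186737917235) (nat_lit 152) (nat_lit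 171682395862) (nat_lit 228) (nat_lit 4827242503) (nat_lit 38) (nat_lit 5) (nat_lit 40) (nat_lit 5) (nat_lit 41) (nat_lit 5) (nat_lit 365) (nat_lit 350) (nat_lit 185)) (XT.nd (nat_lit 78) (nat_lit 0) (nat_lit 0) (XT.lf (nat_lit 0) (nat_lit 15726314806) (nat_lit 228) (nat_lit 34846636107) (nat_lit 304) (nat_lit 330344094078) (nat_lit 34) (nat_lit 5) (nat_lit 37) (nat_lit 5) (nat_lit 38) (nat_lit 5) (nat_lit 366) (nat_lit 350) (nat_lit 184)) (XT.lf (nat_lit 0) (nat_lit 117811847734) (nat_lit 304) (nat_lit 169201546478) (nat_lit 76) (nat_lit 112363270016) (nat_lit 34) (nat_lit 5) (nat_lit 38) (nat_lit 5) (nat_lit 35) (nat_lit 5) (nat_lit 367) (nat_lit 350) (nat_lit 183))))))))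
noncomputable def xc221 : XT := (XT.nd (nat_lit 1326) (nat_lit 684) (nat_lit 0) (XT.nd (nat_lit 624) (nat_lit 608) (nat_lit 0) (XT.nd (nat_lit 312) (nat_lit 380) (nat_lit 0) (XT.nd (nat_lit 156) (nat_lit 152) (nat_lit 0) (XT.nd (nat_lit 78) (nat_lit 0) (nat_lit 0) (XT.lf (nat_lit 0) (nat_lit 43750135828) (nat_lit 152) (nat_lit 148636956815) (nat_lit 228) (nat_lit 226769381532) (nat_lit 32) (nat_lit 5) (nat_lit 34) (nat_lit 5) (nat_lit 35) (nat_lit 5) (nat_lit 368) (nat_lit 350) (nat_lit 182)) (XT.lf (nat_lit 0) (nat_lit 277694200024) (nat_lit 228) (nat_lit 156927696087) (nat_lit 76) (nat_lit 5515505445) (nat_lit 32) (nat_lit 5) (nat_lit 35) (nat_lit 5) (nat_lit 33) (nat_lit 5) (nat_lit 369) (nat_lit 350) (nat_lit 181))) (XT.nd (nat_lit 78) (nat_lit 0) (nat_lit 0) (XT.lf (nat_lit 0) (nat_lit 79126691896) (nat_lit 152) (nat_lit 296462826724) (nat_lit 228) (nat_lit 86746193162) (nat_lit 30)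 (nat_lit 5) (nat_lit 32) (nat_lit 5) (nat_lit 33) (nat_lit 5) (nat_lit 370) (nat_lit 350) (nat_lit 180)) (XT.lf (nat_lit 0) (nat_lit 342989967074) (nat_lit 152) (nat_lit 142617122777) (nat_lit 228) (nat_lit 359546865) (nat_lit 30) (nat_lit 5) (nat_lit 32) (nat_lit 5) (nat_lit 33) (nat_lit 5) (nat_lit 371) (nat_lit 350) (nat_lit 179)))) (XT.nd (nat_lit 156) (nat_lit 152) (nat_lit 0) (XT.nd (nat_lit 78) (nat_lit 0) (nat_lit 0) (XT.lf (nat_lit 0) (nat_lit 91880193014) (nat_lit 228) (nat_lit 391522425653) (nat_lit 76) (nat_lit 27619300191) (nat_lit 27) (nat_lit 5) (nat_lit 30) (nat_lit 5) (nat_lit 28) (nat_lit 5) (nat_lit 372) (nat_lit 350) (nat_lit 178)) (XT.lf (nat_lit 0) (nat_lit 199194752029) (nat_lit 228) (nat_lit 130479223220) (nat_lit 76) (nat_lit 207789696075) (nat_lit 27) (nat_lit 5) (nat_lit 30) (nat_lit 5) (nat_lit 28) (nat_lit 5) (nat_lit 373) (nat_lit 350) (nat_lit 177))) (XT.nd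 (nat_lit 78) (nat_lit 0) (nat_lit 0) (XT.lf (nat_lit 0) (nat_lit 159422311825) (nat_lit 152) (nat_lit 159506227940) (nat_lit 228) (nat_lit 246785499143) (nat_lit 25) (nat_lit 5) (nat_lit 27) (nat_lit 5) (nat_lit 28) (nat_lit 5) (nat_lit 374) (nat_lit 350) (nat_lit 176)) (XT.lf (nat_lit 0) (nat_lit 452484994432) (nat_lit 228) (nat_lit 116679145007) (nat_lit 76) (nat_lit 26720779391) (nat_lit 25) (nat_lit 5) (nat_lit 28) (nat_lit 5) (nat_lit 26) (nat_lit 4) (nat_lit 375) (nat_lit 350) (nat_lit 175))))) (XT.nd (nat_lit 312) (nat_lit 304) (nat_lit 0) (XT.nd (nat_lit 156) (nat_lit 152) (nat_lit 0) (XT.nd (nat_lit 78) (nat_lit 76) (nat_lit 0) (XT.lf (nat_lit 0) (nat_lit 202067595331) (nat_lit 76) (nat_lit 403661077581) (nat_lit 152) (nat_lit 22020579676) (nat_lit 24) (nat_lit 5) (nat_lit 25) (nat_lit 5) (nat_lit 26) (nat_lit 4) (nat_lit 376) (nat_lit 350) (nat_lit 174)) (XT.lf (nat_lit 0) (nat_lit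 106886069609) (nat_lit 152) (nat_lit 111663841488) (nat_lit 76) (nat_lit 443141129942) (nat_lit 23) (nat_lit 5) (nat_lit 25) (nat_lit 5) (nat_lit 24) (nat_lit 5) (nat_lit 377) (nat_lit 350) (nat_lit 173))) (XT.nd (nat_lit 78) (nat_lit 0) (nat_lit 0) (XT.lf (nat_lit 0) (nat_lit 238851701676) (nat_lit 152) (nat_lit 11808216564) (nat_lit 228) (nat_lit 447182949254) (nat_lit 21) (nat_lit 5) (nat_lit 23) (nat_lit 5) (nat_lit 24) (nat_lit 5) (nat_lit 378) (nat_lit 350) (nat_lit 172)) (XT.lf (nat_lit 0) (nat_lit 414153951524) (nat_lit 228) (nat_lit 118048975393) (nat_lit 76) (nat_lit 204026451033) (nat_lit 21) (nat_lit 5) (nat_lit 24) (nat_lit 5) (nat_lit 22) (nat_lit 4) (nat_lit 379) (nat_lit 350) (nat_lit 171)))) (XT.nd (nat_lit 156) (nat_lit 228) (nat_lit 0) (XT.nd (nat_lit 78) (nat_lit 0) (nat_lit 0) (XT.lf (nat_lit 0) (nat_lit 263019103976) (nat_lit 76) (nat_lit 334340691224) (nat_lit 152)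 (nat_lit 179796431052) (nat_lit 20) (nat_lit 5) (nat_lit 21) (nat_lit 5) (nat_lit 22) (nat_lit 4) (nat_lit 380) (nat_lit 350) (nat_lit 170)) (XT.lf (nat_lit 0) (nat_lit 681286120870) (nat_lit 76) (nat_lit 117163619897) (nat_lit 152) (nat_lit 22649270922) (nat_lit 20) (nat_lit 5) (nat_lit 21) (nat_lit 5) (nat_lit 22) (nat_lit 4) (nat_lit 381) (nat_lit 350) (nat_lit 169))) (XT.nd (nat_lit 78) (nat_lit 76) (nat_lit 0) (XT.lf (nat_lit 0) (nat_lit 149404802988) (nat_lit 152) (nat_lit 596172643705) (nat_lit 76) (nat_lit 121921438088) (nat_lit 18) (nat_lit 5) (nat_lit 20) (nat_lit 5) (nat_lit 19) (nat_lit 4) (nat_lit 382) (nat_lit 350) (nat_lit 168)) (XT.nd (nat_lit 78) (nat_lit 76) (nat_lit 0) (XT.lf (nat_lit 0) (nat_lit 340964757125) (nat_lit 152) (nat_lit 197727994579) (nat_lit 76) (nat_lit 378313716357) (nat_lit 18) (nat_lit 5) (nat_lit 20) (nat_lit 5) (nat_lit 19) (nat_lit 4) (nat_lit 383)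 (nat_lit 350) (nat_lit 167)) (XT.lf (nat_lit 0) (nat_lit 244840065823) (nat_lit 76) (nat_lit 308897821961) (nat_lit 152) (nat_lit 416265699822) (nat_lit 17) (nat_lit 5) (nat_lit 18) (nat_lit 5) (nat_lit 19) (nat_lit 4) (nat_lit 384) (nat_lit 350) (nat_lit 166))))))) (XT.nd (nat_lit 702) (nat_lit 228) (nat_lit 0) (XT.nd (nat_lit 312) (nat_lit 228) (nat_lit 0) (XT.nd (nat_lit 156) (nat_lit 152) (nat_lit 0) (XT.nd (nat_lit 78) (nat_lit 76) (nat_lit 0) (XT.lf (nat_lit 0) (nat_lit 734058486283) (nat_lit 76) (nat_lit 54880588050) (nat_lit 152) (nat_lit 237868905962) (nat_lit 17) (nat_lit 5) (nat_lit 18) (nat_lit 5) (nat_lit 19) (nat_lit 4) (nat_lit 385) (nat_lit 350) (nat_lit 165)) (XT.lf (nat_lit 0) (nat_lit 177877804545) (nat_lit 76) (nat_lit 874634460765) (nat_lit 76) (nat_lit 34879986346) (nat_lit 16) (nat_lit 4) (nat_lit 17) (nat_lit 5) (nat_lit 17) (nat_lit 4) (nat_lit 386) (nat_lit 350)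 (nat_lit 164))) (XT.nd (nat_lit 78) (nat_lit 76) (nat_lit 0) (XT.lf (nat_lit 0) (nat_lit 184763847745) (nat_lit 152) (nat_lit 455445708864) (nat_lit 76) (nat_lit 511488011184) (nat_lit 15) (nat_lit 5) (nat_lit 17) (nat_lit 5) (nat_lit 16) (nat_lit 4) (nat_lit 387) (nat_lit 350) (nat_lit 163)) (XT.lf (nat_lit 0) (nat_lit 35835127582) (nat_lit 76) (nat_lit 385121446801) (nat_lit 152) (nat_lit 800049312074) (nat_lit 14) (nat_lit 5) (nat_lit 15) (nat_lit 5) (nat_lit 16) (nat_lit 4) (nat_lit 388) (nat_lit 350) (nat_lit 162)))) (XT.nd (nat_lit 156) (nat_lit 228) (nat_lit 0) (XT.nd (nat_lit 78) (nat_lit 0) (nat_lit 0) (XT.lf (nat_lit 0) (nat_lit 592319987716) (nat_lit 76) (nat_lit 96177400371) (nat_lit 152) (nat_lit 606365269023) (nat_lit 14) (nat_lit 5) (nat_lit 15) (nat_lit 5) (nat_lit 16) (nat_lit 4) (nat_lit 389) (nat_lit 350) (nat_lit 161)) (XT.lf (nat_lit 0) (nat_lit 982633415712) (nat_lit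 152) (nat_lit 186496346429) (nat_lit 0) (nat_lit 205082851379) (nat_lit 14) (nat_lit 5) (nat_lit 16) (nat_lit 4) (nat_lit 14) (nat_lit 4) (nat_lit 390) (nat_lit 350) (nat_lit 160))) (XT.nd (nat_lit 78) (nat_lit 152) (nat_lit 0) (XT.lf (nat_lit 0) (nat_lit 387731425119) (nat_lit 76) (nat_lit 924391943941) (nat_lit 76) (nat_lit 146841353910) (nat_lit 13) (nat_lit 4) (nat_lit 14) (nat_lit 5) (nat_lit 14) (nat_lit 4) (nat_lit 391) (nat_lit 350) (nat_lit 159)) (XT.nd (nat_lit 78) (nat_lit 76) (nat_lit 0) (XT.lf (nat_lit 0) (nat_lit 116830481370) (nat_lit 152) (nat_lit 534543212574) (nat_lit 76) (nat_lit 898478758917) (nat_lit 12) (nat_lit 5) (nat_lit 14) (nat_lit 5) (nat_lit 13) (nat_lit 4) (nat_lit 392) (nat_lit 350) (nat_lit 158)) (XT.lf (nat_lit 0) (nat_lit 43441080818) (nat_lit 76) (nat_lit 351266475274) (nat_lit 152) (nat_lit 1252914940983) (nat_lit 11) (nat_lit 5) (nat_lit 12) (nat_lit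 5) (nat_lit 13) (nat_lit 4) (nat_lit 393) (nat_lit 350) (nat_lit 157)))))) (XT.nd (nat_lit 312) (nat_lit 152) (nat_lit 0) (XT.nd (nat_lit 156) (nat_lit 76) (nat_lit 0) (XT.nd (nat_lit 78) (nat_lit 0) (nat_lit 0) (XT.lf (nat_lit 0) (nat_lit 698064028380) (nat_lit 76) (nat_lit 11366108462) (nat_lit 152) (nat_lit 1042614780786) (nat_lit 11) (nat_lit 5) (nat_lit 12) (nat_lit 5) (nat_lit 13) (nat_lit 4) (nat_lit 394) (nat_lit 350) (nat_lit 156)) (XT.lf (nat_lit 0) (nat_lit 1057885732164) (nat_lit 152) (nat_lit 468319579692) (nat_lit 0) (nat_lit 337931403329) (nat_lit 11) (nat_lit 5) (nat_lit 13) (nat_lit 4) (nat_lit 11) (nat_lit 4) (nat_lit 395) (nat_lit 350) (nat_lit 155))) (XT.nd (nat_lit 78) (nat_lit 0) (nat_lit 0) (XT.lf (nat_lit 0) (nat_lit 172530030582) (nat_lit 76) (nat_lit 1266132303154) (nat_lit 76) (nat_lit 546177958126) (nat_lit 10) (nat_lit 4) (nat_lit 11) (nat_lit 5) (nat_lit 11)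 (nat_lit 4) (nat_lit 396) (nat_lit 350) (nat_lit 154)) (XT.lf (nat_lit 0) (nat_lit 891281328606) (nat_lit 76) (nat_lit 971424406193) (nat_lit 76) (nat_lit 251470046171) (nat_lit 10) (nat_lit 4) (nat_lit 11) (nat_lit 5) (nat_lit 11) (nat_lit 4) (nat_lit 397) (nat_lit 350) (nat_lit 153)))) (XT.nd (nat_lit 156) (nat_lit 0) (nat_lit 0) (XT.nd (nat_lit 78) (nat_lit 76) (nat_lit 0) (XT.lf (nat_lit 0) (nat_lit 63472151824) (nat_lit 152) (nat_lit 587932298111) (nat_lit 76) (nat_lit 1602325109259) (nat_lit 9) (nat_lit 5) (nat_lit 11) (nat_lit 5) (nat_lit 10) (nat_lit 4) (nat_lit 398) (nat_lit 350) (nat_lit 152)) (XT.lf (nat_lit 0) (nat_lit 96102550862) (nat_lit 76) (nat_lit 296232515302) (nat_lit 152) (nat_lit 2011405137980) (nat_lit 8) (nat_lit 5) (nat_lit 9) (nat_lit 5) (nat_lit 10) (nat_lit 4) (nat_lit 399) (nat_lit 350) (nat_lit 151))) (XT.nd (nat_lit 78) (nat_lit 0) (nat_lit 0) (XT.lf (nat_lit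 0) (nat_lit 766100492003) (nat_lit 152) (nat_lit 1698687681627) (nat_lit 0) (nat_lit 99476048796) (nat_lit 8) (nat_lit 5) (nat_lit 10) (nat_lit 4) (nat_lit 8) (nat_lit 4) (nat_lit 400) (nat_lit 350) (nat_lit 150)) (XT.nd (nat_lit 78) (nat_lit 0) (nat_lit 0) (XT.lf (nat_lit 0) (nat_lit 1177461490111) (nat_lit 152) (nat_lit 1048716088308) (nat_lit 0) (nat_lit 510837036699) (nat_lit 8) (nat_lit 5) (nat_lit 10) (nat_lit 4) (nat_lit 8) (nat_lit 4) (nat_lit 401) (nat_lit 350) (nat_lit 149)) (XT.lf (nat_lit 0) (nat_lit 1621731356174) (nat_lit 152) (nat_lit 346746790693) (nat_lit 0) (nat_lit 955106893314) (nat_lit 8) (nat_lit 5) (nat_lit 10) (nat_lit 4) (nat_lit 8) (nat_lit 4) (nat_lit 402) (nat_lit 350) (nat_lit 148))))))))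
noncomputable def xc222 : XT := (XT.nd (nat_lit 43836) (nat_lit 0) (nat_lit 1140) (XT.nd (nat_lit 43134) (nat_lit 0) (nat_lit 2812) (XT.nd (nat_lit 42822) (nat_lit 0) (nat_lit 3648) (XT.nd (nat_lit 156) (nat_lit 76) (nat_lit 0) (XT.nd (nat_lit 78) (nat_lit 0) (nat_lit 0) (XT.lf (nat_lit 0) (nat_lit 433042572592) (nat_lit 76) (nat_lit 1678914912204) (nat_lit 76) (nat_lit 1012290440595) (nat_lit 7) (nat_lit 4) (nat_lit 8) (nat_lit 5) (nat_lit 8) (nat_lit 4) (nat_lit 403) (nat_lit 350) (nat_lit 147)) (XT.lf (nat_lit 0) (nat_lit 1294934861263) (nat_lit 76) (nat_lit 1355947503491) (nat_lit 76) (nat_lit 689323023782) (nat_lit 7) (nat_lit 4) (nat_lit 8) (nat_lit 5) (nat_lit 8) (nat_lit 4) (nat_lit 404) (nat_lit 350) (nat_lit 146))) (XT.nd (nat_lit 78) (nat_lit 76) (nat_lit 0) (XT.lf (nat_lit 0) (nat_lit 2225778513666) (nat_lit 76) (nat_lit 1007142711536) (nat_lit 76) (nat_lit 340518224326) (nat_lit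 7) (nat_lit 4) (nat_lit 8) (nat_lit 5) (nat_lit 8) (nat_lit 4) (nat_lit 405) (nat_lit 350) (nat_lit 145)) (XT.lf (nat_lit 0) (nat_lit 34380531324) (nat_lit 152) (nat_lit 595112988999) (nat_lit 76) (nat_lit 3195769084356) (nat_lit 6) (nat_lit 5) (nat_lit 8) (nat_lit 5) (nat_lit 7) (nat_lit 4) (nat_lit 406) (nat_lit 350) (nat_lit 144)))) (XT.nd (nat_lit 156) (nat_lit 0) (nat_lit 76) (XT.nd (nat_lit 78) (nat_lit 0) (nat_lit 0) (XT.lf (nat_lit 0) (nat_lit 79610610523) (nat_lit 532) (nat_lit 11794351580) (nat_lit 532) (nat_lit 11794351580) (nat_lit 54) (nat_lit 3) (nat_lit 61) (nat_lit 3) (nat_lit 61) (nat_lit 5) (nat_lit 351) (nat_lit 351) (nat_lit 198)) (XT.lf (nat_lit 76) (nat_lit 78032962609) (nat_lit 0) (nat_lit 89435224792) (nat_lit 532) (nat_lit 47036133061) (nat_lit 55) (nat_lit 5) (nat_lit 54) (nat_lit 3) (nat_lit 61) (nat_lit 5) (nat_lit 352) (nat_lit 351) (nat_lit 197))) (XT.nd (nat_lit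 78) (nat_lit 0) (nat_lit 0) (XT.lf (nat_lit 0) (nat_lit 177310874917) (nat_lit 456) (nat_lit 34372244429) (nat_lit 532) (nat_lit 11500472810) (nat_lit 55) (nat_lit 5) (nat_lit 61) (nat_lit 5) (nat_lit 62) (nat_lit 5) (nat_lit 353) (nat_lit 351) (nat_lit 196)) (XT.lf (nat_lit 76) (nat_lit 77445874105) (nat_lit 0) (nat_lit 114680539106) (nat_lit 532) (nat_lit 40095957753) (nat_lit 56) (nat_lit 5) (nat_lit 55) (nat_lit 5) (nat_lit 62) (nat_lit 5) (nat_lit 354) (nat_lit 351) (nat_lit 195))))) (XT.nd (nat_lit 312) (nat_lit 532) (nat_lit 0) (XT.nd (nat_lit 156) (nat_lit 380) (nat_lit 0) (XT.nd (nat_lit 78) (nat_lit 0) (nat_lit 76) (XT.lf (nat_lit 76) (nat_lit 200164136940) (nat_lit 0) (nat_lit 8902731240) (nat_lit 532) (nat_lit 32842210230) (nat_lit 56) (nat_lit 5) (nat_lit 55) (nat_lit 5) (nat_lit 62) (nat_lit 5) (nat_lit 355) (nat_lit 351) (nat_lit 194)) (XT.lf (nat_lit 76) (nat_lit 81892267431)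 (nat_lit 0) (nat_lit 149973053376) (nat_lit 532) (nat_lit 20145180951) (nat_lit 57) (nat_lit 5) (nat_lit 56) (nat_lit 5) (nat_lit 63) (nat_lit 5) (nat_lit 356) (nat_lit 351) (nat_lit 193))) (XT.nd (nat_lit 78) (nat_lit 456) (nat_lit 0) (XT.lf (nat_lit 76) (nat_lit 217551021495) (nat_lit 0) (nat_lit 40303286442) (nat_lit 532) (nat_lit 4956398567) (nat_lit 57) (nat_lit 5) (nat_lit 56) (nat_lit 5) (nat_lit 63) (nat_lit 5) (nat_lit 357) (nat_lit 351) (nat_lit 192)) (XT.lf (nat_lit 0) (nat_lit 15080951860) (nat_lit 532) (nat_lit 182202006991) (nat_lit 76) (nat_lit 76833454747) (nat_lit 50) (nat_lit 5) (nat_lit 57) (nat_lit 5) (nat_lit 51) (nat_lit 5) (nat_lit 358) (nat_lit 351) (nat_lit 191)))) (XT.nd (nat_lit 156) (nat_lit 228) (nat_lit 0) (XT.nd (nat_lit 78) (nat_lit 304) (nat_lit 0) (XT.lf (nat_lit 0) (nat_lit 38769880162) (nat_lit 532) (nat_lit 44799005604) (nat_lit 76) (nat_lit 202562083506)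 (nat_lit 50) (nat_lit 5) (nat_lit 57) (nat_lit 5) (nat_lit 51) (nat_lit 5) (nat_lit 359) (nat_lit 351) (nat_lit 190)) (XT.lf (nat_lit 0) (nat_lit 67988420849) (nat_lit 380) (nat_lit 190857441856) (nat_lit 76) (nat_lit 39970066988) (nat_lit 46) (nat_lit 5) (nat_lit 51) (nat_lit 5) (nat_lit 47) (nat_lit 5) (nat_lit 360) (nat_lit 351) (nat_lit 189))) (XT.nd (nat_lit 78) (nat_lit 228) (nat_lit 0) (XT.lf (nat_lit 0) (nat_lit 102971679599) (nat_lit 380) (nat_lit 39135882006) (nat_lit 76) (nat_lit 170133946688) (nat_lit 46) (nat_lit 5) (nat_lit 51) (nat_lit 5) (nat_lit 47) (nat_lit 5) (nat_lit 361) (nat_lit 351) (nat_lit 188)) (XT.nd (nat_lit 78) (nat_lit 0) (nat_lit 0) (XT.lf (nat_lit 0) (nat_lit 131291028156) (nat_lit 228) (nat_lit 12620044594) (nat_lit 304) (nat_lit 182577462655) (nat_lit 43) (nat_lit 5) (nat_lit 46) (nat_lit 5) (nat_lit 47) (nat_lit 5) (nat_lit 362) (nat_lit 351) (nat_lit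 187)) (XT.lf (nat_lit 0) (nat_lit 192283179869) (nat_lit 304) (nat_lit 27299618096) (nat_lit 76) (nat_lit 121959921832) (nat_lit 43) (nat_lit 5) (nat_lit 47) (nat_lit 5) (nat_lit 44) (nat_lit 5) (nat_lit 363) (nat_lit 351) (nat_lit 186))))))) (XT.nd (nat_lit 624) (nat_lit 684) (nat_lit 0) (XT.nd (nat_lit 312) (nat_lit 304) (nat_lit 0) (XT.nd (nat_lit 156) (nat_lit 456) (nat_lit 0) (XT.nd (nat_lit 78) (nat_lit 0) (nat_lit 0) (XT.lf (nat_lit 0) (nat_lit 161795914968) (nat_lit 228) (nat_lit 86948060185) (nat_lit 304) (nat_lit 108719750322) (nat_lit 40) (nat_lit 5) (nat_lit 43) (nat_lit 5) (nat_lit 44) (nat_lit 5) (nat_lit 364) (nat_lit 351) (nat_lit 185)) (XT.lf (nat_lit 0) (nat_lit 311841330246) (nat_lit 304) (nat_lit 8400480420) (nat_lit 76) (nat_lit 54247025342) (nat_lit 40) (nat_lit 5) (nat_lit 44) (nat_lit 5) (nat_lit 41) (nat_lit 5) (nat_lit 365) (nat_lit 351) (nat_lit 184))) (XT.nd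 (nat_lit 78) (nat_lit 304) (nat_lit 0) (XT.lf (nat_lit 0) (nat_lit 201678544889) (nat_lit 152) (nat_lit 185416632339) (nat_lit 228) (nat_lit 5212081966) (nat_lit 38) (nat_lit 5) (nat_lit 40) (nat_lit 5) (nat_lit 41) (nat_lit 5) (nat_lit 366) (nat_lit 351) (nat_lit 183)) (XT.lf (nat_lit 0) (nat_lit 16986040795) (nat_lit 228) (nat_lit 37633963790) (nat_lit 304) (nat_lit 356770305116) (nat_lit 34) (nat_lit 5) (nat_lit 37) (nat_lit 5) (nat_lit 38) (nat_lit 5) (nat_lit 367) (nat_lit 351) (nat_lit 182)))) (XT.nd (nat_lit 156) (nat_lit 152) (nat_lit 0) (XT.nd (nat_lit 78) (nat_lit 152) (nat_lit 0) (XT.lf (nat_lit 0) (nat_lit 127237931938) (nat_lit 304) (nat_lit 182736086866) (nat_lit 76) (nat_lit 121352686281) (nat_lit 34) (nat_lit 5) (nat_lit 38) (nat_lit 5) (nat_lit 35) (nat_lit 5) (nat_lit 368) (nat_lit 351) (nat_lit 181)) (XT.lf (nat_lit 0) (nat_lit 47251689940) (nat_lit 152) (nat_lit 160527459439)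 (nat_lit 228) (nat_lit 244909754315) (nat_lit 32) (nat_lit 5) (nat_lit 34) (nat_lit 5) (nat_lit 35) (nat_lit 5) (nat_lit 369) (nat_lit 351) (nat_lit 180))) (XT.nd (nat_lit 78) (nat_lit 152) (nat_lit 0) (XT.lf (nat_lit 0) (nat_lit 299910754768) (nat_lit 228) (nat_lit 169480411084) (nat_lit 76) (nat_lit 5957145154) (nat_lit 32) (nat_lit 5) (nat_lit 35) (nat_lit 5) (nat_lit 33) (nat_lit 5) (nat_lit 370) (nat_lit 351) (nat_lit 179)) (XT.lf (nat_lit 0) (nat_lit 85458289945) (nat_lit 152) (nat_lit 320179368622) (nat_lit 228) (nat_lit 93684830793) (nat_lit 30) (nat_lit 5) (nat_lit 32) (nat_lit 5) (nat_lit 33) (nat_lit 5) (nat_lit 371) (nat_lit 351) (nat_lit 178))))) (XT.nd (nat_lit 312) (nat_lit 304) (nat_lit 0) (XT.nd (nat_lit 156) (nat_lit 152) (nat_lit 0) (XT.nd (nat_lit 78) (nat_lit 228) (nat_lit 0) (XT.lf (nat_lit 0) (nat_lit 370430518790) (nat_lit 152) (nat_lit 154026044228) (nat_lit 228)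 (nat_lit 387331150) (nat_lit 30) (nat_lit 5) (nat_lit 32) (nat_lit 5) (nat_lit 33) (nat_lit 5) (nat_lit 372) (nat_lit 351) (nat_lit 177)) (XT.lf (nat_lit 0) (nat_lit 99231514323) (nat_lit 228) (nat_lit 422842789963) (nat_lit 76) (nat_lit 29829294747) (nat_lit 27) (nat_lit 5) (nat_lit 30) (nat_lit 5) (nat_lit 28) (nat_lit 5) (nat_lit 373) (nat_lit 351) (nat_lit 176))) (XT.nd (nat_lit 78) (nat_lit 152) (nat_lit 0) (XT.lf (nat_lit 0) (nat_lit 215131170958) (nat_lit 228) (nat_lit 140916237241) (nat_lit 76) (nat_lit 224413288928) (nat_lit 27) (nat_lit 5) (nat_lit 30) (nat_lit 5) (nat_lit 28) (nat_lit 5) (nat_lit 374) (nat_lit 351) (nat_lit 175)) (XT.lf (nat_lit 0) (nat_lit 172177387093) (nat_lit 152) (nat_lit 172266243523) (nat_lit 228) (nat_lit 266527466052) (nat_lit 25) (nat_lit 5) (nat_lit 27) (nat_lit 5) (nat_lit 28) (nat_lit 5) (nat_lit 375) (nat_lit 351) (nat_lit 174)))) (XT.nd (nat_lit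 156) (nat_lit 228) (nat_lit 0) (XT.nd (nat_lit 78) (nat_lit 76) (nat_lit 0) (XT.lf (nat_lit 0) (nat_lit 488684552576) (nat_lit 228) (nat_lit 126012232101) (nat_lit 76) (nat_lit 28858866287) (nat_lit 25) (nat_lit 5) (nat_lit 28) (nat_lit 5) (nat_lit 26) (nat_lit 4) (nat_lit 376) (nat_lit 351) (nat_lit 173)) (XT.lf (nat_lit 0) (nat_lit 218234215958) (nat_lit 76) (nat_lit 435953482357) (nat_lit 152) (nat_lit 23781435319) (nat_lit 24) (nat_lit 5) (nat_lit 25) (nat_lit 5) (nat_lit 26) (nat_lit 4) (nat_lit 377) (nat_lit 351) (nat_lit 172))) (XT.nd (nat_lit 78) (nat_lit 152) (nat_lit 0) (XT.lf (nat_lit 0) (nat_lit 115437650711) (nat_lit 152) (nat_lit 120595788488) (nat_lit 76) (nat_lit 478592828936) (nat_lit 23) (nat_lit 5) (nat_lit 25) (nat_lit 5) (nat_lit 24) (nat_lit 5) (nat_lit 378) (nat_lit 351) (nat_lit 171)) (XT.nd (nat_lit 78) (nat_lit 0) (nat_lit 0) (XT.lf (nat_lit 0) (nat_lit 257960968753)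 (nat_lit 152) (nat_lit 12752414156) (nat_lit 228) (nat_lit 482956859782) (nat_lit 21) (nat_lit 5) (nat_lit 23) (nat_lit 5) (nat_lit 24) (nat_lit 5) (nat_lit 379) (nat_lit 351) (nat_lit 170)) (XT.lf (nat_lit 0) (nat_lit 447286899375) (nat_lit 228) (nat_lit 127491806306) (nat_lit 76) (nat_lit 220348971500) (nat_lit 21) (nat_lit 5) (nat_lit 24) (nat_lit 5) (nat_lit 22) (nat_lit 4) (nat_lit 380) (nat_lit 351) (nat_lit 169))))))))
noncomputable def xc223 : XT := (XT.nd (nat_lit 1326) (nat_lit 228) (nat_lit 0) (XT.nd (nat_lit 624) (nat_lit 380) (nat_lit 0) (XT.nd (nat_lit 312) (nat_lit 228) (nat_lit 0) (XT.nd (nat_lit 156) (nat_lit 152) (nat_lit 0) (XT.nd (nat_lit 78) (nat_lit 0) (nat_lit 0) (XT.lf (nat_lit 0) (nat_lit 284061691891) (nat_lit 76) (nat_lit 361087497343) (nat_lit 152) (nat_lit 194179485852) (nat_lit 20) (nat_lit 5) (nat_lit 21) (nat_lit 5) (nat_lit 22) (nat_lit 4) (nat_lit 381)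 (nat_lit 351) (nat_lit 168)) (XT.lf (nat_lit 0) (nat_lit 735789991647) (nat_lit 76) (nat_lit 126536293583) (nat_lit 152) (nat_lit 24460601778) (nat_lit 20) (nat_lit 5) (nat_lit 21) (nat_lit 5) (nat_lit 22) (nat_lit 4) (nat_lit 382) (nat_lit 351) (nat_lit 167))) (XT.nd (nat_lit 78) (nat_lit 0) (nat_lit 0) (XT.lf (nat_lit 0) (nat_lit 161357758462) (nat_lit 152) (nat_lit 643865433797) (nat_lit 76) (nat_lit 131675557264) (nat_lit 18) (nat_lit 5) (nat_lit 20) (nat_lit 5) (nat_lit 19) (nat_lit 4) (nat_lit 383) (nat_lit 351) (nat_lit 166)) (XT.lf (nat_lit 0) (nat_lit 368242466616) (nat_lit 152) (nat_lit 213545288400) (nat_lit 76) (nat_lit 408579187860) (nat_lit 18) (nat_lit 5) (nat_lit 20) (nat_lit 5) (nat_lit 19) (nat_lit 4) (nat_lit 384) (nat_lit 351) (nat_lit 165)))) (XT.nd (nat_lit 156) (nat_lit 152) (nat_lit 0) (XT.nd (nat_lit 78) (nat_lit 0) (nat_lit 0) (XT.lf (nat_lit 0) (nat_lit 264428192891)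 (nat_lit 76) (nat_lit 333609237826) (nat_lit 152) (nat_lit 449566402651) (nat_lit 17) (nat_lit 5) (nat_lit 18) (nat_lit 5) (nat_lit 19) (nat_lit 4) (nat_lit 385) (nat_lit 351) (nat_lit 164)) (XT.lf (nat_lit 0) (nat_lit 792784018707) (nat_lit 76) (nat_lit 59270655565) (nat_lit 152) (nat_lit 256897906256) (nat_lit 17) (nat_lit 5) (nat_lit 18) (nat_lit 5) (nat_lit 19) (nat_lit 4) (nat_lit 386) (nat_lit 351) (nat_lit 163))) (XT.nd (nat_lit 78) (nat_lit 76) (nat_lit 0) (XT.lf (nat_lit 0) (nat_lit 192108889150) (nat_lit 76) (nat_lit 944604825406) (nat_lit 76) (nat_lit 37669879538) (nat_lit 16) (nat_lit 4) (nat_lit 17) (nat_lit 5) (nat_lit 17) (nat_lit 4) (nat_lit 387) (nat_lit 351) (nat_lit 162)) (XT.lf (nat_lit 0) (nat_lit 199545400396) (nat_lit 152) (nat_lit 491880545414) (nat_lit 76) (nat_lit 552407391605) (nat_lit 15) (nat_lit 5) (nat_lit 17) (nat_lit 5) (nat_lit 16) (nat_lit 4) (nat_lit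 388) (nat_lit 351) (nat_lit 161))))) (XT.nd (nat_lit 312) (nat_lit 228) (nat_lit 0) (XT.nd (nat_lit 156) (nat_lit 76) (nat_lit 0) (XT.nd (nat_lit 78) (nat_lit 0) (nat_lit 0) (XT.lf (nat_lit 0) (nat_lit 38702737185) (nat_lit 76) (nat_lit 415930794255) (nat_lit 152) (nat_lit 864052791245) (nat_lit 14) (nat_lit 5) (nat_lit 15) (nat_lit 5) (nat_lit 16) (nat_lit 4) (nat_lit 389) (nat_lit 351) (nat_lit 160)) (XT.lf (nat_lit 0) (nat_lit 639706326915) (nat_lit 76) (nat_lit 103871251392) (nat_lit 152) (nat_lit 654874059253) (nat_lit 14) (nat_lit 5) (nat_lit 15) (nat_lit 5) (nat_lit 16) (nat_lit 4) (nat_lit 390) (nat_lit 351) (nat_lit 159))) (XT.nd (nat_lit 78) (nat_lit 76) (nat_lit 0) (XT.lf (nat_lit 0) (nat_lit 1061244466167) (nat_lit 152) (nat_lit 201415346643) (nat_lit 0) (nat_lit 221489779443) (nat_lit 14) (nat_lit 5) (nat_lit 16) (nat_lit 4) (nat_lit 14) (nat_lit 4) (nat_lit 391) (nat_lit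 351) (nat_lit 158)) (XT.lf (nat_lit 0) (nat_lit 418750628717) (nat_lit 76) (nat_lit 998342975709) (nat_lit 76) (nat_lit 158588266955) (nat_lit 13) (nat_lit 4) (nat_lit 14) (nat_lit 5) (nat_lit 14) (nat_lit 4) (nat_lit 392) (nat_lit 351) (nat_lit 157)))) (XT.nd (nat_lit 156) (nat_lit 76) (nat_lit 0) (XT.nd (nat_lit 78) (nat_lit 76) (nat_lit 0) (XT.lf (nat_lit 0) (nat_lit 126177267560) (nat_lit 152) (nat_lit 577306012628) (nat_lit 76) (nat_lit 970357340951) (nat_lit 12) (nat_lit 5) (nat_lit 14) (nat_lit 5) (nat_lit 13) (nat_lit 4) (nat_lit 393) (nat_lit 351) (nat_lit 156)) (XT.lf (nat_lit 0) (nat_lit 46917007604) (nat_lit 76) (nat_lit 379367490302) (nat_lit 152) (nat_lit 1353147771823) (nat_lit 11) (nat_lit 5) (nat_lit 12) (nat_lit 5) (nat_lit 13) (nat_lit 4) (nat_lit 394) (nat_lit 351) (nat_lit 155))) (XT.nd (nat_lit 78) (nat_lit 76) (nat_lit 0) (XT.lf (nat_lit 0) (nat_lit 753909743540)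 (nat_lit 76) (nat_lit 12275116589) (nat_lit 152) (nat_lit 1126023625806) (nat_lit 11) (nat_lit 5) (nat_lit 12) (nat_lit 5) (nat_lit 13) (nat_lit 4) (nat_lit 395) (nat_lit 351) (nat_lit 154)) (XT.nd (nat_lit 78) (nat_lit 76) (nat_lit 0) (XT.lf (nat_lit 0) (nat_lit 1142516886188) (nat_lit 152) (nat_lit 505784580099) (nat_lit 0) (nat_lit 364966162369) (nat_lit 11) (nat_lit 5) (nat_lit 13) (nat_lit 4) (nat_lit 11) (nat_lit 4) (nat_lit 396) (nat_lit 351) (nat_lit 153)) (XT.lf (nat_lit 0) (nat_lit 186332984669) (nat_lit 76) (nat_lit 1367422622599) (nat_lit 76) (nat_lit 589871884897) (nat_lit 10) (nat_lit 4) (nat_lit 11) (nat_lit 5) (nat_lit 11) (nat_lit 4) (nat_lit 397) (nat_lit 351) (nat_lit 152))))))) (XT.nd (nat_lit 43368) (nat_lit 0) (nat_lit 2964) (XT.nd (nat_lit 312) (nat_lit 76) (nat_lit 0) (XT.nd (nat_lit 156) (nat_lit 76) (nat_lit 0) (XT.nd (nat_lit 78) (nat_lit 76) (nat_lit 0) (XT.lf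 (nat_lit 0) (nat_lit 962584345672) (nat_lit 76) (nat_lit 1049138113496) (nat_lit 76) (nat_lit 271587362940) (nat_lit 10) (nat_lit 4) (nat_lit 11) (nat_lit 5) (nat_lit 11) (nat_lit 4) (nat_lit 398) (nat_lit 351) (nat_lit 151)) (XT.lf (nat_lit 0) (nat_lit 68550176351) (nat_lit 152) (nat_lit 634966395648) (nat_lit 76) (nat_lit 1730511331661) (nat_lit 9) (nat_lit 5) (nat_lit 11) (nat_lit 5) (nat_lit 10) (nat_lit 4) (nat_lit 399) (nat_lit 351) (nat_lit 150))) (XT.nd (nat_lit 78) (nat_lit 0) (nat_lit 0) (XT.lf (nat_lit 0) (nat_lit 103791228931) (nat_lit 76) (nat_lit 319930887612) (nat_lit 152) (nat_lit 2172317284252) (nat_lit 8) (nat_lit 5) (nat_lit 9) (nat_lit 5) (nat_lit 10) (nat_lit 4) (nat_lit 400) (nat_lit 351) (nat_lit 149)) (XT.lf (nat_lit 0) (nat_lit 827388763392) (nat_lit 152) (nat_lit 1834582244143) (nat_lit 0) (nat_lit 107434334055) (nat_lit 8) (nat_lit 5) (nat_lit 10) (nat_lit 4)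 (nat_lit 8) (nat_lit 4) (nat_lit 401) (nat_lit 351) (nat_lit 148)))) (XT.nd (nat_lit 156) (nat_lit 76) (nat_lit 0) (XT.nd (nat_lit 78) (nat_lit 0) (nat_lit 0) (XT.lf (nat_lit 0) (nat_lit 1271658624161) (nat_lit 152) (nat_lit 1132612956841) (nat_lit 0) (nat_lit 551704186075) (nat_lit 8) (nat_lit 5) (nat_lit 10) (nat_lit 4) (nat_lit 8) (nat_lit 4) (nat_lit 402) (nat_lit 351) (nat_lit 147)) (XT.lf (nat_lit 0) (nat_lit 1751470063596) (nat_lit 152) (nat_lit 374486146419) (nat_lit 0) (nat_lit 1031515617409) (nat_lit 8) (nat_lit 5) (nat_lit 10) (nat_lit 4) (nat_lit 8) (nat_lit 4) (nat_lit 403) (nat_lit 351) (nat_lit 146))) (XT.nd (nat_lit 78) (nat_lit 0) (nat_lit 0) (XT.lf (nat_lit 0) (nat_lit 467686356118) (nat_lit 76) (nat_lit 1813227920738) (nat_lit 76) (nat_lit 1093273467050) (nat_lit 7) (nat_lit 4) (nat_lit 8) (nat_lit 5) (nat_lit 8) (nat_lit 4) (nat_lit 404) (nat_lit 351) (nat_lit 145))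 (XT.nd (nat_lit 42744) (nat_lit 0) (nat_lit 3572) (XT.lf (nat_lit 0) (nat_lit 1398529999903) (nat_lit 76) (nat_lit 1464423132991) (nat_lit 76) (nat_lit 744468672358) (nat_lit 7) (nat_lit 4) (nat_lit 8) (nat_lit 5) (nat_lit 8) (nat_lit 4) (nat_lit 405) (nat_lit 351) (nat_lit 144)) (XT.lf (nat_lit 0) (nat_lit 85980848030) (nat_lit 532) (nat_lit 12737148559) (nat_lit 532) (nat_lit 12737148559) (nat_lit 54) (nat_lit 3) (nat_lit 61) (nat_lit 3) (nat_lit 61) (nat_lit 5) (nat_lit 352) (nat_lit 352) (nat_lit 196)))))) (XT.nd (nat_lit 312) (nat_lit 608) (nat_lit 0) (XT.nd (nat_lit 156) (nat_lit 0) (nat_lit 76) (XT.nd (nat_lit 78) (nat_lit 0) (nat_lit 76) (XT.lf (nat_lit 76) (nat_lit 84277063881) (nat_lit 0) (nat_lit 96591185331) (nat_lit 532) (nat_lit 50796203643) (nat_lit 55) (nat_lit 5) (nat_lit 54) (nat_lit 3) (nat_lit 61) (nat_lit 5) (nat_lit 353) (nat_lit 352) (nat_lit 195)) (XT.lf (nat_lit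 0) (nat_lit 191498133189) (nat_lit 456) (nat_lit 37120445293) (nat_lit 532) (nat_lit 12419505634) (nat_lit 55) (nat_lit 5) (nat_lit 61) (nat_lit 5) (nat_lit 62) (nat_lit 5) (nat_lit 354) (nat_lit 352) (nat_lit 194))) (XT.nd (nat_lit 78) (nat_lit 0) (nat_lit 0) (XT.lf (nat_lit 76) (nat_lit 83643082756) (nat_lit 0) (nat_lit 123855691887) (nat_lit 532) (nat_lit 43301202101) (nat_lit 56) (nat_lit 5) (nat_lit 55) (nat_lit 5) (nat_lit 62) (nat_lit 5) (nat_lit 355) (nat_lit 352) (nat_lit 193)) (XT.lf (nat_lit 76) (nat_lit 216178692639) (nat_lit 0) (nat_lit 9615606825) (nat_lit 532) (nat_lit 35467334944) (nat_lit 56) (nat_lit 5) (nat_lit 55) (nat_lit 5) (nat_lit 62) (nat_lit 5) (nat_lit 356) (nat_lit 352) (nat_lit 192)))) (XT.nd (nat_lit 156) (nat_lit 760) (nat_lit 0) (XT.nd (nat_lit 78) (nat_lit 0) (nat_lit 0) (XT.lf (nat_lit 76) (nat_lit 88445218867) (nat_lit 0) (nat_lit 161971278352) (nat_lit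 532) (nat_lit 21754685168) (nat_lit 57) (nat_lit 5) (nat_lit 56) (nat_lit 5) (nat_lit 63) (nat_lit 5) (nat_lit 357) (nat_lit 352) (nat_lit 191)) (XT.lf (nat_lit 76) (nat_lit 234956556956) (nat_lit 0) (nat_lit 43527901862) (nat_lit 532) (nat_lit 5350956508) (nat_lit 57) (nat_lit 5) (nat_lit 56) (nat_lit 5) (nat_lit 63) (nat_lit 5) (nat_lit 358) (nat_lit 352) (nat_lit 190))) (XT.nd (nat_lit 78) (nat_lit 304) (nat_lit 0) (XT.lf (nat_lit 0) (nat_lit 16289177377) (nat_lit 532) (nat_lit 196776503531) (nat_lit 76) (nat_lit 82979903087) (nat_lit 50) (nat_lit 5) (nat_lit 57) (nat_lit 5) (nat_lit 51) (nat_lit 5) (nat_lit 359) (nat_lit 352) (nat_lit 189)) (XT.nd (nat_lit 78) (nat_lit 304) (nat_lit 0) (XT.lf (nat_lit 0) (nat_lit 41873090361) (nat_lit 532) (nat_lit 48381385295) (nat_lit 76) (nat_lit 218766839039) (nat_lit 50) (nat_lit 5) (nat_lit 57) (nat_lit 5) (nat_lit 51) (nat_lit 5) (nat_lit 360)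 (nat_lit 352) (nat_lit 188)) (XT.lf (nat_lit 0) (nat_lit 73429029614) (nat_lit 380) (nat_lit 206124409408) (nat_lit 76) (nat_lit 43167639890) (nat_lit 46) (nat_lit 5) (nat_lit 51) (nat_lit 5) (nat_lit 47) (nat_lit 5) (nat_lit 361) (nat_lit 352) (nat_lit 187))))))))
noncomputable def xc224 : XT := (XT.nd (nat_lit 1326) (nat_lit 988) (nat_lit 0) (XT.nd (nat_lit 624) (nat_lit 760) (nat_lit 0) (XT.nd (nat_lit 312) (nat_lit 456) (nat_lit 0) (XT.nd (nat_lit 156) (nat_lit 228) (nat_lit 0) (XT.nd (nat_lit 78) (nat_lit 228) (nat_lit 0) (XT.lf (nat_lit 0) (nat_lit 111210835353) (nat_lit 380) (nat_lit 42265245347) (nat_lit 76) (nat_lit 183744632369) (nat_lit 46) (nat_lit 5) (nat_lit 51) (nat_lit 5) (nat_lit 47) (nat_lit 5) (nat_lit 362) (nat_lit 352) (nat_lit 186)) (XT.lf (nat_lit 0) (nat_lit 141795779470) (nat_lit 228) (nat_lit 13629530529) (nat_lit 304) (nat_lit 197182198110) (nat_lit 43) (nat_lit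 5) (nat_lit 46) (nat_lit 5) (nat_lit 47) (nat_lit 5) (nat_lit 363) (nat_lit 352) (nat_lit 185))) (XT.nd (nat_lit 78) (nat_lit 228) (nat_lit 0) (XT.lf (nat_lit 0) (nat_lit 207667088201) (nat_lit 304) (nat_lit 29482127949) (nat_lit 76) (nat_lit 131716819049) (nat_lit 43) (nat_lit 5) (nat_lit 47) (nat_lit 5) (nat_lit 44) (nat_lit 5) (nat_lit 364) (nat_lit 352) (nat_lit 184)) (XT.lf (nat_lit 0) (nat_lit 174741010808) (nat_lit 228) (nat_lit 93903677630) (nat_lit 304) (nat_lit 117416037726) (nat_lit 40) (nat_lit 5) (nat_lit 43) (nat_lit 5) (nat_lit 44) (nat_lit 5) (nat_lit 365) (nat_lit 352) (nat_lit 183)))) (XT.nd (nat_lit 156) (nat_lit 304) (nat_lit 0) (XT.nd (nat_lit 78) (nat_lit 152) (nat_lit 0) (XT.lf (nat_lit 0) (nat_lit 336789748463) (nat_lit 304) (nat_lit 9071116517) (nat_lit 76) (nat_lit 58586987366) (nat_lit 40) (nat_lit 5) (nat_lit 44) (nat_lit 5) (nat_lit 41) (nat_lit 5) (nat_lit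 366) (nat_lit 352) (nat_lit 182)) (XT.lf (nat_lit 0) (nat_lit 217814195314) (nat_lit 152) (nat_lit 200249658406) (nat_lit 228) (nat_lit 5627899743) (nat_lit 38) (nat_lit 5) (nat_lit 40) (nat_lit 5) (nat_lit 41) (nat_lit 5) (nat_lit 367) (nat_lit 352) (nat_lit 181))) (XT.nd (nat_lit 78) (nat_lit 0) (nat_lit 0) (XT.lf (nat_lit 0) (nat_lit 18346313638) (nat_lit 228) (nat_lit 40644335209) (nat_lit 304) (nat_lit 385310800850) (nat_lit 34) (nat_lit 5) (nat_lit 37) (nat_lit 5) (nat_lit 38) (nat_lit 5) (nat_lit 368) (nat_lit 352) (nat_lit 180)) (XT.lf (nat_lit 0) (nat_lit 137417940761) (nat_lit 304) (nat_lit 197353616365) (nat_lit 76) (nat_lit 131061205249) (nat_lit 34) (nat_lit 5) (nat_lit 38) (nat_lit 5) (nat_lit 35) (nat_lit 5) (nat_lit 369) (nat_lit 352) (nat_lit 179))))) (XT.nd (nat_lit 312) (nat_lit 456) (nat_lit 0) (XT.nd (nat_lit 156) (nat_lit 152) (nat_lit 0) (XT.nd (nat_lit 78) (nat_lit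 0) (nat_lit 0) (XT.lf (nat_lit 0) (nat_lit 51033148220) (nat_lit 152) (nat_lit 173369267029) (nat_lit 228) (nat_lit 264501524939) (nat_lit 32) (nat_lit 5) (nat_lit 34) (nat_lit 5) (nat_lit 35) (nat_lit 5) (nat_lit 370) (nat_lit 352) (nat_lit 178)) (XT.lf (nat_lit 0) (nat_lit 323904488555) (nat_lit 228) (nat_lit 183037557372) (nat_lit 76) (nat_lit 6434059078) (nat_lit 32) (nat_lit 5) (nat_lit 35) (nat_lit 5) (nat_lit 33) (nat_lit 5) (nat_lit 371) (nat_lit 352) (nat_lit 177))) (XT.nd (nat_lit 78) (nat_lit 0) (nat_lit 0) (XT.lf (nat_lit 0) (nat_lit 92296207168) (nat_lit 152) (nat_lit 345793302954) (nat_lit 228) (nat_lit 101178710345) (nat_lit 30) (nat_lit 5) (nat_lit 32) (nat_lit 5) (nat_lit 33) (nat_lit 5) (nat_lit 372) (nat_lit 352) (nat_lit 176)) (XT.lf (nat_lit 0) (nat_lit 400066121429) (nat_lit 152) (nat_lit 166347743361) (nat_lit 228) (nat_lit 417477909) (nat_lit 30) (nat_lit 5) (nat_lit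 32) (nat_lit 5) (nat_lit 33) (nat_lit 5) (nat_lit 373) (nat_lit 352) (nat_lit 175)))) (XT.nd (nat_lit 156) (nat_lit 228) (nat_lit 0) (XT.nd (nat_lit 78) (nat_lit 0) (nat_lit 0) (XT.lf (nat_lit 0) (nat_lit 107170812105) (nat_lit 228) (nat_lit 456668987386) (nat_lit 76) (nat_lit 32216024593) (nat_lit 27) (nat_lit 5) (nat_lit 30) (nat_lit 5) (nat_lit 28) (nat_lit 5) (nat_lit 374) (nat_lit 352) (nat_lit 174)) (XT.lf (nat_lit 0) (nat_lit 232342383742) (nat_lit 228) (nat_lit 152188401245) (nat_lit 76) (nat_lit 242366709696) (nat_lit 27) (nat_lit 5) (nat_lit 30) (nat_lit 5) (nat_lit 28) (nat_lit 5) (nat_lit 375) (nat_lit 352) (nat_lit 173))) (XT.nd (nat_lit 78) (nat_lit 76) (nat_lit 0) (XT.lf (nat_lit 0) (nat_lit 185952684302) (nat_lit 152) (nat_lit 186047129208) (nat_lit 228) (nat_lit 287848914860) (nat_lit 25) (nat_lit 5) (nat_lit 27) (nat_lit 5) (nat_lit 28) (nat_lit 5) (nat_lit 376) (nat_lit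 352) (nat_lit 172)) (XT.nd (nat_lit 78) (nat_lit 76) (nat_lit 0) (XT.lf (nat_lit 0) (nat_lit 527779967150) (nat_lit 228) (nat_lit 136092143705) (nat_lit 76) (nat_lit 31167939569) (nat_lit 25) (nat_lit 5) (nat_lit 28) (nat_lit 5) (nat_lit 26) (nat_lit 4) (nat_lit 377) (nat_lit 352) (nat_lit 171)) (XT.lf (nat_lit 0) (nat_lit 235693993187) (nat_lit 76) (nat_lit 470829348197) (nat_lit 152) (nat_lit 25683272221) (nat_lit 24) (nat_lit 5) (nat_lit 25) (nat_lit 5) (nat_lit 26) (nat_lit 4) (nat_lit 378) (nat_lit 352) (nat_lit 170))))))) (XT.nd (nat_lit 624) (nat_lit 456) (nat_lit 0) (XT.nd (nat_lit 312) (nat_lit 228) (nat_lit 0) (XT.nd (nat_lit 156) (nat_lit 76) (nat_lit 0) (XT.nd (nat_lit 78) (nat_lit 152) (nat_lit 0) (XT.lf (nat_lit 0) (nat_lit 124673259075) (nat_lit 152) (nat_lit 130242456781) (nat_lit 76) (nat_lit 516880605559) (nat_lit 23) (nat_lit 5) (nat_lit 25) (nat_lit 5) (nat_lit 24)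 (nat_lit 5) (nat_lit 379) (nat_lit 352) (nat_lit 169)) (XT.lf (nat_lit 0) (nat_lit 278598815855) (nat_lit 152) (nat_lit 13772213142) (nat_lit 228) (nat_lit 521592786641) (nat_lit 21) (nat_lit 5) (nat_lit 23) (nat_lit 5) (nat_lit 24) (nat_lit 5) (nat_lit 380) (nat_lit 352) (nat_lit 168))) (XT.nd (nat_lit 78) (nat_lit 76) (nat_lit 0) (XT.lf (nat_lit 0) (nat_lit 483070392931) (nat_lit 228) (nat_lit 137690218781) (nat_lit 76) (nat_lit 237977235914) (nat_lit 21) (nat_lit 5) (nat_lit 24) (nat_lit 5) (nat_lit 22) (nat_lit 4) (nat_lit 381) (nat_lit 352) (nat_lit 167)) (XT.lf (nat_lit 0) (nat_lit 306787535675) (nat_lit 76) (nat_lit 389974112032) (nat_lit 152) (nat_lit 209713279149) (nat_lit 20) (nat_lit 5) (nat_lit 21) (nat_lit 5) (nat_lit 22) (nat_lit 4) (nat_lit 382) (nat_lit 352) (nat_lit 166)))) (XT.nd (nat_lit 156) (nat_lit 76) (nat_lit 0) (XT.nd (nat_lit 78) (nat_lit 152) (nat_lit 0) (XT.lf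 (nat_lit 0) (nat_lit 794654032121) (nat_lit 76) (nat_lit 136658840497) (nat_lit 152) (nat_lit 26416926242) (nat_lit 20) (nat_lit 5) (nat_lit 21) (nat_lit 5) (nat_lit 22) (nat_lit 4) (nat_lit 383) (nat_lit 352) (nat_lit 165)) (XT.lf (nat_lit 0) (nat_lit 174266868880) (nat_lit 152) (nat_lit 695373792810) (nat_lit 76) (nat_lit 142209948321) (nat_lit 18) (nat_lit 5) (nat_lit 20) (nat_lit 5) (nat_lit 19) (nat_lit 4) (nat_lit 384) (nat_lit 352) (nat_lit 164))) (XT.nd (nat_lit 78) (nat_lit 76) (nat_lit 0) (XT.lf (nat_lit 0) (nat_lit 397702317409) (nat_lit 152) (nat_lit 230628100648) (nat_lit 76) (nat_lit 441265843699) (nat_lit 18) (nat_lit 5) (nat_lit 20) (nat_lit 5) (nat_lit 19) (nat_lit 4) (nat_lit 385) (nat_lit 352) (nat_lit 163)) (XT.lf (nat_lit 0) (nat_lit 285583238620) (nat_lit 76) (nat_lit 360297625436) (nat_lit 152) (nat_lit 485531240619) (nat_lit 17) (nat_lit 5) (nat_lit 18) (nat_lit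 5) (nat_lit 19) (nat_lit 4) (nat_lit 386) (nat_lit 352) (nat_lit 162))))) (XT.nd (nat_lit 312) (nat_lit 228) (nat_lit 0) (XT.nd (nat_lit 156) (nat_lit 152) (nat_lit 0) (XT.nd (nat_lit 78) (nat_lit 76) (nat_lit 0) (XT.lf (nat_lit 0) (nat_lit 856207471960) (nat_lit 76) (nat_lit 64011982625) (nat_lit 152) (nat_lit 277449299642) (nat_lit 17) (nat_lit 5) (nat_lit 18) (nat_lit 5) (nat_lit 19) (nat_lit 4) (nat_lit 387) (nat_lit 352) (nat_lit 161)) (XT.lf (nat_lit 0) (nat_lit 207478337800) (nat_lit 76) (nat_lit 1020172875173) (nat_lit 76) (nat_lit 40683036332) (nat_lit 16) (nat_lit 4) (nat_lit 17) (nat_lit 5) (nat_lit 17) (nat_lit 4) (nat_lit 388) (nat_lit 352) (nat_lit 160))) (XT.nd (nat_lit 78) (nat_lit 76) (nat_lit 0) (XT.lf (nat_lit 0) (nat_lit 215509413798) (nat_lit 152) (nat_lit 531230285892) (nat_lit 76) (nat_lit 596600274022) (nat_lit 15) (nat_lit 5) (nat_lit 17) (nat_lit 5) (nat_lit 16)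 (nat_lit 4) (nat_lit 389) (nat_lit 352) (nat_lit 159)) (XT.lf (nat_lit 0) (nat_lit 41799641513) (nat_lit 76) (nat_lit 449204942046) (nat_lit 152) (nat_lit 933176615201) (nat_lit 14) (nat_lit 5) (nat_lit 15) (nat_lit 5) (nat_lit 16) (nat_lit 4) (nat_lit 390) (nat_lit 352) (nat_lit 158)))) (XT.nd (nat_lit 156) (nat_lit 228) (nat_lit 0) (XT.nd (nat_lit 78) (nat_lit 0) (nat_lit 0) (XT.lf (nat_lit 0) (nat_lit 690883467655) (nat_lit 76) (nat_lit 112180659142) (nat_lit 152) (nat_lit 707263614231) (nat_lit 14) (nat_lit 5) (nat_lit 15) (nat_lit 5) (nat_lit 16) (nat_lit 4) (nat_lit 391) (nat_lit 352) (nat_lit 157)) (XT.lf (nat_lit 0) (nat_lit 1146144346846) (nat_lit 152) (nat_lit 217527967808) (nat_lit 0) (nat_lit 239209218962) (nat_lit 14) (nat_lit 5) (nat_lit 16) (nat_lit 4) (nat_lit 14) (nat_lit 4) (nat_lit 392) (nat_lit 352) (nat_lit 156))) (XT.nd (nat_lit 78) (nat_lit 152) (nat_lit 0) (XT.lf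 (nat_lit 0) (nat_lit 452251270225) (nat_lit 76) (nat_lit 1078210136206) (nat_lit 76) (nat_lit 171274989433) (nat_lit 13) (nat_lit 4) (nat_lit 14) (nat_lit 5) (nat_lit 14) (nat_lit 4) (nat_lit 393) (nat_lit 352) (nat_lit 155)) (XT.nd (nat_lit 78) (nat_lit 76) (nat_lit 0) (XT.lf (nat_lit 0) (nat_lit 136271747045) (nat_lit 152) (nat_lit 623489930407) (nat_lit 76) (nat_lit 1047986169414) (nat_lit 12) (nat_lit 5) (nat_lit 14) (nat_lit 5) (nat_lit 13) (nat_lit 4) (nat_lit 394) (nat_lit 352) (nat_lit 154)) (XT.lf (nat_lit 0) (nat_lit 50670917183) (nat_lit 76) (nat_lit 409716629757) (nat_lit 152) (nat_lit 1461399281121) (nat_lit 11) (nat_lit 5) (nat_lit 12) (nat_lit 5) (nat_lit 13) (nat_lit 4) (nat_lit 395) (nat_lit 352) (nat_lit 153))))))))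
noncomputable def xc225 : XT := (XT.nd (nat_lit 44070) (nat_lit 0) (nat_lit 1520) (XT.nd (nat_lit 624) (nat_lit 76) (nat_lit 0) (XT.nd (nat_lit 312) (nat_lit 152) (nat_lit 0) (XT.nd (nat_lit 156) (nat_lit 76) (nat_lit 0) (XT.nd (nat_lit 78) (nat_lit 0) (nat_lit 0) (XT.lf (nat_lit 0) (nat_lit 814223031330) (nat_lit 76) (nat_lit 13256885390) (nat_lit 152) (nat_lit 1216105226568) (nat_lit 11) (nat_lit 5) (nat_lit 12) (nat_lit 5) (nat_lit 13) (nat_lit 4) (nat_lit 396) (nat_lit 352) (nat_lit 152)) (XT.lf (nat_lit 0) (nat_lit 1233918490384) (nat_lit 152) (nat_lit 546246861281) (nat_lit 0) (nat_lit 394163666928) (nat_lit 11) (nat_lit 5) (nat_lit 13) (nat_lit 4) (nat_lit 11) (nat_lit 4) (nat_lit 397) (nat_lit 352) (nat_lit 151))) (XT.nd (nat_lit 78) (nat_lit 0) (nat_lit 0) (XT.lf (nat_lit 0) (nat_lit 201240096385) (nat_lit 76) (nat_lit 1476816205376) (nat_lit 76) (nat_lit 637061370018) (nat_lit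 10) (nat_lit 4) (nat_lit 11) (nat_lit 5) (nat_lit 11) (nat_lit 4) (nat_lit 398) (nat_lit 352) (nat_lit 150)) (XT.lf (nat_lit 0) (nat_lit 1039591531236) (nat_lit 76) (nat_lit 1133068952362) (nat_lit 76) (nat_lit 293314105983) (nat_lit 10) (nat_lit 4) (nat_lit 11) (nat_lit 5) (nat_lit 11) (nat_lit 4) (nat_lit 399) (nat_lit 352) (nat_lit 149)))) (XT.nd (nat_lit 156) (nat_lit 0) (nat_lit 0) (XT.nd (nat_lit 78) (nat_lit 76) (nat_lit 0) (XT.lf (nat_lit 0) (nat_lit 74034406835) (nat_lit 152) (nat_lit 685763290366) (nat_lit 76) (nat_lit 1868952421373) (nat_lit 9) (nat_lit 5) (nat_lit 11) (nat_lit 5) (nat_lit 10) (nat_lit 4) (nat_lit 400) (nat_lit 352) (nat_lit 148)) (XT.lf (nat_lit 0) (nat_lit 112094933624) (nat_lit 76) (nat_lit 345525162364) (nat_lit 152) (nat_lit 2346102439998) (nat_lit 8) (nat_lit 5) (nat_lit 9) (nat_lit 5) (nat_lit 10) (nat_lit 4) (nat_lit 401) (nat_lit 352) (nat_lit 147)))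 (XT.nd (nat_lit 78) (nat_lit 0) (nat_lit 0) (XT.lf (nat_lit 0) (nat_lit 893580063391) (nat_lit 152) (nat_lit 1981348436145) (nat_lit 0) (nat_lit 116029253408) (nat_lit 8) (nat_lit 5) (nat_lit 10) (nat_lit 4) (nat_lit 8) (nat_lit 4) (nat_lit 402) (nat_lit 352) (nat_lit 146)) (XT.lf (nat_lit 0) (nat_lit 1373391498286) (nat_lit 152) (nat_lit 1223221634565) (nat_lit 0) (nat_lit 595840680803) (nat_lit 8) (nat_lit 5) (nat_lit 10) (nat_lit 4) (nat_lit 8) (nat_lit 4) (nat_lit 403) (nat_lit 352) (nat_lit 145))))) (XT.nd (nat_lit 43056) (nat_lit 0) (nat_lit 3648) (XT.nd (nat_lit 42900) (nat_lit 0) (nat_lit 3572) (XT.nd (nat_lit 78) (nat_lit 76) (nat_lit 0) (XT.lf (nat_lit 0) (nat_lit 1891587839232) (nat_lit 152) (nat_lit 404444705889) (nat_lit 0) (nat_lit 1114037014803) (nat_lit 8) (nat_lit 5) (nat_lit 10) (nat_lit 4) (nat_lit 8) (nat_lit 4) (nat_lit 404) (nat_lit 352) (nat_lit 144)) (XT.lf (nat_lit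 0) (nat_lit 505101588440) (nat_lit 76) (nat_lit 1958285996267) (nat_lit 76) (nat_lit 1180735165408) (nat_lit 7) (nat_lit 4) (nat_lit 8) (nat_lit 5) (nat_lit 8) (nat_lit 4) (nat_lit 405) (nat_lit 352) (nat_lit 143))) (XT.nd (nat_lit 78) (nat_lit 0) (nat_lit 0) (XT.lf (nat_lit 0) (nat_lit 92860506430) (nat_lit 532) (nat_lit 13755476455) (nat_lit 532) (nat_lit 13755476455) (nat_lit 54) (nat_lit 3) (nat_lit 61) (nat_lit 3) (nat_lit 61) (nat_lit 5) (nat_lit 353) (nat_lit 353) (nat_lit 194)) (XT.lf (nat_lit 76) (nat_lit 91020484362) (nat_lit 0) (nat_lit 104319459715) (nat_lit 532) (nat_lit 54857482186) (nat_lit 55) (nat_lit 5) (nat_lit 54) (nat_lit 3) (nat_lit 61) (nat_lit 5) (nat_lit 354) (nat_lit 353) (nat_lit 193)))) (XT.nd (nat_lit 156) (nat_lit 0) (nat_lit 0) (XT.nd (nat_lit 78) (nat_lit 0) (nat_lit 0) (XT.lf (nat_lit 0) (nat_lit 206820031408) (nat_lit 456) (nat_lit 40088727445) (nat_lit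 532) (nat_lit 13412204459) (nat_lit 55) (nat_lit 5) (nat_lit 61) (nat_lit 5) (nat_lit 62) (nat_lit 5) (nat_lit 355) (nat_lit 353) (nat_lit 192)) (XT.lf (nat_lit 76) (nat_lit 90335848584) (nat_lit 0) (nat_lit 133764755650) (nat_lit 532) (nat_lit 46763212987) (nat_lit 56) (nat_lit 5) (nat_lit 55) (nat_lit 5) (nat_lit 62) (nat_lit 5) (nat_lit 356) (nat_lit 353) (nat_lit 191))) (XT.nd (nat_lit 78) (nat_lit 0) (nat_lit 76) (XT.lf (nat_lit 76) (nat_lit 233474209538) (nat_lit 0) (nat_lit 10385418716) (nat_lit 532) (nat_lit 38302790923) (nat_lit 56) (nat_lit 5) (nat_lit 55) (nat_lit 5) (nat_lit 62) (nat_lit 5) (nat_lit 357) (nat_lit 353) (nat_lit 190)) (XT.nd (nat_lit 78) (nat_lit 0) (nat_lit 0) (XT.lf (nat_lit 76) (nat_lit 95522182434) (nat_lit 0) (nat_lit 174929307014) (nat_lit 532) (nat_lit 23493250774) (nat_lit 57) (nat_lit 5) (nat_lit 56) (nat_lit 5) (nat_lit 63) (nat_lit 5) (nat_lit 358)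 (nat_lit 353) (nat_lit 189)) (XT.lf (nat_lit 76) (nat_lit 253754327862) (nat_lit 0) (nat_lit 47010436227) (nat_lit 532) (nat_lit 5777357837) (nat_lit 57) (nat_lit 5) (nat_lit 56) (nat_lit 5) (nat_lit 63) (nat_lit 5) (nat_lit 359) (nat_lit 353) (nat_lit 188))))))) (XT.nd (nat_lit 624) (nat_lit 988) (nat_lit 0) (XT.nd (nat_lit 312) (nat_lit 456) (nat_lit 0) (XT.nd (nat_lit 156) (nat_lit 304) (nat_lit 0) (XT.nd (nat_lit 78) (nat_lit 0) (nat_lit 0) (XT.lf (nat_lit 0) (nat_lit 17593811368) (nat_lit 532) (nat_lit 212517197186) (nat_lit 76) (nat_lit 89618099826) (nat_lit 50) (nat_lit 5) (nat_lit 57) (nat_lit 5) (nat_lit 51) (nat_lit 5) (nat_lit 360) (nat_lit 353) (nat_lit 187)) (XT.lf (nat_lit 0) (nat_lit 45224326294) (nat_lit 532) (nat_lit 52250575166) (nat_lit 76) (nat_lit 236268005137) (nat_lit 50) (nat_lit 5) (nat_lit 57) (nat_lit 5) (nat_lit 51) (nat_lit 5) (nat_lit 361) (nat_lit 353) (nat_lit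 186))) (XT.nd (nat_lit 78) (nat_lit 0) (nat_lit 0) (XT.lf (nat_lit 0) (nat_lit 79304668081) (nat_lit 380) (nat_lit 222612966588) (nat_lit 76) (nat_lit 46621023254) (nat_lit 46) (nat_lit 5) (nat_lit 51) (nat_lit 5) (nat_lit 47) (nat_lit 5) (nat_lit 362) (nat_lit 353) (nat_lit 185)) (XT.lf (nat_lit 0) (nat_lit 120108920791) (nat_lit 380) (nat_lit 45645172778) (nat_lit 76) (nat_lit 198444177193) (nat_lit 46) (nat_lit 5) (nat_lit 51) (nat_lit 5) (nat_lit 47) (nat_lit 5) (nat_lit 363) (nat_lit 353) (nat_lit 184)))) (XT.nd (nat_lit 156) (nat_lit 228) (nat_lit 0) (XT.nd (nat_lit 78) (nat_lit 0) (nat_lit 0) (XT.lf (nat_lit 0) (nat_lit 153140701311) (nat_lit 228) (nat_lit 14719792120) (nat_lit 304) (nat_lit 212955520908) (nat_lit 43) (nat_lit 5) (nat_lit 46) (nat_lit 5) (nat_lit 47) (nat_lit 5) (nat_lit 364) (nat_lit 353) (nat_lit 183)) (XT.lf (nat_lit 0) (nat_lit 224281530311) (nat_lit 304) (nat_lit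 31839446819) (nat_lit 76) (nat_lit 142254253283) (nat_lit 43) (nat_lit 5) (nat_lit 47) (nat_lit 5) (nat_lit 44) (nat_lit 5) (nat_lit 365) (nat_lit 353) (nat_lit 182))) (XT.nd (nat_lit 78) (nat_lit 0) (nat_lit 0) (XT.lf (nat_lit 0) (nat_lit 188721511359) (nat_lit 228) (nat_lit 101415776907) (nat_lit 304) (nat_lit 126808212529) (nat_lit 40) (nat_lit 5) (nat_lit 43) (nat_lit 5) (nat_lit 44) (nat_lit 5) (nat_lit 366) (nat_lit 353) (nat_lit 181)) (XT.lf (nat_lit 0) (nat_lit 363733881527) (nat_lit 304) (nat_lit 9795603561) (nat_lit 76) (nat_lit 63274117820) (nat_lit 40) (nat_lit 5) (nat_lit 44) (nat_lit 5) (nat_lit 41) (nat_lit 5) (nat_lit 367) (nat_lit 353) (nat_lit 180))))) (XT.nd (nat_lit 312) (nat_lit 380) (nat_lit 0) (XT.nd (nat_lit 156) (nat_lit 152) (nat_lit 0) (XT.nd (nat_lit 78) (nat_lit 304) (nat_lit 0) (XT.lf (nat_lit 0) (nat_lit 235240502779) (nat_lit 152) (nat_lit 216269370002)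 (nat_lit 228) (nat_lit 6077146829) (nat_lit 38) (nat_lit 5) (nat_lit 40) (nat_lit 5) (nat_lit 41) (nat_lit 5) (nat_lit 368) (nat_lit 353) (nat_lit 179)) (XT.lf (nat_lit 0) (nat_lit 19815210069) (nat_lit 228) (nat_lit 43895585658) (nat_lit 304) (nat_lit 416134697260) (nat_lit 34) (nat_lit 5) (nat_lit 37) (nat_lit 5) (nat_lit 38) (nat_lit 5) (nat_lit 369) (nat_lit 353) (nat_lit 178))) (XT.nd (nat_lit 78) (nat_lit 152) (nat_lit 0) (XT.lf (nat_lit 0) (nat_lit 148412211299) (nat_lit 304) (nat_lit 213140741880) (nat_lit 76) (nat_lit 141546362357) (nat_lit 34) (nat_lit 5) (nat_lit 38) (nat_lit 5) (nat_lit 35) (nat_lit 5) (nat_lit 370) (nat_lit 353) (nat_lit 177)) (XT.lf (nat_lit 0) (nat_lit 55116934409) (nat_lit 152) (nat_lit 187238474745) (nat_lit 228) (nat_lit 285660781260) (nat_lit 32) (nat_lit 5) (nat_lit 34) (nat_lit 5) (nat_lit 35) (nat_lit 5) (nat_lit 371) (nat_lit 353) (nat_lit 176))))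 (XT.nd (nat_lit 156) (nat_lit 228) (nat_lit 0) (XT.nd (nat_lit 78) (nat_lit 152) (nat_lit 0) (XT.lf (nat_lit 0) (nat_lit 349817596445) (nat_lit 228) (nat_lit 197679458910) (nat_lit 76) (nat_lit 6949077283) (nat_lit 32) (nat_lit 5) (nat_lit 35) (nat_lit 5) (nat_lit 33) (nat_lit 5) (nat_lit 372) (nat_lit 353) (nat_lit 175)) (XT.lf (nat_lit 0) (nat_lit 99680978868) (nat_lit 152) (nat_lit 373456411259) (nat_lit 228) (nat_lit 109272229642) (nat_lit 30) (nat_lit 5) (nat_lit 32) (nat_lit 5) (nat_lit 33) (nat_lit 5) (nat_lit 373) (nat_lit 353) (nat_lit 174))) (XT.nd (nat_lit 78) (nat_lit 228) (nat_lit 0) (XT.lf (nat_lit 0) (nat_lit 432072406631) (nat_lit 152) (nat_lit 179655233264) (nat_lit 228) (nat_lit 450156206) (nat_lit 30) (nat_lit 5) (nat_lit 32) (nat_lit 5) (nat_lit 33) (nat_lit 5) (nat_lit 374) (nat_lit 353) (nat_lit 173)) (XT.nd (nat_lit 78) (nat_lit 0) (nat_lit 0) (XT.lf (nat_lit 0)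 (nat_lit 115745142914) (nat_lit 228) (nat_lit 493201455473) (nat_lit 76) (nat_lit 34793637722) (nat_lit 27) (nat_lit 5) (nat_lit 30) (nat_lit 5) (nat_lit 28) (nat_lit 5) (nat_lit 375) (nat_lit 353) (nat_lit 172)) (XT.lf (nat_lit 0) (nat_lit 250930390960) (nat_lit 228) (nat_lit 164362500285) (nat_lit 76) (nat_lit 261756353103) (nat_lit 27) (nat_lit 5) (nat_lit 30) (nat_lit 5) (nat_lit 28) (nat_lit 5) (nat_lit 376) (nat_lit 353) (nat_lit 171))))))))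
noncomputable def xc226 : XT := (XT.nd (nat_lit 1326) (nat_lit 456) (nat_lit 0) (XT.nd (nat_lit 624) (nat_lit 456) (nat_lit 0) (XT.nd (nat_lit 312) (nat_lit 228) (nat_lit 0) (XT.nd (nat_lit 156) (nat_lit 152) (nat_lit 0) (XT.nd (nat_lit 78) (nat_lit 0) (nat_lit 0) (XT.lf (nat_lit 0) (nat_lit 200829847471) (nat_lit 152) (nat_lit 200930544780) (nat_lit 228) (nat_lit 310876186351) (nat_lit 25) (nat_lit 5) (nat_lit 27) (nat_lit 5) (nat_lit 28) (nat_lit 5) (nat_lit 377) (nat_lit 353) (nat_lit 170)) (XT.lf (nat_lit 0) (nat_lit 570002922108) (nat_lit 228) (nat_lit 146978600452) (nat_lit 76) (nat_lit 33661686788) (nat_lit 25) (nat_lit 5) (nat_lit 28) (nat_lit 5) (nat_lit 26) (nat_lit 4) (nat_lit 378) (nat_lit 353) (nat_lit 169))) (XT.nd (nat_lit 78) (nat_lit 76) (nat_lit 0) (XT.lf (nat_lit 0) (nat_lit 254550404234) (nat_lit 76) (nat_lit 508495342187) (nat_lit 152) (nat_lit 27737352788) (nat_lit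 24) (nat_lit 5) (nat_lit 25) (nat_lit 5) (nat_lit 26) (nat_lit 4) (nat_lit 379) (nat_lit 353) (nat_lit 168)) (XT.lf (nat_lit 0) (nat_lit 134647631038) (nat_lit 152) (nat_lit 140661000455) (nat_lit 76) (nat_lit 558231354336) (nat_lit 23) (nat_lit 5) (nat_lit 25) (nat_lit 5) (nat_lit 24) (nat_lit 5) (nat_lit 380) (nat_lit 353) (nat_lit 167)))) (XT.nd (nat_lit 156) (nat_lit 76) (nat_lit 0) (XT.nd (nat_lit 78) (nat_lit 0) (nat_lit 0) (XT.lf (nat_lit 0) (nat_lit 300887552401) (nat_lit 152) (nat_lit 14873652276) (nat_lit 228) (nat_lit 563319676373) (nat_lit 21) (nat_lit 5) (nat_lit 23) (nat_lit 5) (nat_lit 24) (nat_lit 5) (nat_lit 381) (nat_lit 353) (nat_lit 166)) (XT.lf (nat_lit 0) (nat_lit 521716488705) (nat_lit 228) (nat_lit 148704637220) (nat_lit 76) (nat_lit 257015712022) (nat_lit 21) (nat_lit 5) (nat_lit 24) (nat_lit 5) (nat_lit 22) (nat_lit 4) (nat_lit 382) (nat_lit 353) (nat_lit 165)))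 (XT.nd (nat_lit 78) (nat_lit 0) (nat_lit 0) (XT.lf (nat_lit 0) (nat_lit 331331317364) (nat_lit 76) (nat_lit 421171710835) (nat_lit 152) (nat_lit 226489856594) (nat_lit 20) (nat_lit 5) (nat_lit 21) (nat_lit 5) (nat_lit 22) (nat_lit 4) (nat_lit 383) (nat_lit 353) (nat_lit 164)) (XT.lf (nat_lit 0) (nat_lit 858227075834) (nat_lit 76) (nat_lit 147591242033) (nat_lit 152) (nat_lit 28529831372) (nat_lit 20) (nat_lit 5) (nat_lit 21) (nat_lit 5) (nat_lit 22) (nat_lit 4) (nat_lit 384) (nat_lit 353) (nat_lit 163))))) (XT.nd (nat_lit 312) (nat_lit 228) (nat_lit 0) (XT.nd (nat_lit 156) (nat_lit 76) (nat_lit 0) (XT.nd (nat_lit 78) (nat_lit 0) (nat_lit 0) (XT.lf (nat_lit 0) (nat_lit 188208638265) (nat_lit 152) (nat_lit 751002945472) (nat_lit 76) (nat_lit 153587041233) (nat_lit 18) (nat_lit 5) (nat_lit 20) (nat_lit 5) (nat_lit 19) (nat_lit 4) (nat_lit 385) (nat_lit 353) (nat_lit 162)) (XT.lf (nat_lit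 0) (nat_lit 429518891574) (nat_lit 152) (nat_lit 249077653548) (nat_lit 76) (nat_lit 476567386238) (nat_lit 18) (nat_lit 5) (nat_lit 20) (nat_lit 5) (nat_lit 19) (nat_lit 4) (nat_lit 386) (nat_lit 353) (nat_lit 161))) (XT.nd (nat_lit 78) (nat_lit 0) (nat_lit 0) (XT.lf (nat_lit 0) (nat_lit 308430575262) (nat_lit 76) (nat_lit 389121134188) (nat_lit 152) (nat_lit 524373333281) (nat_lit 17) (nat_lit 5) (nat_lit 18) (nat_lit 5) (nat_lit 19) (nat_lit 4) (nat_lit 387) (nat_lit 353) (nat_lit 160)) (XT.lf (nat_lit 0) (nat_lit 924704697080) (nat_lit 76) (nat_lit 69132662269) (nat_lit 152) (nat_lit 299644867144) (nat_lit 17) (nat_lit 5) (nat_lit 18) (nat_lit 5) (nat_lit 19) (nat_lit 4) (nat_lit 388) (nat_lit 353) (nat_lit 159)))) (XT.nd (nat_lit 156) (nat_lit 76) (nat_lit 0) (XT.nd (nat_lit 78) (nat_lit 76) (nat_lit 0) (XT.lf (nat_lit 0) (nat_lit 224077237126) (nat_lit 76) (nat_lit 1101786416894)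 (nat_lit 76) (nat_lit 43937307523) (nat_lit 16) (nat_lit 4) (nat_lit 17) (nat_lit 5) (nat_lit 17) (nat_lit 4) (nat_lit 389) (nat_lit 353) (nat_lit 158)) (XT.lf (nat_lit 0) (nat_lit 232750493866) (nat_lit 152) (nat_lit 573728105922) (nat_lit 76) (nat_lit 644328545506) (nat_lit 15) (nat_lit 5) (nat_lit 17) (nat_lit 5) (nat_lit 16) (nat_lit 4) (nat_lit 390) (nat_lit 353) (nat_lit 157))) (XT.nd (nat_lit 78) (nat_lit 0) (nat_lit 0) (XT.lf (nat_lit 0) (nat_lit 45144200414) (nat_lit 76) (nat_lit 485141066705) (nat_lit 152) (nat_lit 1007830402044) (nat_lit 14) (nat_lit 5) (nat_lit 15) (nat_lit 5) (nat_lit 16) (nat_lit 4) (nat_lit 391) (nat_lit 353) (nat_lit 156)) (XT.nd (nat_lit 78) (nat_lit 0) (nat_lit 0) (XT.lf (nat_lit 0) (nat_lit 746154689122) (nat_lit 76) (nat_lit 121154861222) (nat_lit 152) (nat_lit 763844386357) (nat_lit 14) (nat_lit 5) (nat_lit 15) (nat_lit 5) (nat_lit 16) (nat_lit 4)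 (nat_lit 392) (nat_lit 353) (nat_lit 155)) (XT.lf (nat_lit 0) (nat_lit 1237836171845) (nat_lit 152) (nat_lit 234929685200) (nat_lit 0) (nat_lit 258346176954) (nat_lit 14) (nat_lit 5) (nat_lit 16) (nat_lit 4) (nat_lit 14) (nat_lit 4) (nat_lit 393) (nat_lit 353) (nat_lit 154))))))) (XT.nd (nat_lit 624) (nat_lit 76) (nat_lit 0) (XT.nd (nat_lit 312) (nat_lit 152) (nat_lit 0) (XT.nd (nat_lit 156) (nat_lit 76) (nat_lit 0) (XT.nd (nat_lit 78) (nat_lit 76) (nat_lit 0) (XT.lf (nat_lit 0) (nat_lit 488431878711) (nat_lit 76) (nat_lit 1164466709139) (nat_lit 76) (nat_lit 184976698054) (nat_lit 13) (nat_lit 4) (nat_lit 14) (nat_lit 5) (nat_lit 14) (nat_lit 4) (nat_lit 394) (nat_lit 353) (nat_lit 153)) (XT.lf (nat_lit 0) (nat_lit 147173742364) (nat_lit 152) (nat_lit 673368641961) (nat_lit 76) (nat_lit 1131825269747) (nat_lit 12) (nat_lit 5) (nat_lit 14) (nat_lit 5) (nat_lit 13) (nat_lit 4) (nat_lit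 395) (nat_lit 353) (nat_lit 152))) (XT.nd (nat_lit 78) (nat_lit 0) (nat_lit 0) (XT.lf (nat_lit 0) (nat_lit 54725061213) (nat_lit 76) (nat_lit 442493737428) (nat_lit 152) (nat_lit 1578310955738) (nat_lit 11) (nat_lit 5) (nat_lit 12) (nat_lit 5) (nat_lit 13) (nat_lit 4) (nat_lit 396) (nat_lit 353) (nat_lit 151)) (XT.lf (nat_lit 0) (nat_lit 879361309627) (nat_lit 76) (nat_lit 14317230009) (nat_lit 152) (nat_lit 1313393396663) (nat_lit 11) (nat_lit 5) (nat_lit 12) (nat_lit 5) (nat_lit 13) (nat_lit 4) (nat_lit 397) (nat_lit 353) (nat_lit 150)))) (XT.nd (nat_lit 156) (nat_lit 76) (nat_lit 0) (XT.nd (nat_lit 78) (nat_lit 76) (nat_lit 0) (XT.lf (nat_lit 0) (nat_lit 1332632186779) (nat_lit 152) (nat_lit 589946194179) (nat_lit 0) (nat_lit 425696941668) (nat_lit 11) (nat_lit 5) (nat_lit 13) (nat_lit 4) (nat_lit 11) (nat_lit 4) (nat_lit 398) (nat_lit 353) (nat_lit 149)) (XT.lf (nat_lit 0) (nat_lit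 217339709568) (nat_lit 76) (nat_lit 1594961307165) (nat_lit 76) (nat_lit 688026051849) (nat_lit 10) (nat_lit 4) (nat_lit 11) (nat_lit 5) (nat_lit 11) (nat_lit 4) (nat_lit 399) (nat_lit 353) (nat_lit 148))) (XT.nd (nat_lit 78) (nat_lit 76) (nat_lit 0) (XT.lf (nat_lit 0) (nat_lit 1122759229172) (nat_lit 76) (nat_lit 1223714288328) (nat_lit 76) (nat_lit 316779023564) (nat_lit 10) (nat_lit 4) (nat_lit 11) (nat_lit 5) (nat_lit 11) (nat_lit 4) (nat_lit 400) (nat_lit 353) (nat_lit 147)) (XT.lf (nat_lit 0) (nat_lit 79957344890) (nat_lit 152) (nat_lit 740623996141) (nat_lit 76) (nat_lit 2018468772130) (nat_lit 9) (nat_lit 5) (nat_lit 11) (nat_lit 5) (nat_lit 10) (nat_lit 4) (nat_lit 401) (nat_lit 353) (nat_lit 146))))) (XT.nd (nat_lit 43134) (nat_lit 0) (nat_lit 3496) (XT.nd (nat_lit 156) (nat_lit 0) (nat_lit 0) (XT.nd (nat_lit 78) (nat_lit 0) (nat_lit 0) (XT.lf (nat_lit 0) (nat_lit 121062876719)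 (nat_lit 76) (nat_lit 373167007094) (nat_lit 152) (nat_lit 2533790440586) (nat_lit 8) (nat_lit 5) (nat_lit 9) (nat_lit 5) (nat_lit 10) (nat_lit 4) (nat_lit 402) (nat_lit 353) (nat_lit 145)) (XT.lf (nat_lit 0) (nat_lit 965066639011) (nat_lit 152) (nat_lit 2139855978793) (nat_lit 0) (nat_lit 125311741683) (nat_lit 8) (nat_lit 5) (nat_lit 10) (nat_lit 4) (nat_lit 8) (nat_lit 4) (nat_lit 403) (nat_lit 353) (nat_lit 144))) (XT.nd (nat_lit 78) (nat_lit 0) (nat_lit 0) (XT.lf (nat_lit 0) (nat_lit 1483262976064) (nat_lit 152) (nat_lit 1321079057697) (nat_lit 0) (nat_lit 643508072306) (nat_lit 8) (nat_lit 5) (nat_lit 10) (nat_lit 4) (nat_lit 8) (nat_lit 4) (nat_lit 404) (nat_lit 353) (nat_lit 143)) (XT.lf (nat_lit 0) (nat_lit 2042915012588) (nat_lit 152) (nat_lit 436799997514) (nat_lit 0) (nat_lit 1203160102875) (nat_lit 8) (nat_lit 5) (nat_lit 10) (nat_lit 4) (nat_lit 8) (nat_lit 4) (nat_lit 405)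 (nat_lit 353) (nat_lit 142)))) (XT.nd (nat_lit 156) (nat_lit 0) (nat_lit 76) (XT.nd (nat_lit 78) (nat_lit 0) (nat_lit 0) (XT.lf (nat_lit 0) (nat_lit 100290367656) (nat_lit 532) (nat_lit 14855362455) (nat_lit 532) (nat_lit 14855362455) (nat_lit 54) (nat_lit 3) (nat_lit 61) (nat_lit 3) (nat_lit 61) (nat_lit 5) (nat_lit 354) (nat_lit 354) (nat_lit 192)) (XT.lf (nat_lit 76) (nat_lit 98303199388) (nat_lit 0) (nat_lit 112665856306) (nat_lit 532) (nat_lit 59244007931) (nat_lit 55) (nat_lit 5) (nat_lit 54) (nat_lit 3) (nat_lit 61) (nat_lit 5) (nat_lit 355) (nat_lit 354) (nat_lit 191))) (XT.nd (nat_lit 78) (nat_lit 0) (nat_lit 0) (XT.lf (nat_lit 0) (nat_lit 223367389377) (nat_lit 456) (nat_lit 43294665257) (nat_lit 532) (nat_lit 14484442110) (nat_lit 55) (nat_lit 5) (nat_lit 61) (nat_lit 5) (nat_lit 62) (nat_lit 5) (nat_lit 356) (nat_lit 354) (nat_lit 190)) (XT.nd (nat_lit 78) (nat_lit 0) (nat_lit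 0) (XT.lf (nat_lit 76) (nat_lit 97563847478) (nat_lit 0) (nat_lit 144466457718) (nat_lit 532) (nat_lit 50502482233) (nat_lit 56) (nat_lit 5) (nat_lit 55) (nat_lit 5) (nat_lit 62) (nat_lit 5) (nat_lit 357) (nat_lit 354) (nat_lit 189)) (XT.lf (nat_lit 76) (nat_lit 252153193530) (nat_lit 0) (nat_lit 11216735191) (nat_lit 532) (nat_lit 41365358833) (nat_lit 56) (nat_lit 5) (nat_lit 55) (nat_lit 5) (nat_lit 62) (nat_lit 5) (nat_lit 358) (nat_lit 354) (nat_lit 188))))))))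
noncomputable def xc227 : XT := (XT.nd (nat_lit 1326) (nat_lit 1216) (nat_lit 0) (XT.nd (nat_lit 624) (nat_lit 988) (nat_lit 0) (XT.nd (nat_lit 312) (nat_lit 532) (nat_lit 0) (XT.nd (nat_lit 156) (nat_lit 456) (nat_lit 0) (XT.nd (nat_lit 78) (nat_lit 0) (nat_lit 0) (XT.lf (nat_lit 76) (nat_lit 103165111056) (nat_lit 0) (nat_lit 188923931405) (nat_lit 532) (nat_lit 25371159733) (nat_lit 57) (nat_lit 5) (nat_lit 56) (nat_lit 5) (nat_lit 63) (nat_lit 5) (nat_lit 359) (nat_lit 354) (nat_lit 187)) (XT.lf (nat_lit 76) (nat_lit 274055742635) (nat_lit 0) (nat_lit 50771530227) (nat_lit 532) (nat_lit 6238110257) (nat_lit 57) (nat_lit 5) (nat_lit 56) (nat_lit 5) (nat_lit 63) (nat_lit 5) (nat_lit 360) (nat_lit 354) (nat_lit 186))) (XT.nd (nat_lit 78) (nat_lit 0) (nat_lit 0) (XT.lf (nat_lit 0) (nat_lit 19002602116) (nat_lit 532) (nat_lit 229517349857) (nat_lit 76) (nat_lit 96787380196) (nat_lit 50)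 (nat_lit 5) (nat_lit 57) (nat_lit 5) (nat_lit 51) (nat_lit 5) (nat_lit 361) (nat_lit 354) (nat_lit 185)) (XT.lf (nat_lit 0) (nat_lit 48843462989) (nat_lit 532) (nat_lit 56429488677) (nat_lit 76) (nat_lit 255169290347) (nat_lit 50) (nat_lit 5) (nat_lit 57) (nat_lit 5) (nat_lit 51) (nat_lit 5) (nat_lit 362) (nat_lit 354) (nat_lit 184)))) (XT.nd (nat_lit 156) (nat_lit 228) (nat_lit 0) (XT.nd (nat_lit 78) (nat_lit 0) (nat_lit 0) (XT.lf (nat_lit 0) (nat_lit 85650169869) (nat_lit 380) (nat_lit 240420807435) (nat_lit 76) (nat_lit 50350681257) (nat_lit 46) (nat_lit 5) (nat_lit 51) (nat_lit 5) (nat_lit 47) (nat_lit 5) (nat_lit 363) (nat_lit 354) (nat_lit 183)) (XT.lf (nat_lit 0) (nat_lit 129718679215) (nat_lit 380) (nat_lit 49295678749) (nat_lit 76) (nat_lit 214319689278) (nat_lit 46) (nat_lit 5) (nat_lit 51) (nat_lit 5) (nat_lit 47) (nat_lit 5) (nat_lit 364) (nat_lit 354) (nat_lit 182))) (XT.nd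 (nat_lit 78) (nat_lit 0) (nat_lit 0) (XT.lf (nat_lit 0) (nat_lit 165393037221) (nat_lit 228) (nat_lit 15897289026) (nat_lit 304) (nat_lit 229990888292) (nat_lit 43) (nat_lit 5) (nat_lit 46) (nat_lit 5) (nat_lit 47) (nat_lit 5) (nat_lit 365) (nat_lit 354) (nat_lit 181)) (XT.lf (nat_lit 0) (nat_lit 242224974421) (nat_lit 304) (nat_lit 34385529719) (nat_lit 76) (nat_lit 153634669599) (nat_lit 43) (nat_lit 5) (nat_lit 47) (nat_lit 5) (nat_lit 44) (nat_lit 5) (nat_lit 366) (nat_lit 354) (nat_lit 180))))) (XT.nd (nat_lit 312) (nat_lit 304) (nat_lit 0) (XT.nd (nat_lit 156) (nat_lit 456) (nat_lit 0) (XT.nd (nat_lit 78) (nat_lit 0) (nat_lit 0) (XT.lf (nat_lit 0) (nat_lit 203820277953) (nat_lit 228) (nat_lit 109528871936) (nat_lit 304) (nat_lit 136951919416) (nat_lit 40) (nat_lit 5) (nat_lit 43) (nat_lit 5) (nat_lit 44) (nat_lit 5) (nat_lit 367) (nat_lit 354) (nat_lit 179)) (XT.lf (nat_lit 0) (nat_lit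 392833409253) (nat_lit 304) (nat_lit 10578221087) (nat_lit 76) (nat_lit 68336194248) (nat_lit 40) (nat_lit 5) (nat_lit 44) (nat_lit 5) (nat_lit 41) (nat_lit 5) (nat_lit 368) (nat_lit 354) (nat_lit 178))) (XT.nd (nat_lit 78) (nat_lit 304) (nat_lit 0) (XT.lf (nat_lit 0) (nat_lit 254060747665) (nat_lit 152) (nat_lit 233570695771) (nat_lit 228) (nat_lit 6562474188) (nat_lit 38) (nat_lit 5) (nat_lit 40) (nat_lit 5) (nat_lit 41) (nat_lit 5) (nat_lit 369) (nat_lit 354) (nat_lit 177)) (XT.lf (nat_lit 0) (nat_lit 21401448256) (nat_lit 228) (nat_lit 47406978422) (nat_lit 304) (nat_lit 449424643430) (nat_lit 34) (nat_lit 5) (nat_lit 37) (nat_lit 5) (nat_lit 38) (nat_lit 5) (nat_lit 370) (nat_lit 354) (nat_lit 176)))) (XT.nd (nat_lit 156) (nat_lit 152) (nat_lit 0) (XT.nd (nat_lit 78) (nat_lit 152) (nat_lit 0) (XT.lf (nat_lit 0) (nat_lit 160285904318) (nat_lit 304) (nat_lit 230191003464) (nat_lit 76)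 (nat_lit 152870294844) (nat_lit 34) (nat_lit 5) (nat_lit 38) (nat_lit 5) (nat_lit 35) (nat_lit 5) (nat_lit 371) (nat_lit 354) (nat_lit 175)) (XT.lf (nat_lit 0) (nat_lit 59527261668) (nat_lit 152) (nat_lit 202217266676) (nat_lit 228) (nat_lit 308512901586) (nat_lit 32) (nat_lit 5) (nat_lit 34) (nat_lit 5) (nat_lit 35) (nat_lit 5) (nat_lit 372) (nat_lit 354) (nat_lit 174))) (XT.nd (nat_lit 78) (nat_lit 152) (nat_lit 0) (XT.lf (nat_lit 0) (nat_lit 377803646141) (nat_lit 228) (nat_lit 213492869934) (nat_lit 76) (nat_lit 7505255075) (nat_lit 32) (nat_lit 5) (nat_lit 35) (nat_lit 5) (nat_lit 33) (nat_lit 5) (nat_lit 373) (nat_lit 354) (nat_lit 173)) (XT.nd (nat_lit 78) (nat_lit 0) (nat_lit 0) (XT.lf (nat_lit 0) (nat_lit 107656378924) (nat_lit 152) (nat_lit 403332619006) (nat_lit 228) (nat_lit 118013341406) (nat_lit 30) (nat_lit 5) (nat_lit 32) (nat_lit 5) (nat_lit 33) (nat_lit 5) (nat_lit 374)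 (nat_lit 354) (nat_lit 172)) (XT.lf (nat_lit 0) (nat_lit 466639052631) (nat_lit 152) (nat_lit 194027369375) (nat_lit 228) (nat_lit 485551474) (nat_lit 30) (nat_lit 5) (nat_lit 32) (nat_lit 5) (nat_lit 33) (nat_lit 5) (nat_lit 375) (nat_lit 354) (nat_lit 171))))))) (XT.nd (nat_lit 702) (nat_lit 456) (nat_lit 0) (XT.nd (nat_lit 312) (nat_lit 380) (nat_lit 0) (XT.nd (nat_lit 156) (nat_lit 152) (nat_lit 0) (XT.nd (nat_lit 78) (nat_lit 0) (nat_lit 0) (XT.lf (nat_lit 0) (nat_lit 125005325198) (nat_lit 228) (nat_lit 532656670930) (nat_lit 76) (nat_lit 37577412657) (nat_lit 27) (nat_lit 5) (nat_lit 30) (nat_lit 5) (nat_lit 28) (nat_lit 5) (nat_lit 376) (nat_lit 354) (nat_lit 170)) (XT.lf (nat_lit 0) (nat_lit 271005350803) (nat_lit 228) (nat_lit 177510666067) (nat_lit 76) (nat_lit 282697124237) (nat_lit 27) (nat_lit 5) (nat_lit 30) (nat_lit 5) (nat_lit 28) (nat_lit 5) (nat_lit 377) (nat_lit 354)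 (nat_lit 169))) (XT.nd (nat_lit 78) (nat_lit 0) (nat_lit 0) (XT.lf (nat_lit 0) (nat_lit 216897048390) (nat_lit 152) (nat_lit 217004684210) (nat_lit 228) (nat_lit 335745731107) (nat_lit 25) (nat_lit 5) (nat_lit 27) (nat_lit 5) (nat_lit 28) (nat_lit 5) (nat_lit 378) (nat_lit 354) (nat_lit 168)) (XT.lf (nat_lit 0) (nat_lit 615603633916) (nat_lit 228) (nat_lit 158736104237) (nat_lit 76) (nat_lit 36354889266) (nat_lit 25) (nat_lit 5) (nat_lit 28) (nat_lit 5) (nat_lit 26) (nat_lit 4) (nat_lit 379) (nat_lit 354) (nat_lit 167)))) (XT.nd (nat_lit 156) (nat_lit 228) (nat_lit 0) (XT.nd (nat_lit 78) (nat_lit 76) (nat_lit 0) (XT.lf (nat_lit 0) (nat_lit 274915200969) (nat_lit 76) (nat_lit 549174666179) (nat_lit 152) (nat_lit 29955842716) (nat_lit 24) (nat_lit 5) (nat_lit 25) (nat_lit 5) (nat_lit 26) (nat_lit 4) (nat_lit 380) (nat_lit 354) (nat_lit 166)) (XT.lf (nat_lit 0) (nat_lit 145419879824) (nat_lit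 152) (nat_lit 151913149293) (nat_lit 76) (nat_lit 602890120170) (nat_lit 23) (nat_lit 5) (nat_lit 25) (nat_lit 5) (nat_lit 24) (nat_lit 5) (nat_lit 381) (nat_lit 354) (nat_lit 165))) (XT.nd (nat_lit 78) (nat_lit 76) (nat_lit 0) (XT.lf (nat_lit 0) (nat_lit 324959269279) (nat_lit 152) (nat_lit 16063254749) (nat_lit 228) (nat_lit 608384793350) (nat_lit 21) (nat_lit 5) (nat_lit 23) (nat_lit 5) (nat_lit 24) (nat_lit 5) (nat_lit 382) (nat_lit 354) (nat_lit 164)) (XT.nd (nat_lit 78) (nat_lit 76) (nat_lit 0) (XT.lf (nat_lit 0) (nat_lit 563454205898) (nat_lit 228) (nat_lit 160600323128) (nat_lit 76) (nat_lit 277577223815) (nat_lit 21) (nat_lit 5) (nat_lit 24) (nat_lit 5) (nat_lit 22) (nat_lit 4) (nat_lit 383) (nat_lit 354) (nat_lit 163)) (XT.lf (nat_lit 0) (nat_lit 357838490479) (nat_lit 76) (nat_lit 454865164643) (nat_lit 152) (nat_lit 244608629409) (nat_lit 20) (nat_lit 5) (nat_lit 21) (nat_lit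 5) (nat_lit 22) (nat_lit 4) (nat_lit 384) (nat_lit 354) (nat_lit 162)))))) (XT.nd (nat_lit 312) (nat_lit 228) (nat_lit 0) (XT.nd (nat_lit 156) (nat_lit 76) (nat_lit 0) (XT.nd (nat_lit 78) (nat_lit 152) (nat_lit 0) (XT.lf (nat_lit 0) (nat_lit 926885860166) (nat_lit 76) (nat_lit 159398279304) (nat_lit 152) (nat_lit 30811832963) (nat_lit 20) (nat_lit 5) (nat_lit 21) (nat_lit 5) (nat_lit 22) (nat_lit 4) (nat_lit 385) (nat_lit 354) (nat_lit 161)) (XT.lf (nat_lit 0) (nat_lit 203265689301) (nat_lit 152) (nat_lit 811082537451) (nat_lit 76) (nat_lit 165874259202) (nat_lit 18) (nat_lit 5) (nat_lit 20) (nat_lit 5) (nat_lit 19) (nat_lit 4) (nat_lit 386) (nat_lit 354) (nat_lit 160))) (XT.nd (nat_lit 78) (nat_lit 76) (nat_lit 0) (XT.lf (nat_lit 0) (nat_lit 463880736210) (nat_lit 152) (nat_lit 269003269852) (nat_lit 76) (nat_lit 514693012943) (nat_lit 18) (nat_lit 5) (nat_lit 20) (nat_lit 5) (nat_lit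 19) (nat_lit 4) (nat_lit 387) (nat_lit 354) (nat_lit 159)) (XT.lf (nat_lit 0) (nat_lit 333105602175) (nat_lit 76) (nat_lit 420250566622) (nat_lit 152) (nat_lit 566322851361) (nat_lit 17) (nat_lit 5) (nat_lit 18) (nat_lit 5) (nat_lit 19) (nat_lit 4) (nat_lit 388) (nat_lit 354) (nat_lit 158)))) (XT.nd (nat_lit 156) (nat_lit 152) (nat_lit 0) (XT.nd (nat_lit 78) (nat_lit 76) (nat_lit 0) (XT.lf (nat_lit 0) (nat_lit 998681610709) (nat_lit 76) (nat_lit 74663036083) (nat_lit 152) (nat_lit 323616133753) (nat_lit 17) (nat_lit 5) (nat_lit 18) (nat_lit 5) (nat_lit 19) (nat_lit 4) (nat_lit 389) (nat_lit 354) (nat_lit 157)) (XT.lf (nat_lit 0) (nat_lit 242003958194) (nat_lit 76) (nat_lit 1189929083081) (nat_lit 76) (nat_lit 47451973438) (nat_lit 16) (nat_lit 4) (nat_lit 17) (nat_lit 5) (nat_lit 17) (nat_lit 4) (nat_lit 390) (nat_lit 354) (nat_lit 156))) (XT.nd (nat_lit 78) (nat_lit 76) (nat_lit 0) (XT.lf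 (nat_lit 0) (nat_lit 251370813694) (nat_lit 152) (nat_lit 619625837556) (nat_lit 76) (nat_lit 695875043106) (nat_lit 15) (nat_lit 5) (nat_lit 17) (nat_lit 5) (nat_lit 16) (nat_lit 4) (nat_lit 391) (nat_lit 354) (nat_lit 155)) (XT.nd (nat_lit 78) (nat_lit 0) (nat_lit 0) (XT.lf (nat_lit 0) (nat_lit 48756240203) (nat_lit 76) (nat_lit 523952119956) (nat_lit 152) (nat_lit 1088456540678) (nat_lit 14) (nat_lit 5) (nat_lit 15) (nat_lit 5) (nat_lit 16) (nat_lit 4) (nat_lit 392) (nat_lit 354) (nat_lit 154)) (XT.lf (nat_lit 0) (nat_lit 805847530692) (nat_lit 76) (nat_lit 130847035226) (nat_lit 152) (nat_lit 824951665479) (nat_lit 14) (nat_lit 5) (nat_lit 15) (nat_lit 5) (nat_lit 16) (nat_lit 4) (nat_lit 393) (nat_lit 354) (nat_lit 153))))))))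
noncomputable def xc228 : XT := (XT.nd (nat_lit 44226) (nat_lit 0) (nat_lit 1672) (XT.nd (nat_lit 624) (nat_lit 152) (nat_lit 0) (XT.nd (nat_lit 312) (nat_lit 76) (nat_lit 0) (XT.nd (nat_lit 156) (nat_lit 152) (nat_lit 0) (XT.nd (nat_lit 78) (nat_lit 76) (nat_lit 0) (XT.lf (nat_lit 0) (nat_lit 1336863303292) (nat_lit 152) (nat_lit 253723614171) (nat_lit 0) (nat_lit 279014060133) (nat_lit 14) (nat_lit 5) (nat_lit 16) (nat_lit 4) (nat_lit 14) (nat_lit 4) (nat_lit 394) (nat_lit 354) (nat_lit 152)) (XT.lf (nat_lit 0) (nat_lit 527506863565) (nat_lit 76) (nat_lit 1257623841855) (nat_lit 76) (nat_lit 199774584813) (nat_lit 13) (nat_lit 4) (nat_lit 14) (nat_lit 5) (nat_lit 14) (nat_lit 4) (nat_lit 395) (nat_lit 354) (nat_lit 151))) (XT.nd (nat_lit 78) (nat_lit 76) (nat_lit 0) (XT.lf (nat_lit 0) (nat_lit 158947860851) (nat_lit 152) (nat_lit 727237719326) (nat_lit 76) (nat_lit 1222371468606) (nat_lit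 12) (nat_lit 5) (nat_lit 14) (nat_lit 5) (nat_lit 13) (nat_lit 4) (nat_lit 396) (nat_lit 354) (nat_lit 150)) (XT.lf (nat_lit 0) (nat_lit 59103469620) (nat_lit 76) (nat_lit 477893045485) (nat_lit 152) (nat_lit 1704575602539) (nat_lit 11) (nat_lit 5) (nat_lit 12) (nat_lit 5) (nat_lit 13) (nat_lit 4) (nat_lit 397) (nat_lit 354) (nat_lit 149)))) (XT.nd (nat_lit 156) (nat_lit 76) (nat_lit 0) (XT.nd (nat_lit 78) (nat_lit 0) (nat_lit 0) (XT.lf (nat_lit 0) (nat_lit 949710588018) (nat_lit 76) (nat_lit 15462431615) (nat_lit 152) (nat_lit 1418464655750) (nat_lit 11) (nat_lit 5) (nat_lit 12) (nat_lit 5) (nat_lit 13) (nat_lit 4) (nat_lit 398) (nat_lit 354) (nat_lit 148)) (XT.lf (nat_lit 0) (nat_lit 1439242947905) (nat_lit 152) (nat_lit 637141533058) (nat_lit 0) (nat_lit 459752852511) (nat_lit 11) (nat_lit 5) (nat_lit 13) (nat_lit 4) (nat_lit 11) (nat_lit 4) (nat_lit 399) (nat_lit 354) (nat_lit 147)))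 (XT.nd (nat_lit 78) (nat_lit 0) (nat_lit 0) (XT.lf (nat_lit 0) (nat_lit 234727233960) (nat_lit 76) (nat_lit 1722558044864) (nat_lit 76) (nat_lit 743067940721) (nat_lit 10) (nat_lit 4) (nat_lit 11) (nat_lit 5) (nat_lit 11) (nat_lit 4) (nat_lit 400) (nat_lit 354) (nat_lit 146)) (XT.lf (nat_lit 0) (nat_lit 1212580289382) (nat_lit 76) (nat_lit 1321611276881) (nat_lit 76) (nat_lit 342121164637) (nat_lit 10) (nat_lit 4) (nat_lit 11) (nat_lit 5) (nat_lit 11) (nat_lit 4) (nat_lit 401) (nat_lit 354) (nat_lit 145))))) (XT.nd (nat_lit 43212) (nat_lit 0) (nat_lit 3496) (XT.nd (nat_lit 156) (nat_lit 0) (nat_lit 0) (XT.nd (nat_lit 78) (nat_lit 76) (nat_lit 0) (XT.lf (nat_lit 0) (nat_lit 86354091524) (nat_lit 152) (nat_lit 799873609373) (nat_lit 76) (nat_lit 2179946408543) (nat_lit 9) (nat_lit 5) (nat_lit 11) (nat_lit 5) (nat_lit 10) (nat_lit 4) (nat_lit 402) (nat_lit 354) (nat_lit 144)) (XT.lf (nat_lit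 0) (nat_lit 130748205557) (nat_lit 76) (nat_lit 403020223407) (nat_lit 152) (nat_lit 2736493508985) (nat_lit 8) (nat_lit 5) (nat_lit 9) (nat_lit 5) (nat_lit 10) (nat_lit 4) (nat_lit 403) (nat_lit 354) (nat_lit 143))) (XT.nd (nat_lit 78) (nat_lit 0) (nat_lit 0) (XT.lf (nat_lit 0) (nat_lit 1042272116349) (nat_lit 152) (nat_lit 2311044172251) (nat_lit 0) (nat_lit 135336807905) (nat_lit 8) (nat_lit 5) (nat_lit 10) (nat_lit 4) (nat_lit 8) (nat_lit 4) (nat_lit 404) (nat_lit 354) (nat_lit 142)) (XT.lf (nat_lit 0) (nat_lit 1601924149536) (nat_lit 152) (nat_lit 1426765118567) (nat_lit 0) (nat_lit 694988835579) (nat_lit 8) (nat_lit 5) (nat_lit 10) (nat_lit 4) (nat_lit 8) (nat_lit 4) (nat_lit 405) (nat_lit 354) (nat_lit 141)))) (XT.nd (nat_lit 156) (nat_lit 0) (nat_lit 76) (XT.nd (nat_lit 78) (nat_lit 0) (nat_lit 0) (XT.lf (nat_lit 0) (nat_lit 108314472164) (nat_lit 532) (nat_lit 16043318101) (nat_lit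 532) (nat_lit 16043318101) (nat_lit 54) (nat_lit 3) (nat_lit 61) (nat_lit 3) (nat_lit 61) (nat_lit 5) (nat_lit 355) (nat_lit 355) (nat_lit 190)) (XT.lf (nat_lit 76) (nat_lit 106168378073) (nat_lit 0) (nat_lit 121679844814) (nat_lit 532) (nat_lit 63981751447) (nat_lit 55) (nat_lit 5) (nat_lit 54) (nat_lit 3) (nat_lit 61) (nat_lit 5) (nat_lit 356) (nat_lit 355) (nat_lit 189))) (XT.nd (nat_lit 78) (nat_lit 0) (nat_lit 0) (XT.lf (nat_lit 0) (nat_lit 241238285548) (nat_lit 456) (nat_lit 46757243635) (nat_lit 532) (nat_lit 15642564158) (nat_lit 55) (nat_lit 5) (nat_lit 61) (nat_lit 5) (nat_lit 62) (nat_lit 5) (nat_lit 357) (nat_lit 355) (nat_lit 188)) (XT.nd (nat_lit 78) (nat_lit 0) (nat_lit 0) (XT.lf (nat_lit 76) (nat_lit 105369924932) (nat_lit 0) (nat_lit 156024221537) (nat_lit 532) (nat_lit 54541148067) (nat_lit 56) (nat_lit 5) (nat_lit 55) (nat_lit 5) (nat_lit 62) (nat_lit 5) (nat_lit 358)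 (nat_lit 355) (nat_lit 187)) (XT.lf (nat_lit 76) (nat_lit 272326346842) (nat_lit 0) (nat_lit 12114488082) (nat_lit 532) (nat_lit 44673168332) (nat_lit 56) (nat_lit 5) (nat_lit 55) (nat_lit 5) (nat_lit 62) (nat_lit 5) (nat_lit 359) (nat_lit 355) (nat_lit 186))))))) (XT.nd (nat_lit 624) (nat_lit 988) (nat_lit 0) (XT.nd (nat_lit 312) (nat_lit 532) (nat_lit 0) (XT.nd (nat_lit 156) (nat_lit 456) (nat_lit 0) (XT.nd (nat_lit 78) (nat_lit 0) (nat_lit 0) (XT.lf (nat_lit 76) (nat_lit 111419309333) (nat_lit 0) (nat_lit 204038085826) (nat_lit 532) (nat_lit 27399522690) (nat_lit 57) (nat_lit 5) (nat_lit 56) (nat_lit 5) (nat_lit 63) (nat_lit 5) (nat_lit 360) (nat_lit 355) (nat_lit 185)) (XT.lf (nat_lit 76) (nat_lit 295981118150) (nat_lit 0) (nat_lit 54833474783) (nat_lit 532) (nat_lit 6735927761) (nat_lit 57) (nat_lit 5) (nat_lit 56) (nat_lit 5) (nat_lit 63) (nat_lit 5) (nat_lit 361) (nat_lit 355) (nat_lit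 184))) (XT.nd (nat_lit 78) (nat_lit 0) (nat_lit 0) (XT.lf (nat_lit 0) (nat_lit 20523912684) (nat_lit 532) (nat_lit 247877689232) (nat_lit 76) (nat_lit 104530226908) (nat_lit 50) (nat_lit 5) (nat_lit 57) (nat_lit 5) (nat_lit 51) (nat_lit 5) (nat_lit 362) (nat_lit 355) (nat_lit 183)) (XT.lf (nat_lit 0) (nat_lit 52751960767) (nat_lit 532) (nat_lit 60942876832) (nat_lit 76) (nat_lit 275582700516) (nat_lit 50) (nat_lit 5) (nat_lit 57) (nat_lit 5) (nat_lit 51) (nat_lit 5) (nat_lit 363) (nat_lit 355) (nat_lit 182)))) (XT.nd (nat_lit 156) (nat_lit 228) (nat_lit 0) (XT.nd (nat_lit 78) (nat_lit 0) (nat_lit 0) (XT.lf (nat_lit 0) (nat_lit 92503150830) (nat_lit 380) (nat_lit 259653446242) (nat_lit 76) (nat_lit 54378715303) (nat_lit 46) (nat_lit 5) (nat_lit 51) (nat_lit 5) (nat_lit 47) (nat_lit 5) (nat_lit 364) (nat_lit 355) (nat_lit 181)) (XT.lf (nat_lit 0) (nat_lit 140097069267) (nat_lit 380) (nat_lit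 53238383245) (nat_lit 76) (nat_lit 231465245482) (nat_lit 46) (nat_lit 5) (nat_lit 51) (nat_lit 5) (nat_lit 47) (nat_lit 5) (nat_lit 365) (nat_lit 355) (nat_lit 180))) (XT.nd (nat_lit 78) (nat_lit 0) (nat_lit 0) (XT.lf (nat_lit 0) (nat_lit 178625405956) (nat_lit 228) (nat_lit 17168998020) (nat_lit 304) (nat_lit 248389238326) (nat_lit 43) (nat_lit 5) (nat_lit 46) (nat_lit 5) (nat_lit 47) (nat_lit 5) (nat_lit 366) (nat_lit 355) (nat_lit 179)) (XT.lf (nat_lit 0) (nat_lit 261603762571) (nat_lit 304) (nat_lit 37135452305) (nat_lit 76) (nat_lit 165925508372) (nat_lit 43) (nat_lit 5) (nat_lit 47) (nat_lit 5) (nat_lit 44) (nat_lit 5) (nat_lit 367) (nat_lit 355) (nat_lit 178))))) (XT.nd (nat_lit 312) (nat_lit 304) (nat_lit 0) (XT.nd (nat_lit 156) (nat_lit 456) (nat_lit 0) (XT.nd (nat_lit 78) (nat_lit 0) (nat_lit 0) (XT.lf (nat_lit 0) (nat_lit 220126796695) (nat_lit 228) (nat_lit 118291038410) (nat_lit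 304) (nat_lit 147907258398) (nat_lit 40) (nat_lit 5) (nat_lit 43) (nat_lit 5) (nat_lit 44) (nat_lit 5) (nat_lit 368) (nat_lit 355) (nat_lit 177)) (XT.lf (nat_lit 0) (nat_lit 424260782614) (nat_lit 304) (nat_lit 11423595064) (nat_lit 76) (nat_lit 73803215820) (nat_lit 40) (nat_lit 5) (nat_lit 44) (nat_lit 5) (nat_lit 41) (nat_lit 5) (nat_lit 369) (nat_lit 355) (nat_lit 176))) (XT.nd (nat_lit 78) (nat_lit 304) (nat_lit 0) (XT.lf (nat_lit 0) (nat_lit 274386468816) (nat_lit 152) (nat_lit 252256159533) (nat_lit 228) (nat_lit 7086748196) (nat_lit 38) (nat_lit 5) (nat_lit 40) (nat_lit 5) (nat_lit 41) (nat_lit 5) (nat_lit 370) (nat_lit 355) (nat_lit 175)) (XT.lf (nat_lit 0) (nat_lit 23114439787) (nat_lit 228) (nat_lit 51199318856) (nat_lit 304) (nat_lit 485377903647) (nat_lit 34) (nat_lit 5) (nat_lit 37) (nat_lit 5) (nat_lit 38) (nat_lit 5) (nat_lit 371) (nat_lit 355) (nat_lit 174)))) (XT.nd (nat_lit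 156) (nat_lit 152) (nat_lit 0) (XT.nd (nat_lit 78) (nat_lit 152) (nat_lit 0) (XT.lf (nat_lit 0) (nat_lit 173109390617) (nat_lit 304) (nat_lit 248605428317) (nat_lit 76) (nat_lit 165100110045) (nat_lit 34) (nat_lit 5) (nat_lit 38) (nat_lit 5) (nat_lit 35) (nat_lit 5) (nat_lit 372) (nat_lit 355) (nat_lit 173)) (XT.lf (nat_lit 0) (nat_lit 64290276369) (nat_lit 152) (nat_lit 218394402770) (nat_lit 228) (nat_lit 333193297417) (nat_lit 32) (nat_lit 5) (nat_lit 34) (nat_lit 5) (nat_lit 35) (nat_lit 5) (nat_lit 373) (nat_lit 355) (nat_lit 172))) (XT.nd (nat_lit 78) (nat_lit 152) (nat_lit 0) (XT.lf (nat_lit 0) (nat_lit 408028488226) (nat_lit 228) (nat_lit 230571488753) (nat_lit 76) (nat_lit 8105891196) (nat_lit 32) (nat_lit 5) (nat_lit 35) (nat_lit 5) (nat_lit 33) (nat_lit 5) (nat_lit 374) (nat_lit 355) (nat_lit 171)) (XT.nd (nat_lit 78) (nat_lit 0) (nat_lit 0) (XT.lf (nat_lit 0) (nat_lit 116269679488)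 (nat_lit 152) (nat_lit 435598966906) (nat_lit 228) (nat_lit 127453837211) (nat_lit 30) (nat_lit 5) (nat_lit 32) (nat_lit 5) (nat_lit 33) (nat_lit 5) (nat_lit 375) (nat_lit 355) (nat_lit 170)) (XT.lf (nat_lit 0) (nat_lit 503970908554) (nat_lit 152) (nat_lit 209549316684) (nat_lit 228) (nat_lit 523866417) (nat_lit 30) (nat_lit 5) (nat_lit 32) (nat_lit 5) (nat_lit 33) (nat_lit 5) (nat_lit 376) (nat_lit 355) (nat_lit 169))))))))
noncomputable def xc229 : XT := (XT.nd (nat_lit 1326) (nat_lit 456) (nat_lit 0) (XT.nd (nat_lit 624) (nat_lit 532) (nat_lit 0) (XT.nd (nat_lit 312) (nat_lit 304) (nat_lit 0) (XT.nd (nat_lit 156) (nat_lit 152) (nat_lit 0) (XT.nd (nat_lit 78) (nat_lit 0) (nat_lit 0) (XT.lf (nat_lit 0) (nat_lit 135006240626) (nat_lit 228) (nat_lit 575268432159) (nat_lit 76) (nat_lit 40583849083) (nat_lit 27) (nat_lit 5) (nat_lit 30) (nat_lit 5) (nat_lit 28) (nat_lit 5) (nat_lit 377) (nat_lit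 355) (nat_lit 168)) (XT.lf (nat_lit 0) (nat_lit 292686232027) (nat_lit 228) (nat_lit 191710804125) (nat_lit 76) (nat_lit 305313119559) (nat_lit 27) (nat_lit 5) (nat_lit 30) (nat_lit 5) (nat_lit 28) (nat_lit 5) (nat_lit 378) (nat_lit 355) (nat_lit 167))) (XT.nd (nat_lit 78) (nat_lit 0) (nat_lit 0) (XT.lf (nat_lit 0) (nat_lit 234249509382) (nat_lit 152) (nat_lit 234364798184) (nat_lit 228) (nat_lit 362604917929) (nat_lit 25) (nat_lit 5) (nat_lit 27) (nat_lit 5) (nat_lit 28) (nat_lit 5) (nat_lit 379) (nat_lit 355) (nat_lit 166)) (XT.lf (nat_lit 0) (nat_lit 664852334471) (nat_lit 228) (nat_lit 171434320208) (nat_lit 76) (nat_lit 39263509776) (nat_lit 25) (nat_lit 5) (nat_lit 28) (nat_lit 5) (nat_lit 26) (nat_lit 4) (nat_lit 380) (nat_lit 355) (nat_lit 165)))) (XT.nd (nat_lit 156) (nat_lit 152) (nat_lit 0) (XT.nd (nat_lit 78) (nat_lit 76) (nat_lit 0) (XT.lf (nat_lit 0) (nat_lit 296909072393)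 (nat_lit 76) (nat_lit 593108379372) (nat_lit 152) (nat_lit 32351882927) (nat_lit 24) (nat_lit 5) (nat_lit 25) (nat_lit 5) (nat_lit 26) (nat_lit 4) (nat_lit 381) (nat_lit 355) (nat_lit 164)) (XT.lf (nat_lit 0) (nat_lit 157053845985) (nat_lit 152) (nat_lit 164065574353) (nat_lit 76) (nat_lit 651121550536) (nat_lit 23) (nat_lit 5) (nat_lit 25) (nat_lit 5) (nat_lit 24) (nat_lit 5) (nat_lit 382) (nat_lit 355) (nat_lit 163))) (XT.nd (nat_lit 78) (nat_lit 0) (nat_lit 0) (XT.lf (nat_lit 0) (nat_lit 350956621835) (nat_lit 152) (nat_lit 17348066749) (nat_lit 228) (nat_lit 657055184901) (nat_lit 21) (nat_lit 5) (nat_lit 23) (nat_lit 5) (nat_lit 24) (nat_lit 5) (nat_lit 383) (nat_lit 355) (nat_lit 162)) (XT.lf (nat_lit 0) (nat_lit 608530883674) (nat_lit 228) (nat_lit 173447761642) (nat_lit 76) (nat_lit 299783620196) (nat_lit 21) (nat_lit 5) (nat_lit 24) (nat_lit 5) (nat_lit 22) (nat_lit 4) (nat_lit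 384) (nat_lit 355) (nat_lit 161))))) (XT.nd (nat_lit 312) (nat_lit 304) (nat_lit 0) (XT.nd (nat_lit 156) (nat_lit 152) (nat_lit 0) (XT.nd (nat_lit 78) (nat_lit 0) (nat_lit 0) (XT.lf (nat_lit 0) (nat_lit 386466142184) (nat_lit 76) (nat_lit 491254135137) (nat_lit 152) (nat_lit 264176963355) (nat_lit 20) (nat_lit 5) (nat_lit 21) (nat_lit 5) (nat_lit 22) (nat_lit 4) (nat_lit 385) (nat_lit 355) (nat_lit 160)) (XT.lf (nat_lit 0) (nat_lit 1001037259041) (nat_lit 76) (nat_lit 172149916947) (nat_lit 152) (nat_lit 33276449595) (nat_lit 20) (nat_lit 5) (nat_lit 21) (nat_lit 5) (nat_lit 22) (nat_lit 4) (nat_lit 386) (nat_lit 355) (nat_lit 159))) (XT.nd (nat_lit 78) (nat_lit 0) (nat_lit 0) (XT.lf (nat_lit 0) (nat_lit 219527253065) (nat_lit 152) (nat_lit 875968588614) (nat_lit 76) (nat_lit 179144418276) (nat_lit 18) (nat_lit 5) (nat_lit 20) (nat_lit 5) (nat_lit 19) (nat_lit 4) (nat_lit 387) (nat_lit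 355) (nat_lit 158)) (XT.lf (nat_lit 0) (nat_lit 500991480866) (nat_lit 152) (nat_lit 290523020484) (nat_lit 76) (nat_lit 555868656144) (nat_lit 18) (nat_lit 5) (nat_lit 20) (nat_lit 5) (nat_lit 19) (nat_lit 4) (nat_lit 388) (nat_lit 355) (nat_lit 157)))) (XT.nd (nat_lit 156) (nat_lit 228) (nat_lit 0) (XT.nd (nat_lit 78) (nat_lit 0) (nat_lit 0) (XT.lf (nat_lit 0) (nat_lit 359754548370) (nat_lit 76) (nat_lit 453870390500) (nat_lit 152) (nat_lit 611628380616) (nat_lit 17) (nat_lit 5) (nat_lit 18) (nat_lit 5) (nat_lit 19) (nat_lit 4) (nat_lit 389) (nat_lit 355) (nat_lit 156)) (XT.lf (nat_lit 0) (nat_lit 1078576600697) (nat_lit 76) (nat_lit 80635873922) (nat_lit 152) (nat_lit 349505147737) (nat_lit 17) (nat_lit 5) (nat_lit 18) (nat_lit 5) (nat_lit 19) (nat_lit 4) (nat_lit 390) (nat_lit 355) (nat_lit 155))) (XT.nd (nat_lit 78) (nat_lit 152) (nat_lit 0) (XT.lf (nat_lit 0) (nat_lit 261364739611)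 (nat_lit 76) (nat_lit 1285123197823) (nat_lit 76) (nat_lit 51247858091) (nat_lit 16) (nat_lit 4) (nat_lit 17) (nat_lit 5) (nat_lit 17) (nat_lit 4) (nat_lit 391) (nat_lit 355) (nat_lit 154)) (XT.nd (nat_lit 78) (nat_lit 76) (nat_lit 0) (XT.lf (nat_lit 0) (nat_lit 271480719118) (nat_lit 152) (nat_lit 669195461454) (nat_lit 76) (nat_lit 751545229990) (nat_lit 15) (nat_lit 5) (nat_lit 17) (nat_lit 5) (nat_lit 16) (nat_lit 4) (nat_lit 392) (nat_lit 355) (nat_lit 153)) (XT.lf (nat_lit 0) (nat_lit 52657171308) (nat_lit 76) (nat_lit 565868090577) (nat_lit 152) (nat_lit 1175532812278) (nat_lit 14) (nat_lit 5) (nat_lit 15) (nat_lit 5) (nat_lit 16) (nat_lit 4) (nat_lit 393) (nat_lit 355) (nat_lit 152))))))) (XT.nd (nat_lit 702) (nat_lit 152) (nat_lit 0) (XT.nd (nat_lit 312) (nat_lit 152) (nat_lit 0) (XT.nd (nat_lit 156) (nat_lit 152) (nat_lit 0) (XT.nd (nat_lit 78) (nat_lit 0) (nat_lit 0) (XT.lf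 (nat_lit 0) (nat_lit 870315733045) (nat_lit 76) (nat_lit 141314613807) (nat_lit 152) (nat_lit 890947565704) (nat_lit 14) (nat_lit 5) (nat_lit 15) (nat_lit 5) (nat_lit 16) (nat_lit 4) (nat_lit 394) (nat_lit 355) (nat_lit 151)) (XT.lf (nat_lit 0) (nat_lit 1443812571343) (nat_lit 152) (nat_lit 274021121065) (nat_lit 0) (nat_lit 301335346999) (nat_lit 14) (nat_lit 5) (nat_lit 16) (nat_lit 4) (nat_lit 14) (nat_lit 4) (nat_lit 395) (nat_lit 355) (nat_lit 150))) (XT.nd (nat_lit 78) (nat_lit 76) (nat_lit 0) (XT.lf (nat_lit 0) (nat_lit 569707785213) (nat_lit 76) (nat_lit 1358233574293) (nat_lit 76) (nat_lit 215756338047) (nat_lit 13) (nat_lit 4) (nat_lit 14) (nat_lit 5) (nat_lit 14) (nat_lit 4) (nat_lit 396) (nat_lit 355) (nat_lit 149)) (XT.lf (nat_lit 0) (nat_lit 171663877560) (nat_lit 152) (nat_lit 785416381942) (nat_lit 76) (nat_lit 1320161338084) (nat_lit 12) (nat_lit 5) (nat_lit 14) (nat_lit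 5) (nat_lit 13) (nat_lit 4) (nat_lit 397) (nat_lit 355) (nat_lit 148)))) (XT.nd (nat_lit 156) (nat_lit 76) (nat_lit 0) (XT.nd (nat_lit 78) (nat_lit 0) (nat_lit 0) (XT.lf (nat_lit 0) (nat_lit 63832093135) (nat_lit 76) (nat_lit 516124325425) (nat_lit 152) (nat_lit 1840941453848) (nat_lit 11) (nat_lit 5) (nat_lit 12) (nat_lit 5) (nat_lit 13) (nat_lit 4) (nat_lit 398) (nat_lit 355) (nat_lit 147)) (XT.lf (nat_lit 0) (nat_lit 1025687755380) (nat_lit 76) (nat_lit 16699274572) (nat_lit 152) (nat_lit 1531941645900) (nat_lit 11) (nat_lit 5) (nat_lit 12) (nat_lit 5) (nat_lit 13) (nat_lit 4) (nat_lit 399) (nat_lit 355) (nat_lit 146))) (XT.nd (nat_lit 78) (nat_lit 76) (nat_lit 0) (XT.lf (nat_lit 0) (nat_lit 1554382543360) (nat_lit 152) (nat_lit 688112549927) (nat_lit 0) (nat_lit 496533214037) (nat_lit 11) (nat_lit 5) (nat_lit 13) (nat_lit 4) (nat_lit 11) (nat_lit 4) (nat_lit 400) (nat_lit 355) (nat_lit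 145)) (XT.nd (nat_lit 78) (nat_lit 0) (nat_lit 0) (XT.lf (nat_lit 0) (nat_lit 253505710711) (nat_lit 76) (nat_lit 1860362545385) (nat_lit 76) (nat_lit 802513208561) (nat_lit 10) (nat_lit 4) (nat_lit 11) (nat_lit 5) (nat_lit 11) (nat_lit 4) (nat_lit 401) (nat_lit 355) (nat_lit 144)) (XT.lf (nat_lit 0) (nat_lit 1309586988490) (nat_lit 76) (nat_lit 1427340046561) (nat_lit 76) (nat_lit 369490702792) (nat_lit 10) (nat_lit 4) (nat_lit 11) (nat_lit 5) (nat_lit 11) (nat_lit 4) (nat_lit 402) (nat_lit 355) (nat_lit 143)))))) (XT.nd (nat_lit 43290) (nat_lit 0) (nat_lit 3496) (XT.nd (nat_lit 156) (nat_lit 0) (nat_lit 0) (XT.nd (nat_lit 78) (nat_lit 76) (nat_lit 0) (XT.lf (nat_lit 0) (nat_lit 93262555199) (nat_lit 152) (nat_lit 863863235384) (nat_lit 76) (nat_lit 2354342236661) (nat_lit 9) (nat_lit 5) (nat_lit 11) (nat_lit 5) (nat_lit 10) (nat_lit 4) (nat_lit 403) (nat_lit 355) (nat_lit 142)) (XT.lf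 (nat_lit 0) (nat_lit 141208318089) (nat_lit 76) (nat_lit 435261717604) (nat_lit 152) (nat_lit 2955412846659) (nat_lit 8) (nat_lit 5) (nat_lit 9) (nat_lit 5) (nat_lit 10) (nat_lit 4) (nat_lit 404) (nat_lit 355) (nat_lit 141))) (XT.nd (nat_lit 43056) (nat_lit 0) (nat_lit 3496) (XT.lf (nat_lit 0) (nat_lit 1125654011015) (nat_lit 152) (nat_lit 2495927461822) (nat_lit 0) (nat_lit 146163861323) (nat_lit 8) (nat_lit 5) (nat_lit 10) (nat_lit 4) (nat_lit 8) (nat_lit 4) (nat_lit 405) (nat_lit 355) (nat_lit 140)) (XT.lf (nat_lit 0) (nat_lit 116980380190) (nat_lit 532) (nat_lit 17326377727) (nat_lit 532) (nat_lit 17326377727) (nat_lit 54) (nat_lit 3) (nat_lit 61) (nat_lit 3) (nat_lit 61) (nat_lit 5) (nat_lit 356) (nat_lit 356) (nat_lit 188)))) (XT.nd (nat_lit 156) (nat_lit 0) (nat_lit 76) (XT.nd (nat_lit 78) (nat_lit 0) (nat_lit 76) (XT.lf (nat_lit 76) (nat_lit 114662639415) (nat_lit 0) (nat_lit 131414849687)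 (nat_lit 532) (nat_lit 69098767971) (nat_lit 55) (nat_lit 5) (nat_lit 54) (nat_lit 3) (nat_lit 61) (nat_lit 5) (nat_lit 357) (nat_lit 356) (nat_lit 187)) (XT.lf (nat_lit 0) (nat_lit 260538638704) (nat_lit 456) (nat_lit 50496970209) (nat_lit 532) (nat_lit 16893426320) (nat_lit 55) (nat_lit 5) (nat_lit 61) (nat_lit 5) (nat_lit 62) (nat_lit 5) (nat_lit 358) (nat_lit 356) (nat_lit 186))) (XT.nd (nat_lit 78) (nat_lit 0) (nat_lit 0) (XT.lf (nat_lit 76) (nat_lit 113800350251) (nat_lit 0) (nat_lit 168506542664) (nat_lit 532) (nat_lit 58903125831) (nat_lit 56) (nat_lit 5) (nat_lit 55) (nat_lit 5) (nat_lit 62) (nat_lit 5) (nat_lit 359) (nat_lit 356) (nat_lit 185)) (XT.nd (nat_lit 78) (nat_lit 0) (nat_lit 76) (XT.lf (nat_lit 76) (nat_lit 294113224334) (nat_lit 0) (nat_lit 13084002131) (nat_lit 532) (nat_lit 48245805057) (nat_lit 56) (nat_lit 5) (nat_lit 55) (nat_lit 5) (nat_lit 62) (nat_lit 5) (nat_lit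 360) (nat_lit 356) (nat_lit 184)) (XT.lf (nat_lit 76) (nat_lit 120333702324) (nat_lit 0) (nat_lit 220361338375) (nat_lit 532) (nat_lit 29590344398) (nat_lit 57) (nat_lit 5) (nat_lit 56) (nat_lit 5) (nat_lit 63) (nat_lit 5) (nat_lit 361) (nat_lit 356) (nat_lit 183))))))))
noncomputable def xc230 : XT := (XT.nd (nat_lit 1326) (nat_lit 988) (nat_lit 0) (XT.nd (nat_lit 624) (nat_lit 988) (nat_lit 0) (XT.nd (nat_lit 312) (nat_lit 456) (nat_lit 0) (XT.nd (nat_lit 156) (nat_lit 304) (nat_lit 0) (XT.nd (nat_lit 78) (nat_lit 456) (nat_lit 0) (XT.lf (nat_lit 76) (nat_lit 319660393013) (nat_lit 0) (nat_lit 59220343213) (nat_lit 532) (nat_lit 7273746327) (nat_lit 57) (nat_lit 5) (nat_lit 56) (nat_lit 5) (nat_lit 63) (nat_lit 5) (nat_lit 362) (nat_lit 356) (nat_lit 182)) (XT.lf (nat_lit 0) (nat_lit 22166770828) (nat_lit 532) (nat_lit 267707005353) (nat_lit 76) (nat_lit 112892521858) (nat_lit 50) (nat_lit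 5) (nat_lit 57) (nat_lit 5) (nat_lit 51) (nat_lit 5) (nat_lit 363) (nat_lit 356) (nat_lit 181))) (XT.nd (nat_lit 78) (nat_lit 304) (nat_lit 0) (XT.lf (nat_lit 0) (nat_lit 56972992748) (nat_lit 532) (nat_lit 65817474555) (nat_lit 76) (nat_lit 297629202481) (nat_lit 50) (nat_lit 5) (nat_lit 57) (nat_lit 5) (nat_lit 51) (nat_lit 5) (nat_lit 364) (nat_lit 356) (nat_lit 180)) (XT.lf (nat_lit 0) (nat_lit 99904232262) (nat_lit 380) (nat_lit 280424842494) (nat_lit 76) (nat_lit 58728994992) (nat_lit 46) (nat_lit 5) (nat_lit 51) (nat_lit 5) (nat_lit 47) (nat_lit 5) (nat_lit 365) (nat_lit 356) (nat_lit 179)))) (XT.nd (nat_lit 156) (nat_lit 228) (nat_lit 0) (XT.nd (nat_lit 78) (nat_lit 228) (nat_lit 0) (XT.lf (nat_lit 0) (nat_lit 151305602738) (nat_lit 380) (nat_lit 57496639601) (nat_lit 76) (nat_lit 249982448884) (nat_lit 46) (nat_lit 5) (nat_lit 51) (nat_lit 5) (nat_lit 47) (nat_lit 5) (nat_lit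 366) (nat_lit 356) (nat_lit 178)) (XT.lf (nat_lit 0) (nat_lit 192916232121) (nat_lit 228) (nat_lit 18542454308) (nat_lit 304) (nat_lit 268259587758) (nat_lit 43) (nat_lit 5) (nat_lit 46) (nat_lit 5) (nat_lit 47) (nat_lit 5) (nat_lit 367) (nat_lit 356) (nat_lit 177))) (XT.nd (nat_lit 78) (nat_lit 228) (nat_lit 0) (XT.lf (nat_lit 0) (nat_lit 282532741043) (nat_lit 304) (nat_lit 40105499916) (nat_lit 76) (nat_lit 179199604943) (nat_lit 43) (nat_lit 5) (nat_lit 47) (nat_lit 5) (nat_lit 44) (nat_lit 5) (nat_lit 368) (nat_lit 356) (nat_lit 176)) (XT.lf (nat_lit 0) (nat_lit 237737709040) (nat_lit 228) (nat_lit 127754198642) (nat_lit 304) (nat_lit 159739140707) (nat_lit 40) (nat_lit 5) (nat_lit 43) (nat_lit 5) (nat_lit 44) (nat_lit 5) (nat_lit 369) (nat_lit 356) (nat_lit 175))))) (XT.nd (nat_lit 312) (nat_lit 532) (nat_lit 0) (XT.nd (nat_lit 156) (nat_lit 304) (nat_lit 0) (XT.nd (nat_lit 78) (nat_lit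 152) (nat_lit 0) (XT.lf (nat_lit 0) (nat_lit 458202245892) (nat_lit 304) (nat_lit 12336725031) (nat_lit 76) (nat_lit 79707581137) (nat_lit 40) (nat_lit 5) (nat_lit 44) (nat_lit 5) (nat_lit 41) (nat_lit 5) (nat_lit 370) (nat_lit 356) (nat_lit 174)) (XT.lf (nat_lit 0) (nat_lit 296338124779) (nat_lit 152) (nat_lit 272436487773) (nat_lit 228) (nat_lit 7653067402) (nat_lit 38) (nat_lit 5) (nat_lit 40) (nat_lit 5) (nat_lit 41) (nat_lit 5) (nat_lit 371) (nat_lit 356) (nat_lit 173))) (XT.nd (nat_lit 78) (nat_lit 0) (nat_lit 0) (XT.lf (nat_lit 0) (nat_lit 24964345716) (nat_lit 228) (nat_lit 55295077603) (nat_lit 304) (nat_lit 524207526150) (nat_lit 34) (nat_lit 5) (nat_lit 37) (nat_lit 5) (nat_lit 38) (nat_lit 5) (nat_lit 372) (nat_lit 356) (nat_lit 172)) (XT.lf (nat_lit 0) (nat_lit 186958668233) (nat_lit 304) (nat_lit 268493129194) (nat_lit 76) (nat_lit 178308283126) (nat_lit 34) (nat_lit 5) (nat_lit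 38) (nat_lit 5) (nat_lit 35) (nat_lit 5) (nat_lit 373) (nat_lit 356) (nat_lit 171)))) (XT.nd (nat_lit 156) (nat_lit 380) (nat_lit 0) (XT.nd (nat_lit 78) (nat_lit 0) (nat_lit 0) (XT.lf (nat_lit 0) (nat_lit 69434213300) (nat_lit 152) (nat_lit 235865744738) (nat_lit 228) (nat_lit 359848215689) (nat_lit 32) (nat_lit 5) (nat_lit 34) (nat_lit 5) (nat_lit 35) (nat_lit 5) (nat_lit 374) (nat_lit 356) (nat_lit 170)) (XT.lf (nat_lit 0) (nat_lit 440671239158) (nat_lit 228) (nat_lit 249016512744) (nat_lit 76) (nat_lit 8754547433) (nat_lit 32) (nat_lit 5) (nat_lit 35) (nat_lit 5) (nat_lit 33) (nat_lit 5) (nat_lit 375) (nat_lit 356) (nat_lit 169))) (XT.nd (nat_lit 78) (nat_lit 228) (nat_lit 0) (XT.lf (nat_lit 0) (nat_lit 125571931359) (nat_lit 152) (nat_lit 470446659962) (nat_lit 228) (nat_lit 137649654212) (nat_lit 30) (nat_lit 5) (nat_lit 32) (nat_lit 5) (nat_lit 33) (nat_lit 5) (nat_lit 376) (nat_lit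 356) (nat_lit 168)) (XT.nd (nat_lit 78) (nat_lit 228) (nat_lit 0) (XT.lf (nat_lit 0) (nat_lit 544289208564) (nat_lit 152) (nat_lit 226313054337) (nat_lit 228) (nat_lit 565322049) (nat_lit 30) (nat_lit 5) (nat_lit 32) (nat_lit 5) (nat_lit 33) (nat_lit 5) (nat_lit 377) (nat_lit 356) (nat_lit 167)) (XT.lf (nat_lit 0) (nat_lit 145807159468) (nat_lit 228) (nat_lit 621289244485) (nat_lit 76) (nat_lit 43830765697) (nat_lit 27) (nat_lit 5) (nat_lit 30) (nat_lit 5) (nat_lit 28) (nat_lit 5) (nat_lit 378) (nat_lit 356) (nat_lit 166))))))) (XT.nd (nat_lit 624) (nat_lit 456) (nat_lit 0) (XT.nd (nat_lit 312) (nat_lit 304) (nat_lit 0) (XT.nd (nat_lit 156) (nat_lit 76) (nat_lit 0) (XT.nd (nat_lit 78) (nat_lit 152) (nat_lit 0) (XT.lf (nat_lit 0) (nat_lit 316101519100) (nat_lit 228) (nat_lit 207047055263) (nat_lit 76) (nat_lit 329738362353) (nat_lit 27) (nat_lit 5) (nat_lit 30) (nat_lit 5) (nat_lit 28)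 (nat_lit 5) (nat_lit 379) (nat_lit 356) (nat_lit 165)) (XT.lf (nat_lit 0) (nat_lit 252990067801) (nat_lit 152) (nat_lit 253113758478) (nat_lit 228) (nat_lit 391612906985) (nat_lit 25) (nat_lit 5) (nat_lit 27) (nat_lit 5) (nat_lit 28) (nat_lit 5) (nat_lit 380) (nat_lit 356) (nat_lit 164))) (XT.nd (nat_lit 78) (nat_lit 76) (nat_lit 0) (XT.lf (nat_lit 0) (nat_lit 718040872603) (nat_lit 228) (nat_lit 185148489377) (nat_lit 76) (nat_lit 42404787204) (nat_lit 25) (nat_lit 5) (nat_lit 28) (nat_lit 5) (nat_lit 26) (nat_lit 4) (nat_lit 381) (nat_lit 356) (nat_lit 163)) (XT.lf (nat_lit 0) (nat_lit 320662360038) (nat_lit 76) (nat_lit 640556826726) (nat_lit 152) (nat_lit 34939667300) (nat_lit 24) (nat_lit 5) (nat_lit 25) (nat_lit 5) (nat_lit 26) (nat_lit 4) (nat_lit 382) (nat_lit 356) (nat_lit 162)))) (XT.nd (nat_lit 156) (nat_lit 76) (nat_lit 0) (XT.nd (nat_lit 78) (nat_lit 152) (nat_lit 0) (XT.lf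 (nat_lit 0) (nat_lit 169618475830) (nat_lit 152) (nat_lit 177190282849) (nat_lit 76) (nat_lit 703211463840) (nat_lit 23) (nat_lit 5) (nat_lit 25) (nat_lit 5) (nat_lit 24) (nat_lit 5) (nat_lit 383) (nat_lit 356) (nat_lit 161)) (XT.lf (nat_lit 0) (nat_lit 379033675428) (nat_lit 152) (nat_lit 18735699144) (nat_lit 228) (nat_lit 709619263687) (nat_lit 21) (nat_lit 5) (nat_lit 23) (nat_lit 5) (nat_lit 24) (nat_lit 5) (nat_lit 384) (nat_lit 356) (nat_lit 160))) (XT.nd (nat_lit 78) (nat_lit 76) (nat_lit 0) (XT.lf (nat_lit 0) (nat_lit 657213646980) (nat_lit 228) (nat_lit 187323079027) (nat_lit 76) (nat_lit 323766497120) (nat_lit 21) (nat_lit 5) (nat_lit 24) (nat_lit 5) (nat_lit 22) (nat_lit 4) (nat_lit 385) (nat_lit 356) (nat_lit 159)) (XT.lf (nat_lit 0) (nat_lit 417383924357) (nat_lit 76) (nat_lit 530554257891) (nat_lit 152) (nat_lit 285310814863) (nat_lit 20) (nat_lit 5) (nat_lit 21) (nat_lit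 5) (nat_lit 22) (nat_lit 4) (nat_lit 386) (nat_lit 356) (nat_lit 158))))) (XT.nd (nat_lit 312) (nat_lit 228) (nat_lit 0) (XT.nd (nat_lit 156) (nat_lit 76) (nat_lit 0) (XT.nd (nat_lit 78) (nat_lit 152) (nat_lit 0) (XT.lf (nat_lit 0) (nat_lit 1081120694207) (nat_lit 76) (nat_lit 185921717658) (nat_lit 152) (nat_lit 35938282635) (nat_lit 20) (nat_lit 5) (nat_lit 21) (nat_lit 5) (nat_lit 22) (nat_lit 4) (nat_lit 387) (nat_lit 356) (nat_lit 157)) (XT.lf (nat_lit 0) (nat_lit 237089697902) (nat_lit 152) (nat_lit 946045602595) (nat_lit 76) (nat_lit 193476158928) (nat_lit 18) (nat_lit 5) (nat_lit 20) (nat_lit 5) (nat_lit 19) (nat_lit 4) (nat_lit 388) (nat_lit 356) (nat_lit 156))) (XT.nd (nat_lit 78) (nat_lit 76) (nat_lit 0) (XT.lf (nat_lit 0) (nat_lit 541071044328) (nat_lit 152) (nat_lit 313764424059) (nat_lit 76) (nat_lit 600338321959) (nat_lit 18) (nat_lit 5) (nat_lit 20) (nat_lit 5) (nat_lit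 19) (nat_lit 4) (nat_lit 389) (nat_lit 356) (nat_lit 155)) (XT.lf (nat_lit 0) (nat_lit 388535339212) (nat_lit 76) (nat_lit 490179831880) (nat_lit 152) (nat_lit 660558394846) (nat_lit 17) (nat_lit 5) (nat_lit 18) (nat_lit 5) (nat_lit 19) (nat_lit 4) (nat_lit 390) (nat_lit 356) (nat_lit 154)))) (XT.nd (nat_lit 156) (nat_lit 152) (nat_lit 0) (XT.nd (nat_lit 78) (nat_lit 76) (nat_lit 0) (XT.lf (nat_lit 0) (nat_lit 1164863124098) (nat_lit 76) (nat_lit 87086568040) (nat_lit 152) (nat_lit 377465322316) (nat_lit 17) (nat_lit 5) (nat_lit 18) (nat_lit 5) (nat_lit 19) (nat_lit 4) (nat_lit 391) (nat_lit 356) (nat_lit 153)) (XT.lf (nat_lit 0) (nat_lit 282274317238) (nat_lit 76) (nat_lit 1387932871975) (nat_lit 76) (nat_lit 55347452495) (nat_lit 16) (nat_lit 4) (nat_lit 17) (nat_lit 5) (nat_lit 17) (nat_lit 4) (nat_lit 392) (nat_lit 356) (nat_lit 152))) (XT.nd (nat_lit 78) (nat_lit 76) (nat_lit 0) (XT.lf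 (nat_lit 0) (nat_lit 293199382690) (nat_lit 152) (nat_lit 722730718478) (nat_lit 76) (nat_lit 811669005655) (nat_lit 15) (nat_lit 5) (nat_lit 17) (nat_lit 5) (nat_lit 16) (nat_lit 4) (nat_lit 393) (nat_lit 356) (nat_lit 151)) (XT.nd (nat_lit 78) (nat_lit 0) (nat_lit 0) (XT.lf (nat_lit 0) (nat_lit 56870115287) (nat_lit 76) (nat_lit 611137367234) (nat_lit 152) (nat_lit 1269575221508) (nat_lit 14) (nat_lit 5) (nat_lit 15) (nat_lit 5) (nat_lit 16) (nat_lit 4) (nat_lit 394) (nat_lit 356) (nat_lit 150)) (XT.lf (nat_lit 0) (nat_lit 939941334536) (nat_lit 76) (nat_lit 152619624958) (nat_lit 152) (nat_lit 962223171189) (nat_lit 14) (nat_lit 5) (nat_lit 15) (nat_lit 5) (nat_lit 16) (nat_lit 4) (nat_lit 395) (nat_lit 356) (nat_lit 149))))))))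
noncomputable def xc231 : XT := (XT.nd (nat_lit 44460) (nat_lit 0) (nat_lit 1216) (XT.nd (nat_lit 624) (nat_lit 76) (nat_lit 0) (XT.nd (nat_lit 312) (nat_lit 76) (nat_lit 0) (XT.nd (nat_lit 156) (nat_lit 152) (nat_lit 0) (XT.nd (nat_lit 78) (nat_lit 76) (nat_lit 0) (XT.lf (nat_lit 0) (nat_lit 1559317751766) (nat_lit 152) (nat_lit 295942483041) (nat_lit 0) (nat_lit 325442313696) (nat_lit 14) (nat_lit 5) (nat_lit 16) (nat_lit 4) (nat_lit 14) (nat_lit 4) (nat_lit 396) (nat_lit 356) (nat_lit 148)) (XT.lf (nat_lit 0) (nat_lit 615284727443) (nat_lit 76) (nat_lit 1466892110279) (nat_lit 76) (nat_lit 233016662005) (nat_lit 13) (nat_lit 4) (nat_lit 14) (nat_lit 5) (nat_lit 14) (nat_lit 4) (nat_lit 397) (nat_lit 356) (nat_lit 147))) (XT.nd (nat_lit 78) (nat_lit 76) (nat_lit 0) (XT.lf (nat_lit 0) (nat_lit 185397148808) (nat_lit 152) (nat_lit 848249388201) (nat_lit 76) (nat_lit 1425774375436) (nat_lit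 12) (nat_lit 5) (nat_lit 14) (nat_lit 5) (nat_lit 13) (nat_lit 4) (nat_lit 398) (nat_lit 356) (nat_lit 146)) (XT.lf (nat_lit 0) (nat_lit 68938957178) (nat_lit 76) (nat_lit 557414131115) (nat_lit 152) (nat_lit 1988216601350) (nat_lit 11) (nat_lit 5) (nat_lit 12) (nat_lit 5) (nat_lit 13) (nat_lit 4) (nat_lit 399) (nat_lit 356) (nat_lit 145)))) (XT.nd (nat_lit 156) (nat_lit 76) (nat_lit 0) (XT.nd (nat_lit 78) (nat_lit 0) (nat_lit 0) (XT.lf (nat_lit 0) (nat_lit 1107743050432) (nat_lit 76) (nat_lit 18035086589) (nat_lit 152) (nat_lit 1654496821270) (nat_lit 11) (nat_lit 5) (nat_lit 12) (nat_lit 5) (nat_lit 13) (nat_lit 4) (nat_lit 400) (nat_lit 356) (nat_lit 144)) (XT.lf (nat_lit 0) (nat_lit 1678733283680) (nat_lit 152) (nat_lit 743161291768) (nat_lit 0) (nat_lit 536255985464) (nat_lit 11) (nat_lit 5) (nat_lit 13) (nat_lit 4) (nat_lit 11) (nat_lit 4) (nat_lit 401) (nat_lit 356) (nat_lit 143)))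 (XT.nd (nat_lit 78) (nat_lit 0) (nat_lit 0) (XT.lf (nat_lit 0) (nat_lit 273786423084) (nat_lit 76) (nat_lit 2009191426359) (nat_lit 76) (nat_lit 866714121712) (nat_lit 10) (nat_lit 4) (nat_lit 11) (nat_lit 5) (nat_lit 11) (nat_lit 4) (nat_lit 402) (nat_lit 356) (nat_lit 142)) (XT.lf (nat_lit 0) (nat_lit 1414354184159) (nat_lit 76) (nat_lit 1541527136715) (nat_lit 76) (nat_lit 399049826114) (nat_lit 10) (nat_lit 4) (nat_lit 11) (nat_lit 5) (nat_lit 11) (nat_lit 4) (nat_lit 403) (nat_lit 356) (nat_lit 141))))) (XT.nd (nat_lit 43446) (nat_lit 0) (nat_lit 3116) (XT.nd (nat_lit 43290) (nat_lit 0) (nat_lit 3420) (XT.nd (nat_lit 43212) (nat_lit 0) (nat_lit 3420) (XT.lf (nat_lit 0) (nat_lit 100723676517) (nat_lit 152) (nat_lit 932972068958) (nat_lit 76) (nat_lit 2542689714560) (nat_lit 9) (nat_lit 5) (nat_lit 11) (nat_lit 5) (nat_lit 10) (nat_lit 4) (nat_lit 404) (nat_lit 356) (nat_lit 140)) (XT.lf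 (nat_lit 0) (nat_lit 126339453826) (nat_lit 532) (nat_lit 18712140019) (nat_lit 532) (nat_lit 18712140019) (nat_lit 54) (nat_lit 3) (nat_lit 61) (nat_lit 3) (nat_lit 61) (nat_lit 5) (nat_lit 357) (nat_lit 357) (nat_lit 186))) (XT.nd (nat_lit 78) (nat_lit 0) (nat_lit 76) (XT.lf (nat_lit 76) (nat_lit 123836328805) (nat_lit 0) (nat_lit 141928566887) (nat_lit 532) (nat_lit 74625363174) (nat_lit 55) (nat_lit 5) (nat_lit 54) (nat_lit 3) (nat_lit 61) (nat_lit 5) (nat_lit 358) (nat_lit 357) (nat_lit 185)) (XT.lf (nat_lit 0) (nat_lit 281382836036) (nat_lit 456) (nat_lit 54535996587) (nat_lit 532) (nat_lit 18244434916) (nat_lit 55) (nat_lit 5) (nat_lit 61) (nat_lit 5) (nat_lit 62) (nat_lit 5) (nat_lit 359) (nat_lit 357) (nat_lit 184)))) (XT.nd (nat_lit 156) (nat_lit 380) (nat_lit 0) (XT.nd (nat_lit 78) (nat_lit 0) (nat_lit 0) (XT.lf (nat_lit 76) (nat_lit 122905090998) (nat_lit 0) (nat_lit 181987394783)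 (nat_lit 532) (nat_lit 63614249284) (nat_lit 56) (nat_lit 5) (nat_lit 55) (nat_lit 5) (nat_lit 62) (nat_lit 5) (nat_lit 360) (nat_lit 357) (nat_lit 183)) (XT.lf (nat_lit 76) (nat_lit 317642942213) (nat_lit 0) (nat_lit 14131026660) (nat_lit 532) (nat_lit 52104426301) (nat_lit 56) (nat_lit 5) (nat_lit 55) (nat_lit 5) (nat_lit 62) (nat_lit 5) (nat_lit 361) (nat_lit 357) (nat_lit 182))) (XT.nd (nat_lit 78) (nat_lit 456) (nat_lit 0) (XT.lf (nat_lit 76) (nat_lit 129961125743) (nat_lit 0) (nat_lit 237990421786) (nat_lit 532) (nat_lit 31956594491) (nat_lit 57) (nat_lit 5) (nat_lit 56) (nat_lit 5) (nat_lit 63) (nat_lit 5) (nat_lit 362) (nat_lit 357) (nat_lit 181)) (XT.nd (nat_lit 78) (nat_lit 456) (nat_lit 0) (XT.lf (nat_lit 76) (nat_lit 345233897818) (nat_lit 0) (nat_lit 63958133948) (nat_lit 532) (nat_lit 7854740980) (nat_lit 57) (nat_lit 5) (nat_lit 56) (nat_lit 5) (nat_lit 63) (nat_lit 5) (nat_lit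 363) (nat_lit 357) (nat_lit 180)) (XT.lf (nat_lit 0) (nat_lit 23940922790) (nat_lit 532) (nat_lit 289122795018) (nat_lit 76) (nat_lit 121923817980) (nat_lit 50) (nat_lit 5) (nat_lit 57) (nat_lit 5) (nat_lit 51) (nat_lit 5) (nat_lit 364) (nat_lit 357) (nat_lit 179))))))) (XT.nd (nat_lit 702) (nat_lit 684) (nat_lit 0) (XT.nd (nat_lit 312) (nat_lit 684) (nat_lit 0) (XT.nd (nat_lit 156) (nat_lit 228) (nat_lit 0) (XT.nd (nat_lit 78) (nat_lit 304) (nat_lit 0) (XT.lf (nat_lit 0) (nat_lit 61531582442) (nat_lit 532) (nat_lit 71082158850) (nat_lit 76) (nat_lit 321439440877) (nat_lit 50) (nat_lit 5) (nat_lit 57) (nat_lit 5) (nat_lit 51) (nat_lit 5) (nat_lit 365) (nat_lit 357) (nat_lit 178)) (XT.lf (nat_lit 0) (nat_lit 107897281889) (nat_lit 380) (nat_lit 302858075908) (nat_lit 76) (nat_lit 63427299557) (nat_lit 46) (nat_lit 5) (nat_lit 51) (nat_lit 5) (nat_lit 47) (nat_lit 5) (nat_lit 366) (nat_lit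 357) (nat_lit 177))) (XT.nd (nat_lit 78) (nat_lit 228) (nat_lit 0) (XT.lf (nat_lit 0) (nat_lit 163410709334) (nat_lit 380) (nat_lit 62095672635) (nat_lit 76) (nat_lit 269981030874) (nat_lit 46) (nat_lit 5) (nat_lit 51) (nat_lit 5) (nat_lit 47) (nat_lit 5) (nat_lit 367) (nat_lit 357) (nat_lit 176)) (XT.lf (nat_lit 0) (nat_lit 208350211151) (nat_lit 228) (nat_lit 20025796166) (nat_lit 304) (nat_lit 289719677794) (nat_lit 43) (nat_lit 5) (nat_lit 46) (nat_lit 5) (nat_lit 47) (nat_lit 5) (nat_lit 368) (nat_lit 357) (nat_lit 175)))) (XT.nd (nat_lit 156) (nat_lit 456) (nat_lit 0) (XT.nd (nat_lit 78) (nat_lit 228) (nat_lit 0) (XT.lf (nat_lit 0) (nat_lit 305135941144) (nat_lit 304) (nat_lit 43313263834) (nat_lit 76) (nat_lit 193535621266) (nat_lit 43) (nat_lit 5) (nat_lit 47) (nat_lit 5) (nat_lit 44) (nat_lit 5) (nat_lit 369) (nat_lit 357) (nat_lit 174)) (XT.lf (nat_lit 0) (nat_lit 256757384722)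 (nat_lit 228) (nat_lit 137974429217) (nat_lit 304) (nat_lit 172517673230) (nat_lit 40) (nat_lit 5) (nat_lit 43) (nat_lit 5) (nat_lit 44) (nat_lit 5) (nat_lit 370) (nat_lit 357) (nat_lit 173))) (XT.nd (nat_lit 78) (nat_lit 456) (nat_lit 0) (XT.lf (nat_lit 0) (nat_lit 494858940541) (nat_lit 304) (nat_lit 13323013480) (nat_lit 76) (nat_lit 86084280265) (nat_lit 40) (nat_lit 5) (nat_lit 44) (nat_lit 5) (nat_lit 41) (nat_lit 5) (nat_lit 371) (nat_lit 357) (nat_lit 172)) (XT.nd (nat_lit 78) (nat_lit 304) (nat_lit 0) (XT.lf (nat_lit 0) (nat_lit 320045807870) (nat_lit 152) (nat_lit 294231265743) (nat_lit 228) (nat_lit 8264780687) (nat_lit 38) (nat_lit 5) (nat_lit 40) (nat_lit 5) (nat_lit 41) (nat_lit 5) (nat_lit 372) (nat_lit 357) (nat_lit 171)) (XT.lf (nat_lit 0) (nat_lit 26962137018) (nat_lit 228) (nat_lit 59718523692) (nat_lit 304) (nat_lit 566143605447) (nat_lit 34) (nat_lit 5) (nat_lit 37)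 (nat_lit 5) (nat_lit 38) (nat_lit 5) (nat_lit 373) (nat_lit 357) (nat_lit 170)))))) (XT.nd (nat_lit 312) (nat_lit 380) (nat_lit 0) (XT.nd (nat_lit 156) (nat_lit 152) (nat_lit 0) (XT.nd (nat_lit 78) (nat_lit 152) (nat_lit 0) (XT.lf (nat_lit 0) (nat_lit 201915812966) (nat_lit 304) (nat_lit 289971950767) (nat_lit 76) (nat_lit 192573086617) (nat_lit 34) (nat_lit 5) (nat_lit 38) (nat_lit 5) (nat_lit 35) (nat_lit 5) (nat_lit 374) (nat_lit 357) (nat_lit 169)) (XT.lf (nat_lit 0) (nat_lit 74989563209) (nat_lit 152) (nat_lit 254734824059) (nat_lit 228) (nat_lit 388635605248) (nat_lit 32) (nat_lit 5) (nat_lit 34) (nat_lit 5) (nat_lit 35) (nat_lit 5) (nat_lit 375) (nat_lit 357) (nat_lit 168))) (XT.nd (nat_lit 78) (nat_lit 152) (nat_lit 0) (XT.lf (nat_lit 0) (nat_lit 475925342847) (nat_lit 228) (nat_lit 268937237819) (nat_lit 76) (nat_lit 9455069784) (nat_lit 32) (nat_lit 5) (nat_lit 35) (nat_lit 5)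 (nat_lit 33) (nat_lit 5) (nat_lit 376) (nat_lit 357) (nat_lit 167)) (XT.lf (nat_lit 0) (nat_lit 135618266725) (nat_lit 152) (nat_lit 508082200460) (nat_lit 228) (nat_lit 148661206473) (nat_lit 30) (nat_lit 5) (nat_lit 32) (nat_lit 5) (nat_lit 33) (nat_lit 5) (nat_lit 377) (nat_lit 357) (nat_lit 166)))) (XT.nd (nat_lit 156) (nat_lit 152) (nat_lit 0) (XT.nd (nat_lit 78) (nat_lit 228) (nat_lit 0) (XT.lf (nat_lit 0) (nat_lit 587832883080) (nat_lit 152) (nat_lit 244417920630) (nat_lit 228) (nat_lit 610158854) (nat_lit 30) (nat_lit 5) (nat_lit 32) (nat_lit 5) (nat_lit 33) (nat_lit 5) (nat_lit 378) (nat_lit 357) (nat_lit 165)) (XT.lf (nat_lit 0) (nat_lit 157472091959) (nat_lit 228) (nat_lit 670991816273) (nat_lit 76) (nat_lit 47337405869) (nat_lit 27) (nat_lit 5) (nat_lit 30) (nat_lit 5) (nat_lit 28) (nat_lit 5) (nat_lit 379) (nat_lit 357) (nat_lit 164))) (XT.nd (nat_lit 78) (nat_lit 152) (nat_lit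 0) (XT.lf (nat_lit 0) (nat_lit 341389973714) (nat_lit 228) (nat_lit 223610293971) (nat_lit 76) (nat_lit 356117597004) (nat_lit 27) (nat_lit 5) (nat_lit 30) (nat_lit 5) (nat_lit 28) (nat_lit 5) (nat_lit 380) (nat_lit 357) (nat_lit 163)) (XT.nd (nat_lit 78) (nat_lit 0) (nat_lit 0) (XT.lf (nat_lit 0) (nat_lit 273229785629) (nat_lit 152) (nat_lit 273362667488) (nat_lit 228) (nat_lit 422941592854) (nat_lit 25) (nat_lit 5) (nat_lit 27) (nat_lit 5) (nat_lit 28) (nat_lit 5) (nat_lit 381) (nat_lit 357) (nat_lit 162)) (XT.lf (nat_lit 0) (nat_lit 775484443657) (nat_lit 228) (nat_lit 199959874317) (nat_lit 76) (nat_lit 45797338773) (nat_lit 25) (nat_lit 5) (nat_lit 28) (nat_lit 5) (nat_lit 26) (nat_lit 4) (nat_lit 382) (nat_lit 357) (nat_lit 161))))))))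
noncomputable def xc232 : XT := (XT.nd (nat_lit 1326) (nat_lit 152) (nat_lit 0) (XT.nd (nat_lit 624) (nat_lit 456) (nat_lit 0) (XT.nd (nat_lit 312) (nat_lit 228) (nat_lit 0) (XT.nd (nat_lit 156) (nat_lit 152) (nat_lit 0) (XT.nd (nat_lit 78) (nat_lit 76) (nat_lit 0) (XT.lf (nat_lit 0) (nat_lit 346315830541) (nat_lit 76) (nat_lit 691801181681) (nat_lit 152) (nat_lit 37734526674) (nat_lit 24) (nat_lit 5) (nat_lit 25) (nat_lit 5) (nat_lit 26) (nat_lit 4) (nat_lit 383) (nat_lit 357) (nat_lit 160)) (XT.lf (nat_lit 0) (nat_lit 183188230102) (nat_lit 152) (nat_lit 191365044699) (nat_lit 76) (nat_lit 759468543207) (nat_lit 23) (nat_lit 5) (nat_lit 25) (nat_lit 5) (nat_lit 24) (nat_lit 5) (nat_lit 384) (nat_lit 357) (nat_lit 159))) (XT.nd (nat_lit 78) (nat_lit 0) (nat_lit 0) (XT.lf (nat_lit 0) (nat_lit 409356818575) (nat_lit 152) (nat_lit 20234372510) (nat_lit 228) (nat_lit 766388516711) (nat_lit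 21) (nat_lit 5) (nat_lit 23) (nat_lit 5) (nat_lit 24) (nat_lit 5) (nat_lit 385) (nat_lit 357) (nat_lit 158)) (XT.lf (nat_lit 0) (nat_lit 709790989607) (nat_lit 228) (nat_lit 202308493640) (nat_lit 76) (nat_lit 349667977476) (nat_lit 21) (nat_lit 5) (nat_lit 24) (nat_lit 5) (nat_lit 22) (nat_lit 4) (nat_lit 386) (nat_lit 357) (nat_lit 157)))) (XT.nd (nat_lit 156) (nat_lit 152) (nat_lit 0) (XT.nd (nat_lit 78) (nat_lit 0) (nat_lit 0) (XT.lf (nat_lit 0) (nat_lit 450775059086) (nat_lit 76) (nat_lit 572998420148) (nat_lit 152) (nat_lit 308135418082) (nat_lit 20) (nat_lit 5) (nat_lit 21) (nat_lit 5) (nat_lit 22) (nat_lit 4) (nat_lit 387) (nat_lit 357) (nat_lit 156)) (XT.lf (nat_lit 0) (nat_lit 1167610739355) (nat_lit 76) (nat_lit 200795289909) (nat_lit 152) (nat_lit 38813102682) (nat_lit 20) (nat_lit 5) (nat_lit 21) (nat_lit 5) (nat_lit 22) (nat_lit 4) (nat_lit 388) (nat_lit 357) (nat_lit 155)))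 (XT.nd (nat_lit 78) (nat_lit 0) (nat_lit 0) (XT.lf (nat_lit 0) (nat_lit 256057100579) (nat_lit 152) (nat_lit 1021728845188) (nat_lit 76) (nat_lit 208954412128) (nat_lit 18) (nat_lit 5) (nat_lit 20) (nat_lit 5) (nat_lit 19) (nat_lit 4) (nat_lit 389) (nat_lit 357) (nat_lit 154)) (XT.lf (nat_lit 0) (nat_lit 584356937916) (nat_lit 152) (nat_lit 338865202415) (nat_lit 76) (nat_lit 648365536313) (nat_lit 18) (nat_lit 5) (nat_lit 20) (nat_lit 5) (nat_lit 19) (nat_lit 4) (nat_lit 390) (nat_lit 357) (nat_lit 153))))) (XT.nd (nat_lit 312) (nat_lit 228) (nat_lit 0) (XT.nd (nat_lit 156) (nat_lit 152) (nat_lit 0) (XT.nd (nat_lit 78) (nat_lit 0) (nat_lit 0) (XT.lf (nat_lit 0) (nat_lit 419618532410) (nat_lit 76) (nat_lit 529394055657) (nat_lit 152) (nat_lit 713402846767) (nat_lit 17) (nat_lit 5) (nat_lit 18) (nat_lit 5) (nat_lit 19) (nat_lit 4) (nat_lit 391) (nat_lit 357) (nat_lit 152)) (XT.lf (nat_lit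 0) (nat_lit 1258052512971) (nat_lit 76) (nat_lit 94053342767) (nat_lit 152) (nat_lit 407662344706) (nat_lit 17) (nat_lit 5) (nat_lit 18) (nat_lit 5) (nat_lit 19) (nat_lit 4) (nat_lit 392) (nat_lit 357) (nat_lit 151))) (XT.nd (nat_lit 78) (nat_lit 76) (nat_lit 0) (XT.lf (nat_lit 0) (nat_lit 304856604231) (nat_lit 76) (nat_lit 1498967345978) (nat_lit 76) (nat_lit 59775047868) (nat_lit 16) (nat_lit 4) (nat_lit 17) (nat_lit 5) (nat_lit 17) (nat_lit 4) (nat_lit 393) (nat_lit 357) (nat_lit 150)) (XT.lf (nat_lit 0) (nat_lit 316655509954) (nat_lit 152) (nat_lit 780548850259) (nat_lit 76) (nat_lit 876602660938) (nat_lit 15) (nat_lit 5) (nat_lit 17) (nat_lit 5) (nat_lit 16) (nat_lit 4) (nat_lit 394) (nat_lit 357) (nat_lit 149)))) (XT.nd (nat_lit 156) (nat_lit 152) (nat_lit 0) (XT.nd (nat_lit 78) (nat_lit 0) (nat_lit 0) (XT.lf (nat_lit 0) (nat_lit 61420041962) (nat_lit 76) (nat_lit 660028210359)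 (nat_lit 152) (nat_lit 1371141054255) (nat_lit 14) (nat_lit 5) (nat_lit 15) (nat_lit 5) (nat_lit 16) (nat_lit 4) (nat_lit 395) (nat_lit 357) (nat_lit 148)) (XT.lf (nat_lit 0) (nat_lit 1015136935235) (nat_lit 76) (nat_lit 164829059535) (nat_lit 152) (nat_lit 1039200853613) (nat_lit 14) (nat_lit 5) (nat_lit 15) (nat_lit 5) (nat_lit 16) (nat_lit 4) (nat_lit 396) (nat_lit 357) (nat_lit 147))) (XT.nd (nat_lit 78) (nat_lit 152) (nat_lit 0) (XT.lf (nat_lit 0) (nat_lit 1684063321698) (nat_lit 152) (nat_lit 319617600726) (nat_lit 0) (nat_lit 351477817908) (nat_lit 14) (nat_lit 5) (nat_lit 16) (nat_lit 4) (nat_lit 14) (nat_lit 4) (nat_lit 397) (nat_lit 357) (nat_lit 146)) (XT.nd (nat_lit 78) (nat_lit 76) (nat_lit 0) (XT.lf (nat_lit 0) (nat_lit 664507779483) (nat_lit 76) (nat_lit 1584243350538) (nat_lit 76) (nat_lit 251657837999) (nat_lit 13) (nat_lit 4) (nat_lit 14) (nat_lit 5) (nat_lit 14) (nat_lit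 4) (nat_lit 398) (nat_lit 357) (nat_lit 145)) (XT.lf (nat_lit 0) (nat_lit 200229058781) (nat_lit 152) (nat_lit 916109078373) (nat_lit 76) (nat_lit 1539836437188) (nat_lit 12) (nat_lit 5) (nat_lit 14) (nat_lit 5) (nat_lit 13) (nat_lit 4) (nat_lit 399) (nat_lit 357) (nat_lit 144))))))) (XT.nd (nat_lit 43836) (nat_lit 0) (nat_lit 2508) (XT.nd (nat_lit 312) (nat_lit 0) (nat_lit 0) (XT.nd (nat_lit 156) (nat_lit 76) (nat_lit 0) (XT.nd (nat_lit 78) (nat_lit 0) (nat_lit 0) (XT.lf (nat_lit 0) (nat_lit 74454328032) (nat_lit 76) (nat_lit 602007141281) (nat_lit 152) (nat_lit 2147273784734) (nat_lit 11) (nat_lit 5) (nat_lit 12) (nat_lit 5) (nat_lit 13) (nat_lit 4) (nat_lit 400) (nat_lit 357) (nat_lit 143)) (XT.lf (nat_lit 0) (nat_lit 1196362729911) (nat_lit 76) (nat_lit 19477782105) (nat_lit 152) (nat_lit 1786856432969) (nat_lit 11) (nat_lit 5) (nat_lit 12) (nat_lit 5) (nat_lit 13) (nat_lit 4) (nat_lit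 401) (nat_lit 357) (nat_lit 142))) (XT.nd (nat_lit 78) (nat_lit 76) (nat_lit 0) (XT.lf (nat_lit 0) (nat_lit 1813032063702) (nat_lit 152) (nat_lit 802613970356) (nat_lit 0) (nat_lit 579156562298) (nat_lit 11) (nat_lit 5) (nat_lit 13) (nat_lit 4) (nat_lit 11) (nat_lit 4) (nat_lit 402) (nat_lit 357) (nat_lit 141)) (XT.lf (nat_lit 0) (nat_lit 295689555994) (nat_lit 76) (nat_lit 2169926635309) (nat_lit 76) (nat_lit 936051128392) (nat_lit 10) (nat_lit 4) (nat_lit 11) (nat_lit 5) (nat_lit 11) (nat_lit 4) (nat_lit 403) (nat_lit 357) (nat_lit 140)))) (XT.nd (nat_lit 43368) (nat_lit 0) (nat_lit 3344) (XT.nd (nat_lit 43290) (nat_lit 0) (nat_lit 3344) (XT.lf (nat_lit 0) (nat_lit 1527502721728) (nat_lit 76) (nat_lit 1664849210282) (nat_lit 76) (nat_lit 430973698261) (nat_lit 10) (nat_lit 4) (nat_lit 11) (nat_lit 5) (nat_lit 11) (nat_lit 4) (nat_lit 404) (nat_lit 357) (nat_lit 139)) (XT.lf (nat_lit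 0) (nat_lit 136447161591) (nat_lit 532) (nat_lit 20208812929) (nat_lit 532) (nat_lit 20208812929) (nat_lit 54) (nat_lit 3) (nat_lit 61) (nat_lit 3) (nat_lit 61) (nat_lit 5) (nat_lit 358) (nat_lit 358) (nat_lit 184))) (XT.nd (nat_lit 78) (nat_lit 0) (nat_lit 76) (XT.lf (nat_lit 76) (nat_lit 133743816589) (nat_lit 0) (nat_lit 153283305963) (nat_lit 532) (nat_lit 80594272343) (nat_lit 55) (nat_lit 5) (nat_lit 54) (nat_lit 3) (nat_lit 61) (nat_lit 5) (nat_lit 359) (nat_lit 358) (nat_lit 183)) (XT.lf (nat_lit 0) (nat_lit 303894411337) (nat_lit 456) (nat_lit 58898249395) (nat_lit 532) (nat_lit 19703590609) (nat_lit 55) (nat_lit 5) (nat_lit 61) (nat_lit 5) (nat_lit 62) (nat_lit 5) (nat_lit 360) (nat_lit 358) (nat_lit 182))))) (XT.nd (nat_lit 312) (nat_lit 912) (nat_lit 0) (XT.nd (nat_lit 156) (nat_lit 0) (nat_lit 76) (XT.nd (nat_lit 78) (nat_lit 0) (nat_lit 0) (XT.lf (nat_lit 76) (nat_lit 132738109325)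 (nat_lit 0) (nat_lit 196546668179) (nat_lit 532) (nat_lit 68702423338) (nat_lit 56) (nat_lit 5) (nat_lit 55) (nat_lit 5) (nat_lit 62) (nat_lit 5) (nat_lit 361) (nat_lit 358) (nat_lit 181)) (XT.lf (nat_lit 76) (nat_lit 343054943375) (nat_lit 0) (nat_lit 15261769730) (nat_lit 532) (nat_lit 56271886064) (nat_lit 56) (nat_lit 5) (nat_lit 55) (nat_lit 5) (nat_lit 62) (nat_lit 5) (nat_lit 362) (nat_lit 358) (nat_lit 180))) (XT.nd (nat_lit 78) (nat_lit 0) (nat_lit 0) (XT.lf (nat_lit 76) (nat_lit 140358639287) (nat_lit 0) (nat_lit 257029806712) (nat_lit 532) (nat_lit 34512284038) (nat_lit 57) (nat_lit 5) (nat_lit 56) (nat_lit 5) (nat_lit 63) (nat_lit 5) (nat_lit 363) (nat_lit 358) (nat_lit 179)) (XT.lf (nat_lit 76) (nat_lit 372853186945) (nat_lit 0) (nat_lit 69074924649) (nat_lit 532) (nat_lit 8482344320) (nat_lit 57) (nat_lit 5) (nat_lit 56) (nat_lit 5) (nat_lit 63) (nat_lit 5) (nat_lit 364)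 (nat_lit 358) (nat_lit 178)))) (XT.nd (nat_lit 156) (nat_lit 532) (nat_lit 0) (XT.nd (nat_lit 78) (nat_lit 0) (nat_lit 0) (XT.lf (nat_lit 0) (nat_lit 25856891311) (nat_lit 532) (nat_lit 312251957815) (nat_lit 76) (nat_lit 131677632861) (nat_lit 50) (nat_lit 5) (nat_lit 57) (nat_lit 5) (nat_lit 51) (nat_lit 5) (nat_lit 365) (nat_lit 358) (nat_lit 177)) (XT.lf (nat_lit 0) (nat_lit 66454752277) (nat_lit 532) (nat_lit 76768119702) (nat_lit 76) (nat_lit 347154512297) (nat_lit 50) (nat_lit 5) (nat_lit 57) (nat_lit 5) (nat_lit 51) (nat_lit 5) (nat_lit 366) (nat_lit 358) (nat_lit 176))) (XT.nd (nat_lit 78) (nat_lit 228) (nat_lit 0) (XT.lf (nat_lit 0) (nat_lit 116529674049) (nat_lit 380) (nat_lit 327086075561) (nat_lit 76) (nat_lit 68501470632) (nat_lit 46) (nat_lit 5) (nat_lit 51) (nat_lit 5) (nat_lit 47) (nat_lit 5) (nat_lit 367) (nat_lit 358) (nat_lit 175)) (XT.nd (nat_lit 78) (nat_lit 228)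 (nat_lit 0) (XT.lf (nat_lit 0) (nat_lit 176484130533) (nat_lit 380) (nat_lit 67062727908) (nat_lit 76) (nat_lit 291579501409) (nat_lit 46) (nat_lit 5) (nat_lit 51) (nat_lit 5) (nat_lit 47) (nat_lit 5) (nat_lit 368) (nat_lit 358) (nat_lit 174)) (XT.lf (nat_lit 0) (nat_lit 225018811428) (nat_lit 228) (nat_lit 21627813146) (nat_lit 304) (nat_lit 312896671613) (nat_lit 43) (nat_lit 5) (nat_lit 46) (nat_lit 5) (nat_lit 47) (nat_lit 5) (nat_lit 369) (nat_lit 358) (nat_lit 173))))))))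
noncomputable def xc233 : XT := (XT.nd (nat_lit 1326) (nat_lit 760) (nat_lit 0) (XT.nd (nat_lit 624) (nat_lit 836) (nat_lit 0) (XT.nd (nat_lit 312) (nat_lit 456) (nat_lit 0) (XT.nd (nat_lit 156) (nat_lit 152) (nat_lit 0) (XT.nd (nat_lit 78) (nat_lit 228) (nat_lit 0) (XT.lf (nat_lit 0) (nat_lit 329547314394) (nat_lit 304) (nat_lit 46777745316) (nat_lit 76) (nat_lit 209018512057) (nat_lit 43) (nat_lit 5) (nat_lit 47) (nat_lit 5) (nat_lit 44) (nat_lit 5) (nat_lit 370) (nat_lit 358) (nat_lit 172)) (XT.lf (nat_lit 0) (nat_lit 277298540451) (nat_lit 228) (nat_lit 149012293263) (nat_lit 304) (nat_lit 186318573770) (nat_lit 40) (nat_lit 5) (nat_lit 43) (nat_lit 5) (nat_lit 44) (nat_lit 5) (nat_lit 371) (nat_lit 358) (nat_lit 171))) (XT.nd (nat_lit 78) (nat_lit 152) (nat_lit 0) (XT.lf (nat_lit 0) (nat_lit 534448097294) (nat_lit 304) (nat_lit 14388297671) (nat_lit 76) (nat_lit 92971102108) (nat_lit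 40) (nat_lit 5) (nat_lit 44) (nat_lit 5) (nat_lit 41) (nat_lit 5) (nat_lit 372) (nat_lit 358) (nat_lit 170)) (XT.lf (nat_lit 0) (nat_lit 345650015288) (nat_lit 152) (nat_lit 317769646074) (nat_lit 228) (nat_lit 8925506945) (nat_lit 38) (nat_lit 5) (nat_lit 40) (nat_lit 5) (nat_lit 41) (nat_lit 5) (nat_lit 373) (nat_lit 358) (nat_lit 169)))) (XT.nd (nat_lit 156) (nat_lit 152) (nat_lit 0) (XT.nd (nat_lit 78) (nat_lit 0) (nat_lit 0) (XT.lf (nat_lit 0) (nat_lit 29119659800) (nat_lit 228) (nat_lit 64495868312) (nat_lit 304) (nat_lit 611434645670) (nat_lit 34) (nat_lit 5) (nat_lit 37) (nat_lit 5) (nat_lit 38) (nat_lit 5) (nat_lit 374) (nat_lit 358) (nat_lit 168)) (XT.lf (nat_lit 0) (nat_lit 218069464898) (nat_lit 304) (nat_lit 313169167767) (nat_lit 76) (nat_lit 207979054296) (nat_lit 34) (nat_lit 5) (nat_lit 38) (nat_lit 5) (nat_lit 35) (nat_lit 5) (nat_lit 375) (nat_lit 358) (nat_lit 167)))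 (XT.nd (nat_lit 78) (nat_lit 0) (nat_lit 0) (XT.lf (nat_lit 0) (nat_lit 80989253681) (nat_lit 152) (nat_lit 275113455440) (nat_lit 228) (nat_lit 419726052694) (nat_lit 32) (nat_lit 5) (nat_lit 34) (nat_lit 5) (nat_lit 35) (nat_lit 5) (nat_lit 376) (nat_lit 358) (nat_lit 166)) (XT.lf (nat_lit 0) (nat_lit 513999717117) (nat_lit 228) (nat_lit 290451705919) (nat_lit 76) (nat_lit 10211611304) (nat_lit 32) (nat_lit 5) (nat_lit 35) (nat_lit 5) (nat_lit 33) (nat_lit 5) (nat_lit 377) (nat_lit 358) (nat_lit 165))))) (XT.nd (nat_lit 312) (nat_lit 456) (nat_lit 0) (XT.nd (nat_lit 156) (nat_lit 228) (nat_lit 0) (XT.nd (nat_lit 78) (nat_lit 0) (nat_lit 0) (XT.lf (nat_lit 0) (nat_lit 146468226054) (nat_lit 152) (nat_lit 548728611632) (nat_lit 228) (nat_lit 160553742844) (nat_lit 30) (nat_lit 5) (nat_lit 32) (nat_lit 5) (nat_lit 33) (nat_lit 5) (nat_lit 378) (nat_lit 358) (nat_lit 164)) (XT.lf (nat_lit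 0) (nat_lit 634859974830) (nat_lit 152) (nat_lit 263971201627) (nat_lit 228) (nat_lit 658638093) (nat_lit 30) (nat_lit 5) (nat_lit 32) (nat_lit 5) (nat_lit 33) (nat_lit 5) (nat_lit 379) (nat_lit 358) (nat_lit 163))) (XT.nd (nat_lit 78) (nat_lit 0) (nat_lit 0) (XT.lf (nat_lit 0) (nat_lit 170070167728) (nat_lit 228) (nat_lit 724670674803) (nat_lit 76) (nat_lit 51124551730) (nat_lit 27) (nat_lit 5) (nat_lit 30) (nat_lit 5) (nat_lit 28) (nat_lit 5) (nat_lit 380) (nat_lit 358) (nat_lit 162)) (XT.lf (nat_lit 0) (nat_lit 368701457179) (nat_lit 228) (nat_lit 241498666774) (nat_lit 76) (nat_lit 384607146794) (nat_lit 27) (nat_lit 5) (nat_lit 30) (nat_lit 5) (nat_lit 28) (nat_lit 5) (nat_lit 381) (nat_lit 358) (nat_lit 161)))) (XT.nd (nat_lit 156) (nat_lit 304) (nat_lit 0) (XT.nd (nat_lit 78) (nat_lit 0) (nat_lit 0) (XT.lf (nat_lit 0) (nat_lit 295088607783) (nat_lit 152) (nat_lit 295231516562) (nat_lit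 228) (nat_lit 456776623052) (nat_lit 25) (nat_lit 5) (nat_lit 27) (nat_lit 5) (nat_lit 28) (nat_lit 5) (nat_lit 382) (nat_lit 358) (nat_lit 160)) (XT.lf (nat_lit 0) (nat_lit 837523457420) (nat_lit 228) (nat_lit 215956240556) (nat_lit 76) (nat_lit 49461270416) (nat_lit 25) (nat_lit 5) (nat_lit 28) (nat_lit 5) (nat_lit 26) (nat_lit 4) (nat_lit 383) (nat_lit 358) (nat_lit 159))) (XT.nd (nat_lit 78) (nat_lit 228) (nat_lit 0) (XT.lf (nat_lit 0) (nat_lit 374021509963) (nat_lit 76) (nat_lit 747145112307) (nat_lit 152) (nat_lit 40753019594) (nat_lit 24) (nat_lit 5) (nat_lit 25) (nat_lit 5) (nat_lit 26) (nat_lit 4) (nat_lit 384) (nat_lit 358) (nat_lit 158)) (XT.nd (nat_lit 78) (nat_lit 152) (nat_lit 0) (XT.lf (nat_lit 0) (nat_lit 197843525312) (nat_lit 152) (nat_lit 206673853231) (nat_lit 76) (nat_lit 820226165776) (nat_lit 23) (nat_lit 5) (nat_lit 25) (nat_lit 5) (nat_lit 24) (nat_lit 5) (nat_lit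 385) (nat_lit 358) (nat_lit 157)) (XT.lf (nat_lit 0) (nat_lit 442105749103) (nat_lit 152) (nat_lit 21852965789) (nat_lit 228) (nat_lit 827699351073) (nat_lit 21) (nat_lit 5) (nat_lit 23) (nat_lit 5) (nat_lit 24) (nat_lit 5) (nat_lit 386) (nat_lit 358) (nat_lit 156))))))) (XT.nd (nat_lit 624) (nat_lit 380) (nat_lit 0) (XT.nd (nat_lit 312) (nat_lit 152) (nat_lit 0) (XT.nd (nat_lit 156) (nat_lit 152) (nat_lit 0) (XT.nd (nat_lit 78) (nat_lit 76) (nat_lit 0) (XT.lf (nat_lit 0) (nat_lit 766574483855) (nat_lit 228) (nat_lit 218492803010) (nat_lit 76) (nat_lit 377641553351) (nat_lit 21) (nat_lit 5) (nat_lit 24) (nat_lit 5) (nat_lit 22) (nat_lit 4) (nat_lit 387) (nat_lit 358) (nat_lit 155)) (XT.lf (nat_lit 0) (nat_lit 486837424564) (nat_lit 76) (nat_lit 618838140831) (nat_lit 152) (nat_lit 332786026932) (nat_lit 20) (nat_lit 5) (nat_lit 21) (nat_lit 5) (nat_lit 22) (nat_lit 4) (nat_lit 388) (nat_lit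 358) (nat_lit 154))) (XT.nd (nat_lit 78) (nat_lit 152) (nat_lit 0) (XT.lf (nat_lit 0) (nat_lit 1261019932532) (nat_lit 76) (nat_lit 216858771501) (nat_lit 152) (nat_lit 41917942937) (nat_lit 20) (nat_lit 5) (nat_lit 21) (nat_lit 5) (nat_lit 22) (nat_lit 4) (nat_lit 389) (nat_lit 358) (nat_lit 153)) (XT.lf (nat_lit 0) (nat_lit 276541863108) (nat_lit 152) (nat_lit 1103466805055) (nat_lit 76) (nat_lit 225670902688) (nat_lit 18) (nat_lit 5) (nat_lit 20) (nat_lit 5) (nat_lit 19) (nat_lit 4) (nat_lit 390) (nat_lit 358) (nat_lit 152)))) (XT.nd (nat_lit 156) (nat_lit 76) (nat_lit 0) (XT.nd (nat_lit 78) (nat_lit 76) (nat_lit 0) (XT.lf (nat_lit 0) (nat_lit 631105673026) (nat_lit 152) (nat_lit 365974096619) (nat_lit 76) (nat_lit 700234906617) (nat_lit 18) (nat_lit 5) (nat_lit 20) (nat_lit 5) (nat_lit 19) (nat_lit 4) (nat_lit 391) (nat_lit 358) (nat_lit 151)) (XT.lf (nat_lit 0) (nat_lit 453188328841)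 (nat_lit 76) (nat_lit 571745440558) (nat_lit 152) (nat_lit 770474886180) (nat_lit 17) (nat_lit 5) (nat_lit 18) (nat_lit 5) (nat_lit 19) (nat_lit 4) (nat_lit 392) (nat_lit 358) (nat_lit 150))) (XT.nd (nat_lit 78) (nat_lit 76) (nat_lit 0) (XT.lf (nat_lit 0) (nat_lit 1358697004599) (nat_lit 76) (nat_lit 101577480973) (nat_lit 152) (nat_lit 440275157904) (nat_lit 17) (nat_lit 5) (nat_lit 18) (nat_lit 5) (nat_lit 19) (nat_lit 4) (nat_lit 393) (nat_lit 358) (nat_lit 149)) (XT.lf (nat_lit 0) (nat_lit 329245425448) (nat_lit 76) (nat_lit 1618884600120) (nat_lit 76) (nat_lit 64556879521) (nat_lit 16) (nat_lit 4) (nat_lit 17) (nat_lit 5) (nat_lit 17) (nat_lit 4) (nat_lit 394) (nat_lit 358) (nat_lit 148))))) (XT.nd (nat_lit 312) (nat_lit 228) (nat_lit 0) (XT.nd (nat_lit 156) (nat_lit 0) (nat_lit 0) (XT.nd (nat_lit 78) (nat_lit 76) (nat_lit 0) (XT.lf (nat_lit 0) (nat_lit 341988102198) (nat_lit 152)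 (nat_lit 842992479047) (nat_lit 76) (nat_lit 946730989408) (nat_lit 15) (nat_lit 5) (nat_lit 17) (nat_lit 5) (nat_lit 16) (nat_lit 4) (nat_lit 395) (nat_lit 358) (nat_lit 147)) (XT.lf (nat_lit 0) (nat_lit 66333917482) (nat_lit 76) (nat_lit 712830341799) (nat_lit 152) (nat_lit 1480832180010) (nat_lit 14) (nat_lit 5) (nat_lit 15) (nat_lit 5) (nat_lit 16) (nat_lit 4) (nat_lit 396) (nat_lit 358) (nat_lit 146))) (XT.nd (nat_lit 78) (nat_lit 0) (nat_lit 0) (XT.lf (nat_lit 0) (nat_lit 1096348142057) (nat_lit 76) (nat_lit 178015268197) (nat_lit 152) (nat_lit 1122336775064) (nat_lit 14) (nat_lit 5) (nat_lit 15) (nat_lit 5) (nat_lit 16) (nat_lit 4) (nat_lit 397) (nat_lit 358) (nat_lit 145)) (XT.lf (nat_lit 0) (nat_lit 1818788515855) (nat_lit 152) (nat_lit 345186767908) (nat_lit 0) (nat_lit 379596145463) (nat_lit 14) (nat_lit 5) (nat_lit 16) (nat_lit 4) (nat_lit 14) (nat_lit 4) (nat_lit 398) (nat_lit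 358) (nat_lit 144)))) (XT.nd (nat_lit 156) (nat_lit 76) (nat_lit 0) (XT.nd (nat_lit 78) (nat_lit 76) (nat_lit 0) (XT.lf (nat_lit 0) (nat_lit 717668636620) (nat_lit 76) (nat_lit 1710982708358) (nat_lit 76) (nat_lit 271790330466) (nat_lit 13) (nat_lit 4) (nat_lit 14) (nat_lit 5) (nat_lit 14) (nat_lit 4) (nat_lit 399) (nat_lit 358) (nat_lit 143)) (XT.lf (nat_lit 0) (nat_lit 216247501856) (nat_lit 152) (nat_lit 989397580976) (nat_lit 76) (nat_lit 1663023447941) (nat_lit 12) (nat_lit 5) (nat_lit 14) (nat_lit 5) (nat_lit 13) (nat_lit 4) (nat_lit 400) (nat_lit 358) (nat_lit 142))) (XT.nd (nat_lit 78) (nat_lit 0) (nat_lit 0) (XT.lf (nat_lit 0) (nat_lit 80410892279) (nat_lit 76) (nat_lit 650167609425) (nat_lit 152) (nat_lit 2319055563436) (nat_lit 11) (nat_lit 5) (nat_lit 12) (nat_lit 5) (nat_lit 13) (nat_lit 4) (nat_lit 401) (nat_lit 358) (nat_lit 141)) (XT.nd (nat_lit 78) (nat_lit 0) (nat_lit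 0) (XT.lf (nat_lit 0) (nat_lit 1292071950160) (nat_lit 76) (nat_lit 21035909157) (nat_lit 152) (nat_lit 1929804832720) (nat_lit 11) (nat_lit 5) (nat_lit 12) (nat_lit 5) (nat_lit 13) (nat_lit 4) (nat_lit 402) (nat_lit 358) (nat_lit 140)) (XT.lf (nat_lit 0) (nat_lit 1958074729387) (nat_lit 152) (nat_lit 866822895294) (nat_lit 0) (nat_lit 625489171299) (nat_lit 11) (nat_lit 5) (nat_lit 13) (nat_lit 4) (nat_lit 11) (nat_lit 4) (nat_lit 403) (nat_lit 358) (nat_lit 139))))))))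
noncomputable def xc234 : XT := (XT.nd (nat_lit 44616) (nat_lit 0) (nat_lit 608) (XT.nd (nat_lit 43914) (nat_lit 0) (nat_lit 2128) (XT.nd (nat_lit 43602) (nat_lit 0) (nat_lit 3420) (XT.nd (nat_lit 43446) (nat_lit 0) (nat_lit 3344) (XT.nd (nat_lit 43368) (nat_lit 0) (nat_lit 3344) (XT.lf (nat_lit 0) (nat_lit 319344908286) (nat_lit 76) (nat_lit 2343520675977) (nat_lit 76) (nat_lit 1010935113162) (nat_lit 10) (nat_lit 4) (nat_lit 11) (nat_lit 5) (nat_lit 11) (nat_lit 4) (nat_lit 404) (nat_lit 358) (nat_lit 138)) (XT.lf (nat_lit 0) (nat_lit 147363407305) (nat_lit 532) (nat_lit 21825262227) (nat_lit 532) (nat_lit 21825262227) (nat_lit 54) (nat_lit 3) (nat_lit 61) (nat_lit 3) (nat_lit 61) (nat_lit 5) (nat_lit 359) (nat_lit 359) (nat_lit 182))) (XT.nd (nat_lit 78) (nat_lit 0) (nat_lit 76) (XT.lf (nat_lit 76) (nat_lit 144443820441) (nat_lit 0) (nat_lit 165546359435) (nat_lit 532) (nat_lit 87040854009)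 (nat_lit 55) (nat_lit 5) (nat_lit 54) (nat_lit 3) (nat_lit 61) (nat_lit 5) (nat_lit 360) (nat_lit 359) (nat_lit 181)) (XT.lf (nat_lit 0) (nat_lit 328206777360) (nat_lit 456) (nat_lit 63609571864) (nat_lit 532) (nat_lit 21279535694) (nat_lit 55) (nat_lit 5) (nat_lit 61) (nat_lit 5) (nat_lit 62) (nat_lit 5) (nat_lit 361) (nat_lit 359) (nat_lit 180)))) (XT.nd (nat_lit 156) (nat_lit 0) (nat_lit 76) (XT.nd (nat_lit 78) (nat_lit 0) (nat_lit 0) (XT.lf (nat_lit 76) (nat_lit 143357681947) (nat_lit 0) (nat_lit 212270643242) (nat_lit 532) (nat_lit 74197789111) (nat_lit 56) (nat_lit 5) (nat_lit 55) (nat_lit 5) (nat_lit 62) (nat_lit 5) (nat_lit 362) (nat_lit 359) (nat_lit 179)) (XT.lf (nat_lit 76) (nat_lit 370499823915) (nat_lit 0) (nat_lit 16482935021) (nat_lit 532) (nat_lit 60772870195) (nat_lit 56) (nat_lit 5) (nat_lit 55) (nat_lit 5) (nat_lit 62) (nat_lit 5) (nat_lit 363) (nat_lit 359) (nat_lit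 178))) (XT.nd (nat_lit 78) (nat_lit 0) (nat_lit 0) (XT.lf (nat_lit 76) (nat_lit 151587864968) (nat_lit 0) (nat_lit 277592320864) (nat_lit 532) (nat_lit 37272548300) (nat_lit 57) (nat_lit 5) (nat_lit 56) (nat_lit 5) (nat_lit 63) (nat_lit 5) (nat_lit 364) (nat_lit 359) (nat_lit 177)) (XT.lf (nat_lit 76) (nat_lit 402681936843) (nat_lit 0) (nat_lit 74601038635) (nat_lit 532) (nat_lit 9160266624) (nat_lit 57) (nat_lit 5) (nat_lit 56) (nat_lit 5) (nat_lit 63) (nat_lit 5) (nat_lit 365) (nat_lit 359) (nat_lit 176))))) (XT.nd (nat_lit 312) (nat_lit 608) (nat_lit 0) (XT.nd (nat_lit 156) (nat_lit 304) (nat_lit 0) (XT.nd (nat_lit 78) (nat_lit 0) (nat_lit 0) (XT.lf (nat_lit 0) (nat_lit 27926038208) (nat_lit 532) (nat_lit 337231547907) (nat_lit 76) (nat_lit 142211765851) (nat_lit 50) (nat_lit 5) (nat_lit 57) (nat_lit 5) (nat_lit 51) (nat_lit 5) (nat_lit 366) (nat_lit 359) (nat_lit 175)) (XT.lf (nat_lit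 0) (nat_lit 71771683933) (nat_lit 532) (nat_lit 82909044710) (nat_lit 76) (nat_lit 374926801394) (nat_lit 50) (nat_lit 5) (nat_lit 57) (nat_lit 5) (nat_lit 51) (nat_lit 5) (nat_lit 367) (nat_lit 359) (nat_lit 174))) (XT.nd (nat_lit 78) (nat_lit 0) (nat_lit 0) (XT.lf (nat_lit 0) (nat_lit 125852570613) (nat_lit 380) (nat_lit 353252407404) (nat_lit 76) (nat_lit 73981577232) (nat_lit 46) (nat_lit 5) (nat_lit 51) (nat_lit 5) (nat_lit 47) (nat_lit 5) (nat_lit 368) (nat_lit 359) (nat_lit 173)) (XT.lf (nat_lit 0) (nat_lit 190603344902) (nat_lit 380) (nat_lit 72427232992) (nat_lit 76) (nat_lit 314905851290) (nat_lit 46) (nat_lit 5) (nat_lit 51) (nat_lit 5) (nat_lit 47) (nat_lit 5) (nat_lit 369) (nat_lit 359) (nat_lit 172)))) (XT.nd (nat_lit 156) (nat_lit 380) (nat_lit 0) (XT.nd (nat_lit 78) (nat_lit 0) (nat_lit 0) (XT.lf (nat_lit 0) (nat_lit 243020816500) (nat_lit 228) (nat_lit 23357998148) (nat_lit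 304) (nat_lit 337927907739) (nat_lit 43) (nat_lit 5) (nat_lit 46) (nat_lit 5) (nat_lit 47) (nat_lit 5) (nat_lit 370) (nat_lit 359) (nat_lit 171)) (XT.lf (nat_lit 0) (nat_lit 355911526464) (nat_lit 304) (nat_lit 50519468007) (nat_lit 76) (nat_lit 225740028249) (nat_lit 43) (nat_lit 5) (nat_lit 47) (nat_lit 5) (nat_lit 44) (nat_lit 5) (nat_lit 371) (nat_lit 359) (nat_lit 170))) (XT.nd (nat_lit 78) (nat_lit 152) (nat_lit 0) (XT.lf (nat_lit 0) (nat_lit 299482908041) (nat_lit 228) (nat_lit 160933199313) (nat_lit 304) (nat_lit 201223619584) (nat_lit 40) (nat_lit 5) (nat_lit 43) (nat_lit 5) (nat_lit 44) (nat_lit 5) (nat_lit 372) (nat_lit 359) (nat_lit 169)) (XT.nd (nat_lit 78) (nat_lit 152) (nat_lit 0) (XT.lf (nat_lit 0) (nat_lit 577204323601) (nat_lit 304) (nat_lit 15538884044) (nat_lit 76) (nat_lit 100408858367) (nat_lit 40) (nat_lit 5) (nat_lit 44) (nat_lit 5) (nat_lit 41) (nat_lit 5) (nat_lit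 373) (nat_lit 359) (nat_lit 168)) (XT.lf (nat_lit 0) (nat_lit 373302481865) (nat_lit 152) (nat_lit 343191114083) (nat_lit 228) (nat_lit 9639156386) (nat_lit 38) (nat_lit 5) (nat_lit 40) (nat_lit 5) (nat_lit 41) (nat_lit 5) (nat_lit 374) (nat_lit 359) (nat_lit 167))))))) (XT.nd (nat_lit 624) (nat_lit 684) (nat_lit 0) (XT.nd (nat_lit 312) (nat_lit 380) (nat_lit 0) (XT.nd (nat_lit 156) (nat_lit 152) (nat_lit 0) (XT.nd (nat_lit 78) (nat_lit 0) (nat_lit 0) (XT.lf (nat_lit 0) (nat_lit 31449705682) (nat_lit 228) (nat_lit 69655420085) (nat_lit 304) (nat_lit 660349033054) (nat_lit 34) (nat_lit 5) (nat_lit 37) (nat_lit 5) (nat_lit 38) (nat_lit 5) (nat_lit 375) (nat_lit 359) (nat_lit 166)) (XT.lf (nat_lit 0) (nat_lit 235515353790) (nat_lit 304) (nat_lit 338222239029) (nat_lit 76) (nat_lit 224617482162) (nat_lit 34) (nat_lit 5) (nat_lit 38) (nat_lit 5) (nat_lit 35) (nat_lit 5) (nat_lit 376) (nat_lit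 359) (nat_lit 165))) (XT.nd (nat_lit 78) (nat_lit 0) (nat_lit 0) (XT.lf (nat_lit 0) (nat_lit 87468844434) (nat_lit 152) (nat_lit 297122399380) (nat_lit 228) (nat_lit 453303793138) (nat_lit 32) (nat_lit 5) (nat_lit 34) (nat_lit 5) (nat_lit 35) (nat_lit 5) (nat_lit 377) (nat_lit 359) (nat_lit 164)) (XT.lf (nat_lit 0) (nat_lit 555119991847) (nat_lit 228) (nat_lit 313687404355) (nat_lit 76) (nat_lit 11028656752) (nat_lit 32) (nat_lit 5) (nat_lit 35) (nat_lit 5) (nat_lit 33) (nat_lit 5) (nat_lit 378) (nat_lit 359) (nat_lit 163)))) (XT.nd (nat_lit 156) (nat_lit 228) (nat_lit 0) (XT.nd (nat_lit 78) (nat_lit 0) (nat_lit 0) (XT.lf (nat_lit 0) (nat_lit 158186111086) (nat_lit 152) (nat_lit 592626759218) (nat_lit 228) (nat_lit 173397733503) (nat_lit 30) (nat_lit 5) (nat_lit 32) (nat_lit 5) (nat_lit 33) (nat_lit 5) (nat_lit 379) (nat_lit 359) (nat_lit 162)) (XT.lf (nat_lit 0) (nat_lit 685649168138)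 (nat_lit 152) (nat_lit 285088766882) (nat_lit 228) (nat_lit 711043244) (nat_lit 30) (nat_lit 5) (nat_lit 32) (nat_lit 5) (nat_lit 33) (nat_lit 5) (nat_lit 380) (nat_lit 359) (nat_lit 161))) (XT.nd (nat_lit 78) (nat_lit 0) (nat_lit 0) (XT.lf (nat_lit 0) (nat_lit 183676045561) (nat_lit 228) (nat_lit 782643911459) (nat_lit 76) (nat_lit 55214647377) (nat_lit 27) (nat_lit 5) (nat_lit 30) (nat_lit 5) (nat_lit 28) (nat_lit 5) (nat_lit 381) (nat_lit 359) (nat_lit 160)) (XT.lf (nat_lit 0) (nat_lit 398197818581) (nat_lit 228) (nat_lit 260818173700) (nat_lit 76) (nat_lit 415375840305) (nat_lit 27) (nat_lit 5) (nat_lit 30) (nat_lit 5) (nat_lit 28) (nat_lit 5) (nat_lit 382) (nat_lit 359) (nat_lit 159))))) (XT.nd (nat_lit 312) (nat_lit 380) (nat_lit 0) (XT.nd (nat_lit 156) (nat_lit 152) (nat_lit 0) (XT.nd (nat_lit 78) (nat_lit 0) (nat_lit 0) (XT.lf (nat_lit 0) (nat_lit 318696073039) (nat_lit 152) (nat_lit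 318849897006) (nat_lit 228) (nat_lit 493318498070) (nat_lit 25) (nat_lit 5) (nat_lit 27) (nat_lit 5) (nat_lit 28) (nat_lit 5) (nat_lit 383) (nat_lit 359) (nat_lit 158)) (XT.lf (nat_lit 0) (nat_lit 904525555438) (nat_lit 228) (nat_lit 233232376541) (nat_lit 76) (nat_lit 53418295970) (nat_lit 25) (nat_lit 5) (nat_lit 28) (nat_lit 5) (nat_lit 26) (nat_lit 4) (nat_lit 384) (nat_lit 359) (nat_lit 157))) (XT.nd (nat_lit 78) (nat_lit 76) (nat_lit 0) (XT.lf (nat_lit 0) (nat_lit 403943584824) (nat_lit 76) (nat_lit 806916580767) (nat_lit 152) (nat_lit 44013030355) (nat_lit 24) (nat_lit 5) (nat_lit 25) (nat_lit 5) (nat_lit 26) (nat_lit 4) (nat_lit 385) (nat_lit 359) (nat_lit 156)) (XT.lf (nat_lit 0) (nat_lit 213671210356) (nat_lit 152) (nat_lit 223207422804) (nat_lit 76) (nat_lit 885844378304) (nat_lit 23) (nat_lit 5) (nat_lit 25) (nat_lit 5) (nat_lit 24) (nat_lit 5) (nat_lit 386) (nat_lit 359) (nat_lit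 155)))) (XT.nd (nat_lit 156) (nat_lit 228) (nat_lit 0) (XT.nd (nat_lit 78) (nat_lit 0) (nat_lit 0) (XT.lf (nat_lit 0) (nat_lit 477474539143) (nat_lit 152) (nat_lit 23601068861) (nat_lit 228) (nat_lit 893915087418) (nat_lit 21) (nat_lit 5) (nat_lit 23) (nat_lit 5) (nat_lit 24) (nat_lit 5) (nat_lit 387) (nat_lit 359) (nat_lit 154)) (XT.lf (nat_lit 0) (nat_lit 827900626959) (nat_lit 228) (nat_lit 235971909931) (nat_lit 76) (nat_lit 407852995655) (nat_lit 21) (nat_lit 5) (nat_lit 24) (nat_lit 5) (nat_lit 22) (nat_lit 4) (nat_lit 388) (nat_lit 359) (nat_lit 153))) (XT.nd (nat_lit 78) (nat_lit 152) (nat_lit 0) (XT.lf (nat_lit 0) (nat_lit 525784727816) (nat_lit 76) (nat_lit 668345060987) (nat_lit 152) (nat_lit 359408716532) (nat_lit 20) (nat_lit 5) (nat_lit 21) (nat_lit 5) (nat_lit 22) (nat_lit 4) (nat_lit 389) (nat_lit 359) (nat_lit 152)) (XT.nd (nat_lit 78) (nat_lit 152) (nat_lit 0) (XT.lf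 (nat_lit 0) (nat_lit 1361901813511) (nat_lit 76) (nat_lit 234207351822) (nat_lit 152) (nat_lit 45271200080) (nat_lit 20) (nat_lit 5) (nat_lit 21) (nat_lit 5) (nat_lit 22) (nat_lit 4) (nat_lit 390) (nat_lit 359) (nat_lit 151)) (XT.lf (nat_lit 0) (nat_lit 298665378895) (nat_lit 152) (nat_lit 1191743851321) (nat_lit 76) (nat_lit 243724692865) (nat_lit 18) (nat_lit 5) (nat_lit 20) (nat_lit 5) (nat_lit 19) (nat_lit 4) (nat_lit 391) (nat_lit 359) (nat_lit 150))))))))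
noncomputable def xc235 : XT := (XT.nd (nat_lit 44694) (nat_lit 0) (nat_lit 1444) (XT.nd (nat_lit 624) (nat_lit 228) (nat_lit 0) (XT.nd (nat_lit 312) (nat_lit 152) (nat_lit 0) (XT.nd (nat_lit 156) (nat_lit 76) (nat_lit 0) (XT.nd (nat_lit 78) (nat_lit 76) (nat_lit 0) (XT.lf (nat_lit 0) (nat_lit 681594281255) (nat_lit 152) (nat_lit 395251748295) (nat_lit 76) (nat_lit 756253808370) (nat_lit 18) (nat_lit 5) (nat_lit 20) (nat_lit 5) (nat_lit 19) (nat_lit 4) (nat_lit 392) (nat_lit 359) (nat_lit 149)) (XT.lf (nat_lit 0) (nat_lit 489443664213) (nat_lit 76) (nat_lit 617484956159) (nat_lit 152) (nat_lit 832112715613) (nat_lit 17) (nat_lit 5) (nat_lit 18) (nat_lit 5) (nat_lit 19) (nat_lit 4) (nat_lit 393) (nat_lit 359) (nat_lit 148))) (XT.nd (nat_lit 78) (nat_lit 76) (nat_lit 0) (XT.lf (nat_lit 0) (nat_lit 1467393014102) (nat_lit 76) (nat_lit 109703568670) (nat_lit 152) (nat_lit 475497021035) (nat_lit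 17) (nat_lit 5) (nat_lit 18) (nat_lit 5) (nat_lit 19) (nat_lit 4) (nat_lit 394) (nat_lit 359) (nat_lit 147)) (XT.lf (nat_lit 0) (nat_lit 355585310580) (nat_lit 76) (nat_lit 1748395253645) (nat_lit 76) (nat_lit 69721282269) (nat_lit 16) (nat_lit 4) (nat_lit 17) (nat_lit 5) (nat_lit 17) (nat_lit 4) (nat_lit 395) (nat_lit 359) (nat_lit 146)))) (XT.nd (nat_lit 156) (nat_lit 0) (nat_lit 0) (XT.nd (nat_lit 78) (nat_lit 76) (nat_lit 0) (XT.lf (nat_lit 0) (nat_lit 369347280215) (nat_lit 152) (nat_lit 910431637974) (nat_lit 76) (nat_lit 1022469567666) (nat_lit 15) (nat_lit 5) (nat_lit 17) (nat_lit 5) (nat_lit 16) (nat_lit 4) (nat_lit 396) (nat_lit 359) (nat_lit 145)) (XT.lf (nat_lit 0) (nat_lit 71640864217) (nat_lit 76) (nat_lit 769856661643) (nat_lit 152) (nat_lit 1599298618450) (nat_lit 14) (nat_lit 5) (nat_lit 15) (nat_lit 5) (nat_lit 16) (nat_lit 4) (nat_lit 397) (nat_lit 359) (nat_lit 144)))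 (XT.nd (nat_lit 78) (nat_lit 0) (nat_lit 0) (XT.lf (nat_lit 0) (nat_lit 1184056209473) (nat_lit 76) (nat_lit 192256390116) (nat_lit 152) (nat_lit 1212123591180) (nat_lit 14) (nat_lit 5) (nat_lit 15) (nat_lit 5) (nat_lit 16) (nat_lit 4) (nat_lit 398) (nat_lit 359) (nat_lit 143)) (XT.lf (nat_lit 0) (nat_lit 1964291707223) (nat_lit 152) (nat_lit 372801502829) (nat_lit 0) (nat_lit 409963924654) (nat_lit 14) (nat_lit 5) (nat_lit 16) (nat_lit 4) (nat_lit 14) (nat_lit 4) (nat_lit 399) (nat_lit 359) (nat_lit 142))))) (XT.nd (nat_lit 312) (nat_lit 0) (nat_lit 0) (XT.nd (nat_lit 156) (nat_lit 76) (nat_lit 0) (XT.nd (nat_lit 78) (nat_lit 76) (nat_lit 0) (XT.lf (nat_lit 0) (nat_lit 775082328834) (nat_lit 76) (nat_lit 1847861230528) (nat_lit 76) (nat_lit 293533441528) (nat_lit 13) (nat_lit 4) (nat_lit 14) (nat_lit 5) (nat_lit 14) (nat_lit 4) (nat_lit 400) (nat_lit 359) (nat_lit 141)) (XT.lf (nat_lit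 0) (nat_lit 233547403489) (nat_lit 152) (nat_lit 1068549195696) (nat_lit 76) (nat_lit 1796065405892) (nat_lit 12) (nat_lit 5) (nat_lit 14) (nat_lit 5) (nat_lit 13) (nat_lit 4) (nat_lit 401) (nat_lit 359) (nat_lit 140))) (XT.nd (nat_lit 78) (nat_lit 0) (nat_lit 0) (XT.lf (nat_lit 0) (nat_lit 86843950565) (nat_lit 76) (nat_lit 702180929738) (nat_lit 152) (nat_lit 2504579902135) (nat_lit 11) (nat_lit 5) (nat_lit 12) (nat_lit 5) (nat_lit 13) (nat_lit 4) (nat_lit 402) (nat_lit 359) (nat_lit 139)) (XT.lf (nat_lit 0) (nat_lit 1395437879232) (nat_lit 76) (nat_lit 22718700000) (nat_lit 152) (nat_lit 2084189120841) (nat_lit 11) (nat_lit 5) (nat_lit 12) (nat_lit 5) (nat_lit 13) (nat_lit 4) (nat_lit 403) (nat_lit 359) (nat_lit 138)))) (XT.nd (nat_lit 43524) (nat_lit 0) (nat_lit 3268) (XT.nd (nat_lit 43446) (nat_lit 0) (nat_lit 3268) (XT.lf (nat_lit 0) (nat_lit 2114720793977) (nat_lit 152) (nat_lit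 936168561717) (nat_lit 0) (nat_lit 675528377034) (nat_lit 11) (nat_lit 5) (nat_lit 13) (nat_lit 4) (nat_lit 11) (nat_lit 4) (nat_lit 404) (nat_lit 359) (nat_lit 137)) (XT.lf (nat_lit 0) (nat_lit 159152885227) (nat_lit 532) (nat_lit 23571063952) (nat_lit 532) (nat_lit 23571063952) (nat_lit 54) (nat_lit 3) (nat_lit 61) (nat_lit 3) (nat_lit 61) (nat_lit 5) (nat_lit 360) (nat_lit 360) (nat_lit 180))) (XT.nd (nat_lit 78) (nat_lit 0) (nat_lit 76) (XT.lf (nat_lit 76) (nat_lit 155999753480) (nat_lit 0) (nat_lit 178790401692) (nat_lit 532) (nat_lit 94003299180) (nat_lit 55) (nat_lit 5) (nat_lit 54) (nat_lit 3) (nat_lit 61) (nat_lit 5) (nat_lit 361) (nat_lit 360) (nat_lit 179)) (XT.nd (nat_lit 78) (nat_lit 0) (nat_lit 0) (XT.lf (nat_lit 0) (nat_lit 354464016664) (nat_lit 456) (nat_lit 68697876809) (nat_lit 532) (nat_lit 22981605200) (nat_lit 55) (nat_lit 5) (nat_lit 61) (nat_lit 5) (nat_lit 62)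 (nat_lit 5) (nat_lit 362) (nat_lit 360) (nat_lit 178)) (XT.lf (nat_lit 76) (nat_lit 154826745641) (nat_lit 0) (nat_lit 229252501843) (nat_lit 532) (nat_lit 80132902283) (nat_lit 56) (nat_lit 5) (nat_lit 55) (nat_lit 5) (nat_lit 62) (nat_lit 5) (nat_lit 363) (nat_lit 360) (nat_lit 177))))))) (XT.nd (nat_lit 702) (nat_lit 988) (nat_lit 0) (XT.nd (nat_lit 312) (nat_lit 532) (nat_lit 0) (XT.nd (nat_lit 156) (nat_lit 380) (nat_lit 0) (XT.nd (nat_lit 78) (nat_lit 0) (nat_lit 76) (XT.lf (nat_lit 76) (nat_lit 400140225697) (nat_lit 0) (nat_lit 17801761620) (nat_lit 532) (nat_lit 65634042443) (nat_lit 56) (nat_lit 5) (nat_lit 55) (nat_lit 5) (nat_lit 62) (nat_lit 5) (nat_lit 364) (nat_lit 360) (nat_lit 176)) (XT.lf (nat_lit 76) (nat_lit 163715352446) (nat_lit 0) (nat_lit 299799817658) (nat_lit 532) (nat_lit 40253736199) (nat_lit 57) (nat_lit 5) (nat_lit 56) (nat_lit 5) (nat_lit 63) (nat_lit 5)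 (nat_lit 365) (nat_lit 360) (nat_lit 175))) (XT.nd (nat_lit 78) (nat_lit 456) (nat_lit 0) (XT.lf (nat_lit 76) (nat_lit 434896916124) (nat_lit 0) (nat_lit 80569224619) (nat_lit 532) (nat_lit 9892517616) (nat_lit 57) (nat_lit 5) (nat_lit 56) (nat_lit 5) (nat_lit 63) (nat_lit 5) (nat_lit 366) (nat_lit 360) (nat_lit 174)) (XT.lf (nat_lit 0) (nat_lit 30160631888) (nat_lit 532) (nat_lit 364209586028) (nat_lit 76) (nat_lit 153588640557) (nat_lit 50) (nat_lit 5) (nat_lit 57) (nat_lit 5) (nat_lit 51) (nat_lit 5) (nat_lit 367) (nat_lit 360) (nat_lit 173)))) (XT.nd (nat_lit 156) (nat_lit 228) (nat_lit 0) (XT.nd (nat_lit 78) (nat_lit 304) (nat_lit 0) (XT.lf (nat_lit 0) (nat_lit 77513891447) (nat_lit 532) (nat_lit 89541318554) (nat_lit 76) (nat_lit 404920883873) (nat_lit 50) (nat_lit 5) (nat_lit 57) (nat_lit 5) (nat_lit 51) (nat_lit 5) (nat_lit 368) (nat_lit 360) (nat_lit 172)) (XT.lf (nat_lit 0) (nat_lit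 135921224342) (nat_lit 380) (nat_lit 381512124858) (nat_lit 76) (nat_lit 79900093937) (nat_lit 46) (nat_lit 5) (nat_lit 51) (nat_lit 5) (nat_lit 47) (nat_lit 5) (nat_lit 369) (nat_lit 360) (nat_lit 171))) (XT.nd (nat_lit 78) (nat_lit 228) (nat_lit 0) (XT.lf (nat_lit 0) (nat_lit 205852027383) (nat_lit 380) (nat_lit 78220971688) (nat_lit 76) (nat_lit 340098310621) (nat_lit 46) (nat_lit 5) (nat_lit 51) (nat_lit 5) (nat_lit 47) (nat_lit 5) (nat_lit 370) (nat_lit 360) (nat_lit 170)) (XT.nd (nat_lit 78) (nat_lit 0) (nat_lit 0) (XT.lf (nat_lit 0) (nat_lit 262462910625) (nat_lit 228) (nat_lit 25226603664) (nat_lit 304) (nat_lit 364961713743) (nat_lit 43) (nat_lit 5) (nat_lit 46) (nat_lit 5) (nat_lit 47) (nat_lit 5) (nat_lit 371) (nat_lit 360) (nat_lit 169)) (XT.lf (nat_lit 0) (nat_lit 384384814595) (nat_lit 304) (nat_lit 54560599406) (nat_lit 76) (nat_lit 243799260711) (nat_lit 43) (nat_lit 5)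 (nat_lit 47) (nat_lit 5) (nat_lit 44) (nat_lit 5) (nat_lit 372) (nat_lit 360) (nat_lit 168)))))) (XT.nd (nat_lit 312) (nat_lit 304) (nat_lit 0) (XT.nd (nat_lit 156) (nat_lit 456) (nat_lit 0) (XT.nd (nat_lit 78) (nat_lit 0) (nat_lit 0) (XT.lf (nat_lit 0) (nat_lit 323441955940) (nat_lit 228) (nat_lit 173807788891) (nat_lit 304) (nat_lit 217321131847) (nat_lit 40) (nat_lit 5) (nat_lit 43) (nat_lit 5) (nat_lit 44) (nat_lit 5) (nat_lit 373) (nat_lit 360) (nat_lit 167)) (XT.lf (nat_lit 0) (nat_lit 623380994012) (nat_lit 304) (nat_lit 16781585439) (nat_lit 76) (nat_lit 108441625413) (nat_lit 40) (nat_lit 5) (nat_lit 44) (nat_lit 5) (nat_lit 41) (nat_lit 5) (nat_lit 374) (nat_lit 360) (nat_lit 166))) (XT.nd (nat_lit 78) (nat_lit 304) (nat_lit 0) (XT.lf (nat_lit 0) (nat_lit 403167079380) (nat_lit 152) (nat_lit 370646314323) (nat_lit 228) (nat_lit 10409953579) (nat_lit 38) (nat_lit 5) (nat_lit 40)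 (nat_lit 5) (nat_lit 41) (nat_lit 5) (nat_lit 375) (nat_lit 360) (nat_lit 165)) (XT.lf (nat_lit 0) (nat_lit 33966087741) (nat_lit 228) (nat_lit 75227752790) (nat_lit 304) (nat_lit 713176626248) (nat_lit 34) (nat_lit 5) (nat_lit 37) (nat_lit 5) (nat_lit 38) (nat_lit 5) (nat_lit 376) (nat_lit 360) (nat_lit 164)))) (XT.nd (nat_lit 156) (nat_lit 152) (nat_lit 0) (XT.nd (nat_lit 78) (nat_lit 152) (nat_lit 0) (XT.lf (nat_lit 0) (nat_lit 254356866472) (nat_lit 304) (nat_lit 365279621924) (nat_lit 76) (nat_lit 242586969489) (nat_lit 34) (nat_lit 5) (nat_lit 38) (nat_lit 5) (nat_lit 35) (nat_lit 5) (nat_lit 377) (nat_lit 360) (nat_lit 163)) (XT.lf (nat_lit 0) (nat_lit 94466738184) (nat_lit 152) (nat_lit 320892077737) (nat_lit 228) (nat_lit 489567801861) (nat_lit 32) (nat_lit 5) (nat_lit 34) (nat_lit 5) (nat_lit 35) (nat_lit 5) (nat_lit 378) (nat_lit 360) (nat_lit 162))) (XT.nd (nat_lit 78) (nat_lit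 152) (nat_lit 0) (XT.lf (nat_lit 0) (nat_lit 599529846134) (nat_lit 228) (nat_lit 338782021158) (nat_lit 76) (nat_lit 11911049210) (nat_lit 32) (nat_lit 5) (nat_lit 35) (nat_lit 5) (nat_lit 33) (nat_lit 5) (nat_lit 379) (nat_lit 360) (nat_lit 161)) (XT.nd (nat_lit 78) (nat_lit 0) (nat_lit 0) (XT.lf (nat_lit 0) (nat_lit 170841366012) (nat_lit 152) (nat_lit 640036778775) (nat_lit 228) (nat_lit 187269287465) (nat_lit 30) (nat_lit 5) (nat_lit 32) (nat_lit 5) (nat_lit 33) (nat_lit 5) (nat_lit 380) (nat_lit 360) (nat_lit 160)) (XT.lf (nat_lit 0) (nat_lit 740501440514) (nat_lit 152) (nat_lit 307895756029) (nat_lit 228) (nat_lit 767681593) (nat_lit 30) (nat_lit 5) (nat_lit 32) (nat_lit 5) (nat_lit 33) (nat_lit 5) (nat_lit 381) (nat_lit 360) (nat_lit 159))))))))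
noncomputable def xc236 : XT := (XT.nd (nat_lit 1326) (nat_lit 228) (nat_lit 0) (XT.nd (nat_lit 624) (nat_lit 532) (nat_lit 0) (XT.nd (nat_lit 312) (nat_lit 304) (nat_lit 0) (XT.nd (nat_lit 156) (nat_lit 152) (nat_lit 0) (XT.nd (nat_lit 78) (nat_lit 0) (nat_lit 0) (XT.lf (nat_lit 0) (nat_lit 198370355898) (nat_lit 228) (nat_lit 845255066584) (nat_lit 76) (nat_lit 59631931915) (nat_lit 27) (nat_lit 5) (nat_lit 30) (nat_lit 5) (nat_lit 28) (nat_lit 5) (nat_lit 382) (nat_lit 360) (nat_lit 158)) (XT.lf (nat_lit 0) (nat_lit 430053853968) (nat_lit 228) (nat_lit 281683296308) (nat_lit 76) (nat_lit 448606011925) (nat_lit 27) (nat_lit 5) (nat_lit 30) (nat_lit 5) (nat_lit 28) (nat_lit 5) (nat_lit 383) (nat_lit 360) (nat_lit 157))) (XT.nd (nat_lit 78) (nat_lit 0) (nat_lit 0) (XT.lf (nat_lit 0) (nat_lit 344192081783) (nat_lit 152) (nat_lit 344357767983) (nat_lit 228) (nat_lit 532783759442) (nat_lit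 25) (nat_lit 5) (nat_lit 27) (nat_lit 5) (nat_lit 28) (nat_lit 5) (nat_lit 384) (nat_lit 360) (nat_lit 156)) (XT.lf (nat_lit 0) (nat_lit 976887789710) (nat_lit 228) (nat_lit 251890655227) (nat_lit 76) (nat_lit 57691865890) (nat_lit 25) (nat_lit 5) (nat_lit 28) (nat_lit 5) (nat_lit 26) (nat_lit 4) (nat_lit 385) (nat_lit 360) (nat_lit 155)))) (XT.nd (nat_lit 156) (nat_lit 152) (nat_lit 0) (XT.nd (nat_lit 78) (nat_lit 76) (nat_lit 0) (XT.lf (nat_lit 0) (nat_lit 436259375162) (nat_lit 76) (nat_lit 871469786751) (nat_lit 152) (nat_lit 47533874904) (nat_lit 24) (nat_lit 5) (nat_lit 25) (nat_lit 5) (nat_lit 26) (nat_lit 4) (nat_lit 386) (nat_lit 360) (nat_lit 154)) (XT.lf (nat_lit 0) (nat_lit 230765081241) (nat_lit 152) (nat_lit 241063726260) (nat_lit 76) (nat_lit 956712030820) (nat_lit 23) (nat_lit 5) (nat_lit 25) (nat_lit 5) (nat_lit 24) (nat_lit 5) (nat_lit 387) (nat_lit 360) (nat_lit 153)))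 (XT.nd (nat_lit 78) (nat_lit 0) (nat_lit 0) (XT.lf (nat_lit 0) (nat_lit 515672785292) (nat_lit 152) (nat_lit 25489039322) (nat_lit 228) (nat_lit 965428112878) (nat_lit 21) (nat_lit 5) (nat_lit 23) (nat_lit 5) (nat_lit 24) (nat_lit 5) (nat_lit 388) (nat_lit 360) (nat_lit 152)) (XT.lf (nat_lit 0) (nat_lit 894132835205) (nat_lit 228) (nat_lit 254849390675) (nat_lit 76) (nat_lit 440481336505) (nat_lit 21) (nat_lit 5) (nat_lit 24) (nat_lit 5) (nat_lit 22) (nat_lit 4) (nat_lit 389) (nat_lit 360) (nat_lit 151))))) (XT.nd (nat_lit 312) (nat_lit 304) (nat_lit 0) (XT.nd (nat_lit 156) (nat_lit 152) (nat_lit 0) (XT.nd (nat_lit 78) (nat_lit 0) (nat_lit 0) (XT.lf (nat_lit 0) (nat_lit 567847771204) (nat_lit 76) (nat_lit 721812553459) (nat_lit 152) (nat_lit 388161248769) (nat_lit 20) (nat_lit 5) (nat_lit 21) (nat_lit 5) (nat_lit 22) (nat_lit 4) (nat_lit 390) (nat_lit 360) (nat_lit 150)) (XT.lf (nat_lit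 0) (nat_lit 1470854204113) (nat_lit 76) (nat_lit 252943835888) (nat_lit 152) (nat_lit 48892743230) (nat_lit 20) (nat_lit 5) (nat_lit 21) (nat_lit 5) (nat_lit 22) (nat_lit 4) (nat_lit 391) (nat_lit 360) (nat_lit 149))) (XT.nd (nat_lit 78) (nat_lit 0) (nat_lit 0) (XT.lf (nat_lit 0) (nat_lit 322558752157) (nat_lit 152) (nat_lit 1287083103821) (nat_lit 76) (nat_lit 263222769427) (nat_lit 18) (nat_lit 5) (nat_lit 20) (nat_lit 5) (nat_lit 19) (nat_lit 4) (nat_lit 392) (nat_lit 360) (nat_lit 148)) (XT.lf (nat_lit 0) (nat_lit 736121956118) (nat_lit 152) (nat_lit 426871651486) (nat_lit 76) (nat_lit 816754206681) (nat_lit 18) (nat_lit 5) (nat_lit 20) (nat_lit 5) (nat_lit 19) (nat_lit 4) (nat_lit 393) (nat_lit 360) (nat_lit 147)))) (XT.nd (nat_lit 156) (nat_lit 228) (nat_lit 0) (XT.nd (nat_lit 78) (nat_lit 0) (nat_lit 0) (XT.lf (nat_lit 0) (nat_lit 528599388031) (nat_lit 76) (nat_lit 666883650076)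 (nat_lit 152) (nat_lit 898681594435) (nat_lit 17) (nat_lit 5) (nat_lit 18) (nat_lit 5) (nat_lit 19) (nat_lit 4) (nat_lit 394) (nat_lit 360) (nat_lit 146)) (XT.lf (nat_lit 0) (nat_lit 1584784668823) (nat_lit 76) (nat_lit 118479759186) (nat_lit 152) (nat_lit 513536654545) (nat_lit 17) (nat_lit 5) (nat_lit 18) (nat_lit 5) (nat_lit 19) (nat_lit 4) (nat_lit 395) (nat_lit 360) (nat_lit 145))) (XT.nd (nat_lit 78) (nat_lit 152) (nat_lit 0) (XT.lf (nat_lit 0) (nat_lit 384032350701) (nat_lit 76) (nat_lit 1888266775784) (nat_lit 76) (nat_lit 75298858296) (nat_lit 16) (nat_lit 4) (nat_lit 17) (nat_lit 5) (nat_lit 17) (nat_lit 4) (nat_lit 396) (nat_lit 360) (nat_lit 144)) (XT.nd (nat_lit 78) (nat_lit 76) (nat_lit 0) (XT.lf (nat_lit 0) (nat_lit 398895173951) (nat_lit 152) (nat_lit 983265963768) (nat_lit 76) (nat_lit 1104267218045) (nat_lit 15) (nat_lit 5) (nat_lit 17) (nat_lit 5) (nat_lit 16) (nat_lit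 4) (nat_lit 397) (nat_lit 360) (nat_lit 143)) (XT.lf (nat_lit 0) (nat_lit 77372333402) (nat_lit 76) (nat_lit 831445102410) (nat_lit 152) (nat_lit 1727242391362) (nat_lit 14) (nat_lit 5) (nat_lit 15) (nat_lit 5) (nat_lit 16) (nat_lit 4) (nat_lit 398) (nat_lit 360) (nat_lit 142))))))) (XT.nd (nat_lit 44148) (nat_lit 0) (nat_lit 2432) (XT.nd (nat_lit 312) (nat_lit 76) (nat_lit 0) (XT.nd (nat_lit 156) (nat_lit 152) (nat_lit 0) (XT.nd (nat_lit 78) (nat_lit 0) (nat_lit 0) (XT.lf (nat_lit 0) (nat_lit 1278780891461) (nat_lit 76) (nat_lit 207636815988) (nat_lit 152) (nat_lit 1309093370544) (nat_lit 14) (nat_lit 5) (nat_lit 15) (nat_lit 5) (nat_lit 16) (nat_lit 4) (nat_lit 399) (nat_lit 360) (nat_lit 141)) (XT.lf (nat_lit 0) (nat_lit 2121435138195) (nat_lit 152) (nat_lit 402625446004) (nat_lit 0) (nat_lit 442761113690) (nat_lit 14) (nat_lit 5) (nat_lit 16) (nat_lit 4) (nat_lit 14) (nat_lit 4) (nat_lit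 400) (nat_lit 360) (nat_lit 140))) (XT.nd (nat_lit 78) (nat_lit 76) (nat_lit 0) (XT.lf (nat_lit 0) (nat_lit 837089087709) (nat_lit 76) (nat_lit 1995690047953) (nat_lit 76) (nat_lit 317016017935) (nat_lit 13) (nat_lit 4) (nat_lit 14) (nat_lit 5) (nat_lit 14) (nat_lit 4) (nat_lit 401) (nat_lit 360) (nat_lit 139)) (XT.lf (nat_lit 0) (nat_lit 252231282775) (nat_lit 152) (nat_lit 1154032966950) (nat_lit 76) (nat_lit 1939750708763) (nat_lit 12) (nat_lit 5) (nat_lit 14) (nat_lit 5) (nat_lit 13) (nat_lit 4) (nat_lit 402) (nat_lit 360) (nat_lit 138)))) (XT.nd (nat_lit 43680) (nat_lit 0) (nat_lit 3268) (XT.nd (nat_lit 43602) (nat_lit 0) (nat_lit 3268) (XT.lf (nat_lit 0) (nat_lit 93791626849) (nat_lit 76) (nat_lit 758355328293) (nat_lit 152) (nat_lit 2704946203106) (nat_lit 11) (nat_lit 5) (nat_lit 12) (nat_lit 5) (nat_lit 13) (nat_lit 4) (nat_lit 403) (nat_lit 360) (nat_lit 137)) (XT.lf (nat_lit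 0) (nat_lit 171885463558) (nat_lit 532) (nat_lit 25456561094) (nat_lit 532) (nat_lit 25456561094) (nat_lit 54) (nat_lit 3) (nat_lit 61) (nat_lit 3) (nat_lit 61) (nat_lit 5) (nat_lit 361) (nat_lit 361) (nat_lit 178))) (XT.nd (nat_lit 78) (nat_lit 0) (nat_lit 76) (XT.lf (nat_lit 76) (nat_lit 168480100189) (nat_lit 0) (nat_lit 193093919751) (nat_lit 532) (nat_lit 101522857397) (nat_lit 55) (nat_lit 5) (nat_lit 54) (nat_lit 3) (nat_lit 61) (nat_lit 5) (nat_lit 362) (nat_lit 361) (nat_lit 177)) (XT.lf (nat_lit 0) (nat_lit 382821735662) (nat_lit 456) (nat_lit 74193311888) (nat_lit 532) (nat_lit 24819882115) (nat_lit 55) (nat_lit 5) (nat_lit 61) (nat_lit 5) (nat_lit 62) (nat_lit 5) (nat_lit 363) (nat_lit 361) (nat_lit 176))))) (XT.nd (nat_lit 312) (nat_lit 912) (nat_lit 0) (XT.nd (nat_lit 156) (nat_lit 0) (nat_lit 76) (XT.nd (nat_lit 78) (nat_lit 0) (nat_lit 0) (XT.lf (nat_lit 76) (nat_lit 167213270356)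 (nat_lit 0) (nat_lit 247592879580) (nat_lit 532) (nat_lit 86542925792) (nat_lit 56) (nat_lit 5) (nat_lit 55) (nat_lit 5) (nat_lit 62) (nat_lit 5) (nat_lit 364) (nat_lit 361) (nat_lit 175)) (XT.lf (nat_lit 76) (nat_lit 432151800294) (nat_lit 0) (nat_lit 19226066985) (nat_lit 532) (nat_lit 70884202251) (nat_lit 56) (nat_lit 5) (nat_lit 55) (nat_lit 5) (nat_lit 62) (nat_lit 5) (nat_lit 365) (nat_lit 361) (nat_lit 174))) (XT.nd (nat_lit 78) (nat_lit 0) (nat_lit 0) (XT.lf (nat_lit 76) (nat_lit 176812973543) (nat_lit 0) (nat_lit 323783898342) (nat_lit 532) (nat_lit 43473507005) (nat_lit 57) (nat_lit 5) (nat_lit 56) (nat_lit 5) (nat_lit 63) (nat_lit 5) (nat_lit 366) (nat_lit 361) (nat_lit 173)) (XT.lf (nat_lit 76) (nat_lit 469689033211) (nat_lit 0) (nat_lit 87014850802) (nat_lit 532) (nat_lit 10683430053) (nat_lit 57) (nat_lit 5) (nat_lit 56) (nat_lit 5) (nat_lit 63) (nat_lit 5) (nat_lit 367)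 (nat_lit 361) (nat_lit 172)))) (XT.nd (nat_lit 156) (nat_lit 532) (nat_lit 0) (XT.nd (nat_lit 78) (nat_lit 0) (nat_lit 0) (XT.lf (nat_lit 0) (nat_lit 32573920217) (nat_lit 532) (nat_lit 393345936491) (nat_lit 76) (nat_lit 165875674734) (nat_lit 50) (nat_lit 5) (nat_lit 57) (nat_lit 5) (nat_lit 51) (nat_lit 5) (nat_lit 368) (nat_lit 361) (nat_lit 171)) (XT.lf (nat_lit 0) (nat_lit 83715408113) (nat_lit 532) (nat_lit 96704238465) (nat_lit 76) (nat_lit 437314501743) (nat_lit 50) (nat_lit 5) (nat_lit 57) (nat_lit 5) (nat_lit 51) (nat_lit 5) (nat_lit 369) (nat_lit 361) (nat_lit 170))) (XT.nd (nat_lit 78) (nat_lit 228) (nat_lit 0) (XT.lf (nat_lit 0) (nat_lit 146795306446) (nat_lit 380) (nat_lit 412032687492) (nat_lit 76) (nat_lit 86292093329) (nat_lit 46) (nat_lit 5) (nat_lit 51) (nat_lit 5) (nat_lit 47) (nat_lit 5) (nat_lit 370) (nat_lit 361) (nat_lit 169)) (XT.nd (nat_lit 78) (nat_lit 228)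 (nat_lit 0) (XT.lf (nat_lit 0) (nat_lit 222320545274) (nat_lit 380) (nat_lit 84478272243) (nat_lit 76) (nat_lit 367306167950) (nat_lit 46) (nat_lit 5) (nat_lit 51) (nat_lit 5) (nat_lit 47) (nat_lit 5) (nat_lit 371) (nat_lit 361) (nat_lit 168)) (XT.lf (nat_lit 0) (nat_lit 283460311107) (nat_lit 228) (nat_lit 27244702520) (nat_lit 304) (nat_lit 394158285089) (nat_lit 43) (nat_lit 5) (nat_lit 46) (nat_lit 5) (nat_lit 47) (nat_lit 5) (nat_lit 372) (nat_lit 361) (nat_lit 167))))))))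
noncomputable def xc237 : XT := (XT.nd (nat_lit 1326) (nat_lit 684) (nat_lit 0) (XT.nd (nat_lit 624) (nat_lit 836) (nat_lit 0) (XT.nd (nat_lit 312) (nat_lit 456) (nat_lit 0) (XT.nd (nat_lit 156) (nat_lit 152) (nat_lit 0) (XT.nd (nat_lit 78) (nat_lit 228) (nat_lit 0) (XT.lf (nat_lit 0) (nat_lit 415135913561) (nat_lit 304) (nat_lit 58925082096) (nat_lit 76) (nat_lit 263303227461) (nat_lit 43) (nat_lit 5) (nat_lit 47) (nat_lit 5) (nat_lit 44) (nat_lit 5) (nat_lit 373) (nat_lit 361) (nat_lit 166)) (XT.lf (nat_lit 0) (nat_lit 349317668430) (nat_lit 228) (nat_lit 187712355103) (nat_lit 304) (nat_lit 234706498918) (nat_lit 40) (nat_lit 5) (nat_lit 43) (nat_lit 5) (nat_lit 44) (nat_lit 5) (nat_lit 374) (nat_lit 361) (nat_lit 165))) (XT.nd (nat_lit 78) (nat_lit 152) (nat_lit 0) (XT.lf (nat_lit 0) (nat_lit 673251751760) (nat_lit 304) (nat_lit 18123761341) (nat_lit 76) (nat_lit 117117005495) (nat_lit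 40) (nat_lit 5) (nat_lit 44) (nat_lit 5) (nat_lit 41) (nat_lit 5) (nat_lit 375) (nat_lit 361) (nat_lit 164)) (XT.lf (nat_lit 0) (nat_lit 435420787780) (nat_lit 152) (nat_lit 400297943263) (nat_lit 228) (nat_lit 11242462384) (nat_lit 38) (nat_lit 5) (nat_lit 40) (nat_lit 5) (nat_lit 41) (nat_lit 5) (nat_lit 376) (nat_lit 361) (nat_lit 163)))) (XT.nd (nat_lit 156) (nat_lit 152) (nat_lit 0) (XT.nd (nat_lit 78) (nat_lit 0) (nat_lit 0) (XT.lf (nat_lit 0) (nat_lit 36683722501) (nat_lit 228) (nat_lit 81245886506) (nat_lit 304) (nat_lit 770230473898) (nat_lit 34) (nat_lit 5) (nat_lit 37) (nat_lit 5) (nat_lit 38) (nat_lit 5) (nat_lit 377) (nat_lit 361) (nat_lit 162)) (XT.lf (nat_lit 0) (nat_lit 274705659599) (nat_lit 304) (nat_lit 394501651978) (nat_lit 76) (nat_lit 261994003141) (nat_lit 34) (nat_lit 5) (nat_lit 38) (nat_lit 5) (nat_lit 35) (nat_lit 5) (nat_lit 378) (nat_lit 361) (nat_lit 161)))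 (XT.nd (nat_lit 78) (nat_lit 0) (nat_lit 0) (XT.lf (nat_lit 0) (nat_lit 102024408340) (nat_lit 152) (nat_lit 346563346568) (nat_lit 228) (nat_lit 528732973328) (nat_lit 32) (nat_lit 5) (nat_lit 34) (nat_lit 5) (nat_lit 35) (nat_lit 5) (nat_lit 379) (nat_lit 361) (nat_lit 160)) (XT.lf (nat_lit 0) (nat_lit 647492452394) (nat_lit 228) (nat_lit 365884260880) (nat_lit 76) (nat_lit 12864018811) (nat_lit 32) (nat_lit 5) (nat_lit 35) (nat_lit 5) (nat_lit 33) (nat_lit 5) (nat_lit 380) (nat_lit 361) (nat_lit 159))))) (XT.nd (nat_lit 312) (nat_lit 456) (nat_lit 0) (XT.nd (nat_lit 156) (nat_lit 228) (nat_lit 0) (XT.nd (nat_lit 78) (nat_lit 0) (nat_lit 0) (XT.lf (nat_lit 0) (nat_lit 184508989112) (nat_lit 152) (nat_lit 691239617184) (nat_lit 228) (nat_lit 202250603508) (nat_lit 30) (nat_lit 5) (nat_lit 32) (nat_lit 5) (nat_lit 33) (nat_lit 5) (nat_lit 381) (nat_lit 361) (nat_lit 158)) (XT.lf (nat_lit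 0) (nat_lit 799741846328) (nat_lit 152) (nat_lit 332527320314) (nat_lit 228) (nat_lit 828885979) (nat_lit 30) (nat_lit 5) (nat_lit 32) (nat_lit 5) (nat_lit 33) (nat_lit 5) (nat_lit 382) (nat_lit 361) (nat_lit 157))) (XT.nd (nat_lit 78) (nat_lit 0) (nat_lit 0) (XT.lf (nat_lit 0) (nat_lit 214240178723) (nat_lit 228) (nat_lit 912875165162) (nat_lit 76) (nat_lit 64402583131) (nat_lit 27) (nat_lit 5) (nat_lit 30) (nat_lit 5) (nat_lit 28) (nat_lit 5) (nat_lit 383) (nat_lit 361) (nat_lit 156)) (XT.lf (nat_lit 0) (nat_lit 464458342242) (nat_lit 228) (nat_lit 304217675986) (nat_lit 76) (nat_lit 484494582381) (nat_lit 27) (nat_lit 5) (nat_lit 30) (nat_lit 5) (nat_lit 28) (nat_lit 5) (nat_lit 384) (nat_lit 361) (nat_lit 155)))) (XT.nd (nat_lit 156) (nat_lit 304) (nat_lit 0) (XT.nd (nat_lit 78) (nat_lit 0) (nat_lit 0) (XT.lf (nat_lit 0) (nat_lit 371727725162) (nat_lit 152) (nat_lit 371906285869) (nat_lit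 228) (nat_lit 575406272892) (nat_lit 25) (nat_lit 5) (nat_lit 27) (nat_lit 5) (nat_lit 28) (nat_lit 5) (nat_lit 385) (nat_lit 361) (nat_lit 154)) (XT.lf (nat_lit 0) (nat_lit 1055038975640) (nat_lit 228) (nat_lit 272041640639) (nat_lit 76) (nat_lit 62307306246) (nat_lit 25) (nat_lit 5) (nat_lit 28) (nat_lit 5) (nat_lit 26) (nat_lit 4) (nat_lit 386) (nat_lit 361) (nat_lit 153))) (XT.nd (nat_lit 78) (nat_lit 228) (nat_lit 0) (XT.lf (nat_lit 0) (nat_lit 471160385422) (nat_lit 76) (nat_lit 941187266401) (nat_lit 152) (nat_lit 51336415247) (nat_lit 24) (nat_lit 5) (nat_lit 25) (nat_lit 5) (nat_lit 26) (nat_lit 4) (nat_lit 387) (nat_lit 361) (nat_lit 152)) (XT.nd (nat_lit 78) (nat_lit 152) (nat_lit 0) (XT.lf (nat_lit 0) (nat_lit 249226436965) (nat_lit 152) (nat_lit 260348575416) (nat_lit 76) (nat_lit 1033249080950) (nat_lit 23) (nat_lit 5) (nat_lit 25) (nat_lit 5) (nat_lit 24) (nat_lit 5) (nat_lit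 388) (nat_lit 361) (nat_lit 151)) (XT.lf (nat_lit 0) (nat_lit 556926850757) (nat_lit 152) (nat_lit 27528063833) (nat_lit 228) (nat_lit 1042662206273) (nat_lit 21) (nat_lit 5) (nat_lit 23) (nat_lit 5) (nat_lit 24) (nat_lit 5) (nat_lit 389) (nat_lit 361) (nat_lit 150))))))) (XT.nd (nat_lit 702) (nat_lit 228) (nat_lit 0) (XT.nd (nat_lit 312) (nat_lit 228) (nat_lit 0) (XT.nd (nat_lit 156) (nat_lit 152) (nat_lit 0) (XT.nd (nat_lit 78) (nat_lit 76) (nat_lit 0) (XT.lf (nat_lit 0) (nat_lit 965663597558) (nat_lit 228) (nat_lit 275237108690) (nat_lit 76) (nat_lit 475719930185) (nat_lit 21) (nat_lit 5) (nat_lit 24) (nat_lit 5) (nat_lit 22) (nat_lit 4) (nat_lit 390) (nat_lit 361) (nat_lit 149)) (XT.lf (nat_lit 0) (nat_lit 613275820235) (nat_lit 76) (nat_lit 779557461366) (nat_lit 152) (nat_lit 419214007137) (nat_lit 20) (nat_lit 5) (nat_lit 21) (nat_lit 5) (nat_lit 22) (nat_lit 4) (nat_lit 391) (nat_lit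 361) (nat_lit 148))) (XT.nd (nat_lit 78) (nat_lit 152) (nat_lit 0) (XT.lf (nat_lit 0) (nat_lit 1588522750937) (nat_lit 76) (nat_lit 273179253527) (nat_lit 152) (nat_lit 52804031638) (nat_lit 20) (nat_lit 5) (nat_lit 21) (nat_lit 5) (nat_lit 22) (nat_lit 4) (nat_lit 392) (nat_lit 361) (nat_lit 147)) (XT.lf (nat_lit 0) (nat_lit 348363574887) (nat_lit 152) (nat_lit 1390049532986) (nat_lit 76) (nat_lit 284280677686) (nat_lit 18) (nat_lit 5) (nat_lit 20) (nat_lit 5) (nat_lit 19) (nat_lit 4) (nat_lit 393) (nat_lit 361) (nat_lit 146)))) (XT.nd (nat_lit 156) (nat_lit 152) (nat_lit 0) (XT.nd (nat_lit 78) (nat_lit 76) (nat_lit 0) (XT.lf (nat_lit 0) (nat_lit 795011826086) (nat_lit 152) (nat_lit 461021180697) (nat_lit 76) (nat_lit 882094623498) (nat_lit 18) (nat_lit 5) (nat_lit 20) (nat_lit 5) (nat_lit 19) (nat_lit 4) (nat_lit 394) (nat_lit 361) (nat_lit 145)) (XT.lf (nat_lit 0) (nat_lit 570887536844)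 (nat_lit 76) (nat_lit 720234254141) (nat_lit 152) (nat_lit 970576003310) (nat_lit 17) (nat_lit 5) (nat_lit 18) (nat_lit 5) (nat_lit 19) (nat_lit 4) (nat_lit 395) (nat_lit 361) (nat_lit 144))) (XT.nd (nat_lit 78) (nat_lit 152) (nat_lit 0) (XT.lf (nat_lit 0) (nat_lit 1711567625450) (nat_lit 76) (nat_lit 127958058494) (nat_lit 152) (nat_lit 554619477021) (nat_lit 17) (nat_lit 5) (nat_lit 18) (nat_lit 5) (nat_lit 19) (nat_lit 4) (nat_lit 396) (nat_lit 361) (nat_lit 143)) (XT.nd (nat_lit 78) (nat_lit 76) (nat_lit 0) (XT.lf (nat_lit 0) (nat_lit 414755123320) (nat_lit 76) (nat_lit 2039328033696) (nat_lit 76) (nat_lit 81322658460) (nat_lit 16) (nat_lit 4) (nat_lit 17) (nat_lit 5) (nat_lit 17) (nat_lit 4) (nat_lit 397) (nat_lit 361) (nat_lit 142)) (XT.lf (nat_lit 0) (nat_lit 430806883305) (nat_lit 152) (nat_lit 1061927064906) (nat_lit 76) (nat_lit 1192608668333) (nat_lit 15) (nat_lit 5) (nat_lit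 17) (nat_lit 5) (nat_lit 16) (nat_lit 4) (nat_lit 398) (nat_lit 361) (nat_lit 141)))))) (XT.nd (nat_lit 312) (nat_lit 76) (nat_lit 0) (XT.nd (nat_lit 156) (nat_lit 76) (nat_lit 0) (XT.nd (nat_lit 78) (nat_lit 0) (nat_lit 0) (XT.lf (nat_lit 0) (nat_lit 83562291583) (nat_lit 76) (nat_lit 897960631587) (nat_lit 152) (nat_lit 1865421682735) (nat_lit 14) (nat_lit 5) (nat_lit 15) (nat_lit 5) (nat_lit 16) (nat_lit 4) (nat_lit 399) (nat_lit 361) (nat_lit 140)) (XT.lf (nat_lit 0) (nat_lit 1381083521582) (nat_lit 76) (nat_lit 224247688104) (nat_lit 152) (nat_lit 1413820747655) (nat_lit 14) (nat_lit 5) (nat_lit 15) (nat_lit 5) (nat_lit 16) (nat_lit 4) (nat_lit 400) (nat_lit 361) (nat_lit 139))) (XT.nd (nat_lit 78) (nat_lit 76) (nat_lit 0) (XT.lf (nat_lit 0) (nat_lit 2291150030177) (nat_lit 152) (nat_lit 434835329891) (nat_lit 0) (nat_lit 478182067140) (nat_lit 14) (nat_lit 5) (nat_lit 16) (nat_lit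 4) (nat_lit 14) (nat_lit 4) (nat_lit 401) (nat_lit 361) (nat_lit 138)) (XT.lf (nat_lit 0) (nat_lit 904056362676) (nat_lit 76) (nat_lit 2155345182330) (nat_lit 76) (nat_lit 342377214566) (nat_lit 13) (nat_lit 4) (nat_lit 14) (nat_lit 5) (nat_lit 14) (nat_lit 4) (nat_lit 402) (nat_lit 361) (nat_lit 137)))) (XT.nd (nat_lit 43758) (nat_lit 0) (nat_lit 3192) (XT.nd (nat_lit 43680) (nat_lit 0) (nat_lit 3192) (XT.lf (nat_lit 0) (nat_lit 272409859991) (nat_lit 152) (nat_lit 1246355463358) (nat_lit 76) (nat_lit 2094930825821) (nat_lit 12) (nat_lit 5) (nat_lit 14) (nat_lit 5) (nat_lit 13) (nat_lit 4) (nat_lit 403) (nat_lit 361) (nat_lit 136)) (XT.lf (nat_lit 0) (nat_lit 185636598578) (nat_lit 532) (nat_lit 27492924824) (nat_lit 532) (nat_lit 27492924824) (nat_lit 54) (nat_lit 3) (nat_lit 61) (nat_lit 3) (nat_lit 61) (nat_lit 5) (nat_lit 362) (nat_lit 362) (nat_lit 176))) (XT.nd (nat_lit 78) (nat_lit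 0) (nat_lit 76) (XT.lf (nat_lit 76) (nat_lit 181958822360) (nat_lit 0) (nat_lit 208541678464) (nat_lit 532) (nat_lit 109644080949) (nat_lit 55) (nat_lit 5) (nat_lit 54) (nat_lit 3) (nat_lit 61) (nat_lit 5) (nat_lit 363) (nat_lit 362) (nat_lit 175)) (XT.nd (nat_lit 78) (nat_lit 0) (nat_lit 0) (XT.lf (nat_lit 0) (nat_lit 413447986916) (nat_lit 456) (nat_lit 80128438134) (nat_lit 532) (nat_lit 26805257064) (nat_lit 55) (nat_lit 5) (nat_lit 61) (nat_lit 5) (nat_lit 62) (nat_lit 5) (nat_lit 364) (nat_lit 362) (nat_lit 174)) (XT.lf (nat_lit 76) (nat_lit 180590662115) (nat_lit 0) (nat_lit 267400462201) (nat_lit 532) (nat_lit 93465838015) (nat_lit 56) (nat_lit 5) (nat_lit 55) (nat_lit 5) (nat_lit 62) (nat_lit 5) (nat_lit 365) (nat_lit 362) (nat_lit 173))))))))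
noncomputable def xc238 : XT := (XT.nd (nat_lit 1326) (nat_lit 1140) (nat_lit 0) (XT.nd (nat_lit 624) (nat_lit 988) (nat_lit 0) (XT.nd (nat_lit 312) (nat_lit 532) (nat_lit 0) (XT.nd (nat_lit 156) (nat_lit 380) (nat_lit 0) (XT.nd (nat_lit 78) (nat_lit 0) (nat_lit 76) (XT.lf (nat_lit 76) (nat_lit 466724249993) (nat_lit 0) (nat_lit 20764293320) (nat_lit 532) (nat_lit 76554455246) (nat_lit 56) (nat_lit 5) (nat_lit 55) (nat_lit 5) (nat_lit 62) (nat_lit 5) (nat_lit 366) (nat_lit 362) (nat_lit 172)) (XT.lf (nat_lit 76) (nat_lit 190958348276) (nat_lit 0) (nat_lit 349686691889) (nat_lit 532) (nat_lit 46950934813) (nat_lit 57) (nat_lit 5) (nat_lit 56) (nat_lit 5) (nat_lit 63) (nat_lit 5) (nat_lit 367) (nat_lit 362) (nat_lit 171))) (XT.nd (nat_lit 78) (nat_lit 456) (nat_lit 0) (XT.lf (nat_lit 76) (nat_lit 507264467766) (nat_lit 0) (nat_lit 93976114496) (nat_lit 532) (nat_lit 11537685242) (nat_lit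 57) (nat_lit 5) (nat_lit 56) (nat_lit 5) (nat_lit 63) (nat_lit 5) (nat_lit 368) (nat_lit 362) (nat_lit 170)) (XT.lf (nat_lit 0) (nat_lit 35180209158) (nat_lit 532) (nat_lit 424813254398) (nat_lit 76) (nat_lit 179145679788) (nat_lit 50) (nat_lit 5) (nat_lit 57) (nat_lit 5) (nat_lit 51) (nat_lit 5) (nat_lit 369) (nat_lit 362) (nat_lit 169)))) (XT.nd (nat_lit 156) (nat_lit 228) (nat_lit 0) (XT.nd (nat_lit 78) (nat_lit 304) (nat_lit 0) (XT.lf (nat_lit 0) (nat_lit 90412988284) (nat_lit 532) (nat_lit 104440246976) (nat_lit 76) (nat_lit 472299616581) (nat_lit 50) (nat_lit 5) (nat_lit 57) (nat_lit 5) (nat_lit 51) (nat_lit 5) (nat_lit 370) (nat_lit 362) (nat_lit 168)) (XT.lf (nat_lit 0) (nat_lit 158539260314) (nat_lit 380) (nat_lit 444994953251) (nat_lit 76) (nat_lit 93195453832) (nat_lit 46) (nat_lit 5) (nat_lit 51) (nat_lit 5) (nat_lit 47) (nat_lit 5) (nat_lit 371) (nat_lit 362) (nat_lit 167)))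 (XT.nd (nat_lit 78) (nat_lit 228) (nat_lit 0) (XT.lf (nat_lit 0) (nat_lit 240106493852) (nat_lit 380) (nat_lit 91236210652) (nat_lit 76) (nat_lit 396690654938) (nat_lit 46) (nat_lit 5) (nat_lit 51) (nat_lit 5) (nat_lit 47) (nat_lit 5) (nat_lit 372) (nat_lit 362) (nat_lit 166)) (XT.lf (nat_lit 0) (nat_lit 306137451180) (nat_lit 228) (nat_lit 29424253483) (nat_lit 304) (nat_lit 425690634322) (nat_lit 43) (nat_lit 5) (nat_lit 46) (nat_lit 5) (nat_lit 47) (nat_lit 5) (nat_lit 373) (nat_lit 362) (nat_lit 165))))) (XT.nd (nat_lit 312) (nat_lit 608) (nat_lit 0) (XT.nd (nat_lit 156) (nat_lit 152) (nat_lit 0) (XT.nd (nat_lit 78) (nat_lit 228) (nat_lit 0) (XT.lf (nat_lit 0) (nat_lit 448347055677) (nat_lit 304) (nat_lit 63638775511) (nat_lit 76) (nat_lit 284367507858) (nat_lit 43) (nat_lit 5) (nat_lit 47) (nat_lit 5) (nat_lit 44) (nat_lit 5) (nat_lit 374) (nat_lit 362) (nat_lit 164)) (XT.lf (nat_lit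 0) (nat_lit 377263387130) (nat_lit 228) (nat_lit 202729294730) (nat_lit 304) (nat_lit 253482741502) (nat_lit 40) (nat_lit 5) (nat_lit 43) (nat_lit 5) (nat_lit 44) (nat_lit 5) (nat_lit 375) (nat_lit 362) (nat_lit 163))) (XT.nd (nat_lit 78) (nat_lit 152) (nat_lit 0) (XT.lf (nat_lit 0) (nat_lit 727112130434) (nat_lit 304) (nat_lit 19573361380) (nat_lit 76) (nat_lit 126486408844) (nat_lit 40) (nat_lit 5) (nat_lit 44) (nat_lit 5) (nat_lit 41) (nat_lit 5) (nat_lit 376) (nat_lit 362) (nat_lit 162)) (XT.lf (nat_lit 0) (nat_lit 470254744054) (nat_lit 152) (nat_lit 432321713390) (nat_lit 228) (nat_lit 12141612906) (nat_lit 38) (nat_lit 5) (nat_lit 40) (nat_lit 5) (nat_lit 41) (nat_lit 5) (nat_lit 377) (nat_lit 362) (nat_lit 161)))) (XT.nd (nat_lit 156) (nat_lit 304) (nat_lit 0) (XT.nd (nat_lit 78) (nat_lit 0) (nat_lit 0) (XT.lf (nat_lit 0) (nat_lit 39618718433) (nat_lit 228) (nat_lit 87745483260)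 (nat_lit 304) (nat_lit 831848669654) (nat_lit 34) (nat_lit 5) (nat_lit 37) (nat_lit 5) (nat_lit 38) (nat_lit 5) (nat_lit 378) (nat_lit 362) (nat_lit 160)) (XT.lf (nat_lit 0) (nat_lit 296682321395) (nat_lit 304) (nat_lit 426061492897) (nat_lit 76) (nat_lit 282953588629) (nat_lit 34) (nat_lit 5) (nat_lit 38) (nat_lit 5) (nat_lit 35) (nat_lit 5) (nat_lit 379) (nat_lit 362) (nat_lit 159))) (XT.nd (nat_lit 78) (nat_lit 152) (nat_lit 0) (XT.lf (nat_lit 0) (nat_lit 110186644872) (nat_lit 152) (nat_lit 374288330799) (nat_lit 228) (nat_lit 571031394561) (nat_lit 32) (nat_lit 5) (nat_lit 34) (nat_lit 5) (nat_lit 35) (nat_lit 5) (nat_lit 380) (nat_lit 362) (nat_lit 158)) (XT.nd (nat_lit 78) (nat_lit 152) (nat_lit 0) (XT.lf (nat_lit 0) (nat_lit 699292035973) (nat_lit 228) (nat_lit 395154725713) (nat_lit 76) (nat_lit 13893213758) (nat_lit 32) (nat_lit 5) (nat_lit 35) (nat_lit 5) (nat_lit 33) (nat_lit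 5) (nat_lit 381) (nat_lit 362) (nat_lit 157)) (XT.lf (nat_lit 0) (nat_lit 199269977290) (nat_lit 152) (nat_lit 746538697487) (nat_lit 228) (nat_lit 218430457212) (nat_lit 30) (nat_lit 5) (nat_lit 32) (nat_lit 5) (nat_lit 33) (nat_lit 5) (nat_lit 382) (nat_lit 362) (nat_lit 156))))))) (XT.nd (nat_lit 624) (nat_lit 456) (nat_lit 0) (XT.nd (nat_lit 312) (nat_lit 304) (nat_lit 0) (XT.nd (nat_lit 156) (nat_lit 152) (nat_lit 0) (XT.nd (nat_lit 78) (nat_lit 228) (nat_lit 0) (XT.lf (nat_lit 0) (nat_lit 863721443154) (nat_lit 152) (nat_lit 359129423465) (nat_lit 228) (nat_lit 895016694) (nat_lit 30) (nat_lit 5) (nat_lit 32) (nat_lit 5) (nat_lit 33) (nat_lit 5) (nat_lit 383) (nat_lit 362) (nat_lit 155)) (XT.lf (nat_lit 0) (nat_lit 231379559647) (nat_lit 228) (nat_lit 985904915387) (nat_lit 76) (nat_lit 69554872654) (nat_lit 27) (nat_lit 5) (nat_lit 30) (nat_lit 5) (nat_lit 28) (nat_lit 5) (nat_lit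 384) (nat_lit 362) (nat_lit 154))) (XT.nd (nat_lit 78) (nat_lit 152) (nat_lit 0) (XT.lf (nat_lit 0) (nat_lit 501615163904) (nat_lit 228) (nat_lit 328554846558) (nat_lit 76) (nat_lit 523254225706) (nat_lit 27) (nat_lit 5) (nat_lit 30) (nat_lit 5) (nat_lit 28) (nat_lit 5) (nat_lit 385) (nat_lit 362) (nat_lit 153)) (XT.lf (nat_lit 0) (nat_lit 401466180517) (nat_lit 152) (nat_lit 401658699959) (nat_lit 228) (nat_lit 621438614139) (nat_lit 25) (nat_lit 5) (nat_lit 27) (nat_lit 5) (nat_lit 28) (nat_lit 5) (nat_lit 386) (nat_lit 362) (nat_lit 152)))) (XT.nd (nat_lit 156) (nat_lit 228) (nat_lit 0) (XT.nd (nat_lit 78) (nat_lit 76) (nat_lit 0) (XT.lf (nat_lit 0) (nat_lit 1139442233227) (nat_lit 228) (nat_lit 293804742975) (nat_lit 76) (nat_lit 67291968837) (nat_lit 25) (nat_lit 5) (nat_lit 28) (nat_lit 5) (nat_lit 26) (nat_lit 4) (nat_lit 387) (nat_lit 362) (nat_lit 151)) (XT.lf (nat_lit 0) (nat_lit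 508853439375) (nat_lit 76) (nat_lit 1016482159159) (nat_lit 152) (nat_lit 55443183019) (nat_lit 24) (nat_lit 5) (nat_lit 25) (nat_lit 5) (nat_lit 26) (nat_lit 4) (nat_lit 388) (nat_lit 362) (nat_lit 150))) (XT.nd (nat_lit 78) (nat_lit 152) (nat_lit 0) (XT.lf (nat_lit 0) (nat_lit 269164679859) (nat_lit 152) (nat_lit 281176248020) (nat_lit 76) (nat_lit 1115909082584) (nat_lit 23) (nat_lit 5) (nat_lit 25) (nat_lit 5) (nat_lit 24) (nat_lit 5) (nat_lit 389) (nat_lit 362) (nat_lit 149)) (XT.lf (nat_lit 0) (nat_lit 601481206844) (nat_lit 152) (nat_lit 29730224377) (nat_lit 228) (nat_lit 1126075049342) (nat_lit 21) (nat_lit 5) (nat_lit 23) (nat_lit 5) (nat_lit 24) (nat_lit 5) (nat_lit 390) (nat_lit 362) (nat_lit 148))))) (XT.nd (nat_lit 312) (nat_lit 228) (nat_lit 0) (XT.nd (nat_lit 156) (nat_lit 152) (nat_lit 0) (XT.nd (nat_lit 78) (nat_lit 76) (nat_lit 0) (XT.lf (nat_lit 0) (nat_lit 1042916801563)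 (nat_lit 228) (nat_lit 297255877420) (nat_lit 76) (nat_lit 513777598982) (nat_lit 21) (nat_lit 5) (nat_lit 24) (nat_lit 5) (nat_lit 22) (nat_lit 4) (nat_lit 391) (nat_lit 362) (nat_lit 147)) (XT.lf (nat_lit 0) (nat_lit 662338080756) (nat_lit 76) (nat_lit 841921975653) (nat_lit 152) (nat_lit 452751006366) (nat_lit 20) (nat_lit 5) (nat_lit 21) (nat_lit 5) (nat_lit 22) (nat_lit 4) (nat_lit 392) (nat_lit 362) (nat_lit 146))) (XT.nd (nat_lit 78) (nat_lit 152) (nat_lit 0) (XT.lf (nat_lit 0) (nat_lit 1715604751478) (nat_lit 76) (nat_lit 295033517308) (nat_lit 152) (nat_lit 57028241815) (nat_lit 20) (nat_lit 5) (nat_lit 21) (nat_lit 5) (nat_lit 22) (nat_lit 4) (nat_lit 393) (nat_lit 362) (nat_lit 145)) (XT.lf (nat_lit 0) (nat_lit 376232765952) (nat_lit 152) (nat_lit 1501253307747) (nat_lit 76) (nat_lit 307023206237) (nat_lit 18) (nat_lit 5) (nat_lit 20) (nat_lit 5) (nat_lit 19) (nat_lit 4) (nat_lit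 394) (nat_lit 362) (nat_lit 144)))) (XT.nd (nat_lit 156) (nat_lit 152) (nat_lit 0) (XT.nd (nat_lit 78) (nat_lit 76) (nat_lit 0) (XT.lf (nat_lit 0) (nat_lit 858612869463) (nat_lit 152) (nat_lit 497902701192) (nat_lit 76) (nat_lit 952662262207) (nat_lit 18) (nat_lit 5) (nat_lit 20) (nat_lit 5) (nat_lit 19) (nat_lit 4) (nat_lit 395) (nat_lit 362) (nat_lit 143)) (XT.lf (nat_lit 0) (nat_lit 616558709349) (nat_lit 76) (nat_lit 777852919076) (nat_lit 152) (nat_lit 1048221981827) (nat_lit 17) (nat_lit 5) (nat_lit 18) (nat_lit 5) (nat_lit 19) (nat_lit 4) (nat_lit 396) (nat_lit 362) (nat_lit 142))) (XT.nd (nat_lit 78) (nat_lit 152) (nat_lit 0) (XT.lf (nat_lit 0) (nat_lit 1848493192483) (nat_lit 76) (nat_lit 138194633363) (nat_lit 152) (nat_lit 598988940971) (nat_lit 17) (nat_lit 5) (nat_lit 18) (nat_lit 5) (nat_lit 19) (nat_lit 4) (nat_lit 397) (nat_lit 362) (nat_lit 141)) (XT.nd (nat_lit 78) (nat_lit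 76) (nat_lit 0) (XT.lf (nat_lit 0) (nat_lit 447935691419) (nat_lit 76) (nat_lit 2202474204247) (nat_lit 76) (nat_lit 87828378115) (nat_lit 16) (nat_lit 4) (nat_lit 17) (nat_lit 5) (nat_lit 17) (nat_lit 4) (nat_lit 398) (nat_lit 362) (nat_lit 140)) (XT.lf (nat_lit 0) (nat_lit 465271515792) (nat_lit 152) (nat_lit 1146881079238) (nat_lit 76) (nat_lit 1288017424253) (nat_lit 15) (nat_lit 5) (nat_lit 17) (nat_lit 5) (nat_lit 16) (nat_lit 4) (nat_lit 399) (nat_lit 362) (nat_lit 139))))))))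
noncomputable def xc239 : XT := (XT.nd (nat_lit 45006) (nat_lit 0) (nat_lit 532) (XT.nd (nat_lit 44304) (nat_lit 0) (nat_lit 2280) (XT.nd (nat_lit 43992) (nat_lit 0) (nat_lit 3116) (XT.nd (nat_lit 156) (nat_lit 76) (nat_lit 0) (XT.nd (nat_lit 78) (nat_lit 0) (nat_lit 0) (XT.lf (nat_lit 0) (nat_lit 90247421951) (nat_lit 76) (nat_lit 969797414371) (nat_lit 152) (nat_lit 2014655331676) (nat_lit 14) (nat_lit 5) (nat_lit 15) (nat_lit 5) (nat_lit 16) (nat_lit 4) (nat_lit 400) (nat_lit 362) (nat_lit 138)) (XT.lf (nat_lit 0) (nat_lit 1491570339459) (nat_lit 76) (nat_lit 242187440427) (nat_lit 152) (nat_lit 1526926328135) (nat_lit 14) (nat_lit 5) (nat_lit 15) (nat_lit 5) (nat_lit 16) (nat_lit 4) (nat_lit 401) (nat_lit 362) (nat_lit 137))) (XT.nd (nat_lit 78) (nat_lit 76) (nat_lit 0) (XT.lf (nat_lit 0) (nat_lit 2474442101973) (nat_lit 152) (nat_lit 469622026145) (nat_lit 0) (nat_lit 516436687685)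 (nat_lit 14) (nat_lit 5) (nat_lit 16) (nat_lit 4) (nat_lit 14) (nat_lit 4) (nat_lit 402) (nat_lit 362) (nat_lit 136)) (XT.lf (nat_lit 0) (nat_lit 976380998533) (nat_lit 76) (nat_lit 2327772737366) (nat_lit 76) (nat_lit 369767319025) (nat_lit 13) (nat_lit 4) (nat_lit 14) (nat_lit 5) (nat_lit 14) (nat_lit 4) (nat_lit 403) (nat_lit 362) (nat_lit 135)))) (XT.nd (nat_lit 156) (nat_lit 0) (nat_lit 76) (XT.nd (nat_lit 78) (nat_lit 0) (nat_lit 0) (XT.lf (nat_lit 0) (nat_lit 200487781897) (nat_lit 532) (nat_lit 29692220644) (nat_lit 532) (nat_lit 29692220644) (nat_lit 54) (nat_lit 3) (nat_lit 61) (nat_lit 3) (nat_lit 61) (nat_lit 5) (nat_lit 363) (nat_lit 363) (nat_lit 174)) (XT.lf (nat_lit 76) (nat_lit 196515797486) (nat_lit 0) (nat_lit 225225222904) (nat_lit 532) (nat_lit 118415088701) (nat_lit 55) (nat_lit 5) (nat_lit 54) (nat_lit 3) (nat_lit 61) (nat_lit 5) (nat_lit 364) (nat_lit 363) (nat_lit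 173))) (XT.nd (nat_lit 78) (nat_lit 0) (nat_lit 0) (XT.lf (nat_lit 0) (nat_lit 446524265170) (nat_lit 456) (nat_lit 86538422799) (nat_lit 532) (nat_lit 28949492768) (nat_lit 55) (nat_lit 5) (nat_lit 61) (nat_lit 5) (nat_lit 62) (nat_lit 5) (nat_lit 365) (nat_lit 363) (nat_lit 172)) (XT.lf (nat_lit 76) (nat_lit 195038198118) (nat_lit 0) (nat_lit 288792629711) (nat_lit 532) (nat_lit 100942657663) (nat_lit 56) (nat_lit 5) (nat_lit 55) (nat_lit 5) (nat_lit 62) (nat_lit 5) (nat_lit 366) (nat_lit 363) (nat_lit 171))))) (XT.nd (nat_lit 312) (nat_lit 532) (nat_lit 0) (XT.nd (nat_lit 156) (nat_lit 380) (nat_lit 0) (XT.nd (nat_lit 78) (nat_lit 0) (nat_lit 76) (XT.lf (nat_lit 76) (nat_lit 504062452061) (nat_lit 0) (nat_lit 22425557650) (nat_lit 532) (nat_lit 82678397413) (nat_lit 56) (nat_lit 5) (nat_lit 55) (nat_lit 5) (nat_lit 62) (nat_lit 5) (nat_lit 367) (nat_lit 363) (nat_lit 170)) (XT.lf (nat_lit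 76) (nat_lit 206235304932) (nat_lit 0) (nat_lit 377661697267) (nat_lit 532) (nat_lit 50706621436) (nat_lit 57) (nat_lit 5) (nat_lit 56) (nat_lit 5) (nat_lit 63) (nat_lit 5) (nat_lit 368) (nat_lit 363) (nat_lit 169))) (XT.nd (nat_lit 78) (nat_lit 456) (nat_lit 0) (XT.lf (nat_lit 76) (nat_lit 547845892589) (nat_lit 0) (nat_lit 101494268495) (nat_lit 532) (nat_lit 12460340652) (nat_lit 57) (nat_lit 5) (nat_lit 56) (nat_lit 5) (nat_lit 63) (nat_lit 5) (nat_lit 369) (nat_lit 363) (nat_lit 168)) (XT.lf (nat_lit 0) (nat_lit 37994947671) (nat_lit 532) (nat_lit 458798008670) (nat_lit 76) (nat_lit 193477292225) (nat_lit 50) (nat_lit 5) (nat_lit 57) (nat_lit 5) (nat_lit 51) (nat_lit 5) (nat_lit 370) (nat_lit 363) (nat_lit 167)))) (XT.nd (nat_lit 156) (nat_lit 228) (nat_lit 0) (XT.nd (nat_lit 78) (nat_lit 304) (nat_lit 0) (XT.lf (nat_lit 0) (nat_lit 97646325291) (nat_lit 532) (nat_lit 112795183326)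 (nat_lit 76) (nat_lit 510083547069) (nat_lit 50) (nat_lit 5) (nat_lit 57) (nat_lit 5) (nat_lit 51) (nat_lit 5) (nat_lit 371) (nat_lit 363) (nat_lit 166)) (XT.lf (nat_lit 0) (nat_lit 171222683506) (nat_lit 380) (nat_lit 480594250093) (nat_lit 76) (nat_lit 100651084168) (nat_lit 46) (nat_lit 5) (nat_lit 51) (nat_lit 5) (nat_lit 47) (nat_lit 5) (nat_lit 372) (nat_lit 363) (nat_lit 165))) (XT.nd (nat_lit 78) (nat_lit 228) (nat_lit 0) (XT.lf (nat_lit 0) (nat_lit 259315274811) (nat_lit 380) (nat_lit 98534830265) (nat_lit 76) (nat_lit 428425901805) (nat_lit 46) (nat_lit 5) (nat_lit 51) (nat_lit 5) (nat_lit 47) (nat_lit 5) (nat_lit 373) (nat_lit 363) (nat_lit 164)) (XT.nd (nat_lit 78) (nat_lit 0) (nat_lit 0) (XT.lf (nat_lit 0) (nat_lit 330628717494) (nat_lit 228) (nat_lit 31778172125) (nat_lit 304) (nat_lit 459745616228) (nat_lit 43) (nat_lit 5) (nat_lit 46) (nat_lit 5) (nat_lit 47) (nat_lit 5)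 (nat_lit 374) (nat_lit 363) (nat_lit 163)) (XT.lf (nat_lit 0) (nat_lit 484215050782) (nat_lit 304) (nat_lit 68729609073) (nat_lit 76) (nat_lit 307116927519) (nat_lit 43) (nat_lit 5) (nat_lit 47) (nat_lit 5) (nat_lit 44) (nat_lit 5) (nat_lit 375) (nat_lit 363) (nat_lit 162))))))) (XT.nd (nat_lit 702) (nat_lit 760) (nat_lit 0) (XT.nd (nat_lit 312) (nat_lit 304) (nat_lit 0) (XT.nd (nat_lit 156) (nat_lit 456) (nat_lit 0) (XT.nd (nat_lit 78) (nat_lit 0) (nat_lit 0) (XT.lf (nat_lit 0) (nat_lit 407444719782) (nat_lit 228) (nat_lit 218947596486) (nat_lit 304) (nat_lit 273761123056) (nat_lit 40) (nat_lit 5) (nat_lit 43) (nat_lit 5) (nat_lit 44) (nat_lit 5) (nat_lit 376) (nat_lit 363) (nat_lit 161)) (XT.lf (nat_lit 0) (nat_lit 785281305374) (nat_lit 304) (nat_lit 21138972344) (nat_lit 76) (nat_lit 136605358339) (nat_lit 40) (nat_lit 5) (nat_lit 44) (nat_lit 5) (nat_lit 41) (nat_lit 5) (nat_lit 377)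 (nat_lit 363) (nat_lit 160))) (XT.nd (nat_lit 78) (nat_lit 304) (nat_lit 0) (XT.lf (nat_lit 0) (nat_lit 507875374995) (nat_lit 152) (nat_lit 466907394447) (nat_lit 228) (nat_lit 13112730632) (nat_lit 38) (nat_lit 5) (nat_lit 40) (nat_lit 5) (nat_lit 41) (nat_lit 5) (nat_lit 378) (nat_lit 363) (nat_lit 159)) (XT.lf (nat_lit 0) (nat_lit 42788471507) (nat_lit 228) (nat_lit 94765058336) (nat_lit 304) (nat_lit 898396355618) (nat_lit 34) (nat_lit 5) (nat_lit 37) (nat_lit 5) (nat_lit 38) (nat_lit 5) (nat_lit 379) (nat_lit 363) (nat_lit 158)))) (XT.nd (nat_lit 156) (nat_lit 152) (nat_lit 0) (XT.nd (nat_lit 78) (nat_lit 152) (nat_lit 0) (XT.lf (nat_lit 0) (nat_lit 320417086313) (nat_lit 304) (nat_lit 460146162639) (nat_lit 76) (nat_lit 305589931649) (nat_lit 34) (nat_lit 5) (nat_lit 38) (nat_lit 5) (nat_lit 35) (nat_lit 5) (nat_lit 380) (nat_lit 363) (nat_lit 157)) (XT.lf (nat_lit 0) (nat_lit 119001819831)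 (nat_lit 152) (nat_lit 404231325679) (nat_lit 228) (nat_lit 616713720397) (nat_lit 32) (nat_lit 5) (nat_lit 34) (nat_lit 5) (nat_lit 35) (nat_lit 5) (nat_lit 381) (nat_lit 363) (nat_lit 156))) (XT.nd (nat_lit 78) (nat_lit 152) (nat_lit 0) (XT.lf (nat_lit 0) (nat_lit 755235559506) (nat_lit 228) (nat_lit 426766867113) (nat_lit 76) (nat_lit 15004733824) (nat_lit 32) (nat_lit 5) (nat_lit 35) (nat_lit 5) (nat_lit 33) (nat_lit 5) (nat_lit 382) (nat_lit 363) (nat_lit 155)) (XT.nd (nat_lit 78) (nat_lit 0) (nat_lit 0) (XT.lf (nat_lit 0) (nat_lit 215211806140) (nat_lit 152) (nat_lit 806261716922) (nat_lit 228) (nat_lit 235904726972) (nat_lit 30) (nat_lit 5) (nat_lit 32) (nat_lit 5) (nat_lit 33) (nat_lit 5) (nat_lit 383) (nat_lit 363) (nat_lit 154)) (XT.lf (nat_lit 0) (nat_lit 932819372186) (nat_lit 152) (nat_lit 387859706635) (nat_lit 228) (nat_lit 966463568) (nat_lit 30) (nat_lit 5) (nat_lit 32)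 (nat_lit 5) (nat_lit 33) (nat_lit 5) (nat_lit 384) (nat_lit 363) (nat_lit 153)))))) (XT.nd (nat_lit 312) (nat_lit 380) (nat_lit 0) (XT.nd (nat_lit 156) (nat_lit 152) (nat_lit 0) (XT.nd (nat_lit 78) (nat_lit 0) (nat_lit 0) (XT.lf (nat_lit 0) (nat_lit 249890067273) (nat_lit 228) (nat_lit 1064777083149) (nat_lit 76) (nat_lit 75119333516) (nat_lit 27) (nat_lit 5) (nat_lit 30) (nat_lit 5) (nat_lit 28) (nat_lit 5) (nat_lit 385) (nat_lit 363) (nat_lit 152)) (XT.lf (nat_lit 0) (nat_lit 541744509290) (nat_lit 228) (nat_lit 354839025514) (nat_lit 76) (nat_lit 565114629549) (nat_lit 27) (nat_lit 5) (nat_lit 30) (nat_lit 5) (nat_lit 28) (nat_lit 5) (nat_lit 386) (nat_lit 363) (nat_lit 151))) (XT.nd (nat_lit 78) (nat_lit 0) (nat_lit 0) (XT.lf (nat_lit 0) (nat_lit 433583678442) (nat_lit 152) (nat_lit 433791319842) (nat_lit 228) (nat_lit 671153565595) (nat_lit 25) (nat_lit 5) (nat_lit 27) (nat_lit 5)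 (nat_lit 28) (nat_lit 5) (nat_lit 387) (nat_lit 363) (nat_lit 150)) (XT.lf (nat_lit 0) (nat_lit 1230597731514) (nat_lit 228) (nat_lit 317308926155) (nat_lit 76) (nat_lit 72675393294) (nat_lit 25) (nat_lit 5) (nat_lit 28) (nat_lit 5) (nat_lit 26) (nat_lit 4) (nat_lit 388) (nat_lit 363) (nat_lit 149)))) (XT.nd (nat_lit 156) (nat_lit 228) (nat_lit 0) (XT.nd (nat_lit 78) (nat_lit 76) (nat_lit 0) (XT.lf (nat_lit 0) (nat_lit 549561905815) (nat_lit 76) (nat_lit 1097800655970) (nat_lit 152) (nat_lit 59878512963) (nat_lit 24) (nat_lit 5) (nat_lit 25) (nat_lit 5) (nat_lit 26) (nat_lit 4) (nat_lit 389) (nat_lit 363) (nat_lit 148)) (XT.lf (nat_lit 0) (nat_lit 290697963933) (nat_lit 152) (nat_lit 303670164880) (nat_lit 76) (nat_lit 1205181873626) (nat_lit 23) (nat_lit 5) (nat_lit 25) (nat_lit 5) (nat_lit 24) (nat_lit 5) (nat_lit 390) (nat_lit 363) (nat_lit 147))) (XT.nd (nat_lit 78) (nat_lit 76) (nat_lit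 0) (XT.lf (nat_lit 0) (nat_lit 649599881741) (nat_lit 152) (nat_lit 32108569827) (nat_lit 228) (nat_lit 1216160938893) (nat_lit 21) (nat_lit 5) (nat_lit 23) (nat_lit 5) (nat_lit 24) (nat_lit 5) (nat_lit 391) (nat_lit 363) (nat_lit 146)) (XT.nd (nat_lit 78) (nat_lit 76) (nat_lit 0) (XT.lf (nat_lit 0) (nat_lit 1126350245312) (nat_lit 228) (nat_lit 321036176176) (nat_lit 76) (nat_lit 554879870672) (nat_lit 21) (nat_lit 5) (nat_lit 24) (nat_lit 5) (nat_lit 22) (nat_lit 4) (nat_lit 392) (nat_lit 363) (nat_lit 145)) (XT.lf (nat_lit 0) (nat_lit 715325294314) (nat_lit 76) (nat_lit 909275662870) (nat_lit 152) (nat_lit 488970982843) (nat_lit 20) (nat_lit 5) (nat_lit 21) (nat_lit 5) (nat_lit 22) (nat_lit 4) (nat_lit 393) (nat_lit 363) (nat_lit 144))))))))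
noncomputable def xc240 : XT := (XT.nd (nat_lit 45162) (nat_lit 0) (nat_lit 836) (XT.nd (nat_lit 624) (nat_lit 0) (nat_lit 0) (XT.nd (nat_lit 312) (nat_lit 228) (nat_lit 0) (XT.nd (nat_lit 156) (nat_lit 76) (nat_lit 0) (XT.nd (nat_lit 78) (nat_lit 152) (nat_lit 0) (XT.lf (nat_lit 0) (nat_lit 1852853286316) (nat_lit 76) (nat_lit 318636133104) (nat_lit 152) (nat_lit 61590404835) (nat_lit 20) (nat_lit 5) (nat_lit 21) (nat_lit 5) (nat_lit 22) (nat_lit 4) (nat_lit 394) (nat_lit 363) (nat_lit 143)) (XT.lf (nat_lit 0) (nat_lit 406331477311) (nat_lit 152) (nat_lit 1621353411292) (nat_lit 76) (nat_lit 331585126467) (nat_lit 18) (nat_lit 5) (nat_lit 20) (nat_lit 5) (nat_lit 19) (nat_lit 4) (nat_lit 395) (nat_lit 363) (nat_lit 142))) (XT.nd (nat_lit 78) (nat_lit 76) (nat_lit 0) (XT.lf (nat_lit 0) (nat_lit 927301982430) (nat_lit 152) (nat_lit 537734768144) (nat_lit 76) (nat_lit 1028875302194) (nat_lit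 18) (nat_lit 5) (nat_lit 20) (nat_lit 5) (nat_lit 19) (nat_lit 4) (nat_lit 396) (nat_lit 363) (nat_lit 141)) (XT.lf (nat_lit 0) (nat_lit 665883551464) (nat_lit 76) (nat_lit 840081087963) (nat_lit 152) (nat_lit 1132079653141) (nat_lit 17) (nat_lit 5) (nat_lit 18) (nat_lit 5) (nat_lit 19) (nat_lit 4) (nat_lit 397) (nat_lit 363) (nat_lit 140)))) (XT.nd (nat_lit 156) (nat_lit 152) (nat_lit 0) (XT.nd (nat_lit 78) (nat_lit 76) (nat_lit 0) (XT.lf (nat_lit 0) (nat_lit 1996372782482) (nat_lit 76) (nat_lit 149250144180) (nat_lit 152) (nat_lit 646907975478) (nat_lit 17) (nat_lit 5) (nat_lit 18) (nat_lit 5) (nat_lit 19) (nat_lit 4) (nat_lit 398) (nat_lit 363) (nat_lit 139)) (XT.lf (nat_lit 0) (nat_lit 483770682392) (nat_lit 76) (nat_lit 2378672078734) (nat_lit 76) (nat_lit 94854568613) (nat_lit 16) (nat_lit 4) (nat_lit 17) (nat_lit 5) (nat_lit 17) (nat_lit 4) (nat_lit 399) (nat_lit 363) (nat_lit 138)))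 (XT.nd (nat_lit 78) (nat_lit 76) (nat_lit 0) (XT.lf (nat_lit 0) (nat_lit 502493307205) (nat_lit 152) (nat_lit 1238631436238) (nat_lit 76) (nat_lit 1391058871736) (nat_lit 15) (nat_lit 5) (nat_lit 17) (nat_lit 5) (nat_lit 16) (nat_lit 4) (nat_lit 400) (nat_lit 363) (nat_lit 137)) (XT.lf (nat_lit 0) (nat_lit 97467341772) (nat_lit 76) (nat_lit 1047381149441) (nat_lit 152) (nat_lit 2175827684754) (nat_lit 14) (nat_lit 5) (nat_lit 15) (nat_lit 5) (nat_lit 16) (nat_lit 4) (nat_lit 401) (nat_lit 363) (nat_lit 136))))) (XT.nd (nat_lit 44148) (nat_lit 0) (nat_lit 2736) (XT.nd (nat_lit 43992) (nat_lit 0) (nat_lit 3040) (XT.nd (nat_lit 43914) (nat_lit 0) (nat_lit 3040) (XT.lf (nat_lit 0) (nat_lit 1610896083341) (nat_lit 76) (nat_lit 261562381884) (nat_lit 152) (nat_lit 1649080366372) (nat_lit 14) (nat_lit 5) (nat_lit 15) (nat_lit 5) (nat_lit 16) (nat_lit 4) (nat_lit 402) (nat_lit 363) (nat_lit 135))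 (XT.lf (nat_lit 0) (nat_lit 216527023440) (nat_lit 532) (nat_lit 32067479840) (nat_lit 532) (nat_lit 32067479840) (nat_lit 54) (nat_lit 3) (nat_lit 61) (nat_lit 3) (nat_lit 61) (nat_lit 5) (nat_lit 364) (nat_lit 364) (nat_lit 172))) (XT.nd (nat_lit 78) (nat_lit 0) (nat_lit 76) (XT.lf (nat_lit 76) (nat_lit 212237292198) (nat_lit 0) (nat_lit 243243420916) (nat_lit 532) (nat_lit 127887851075) (nat_lit 55) (nat_lit 5) (nat_lit 54) (nat_lit 3) (nat_lit 61) (nat_lit 5) (nat_lit 365) (nat_lit 364) (nat_lit 171)) (XT.lf (nat_lit 0) (nat_lit 482246583014) (nat_lit 456) (nat_lit 93461247665) (nat_lit 532) (nat_lit 31265293702) (nat_lit 55) (nat_lit 5) (nat_lit 61) (nat_lit 5) (nat_lit 62) (nat_lit 5) (nat_lit 366) (nat_lit 364) (nat_lit 170)))) (XT.nd (nat_lit 156) (nat_lit 380) (nat_lit 0) (XT.nd (nat_lit 78) (nat_lit 0) (nat_lit 0) (XT.lf (nat_lit 76) (nat_lit 210641496623) (nat_lit 0) (nat_lit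 311896152000) (nat_lit 532) (nat_lit 109017686708) (nat_lit 56) (nat_lit 5) (nat_lit 55) (nat_lit 5) (nat_lit 62) (nat_lit 5) (nat_lit 367) (nat_lit 364) (nat_lit 169)) (XT.lf (nat_lit 76) (nat_lit 544387672907) (nat_lit 0) (nat_lit 24219705884) (nat_lit 532) (nat_lit 89292314051) (nat_lit 56) (nat_lit 5) (nat_lit 55) (nat_lit 5) (nat_lit 62) (nat_lit 5) (nat_lit 368) (nat_lit 364) (nat_lit 168))) (XT.nd (nat_lit 78) (nat_lit 456) (nat_lit 0) (XT.lf (nat_lit 76) (nat_lit 222734376921) (nat_lit 0) (nat_lit 407874693085) (nat_lit 532) (nat_lit 54762818364) (nat_lit 57) (nat_lit 5) (nat_lit 56) (nat_lit 5) (nat_lit 63) (nat_lit 5) (nat_lit 369) (nat_lit 364) (nat_lit 167)) (XT.nd (nat_lit 78) (nat_lit 456) (nat_lit 0) (XT.lf (nat_lit 76) (nat_lit 591673793251) (nat_lit 0) (nat_lit 109613865565) (nat_lit 532) (nat_lit 13456859769) (nat_lit 57) (nat_lit 5) (nat_lit 56) (nat_lit 5) (nat_lit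 63) (nat_lit 5) (nat_lit 370) (nat_lit 364) (nat_lit 166)) (XT.lf (nat_lit 0) (nat_lit 41034819359) (nat_lit 532) (nat_lit 495501586949) (nat_lit 76) (nat_lit 208955439641) (nat_lit 50) (nat_lit 5) (nat_lit 57) (nat_lit 5) (nat_lit 51) (nat_lit 5) (nat_lit 371) (nat_lit 364) (nat_lit 165))))))) (XT.nd (nat_lit 624) (nat_lit 988) (nat_lit 0) (XT.nd (nat_lit 312) (nat_lit 380) (nat_lit 0) (XT.nd (nat_lit 156) (nat_lit 228) (nat_lit 0) (XT.nd (nat_lit 78) (nat_lit 304) (nat_lit 0) (XT.lf (nat_lit 0) (nat_lit 105458286753) (nat_lit 532) (nat_lit 121818555015) (nat_lit 76) (nat_lit 550890197537) (nat_lit 50) (nat_lit 5) (nat_lit 57) (nat_lit 5) (nat_lit 51) (nat_lit 5) (nat_lit 372) (nat_lit 364) (nat_lit 164)) (XT.lf (nat_lit 0) (nat_lit 184920740270) (nat_lit 380) (nat_lit 519041533398) (nat_lit 76) (nat_lit 108703165783) (nat_lit 46) (nat_lit 5) (nat_lit 51) (nat_lit 5) (nat_lit 47) (nat_lit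 5) (nat_lit 373) (nat_lit 364) (nat_lit 163))) (XT.nd (nat_lit 78) (nat_lit 228) (nat_lit 0) (XT.lf (nat_lit 0) (nat_lit 280060720947) (nat_lit 380) (nat_lit 106417378999) (nat_lit 76) (nat_lit 462699969210) (nat_lit 46) (nat_lit 5) (nat_lit 51) (nat_lit 5) (nat_lit 47) (nat_lit 5) (nat_lit 374) (nat_lit 364) (nat_lit 162)) (XT.lf (nat_lit 0) (nat_lit 357079246564) (nat_lit 228) (nat_lit 34320407344) (nat_lit 304) (nat_lit 496525035039) (nat_lit 43) (nat_lit 5) (nat_lit 46) (nat_lit 5) (nat_lit 47) (nat_lit 5) (nat_lit 375) (nat_lit 364) (nat_lit 161)))) (XT.nd (nat_lit 156) (nat_lit 152) (nat_lit 0) (XT.nd (nat_lit 78) (nat_lit 228) (nat_lit 0) (XT.lf (nat_lit 0) (nat_lit 522952452590) (nat_lit 304) (nat_lit 74227747622) (nat_lit 76) (nat_lit 331686298037) (nat_lit 43) (nat_lit 5) (nat_lit 47) (nat_lit 5) (nat_lit 44) (nat_lit 5) (nat_lit 376) (nat_lit 364) (nat_lit 160)) (XT.lf (nat_lit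 0) (nat_lit 440040521715) (nat_lit 228) (nat_lit 236463368349) (nat_lit 304) (nat_lit 295661809055) (nat_lit 40) (nat_lit 5) (nat_lit 43) (nat_lit 5) (nat_lit 44) (nat_lit 5) (nat_lit 377) (nat_lit 364) (nat_lit 159))) (XT.nd (nat_lit 78) (nat_lit 152) (nat_lit 0) (XT.lf (nat_lit 0) (nat_lit 848103985133) (nat_lit 304) (nat_lit 22829868984) (nat_lit 76) (nat_lit 147533818545) (nat_lit 40) (nat_lit 5) (nat_lit 44) (nat_lit 5) (nat_lit 41) (nat_lit 5) (nat_lit 378) (nat_lit 364) (nat_lit 158)) (XT.lf (nat_lit 0) (nat_lit 548505620543) (nat_lit 152) (nat_lit 504259937981) (nat_lit 228) (nat_lit 14161567920) (nat_lit 38) (nat_lit 5) (nat_lit 40) (nat_lit 5) (nat_lit 41) (nat_lit 5) (nat_lit 379) (nat_lit 364) (nat_lit 157))))) (XT.nd (nat_lit 312) (nat_lit 532) (nat_lit 0) (XT.nd (nat_lit 156) (nat_lit 152) (nat_lit 0) (XT.nd (nat_lit 78) (nat_lit 0) (nat_lit 0) (XT.lf (nat_lit 0) (nat_lit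 46211768364) (nat_lit 228) (nat_lit 102346208489) (nat_lit 304) (nat_lit 970267886075) (nat_lit 34) (nat_lit 5) (nat_lit 37) (nat_lit 5) (nat_lit 38) (nat_lit 5) (nat_lit 380) (nat_lit 364) (nat_lit 156)) (XT.lf (nat_lit 0) (nat_lit 346050606860) (nat_lit 304) (nat_lit 496957641581) (nat_lit 76) (nat_lit 330037174132) (nat_lit 34) (nat_lit 5) (nat_lit 38) (nat_lit 5) (nat_lit 35) (nat_lit 5) (nat_lit 381) (nat_lit 364) (nat_lit 155))) (XT.nd (nat_lit 78) (nat_lit 0) (nat_lit 0) (XT.lf (nat_lit 0) (nat_lit 128522174067) (nat_lit 152) (nat_lit 436569770363) (nat_lit 228) (nat_lit 666050658796) (nat_lit 32) (nat_lit 5) (nat_lit 34) (nat_lit 5) (nat_lit 35) (nat_lit 5) (nat_lit 382) (nat_lit 364) (nat_lit 154)) (XT.lf (nat_lit 0) (nat_lit 815654542002) (nat_lit 228) (nat_lit 460908013586) (nat_lit 76) (nat_lit 16205166512) (nat_lit 32) (nat_lit 5) (nat_lit 35) (nat_lit 5) (nat_lit 33) (nat_lit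 5) (nat_lit 383) (nat_lit 364) (nat_lit 153)))) (XT.nd (nat_lit 156) (nat_lit 380) (nat_lit 0) (XT.nd (nat_lit 78) (nat_lit 0) (nat_lit 0) (XT.lf (nat_lit 0) (nat_lit 232428948390) (nat_lit 152) (nat_lit 870762588805) (nat_lit 228) (nat_lit 254776962110) (nat_lit 30) (nat_lit 5) (nat_lit 32) (nat_lit 5) (nat_lit 33) (nat_lit 5) (nat_lit 384) (nat_lit 364) (nat_lit 152)) (XT.lf (nat_lit 0) (nat_lit 1007445105072) (nat_lit 152) (nat_lit 418888422545) (nat_lit 228) (nat_lit 1043648228) (nat_lit 30) (nat_lit 5) (nat_lit 32) (nat_lit 5) (nat_lit 33) (nat_lit 5) (nat_lit 385) (nat_lit 364) (nat_lit 151))) (XT.nd (nat_lit 78) (nat_lit 152) (nat_lit 0) (XT.lf (nat_lit 0) (nat_lit 269881395130) (nat_lit 228) (nat_lit 1149959056497) (nat_lit 76) (nat_lit 81128941111) (nat_lit 27) (nat_lit 5) (nat_lit 30) (nat_lit 5) (nat_lit 28) (nat_lit 5) (nat_lit 386) (nat_lit 364) (nat_lit 150)) (XT.nd (nat_lit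 78) (nat_lit 152) (nat_lit 0) (XT.lf (nat_lit 0) (nat_lit 585084183436) (nat_lit 228) (nat_lit 383225968571) (nat_lit 76) (nat_lit 610323856315) (nat_lit 27) (nat_lit 5) (nat_lit 30) (nat_lit 5) (nat_lit 28) (nat_lit 5) (nat_lit 387) (nat_lit 364) (nat_lit 149)) (XT.lf (nat_lit 0) (nat_lit 468270547171) (nat_lit 152) (nat_lit 468494560174) (nat_lit 228) (nat_lit 724845732809) (nat_lit 25) (nat_lit 5) (nat_lit 27) (nat_lit 5) (nat_lit 28) (nat_lit 5) (nat_lit 388) (nat_lit 364) (nat_lit 148))))))))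
noncomputable def xc241 : XT := (XT.nd (nat_lit 45240) (nat_lit 0) (nat_lit 1368) (XT.nd (nat_lit 624) (nat_lit 304) (nat_lit 0) (XT.nd (nat_lit 312) (nat_lit 228) (nat_lit 0) (XT.nd (nat_lit 156) (nat_lit 228) (nat_lit 0) (XT.nd (nat_lit 78) (nat_lit 76) (nat_lit 0) (XT.lf (nat_lit 0) (nat_lit 1329045652598) (nat_lit 228) (nat_lit 342693471988) (nat_lit 76) (nat_lit 78489482157) (nat_lit 25) (nat_lit 5) (nat_lit 28) (nat_lit 5) (nat_lit 26) (nat_lit 4) (nat_lit 389) (nat_lit 364) (nat_lit 147)) (XT.lf (nat_lit 0) (nat_lit 593527022280) (nat_lit 76) (nat_lit 1185624643357) (nat_lit 152) (nat_lit 64668687092) (nat_lit 24) (nat_lit 5) (nat_lit 25) (nat_lit 5) (nat_lit 26) (nat_lit 4) (nat_lit 390) (nat_lit 364) (nat_lit 146))) (XT.nd (nat_lit 78) (nat_lit 152) (nat_lit 0) (XT.lf (nat_lit 0) (nat_lit 313953895085) (nat_lit 152) (nat_lit 327963621193) (nat_lit 76) (nat_lit 1301596478760) (nat_lit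 23) (nat_lit 5) (nat_lit 25) (nat_lit 5) (nat_lit 24) (nat_lit 5) (nat_lit 391) (nat_lit 364) (nat_lit 145)) (XT.lf (nat_lit 0) (nat_lit 701568025186) (nat_lit 152) (nat_lit 34677193257) (nat_lit 228) (nat_lit 1313453715927) (nat_lit 21) (nat_lit 5) (nat_lit 23) (nat_lit 5) (nat_lit 24) (nat_lit 5) (nat_lit 392) (nat_lit 364) (nat_lit 144)))) (XT.nd (nat_lit 156) (nat_lit 152) (nat_lit 0) (XT.nd (nat_lit 78) (nat_lit 76) (nat_lit 0) (XT.lf (nat_lit 0) (nat_lit 1216458350348) (nat_lit 228) (nat_lit 346718923290) (nat_lit 76) (nat_lit 599270314999) (nat_lit 21) (nat_lit 5) (nat_lit 24) (nat_lit 5) (nat_lit 22) (nat_lit 4) (nat_lit 393) (nat_lit 364) (nat_lit 143)) (XT.lf (nat_lit 0) (nat_lit 772551461119) (nat_lit 76) (nat_lit 982017655170) (nat_lit 152) (nat_lit 528088572280) (nat_lit 20) (nat_lit 5) (nat_lit 21) (nat_lit 5) (nat_lit 22) (nat_lit 4) (nat_lit 394) (nat_lit 364) (nat_lit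 142))) (XT.nd (nat_lit 78) (nat_lit 152) (nat_lit 0) (XT.lf (nat_lit 0) (nat_lit 2001081681869) (nat_lit 76) (nat_lit 344126967521) (nat_lit 152) (nat_lit 66517554638) (nat_lit 20) (nat_lit 5) (nat_lit 21) (nat_lit 5) (nat_lit 22) (nat_lit 4) (nat_lit 395) (nat_lit 364) (nat_lit 141)) (XT.lf (nat_lit 0) (nat_lit 438838072728) (nat_lit 152) (nat_lit 1751061546099) (nat_lit 76) (nat_lit 358111991223) (nat_lit 18) (nat_lit 5) (nat_lit 20) (nat_lit 5) (nat_lit 19) (nat_lit 4) (nat_lit 396) (nat_lit 364) (nat_lit 140))))) (XT.nd (nat_lit 312) (nat_lit 152) (nat_lit 0) (XT.nd (nat_lit 156) (nat_lit 76) (nat_lit 0) (XT.nd (nat_lit 78) (nat_lit 76) (nat_lit 0) (XT.lf (nat_lit 0) (nat_lit 1001486212536) (nat_lit 152) (nat_lit 580753421729) (nat_lit 76) (nat_lit 1111185376961) (nat_lit 18) (nat_lit 5) (nat_lit 20) (nat_lit 5) (nat_lit 19) (nat_lit 4) (nat_lit 397) (nat_lit 364) (nat_lit 139)) (XT.lf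 (nat_lit 0) (nat_lit 719154360211) (nat_lit 76) (nat_lit 907287519582) (nat_lit 152) (nat_lit 1222645950604) (nat_lit 17) (nat_lit 5) (nat_lit 18) (nat_lit 5) (nat_lit 19) (nat_lit 4) (nat_lit 398) (nat_lit 364) (nat_lit 138))) (XT.nd (nat_lit 78) (nat_lit 76) (nat_lit 0) (XT.lf (nat_lit 0) (nat_lit 2156082720478) (nat_lit 76) (nat_lit 161190104402) (nat_lit 152) (nat_lit 698660544268) (nat_lit 17) (nat_lit 5) (nat_lit 18) (nat_lit 5) (nat_lit 19) (nat_lit 4) (nat_lit 399) (nat_lit 364) (nat_lit 137)) (XT.lf (nat_lit 0) (nat_lit 522472453289) (nat_lit 76) (nat_lit 2568965792004) (nat_lit 76) (nat_lit 102442865729) (nat_lit 16) (nat_lit 4) (nat_lit 17) (nat_lit 5) (nat_lit 17) (nat_lit 4) (nat_lit 400) (nat_lit 364) (nat_lit 136)))) (XT.nd (nat_lit 44070) (nat_lit 0) (nat_lit 3040) (XT.nd (nat_lit 78) (nat_lit 76) (nat_lit 0) (XT.lf (nat_lit 0) (nat_lit 542692831923) (nat_lit 152) (nat_lit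 1337721840251) (nat_lit 76) (nat_lit 1502343627380) (nat_lit 15) (nat_lit 5) (nat_lit 17) (nat_lit 5) (nat_lit 16) (nat_lit 4) (nat_lit 401) (nat_lit 364) (nat_lit 135)) (XT.lf (nat_lit 0) (nat_lit 105264837193) (nat_lit 76) (nat_lit 1131171591603) (nat_lit 152) (nat_lit 2349893836558) (nat_lit 14) (nat_lit 5) (nat_lit 15) (nat_lit 5) (nat_lit 16) (nat_lit 4) (nat_lit 402) (nat_lit 364) (nat_lit 134))) (XT.nd (nat_lit 78) (nat_lit 0) (nat_lit 0) (XT.lf (nat_lit 0) (nat_lit 233849373066) (nat_lit 532) (nat_lit 34632776670) (nat_lit 532) (nat_lit 34632776670) (nat_lit 54) (nat_lit 3) (nat_lit 61) (nat_lit 3) (nat_lit 61) (nat_lit 5) (nat_lit 365) (nat_lit 365) (nat_lit 170)) (XT.nd (nat_lit 78) (nat_lit 0) (nat_lit 76) (XT.lf (nat_lit 76) (nat_lit 229216473545) (nat_lit 0) (nat_lit 262703049065) (nat_lit 532) (nat_lit 138118497884) (nat_lit 55) (nat_lit 5) (nat_lit 54) (nat_lit 3) (nat_lit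 61) (nat_lit 5) (nat_lit 366) (nat_lit 365) (nat_lit 169)) (XT.lf (nat_lit 0) (nat_lit 520826632555) (nat_lit 456) (nat_lit 100937934037) (nat_lit 532) (nat_lit 33766381320) (nat_lit 55) (nat_lit 5) (nat_lit 61) (nat_lit 5) (nat_lit 62) (nat_lit 5) (nat_lit 367) (nat_lit 365) (nat_lit 168))))))) (XT.nd (nat_lit 624) (nat_lit 1064) (nat_lit 0) (XT.nd (nat_lit 312) (nat_lit 684) (nat_lit 0) (XT.nd (nat_lit 156) (nat_lit 0) (nat_lit 76) (XT.nd (nat_lit 78) (nat_lit 0) (nat_lit 0) (XT.lf (nat_lit 76) (nat_lit 227493024391) (nat_lit 0) (nat_lit 336847940106) (nat_lit 532) (nat_lit 117738772797) (nat_lit 56) (nat_lit 5) (nat_lit 55) (nat_lit 5) (nat_lit 62) (nat_lit 5) (nat_lit 368) (nat_lit 365) (nat_lit 167)) (XT.lf (nat_lit 76) (nat_lit 587938879367) (nat_lit 0) (nat_lit 26157371194) (nat_lit 532) (nat_lit 96435394686) (nat_lit 56) (nat_lit 5) (nat_lit 55) (nat_lit 5) (nat_lit 62) (nat_lit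 5) (nat_lit 369) (nat_lit 365) (nat_lit 166))) (XT.nd (nat_lit 78) (nat_lit 0) (nat_lit 0) (XT.lf (nat_lit 76) (nat_lit 240553339347) (nat_lit 0) (nat_lit 440504720004) (nat_lit 532) (nat_lit 59143558523) (nat_lit 57) (nat_lit 5) (nat_lit 56) (nat_lit 5) (nat_lit 63) (nat_lit 5) (nat_lit 370) (nat_lit 365) (nat_lit 165)) (XT.lf (nat_lit 76) (nat_lit 639007893259) (nat_lit 0) (nat_lit 118383022469) (nat_lit 532) (nat_lit 14533144374) (nat_lit 57) (nat_lit 5) (nat_lit 56) (nat_lit 5) (nat_lit 63) (nat_lit 5) (nat_lit 371) (nat_lit 365) (nat_lit 164)))) (XT.nd (nat_lit 156) (nat_lit 304) (nat_lit 0) (XT.nd (nat_lit 78) (nat_lit 0) (nat_lit 0) (XT.lf (nat_lit 0) (nat_lit 44317841425) (nat_lit 532) (nat_lit 535141488927) (nat_lit 76) (nat_lit 225671843981) (nat_lit 50) (nat_lit 5) (nat_lit 57) (nat_lit 5) (nat_lit 51) (nat_lit 5) (nat_lit 372) (nat_lit 365) (nat_lit 163)) (XT.lf (nat_lit 0)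 (nat_lit 113895168691) (nat_lit 532) (nat_lit 131563831103) (nat_lit 76) (nat_lit 594961384792) (nat_lit 50) (nat_lit 5) (nat_lit 57) (nat_lit 5) (nat_lit 51) (nat_lit 5) (nat_lit 373) (nat_lit 365) (nat_lit 162))) (XT.nd (nat_lit 78) (nat_lit 0) (nat_lit 0) (XT.lf (nat_lit 0) (nat_lit 199714607039) (nat_lit 380) (nat_lit 560564635989) (nat_lit 76) (nat_lit 117399414657) (nat_lit 46) (nat_lit 5) (nat_lit 51) (nat_lit 5) (nat_lit 47) (nat_lit 5) (nat_lit 374) (nat_lit 365) (nat_lit 161)) (XT.lf (nat_lit 0) (nat_lit 302465770797) (nat_lit 380) (nat_lit 114930565540) (nat_lit 76) (nat_lit 499715962683) (nat_lit 46) (nat_lit 5) (nat_lit 51) (nat_lit 5) (nat_lit 47) (nat_lit 5) (nat_lit 375) (nat_lit 365) (nat_lit 160))))) (XT.nd (nat_lit 312) (nat_lit 608) (nat_lit 0) (XT.nd (nat_lit 156) (nat_lit 228) (nat_lit 0) (XT.nd (nat_lit 78) (nat_lit 0) (nat_lit 0) (XT.lf (nat_lit 0) (nat_lit 385645784909)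 (nat_lit 228) (nat_lit 37066024027) (nat_lit 304) (nat_lit 536246840237) (nat_lit 43) (nat_lit 5) (nat_lit 46) (nat_lit 5) (nat_lit 47) (nat_lit 5) (nat_lit 376) (nat_lit 365) (nat_lit 159)) (XT.lf (nat_lit 0) (nat_lit 564788818333) (nat_lit 304) (nat_lit 80165770092) (nat_lit 76) (nat_lit 358221215870) (nat_lit 43) (nat_lit 5) (nat_lit 47) (nat_lit 5) (nat_lit 44) (nat_lit 5) (nat_lit 377) (nat_lit 365) (nat_lit 158))) (XT.nd (nat_lit 78) (nat_lit 0) (nat_lit 0) (XT.lf (nat_lit 0) (nat_lit 475243955796) (nat_lit 228) (nat_lit 255380407076) (nat_lit 304) (nat_lit 319314579015) (nat_lit 40) (nat_lit 5) (nat_lit 43) (nat_lit 5) (nat_lit 44) (nat_lit 5) (nat_lit 378) (nat_lit 365) (nat_lit 157)) (XT.lf (nat_lit 0) (nat_lit 915952454261) (nat_lit 304) (nat_lit 24656068904) (nat_lit 76) (nat_lit 159336551069) (nat_lit 40) (nat_lit 5) (nat_lit 44) (nat_lit 5) (nat_lit 41) (nat_lit 5) (nat_lit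 379) (nat_lit 365) (nat_lit 156)))) (XT.nd (nat_lit 156) (nat_lit 152) (nat_lit 0) (XT.nd (nat_lit 78) (nat_lit 304) (nat_lit 0) (XT.lf (nat_lit 0) (nat_lit 592386254985) (nat_lit 152) (nat_lit 544600691847) (nat_lit 228) (nat_lit 15294338037) (nat_lit 38) (nat_lit 5) (nat_lit 40) (nat_lit 5) (nat_lit 41) (nat_lit 5) (nat_lit 380) (nat_lit 365) (nat_lit 155)) (XT.lf (nat_lit 0) (nat_lit 49908897706) (nat_lit 228) (nat_lit 110533858431) (nat_lit 304) (nat_lit 1047889164363) (nat_lit 34) (nat_lit 5) (nat_lit 37) (nat_lit 5) (nat_lit 38) (nat_lit 5) (nat_lit 381) (nat_lit 365) (nat_lit 154))) (XT.nd (nat_lit 78) (nat_lit 152) (nat_lit 0) (XT.lf (nat_lit 0) (nat_lit 373734787131) (nat_lit 304) (nat_lit 536714069378) (nat_lit 76) (nat_lit 356440189173) (nat_lit 34) (nat_lit 5) (nat_lit 38) (nat_lit 5) (nat_lit 35) (nat_lit 5) (nat_lit 382) (nat_lit 365) (nat_lit 153)) (XT.nd (nat_lit 78) (nat_lit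 0) (nat_lit 0) (XT.lf (nat_lit 0) (nat_lit 138804126876) (nat_lit 152) (nat_lit 471495299376) (nat_lit 228) (nat_lit 719334574984) (nat_lit 32) (nat_lit 5) (nat_lit 34) (nat_lit 5) (nat_lit 35) (nat_lit 5) (nat_lit 383) (nat_lit 365) (nat_lit 152)) (XT.lf (nat_lit 0) (nat_lit 880907023448) (nat_lit 228) (nat_lit 497780480722) (nat_lit 76) (nat_lit 17501626114) (nat_lit 32) (nat_lit 5) (nat_lit 35) (nat_lit 5) (nat_lit 33) (nat_lit 5) (nat_lit 384) (nat_lit 365) (nat_lit 151))))))))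
noncomputable def xc242 : XT := (XT.nd (nat_lit 1326) (nat_lit 76) (nat_lit 0) (XT.nd (nat_lit 624) (nat_lit 532) (nat_lit 0) (XT.nd (nat_lit 312) (nat_lit 304) (nat_lit 0) (XT.nd (nat_lit 156) (nat_lit 228) (nat_lit 0) (XT.nd (nat_lit 78) (nat_lit 0) (nat_lit 0) (XT.lf (nat_lit 0) (nat_lit 251023433808) (nat_lit 152) (nat_lit 940423539780) (nat_lit 228) (nat_lit 275158996463) (nat_lit 30) (nat_lit 5) (nat_lit 32) (nat_lit 5) (nat_lit 33) (nat_lit 5) (nat_lit 385) (nat_lit 365) (nat_lit 150)) (XT.lf (nat_lit 0) (nat_lit 1088040870465) (nat_lit 152) (nat_lit 452399444377) (nat_lit 228) (nat_lit 1127026553) (nat_lit 30) (nat_lit 5) (nat_lit 32) (nat_lit 5) (nat_lit 33) (nat_lit 5) (nat_lit 386) (nat_lit 365) (nat_lit 149))) (XT.nd (nat_lit 78) (nat_lit 0) (nat_lit 0) (XT.lf (nat_lit 0) (nat_lit 291472011743) (nat_lit 228) (nat_lit 1241955615290) (nat_lit 76) (nat_lit 87619308624) (nat_lit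 27) (nat_lit 5) (nat_lit 30) (nat_lit 5) (nat_lit 28) (nat_lit 5) (nat_lit 387) (nat_lit 365) (nat_lit 148)) (XT.lf (nat_lit 0) (nat_lit 631891015335) (nat_lit 228) (nat_lit 413883892606) (nat_lit 76) (nat_lit 659149813176) (nat_lit 27) (nat_lit 5) (nat_lit 30) (nat_lit 5) (nat_lit 28) (nat_lit 5) (nat_lit 388) (nat_lit 365) (nat_lit 147)))) (XT.nd (nat_lit 156) (nat_lit 152) (nat_lit 0) (XT.nd (nat_lit 78) (nat_lit 0) (nat_lit 0) (XT.lf (nat_lit 0) (nat_lit 505732340510) (nat_lit 152) (nat_lit 505974069042) (nat_lit 228) (nat_lit 782833290238) (nat_lit 25) (nat_lit 5) (nat_lit 27) (nat_lit 5) (nat_lit 28) (nat_lit 5) (nat_lit 389) (nat_lit 365) (nat_lit 146)) (XT.lf (nat_lit 0) (nat_lit 1435369392736) (nat_lit 228) (nat_lit 370108805491) (nat_lit 76) (nat_lit 84768689940) (nat_lit 25) (nat_lit 5) (nat_lit 28) (nat_lit 5) (nat_lit 26) (nat_lit 4) (nat_lit 390) (nat_lit 365) (nat_lit 145)))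 (XT.nd (nat_lit 78) (nat_lit 76) (nat_lit 0) (XT.lf (nat_lit 0) (nat_lit 641009324666) (nat_lit 76) (nat_lit 1280474559022) (nat_lit 152) (nat_lit 69842090403) (nat_lit 24) (nat_lit 5) (nat_lit 25) (nat_lit 5) (nat_lit 26) (nat_lit 4) (nat_lit 391) (nat_lit 365) (nat_lit 144)) (XT.lf (nat_lit 0) (nat_lit 339070287313) (nat_lit 152) (nat_lit 354200576392) (nat_lit 76) (nat_lit 1405724244423) (nat_lit 23) (nat_lit 5) (nat_lit 25) (nat_lit 5) (nat_lit 24) (nat_lit 5) (nat_lit 392) (nat_lit 365) (nat_lit 143))))) (XT.nd (nat_lit 312) (nat_lit 304) (nat_lit 0) (XT.nd (nat_lit 156) (nat_lit 76) (nat_lit 0) (XT.nd (nat_lit 78) (nat_lit 0) (nat_lit 0) (XT.lf (nat_lit 0) (nat_lit 757693598293) (nat_lit 152) (nat_lit 37451315428) (nat_lit 228) (nat_lit 1418529929116) (nat_lit 21) (nat_lit 5) (nat_lit 23) (nat_lit 5) (nat_lit 24) (nat_lit 5) (nat_lit 393) (nat_lit 365) (nat_lit 142)) (XT.lf (nat_lit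 0) (nat_lit 1313775091602) (nat_lit 228) (nat_lit 374456311141) (nat_lit 76) (nat_lit 647211987073) (nat_lit 21) (nat_lit 5) (nat_lit 24) (nat_lit 5) (nat_lit 22) (nat_lit 4) (nat_lit 394) (nat_lit 365) (nat_lit 141))) (XT.nd (nat_lit 78) (nat_lit 0) (nat_lit 0) (XT.lf (nat_lit 0) (nat_lit 834355700830) (nat_lit 76) (nat_lit 1060579015517) (nat_lit 152) (nat_lit 570335581597) (nat_lit 20) (nat_lit 5) (nat_lit 21) (nat_lit 5) (nat_lit 22) (nat_lit 4) (nat_lit 395) (nat_lit 365) (nat_lit 140)) (XT.lf (nat_lit 0) (nat_lit 2161168330142) (nat_lit 76) (nat_lit 371657076714) (nat_lit 152) (nat_lit 71838888207) (nat_lit 20) (nat_lit 5) (nat_lit 21) (nat_lit 5) (nat_lit 22) (nat_lit 4) (nat_lit 396) (nat_lit 365) (nat_lit 139)))) (XT.nd (nat_lit 156) (nat_lit 152) (nat_lit 0) (XT.nd (nat_lit 78) (nat_lit 0) (nat_lit 0) (XT.lf (nat_lit 0) (nat_lit 473945184760) (nat_lit 152) (nat_lit 1891146351392)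 (nat_lit 76) (nat_lit 386760997365) (nat_lit 18) (nat_lit 5) (nat_lit 20) (nat_lit 5) (nat_lit 19) (nat_lit 4) (nat_lit 397) (nat_lit 365) (nat_lit 138)) (XT.lf (nat_lit 0) (nat_lit 1081605170848) (nat_lit 152) (nat_lit 627213585843) (nat_lit 76) (nat_lit 1200080250492) (nat_lit 18) (nat_lit 5) (nat_lit 20) (nat_lit 5) (nat_lit 19) (nat_lit 4) (nat_lit 398) (nat_lit 365) (nat_lit 137))) (XT.nd (nat_lit 78) (nat_lit 76) (nat_lit 0) (XT.lf (nat_lit 0) (nat_lit 776686815877) (nat_lit 76) (nat_lit 979870473636) (nat_lit 152) (nat_lit 1320457562534) (nat_lit 17) (nat_lit 5) (nat_lit 18) (nat_lit 5) (nat_lit 19) (nat_lit 4) (nat_lit 399) (nat_lit 365) (nat_lit 136)) (XT.nd (nat_lit 78) (nat_lit 76) (nat_lit 0) (XT.lf (nat_lit 0) (nat_lit 2328569437051) (nat_lit 76) (nat_lit 174085268761) (nat_lit 152) (nat_lit 754553328441) (nat_lit 17) (nat_lit 5) (nat_lit 18) (nat_lit 5) (nat_lit 19) (nat_lit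 4) (nat_lit 400) (nat_lit 365) (nat_lit 135)) (XT.lf (nat_lit 0) (nat_lit 564270349266) (nat_lit 76) (nat_lit 2774483009901) (nat_lit 76) (nat_lit 110638236368) (nat_lit 16) (nat_lit 4) (nat_lit 17) (nat_lit 5) (nat_lit 17) (nat_lit 4) (nat_lit 401) (nat_lit 365) (nat_lit 134))))))) (XT.nd (nat_lit 44616) (nat_lit 0) (nat_lit 1748) (XT.nd (nat_lit 44304) (nat_lit 0) (nat_lit 3040) (XT.nd (nat_lit 44148) (nat_lit 0) (nat_lit 2964) (XT.nd (nat_lit 44070) (nat_lit 0) (nat_lit 2964) (XT.lf (nat_lit 0) (nat_lit 586108310039) (nat_lit 152) (nat_lit 1444739492403) (nat_lit 76) (nat_lit 1622531156926) (nat_lit 15) (nat_lit 5) (nat_lit 17) (nat_lit 5) (nat_lit 16) (nat_lit 4) (nat_lit 402) (nat_lit 365) (nat_lit 133)) (XT.lf (nat_lit 0) (nat_lit 252557483876) (nat_lit 532) (nat_lit 37403311735) (nat_lit 532) (nat_lit 37403311735) (nat_lit 54) (nat_lit 3) (nat_lit 61) (nat_lit 3) (nat_lit 61) (nat_lit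 5) (nat_lit 366) (nat_lit 366) (nat_lit 168))) (XT.nd (nat_lit 78) (nat_lit 0) (nat_lit 76) (XT.lf (nat_lit 76) (nat_lit 247553961157) (nat_lit 0) (nat_lit 283719425428) (nat_lit 532) (nat_lit 149167650831) (nat_lit 55) (nat_lit 5) (nat_lit 54) (nat_lit 3) (nat_lit 61) (nat_lit 5) (nat_lit 367) (nat_lit 366) (nat_lit 167)) (XT.lf (nat_lit 0) (nat_lit 562493039993) (nat_lit 456) (nat_lit 109012785768) (nat_lit 532) (nat_lit 36467575332) (nat_lit 55) (nat_lit 5) (nat_lit 61) (nat_lit 5) (nat_lit 62) (nat_lit 5) (nat_lit 368) (nat_lit 366) (nat_lit 166)))) (XT.nd (nat_lit 156) (nat_lit 0) (nat_lit 76) (XT.nd (nat_lit 78) (nat_lit 0) (nat_lit 0) (XT.lf (nat_lit 76) (nat_lit 245692644701) (nat_lit 0) (nat_lit 363795857573) (nat_lit 532) (nat_lit 127157592687) (nat_lit 56) (nat_lit 5) (nat_lit 55) (nat_lit 5) (nat_lit 62) (nat_lit 5) (nat_lit 369) (nat_lit 366) (nat_lit 165)) (XT.lf (nat_lit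 76) (nat_lit 634974154864) (nat_lit 0) (nat_lit 28250037055) (nat_lit 532) (nat_lit 104149965211) (nat_lit 56) (nat_lit 5) (nat_lit 55) (nat_lit 5) (nat_lit 62) (nat_lit 5) (nat_lit 370) (nat_lit 366) (nat_lit 164))) (XT.nd (nat_lit 78) (nat_lit 0) (nat_lit 0) (XT.lf (nat_lit 76) (nat_lit 259797788484) (nat_lit 0) (nat_lit 475745141734) (nat_lit 532) (nat_lit 63874798597) (nat_lit 57) (nat_lit 5) (nat_lit 56) (nat_lit 5) (nat_lit 63) (nat_lit 5) (nat_lit 371) (nat_lit 366) (nat_lit 163)) (XT.lf (nat_lit 76) (nat_lit 690128693229) (nat_lit 0) (nat_lit 127853705127) (nat_lit 532) (nat_lit 15695569435) (nat_lit 57) (nat_lit 5) (nat_lit 56) (nat_lit 5) (nat_lit 63) (nat_lit 5) (nat_lit 372) (nat_lit 366) (nat_lit 162))))) (XT.nd (nat_lit 312) (nat_lit 608) (nat_lit 0) (XT.nd (nat_lit 156) (nat_lit 304) (nat_lit 0) (XT.nd (nat_lit 78) (nat_lit 0) (nat_lit 0) (XT.lf (nat_lit 0) (nat_lit 47863471515)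 (nat_lit 532) (nat_lit 577952615158) (nat_lit 76) (nat_lit 243725565067) (nat_lit 50) (nat_lit 5) (nat_lit 57) (nat_lit 5) (nat_lit 51) (nat_lit 5) (nat_lit 373) (nat_lit 366) (nat_lit 161)) (XT.lf (nat_lit 0) (nat_lit 123006969942) (nat_lit 532) (nat_lit 142088758997) (nat_lit 76) (nat_lit 642558271101) (nat_lit 50) (nat_lit 5) (nat_lit 57) (nat_lit 5) (nat_lit 51) (nat_lit 5) (nat_lit 374) (nat_lit 366) (nat_lit 160))) (XT.nd (nat_lit 78) (nat_lit 0) (nat_lit 0) (XT.lf (nat_lit 0) (nat_lit 215691953541) (nat_lit 380) (nat_lit 605409618185) (nat_lit 76) (nat_lit 126791364067) (nat_lit 46) (nat_lit 5) (nat_lit 51) (nat_lit 5) (nat_lit 47) (nat_lit 5) (nat_lit 375) (nat_lit 366) (nat_lit 159)) (XT.lf (nat_lit 0) (nat_lit 326663197219) (nat_lit 380) (nat_lit 124124836076) (nat_lit 76) (nat_lit 539693236215) (nat_lit 46) (nat_lit 5) (nat_lit 51) (nat_lit 5) (nat_lit 47) (nat_lit 5) (nat_lit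 376) (nat_lit 366) (nat_lit 158)))) (XT.nd (nat_lit 156) (nat_lit 380) (nat_lit 0) (XT.nd (nat_lit 78) (nat_lit 0) (nat_lit 0) (XT.lf (nat_lit 0) (nat_lit 416497617986) (nat_lit 228) (nat_lit 40031292314) (nat_lit 304) (nat_lit 579146418042) (nat_lit 43) (nat_lit 5) (nat_lit 46) (nat_lit 5) (nat_lit 47) (nat_lit 5) (nat_lit 377) (nat_lit 366) (nat_lit 157)) (XT.lf (nat_lit 0) (nat_lit 609972069149) (nat_lit 304) (nat_lit 86578862512) (nat_lit 76) (nat_lit 386878925133) (nat_lit 43) (nat_lit 5) (nat_lit 47) (nat_lit 5) (nat_lit 44) (nat_lit 5) (nat_lit 378) (nat_lit 366) (nat_lit 156))) (XT.nd (nat_lit 78) (nat_lit 152) (nat_lit 0) (XT.lf (nat_lit 0) (nat_lit 513263637163) (nat_lit 228) (nat_lit 275810813287) (nat_lit 304) (nat_lit 344859595504) (nat_lit 40) (nat_lit 5) (nat_lit 43) (nat_lit 5) (nat_lit 44) (nat_lit 5) (nat_lit 379) (nat_lit 366) (nat_lit 155)) (XT.nd (nat_lit 78) (nat_lit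 152) (nat_lit 0) (XT.lf (nat_lit 0) (nat_lit 989228779474) (nat_lit 304) (nat_lit 26628391866) (nat_lit 76) (nat_lit 172083498337) (nat_lit 40) (nat_lit 5) (nat_lit 44) (nat_lit 5) (nat_lit 41) (nat_lit 5) (nat_lit 380) (nat_lit 366) (nat_lit 154)) (XT.lf (nat_lit 0) (nat_lit 639777313819) (nat_lit 152) (nat_lit 588168711897) (nat_lit 228) (nat_lit 16517751921) (nat_lit 38) (nat_lit 5) (nat_lit 40) (nat_lit 5) (nat_lit 41) (nat_lit 5) (nat_lit 381) (nat_lit 366) (nat_lit 153))))))))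
noncomputable def xc243 : XT := (XT.nd (nat_lit 1326) (nat_lit 76) (nat_lit 0) (XT.nd (nat_lit 624) (nat_lit 684) (nat_lit 0) (XT.nd (nat_lit 312) (nat_lit 380) (nat_lit 0) (XT.nd (nat_lit 156) (nat_lit 152) (nat_lit 0) (XT.nd (nat_lit 78) (nat_lit 0) (nat_lit 0) (XT.lf (nat_lit 0) (nat_lit 53901770594) (nat_lit 228) (nat_lit 119376527036) (nat_lit 304) (nat_lit 1131720166683) (nat_lit 34) (nat_lit 5) (nat_lit 37) (nat_lit 5) (nat_lit 38) (nat_lit 5) (nat_lit 382) (nat_lit 366) (nat_lit 152)) (XT.lf (nat_lit 0) (nat_lit 403633683033) (nat_lit 304) (nat_lit 579651037581) (nat_lit 76) (nat_lit 384955439553) (nat_lit 34) (nat_lit 5) (nat_lit 38) (nat_lit 5) (nat_lit 35) (nat_lit 5) (nat_lit 383) (nat_lit 366) (nat_lit 151))) (XT.nd (nat_lit 78) (nat_lit 0) (nat_lit 0) (XT.lf (nat_lit 0) (nat_lit 149908610390) (nat_lit 152) (nat_lit 509214878216) (nat_lit 228) (nat_lit 776881223942) (nat_lit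 32) (nat_lit 5) (nat_lit 34) (nat_lit 5) (nat_lit 35) (nat_lit 5) (nat_lit 384) (nat_lit 366) (nat_lit 150)) (XT.lf (nat_lit 0) (nat_lit 951379686564) (nat_lit 228) (nat_lit 537602770045) (nat_lit 76) (nat_lit 18901795882) (nat_lit 32) (nat_lit 5) (nat_lit 35) (nat_lit 5) (nat_lit 33) (nat_lit 5) (nat_lit 385) (nat_lit 366) (nat_lit 149)))) (XT.nd (nat_lit 156) (nat_lit 228) (nat_lit 0) (XT.nd (nat_lit 78) (nat_lit 0) (nat_lit 0) (XT.lf (nat_lit 0) (nat_lit 271105453872) (nat_lit 152) (nat_lit 1015657374839) (nat_lit 228) (nat_lit 297171611056) (nat_lit 30) (nat_lit 5) (nat_lit 32) (nat_lit 5) (nat_lit 33) (nat_lit 5) (nat_lit 386) (nat_lit 366) (nat_lit 148)) (XT.lf (nat_lit 0) (nat_lit 1175084274694) (nat_lit 152) (nat_lit 488591355369) (nat_lit 228) (nat_lit 1217091341) (nat_lit 30) (nat_lit 5) (nat_lit 32) (nat_lit 5) (nat_lit 33) (nat_lit 5) (nat_lit 387) (nat_lit 366) (nat_lit 147)))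 (XT.nd (nat_lit 78) (nat_lit 0) (nat_lit 0) (XT.lf (nat_lit 0) (nat_lit 314789862705) (nat_lit 228) (nat_lit 1341311922429) (nat_lit 76) (nat_lit 94628898088) (nat_lit 27) (nat_lit 5) (nat_lit 30) (nat_lit 5) (nat_lit 28) (nat_lit 5) (nat_lit 388) (nat_lit 366) (nat_lit 146)) (XT.lf (nat_lit 0) (nat_lit 682442379916) (nat_lit 228) (nat_lit 446994472455) (nat_lit 76) (nat_lit 711881839687) (nat_lit 27) (nat_lit 5) (nat_lit 30) (nat_lit 5) (nat_lit 28) (nat_lit 5) (nat_lit 389) (nat_lit 366) (nat_lit 145))))) (XT.nd (nat_lit 312) (nat_lit 380) (nat_lit 0) (XT.nd (nat_lit 156) (nat_lit 152) (nat_lit 0) (XT.nd (nat_lit 78) (nat_lit 0) (nat_lit 0) (XT.lf (nat_lit 0) (nat_lit 546191055980) (nat_lit 152) (nat_lit 546451946600) (nat_lit 228) (nat_lit 845459866699) (nat_lit 25) (nat_lit 5) (nat_lit 27) (nat_lit 5) (nat_lit 28) (nat_lit 5) (nat_lit 390) (nat_lit 366) (nat_lit 144)) (XT.lf (nat_lit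 0) (nat_lit 1550199019542) (nat_lit 228) (nat_lit 399717386255) (nat_lit 76) (nat_lit 91550227326) (nat_lit 25) (nat_lit 5) (nat_lit 28) (nat_lit 5) (nat_lit 26) (nat_lit 4) (nat_lit 391) (nat_lit 366) (nat_lit 143))) (XT.nd (nat_lit 78) (nat_lit 76) (nat_lit 0) (XT.lf (nat_lit 0) (nat_lit 692290191184) (nat_lit 76) (nat_lit 1382912475900) (nat_lit 152) (nat_lit 75429379054) (nat_lit 24) (nat_lit 5) (nat_lit 25) (nat_lit 5) (nat_lit 26) (nat_lit 4) (nat_lit 392) (nat_lit 366) (nat_lit 142)) (XT.lf (nat_lit 0) (nat_lit 366195979419) (nat_lit 152) (nat_lit 382536507194) (nat_lit 76) (nat_lit 1518182224582) (nat_lit 23) (nat_lit 5) (nat_lit 25) (nat_lit 5) (nat_lit 24) (nat_lit 5) (nat_lit 393) (nat_lit 366) (nat_lit 141)))) (XT.nd (nat_lit 156) (nat_lit 228) (nat_lit 0) (XT.nd (nat_lit 78) (nat_lit 0) (nat_lit 0) (XT.lf (nat_lit 0) (nat_lit 818309198546) (nat_lit 152) (nat_lit 40447374975)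 (nat_lit 228) (nat_lit 1532012251356) (nat_lit 21) (nat_lit 5) (nat_lit 23) (nat_lit 5) (nat_lit 24) (nat_lit 5) (nat_lit 394) (nat_lit 366) (nat_lit 140)) (XT.lf (nat_lit 0) (nat_lit 1418877161709) (nat_lit 228) (nat_lit 404412707997) (nat_lit 76) (nat_lit 698988986225) (nat_lit 21) (nat_lit 5) (nat_lit 24) (nat_lit 5) (nat_lit 22) (nat_lit 4) (nat_lit 395) (nat_lit 366) (nat_lit 139))) (XT.nd (nat_lit 78) (nat_lit 152) (nat_lit 0) (XT.lf (nat_lit 0) (nat_lit 901104262197) (nat_lit 76) (nat_lit 1145425292121) (nat_lit 152) (nat_lit 615962362567) (nat_lit 20) (nat_lit 5) (nat_lit 21) (nat_lit 5) (nat_lit 22) (nat_lit 4) (nat_lit 396) (nat_lit 366) (nat_lit 138)) (XT.nd (nat_lit 78) (nat_lit 152) (nat_lit 0) (XT.lf (nat_lit 0) (nat_lit 2334061894054) (nat_lit 76) (nat_lit 401389601519) (nat_lit 152) (nat_lit 77585938562) (nat_lit 20) (nat_lit 5) (nat_lit 21) (nat_lit 5) (nat_lit 22) (nat_lit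 4) (nat_lit 397) (nat_lit 366) (nat_lit 137)) (XT.lf (nat_lit 0) (nat_lit 511860856308) (nat_lit 152) (nat_lit 2042437957999) (nat_lit 76) (nat_lit 417701917315) (nat_lit 18) (nat_lit 5) (nat_lit 20) (nat_lit 5) (nat_lit 19) (nat_lit 4) (nat_lit 398) (nat_lit 366) (nat_lit 136))))))) (XT.nd (nat_lit 44850) (nat_lit 0) (nat_lit 1748) (XT.nd (nat_lit 44460) (nat_lit 0) (nat_lit 2812) (XT.nd (nat_lit 156) (nat_lit 0) (nat_lit 0) (XT.nd (nat_lit 78) (nat_lit 76) (nat_lit 0) (XT.lf (nat_lit 0) (nat_lit 1168133637078) (nat_lit 152) (nat_lit 677390578725) (nat_lit 76) (nat_lit 1296086707718) (nat_lit 18) (nat_lit 5) (nat_lit 20) (nat_lit 5) (nat_lit 19) (nat_lit 4) (nat_lit 399) (nat_lit 366) (nat_lit 135)) (XT.lf (nat_lit 0) (nat_lit 838821852754) (nat_lit 76) (nat_lit 1058260070793) (nat_lit 152) (nat_lit 1426094112565) (nat_lit 17) (nat_lit 5) (nat_lit 18) (nat_lit 5) (nat_lit 19) (nat_lit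 4) (nat_lit 400) (nat_lit 366) (nat_lit 134))) (XT.nd (nat_lit 44226) (nat_lit 0) (nat_lit 2812) (XT.lf (nat_lit 0) (nat_lit 2514855076836) (nat_lit 76) (nat_lit 188012052545) (nat_lit 152) (nat_lit 814917543816) (nat_lit 17) (nat_lit 5) (nat_lit 18) (nat_lit 5) (nat_lit 19) (nat_lit 4) (nat_lit 401) (nat_lit 366) (nat_lit 133)) (XT.lf (nat_lit 0) (nat_lit 272762220588) (nat_lit 532) (nat_lit 40395502027) (nat_lit 532) (nat_lit 40395502027) (nat_lit 54) (nat_lit 3) (nat_lit 61) (nat_lit 3) (nat_lit 61) (nat_lit 5) (nat_lit 367) (nat_lit 367) (nat_lit 166)))) (XT.nd (nat_lit 156) (nat_lit 0) (nat_lit 76) (XT.nd (nat_lit 78) (nat_lit 0) (nat_lit 76) (XT.lf (nat_lit 76) (nat_lit 267358423564) (nat_lit 0) (nat_lit 306417093007) (nat_lit 532) (nat_lit 161100782647) (nat_lit 55) (nat_lit 5) (nat_lit 54) (nat_lit 3) (nat_lit 61) (nat_lit 5) (nat_lit 368) (nat_lit 367) (nat_lit 165)) (XT.lf (nat_lit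 0) (nat_lit 607492720533) (nat_lit 456) (nat_lit 117733651744) (nat_lit 532) (nat_lit 39384881485) (nat_lit 55) (nat_lit 5) (nat_lit 61) (nat_lit 5) (nat_lit 62) (nat_lit 5) (nat_lit 369) (nat_lit 367) (nat_lit 164))) (XT.nd (nat_lit 78) (nat_lit 0) (nat_lit 0) (XT.lf (nat_lit 76) (nat_lit 265348209191) (nat_lit 0) (nat_lit 392899596702) (nat_lit 532) (nat_lit 137329958390) (nat_lit 56) (nat_lit 5) (nat_lit 55) (nat_lit 5) (nat_lit 62) (nat_lit 5) (nat_lit 370) (nat_lit 367) (nat_lit 163)) (XT.nd (nat_lit 78) (nat_lit 0) (nat_lit 76) (XT.lf (nat_lit 76) (nat_lit 685772228840) (nat_lit 0) (nat_lit 30510105319) (nat_lit 532) (nat_lit 112481738620) (nat_lit 56) (nat_lit 5) (nat_lit 55) (nat_lit 5) (nat_lit 62) (nat_lit 5) (nat_lit 371) (nat_lit 367) (nat_lit 162)) (XT.lf (nat_lit 76) (nat_lit 280581767590) (nat_lit 0) (nat_lit 513804790906) (nat_lit 532) (nat_lit 68984572772) (nat_lit 57)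 (nat_lit 5) (nat_lit 56) (nat_lit 5) (nat_lit 63) (nat_lit 5) (nat_lit 372) (nat_lit 367) (nat_lit 161)))))) (XT.nd (nat_lit 312) (nat_lit 456) (nat_lit 0) (XT.nd (nat_lit 156) (nat_lit 304) (nat_lit 0) (XT.nd (nat_lit 78) (nat_lit 456) (nat_lit 0) (XT.lf (nat_lit 76) (nat_lit 745339133156) (nat_lit 0) (nat_lit 138082036568) (nat_lit 532) (nat_lit 16951020812) (nat_lit 57) (nat_lit 5) (nat_lit 56) (nat_lit 5) (nat_lit 63) (nat_lit 5) (nat_lit 373) (nat_lit 367) (nat_lit 160)) (XT.lf (nat_lit 0) (nat_lit 51692723084) (nat_lit 532) (nat_lit 624188659005) (nat_lit 76) (nat_lit 263223587610) (nat_lit 50) (nat_lit 5) (nat_lit 57) (nat_lit 5) (nat_lit 51) (nat_lit 5) (nat_lit 374) (nat_lit 367) (nat_lit 159))) (XT.nd (nat_lit 78) (nat_lit 304) (nat_lit 0) (XT.lf (nat_lit 0) (nat_lit 132847688507) (nat_lit 532) (nat_lit 153455706600) (nat_lit 76) (nat_lit 693962911806) (nat_lit 50) (nat_lit 5)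 (nat_lit 57) (nat_lit 5) (nat_lit 51) (nat_lit 5) (nat_lit 375) (nat_lit 367) (nat_lit 158)) (XT.lf (nat_lit 0) (nat_lit 232947462379) (nat_lit 380) (nat_lit 653842225873) (nat_lit 76) (nat_lit 136934669967) (nat_lit 46) (nat_lit 5) (nat_lit 51) (nat_lit 5) (nat_lit 47) (nat_lit 5) (nat_lit 376) (nat_lit 367) (nat_lit 157)))) (XT.nd (nat_lit 156) (nat_lit 228) (nat_lit 0) (XT.nd (nat_lit 78) (nat_lit 228) (nat_lit 0) (XT.lf (nat_lit 0) (nat_lit 352796394250) (nat_lit 380) (nat_lit 134054673179) (nat_lit 76) (nat_lit 582868692125) (nat_lit 46) (nat_lit 5) (nat_lit 51) (nat_lit 5) (nat_lit 47) (nat_lit 5) (nat_lit 377) (nat_lit 367) (nat_lit 156)) (XT.lf (nat_lit 0) (nat_lit 449817573416) (nat_lit 228) (nat_lit 43233784009) (nat_lit 304) (nat_lit 625477986239) (nat_lit 43) (nat_lit 5) (nat_lit 46) (nat_lit 5) (nat_lit 47) (nat_lit 5) (nat_lit 378) (nat_lit 367) (nat_lit 155))) (XT.nd (nat_lit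 78) (nat_lit 228) (nat_lit 0) (XT.lf (nat_lit 0) (nat_lit 658769959294) (nat_lit 304) (nat_lit 93505026463) (nat_lit 76) (nat_lit 417829249426) (nat_lit 43) (nat_lit 5) (nat_lit 47) (nat_lit 5) (nat_lit 44) (nat_lit 5) (nat_lit 379) (nat_lit 367) (nat_lit 154)) (XT.nd (nat_lit 78) (nat_lit 0) (nat_lit 0) (XT.lf (nat_lit 0) (nat_lit 554324869515) (nat_lit 228) (nat_lit 297875655754) (nat_lit 304) (nat_lit 372448234687) (nat_lit 40) (nat_lit 5) (nat_lit 43) (nat_lit 5) (nat_lit 44) (nat_lit 5) (nat_lit 380) (nat_lit 367) (nat_lit 153)) (XT.lf (nat_lit 0) (nat_lit 1068367192320) (nat_lit 304) (nat_lit 28758523855) (nat_lit 76) (nat_lit 185850198079) (nat_lit 40) (nat_lit 5) (nat_lit 44) (nat_lit 5) (nat_lit 41) (nat_lit 5) (nat_lit 381) (nat_lit 367) (nat_lit 152))))))))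
noncomputable def xc244 : XT := (XT.nd (nat_lit 1326) (nat_lit 228) (nat_lit 0) (XT.nd (nat_lit 624) (nat_lit 532) (nat_lit 0) (XT.nd (nat_lit 312) (nat_lit 380) (nat_lit 0) (XT.nd (nat_lit 156) (nat_lit 152) (nat_lit 0) (XT.nd (nat_lit 78) (nat_lit 304) (nat_lit 0) (XT.lf (nat_lit 0) (nat_lit 690959634756) (nat_lit 152) (nat_lit 635222178587) (nat_lit 228) (nat_lit 17839057912) (nat_lit 38) (nat_lit 5) (nat_lit 40) (nat_lit 5) (nat_lit 41) (nat_lit 5) (nat_lit 382) (nat_lit 367) (nat_lit 151)) (XT.lf (nat_lit 0) (nat_lit 58214050335) (nat_lit 228) (nat_lit 128926614845) (nat_lit 304) (nat_lit 1222257667852) (nat_lit 34) (nat_lit 5) (nat_lit 37) (nat_lit 5) (nat_lit 38) (nat_lit 5) (nat_lit 383) (nat_lit 367) (nat_lit 150))) (XT.nd (nat_lit 78) (nat_lit 152) (nat_lit 0) (XT.lf (nat_lit 0) (nat_lit 435924474495) (nat_lit 304) (nat_lit 626022985688) (nat_lit 76) (nat_lit 415751904934) (nat_lit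 34) (nat_lit 5) (nat_lit 38) (nat_lit 5) (nat_lit 35) (nat_lit 5) (nat_lit 384) (nat_lit 367) (nat_lit 149)) (XT.lf (nat_lit 0) (nat_lit 161901430705) (nat_lit 152) (nat_lit 549952029800) (nat_lit 228) (nat_lit 839031621514) (nat_lit 32) (nat_lit 5) (nat_lit 34) (nat_lit 5) (nat_lit 35) (nat_lit 5) (nat_lit 385) (nat_lit 367) (nat_lit 148)))) (XT.nd (nat_lit 156) (nat_lit 228) (nat_lit 0) (XT.nd (nat_lit 78) (nat_lit 152) (nat_lit 0) (XT.lf (nat_lit 0) (nat_lit 1027490148286) (nat_lit 228) (nat_lit 580610863790) (nat_lit 76) (nat_lit 20413973571) (nat_lit 32) (nat_lit 5) (nat_lit 35) (nat_lit 5) (nat_lit 33) (nat_lit 5) (nat_lit 386) (nat_lit 367) (nat_lit 147)) (XT.lf (nat_lit 0) (nat_lit 292794014803) (nat_lit 152) (nat_lit 1096909923569) (nat_lit 228) (nat_lit 320945249814) (nat_lit 30) (nat_lit 5) (nat_lit 32) (nat_lit 5) (nat_lit 33) (nat_lit 5) (nat_lit 387) (nat_lit 367) (nat_lit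 146))) (XT.nd (nat_lit 78) (nat_lit 228) (nat_lit 0) (XT.lf (nat_lit 0) (nat_lit 1269091132060) (nat_lit 152) (nat_lit 527678625597) (nat_lit 228) (nat_lit 1314375198) (nat_lit 30) (nat_lit 5) (nat_lit 32) (nat_lit 5) (nat_lit 33) (nat_lit 5) (nat_lit 388) (nat_lit 367) (nat_lit 145)) (XT.lf (nat_lit 0) (nat_lit 339973128902) (nat_lit 228) (nat_lit 1448616754409) (nat_lit 76) (nat_lit 102199248321) (nat_lit 27) (nat_lit 5) (nat_lit 30) (nat_lit 5) (nat_lit 28) (nat_lit 5) (nat_lit 389) (nat_lit 367) (nat_lit 144))))) (XT.nd (nat_lit 312) (nat_lit 304) (nat_lit 0) (XT.nd (nat_lit 156) (nat_lit 76) (nat_lit 0) (XT.nd (nat_lit 78) (nat_lit 152) (nat_lit 0) (XT.lf (nat_lit 0) (nat_lit 737037841773) (nat_lit 228) (nat_lit 482753917460) (nat_lit 76) (nat_lit 768832422405) (nat_lit 27) (nat_lit 5) (nat_lit 30) (nat_lit 5) (nat_lit 28) (nat_lit 5) (nat_lit 390) (nat_lit 367) (nat_lit 143)) (XT.lf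 (nat_lit 0) (nat_lit 589886450394) (nat_lit 152) (nat_lit 590168061207) (nat_lit 228) (nat_lit 913096581653) (nat_lit 25) (nat_lit 5) (nat_lit 27) (nat_lit 5) (nat_lit 28) (nat_lit 5) (nat_lit 391) (nat_lit 367) (nat_lit 142))) (XT.nd (nat_lit 78) (nat_lit 76) (nat_lit 0) (XT.lf (nat_lit 0) (nat_lit 1674215005737) (nat_lit 228) (nat_lit 431694671123) (nat_lit 76) (nat_lit 98874281683) (nat_lit 25) (nat_lit 5) (nat_lit 28) (nat_lit 5) (nat_lit 26) (nat_lit 4) (nat_lit 392) (nat_lit 367) (nat_lit 141)) (XT.lf (nat_lit 0) (nat_lit 747673509826) (nat_lit 76) (nat_lit 1493545432954) (nat_lit 152) (nat_lit 81463662008) (nat_lit 24) (nat_lit 5) (nat_lit 25) (nat_lit 5) (nat_lit 26) (nat_lit 4) (nat_lit 393) (nat_lit 367) (nat_lit 140)))) (XT.nd (nat_lit 156) (nat_lit 76) (nat_lit 0) (XT.nd (nat_lit 78) (nat_lit 152) (nat_lit 0) (XT.lf (nat_lit 0) (nat_lit 395491717032) (nat_lit 152) (nat_lit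 413139328911) (nat_lit 76) (nat_lit 1639636837362) (nat_lit 23) (nat_lit 5) (nat_lit 25) (nat_lit 5) (nat_lit 24) (nat_lit 5) (nat_lit 394) (nat_lit 367) (nat_lit 139)) (XT.lf (nat_lit 0) (nat_lit 883774030786) (nat_lit 152) (nat_lit 43683125804) (nat_lit 228) (nat_lit 1654573169659) (nat_lit 21) (nat_lit 5) (nat_lit 23) (nat_lit 5) (nat_lit 24) (nat_lit 5) (nat_lit 395) (nat_lit 367) (nat_lit 138))) (XT.nd (nat_lit 78) (nat_lit 76) (nat_lit 0) (XT.lf (nat_lit 0) (nat_lit 1532387388469) (nat_lit 228) (nat_lit 436765632014) (nat_lit 76) (nat_lit 754908139577) (nat_lit 21) (nat_lit 5) (nat_lit 24) (nat_lit 5) (nat_lit 22) (nat_lit 4) (nat_lit 396) (nat_lit 367) (nat_lit 137)) (XT.nd (nat_lit 78) (nat_lit 0) (nat_lit 0) (XT.lf (nat_lit 0) (nat_lit 973192693450) (nat_lit 76) (nat_lit 1237059277220) (nat_lit 152) (nat_lit 665239295367) (nat_lit 20) (nat_lit 5) (nat_lit 21) (nat_lit 5) (nat_lit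 22) (nat_lit 4) (nat_lit 397) (nat_lit 367) (nat_lit 136)) (XT.lf (nat_lit 0) (nat_lit 2520786929168) (nat_lit 76) (nat_lit 433500734205) (nat_lit 152) (nat_lit 83792761606) (nat_lit 20) (nat_lit 5) (nat_lit 21) (nat_lit 5) (nat_lit 22) (nat_lit 4) (nat_lit 398) (nat_lit 367) (nat_lit 135))))))) (XT.nd (nat_lit 44850) (nat_lit 0) (nat_lit 1748) (XT.nd (nat_lit 44538) (nat_lit 0) (nat_lit 2812) (XT.nd (nat_lit 156) (nat_lit 76) (nat_lit 0) (XT.nd (nat_lit 78) (nat_lit 0) (nat_lit 0) (XT.lf (nat_lit 0) (nat_lit 552809773482) (nat_lit 152) (nat_lit 2205832907616) (nat_lit 76) (nat_lit 451118105133) (nat_lit 18) (nat_lit 5) (nat_lit 20) (nat_lit 5) (nat_lit 19) (nat_lit 4) (nat_lit 399) (nat_lit 367) (nat_lit 134)) (XT.lf (nat_lit 0) (nat_lit 1261584373109) (nat_lit 152) (nat_lit 731581744445) (nat_lit 76) (nat_lit 1399773676216) (nat_lit 18) (nat_lit 5) (nat_lit 20) (nat_lit 5) (nat_lit 19)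 (nat_lit 4) (nat_lit 400) (nat_lit 367) (nat_lit 133))) (XT.nd (nat_lit 44304) (nat_lit 0) (nat_lit 2812) (XT.lf (nat_lit 0) (nat_lit 905927679512) (nat_lit 76) (nat_lit 1142920841534) (nat_lit 152) (nat_lit 1540181594442) (nat_lit 17) (nat_lit 5) (nat_lit 18) (nat_lit 5) (nat_lit 19) (nat_lit 4) (nat_lit 401) (nat_lit 367) (nat_lit 132)) (XT.lf (nat_lit 0) (nat_lit 294583316550) (nat_lit 532) (nat_lit 43627078192) (nat_lit 532) (nat_lit 43627078192) (nat_lit 54) (nat_lit 3) (nat_lit 61) (nat_lit 3) (nat_lit 61) (nat_lit 5) (nat_lit 368) (nat_lit 368) (nat_lit 164)))) (XT.nd (nat_lit 156) (nat_lit 0) (nat_lit 76) (XT.nd (nat_lit 78) (nat_lit 0) (nat_lit 76) (XT.lf (nat_lit 76) (nat_lit 288747222204) (nat_lit 0) (nat_lit 330930557793) (nat_lit 532) (nat_lit 173988604989) (nat_lit 55) (nat_lit 5) (nat_lit 54) (nat_lit 3) (nat_lit 61) (nat_lit 5) (nat_lit 369) (nat_lit 368) (nat_lit 163))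 (XT.lf (nat_lit 0) (nat_lit 656092341658) (nat_lit 456) (nat_lit 127152209379) (nat_lit 532) (nat_lit 42535586377) (nat_lit 55) (nat_lit 5) (nat_lit 61) (nat_lit 5) (nat_lit 62) (nat_lit 5) (nat_lit 370) (nat_lit 368) (nat_lit 162))) (XT.nd (nat_lit 78) (nat_lit 0) (nat_lit 0) (XT.lf (nat_lit 76) (nat_lit 286576197026) (nat_lit 0) (nat_lit 424331624901) (nat_lit 532) (nat_lit 148316147831) (nat_lit 56) (nat_lit 5) (nat_lit 55) (nat_lit 5) (nat_lit 62) (nat_lit 5) (nat_lit 371) (nat_lit 368) (nat_lit 161)) (XT.lf (nat_lit 76) (nat_lit 740634128536) (nat_lit 0) (nat_lit 32950969728) (nat_lit 532) (nat_lit 121480085830) (nat_lit 56) (nat_lit 5) (nat_lit 55) (nat_lit 5) (nat_lit 62) (nat_lit 5) (nat_lit 372) (nat_lit 368) (nat_lit 160))))) (XT.nd (nat_lit 312) (nat_lit 760) (nat_lit 0) (XT.nd (nat_lit 156) (nat_lit 456) (nat_lit 0) (XT.nd (nat_lit 78) (nat_lit 0) (nat_lit 0) (XT.lf (nat_lit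 76) (nat_lit 303028442765) (nat_lit 0) (nat_lit 554909206614) (nat_lit 532) (nat_lit 74503158800) (nat_lit 57) (nat_lit 5) (nat_lit 56) (nat_lit 5) (nat_lit 63) (nat_lit 5) (nat_lit 373) (nat_lit 368) (nat_lit 159)) (XT.lf (nat_lit 76) (nat_lit 804966387667) (nat_lit 0) (nat_lit 149128629527) (nat_lit 532) (nat_lit 18306936001) (nat_lit 57) (nat_lit 5) (nat_lit 56) (nat_lit 5) (nat_lit 63) (nat_lit 5) (nat_lit 374) (nat_lit 368) (nat_lit 158))) (XT.nd (nat_lit 78) (nat_lit 0) (nat_lit 0) (XT.lf (nat_lit 0) (nat_lit 55828289977) (nat_lit 532) (nat_lit 674123609951) (nat_lit 76) (nat_lit 284281455190) (nat_lit 50) (nat_lit 5) (nat_lit 57) (nat_lit 5) (nat_lit 51) (nat_lit 5) (nat_lit 375) (nat_lit 368) (nat_lit 157)) (XT.lf (nat_lit 0) (nat_lit 143475641594) (nat_lit 532) (nat_lit 165732031855) (nat_lit 76) (nat_lit 749479926760) (nat_lit 50) (nat_lit 5) (nat_lit 57) (nat_lit 5) (nat_lit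 51) (nat_lit 5) (nat_lit 376) (nat_lit 368) (nat_lit 156)))) (XT.nd (nat_lit 156) (nat_lit 456) (nat_lit 0) (XT.nd (nat_lit 78) (nat_lit 0) (nat_lit 0) (XT.lf (nat_lit 0) (nat_lit 251583390159) (nat_lit 380) (nat_lit 706149465255) (nat_lit 76) (nat_lit 147889440799) (nat_lit 46) (nat_lit 5) (nat_lit 51) (nat_lit 5) (nat_lit 47) (nat_lit 5) (nat_lit 377) (nat_lit 368) (nat_lit 155)) (XT.lf (nat_lit 0) (nat_lit 381020226892) (nat_lit 380) (nat_lit 144778918618) (nat_lit 76) (nat_lit 629498184935) (nat_lit 46) (nat_lit 5) (nat_lit 51) (nat_lit 5) (nat_lit 47) (nat_lit 5) (nat_lit 378) (nat_lit 368) (nat_lit 154))) (XT.nd (nat_lit 78) (nat_lit 228) (nat_lit 0) (XT.lf (nat_lit 0) (nat_lit 485803104454) (nat_lit 228) (nat_lit 46692476708) (nat_lit 304) (nat_lit 675516100614) (nat_lit 43) (nat_lit 5) (nat_lit 46) (nat_lit 5) (nat_lit 47) (nat_lit 5) (nat_lit 379) (nat_lit 368) (nat_lit 153))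 (XT.nd (nat_lit 78) (nat_lit 228) (nat_lit 0) (XT.lf (nat_lit 0) (nat_lit 711471662874) (nat_lit 304) (nat_lit 100985304222) (nat_lit 76) (nat_lit 451255598196) (nat_lit 43) (nat_lit 5) (nat_lit 47) (nat_lit 5) (nat_lit 44) (nat_lit 5) (nat_lit 380) (nat_lit 368) (nat_lit 152)) (XT.lf (nat_lit 0) (nat_lit 598670980285) (nat_lit 228) (nat_lit 321705688843) (nat_lit 304) (nat_lit 402243983330) (nat_lit 40) (nat_lit 5) (nat_lit 43) (nat_lit 5) (nat_lit 44) (nat_lit 5) (nat_lit 381) (nat_lit 368) (nat_lit 151))))))))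
noncomputable def xc245 : XT := (XT.nd (nat_lit 1326) (nat_lit 152) (nat_lit 0) (XT.nd (nat_lit 624) (nat_lit 760) (nat_lit 0) (XT.nd (nat_lit 312) (nat_lit 304) (nat_lit 0) (XT.nd (nat_lit 156) (nat_lit 304) (nat_lit 0) (XT.nd (nat_lit 78) (nat_lit 152) (nat_lit 0) (XT.lf (nat_lit 0) (nat_lit 1153836662431) (nat_lit 304) (nat_lit 31059086285) (nat_lit 76) (nat_lit 200718230965) (nat_lit 40) (nat_lit 5) (nat_lit 44) (nat_lit 5) (nat_lit 41) (nat_lit 5) (nat_lit 382) (nat_lit 368) (nat_lit 150)) (XT.lf (nat_lit 0) (nat_lit 746236521991) (nat_lit 152) (nat_lit 686039926928) (nat_lit 228) (nat_lit 19266084669) (nat_lit 38) (nat_lit 5) (nat_lit 40) (nat_lit 5) (nat_lit 41) (nat_lit 5) (nat_lit 383) (nat_lit 368) (nat_lit 149))) (XT.nd (nat_lit 78) (nat_lit 0) (nat_lit 0) (XT.lf (nat_lit 0) (nat_lit 62871292754) (nat_lit 228) (nat_lit 139240714581) (nat_lit 304) (nat_lit 1320038185117) (nat_lit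 34) (nat_lit 5) (nat_lit 37) (nat_lit 5) (nat_lit 38) (nat_lit 5) (nat_lit 384) (nat_lit 368) (nat_lit 148)) (XT.lf (nat_lit 0) (nat_lit 470798515463) (nat_lit 304) (nat_lit 676104708888) (nat_lit 76) (nat_lit 449012083235) (nat_lit 34) (nat_lit 5) (nat_lit 38) (nat_lit 5) (nat_lit 35) (nat_lit 5) (nat_lit 385) (nat_lit 368) (nat_lit 147)))) (XT.nd (nat_lit 156) (nat_lit 152) (nat_lit 0) (XT.nd (nat_lit 78) (nat_lit 0) (nat_lit 0) (XT.lf (nat_lit 0) (nat_lit 174853657889) (nat_lit 152) (nat_lit 593948159027) (nat_lit 228) (nat_lit 906154065207) (nat_lit 32) (nat_lit 5) (nat_lit 34) (nat_lit 5) (nat_lit 35) (nat_lit 5) (nat_lit 386) (nat_lit 368) (nat_lit 146)) (XT.lf (nat_lit 0) (nat_lit 1109689434563) (nat_lit 228) (nat_lit 627059623275) (nat_lit 76) (nat_lit 22047120622) (nat_lit 32) (nat_lit 5) (nat_lit 35) (nat_lit 5) (nat_lit 33) (nat_lit 5) (nat_lit 387) (nat_lit 368) (nat_lit 145)))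 (XT.nd (nat_lit 78) (nat_lit 0) (nat_lit 0) (XT.lf (nat_lit 0) (nat_lit 316217642831) (nat_lit 152) (nat_lit 1184662682083) (nat_lit 228) (nat_lit 346620792531) (nat_lit 30) (nat_lit 5) (nat_lit 32) (nat_lit 5) (nat_lit 33) (nat_lit 5) (nat_lit 388) (nat_lit 368) (nat_lit 144)) (XT.lf (nat_lit 0) (nat_lit 1370618521554) (nat_lit 152) (nat_lit 569892882894) (nat_lit 228) (nat_lit 1419453669) (nat_lit 30) (nat_lit 5) (nat_lit 32) (nat_lit 5) (nat_lit 33) (nat_lit 5) (nat_lit 389) (nat_lit 368) (nat_lit 143))))) (XT.nd (nat_lit 312) (nat_lit 380) (nat_lit 0) (XT.nd (nat_lit 156) (nat_lit 152) (nat_lit 0) (XT.nd (nat_lit 78) (nat_lit 0) (nat_lit 0) (XT.lf (nat_lit 0) (nat_lit 367171045383) (nat_lit 228) (nat_lit 1564505990326) (nat_lit 76) (nat_lit 110375221096) (nat_lit 27) (nat_lit 5) (nat_lit 30) (nat_lit 5) (nat_lit 28) (nat_lit 5) (nat_lit 390) (nat_lit 368) (nat_lit 142)) (XT.lf (nat_lit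 0) (nat_lit 796000930383) (nat_lit 228) (nat_lit 521374134157) (nat_lit 76) (nat_lit 830339046669) (nat_lit 27) (nat_lit 5) (nat_lit 30) (nat_lit 5) (nat_lit 28) (nat_lit 5) (nat_lit 391) (nat_lit 368) (nat_lit 141))) (XT.nd (nat_lit 78) (nat_lit 0) (nat_lit 0) (XT.lf (nat_lit 0) (nat_lit 637077460677) (nat_lit 152) (nat_lit 637381470848) (nat_lit 228) (nat_lit 986144244415) (nat_lit 25) (nat_lit 5) (nat_lit 27) (nat_lit 5) (nat_lit 28) (nat_lit 5) (nat_lit 392) (nat_lit 368) (nat_lit 140)) (XT.lf (nat_lit 0) (nat_lit 1808152261608) (nat_lit 228) (nat_lit 466230153908) (nat_lit 76) (nat_lit 106784255229) (nat_lit 25) (nat_lit 5) (nat_lit 28) (nat_lit 5) (nat_lit 26) (nat_lit 4) (nat_lit 393) (nat_lit 368) (nat_lit 139)))) (XT.nd (nat_lit 156) (nat_lit 228) (nat_lit 0) (XT.nd (nat_lit 78) (nat_lit 76) (nat_lit 0) (XT.lf (nat_lit 0) (nat_lit 807487479216) (nat_lit 76) (nat_lit 1613029032424)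 (nat_lit 152) (nat_lit 87980697210) (nat_lit 24) (nat_lit 5) (nat_lit 25) (nat_lit 5) (nat_lit 26) (nat_lit 4) (nat_lit 394) (nat_lit 368) (nat_lit 138)) (XT.lf (nat_lit 0) (nat_lit 427131105200) (nat_lit 152) (nat_lit 446190390468) (nat_lit 76) (nat_lit 1770807814197) (nat_lit 23) (nat_lit 5) (nat_lit 25) (nat_lit 5) (nat_lit 24) (nat_lit 5) (nat_lit 395) (nat_lit 368) (nat_lit 137))) (XT.nd (nat_lit 78) (nat_lit 76) (nat_lit 0) (XT.lf (nat_lit 0) (nat_lit 954476035859) (nat_lit 152) (nat_lit 47177742287) (nat_lit 228) (nat_lit 1786938970244) (nat_lit 21) (nat_lit 5) (nat_lit 23) (nat_lit 5) (nat_lit 24) (nat_lit 5) (nat_lit 396) (nat_lit 368) (nat_lit 136)) (XT.nd (nat_lit 78) (nat_lit 76) (nat_lit 0) (XT.lf (nat_lit 0) (nat_lit 1654978425692) (nat_lit 228) (nat_lit 471706803167) (nat_lit 76) (nat_lit 815300820282) (nat_lit 21) (nat_lit 5) (nat_lit 24) (nat_lit 5) (nat_lit 22) (nat_lit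 4) (nat_lit 397) (nat_lit 368) (nat_lit 135)) (XT.lf (nat_lit 0) (nat_lit 1051048186325) (nat_lit 76) (nat_lit 1336023986588) (nat_lit 152) (nat_lit 718458390810) (nat_lit 20) (nat_lit 5) (nat_lit 21) (nat_lit 5) (nat_lit 22) (nat_lit 4) (nat_lit 398) (nat_lit 368) (nat_lit 134))))))) (XT.nd (nat_lit 45084) (nat_lit 0) (nat_lit 1520) (XT.nd (nat_lit 44694) (nat_lit 0) (nat_lit 2812) (XT.nd (nat_lit 44538) (nat_lit 0) (nat_lit 2736) (XT.nd (nat_lit 78) (nat_lit 152) (nat_lit 0) (XT.lf (nat_lit 0) (nat_lit 2722449955167) (nat_lit 76) (nat_lit 468180762562) (nat_lit 152) (nat_lit 90496137917) (nat_lit 20) (nat_lit 5) (nat_lit 21) (nat_lit 5) (nat_lit 22) (nat_lit 4) (nat_lit 399) (nat_lit 368) (nat_lit 133)) (XT.lf (nat_lit 0) (nat_lit 597034597087) (nat_lit 152) (nat_lit 2382299465616) (nat_lit 76) (nat_lit 487207583063) (nat_lit 18) (nat_lit 5) (nat_lit 20) (nat_lit 5) (nat_lit 19) (nat_lit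 4) (nat_lit 400) (nat_lit 368) (nat_lit 132))) (XT.nd (nat_lit 78) (nat_lit 0) (nat_lit 0) (XT.lf (nat_lit 0) (nat_lit 318150083309) (nat_lit 532) (nat_lit 47117189579) (nat_lit 532) (nat_lit 47117189579) (nat_lit 54) (nat_lit 3) (nat_lit 61) (nat_lit 3) (nat_lit 61) (nat_lit 5) (nat_lit 369) (nat_lit 369) (nat_lit 162)) (XT.lf (nat_lit 76) (nat_lit 311847106938) (nat_lit 0) (nat_lit 357405085875) (nat_lit 532) (nat_lit 187907487396) (nat_lit 55) (nat_lit 5) (nat_lit 54) (nat_lit 3) (nat_lit 61) (nat_lit 5) (nat_lit 370) (nat_lit 369) (nat_lit 161)))) (XT.nd (nat_lit 156) (nat_lit 0) (nat_lit 0) (XT.nd (nat_lit 78) (nat_lit 0) (nat_lit 0) (XT.lf (nat_lit 0) (nat_lit 708579903443) (nat_lit 456) (nat_lit 137324270813) (nat_lit 532) (nat_lit 45938359877) (nat_lit 55) (nat_lit 5) (nat_lit 61) (nat_lit 5) (nat_lit 62) (nat_lit 5) (nat_lit 371) (nat_lit 369) (nat_lit 160)) (XT.lf (nat_lit 76)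 (nat_lit 309502405184) (nat_lit 0) (nat_lit 458278206730) (nat_lit 532) (nat_lit 160181261992) (nat_lit 56) (nat_lit 5) (nat_lit 55) (nat_lit 5) (nat_lit 62) (nat_lit 5) (nat_lit 372) (nat_lit 369) (nat_lit 159))) (XT.nd (nat_lit 78) (nat_lit 0) (nat_lit 76) (XT.lf (nat_lit 76) (nat_lit 799884962889) (nat_lit 0) (nat_lit 35587095304) (nat_lit 532) (nat_lit 131198328191) (nat_lit 56) (nat_lit 5) (nat_lit 55) (nat_lit 5) (nat_lit 62) (nat_lit 5) (nat_lit 373) (nat_lit 369) (nat_lit 158)) (XT.nd (nat_lit 78) (nat_lit 0) (nat_lit 0) (XT.lf (nat_lit 76) (nat_lit 327270832870) (nat_lit 0) (nat_lit 599301970952) (nat_lit 532) (nat_lit 80463257360) (nat_lit 57) (nat_lit 5) (nat_lit 56) (nat_lit 5) (nat_lit 63) (nat_lit 5) (nat_lit 374) (nat_lit 369) (nat_lit 157)) (XT.lf (nat_lit 76) (nat_lit 869363804870) (nat_lit 0) (nat_lit 161058945638) (nat_lit 532) (nat_lit 19771348154) (nat_lit 57) (nat_lit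 5) (nat_lit 56) (nat_lit 5) (nat_lit 63) (nat_lit 5) (nat_lit 375) (nat_lit 369) (nat_lit 156)))))) (XT.nd (nat_lit 312) (nat_lit 608) (nat_lit 0) (XT.nd (nat_lit 156) (nat_lit 304) (nat_lit 0) (XT.nd (nat_lit 78) (nat_lit 0) (nat_lit 0) (XT.lf (nat_lit 0) (nat_lit 60294680958) (nat_lit 532) (nat_lit 728053377198) (nat_lit 76) (nat_lit 307023954948) (nat_lit 50) (nat_lit 5) (nat_lit 57) (nat_lit 5) (nat_lit 51) (nat_lit 5) (nat_lit 376) (nat_lit 369) (nat_lit 155)) (XT.lf (nat_lit 0) (nat_lit 154953811239) (nat_lit 532) (nat_lit 178990481859) (nat_lit 76) (nat_lit 809438305478) (nat_lit 50) (nat_lit 5) (nat_lit 57) (nat_lit 5) (nat_lit 51) (nat_lit 5) (nat_lit 377) (nat_lit 369) (nat_lit 154))) (XT.nd (nat_lit 78) (nat_lit 0) (nat_lit 0) (XT.lf (nat_lit 0) (nat_lit 271710173504) (nat_lit 380) (nat_lit 762641303572) (nat_lit 76) (nat_lit 159720593693) (nat_lit 46) (nat_lit 5) (nat_lit 51)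 (nat_lit 5) (nat_lit 47) (nat_lit 5) (nat_lit 378) (nat_lit 369) (nat_lit 153)) (XT.lf (nat_lit 0) (nat_lit 411501948869) (nat_lit 380) (nat_lit 156361122012) (nat_lit 76) (nat_lit 679858037534) (nat_lit 46) (nat_lit 5) (nat_lit 51) (nat_lit 5) (nat_lit 47) (nat_lit 5) (nat_lit 379) (nat_lit 369) (nat_lit 152)))) (XT.nd (nat_lit 156) (nat_lit 380) (nat_lit 0) (XT.nd (nat_lit 78) (nat_lit 0) (nat_lit 0) (XT.lf (nat_lit 0) (nat_lit 524667460118) (nat_lit 228) (nat_lit 50427866252) (nat_lit 304) (nat_lit 729557281903) (nat_lit 43) (nat_lit 5) (nat_lit 46) (nat_lit 5) (nat_lit 47) (nat_lit 5) (nat_lit 380) (nat_lit 369) (nat_lit 151)) (XT.lf (nat_lit 0) (nat_lit 768389487498) (nat_lit 304) (nat_lit 109064021944) (nat_lit 76) (nat_lit 487356053610) (nat_lit 43) (nat_lit 5) (nat_lit 47) (nat_lit 5) (nat_lit 44) (nat_lit 5) (nat_lit 381) (nat_lit 369) (nat_lit 150))) (XT.nd (nat_lit 78) (nat_lit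 152) (nat_lit 0) (XT.lf (nat_lit 0) (nat_lit 646564762625) (nat_lit 228) (nat_lit 347442127342) (nat_lit 304) (nat_lit 434423407577) (nat_lit 40) (nat_lit 5) (nat_lit 43) (nat_lit 5) (nat_lit 44) (nat_lit 5) (nat_lit 382) (nat_lit 369) (nat_lit 149)) (XT.nd (nat_lit 78) (nat_lit 152) (nat_lit 0) (XT.lf (nat_lit 0) (nat_lit 1246143676637) (nat_lit 304) (nat_lit 33543710754) (nat_lit 76) (nat_lit 216775704051) (nat_lit 40) (nat_lit 5) (nat_lit 44) (nat_lit 5) (nat_lit 41) (nat_lit 5) (nat_lit 383) (nat_lit 369) (nat_lit 148)) (XT.lf (nat_lit 0) (nat_lit 805935543592) (nat_lit 152) (nat_lit 740923098839) (nat_lit 228) (nat_lit 20807287529) (nat_lit 38) (nat_lit 5) (nat_lit 40) (nat_lit 5) (nat_lit 41) (nat_lit 5) (nat_lit 384) (nat_lit 369) (nat_lit 147))))))))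
noncomputable def xc246 : XT := (XT.nd (nat_lit 45786) (nat_lit 0) (nat_lit 1064) (XT.nd (nat_lit 624) (nat_lit 532) (nat_lit 0) (XT.nd (nat_lit 312) (nat_lit 380) (nat_lit 0) (XT.nd (nat_lit 156) (nat_lit 152) (nat_lit 0) (XT.nd (nat_lit 78) (nat_lit 0) (nat_lit 0) (XT.lf (nat_lit 0) (nat_lit 67901097676) (nat_lit 228) (nat_lit 150379946497) (nat_lit 304) (nat_lit 1425641157482) (nat_lit 34) (nat_lit 5) (nat_lit 37) (nat_lit 5) (nat_lit 38) (nat_lit 5) (nat_lit 385) (nat_lit 369) (nat_lit 146)) (XT.lf (nat_lit 0) (nat_lit 508462467865) (nat_lit 304) (nat_lit 730192986444) (nat_lit 76) (nat_lit 484933072105) (nat_lit 34) (nat_lit 5) (nat_lit 38) (nat_lit 5) (nat_lit 35) (nat_lit 5) (nat_lit 386) (nat_lit 369) (nat_lit 145))) (XT.nd (nat_lit 78) (nat_lit 0) (nat_lit 0) (XT.lf (nat_lit 0) (nat_lit 188842047165) (nat_lit 152) (nat_lit 641463983322) (nat_lit 228) (nat_lit 978646316668) (nat_lit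 32) (nat_lit 5) (nat_lit 34) (nat_lit 5) (nat_lit 35) (nat_lit 5) (nat_lit 387) (nat_lit 369) (nat_lit 144)) (XT.lf (nat_lit 0) (nat_lit 1198464653126) (nat_lit 228) (nat_lit 677224299157) (nat_lit 76) (nat_lit 23810915276) (nat_lit 32) (nat_lit 5) (nat_lit 35) (nat_lit 5) (nat_lit 33) (nat_lit 5) (nat_lit 388) (nat_lit 369) (nat_lit 143)))) (XT.nd (nat_lit 156) (nat_lit 228) (nat_lit 0) (XT.nd (nat_lit 78) (nat_lit 0) (nat_lit 0) (XT.lf (nat_lit 0) (nat_lit 341515145858) (nat_lit 152) (nat_lit 1279435666325) (nat_lit 228) (nat_lit 374350389687) (nat_lit 30) (nat_lit 5) (nat_lit 32) (nat_lit 5) (nat_lit 33) (nat_lit 5) (nat_lit 389) (nat_lit 369) (nat_lit 142)) (XT.lf (nat_lit 0) (nat_lit 1480268088094) (nat_lit 152) (nat_lit 615484285446) (nat_lit 228) (nat_lit 1532948624) (nat_lit 30) (nat_lit 5) (nat_lit 32) (nat_lit 5) (nat_lit 33) (nat_lit 5) (nat_lit 390) (nat_lit 369) (nat_lit 141)))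 (XT.nd (nat_lit 78) (nat_lit 0) (nat_lit 0) (XT.lf (nat_lit 0) (nat_lit 396544785744) (nat_lit 228) (nat_lit 1689666380015) (nat_lit 76) (nat_lit 119205266999) (nat_lit 27) (nat_lit 5) (nat_lit 30) (nat_lit 5) (nat_lit 28) (nat_lit 5) (nat_lit 391) (nat_lit 369) (nat_lit 140)) (XT.lf (nat_lit 0) (nat_lit 859681057341) (nat_lit 228) (nat_lit 563083981985) (nat_lit 76) (nat_lit 896766196528) (nat_lit 27) (nat_lit 5) (nat_lit 30) (nat_lit 5) (nat_lit 28) (nat_lit 5) (nat_lit 392) (nat_lit 369) (nat_lit 139))))) (XT.nd (nat_lit 312) (nat_lit 228) (nat_lit 0) (XT.nd (nat_lit 156) (nat_lit 152) (nat_lit 0) (XT.nd (nat_lit 78) (nat_lit 0) (nat_lit 0) (XT.lf (nat_lit 0) (nat_lit 688043738337) (nat_lit 152) (nat_lit 688371958289) (nat_lit 228) (nat_lit 1065035729296) (nat_lit 25) (nat_lit 5) (nat_lit 27) (nat_lit 5) (nat_lit 28) (nat_lit 5) (nat_lit 393) (nat_lit 369) (nat_lit 138)) (XT.lf (nat_lit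 0) (nat_lit 1952804490043) (nat_lit 228) (nat_lit 503528488283) (nat_lit 76) (nat_lit 115327022234) (nat_lit 25) (nat_lit 5) (nat_lit 28) (nat_lit 5) (nat_lit 26) (nat_lit 4) (nat_lit 394) (nat_lit 369) (nat_lit 137))) (XT.nd (nat_lit 78) (nat_lit 76) (nat_lit 0) (XT.lf (nat_lit 0) (nat_lit 872086553517) (nat_lit 76) (nat_lit 1742071324869) (nat_lit 152) (nat_lit 95019103468) (nat_lit 24) (nat_lit 5) (nat_lit 25) (nat_lit 5) (nat_lit 26) (nat_lit 4) (nat_lit 395) (nat_lit 369) (nat_lit 136)) (XT.lf (nat_lit 0) (nat_lit 461301637173) (nat_lit 152) (nat_lit 481885549041) (nat_lit 76) (nat_lit 1912472464921) (nat_lit 23) (nat_lit 5) (nat_lit 25) (nat_lit 5) (nat_lit 24) (nat_lit 5) (nat_lit 396) (nat_lit 369) (nat_lit 135)))) (XT.nd (nat_lit 156) (nat_lit 76) (nat_lit 0) (XT.nd (nat_lit 78) (nat_lit 0) (nat_lit 0) (XT.lf (nat_lit 0) (nat_lit 1030834189553) (nat_lit 152) (nat_lit 50951932880)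 (nat_lit 228) (nat_lit 1929894042435) (nat_lit 21) (nat_lit 5) (nat_lit 23) (nat_lit 5) (nat_lit 24) (nat_lit 5) (nat_lit 397) (nat_lit 369) (nat_lit 134)) (XT.lf (nat_lit 0) (nat_lit 1787376739309) (nat_lit 228) (nat_lit 509443279340) (nat_lit 76) (nat_lit 880524911229) (nat_lit 21) (nat_lit 5) (nat_lit 24) (nat_lit 5) (nat_lit 22) (nat_lit 4) (nat_lit 398) (nat_lit 369) (nat_lit 133))) (XT.nd (nat_lit 78) (nat_lit 0) (nat_lit 0) (XT.lf (nat_lit 0) (nat_lit 1135132107587) (nat_lit 76) (nat_lit 1442905877385) (nat_lit 152) (nat_lit 775935020762) (nat_lit 20) (nat_lit 5) (nat_lit 21) (nat_lit 5) (nat_lit 22) (nat_lit 4) (nat_lit 399) (nat_lit 369) (nat_lit 132)) (XT.nd (nat_lit 44538) (nat_lit 0) (nat_lit 2584) (XT.lf (nat_lit 0) (nat_lit 2940246013022) (nat_lit 76) (nat_lit 505635197521) (nat_lit 152) (nat_lit 97735790698) (nat_lit 20) (nat_lit 5) (nat_lit 21) (nat_lit 5) (nat_lit 22)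 (nat_lit 4) (nat_lit 400) (nat_lit 369) (nat_lit 131)) (XT.lf (nat_lit 0) (nat_lit 343602176939) (nat_lit 532) (nat_lit 50886517705) (nat_lit 532) (nat_lit 50886517705) (nat_lit 54) (nat_lit 3) (nat_lit 61) (nat_lit 3) (nat_lit 61) (nat_lit 5) (nat_lit 370) (nat_lit 370) (nat_lit 160))))))) (XT.nd (nat_lit 624) (nat_lit 1216) (nat_lit 0) (XT.nd (nat_lit 312) (nat_lit 304) (nat_lit 0) (XT.nd (nat_lit 156) (nat_lit 0) (nat_lit 76) (XT.nd (nat_lit 78) (nat_lit 0) (nat_lit 76) (XT.lf (nat_lit 76) (nat_lit 336794967192) (nat_lit 0) (nat_lit 385997564297) (nat_lit 532) (nat_lit 202939909783) (nat_lit 55) (nat_lit 5) (nat_lit 54) (nat_lit 3) (nat_lit 61) (nat_lit 5) (nat_lit 371) (nat_lit 370) (nat_lit 159)) (XT.lf (nat_lit 0) (nat_lit 765266445283) (nat_lit 456) (nat_lit 148310113613) (nat_lit 532) (nat_lit 49613365729) (nat_lit 55) (nat_lit 5) (nat_lit 61) (nat_lit 5) (nat_lit 62) (nat_lit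 5) (nat_lit 372) (nat_lit 370) (nat_lit 158))) (XT.nd (nat_lit 78) (nat_lit 0) (nat_lit 0) (XT.lf (nat_lit 76) (nat_lit 334262693961) (nat_lit 0) (nat_lit 494940507710) (nat_lit 532) (nat_lit 172995610631) (nat_lit 56) (nat_lit 5) (nat_lit 55) (nat_lit 5) (nat_lit 62) (nat_lit 5) (nat_lit 373) (nat_lit 370) (nat_lit 157)) (XT.lf (nat_lit 76) (nat_lit 863875849145) (nat_lit 0) (nat_lit 38434104078) (nat_lit 532) (nat_lit 141694053409) (nat_lit 56) (nat_lit 5) (nat_lit 55) (nat_lit 5) (nat_lit 62) (nat_lit 5) (nat_lit 374) (nat_lit 370) (nat_lit 156)))) (XT.nd (nat_lit 156) (nat_lit 456) (nat_lit 0) (XT.nd (nat_lit 78) (nat_lit 0) (nat_lit 0) (XT.lf (nat_lit 76) (nat_lit 353452597823) (nat_lit 0) (nat_lit 647246152470) (nat_lit 532) (nat_lit 86900185794) (nat_lit 57) (nat_lit 5) (nat_lit 56) (nat_lit 5) (nat_lit 63) (nat_lit 5) (nat_lit 375) (nat_lit 370) (nat_lit 155)) (XT.lf (nat_lit 76)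 (nat_lit 938913000299) (nat_lit 0) (nat_lit 173943683365) (nat_lit 532) (nat_lit 21352933642) (nat_lit 57) (nat_lit 5) (nat_lit 56) (nat_lit 5) (nat_lit 63) (nat_lit 5) (nat_lit 376) (nat_lit 370) (nat_lit 154))) (XT.nd (nat_lit 78) (nat_lit 0) (nat_lit 0) (XT.lf (nat_lit 0) (nat_lit 65118364988) (nat_lit 532) (nat_lit 786297543166) (nat_lit 76) (nat_lit 331585857063) (nat_lit 50) (nat_lit 5) (nat_lit 57) (nat_lit 5) (nat_lit 51) (nat_lit 5) (nat_lit 377) (nat_lit 370) (nat_lit 153)) (XT.lf (nat_lit 0) (nat_lit 167350217577) (nat_lit 532) (nat_lit 193309623918) (nat_lit 76) (nat_lit 874193356693) (nat_lit 50) (nat_lit 5) (nat_lit 57) (nat_lit 5) (nat_lit 51) (nat_lit 5) (nat_lit 378) (nat_lit 370) (nat_lit 152))))) (XT.nd (nat_lit 312) (nat_lit 684) (nat_lit 0) (XT.nd (nat_lit 156) (nat_lit 228) (nat_lit 0) (XT.nd (nat_lit 78) (nat_lit 0) (nat_lit 0) (XT.lf (nat_lit 0) (nat_lit 293447083519)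 (nat_lit 380) (nat_lit 823652505918) (nat_lit 76) (nat_lit 172498239155) (nat_lit 46) (nat_lit 5) (nat_lit 51) (nat_lit 5) (nat_lit 47) (nat_lit 5) (nat_lit 379) (nat_lit 370) (nat_lit 151)) (XT.lf (nat_lit 0) (nat_lit 444422193792) (nat_lit 380) (nat_lit 168869917384) (nat_lit 76) (nat_lit 734246678655) (nat_lit 46) (nat_lit 5) (nat_lit 51) (nat_lit 5) (nat_lit 47) (nat_lit 5) (nat_lit 380) (nat_lit 370) (nat_lit 150))) (XT.nd (nat_lit 78) (nat_lit 0) (nat_lit 0) (XT.lf (nat_lit 0) (nat_lit 566640948927) (nat_lit 228) (nat_lit 54462088186) (nat_lit 304) (nat_lit 787921772926) (nat_lit 43) (nat_lit 5) (nat_lit 46) (nat_lit 5) (nat_lit 47) (nat_lit 5) (nat_lit 381) (nat_lit 370) (nat_lit 149)) (XT.lf (nat_lit 0) (nat_lit 829860725026) (nat_lit 304) (nat_lit 117789052293) (nat_lit 76) (nat_lit 526344544379) (nat_lit 43) (nat_lit 5) (nat_lit 47) (nat_lit 5) (nat_lit 44) (nat_lit 5) (nat_lit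 382) (nat_lit 370) (nat_lit 148)))) (XT.nd (nat_lit 156) (nat_lit 456) (nat_lit 0) (XT.nd (nat_lit 78) (nat_lit 0) (nat_lit 0) (XT.lf (nat_lit 0) (nat_lit 698290032728) (nat_lit 228) (nat_lit 375237483290) (nat_lit 304) (nat_lit 469177199233) (nat_lit 40) (nat_lit 5) (nat_lit 43) (nat_lit 5) (nat_lit 44) (nat_lit 5) (nat_lit 383) (nat_lit 370) (nat_lit 147)) (XT.lf (nat_lit 0) (nat_lit 1345835240393) (nat_lit 304) (nat_lit 36227119793) (nat_lit 76) (nat_lit 234117772899) (nat_lit 40) (nat_lit 5) (nat_lit 44) (nat_lit 5) (nat_lit 41) (nat_lit 5) (nat_lit 384) (nat_lit 370) (nat_lit 146))) (XT.nd (nat_lit 78) (nat_lit 304) (nat_lit 0) (XT.lf (nat_lit 0) (nat_lit 870410472676) (nat_lit 152) (nat_lit 800196927676) (nat_lit 228) (nat_lit 22471798590) (nat_lit 38) (nat_lit 5) (nat_lit 40) (nat_lit 5) (nat_lit 41) (nat_lit 5) (nat_lit 385) (nat_lit 370) (nat_lit 145)) (XT.nd (nat_lit 78) (nat_lit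 0) (nat_lit 0) (XT.lf (nat_lit 0) (nat_lit 73333272512) (nat_lit 228) (nat_lit 162410320568) (nat_lit 304) (nat_lit 1539692379398) (nat_lit 34) (nat_lit 5) (nat_lit 37) (nat_lit 5) (nat_lit 38) (nat_lit 5) (nat_lit 386) (nat_lit 370) (nat_lit 144)) (XT.lf (nat_lit 0) (nat_lit 549139526308) (nat_lit 304) (nat_lit 788608340350) (nat_lit 76) (nat_lit 523727736915) (nat_lit 34) (nat_lit 5) (nat_lit 38) (nat_lit 5) (nat_lit 35) (nat_lit 5) (nat_lit 387) (nat_lit 370) (nat_lit 143))))))))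
noncomputable def xc247 : XT := (XT.nd (nat_lit 45864) (nat_lit 0) (nat_lit 760) (XT.nd (nat_lit 624) (nat_lit 380) (nat_lit 0) (XT.nd (nat_lit 312) (nat_lit 380) (nat_lit 0) (XT.nd (nat_lit 156) (nat_lit 152) (nat_lit 0) (XT.nd (nat_lit 78) (nat_lit 0) (nat_lit 0) (XT.lf (nat_lit 0) (nat_lit 203949493796) (nat_lit 152) (nat_lit 692781077617) (nat_lit 228) (nat_lit 1056937958768) (nat_lit 32) (nat_lit 5) (nat_lit 34) (nat_lit 5) (nat_lit 35) (nat_lit 5) (nat_lit 388) (nat_lit 370) (nat_lit 142)) (XT.lf (nat_lit 0) (nat_lit 1294341880073) (nat_lit 228) (nat_lit 731402162517) (nat_lit 76) (nat_lit 25715809935) (nat_lit 32) (nat_lit 5) (nat_lit 35) (nat_lit 5) (nat_lit 33) (nat_lit 5) (nat_lit 389) (nat_lit 370) (nat_lit 141))) (XT.nd (nat_lit 78) (nat_lit 0) (nat_lit 0) (XT.lf (nat_lit 0) (nat_lit 368836436060) (nat_lit 152) (nat_lit 1381790493632) (nat_lit 228) (nat_lit 404298364068) (nat_lit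 30) (nat_lit 5) (nat_lit 32) (nat_lit 5) (nat_lit 33) (nat_lit 5) (nat_lit 390) (nat_lit 370) (nat_lit 140)) (XT.lf (nat_lit 0) (nat_lit 1598689607857) (nat_lit 152) (nat_lit 664723004209) (nat_lit 228) (nat_lit 1655531926) (nat_lit 30) (nat_lit 5) (nat_lit 32) (nat_lit 5) (nat_lit 33) (nat_lit 5) (nat_lit 391) (nat_lit 370) (nat_lit 139)))) (XT.nd (nat_lit 156) (nat_lit 152) (nat_lit 0) (XT.nd (nat_lit 78) (nat_lit 0) (nat_lit 0) (XT.lf (nat_lit 0) (nat_lit 428268417240) (nat_lit 228) (nat_lit 1824839613653) (nat_lit 76) (nat_lit 128741712549) (nat_lit 27) (nat_lit 5) (nat_lit 30) (nat_lit 5) (nat_lit 28) (nat_lit 5) (nat_lit 392) (nat_lit 370) (nat_lit 138)) (XT.lf (nat_lit 0) (nat_lit 928455586962) (nat_lit 228) (nat_lit 608130629467) (nat_lit 76) (nat_lit 968507514648) (nat_lit 27) (nat_lit 5) (nat_lit 30) (nat_lit 5) (nat_lit 28) (nat_lit 5) (nat_lit 393) (nat_lit 370) (nat_lit 137)))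 (XT.nd (nat_lit 78) (nat_lit 0) (nat_lit 0) (XT.lf (nat_lit 0) (nat_lit 743087306682) (nat_lit 152) (nat_lit 743441689039) (nat_lit 228) (nat_lit 1150238540767) (nat_lit 25) (nat_lit 5) (nat_lit 27) (nat_lit 5) (nat_lit 28) (nat_lit 5) (nat_lit 394) (nat_lit 370) (nat_lit 136)) (XT.lf (nat_lit 0) (nat_lit 2109028889975) (nat_lit 228) (nat_lit 543810700528) (nat_lit 76) (nat_lit 124553206807) (nat_lit 25) (nat_lit 5) (nat_lit 28) (nat_lit 5) (nat_lit 26) (nat_lit 4) (nat_lit 395) (nat_lit 370) (nat_lit 135))))) (XT.nd (nat_lit 312) (nat_lit 76) (nat_lit 0) (XT.nd (nat_lit 156) (nat_lit 152) (nat_lit 0) (XT.nd (nat_lit 78) (nat_lit 76) (nat_lit 0) (XT.lf (nat_lit 0) (nat_lit 941853542925) (nat_lit 76) (nat_lit 1881437005010) (nat_lit 152) (nat_lit 102620589290) (nat_lit 24) (nat_lit 5) (nat_lit 25) (nat_lit 5) (nat_lit 26) (nat_lit 4) (nat_lit 396) (nat_lit 370) (nat_lit 134)) (XT.lf (nat_lit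 0) (nat_lit 498205805490) (nat_lit 152) (nat_lit 520436330666) (nat_lit 76) (nat_lit 2065470284053) (nat_lit 23) (nat_lit 5) (nat_lit 25) (nat_lit 5) (nat_lit 24) (nat_lit 5) (nat_lit 397) (nat_lit 370) (nat_lit 133))) (XT.nd (nat_lit 78) (nat_lit 0) (nat_lit 0) (XT.lf (nat_lit 0) (nat_lit 1113300985438) (nat_lit 152) (nat_lit 55028062827) (nat_lit 228) (nat_lit 2084285526882) (nat_lit 21) (nat_lit 5) (nat_lit 23) (nat_lit 5) (nat_lit 24) (nat_lit 5) (nat_lit 398) (nat_lit 370) (nat_lit 132)) (XT.lf (nat_lit 0) (nat_lit 1930366912372) (nat_lit 228) (nat_lit 550198683319) (nat_lit 76) (nat_lit 950966925839) (nat_lit 21) (nat_lit 5) (nat_lit 24) (nat_lit 5) (nat_lit 22) (nat_lit 4) (nat_lit 399) (nat_lit 370) (nat_lit 131)))) (XT.nd (nat_lit 44694) (nat_lit 0) (nat_lit 2584) (XT.nd (nat_lit 44616) (nat_lit 0) (nat_lit 2584) (XT.lf (nat_lit 0) (nat_lit 1225942733085) (nat_lit 76) (nat_lit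 1558338323459) (nat_lit 152) (nat_lit 838009787004) (nat_lit 20) (nat_lit 5) (nat_lit 21) (nat_lit 5) (nat_lit 22) (nat_lit 4) (nat_lit 400) (nat_lit 370) (nat_lit 130)) (XT.lf (nat_lit 0) (nat_lit 371090425652) (nat_lit 532) (nat_lit 54957398792) (nat_lit 532) (nat_lit 54957398792) (nat_lit 54) (nat_lit 3) (nat_lit 61) (nat_lit 3) (nat_lit 61) (nat_lit 5) (nat_lit 371) (nat_lit 371) (nat_lit 158))) (XT.nd (nat_lit 78) (nat_lit 0) (nat_lit 76) (XT.lf (nat_lit 76) (nat_lit 363738643184) (nat_lit 0) (nat_lit 416877430786) (nat_lit 532) (nat_lit 219174951155) (nat_lit 55) (nat_lit 5) (nat_lit 54) (nat_lit 3) (nat_lit 61) (nat_lit 5) (nat_lit 372) (nat_lit 371) (nat_lit 157)) (XT.nd (nat_lit 78) (nat_lit 0) (nat_lit 0) (XT.lf (nat_lit 0) (nat_lit 826487889134) (nat_lit 456) (nat_lit 160174837942) (nat_lit 532) (nat_lit 53582381029) (nat_lit 55) (nat_lit 5) (nat_lit 61) (nat_lit 5) (nat_lit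 62) (nat_lit 5) (nat_lit 373) (nat_lit 371) (nat_lit 156)) (XT.lf (nat_lit 76) (nat_lit 361003792093) (nat_lit 0) (nat_lit 534535786428) (nat_lit 532) (nat_lit 186835128891) (nat_lit 56) (nat_lit 5) (nat_lit 55) (nat_lit 5) (nat_lit 62) (nat_lit 5) (nat_lit 374) (nat_lit 371) (nat_lit 155))))))) (XT.nd (nat_lit 702) (nat_lit 988) (nat_lit 0) (XT.nd (nat_lit 312) (nat_lit 532) (nat_lit 0) (XT.nd (nat_lit 156) (nat_lit 380) (nat_lit 0) (XT.nd (nat_lit 78) (nat_lit 0) (nat_lit 76) (XT.lf (nat_lit 76) (nat_lit 932985993571) (nat_lit 0) (nat_lit 41508867683) (nat_lit 532) (nat_lit 153029456766) (nat_lit 56) (nat_lit 5) (nat_lit 55) (nat_lit 5) (nat_lit 62) (nat_lit 5) (nat_lit 375) (nat_lit 371) (nat_lit 154)) (XT.lf (nat_lit 76) (nat_lit 381728889945) (nat_lit 0) (nat_lit 699025865108) (nat_lit 532) (nat_lit 93852087357) (nat_lit 57) (nat_lit 5) (nat_lit 56) (nat_lit 5) (nat_lit 63) (nat_lit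 5) (nat_lit 376) (nat_lit 371) (nat_lit 153))) (XT.nd (nat_lit 78) (nat_lit 456) (nat_lit 0) (XT.lf (nat_lit 76) (nat_lit 1014026118376) (nat_lit 0) (nat_lit 187859196960) (nat_lit 532) (nat_lit 23061063425) (nat_lit 57) (nat_lit 5) (nat_lit 56) (nat_lit 5) (nat_lit 63) (nat_lit 5) (nat_lit 377) (nat_lit 371) (nat_lit 152)) (XT.lf (nat_lit 0) (nat_lit 70327928112) (nat_lit 532) (nat_lit 849201257277) (nat_lit 76) (nat_lit 358112713385) (nat_lit 50) (nat_lit 5) (nat_lit 57) (nat_lit 5) (nat_lit 51) (nat_lit 5) (nat_lit 378) (nat_lit 371) (nat_lit 151)))) (XT.nd (nat_lit 156) (nat_lit 228) (nat_lit 0) (XT.nd (nat_lit 78) (nat_lit 304) (nat_lit 0) (XT.lf (nat_lit 0) (nat_lit 180738321950) (nat_lit 532) (nat_lit 208774311108) (nat_lit 76) (nat_lit 944128813892) (nat_lit 50) (nat_lit 5) (nat_lit 57) (nat_lit 5) (nat_lit 51) (nat_lit 5) (nat_lit 379) (nat_lit 371) (nat_lit 150)) (XT.lf (nat_lit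 0) (nat_lit 316922932620) (nat_lit 380) (nat_lit 889544618994) (nat_lit 76) (nat_lit 186298096545) (nat_lit 46) (nat_lit 5) (nat_lit 51) (nat_lit 5) (nat_lit 47) (nat_lit 5) (nat_lit 380) (nat_lit 371) (nat_lit 149))) (XT.nd (nat_lit 78) (nat_lit 228) (nat_lit 0) (XT.lf (nat_lit 0) (nat_lit 479976045611) (nat_lit 380) (nat_lit 182379429852) (nat_lit 76) (nat_lit 792986411334) (nat_lit 46) (nat_lit 5) (nat_lit 51) (nat_lit 5) (nat_lit 47) (nat_lit 5) (nat_lit 381) (nat_lit 371) (nat_lit 148)) (XT.nd (nat_lit 78) (nat_lit 0) (nat_lit 0) (XT.lf (nat_lit 0) (nat_lit 611972303716) (nat_lit 228) (nat_lit 58819048925) (nat_lit 304) (nat_lit 850955436288) (nat_lit 43) (nat_lit 5) (nat_lit 46) (nat_lit 5) (nat_lit 47) (nat_lit 5) (nat_lit 382) (nat_lit 371) (nat_lit 147)) (XT.lf (nat_lit 0) (nat_lit 896249650353) (nat_lit 304) (nat_lit 127212098110) (nat_lit 76) (nat_lit 568452113485) (nat_lit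 43) (nat_lit 5) (nat_lit 47) (nat_lit 5) (nat_lit 44) (nat_lit 5) (nat_lit 383) (nat_lit 371) (nat_lit 146)))))) (XT.nd (nat_lit 312) (nat_lit 304) (nat_lit 0) (XT.nd (nat_lit 156) (nat_lit 456) (nat_lit 0) (XT.nd (nat_lit 78) (nat_lit 0) (nat_lit 0) (XT.lf (nat_lit 0) (nat_lit 754153311728) (nat_lit 228) (nat_lit 405256469746) (nat_lit 304) (nat_lit 506711305770) (nat_lit 40) (nat_lit 5) (nat_lit 43) (nat_lit 5) (nat_lit 44) (nat_lit 5) (nat_lit 384) (nat_lit 371) (nat_lit 145)) (XT.lf (nat_lit 0) (nat_lit 1453502119318) (nat_lit 304) (nat_lit 39125214084) (nat_lit 76) (nat_lit 252847205469) (nat_lit 40) (nat_lit 5) (nat_lit 44) (nat_lit 5) (nat_lit 41) (nat_lit 5) (nat_lit 385) (nat_lit 371) (nat_lit 144))) (XT.nd (nat_lit 78) (nat_lit 304) (nat_lit 0) (XT.lf (nat_lit 0) (nat_lit 940043383876) (nat_lit 152) (nat_lit 864212665540) (nat_lit 228) (nat_lit 24269480798) (nat_lit 38) (nat_lit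 5) (nat_lit 40) (nat_lit 5) (nat_lit 41) (nat_lit 5) (nat_lit 386) (nat_lit 371) (nat_lit 143)) (XT.lf (nat_lit 0) (nat_lit 79200008920) (nat_lit 228) (nat_lit 175403127654) (nat_lit 304) (nat_lit 1662867709151) (nat_lit 34) (nat_lit 5) (nat_lit 37) (nat_lit 5) (nat_lit 38) (nat_lit 5) (nat_lit 387) (nat_lit 371) (nat_lit 142)))) (XT.nd (nat_lit 156) (nat_lit 152) (nat_lit 0) (XT.nd (nat_lit 78) (nat_lit 152) (nat_lit 0) (XT.lf (nat_lit 0) (nat_lit 593070740721) (nat_lit 304) (nat_lit 851696934696) (nat_lit 76) (nat_lit 565625972194) (nat_lit 34) (nat_lit 5) (nat_lit 38) (nat_lit 5) (nat_lit 35) (nat_lit 5) (nat_lit 388) (nat_lit 371) (nat_lit 141)) (XT.lf (nat_lit 0) (nat_lit 220265524337) (nat_lit 152) (nat_lit 748203542932) (nat_lit 228) (nat_lit 1141492941258) (nat_lit 32) (nat_lit 5) (nat_lit 34) (nat_lit 5) (nat_lit 35) (nat_lit 5) (nat_lit 389) (nat_lit 371) (nat_lit 140))) (XT.nd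 (nat_lit 78) (nat_lit 152) (nat_lit 0) (XT.lf (nat_lit 0) (nat_lit 1397889277372) (nat_lit 228) (nat_lit 789914266440) (nat_lit 76) (nat_lit 27773093109) (nat_lit 32) (nat_lit 5) (nat_lit 35) (nat_lit 5) (nat_lit 33) (nat_lit 5) (nat_lit 390) (nat_lit 371) (nat_lit 139)) (XT.nd (nat_lit 78) (nat_lit 0) (nat_lit 0) (XT.lf (nat_lit 0) (nat_lit 398343418274) (nat_lit 152) (nat_lit 1492333710832) (nat_lit 228) (nat_lit 436642184500) (nat_lit 30) (nat_lit 5) (nat_lit 32) (nat_lit 5) (nat_lit 33) (nat_lit 5) (nat_lit 391) (nat_lit 371) (nat_lit 138)) (XT.lf (nat_lit 0) (nat_lit 1726584838827) (nat_lit 152) (nat_lit 717900823907) (nat_lit 228) (nat_lit 1787929394) (nat_lit 30) (nat_lit 5) (nat_lit 32) (nat_lit 5) (nat_lit 33) (nat_lit 5) (nat_lit 392) (nat_lit 371) (nat_lit 137))))))))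
noncomputable def xc248 : XT := (XT.nd (nat_lit 46020) (nat_lit 0) (nat_lit 228) (XT.nd (nat_lit 45318) (nat_lit 0) (nat_lit 1900) (XT.nd (nat_lit 312) (nat_lit 304) (nat_lit 0) (XT.nd (nat_lit 156) (nat_lit 152) (nat_lit 0) (XT.nd (nat_lit 78) (nat_lit 0) (nat_lit 0) (XT.lf (nat_lit 0) (nat_lit 462529932317) (nat_lit 228) (nat_lit 1970826716933) (nat_lit 76) (nat_lit 139041070292) (nat_lit 27) (nat_lit 5) (nat_lit 30) (nat_lit 5) (nat_lit 28) (nat_lit 5) (nat_lit 393) (nat_lit 371) (nat_lit 136)) (XT.lf (nat_lit 0) (nat_lit 1002732072528) (nat_lit 228) (nat_lit 656781018887) (nat_lit 76) (nat_lit 1045988135023) (nat_lit 27) (nat_lit 5) (nat_lit 30) (nat_lit 5) (nat_lit 28) (nat_lit 5) (nat_lit 394) (nat_lit 371) (nat_lit 135))) (XT.nd (nat_lit 78) (nat_lit 0) (nat_lit 0) (XT.lf (nat_lit 0) (nat_lit 802534350611) (nat_lit 152) (nat_lit 802917001945) (nat_lit 228) (nat_lit 1242257583842)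 (nat_lit 25) (nat_lit 5) (nat_lit 27) (nat_lit 5) (nat_lit 28) (nat_lit 5) (nat_lit 395) (nat_lit 371) (nat_lit 134)) (XT.lf (nat_lit 0) (nat_lit 2277751236092) (nat_lit 228) (nat_lit 587315499284) (nat_lit 76) (nat_lit 134517482893) (nat_lit 25) (nat_lit 5) (nat_lit 28) (nat_lit 5) (nat_lit 26) (nat_lit 4) (nat_lit 396) (nat_lit 371) (nat_lit 133)))) (XT.nd (nat_lit 156) (nat_lit 152) (nat_lit 0) (XT.nd (nat_lit 78) (nat_lit 76) (nat_lit 0) (XT.lf (nat_lit 0) (nat_lit 1017201882195) (nat_lit 76) (nat_lit 2031951943250) (nat_lit 152) (nat_lit 110830200036) (nat_lit 24) (nat_lit 5) (nat_lit 25) (nat_lit 5) (nat_lit 26) (nat_lit 4) (nat_lit 397) (nat_lit 371) (nat_lit 132)) (XT.lf (nat_lit 0) (nat_lit 538062301946) (nat_lit 152) (nat_lit 562071183709) (nat_lit 76) (nat_lit 2230707925585) (nat_lit 23) (nat_lit 5) (nat_lit 25) (nat_lit 5) (nat_lit 24) (nat_lit 5) (nat_lit 398) (nat_lit 371)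 (nat_lit 131))) (XT.nd (nat_lit 44772) (nat_lit 0) (nat_lit 2508) (XT.lf (nat_lit 0) (nat_lit 1202365116332) (nat_lit 152) (nat_lit 59430286691) (nat_lit 228) (nat_lit 2251028335641) (nat_lit 21) (nat_lit 5) (nat_lit 23) (nat_lit 5) (nat_lit 24) (nat_lit 5) (nat_lit 399) (nat_lit 371) (nat_lit 130)) (XT.lf (nat_lit 0) (nat_lit 400777723626) (nat_lit 532) (nat_lit 59353956120) (nat_lit 532) (nat_lit 59353956120) (nat_lit 54) (nat_lit 3) (nat_lit 61) (nat_lit 3) (nat_lit 61) (nat_lit 5) (nat_lit 372) (nat_lit 372) (nat_lit 156))))) (XT.nd (nat_lit 312) (nat_lit 608) (nat_lit 0) (XT.nd (nat_lit 156) (nat_lit 0) (nat_lit 76) (XT.nd (nat_lit 78) (nat_lit 0) (nat_lit 76) (XT.lf (nat_lit 76) (nat_lit 392837802041) (nat_lit 0) (nat_lit 450227677841) (nat_lit 532) (nat_lit 236708817437) (nat_lit 55) (nat_lit 5) (nat_lit 54) (nat_lit 3) (nat_lit 61) (nat_lit 5) (nat_lit 373) (nat_lit 372) (nat_lit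 155)) (XT.lf (nat_lit 0) (nat_lit 892607030199) (nat_lit 456) (nat_lit 172988752309) (nat_lit 532) (nat_lit 57868925250) (nat_lit 55) (nat_lit 5) (nat_lit 61) (nat_lit 5) (nat_lit 62) (nat_lit 5) (nat_lit 374) (nat_lit 372) (nat_lit 154))) (XT.nd (nat_lit 78) (nat_lit 0) (nat_lit 0) (XT.lf (nat_lit 76) (nat_lit 389884166289) (nat_lit 0) (nat_lit 577298682009) (nat_lit 532) (nat_lit 201781827243) (nat_lit 56) (nat_lit 5) (nat_lit 55) (nat_lit 5) (nat_lit 62) (nat_lit 5) (nat_lit 375) (nat_lit 372) (nat_lit 153)) (XT.lf (nat_lit 76) (nat_lit 1007624938639) (nat_lit 0) (nat_lit 44829607344) (nat_lit 532) (nat_lit 165271709640) (nat_lit 56) (nat_lit 5) (nat_lit 55) (nat_lit 5) (nat_lit 62) (nat_lit 5) (nat_lit 376) (nat_lit 372) (nat_lit 152)))) (XT.nd (nat_lit 156) (nat_lit 760) (nat_lit 0) (XT.nd (nat_lit 78) (nat_lit 0) (nat_lit 0) (XT.lf (nat_lit 76) (nat_lit 412267273411) (nat_lit 0)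 (nat_lit 754947951841) (nat_lit 532) (nat_lit 101360157208) (nat_lit 57) (nat_lit 5) (nat_lit 56) (nat_lit 5) (nat_lit 63) (nat_lit 5) (nat_lit 377) (nat_lit 372) (nat_lit 151)) (XT.lf (nat_lit 76) (nat_lit 1095148274763) (nat_lit 0) (nat_lit 202887948943) (nat_lit 532) (nat_lit 24905858557) (nat_lit 57) (nat_lit 5) (nat_lit 56) (nat_lit 5) (nat_lit 63) (nat_lit 5) (nat_lit 378) (nat_lit 372) (nat_lit 150))) (XT.nd (nat_lit 78) (nat_lit 304) (nat_lit 0) (XT.lf (nat_lit 0) (nat_lit 75954242886) (nat_lit 532) (nat_lit 917137281263) (nat_lit 76) (nat_lit 386761719959) (nat_lit 50) (nat_lit 5) (nat_lit 57) (nat_lit 5) (nat_lit 51) (nat_lit 5) (nat_lit 379) (nat_lit 372) (nat_lit 149)) (XT.nd (nat_lit 78) (nat_lit 304) (nat_lit 0) (XT.lf (nat_lit 0) (nat_lit 195197462266) (nat_lit 532) (nat_lit 225476185074) (nat_lit 76) (nat_lit 1019659109284) (nat_lit 50) (nat_lit 5) (nat_lit 57) (nat_lit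 5) (nat_lit 51) (nat_lit 5) (nat_lit 380) (nat_lit 372) (nat_lit 148)) (XT.lf (nat_lit 0) (nat_lit 342276837892) (nat_lit 380) (nat_lit 960708113585) (nat_lit 76) (nat_lit 201201942775) (nat_lit 46) (nat_lit 5) (nat_lit 51) (nat_lit 5) (nat_lit 47) (nat_lit 5) (nat_lit 381) (nat_lit 372) (nat_lit 147))))))) (XT.nd (nat_lit 624) (nat_lit 760) (nat_lit 0) (XT.nd (nat_lit 312) (nat_lit 456) (nat_lit 0) (XT.nd (nat_lit 156) (nat_lit 228) (nat_lit 0) (XT.nd (nat_lit 78) (nat_lit 228) (nat_lit 0) (XT.lf (nat_lit 0) (nat_lit 518374194687) (nat_lit 380) (nat_lit 196969714861) (nat_lit 76) (nat_lit 856425322857) (nat_lit 46) (nat_lit 5) (nat_lit 51) (nat_lit 5) (nat_lit 47) (nat_lit 5) (nat_lit 382) (nat_lit 372) (nat_lit 146)) (XT.lf (nat_lit 0) (nat_lit 660930155635) (nat_lit 228) (nat_lit 63524567424) (nat_lit 304) (nat_lit 919031803914) (nat_lit 43) (nat_lit 5) (nat_lit 46) (nat_lit 5) (nat_lit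 47) (nat_lit 5) (nat_lit 383) (nat_lit 372) (nat_lit 145))) (XT.nd (nat_lit 78) (nat_lit 228) (nat_lit 0) (XT.lf (nat_lit 0) (nat_lit 967949680101) (nat_lit 304) (nat_lit 137388998772) (nat_lit 76) (nat_lit 613928287326) (nat_lit 43) (nat_lit 5) (nat_lit 47) (nat_lit 5) (nat_lit 44) (nat_lit 5) (nat_lit 384) (nat_lit 372) (nat_lit 144)) (XT.lf (nat_lit 0) (nat_lit 814485642152) (nat_lit 228) (nat_lit 437676976860) (nat_lit 304) (nat_lit 547248150731) (nat_lit 40) (nat_lit 5) (nat_lit 43) (nat_lit 5) (nat_lit 44) (nat_lit 5) (nat_lit 385) (nat_lit 372) (nat_lit 143)))) (XT.nd (nat_lit 156) (nat_lit 304) (nat_lit 0) (XT.nd (nat_lit 78) (nat_lit 152) (nat_lit 0) (XT.lf (nat_lit 0) (nat_lit 1569782340040) (nat_lit 304) (nat_lit 42255166660) (nat_lit 76) (nat_lit 273074991113) (nat_lit 40) (nat_lit 5) (nat_lit 44) (nat_lit 5) (nat_lit 41) (nat_lit 5) (nat_lit 386) (nat_lit 372) (nat_lit 142))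 (XT.lf (nat_lit 0) (nat_lit 1015246917503) (nat_lit 152) (nat_lit 933349664766) (nat_lit 228) (nat_lit 26210986383) (nat_lit 38) (nat_lit 5) (nat_lit 40) (nat_lit 5) (nat_lit 41) (nat_lit 5) (nat_lit 387) (nat_lit 372) (nat_lit 141))) (XT.nd (nat_lit 78) (nat_lit 0) (nat_lit 0) (XT.lf (nat_lit 0) (nat_lit 85536073597) (nat_lit 228) (nat_lit 189435361954) (nat_lit 304) (nat_lit 1795897073929) (nat_lit 34) (nat_lit 5) (nat_lit 37) (nat_lit 5) (nat_lit 38) (nat_lit 5) (nat_lit 388) (nat_lit 372) (nat_lit 140)) (XT.lf (nat_lit 0) (nat_lit 640516444826) (nat_lit 304) (nat_lit 919832626987) (nat_lit 76) (nat_lit 610876063966) (nat_lit 34) (nat_lit 5) (nat_lit 38) (nat_lit 5) (nat_lit 35) (nat_lit 5) (nat_lit 389) (nat_lit 372) (nat_lit 139))))) (XT.nd (nat_lit 312) (nat_lit 456) (nat_lit 0) (XT.nd (nat_lit 156) (nat_lit 152) (nat_lit 0) (XT.nd (nat_lit 78) (nat_lit 0) (nat_lit 0) (XT.lf (nat_lit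 0) (nat_lit 237886827186) (nat_lit 152) (nat_lit 808059808453) (nat_lit 228) (nat_lit 1232812330080) (nat_lit 32) (nat_lit 5) (nat_lit 34) (nat_lit 5) (nat_lit 35) (nat_lit 5) (nat_lit 390) (nat_lit 372) (nat_lit 138)) (XT.lf (nat_lit 0) (nat_lit 1509720459766) (nat_lit 228) (nat_lit 853107348532) (nat_lit 76) (nat_lit 29994956315) (nat_lit 32) (nat_lit 5) (nat_lit 35) (nat_lit 5) (nat_lit 33) (nat_lit 5) (nat_lit 391) (nat_lit 372) (nat_lit 137))) (XT.nd (nat_lit 78) (nat_lit 0) (nat_lit 0) (XT.lf (nat_lit 0) (nat_lit 430210949460) (nat_lit 152) (nat_lit 1611720388589) (nat_lit 228) (nat_lit 471573517515) (nat_lit 30) (nat_lit 5) (nat_lit 32) (nat_lit 5) (nat_lit 33) (nat_lit 5) (nat_lit 392) (nat_lit 372) (nat_lit 136)) (XT.lf (nat_lit 0) (nat_lit 1864711679382) (nat_lit 152) (nat_lit 775332872125) (nat_lit 228) (nat_lit 1930925092) (nat_lit 30) (nat_lit 5) (nat_lit 32) (nat_lit 5) (nat_lit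 33) (nat_lit 5) (nat_lit 393) (nat_lit 372) (nat_lit 135)))) (XT.nd (nat_lit 156) (nat_lit 228) (nat_lit 0) (XT.nd (nat_lit 78) (nat_lit 0) (nat_lit 0) (XT.lf (nat_lit 0) (nat_lit 499532362652) (nat_lit 228) (nat_lit 2128492797864) (nat_lit 76) (nat_lit 150164373695) (nat_lit 27) (nat_lit 5) (nat_lit 30) (nat_lit 5) (nat_lit 28) (nat_lit 5) (nat_lit 394) (nat_lit 372) (nat_lit 134)) (XT.lf (nat_lit 0) (nat_lit 1082950671432) (nat_lit 228) (nat_lit 709323448154) (nat_lit 76) (nat_lit 1129667202288) (nat_lit 27) (nat_lit 5) (nat_lit 30) (nat_lit 5) (nat_lit 28) (nat_lit 5) (nat_lit 395) (nat_lit 372) (nat_lit 133))) (XT.nd (nat_lit 78) (nat_lit 76) (nat_lit 0) (XT.lf (nat_lit 0) (nat_lit 866737149582) (nat_lit 152) (nat_lit 867150343053) (nat_lit 228) (nat_lit 1341638156096) (nat_lit 25) (nat_lit 5) (nat_lit 27) (nat_lit 5) (nat_lit 28) (nat_lit 5) (nat_lit 396) (nat_lit 372) (nat_lit 132))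 (XT.nd (nat_lit 78) (nat_lit 76) (nat_lit 0) (XT.lf (nat_lit 0) (nat_lit 2459971364916) (nat_lit 228) (nat_lit 634300690114) (nat_lit 76) (nat_lit 145278898279) (nat_lit 25) (nat_lit 5) (nat_lit 28) (nat_lit 5) (nat_lit 26) (nat_lit 4) (nat_lit 397) (nat_lit 372) (nat_lit 131)) (XT.lf (nat_lit 0) (nat_lit 1098578080641) (nat_lit 76) (nat_lit 2194508079711) (nat_lit 152) (nat_lit 119696584833) (nat_lit 24) (nat_lit 5) (nat_lit 25) (nat_lit 5) (nat_lit 26) (nat_lit 4) (nat_lit 398) (nat_lit 372) (nat_lit 130))))))))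
noncomputable def xc249 : XT := (XT.nd (nat_lit 46098) (nat_lit 0) (nat_lit 152) (XT.nd (nat_lit 45396) (nat_lit 0) (nat_lit 1140) (XT.nd (nat_lit 45084) (nat_lit 0) (nat_lit 2432) (XT.nd (nat_lit 44928) (nat_lit 0) (nat_lit 2356) (XT.nd (nat_lit 44850) (nat_lit 0) (nat_lit 2356) (XT.lf (nat_lit 0) (nat_lit 581107313550) (nat_lit 152) (nat_lit 607036832614) (nat_lit 76) (nat_lit 2409164575757) (nat_lit 23) (nat_lit 5) (nat_lit 25) (nat_lit 5) (nat_lit 24) (nat_lit 5) (nat_lit 399) (nat_lit 372) (nat_lit 129)) (XT.lf (nat_lit 0) (nat_lit 432839996319) (nat_lit 532) (nat_lit 64102242966) (nat_lit 532) (nat_lit 64102242966) (nat_lit 54) (nat_lit 3) (nat_lit 61) (nat_lit 3) (nat_lit 61) (nat_lit 5) (nat_lit 373) (nat_lit 373) (nat_lit 154))) (XT.nd (nat_lit 78) (nat_lit 0) (nat_lit 76) (XT.lf (nat_lit 76) (nat_lit 424264883990) (nat_lit 0) (nat_lit 486245937159) (nat_lit 532) (nat_lit 255645411541)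 (nat_lit 55) (nat_lit 5) (nat_lit 54) (nat_lit 3) (nat_lit 61) (nat_lit 5) (nat_lit 374) (nat_lit 373) (nat_lit 153)) (XT.lf (nat_lit 0) (nat_lit 964015686866) (nat_lit 456) (nat_lit 186827790192) (nat_lit 532) (nat_lit 62498399609) (nat_lit 55) (nat_lit 5) (nat_lit 61) (nat_lit 5) (nat_lit 62) (nat_lit 5) (nat_lit 375) (nat_lit 373) (nat_lit 152)))) (XT.nd (nat_lit 156) (nat_lit 0) (nat_lit 76) (XT.nd (nat_lit 78) (nat_lit 0) (nat_lit 0) (XT.lf (nat_lit 76) (nat_lit 421074960317) (nat_lit 0) (nat_lit 623482604575) (nat_lit 532) (nat_lit 217924277435) (nat_lit 56) (nat_lit 5) (nat_lit 55) (nat_lit 5) (nat_lit 62) (nat_lit 5) (nat_lit 376) (nat_lit 373) (nat_lit 151)) (XT.lf (nat_lit 76) (nat_lit 1088234989957) (nat_lit 0) (nat_lit 48416001863) (nat_lit 532) (nat_lit 178493357534) (nat_lit 56) (nat_lit 5) (nat_lit 55) (nat_lit 5) (nat_lit 62) (nat_lit 5) (nat_lit 377) (nat_lit 373) (nat_lit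 150))) (XT.nd (nat_lit 78) (nat_lit 0) (nat_lit 0) (XT.lf (nat_lit 76) (nat_lit 445248717244) (nat_lit 0) (nat_lit 815343803012) (nat_lit 532) (nat_lit 109468886506) (nat_lit 57) (nat_lit 5) (nat_lit 56) (nat_lit 5) (nat_lit 63) (nat_lit 5) (nat_lit 378) (nat_lit 373) (nat_lit 149)) (XT.lf (nat_lit 76) (nat_lit 1182760194114) (nat_lit 0) (nat_lit 219118998770) (nat_lit 532) (nat_lit 26898250131) (nat_lit 57) (nat_lit 5) (nat_lit 56) (nat_lit 5) (nat_lit 63) (nat_lit 5) (nat_lit 379) (nat_lit 373) (nat_lit 148))))) (XT.nd (nat_lit 312) (nat_lit 608) (nat_lit 0) (XT.nd (nat_lit 156) (nat_lit 304) (nat_lit 0) (XT.nd (nat_lit 78) (nat_lit 0) (nat_lit 0) (XT.lf (nat_lit 0) (nat_lit 82030651354) (nat_lit 532) (nat_lit 990508198095) (nat_lit 76) (nat_lit 417702648556) (nat_lit 50) (nat_lit 5) (nat_lit 57) (nat_lit 5) (nat_lit 51) (nat_lit 5) (nat_lit 380) (nat_lit 373) (nat_lit 147)) (XT.lf (nat_lit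 0) (nat_lit 210813323171) (nat_lit 532) (nat_lit 243514219075) (nat_lit 76) (nat_lit 1101231829694) (nat_lit 50) (nat_lit 5) (nat_lit 57) (nat_lit 5) (nat_lit 51) (nat_lit 5) (nat_lit 381) (nat_lit 373) (nat_lit 146))) (XT.nd (nat_lit 78) (nat_lit 0) (nat_lit 0) (XT.lf (nat_lit 0) (nat_lit 369659045505) (nat_lit 380) (nat_lit 1037564698432) (nat_lit 76) (nat_lit 217298096916) (nat_lit 46) (nat_lit 5) (nat_lit 51) (nat_lit 5) (nat_lit 47) (nat_lit 5) (nat_lit 382) (nat_lit 373) (nat_lit 145)) (XT.lf (nat_lit 0) (nat_lit 559844186356) (nat_lit 380) (nat_lit 212727232569) (nat_lit 76) (nat_lit 924939347500) (nat_lit 46) (nat_lit 5) (nat_lit 51) (nat_lit 5) (nat_lit 47) (nat_lit 5) (nat_lit 383) (nat_lit 373) (nat_lit 144)))) (XT.nd (nat_lit 156) (nat_lit 380) (nat_lit 0) (XT.nd (nat_lit 78) (nat_lit 0) (nat_lit 0) (XT.lf (nat_lit 0) (nat_lit 713804626061) (nat_lit 228) (nat_lit 68606528176)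 (nat_lit 304) (nat_lit 992554290548) (nat_lit 43) (nat_lit 5) (nat_lit 46) (nat_lit 5) (nat_lit 47) (nat_lit 5) (nat_lit 384) (nat_lit 373) (nat_lit 143)) (XT.lf (nat_lit 0) (nat_lit 1045385703995) (nat_lit 304) (nat_lit 148380061073) (nat_lit 76) (nat_lit 663042554396) (nat_lit 43) (nat_lit 5) (nat_lit 47) (nat_lit 5) (nat_lit 44) (nat_lit 5) (nat_lit 385) (nat_lit 373) (nat_lit 142))) (XT.nd (nat_lit 78) (nat_lit 152) (nat_lit 0) (XT.lf (nat_lit 0) (nat_lit 879644549668) (nat_lit 228) (nat_lit 472691126036) (nat_lit 304) (nat_lit 591027951778) (nat_lit 40) (nat_lit 5) (nat_lit 43) (nat_lit 5) (nat_lit 44) (nat_lit 5) (nat_lit 386) (nat_lit 373) (nat_lit 141)) (XT.nd (nat_lit 78) (nat_lit 152) (nat_lit 0) (XT.lf (nat_lit 0) (nat_lit 1695364971120) (nat_lit 304) (nat_lit 45635524651) (nat_lit 76) (nat_lit 294920998295) (nat_lit 40) (nat_lit 5) (nat_lit 44) (nat_lit 5) (nat_lit 41) (nat_lit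 5) (nat_lit 387) (nat_lit 373) (nat_lit 140)) (XT.lf (nat_lit 0) (nat_lit 1096466724844) (nat_lit 152) (nat_lit 1008017625930) (nat_lit 228) (nat_lit 28307819958) (nat_lit 38) (nat_lit 5) (nat_lit 40) (nat_lit 5) (nat_lit 41) (nat_lit 5) (nat_lit 388) (nat_lit 373) (nat_lit 139))))))) (XT.nd (nat_lit 624) (nat_lit 152) (nat_lit 0) (XT.nd (nat_lit 312) (nat_lit 380) (nat_lit 0) (XT.nd (nat_lit 156) (nat_lit 152) (nat_lit 0) (XT.nd (nat_lit 78) (nat_lit 0) (nat_lit 0) (XT.lf (nat_lit 0) (nat_lit 92379014324) (nat_lit 228) (nat_lit 204590177268) (nat_lit 304) (nat_lit 1939568795301) (nat_lit 34) (nat_lit 5) (nat_lit 37) (nat_lit 5) (nat_lit 38) (nat_lit 5) (nat_lit 389) (nat_lit 373) (nat_lit 138)) (XT.lf (nat_lit 0) (nat_lit 691757798860) (nat_lit 304) (nat_lit 993419183575) (nat_lit 76) (nat_lit 659746161083) (nat_lit 34) (nat_lit 5) (nat_lit 38) (nat_lit 5) (nat_lit 35) (nat_lit 5) (nat_lit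 390) (nat_lit 373) (nat_lit 137))) (XT.nd (nat_lit 78) (nat_lit 0) (nat_lit 0) (XT.lf (nat_lit 0) (nat_lit 256917825576) (nat_lit 152) (nat_lit 872704577771) (nat_lit 228) (nat_lit 1331437276638) (nat_lit 32) (nat_lit 5) (nat_lit 34) (nat_lit 5) (nat_lit 35) (nat_lit 5) (nat_lit 391) (nat_lit 373) (nat_lit 136)) (XT.lf (nat_lit 0) (nat_lit 1630498131016) (nat_lit 228) (nat_lit 921355885641) (nat_lit 76) (nat_lit 32394566329) (nat_lit 32) (nat_lit 5) (nat_lit 35) (nat_lit 5) (nat_lit 33) (nat_lit 5) (nat_lit 392) (nat_lit 373) (nat_lit 135)))) (XT.nd (nat_lit 156) (nat_lit 228) (nat_lit 0) (XT.nd (nat_lit 78) (nat_lit 0) (nat_lit 0) (XT.lf (nat_lit 0) (nat_lit 464627874906) (nat_lit 152) (nat_lit 1740658003292) (nat_lit 228) (nat_lit 509299363125) (nat_lit 30) (nat_lit 5) (nat_lit 32) (nat_lit 5) (nat_lit 33) (nat_lit 5) (nat_lit 393) (nat_lit 373) (nat_lit 134)) (XT.lf (nat_lit 0) (nat_lit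 2013888659555) (nat_lit 152) (nat_lit 837359486724) (nat_lit 228) (nat_lit 2085365960) (nat_lit 30) (nat_lit 5) (nat_lit 32) (nat_lit 5) (nat_lit 33) (nat_lit 5) (nat_lit 394) (nat_lit 373) (nat_lit 133))) (XT.nd (nat_lit 78) (nat_lit 0) (nat_lit 0) (XT.lf (nat_lit 0) (nat_lit 539494982313) (nat_lit 228) (nat_lit 2298772173319) (nat_lit 76) (nat_lit 162177538835) (nat_lit 27) (nat_lit 5) (nat_lit 30) (nat_lit 5) (nat_lit 28) (nat_lit 5) (nat_lit 395) (nat_lit 373) (nat_lit 132)) (XT.lf (nat_lit 0) (nat_lit 1169586753525) (nat_lit 228) (nat_lit 766069279215) (nat_lit 76) (nat_lit 1220040592585) (nat_lit 27) (nat_lit 5) (nat_lit 30) (nat_lit 5) (nat_lit 28) (nat_lit 5) (nat_lit 396) (nat_lit 373) (nat_lit 131))))) (XT.nd (nat_lit 45240) (nat_lit 0) (nat_lit 2280) (XT.nd (nat_lit 45084) (nat_lit 0) (nat_lit 2204) (XT.nd (nat_lit 78) (nat_lit 0) (nat_lit 0) (XT.lf (nat_lit 0) (nat_lit 936076165205)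 (nat_lit 152) (nat_lit 936522354167) (nat_lit 228) (nat_lit 1448969179046) (nat_lit 25) (nat_lit 5) (nat_lit 27) (nat_lit 5) (nat_lit 28) (nat_lit 5) (nat_lit 397) (nat_lit 373) (nat_lit 130)) (XT.lf (nat_lit 0) (nat_lit 2656769099776) (nat_lit 228) (nat_lit 685044703216) (nat_lit 76) (nat_lit 156901224506) (nat_lit 25) (nat_lit 5) (nat_lit 28) (nat_lit 5) (nat_lit 26) (nat_lit 4) (nat_lit 398) (nat_lit 373) (nat_lit 129))) (XT.nd (nat_lit 78) (nat_lit 0) (nat_lit 0) (XT.lf (nat_lit 0) (nat_lit 467467243008) (nat_lit 532) (nat_lit 69230396989) (nat_lit 532) (nat_lit 69230396989) (nat_lit 54) (nat_lit 3) (nat_lit 61) (nat_lit 3) (nat_lit 61) (nat_lit 5) (nat_lit 374) (nat_lit 374) (nat_lit 152)) (XT.lf (nat_lit 76) (nat_lit 458206124251) (nat_lit 0) (nat_lit 525145650789) (nat_lit 532) (nat_lit 276096949050) (nat_lit 55) (nat_lit 5) (nat_lit 54) (nat_lit 3) (nat_lit 61) (nat_lit 5) (nat_lit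 375) (nat_lit 374) (nat_lit 151)))) (XT.nd (nat_lit 156) (nat_lit 0) (nat_lit 0) (XT.nd (nat_lit 78) (nat_lit 0) (nat_lit 0) (XT.lf (nat_lit 0) (nat_lit 1041137022621) (nat_lit 456) (nat_lit 201773959994) (nat_lit 532) (nat_lit 67498237574) (nat_lit 55) (nat_lit 5) (nat_lit 61) (nat_lit 5) (nat_lit 62) (nat_lit 5) (nat_lit 376) (nat_lit 374) (nat_lit 150)) (XT.lf (nat_lit 76) (nat_lit 454761009203) (nat_lit 0) (nat_lit 673361236952) (nat_lit 532) (nat_lit 235358137336) (nat_lit 56) (nat_lit 5) (nat_lit 55) (nat_lit 5) (nat_lit 62) (nat_lit 5) (nat_lit 377) (nat_lit 374) (nat_lit 149))) (XT.nd (nat_lit 78) (nat_lit 0) (nat_lit 76) (XT.lf (nat_lit 76) (nat_lit 1175293837358) (nat_lit 0) (nat_lit 52289304244) (nat_lit 532) (nat_lit 192772749939) (nat_lit 56) (nat_lit 5) (nat_lit 55) (nat_lit 5) (nat_lit 62) (nat_lit 5) (nat_lit 378) (nat_lit 374) (nat_lit 148)) (XT.nd (nat_lit 78) (nat_lit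 0) (nat_lit 0) (XT.lf (nat_lit 76) (nat_lit 480868667745) (nat_lit 0) (nat_lit 880571320134) (nat_lit 532) (nat_lit 118226326027) (nat_lit 57) (nat_lit 5) (nat_lit 56) (nat_lit 5) (nat_lit 63) (nat_lit 5) (nat_lit 379) (nat_lit 374) (nat_lit 147)) (XT.lf (nat_lit 76) (nat_lit 1277381058830) (nat_lit 0) (nat_lit 236648530599) (nat_lit 532) (nat_lit 29050044032) (nat_lit 57) (nat_lit 5) (nat_lit 56) (nat_lit 5) (nat_lit 63) (nat_lit 5) (nat_lit 380) (nat_lit 374) (nat_lit 146))))))))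
noncomputable def xc250 : XT := (XT.nd (nat_lit 1326) (nat_lit 152) (nat_lit 0) (XT.nd (nat_lit 624) (nat_lit 988) (nat_lit 0) (XT.nd (nat_lit 312) (nat_lit 456) (nat_lit 0) (XT.nd (nat_lit 156) (nat_lit 304) (nat_lit 0) (XT.nd (nat_lit 78) (nat_lit 0) (nat_lit 0) (XT.lf (nat_lit 0) (nat_lit 88593162650) (nat_lit 532) (nat_lit 1069748797642) (nat_lit 76) (nat_lit 451118852725) (nat_lit 50) (nat_lit 5) (nat_lit 57) (nat_lit 5) (nat_lit 51) (nat_lit 5) (nat_lit 381) (nat_lit 374) (nat_lit 145)) (XT.lf (nat_lit 0) (nat_lit 227678443829) (nat_lit 532) (nat_lit 262995304471) (nat_lit 76) (nat_lit 1189330368925) (nat_lit 50) (nat_lit 5) (nat_lit 57) (nat_lit 5) (nat_lit 51) (nat_lit 5) (nat_lit 382) (nat_lit 374) (nat_lit 144))) (XT.nd (nat_lit 78) (nat_lit 0) (nat_lit 0) (XT.lf (nat_lit 0) (nat_lit 399231821084) (nat_lit 380) (nat_lit 1120569819232) (nat_lit 76) (nat_lit 234681943571) (nat_lit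 46) (nat_lit 5) (nat_lit 51) (nat_lit 5) (nat_lit 47) (nat_lit 5) (nat_lit 383) (nat_lit 374) (nat_lit 143)) (XT.lf (nat_lit 0) (nat_lit 604631769356) (nat_lit 380) (nat_lit 229745360179) (nat_lit 76) (nat_lit 998934494283) (nat_lit 46) (nat_lit 5) (nat_lit 51) (nat_lit 5) (nat_lit 47) (nat_lit 5) (nat_lit 384) (nat_lit 374) (nat_lit 142)))) (XT.nd (nat_lit 156) (nat_lit 228) (nat_lit 0) (XT.nd (nat_lit 78) (nat_lit 0) (nat_lit 0) (XT.lf (nat_lit 0) (nat_lit 770909045851) (nat_lit 228) (nat_lit 74095046450) (nat_lit 304) (nat_lit 1071958584342) (nat_lit 43) (nat_lit 5) (nat_lit 46) (nat_lit 5) (nat_lit 47) (nat_lit 5) (nat_lit 385) (nat_lit 374) (nat_lit 141)) (XT.lf (nat_lit 0) (nat_lit 1129016602740) (nat_lit 304) (nat_lit 160250416574) (nat_lit 76) (nat_lit 716085962248) (nat_lit 43) (nat_lit 5) (nat_lit 47) (nat_lit 5) (nat_lit 44) (nat_lit 5) (nat_lit 386) (nat_lit 374) (nat_lit 140)))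 (XT.nd (nat_lit 78) (nat_lit 0) (nat_lit 0) (XT.lf (nat_lit 0) (nat_lit 950016161775) (nat_lit 228) (nat_lit 510506408426) (nat_lit 304) (nat_lit 638310144185) (nat_lit 40) (nat_lit 5) (nat_lit 43) (nat_lit 5) (nat_lit 44) (nat_lit 5) (nat_lit 387) (nat_lit 374) (nat_lit 139)) (XT.lf (nat_lit 0) (nat_lit 1830994206426) (nat_lit 304) (nat_lit 49286319177) (nat_lit 76) (nat_lit 318514684925) (nat_lit 40) (nat_lit 5) (nat_lit 44) (nat_lit 5) (nat_lit 41) (nat_lit 5) (nat_lit 388) (nat_lit 374) (nat_lit 138))))) (XT.nd (nat_lit 312) (nat_lit 380) (nat_lit 0) (XT.nd (nat_lit 156) (nat_lit 152) (nat_lit 0) (XT.nd (nat_lit 78) (nat_lit 304) (nat_lit 0) (XT.lf (nat_lit 0) (nat_lit 1184184109078) (nat_lit 152) (nat_lit 1088659025701) (nat_lit 228) (nat_lit 30572406686) (nat_lit 38) (nat_lit 5) (nat_lit 40) (nat_lit 5) (nat_lit 41) (nat_lit 5) (nat_lit 389) (nat_lit 374) (nat_lit 137)) (XT.lf (nat_lit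 0) (nat_lit 99769382485) (nat_lit 228) (nat_lit 220957379754) (nat_lit 304) (nat_lit 2094734260737) (nat_lit 34) (nat_lit 5) (nat_lit 37) (nat_lit 5) (nat_lit 38) (nat_lit 5) (nat_lit 390) (nat_lit 374) (nat_lit 136))) (XT.nd (nat_lit 78) (nat_lit 152) (nat_lit 0) (XT.lf (nat_lit 0) (nat_lit 747098455733) (nat_lit 304) (nat_lit 1072892672333) (nat_lit 76) (nat_lit 712525864257) (nat_lit 34) (nat_lit 5) (nat_lit 38) (nat_lit 5) (nat_lit 35) (nat_lit 5) (nat_lit 391) (nat_lit 374) (nat_lit 135)) (XT.lf (nat_lit 0) (nat_lit 277471296387) (nat_lit 152) (nat_lit 942520930825) (nat_lit 228) (nat_lit 1437952224606) (nat_lit 32) (nat_lit 5) (nat_lit 34) (nat_lit 5) (nat_lit 35) (nat_lit 5) (nat_lit 392) (nat_lit 374) (nat_lit 134)))) (XT.nd (nat_lit 156) (nat_lit 228) (nat_lit 0) (XT.nd (nat_lit 78) (nat_lit 152) (nat_lit 0) (XT.lf (nat_lit 0) (nat_lit 1760938011048) (nat_lit 228) (nat_lit 995064312961)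 (nat_lit 76) (nat_lit 34986143217) (nat_lit 32) (nat_lit 5) (nat_lit 35) (nat_lit 5) (nat_lit 33) (nat_lit 5) (nat_lit 393) (nat_lit 374) (nat_lit 133)) (XT.lf (nat_lit 0) (nat_lit 501798147327) (nat_lit 152) (nat_lit 1879910629509) (nat_lit 228) (nat_lit 550043281491) (nat_lit 30) (nat_lit 5) (nat_lit 32) (nat_lit 5) (nat_lit 33) (nat_lit 5) (nat_lit 394) (nat_lit 374) (nat_lit 132))) (XT.nd (nat_lit 78) (nat_lit 228) (nat_lit 0) (XT.lf (nat_lit 0) (nat_lit 2174999791606) (nat_lit 152) (nat_lit 904348232656) (nat_lit 228) (nat_lit 2252166825) (nat_lit 30) (nat_lit 5) (nat_lit 32) (nat_lit 5) (nat_lit 33) (nat_lit 5) (nat_lit 395) (nat_lit 374) (nat_lit 131)) (XT.nd (nat_lit 78) (nat_lit 0) (nat_lit 0) (XT.lf (nat_lit 0) (nat_lit 582654607175) (nat_lit 228) (nat_lit 2482673905712) (nat_lit 76) (nat_lit 175151755010) (nat_lit 27) (nat_lit 5) (nat_lit 30) (nat_lit 5) (nat_lit 28) (nat_lit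 5) (nat_lit 396) (nat_lit 374) (nat_lit 130)) (XT.lf (nat_lit 0) (nat_lit 1263153718137) (nat_lit 228) (nat_lit 827354783151) (nat_lit 76) (nat_lit 1317643852093) (nat_lit 27) (nat_lit 5) (nat_lit 30) (nat_lit 5) (nat_lit 28) (nat_lit 5) (nat_lit 397) (nat_lit 374) (nat_lit 129))))))) (XT.nd (nat_lit 45630) (nat_lit 0) (nat_lit 988) (XT.nd (nat_lit 45318) (nat_lit 0) (nat_lit 2280) (XT.nd (nat_lit 45162) (nat_lit 0) (nat_lit 2204) (XT.nd (nat_lit 45084) (nat_lit 0) (nat_lit 2204) (XT.lf (nat_lit 0) (nat_lit 1010962295850) (nat_lit 152) (nat_lit 1011444128500) (nat_lit 228) (nat_lit 1564886688046) (nat_lit 25) (nat_lit 5) (nat_lit 27) (nat_lit 5) (nat_lit 28) (nat_lit 5) (nat_lit 398) (nat_lit 374) (nat_lit 128)) (XT.lf (nat_lit 0) (nat_lit 504864662731) (nat_lit 532) (nat_lit 74768806959) (nat_lit 532) (nat_lit 74768806959) (nat_lit 54) (nat_lit 3) (nat_lit 61) (nat_lit 3) (nat_lit 61)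 (nat_lit 5) (nat_lit 375) (nat_lit 375) (nat_lit 150))) (XT.nd (nat_lit 78) (nat_lit 0) (nat_lit 76) (XT.lf (nat_lit 76) (nat_lit 494862656665) (nat_lit 0) (nat_lit 567157335994) (nat_lit 532) (nat_lit 298184623172) (nat_lit 55) (nat_lit 5) (nat_lit 54) (nat_lit 3) (nat_lit 61) (nat_lit 5) (nat_lit 376) (nat_lit 375) (nat_lit 149)) (XT.lf (nat_lit 0) (nat_lit 1124428053708) (nat_lit 456) (nat_lit 217915831000) (nat_lit 532) (nat_lit 72898067428) (nat_lit 55) (nat_lit 5) (nat_lit 61) (nat_lit 5) (nat_lit 62) (nat_lit 5) (nat_lit 377) (nat_lit 375) (nat_lit 148)))) (XT.nd (nat_lit 156) (nat_lit 0) (nat_lit 76) (XT.nd (nat_lit 78) (nat_lit 0) (nat_lit 0) (XT.lf (nat_lit 76) (nat_lit 491141934574) (nat_lit 0) (nat_lit 727230156493) (nat_lit 532) (nat_lit 254186717769) (nat_lit 56) (nat_lit 5) (nat_lit 55) (nat_lit 5) (nat_lit 62) (nat_lit 5) (nat_lit 378) (nat_lit 375) (nat_lit 147)) (XT.lf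 (nat_lit 76) (nat_lit 1269317385675) (nat_lit 0) (nat_lit 56472467644) (nat_lit 532) (nat_lit 208194504607) (nat_lit 56) (nat_lit 5) (nat_lit 55) (nat_lit 5) (nat_lit 62) (nat_lit 5) (nat_lit 379) (nat_lit 375) (nat_lit 146))) (XT.nd (nat_lit 78) (nat_lit 0) (nat_lit 0) (XT.lf (nat_lit 76) (nat_lit 519338206707) (nat_lit 0) (nat_lit 951017036788) (nat_lit 532) (nat_lit 127684370897) (nat_lit 57) (nat_lit 5) (nat_lit 56) (nat_lit 5) (nat_lit 63) (nat_lit 5) (nat_lit 380) (nat_lit 375) (nat_lit 145)) (XT.lf (nat_lit 76) (nat_lit 1379571585705) (nat_lit 0) (nat_lit 255580423272) (nat_lit 532) (nat_lit 31373990876) (nat_lit 57) (nat_lit 5) (nat_lit 56) (nat_lit 5) (nat_lit 63) (nat_lit 5) (nat_lit 381) (nat_lit 375) (nat_lit 144))))) (XT.nd (nat_lit 312) (nat_lit 608) (nat_lit 0) (XT.nd (nat_lit 156) (nat_lit 304) (nat_lit 0) (XT.nd (nat_lit 78) (nat_lit 0) (nat_lit 0) (XT.lf (nat_lit 0) (nat_lit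 95680666407) (nat_lit 532) (nat_lit 1155328653185) (nat_lit 76) (nat_lit 487208354328) (nat_lit 50) (nat_lit 5) (nat_lit 57) (nat_lit 5) (nat_lit 51) (nat_lit 5) (nat_lit 382) (nat_lit 375) (nat_lit 143)) (XT.lf (nat_lit 0) (nat_lit 245892766321) (nat_lit 532) (nat_lit 284034884135) (nat_lit 76) (nat_lit 1284476792315) (nat_lit 50) (nat_lit 5) (nat_lit 57) (nat_lit 5) (nat_lit 51) (nat_lit 5) (nat_lit 383) (nat_lit 375) (nat_lit 142))) (XT.nd (nat_lit 78) (nat_lit 0) (nat_lit 0) (XT.lf (nat_lit 0) (nat_lit 431170411299) (nat_lit 380) (nat_lit 1210215357553) (nat_lit 76) (nat_lit 253456498115) (nat_lit 46) (nat_lit 5) (nat_lit 51) (nat_lit 5) (nat_lit 47) (nat_lit 5) (nat_lit 384) (nat_lit 375) (nat_lit 141)) (XT.lf (nat_lit 0) (nat_lit 653002352135) (nat_lit 380) (nat_lit 248124945273) (nat_lit 76) (nat_lit 1078849252954) (nat_lit 46) (nat_lit 5) (nat_lit 51) (nat_lit 5) (nat_lit 47) (nat_lit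 5) (nat_lit 385) (nat_lit 375) (nat_lit 140)))) (XT.nd (nat_lit 156) (nat_lit 380) (nat_lit 0) (XT.nd (nat_lit 78) (nat_lit 0) (nat_lit 0) (XT.lf (nat_lit 0) (nat_lit 832581812132) (nat_lit 228) (nat_lit 80022646754) (nat_lit 304) (nat_lit 1157715228693) (nat_lit 43) (nat_lit 5) (nat_lit 46) (nat_lit 5) (nat_lit 47) (nat_lit 5) (nat_lit 386) (nat_lit 375) (nat_lit 139)) (XT.lf (nat_lit 0) (nat_lit 1219337967333) (nat_lit 304) (nat_lit 173070407562) (nat_lit 76) (nat_lit 773372842230) (nat_lit 43) (nat_lit 5) (nat_lit 47) (nat_lit 5) (nat_lit 44) (nat_lit 5) (nat_lit 387) (nat_lit 375) (nat_lit 138))) (XT.nd (nat_lit 78) (nat_lit 152) (nat_lit 0) (XT.lf (nat_lit 0) (nat_lit 1026017495984) (nat_lit 228) (nat_lit 551346914504) (nat_lit 304) (nat_lit 689374918225) (nat_lit 40) (nat_lit 5) (nat_lit 43) (nat_lit 5) (nat_lit 44) (nat_lit 5) (nat_lit 388) (nat_lit 375) (nat_lit 137)) (XT.nd (nat_lit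 78) (nat_lit 152) (nat_lit 0) (XT.lf (nat_lit 0) (nat_lit 1977473775190) (nat_lit 304) (nat_lit 53229184033) (nat_lit 76) (nat_lit 343995865520) (nat_lit 40) (nat_lit 5) (nat_lit 44) (nat_lit 5) (nat_lit 41) (nat_lit 5) (nat_lit 389) (nat_lit 375) (nat_lit 136)) (XT.lf (nat_lit 0) (nat_lit 1278918877452) (nat_lit 152) (nat_lit 1175751738924) (nat_lit 228) (nat_lit 33018165898) (nat_lit 38) (nat_lit 5) (nat_lit 40) (nat_lit 5) (nat_lit 41) (nat_lit 5) (nat_lit 390) (nat_lit 375) (nat_lit 135))))))))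
noncomputable def xc251 : XT := (XT.nd (nat_lit 46488) (nat_lit 0) (nat_lit 228) (XT.nd (nat_lit 45786) (nat_lit 0) (nat_lit 1444) (XT.nd (nat_lit 312) (nat_lit 380) (nat_lit 0) (XT.nd (nat_lit 156) (nat_lit 152) (nat_lit 0) (XT.nd (nat_lit 78) (nat_lit 0) (nat_lit 0) (XT.lf (nat_lit 0) (nat_lit 107750973392) (nat_lit 228) (nat_lit 238633960107) (nat_lit 304) (nat_lit 2262312968857) (nat_lit 34) (nat_lit 5) (nat_lit 37) (nat_lit 5) (nat_lit 38) (nat_lit 5) (nat_lit 391) (nat_lit 375) (nat_lit 134)) (XT.lf (nat_lit 0) (nat_lit 806866360452) (nat_lit 304) (nat_lit 1158724046744) (nat_lit 76) (nat_lit 769527942218) (nat_lit 34) (nat_lit 5) (nat_lit 38) (nat_lit 5) (nat_lit 35) (nat_lit 5) (nat_lit 392) (nat_lit 375) (nat_lit 133))) (XT.nd (nat_lit 78) (nat_lit 0) (nat_lit 0) (XT.lf (nat_lit 0) (nat_lit 299669038477) (nat_lit 152) (nat_lit 1017922594003) (nat_lit 228) (nat_lit 1552988373286)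 (nat_lit 32) (nat_lit 5) (nat_lit 34) (nat_lit 5) (nat_lit 35) (nat_lit 5) (nat_lit 393) (nat_lit 375) (nat_lit 132)) (XT.lf (nat_lit 0) (nat_lit 1901813077267) (nat_lit 228) (nat_lit 1074669420677) (nat_lit 76) (nat_lit 37785044604) (nat_lit 32) (nat_lit 5) (nat_lit 35) (nat_lit 5) (nat_lit 33) (nat_lit 5) (nat_lit 394) (nat_lit 375) (nat_lit 131)))) (XT.nd (nat_lit 156) (nat_lit 228) (nat_lit 0) (XT.nd (nat_lit 78) (nat_lit 0) (nat_lit 0) (XT.lf (nat_lit 0) (nat_lit 541942035489) (nat_lit 152) (nat_lit 2030303467827) (nat_lit 228) (nat_lit 594046717703) (nat_lit 30) (nat_lit 5) (nat_lit 32) (nat_lit 5) (nat_lit 33) (nat_lit 5) (nat_lit 395) (nat_lit 375) (nat_lit 130)) (XT.lf (nat_lit 0) (nat_lit 2348999808616) (nat_lit 152) (nat_lit 976696080118) (nat_lit 228) (nat_lit 2432315813) (nat_lit 30) (nat_lit 5) (nat_lit 32) (nat_lit 5) (nat_lit 33) (nat_lit 5) (nat_lit 396) (nat_lit 375)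 (nat_lit 129))) (XT.nd (nat_lit 45240) (nat_lit 0) (nat_lit 2052) (XT.lf (nat_lit 0) (nat_lit 629266998277) (nat_lit 228) (nat_lit 2681287782612) (nat_lit 76) (nat_lit 189163906616) (nat_lit 27) (nat_lit 5) (nat_lit 30) (nat_lit 5) (nat_lit 28) (nat_lit 5) (nat_lit 397) (nat_lit 375) (nat_lit 128)) (XT.lf (nat_lit 0) (nat_lit 545253870284) (nat_lit 532) (nat_lit 80750292835) (nat_lit 532) (nat_lit 80750292835) (nat_lit 54) (nat_lit 3) (nat_lit 61) (nat_lit 3) (nat_lit 61) (nat_lit 5) (nat_lit 376) (nat_lit 376) (nat_lit 148))))) (XT.nd (nat_lit 312) (nat_lit 608) (nat_lit 0) (XT.nd (nat_lit 156) (nat_lit 0) (nat_lit 76) (XT.nd (nat_lit 78) (nat_lit 0) (nat_lit 76) (XT.lf (nat_lit 76) (nat_lit 534451705614) (nat_lit 0) (nat_lit 612529951288) (nat_lit 532) (nat_lit 322039322893) (nat_lit 55) (nat_lit 5) (nat_lit 54) (nat_lit 3) (nat_lit 61) (nat_lit 5) (nat_lit 377) (nat_lit 376) (nat_lit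 147)) (XT.lf (nat_lit 0) (nat_lit 1214382357399) (nat_lit 456) (nat_lit 235349058219) (nat_lit 532) (nat_lit 78729887829) (nat_lit 55) (nat_lit 5) (nat_lit 61) (nat_lit 5) (nat_lit 62) (nat_lit 5) (nat_lit 378) (nat_lit 376) (nat_lit 146))) (XT.nd (nat_lit 78) (nat_lit 0) (nat_lit 0) (XT.lf (nat_lit 76) (nat_lit 530433327606) (nat_lit 0) (nat_lit 785408586661) (nat_lit 532) (nat_lit 274521594703) (nat_lit 56) (nat_lit 5) (nat_lit 55) (nat_lit 5) (nat_lit 62) (nat_lit 5) (nat_lit 379) (nat_lit 376) (nat_lit 145)) (XT.lf (nat_lit 76) (nat_lit 1370862811961) (nat_lit 0) (nat_lit 60990281396) (nat_lit 532) (nat_lit 224850008968) (nat_lit 56) (nat_lit 5) (nat_lit 55) (nat_lit 5) (nat_lit 62) (nat_lit 5) (nat_lit 380) (nat_lit 376) (nat_lit 144)))) (XT.nd (nat_lit 156) (nat_lit 760) (nat_lit 0) (XT.nd (nat_lit 78) (nat_lit 0) (nat_lit 0) (XT.lf (nat_lit 76) (nat_lit 560885302289) (nat_lit 0)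 (nat_lit 1027098409199) (nat_lit 532) (nat_lit 137899068088) (nat_lit 57) (nat_lit 5) (nat_lit 56) (nat_lit 5) (nat_lit 63) (nat_lit 5) (nat_lit 381) (nat_lit 376) (nat_lit 143)) (XT.lf (nat_lit 76) (nat_lit 1489937348715) (nat_lit 0) (nat_lit 276026865900) (nat_lit 532) (nat_lit 33883861553) (nat_lit 57) (nat_lit 5) (nat_lit 56) (nat_lit 5) (nat_lit 63) (nat_lit 5) (nat_lit 382) (nat_lit 376) (nat_lit 142))) (XT.nd (nat_lit 78) (nat_lit 304) (nat_lit 0) (XT.lf (nat_lit 0) (nat_lit 103335163225) (nat_lit 532) (nat_lit 1247754904057) (nat_lit 76) (nat_lit 526185017003) (nat_lit 50) (nat_lit 5) (nat_lit 57) (nat_lit 5) (nat_lit 51) (nat_lit 5) (nat_lit 383) (nat_lit 376) (nat_lit 141)) (XT.nd (nat_lit 78) (nat_lit 304) (nat_lit 0) (XT.lf (nat_lit 0) (nat_lit 265564227909) (nat_lit 532) (nat_lit 306757636549) (nat_lit 76) (nat_lit 1387234930449) (nat_lit 50) (nat_lit 5) (nat_lit 57) (nat_lit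 5) (nat_lit 51) (nat_lit 5) (nat_lit 384) (nat_lit 376) (nat_lit 140)) (XT.lf (nat_lit 0) (nat_lit 465664082380) (nat_lit 380) (nat_lit 1307032545675) (nat_lit 76) (nat_lit 273733017157) (nat_lit 46) (nat_lit 5) (nat_lit 51) (nat_lit 5) (nat_lit 47) (nat_lit 5) (nat_lit 385) (nat_lit 376) (nat_lit 139))))))) (XT.nd (nat_lit 780) (nat_lit 152) (nat_lit 0) (XT.nd (nat_lit 312) (nat_lit 608) (nat_lit 0) (XT.nd (nat_lit 156) (nat_lit 228) (nat_lit 0) (XT.nd (nat_lit 78) (nat_lit 228) (nat_lit 0) (XT.lf (nat_lit 0) (nat_lit 705242575655) (nat_lit 380) (nat_lit 267974903412) (nat_lit 76) (nat_lit 1165157192443) (nat_lit 46) (nat_lit 5) (nat_lit 51) (nat_lit 5) (nat_lit 47) (nat_lit 5) (nat_lit 386) (nat_lit 376) (nat_lit 138)) (XT.lf (nat_lit 0) (nat_lit 899188393637) (nat_lit 228) (nat_lit 86424455569) (nat_lit 304) (nat_lit 1250332410641) (nat_lit 43) (nat_lit 5) (nat_lit 46) (nat_lit 5) (nat_lit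 47) (nat_lit 5) (nat_lit 387) (nat_lit 376) (nat_lit 137))) (XT.nd (nat_lit 78) (nat_lit 228) (nat_lit 0) (XT.lf (nat_lit 0) (nat_lit 1316885035904) (nat_lit 304) (nat_lit 186916003868) (nat_lit 76) (nat_lit 835242672181) (nat_lit 43) (nat_lit 5) (nat_lit 47) (nat_lit 5) (nat_lit 44) (nat_lit 5) (nat_lit 388) (nat_lit 376) (nat_lit 136)) (XT.lf (nat_lit 0) (nat_lit 1108098931043) (nat_lit 228) (nat_lit 595454662010) (nat_lit 304) (nat_lit 744524879536) (nat_lit 40) (nat_lit 5) (nat_lit 43) (nat_lit 5) (nat_lit 44) (nat_lit 5) (nat_lit 389) (nat_lit 376) (nat_lit 135)))) (XT.nd (nat_lit 156) (nat_lit 456) (nat_lit 0) (XT.nd (nat_lit 78) (nat_lit 152) (nat_lit 0) (XT.lf (nat_lit 0) (nat_lit 2135671704855) (nat_lit 304) (nat_lit 57487483881) (nat_lit 76) (nat_lit 371515539736) (nat_lit 40) (nat_lit 5) (nat_lit 44) (nat_lit 5) (nat_lit 41) (nat_lit 5) (nat_lit 390) (nat_lit 376) (nat_lit 134))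 (XT.lf (nat_lit 0) (nat_lit 1381232421640) (nat_lit 152) (nat_lit 1269811870465) (nat_lit 228) (nat_lit 35659590601) (nat_lit 38) (nat_lit 5) (nat_lit 40) (nat_lit 5) (nat_lit 41) (nat_lit 5) (nat_lit 391) (nat_lit 376) (nat_lit 133))) (XT.nd (nat_lit 78) (nat_lit 152) (nat_lit 0) (XT.lf (nat_lit 0) (nat_lit 116371085820) (nat_lit 228) (nat_lit 257724668318) (nat_lit 304) (nat_lit 2443297978296) (nat_lit 34) (nat_lit 5) (nat_lit 37) (nat_lit 5) (nat_lit 38) (nat_lit 5) (nat_lit 392) (nat_lit 376) (nat_lit 132)) (XT.nd (nat_lit 78) (nat_lit 152) (nat_lit 0) (XT.lf (nat_lit 0) (nat_lit 871415693517) (nat_lit 304) (nat_lit 1251421936725) (nat_lit 76) (nat_lit 831090185158) (nat_lit 34) (nat_lit 5) (nat_lit 38) (nat_lit 5) (nat_lit 35) (nat_lit 5) (nat_lit 393) (nat_lit 376) (nat_lit 131)) (XT.lf (nat_lit 0) (nat_lit 323642594459) (nat_lit 152) (nat_lit 1099356391845) (nat_lit 228) (nat_lit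 1677227418038) (nat_lit 32) (nat_lit 5) (nat_lit 34) (nat_lit 5) (nat_lit 35) (nat_lit 5) (nat_lit 394) (nat_lit 376) (nat_lit 130)))))) (XT.nd (nat_lit 45552) (nat_lit 0) (nat_lit 1900) (XT.nd (nat_lit 45396) (nat_lit 0) (nat_lit 1824) (XT.nd (nat_lit 78) (nat_lit 0) (nat_lit 0) (XT.lf (nat_lit 0) (nat_lit 585297429515) (nat_lit 152) (nat_lit 2192727734929) (nat_lit 228) (nat_lit 641570432565) (nat_lit 30) (nat_lit 5) (nat_lit 32) (nat_lit 5) (nat_lit 33) (nat_lit 5) (nat_lit 396) (nat_lit 376) (nat_lit 128)) (XT.lf (nat_lit 0) (nat_lit 2536919822182) (nat_lit 152) (nat_lit 1054831756968) (nat_lit 228) (nat_lit 2626880195) (nat_lit 30) (nat_lit 5) (nat_lit 32) (nat_lit 5) (nat_lit 33) (nat_lit 5) (nat_lit 397) (nat_lit 376) (nat_lit 127))) (XT.nd (nat_lit 78) (nat_lit 0) (nat_lit 0) (XT.lf (nat_lit 0) (nat_lit 588874209515) (nat_lit 532) (nat_lit 87210300247) (nat_lit 532) (nat_lit 87210300247)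 (nat_lit 54) (nat_lit 3) (nat_lit 61) (nat_lit 3) (nat_lit 61) (nat_lit 5) (nat_lit 377) (nat_lit 377) (nat_lit 146)) (XT.lf (nat_lit 76) (nat_lit 577207873283) (nat_lit 0) (nat_lit 661532371752) (nat_lit 532) (nat_lit 347802408598) (nat_lit 55) (nat_lit 5) (nat_lit 54) (nat_lit 3) (nat_lit 61) (nat_lit 5) (nat_lit 378) (nat_lit 377) (nat_lit 145)))) (XT.nd (nat_lit 156) (nat_lit 0) (nat_lit 0) (XT.nd (nat_lit 78) (nat_lit 0) (nat_lit 0) (XT.lf (nat_lit 0) (nat_lit 1311532996912) (nat_lit 456) (nat_lit 254176949217) (nat_lit 532) (nat_lit 85028257427) (nat_lit 55) (nat_lit 5) (nat_lit 61) (nat_lit 5) (nat_lit 62) (nat_lit 5) (nat_lit 379) (nat_lit 377) (nat_lit 144)) (XT.lf (nat_lit 76) (nat_lit 572868026622) (nat_lit 0) (nat_lit 848241288724) (nat_lit 532) (nat_lit 296483270420) (nat_lit 56) (nat_lit 5) (nat_lit 55) (nat_lit 5) (nat_lit 62) (nat_lit 5) (nat_lit 380) (nat_lit 377) (nat_lit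 143))) (XT.nd (nat_lit 78) (nat_lit 0) (nat_lit 76) (XT.lf (nat_lit 76) (nat_lit 1480531867295) (nat_lit 0) (nat_lit 65869517918) (nat_lit 532) (nat_lit 242837961668) (nat_lit 56) (nat_lit 5) (nat_lit 55) (nat_lit 5) (nat_lit 62) (nat_lit 5) (nat_lit 381) (nat_lit 377) (nat_lit 142)) (XT.nd (nat_lit 78) (nat_lit 0) (nat_lit 0) (XT.lf (nat_lit 76) (nat_lit 605756159947) (nat_lit 0) (nat_lit 1109266290052) (nat_lit 532) (nat_lit 148930948542) (nat_lit 57) (nat_lit 5) (nat_lit 56) (nat_lit 5) (nat_lit 63) (nat_lit 5) (nat_lit 382) (nat_lit 377) (nat_lit 141)) (XT.lf (nat_lit 76) (nat_lit 1609132367608) (nat_lit 0) (nat_lit 298109022688) (nat_lit 532) (nat_lit 36594528817) (nat_lit 57) (nat_lit 5) (nat_lit 56) (nat_lit 5) (nat_lit 63) (nat_lit 5) (nat_lit 383) (nat_lit 377) (nat_lit 140))))))))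
noncomputable def xc252 : XT := (XT.nd (nat_lit 46644) (nat_lit 0) (nat_lit 152) (XT.nd (nat_lit 624) (nat_lit 760) (nat_lit 0) (XT.nd (nat_lit 312) (nat_lit 456) (nat_lit 0) (XT.nd (nat_lit 156) (nat_lit 304) (nat_lit 0) (XT.nd (nat_lit 78) (nat_lit 0) (nat_lit 0) (XT.lf (nat_lit 0) (nat_lit 111602013581) (nat_lit 532) (nat_lit 1347575260903) (nat_lit 76) (nat_lit 568279813501) (nat_lit 50) (nat_lit 5) (nat_lit 57) (nat_lit 5) (nat_lit 51) (nat_lit 5) (nat_lit 384) (nat_lit 377) (nat_lit 139)) (XT.lf (nat_lit 0) (nat_lit 286809400677) (nat_lit 532) (nat_lit 331298214622) (nat_lit 76) (nat_lit 1498213720383) (nat_lit 50) (nat_lit 5) (nat_lit 57) (nat_lit 5) (nat_lit 51) (nat_lit 5) (nat_lit 385) (nat_lit 377) (nat_lit 138))) (XT.nd (nat_lit 78) (nat_lit 0) (nat_lit 0) (XT.lf (nat_lit 0) (nat_lit 502917241700) (nat_lit 380) (nat_lit 1411595114622) (nat_lit 76) (nat_lit 295631657838) (nat_lit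 46) (nat_lit 5) (nat_lit 51) (nat_lit 5) (nat_lit 47) (nat_lit 5) (nat_lit 386) (nat_lit 377) (nat_lit 137)) (XT.lf (nat_lit 0) (nat_lit 761662012013) (nat_lit 380) (nat_lit 289412863549) (nat_lit 76) (nat_lit 1258369767197) (nat_lit 46) (nat_lit 5) (nat_lit 51) (nat_lit 5) (nat_lit 47) (nat_lit 5) (nat_lit 387) (nat_lit 377) (nat_lit 136)))) (XT.nd (nat_lit 156) (nat_lit 228) (nat_lit 0) (XT.nd (nat_lit 78) (nat_lit 0) (nat_lit 0) (XT.lf (nat_lit 0) (nat_lit 971123496450) (nat_lit 228) (nat_lit 93338409506) (nat_lit 304) (nat_lit 1350358972330) (nat_lit 43) (nat_lit 5) (nat_lit 46) (nat_lit 5) (nat_lit 47) (nat_lit 5) (nat_lit 388) (nat_lit 377) (nat_lit 135)) (XT.lf (nat_lit 0) (nat_lit 1422235865512) (nat_lit 304) (nat_lit 201869253057) (nat_lit 76) (nat_lit 902062088162) (nat_lit 43) (nat_lit 5) (nat_lit 47) (nat_lit 5) (nat_lit 44) (nat_lit 5) (nat_lit 389) (nat_lit 377) (nat_lit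 134))) (XT.nd (nat_lit 78) (nat_lit 0) (nat_lit 0) (XT.lf (nat_lit 0) (nat_lit 1196746875859) (nat_lit 228) (nat_lit 643091030123) (nat_lit 304) (nat_lit 804086842339) (nat_lit 40) (nat_lit 5) (nat_lit 43) (nat_lit 5) (nat_lit 44) (nat_lit 5) (nat_lit 390) (nat_lit 377) (nat_lit 133)) (XT.lf (nat_lit 0) (nat_lit 2306525464948) (nat_lit 304) (nat_lit 62086452692) (nat_lit 76) (nat_lit 401236787179) (nat_lit 40) (nat_lit 5) (nat_lit 44) (nat_lit 5) (nat_lit 41) (nat_lit 5) (nat_lit 391) (nat_lit 377) (nat_lit 132))))) (XT.nd (nat_lit 312) (nat_lit 152) (nat_lit 0) (XT.nd (nat_lit 156) (nat_lit 152) (nat_lit 0) (XT.nd (nat_lit 78) (nat_lit 304) (nat_lit 0) (XT.lf (nat_lit 0) (nat_lit 1491731044514) (nat_lit 152) (nat_lit 1371396813609) (nat_lit 228) (nat_lit 38512333356) (nat_lit 38) (nat_lit 5) (nat_lit 40) (nat_lit 5) (nat_lit 41) (nat_lit 5) (nat_lit 392) (nat_lit 377) (nat_lit 131)) (XT.lf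 (nat_lit 0) (nat_lit 125680802314) (nat_lit 228) (nat_lit 278342634414) (nat_lit 304) (nat_lit 2638761792495) (nat_lit 34) (nat_lit 5) (nat_lit 37) (nat_lit 5) (nat_lit 38) (nat_lit 5) (nat_lit 393) (nat_lit 377) (nat_lit 130))) (XT.nd (nat_lit 78) (nat_lit 152) (nat_lit 0) (XT.lf (nat_lit 0) (nat_lit 941128969771) (nat_lit 304) (nat_lit 1351535662720) (nat_lit 76) (nat_lit 897577406453) (nat_lit 34) (nat_lit 5) (nat_lit 38) (nat_lit 5) (nat_lit 35) (nat_lit 5) (nat_lit 394) (nat_lit 377) (nat_lit 129)) (XT.lf (nat_lit 0) (nat_lit 349534030226) (nat_lit 152) (nat_lit 1187304894895) (nat_lit 228) (nat_lit 1811405589952) (nat_lit 32) (nat_lit 5) (nat_lit 34) (nat_lit 5) (nat_lit 35) (nat_lit 5) (nat_lit 395) (nat_lit 377) (nat_lit 128)))) (XT.nd (nat_lit 45474) (nat_lit 0) (nat_lit 1824) (XT.nd (nat_lit 78) (nat_lit 152) (nat_lit 0) (XT.lf (nat_lit 0) (nat_lit 2218274815405) (nat_lit 228)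 (nat_lit 1253494350290) (nat_lit 76) (nat_lit 44072492519) (nat_lit 32) (nat_lit 5) (nat_lit 35) (nat_lit 5) (nat_lit 33) (nat_lit 5) (nat_lit 396) (nat_lit 377) (nat_lit 127)) (XT.lf (nat_lit 0) (nat_lit 632121250613) (nat_lit 152) (nat_lit 2368145944871) (nat_lit 228) (nat_lit 692896047834) (nat_lit 30) (nat_lit 5) (nat_lit 32) (nat_lit 5) (nat_lit 33) (nat_lit 5) (nat_lit 397) (nat_lit 377) (nat_lit 126))) (XT.nd (nat_lit 78) (nat_lit 0) (nat_lit 0) (XT.lf (nat_lit 0) (nat_lit 635984171660) (nat_lit 532) (nat_lit 94187110536) (nat_lit 532) (nat_lit 94187110536) (nat_lit 54) (nat_lit 3) (nat_lit 61) (nat_lit 3) (nat_lit 61) (nat_lit 5) (nat_lit 378) (nat_lit 378) (nat_lit 144)) (XT.nd (nat_lit 78) (nat_lit 0) (nat_lit 76) (XT.lf (nat_lit 76) (nat_lit 623384529911) (nat_lit 0) (nat_lit 714454982378) (nat_lit 532) (nat_lit 375626549736) (nat_lit 55) (nat_lit 5) (nat_lit 54) (nat_lit 3)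 (nat_lit 61) (nat_lit 5) (nat_lit 379) (nat_lit 378) (nat_lit 143)) (XT.lf (nat_lit 0) (nat_lit 1416455680322) (nat_lit 456) (nat_lit 274511076297) (nat_lit 532) (nat_lit 91830499650) (nat_lit 55) (nat_lit 5) (nat_lit 61) (nat_lit 5) (nat_lit 62) (nat_lit 5) (nat_lit 380) (nat_lit 378) (nat_lit 142))))))) (XT.nd (nat_lit 624) (nat_lit 1064) (nat_lit 0) (XT.nd (nat_lit 312) (nat_lit 684) (nat_lit 0) (XT.nd (nat_lit 156) (nat_lit 0) (nat_lit 76) (XT.nd (nat_lit 78) (nat_lit 0) (nat_lit 0) (XT.lf (nat_lit 76) (nat_lit 618697496879) (nat_lit 0) (nat_lit 916100604794) (nat_lit 532) (nat_lit 320201887593) (nat_lit 56) (nat_lit 5) (nat_lit 55) (nat_lit 5) (nat_lit 62) (nat_lit 5) (nat_lit 381) (nat_lit 378) (nat_lit 141)) (XT.lf (nat_lit 76) (nat_lit 1598974442723) (nat_lit 0) (nat_lit 71139091363) (nat_lit 532) (nat_lit 262264957434) (nat_lit 56) (nat_lit 5) (nat_lit 55) (nat_lit 5) (nat_lit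 62) (nat_lit 5) (nat_lit 382) (nat_lit 378) (nat_lit 140))) (XT.nd (nat_lit 78) (nat_lit 0) (nat_lit 0) (XT.lf (nat_lit 76) (nat_lit 654216681443) (nat_lit 0) (nat_lit 1198007600216) (nat_lit 532) (nat_lit 160845385851) (nat_lit 57) (nat_lit 5) (nat_lit 56) (nat_lit 5) (nat_lit 63) (nat_lit 5) (nat_lit 383) (nat_lit 378) (nat_lit 139)) (XT.lf (nat_lit 76) (nat_lit 1737862983590) (nat_lit 0) (nat_lit 321957750947) (nat_lit 532) (nat_lit 39522055405) (nat_lit 57) (nat_lit 5) (nat_lit 56) (nat_lit 5) (nat_lit 63) (nat_lit 5) (nat_lit 384) (nat_lit 378) (nat_lit 138)))) (XT.nd (nat_lit 156) (nat_lit 304) (nat_lit 0) (XT.nd (nat_lit 78) (nat_lit 0) (nat_lit 0) (XT.lf (nat_lit 0) (nat_lit 120530206646) (nat_lit 532) (nat_lit 1455381251358) (nat_lit 76) (nat_lit 613742194413) (nat_lit 50) (nat_lit 5) (nat_lit 57) (nat_lit 5) (nat_lit 51) (nat_lit 5) (nat_lit 385) (nat_lit 378) (nat_lit 137))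 (XT.lf (nat_lit 0) (nat_lit 309754182340) (nat_lit 532) (nat_lit 357802043628) (nat_lit 76) (nat_lit 1618070814154) (nat_lit 50) (nat_lit 5) (nat_lit 57) (nat_lit 5) (nat_lit 51) (nat_lit 5) (nat_lit 386) (nat_lit 378) (nat_lit 136))) (XT.nd (nat_lit 78) (nat_lit 0) (nat_lit 0) (XT.lf (nat_lit 0) (nat_lit 543150649097) (nat_lit 380) (nat_lit 1524522694037) (nat_lit 76) (nat_lit 319282189872) (nat_lit 46) (nat_lit 5) (nat_lit 51) (nat_lit 5) (nat_lit 47) (nat_lit 5) (nat_lit 387) (nat_lit 378) (nat_lit 135)) (XT.lf (nat_lit 0) (nat_lit 822594998956) (nat_lit 380) (nat_lit 312565865082) (nat_lit 76) (nat_lit 1359039348024) (nat_lit 46) (nat_lit 5) (nat_lit 51) (nat_lit 5) (nat_lit 47) (nat_lit 5) (nat_lit 388) (nat_lit 378) (nat_lit 134))))) (XT.nd (nat_lit 312) (nat_lit 608) (nat_lit 0) (XT.nd (nat_lit 156) (nat_lit 228) (nat_lit 0) (XT.nd (nat_lit 78) (nat_lit 0) (nat_lit 0) (XT.lf (nat_lit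 0) (nat_lit 1048813403020) (nat_lit 228) (nat_lit 100805480116) (nat_lit 304) (nat_lit 1458387663400) (nat_lit 43) (nat_lit 5) (nat_lit 46) (nat_lit 5) (nat_lit 47) (nat_lit 5) (nat_lit 389) (nat_lit 378) (nat_lit 133)) (XT.lf (nat_lit 0) (nat_lit 1536014757675) (nat_lit 304) (nat_lit 218018766621) (nat_lit 76) (nat_lit 974227057106) (nat_lit 43) (nat_lit 5) (nat_lit 47) (nat_lit 5) (nat_lit 44) (nat_lit 5) (nat_lit 390) (nat_lit 378) (nat_lit 132))) (XT.nd (nat_lit 78) (nat_lit 0) (nat_lit 0) (XT.lf (nat_lit 0) (nat_lit 1292486651932) (nat_lit 228) (nat_lit 694538308377) (nat_lit 304) (nat_lit 868413766098) (nat_lit 40) (nat_lit 5) (nat_lit 43) (nat_lit 5) (nat_lit 44) (nat_lit 5) (nat_lit 391) (nat_lit 378) (nat_lit 131)) (XT.lf (nat_lit 0) (nat_lit 2491047522467) (nat_lit 304) (nat_lit 67053343273) (nat_lit 76) (nat_lit 433335733809) (nat_lit 40) (nat_lit 5) (nat_lit 44) (nat_lit 5)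 (nat_lit 41) (nat_lit 5) (nat_lit 392) (nat_lit 378) (nat_lit 130)))) (XT.nd (nat_lit 156) (nat_lit 152) (nat_lit 0) (XT.nd (nat_lit 78) (nat_lit 304) (nat_lit 0) (XT.lf (nat_lit 0) (nat_lit 1611069553060) (nat_lit 152) (nat_lit 1481108553131) (nat_lit 228) (nat_lit 41593299025) (nat_lit 38) (nat_lit 5) (nat_lit 40) (nat_lit 5) (nat_lit 41) (nat_lit 5) (nat_lit 393) (nat_lit 378) (nat_lit 129)) (XT.lf (nat_lit 0) (nat_lit 135735291900) (nat_lit 228) (nat_lit 300610038848) (nat_lit 304) (nat_lit 2849862715263) (nat_lit 34) (nat_lit 5) (nat_lit 37) (nat_lit 5) (nat_lit 38) (nat_lit 5) (nat_lit 394) (nat_lit 378) (nat_lit 128))) (XT.nd (nat_lit 78) (nat_lit 152) (nat_lit 0) (XT.lf (nat_lit 0) (nat_lit 1016419305162) (nat_lit 304) (nat_lit 1459658490925) (nat_lit 76) (nat_lit 969383604528) (nat_lit 34) (nat_lit 5) (nat_lit 38) (nat_lit 5) (nat_lit 35) (nat_lit 5) (nat_lit 395) (nat_lit 378)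 (nat_lit 127)) (XT.nd (nat_lit 45552) (nat_lit 0) (nat_lit 1672) (XT.lf (nat_lit 0) (nat_lit 377496776829) (nat_lit 152) (nat_lit 1282289279373) (nat_lit 228) (nat_lit 1956318018691) (nat_lit 32) (nat_lit 5) (nat_lit 34) (nat_lit 5) (nat_lit 35) (nat_lit 5) (nat_lit 396) (nat_lit 378) (nat_lit 126)) (XT.lf (nat_lit 0) (nat_lit 686862927156) (nat_lit 532) (nat_lit 101722067607) (nat_lit 532) (nat_lit 101722067607) (nat_lit 54) (nat_lit 3) (nat_lit 61) (nat_lit 3) (nat_lit 61) (nat_lit 5) (nat_lit 379) (nat_lit 379) (nat_lit 142))))))))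
noncomputable def xc253 : XT := (XT.nd (nat_lit 46956) (nat_lit 0) (nat_lit 304) (XT.nd (nat_lit 624) (nat_lit 1216) (nat_lit 0) (XT.nd (nat_lit 312) (nat_lit 304) (nat_lit 0) (XT.nd (nat_lit 156) (nat_lit 0) (nat_lit 76) (XT.nd (nat_lit 78) (nat_lit 0) (nat_lit 76) (XT.lf (nat_lit 76) (nat_lit 673255315252) (nat_lit 0) (nat_lit 771611398874) (nat_lit 532) (nat_lit 405676629520) (nat_lit 55) (nat_lit 5) (nat_lit 54) (nat_lit 3) (nat_lit 61) (nat_lit 5) (nat_lit 380) (nat_lit 379) (nat_lit 141)) (XT.lf (nat_lit 0) (nat_lit 1529772172176) (nat_lit 456) (nat_lit 296471937660) (nat_lit 532) (nat_lit 99176923872) (nat_lit 55) (nat_lit 5) (nat_lit 61) (nat_lit 5) (nat_lit 62) (nat_lit 5) (nat_lit 381) (nat_lit 379) (nat_lit 140))) (XT.nd (nat_lit 78) (nat_lit 0) (nat_lit 0) (XT.lf (nat_lit 76) (nat_lit 668193320744) (nat_lit 0) (nat_lit 989388664300) (nat_lit 532) (nat_lit 345818000482) (nat_lit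 56) (nat_lit 5) (nat_lit 55) (nat_lit 5) (nat_lit 62) (nat_lit 5) (nat_lit 382) (nat_lit 379) (nat_lit 139)) (XT.lf (nat_lit 76) (nat_lit 1726892420469) (nat_lit 0) (nat_lit 76830228969) (nat_lit 532) (nat_lit 283246118734) (nat_lit 56) (nat_lit 5) (nat_lit 55) (nat_lit 5) (nat_lit 62) (nat_lit 5) (nat_lit 383) (nat_lit 379) (nat_lit 138)))) (XT.nd (nat_lit 156) (nat_lit 456) (nat_lit 0) (XT.nd (nat_lit 78) (nat_lit 0) (nat_lit 0) (XT.lf (nat_lit 76) (nat_lit 706554040564) (nat_lit 0) (nat_lit 1293848214199) (nat_lit 532) (nat_lit 173712983648) (nat_lit 57) (nat_lit 5) (nat_lit 56) (nat_lit 5) (nat_lit 63) (nat_lit 5) (nat_lit 384) (nat_lit 379) (nat_lit 137)) (XT.lf (nat_lit 76) (nat_lit 1876892045060) (nat_lit 0) (nat_lit 347714376547) (nat_lit 532) (nat_lit 42683789216) (nat_lit 57) (nat_lit 5) (nat_lit 56) (nat_lit 5) (nat_lit 63) (nat_lit 5) (nat_lit 385) (nat_lit 379) (nat_lit 136)))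 (XT.nd (nat_lit 78) (nat_lit 0) (nat_lit 0) (XT.lf (nat_lit 0) (nat_lit 130172650593) (nat_lit 532) (nat_lit 1571811725388) (nat_lit 76) (nat_lit 662841566392) (nat_lit 50) (nat_lit 5) (nat_lit 57) (nat_lit 5) (nat_lit 51) (nat_lit 5) (nat_lit 386) (nat_lit 379) (nat_lit 135)) (XT.lf (nat_lit 0) (nat_lit 334534542313) (nat_lit 532) (nat_lit 386426182972) (nat_lit 76) (nat_lit 1747516475977) (nat_lit 50) (nat_lit 5) (nat_lit 57) (nat_lit 5) (nat_lit 51) (nat_lit 5) (nat_lit 387) (nat_lit 379) (nat_lit 134))))) (XT.nd (nat_lit 312) (nat_lit 684) (nat_lit 0) (XT.nd (nat_lit 156) (nat_lit 228) (nat_lit 0) (XT.nd (nat_lit 78) (nat_lit 0) (nat_lit 0) (XT.lf (nat_lit 0) (nat_lit 586602725083) (nat_lit 380) (nat_lit 1646484484050) (nat_lit 76) (nat_lit 344824764553) (nat_lit 46) (nat_lit 5) (nat_lit 51) (nat_lit 5) (nat_lit 47) (nat_lit 5) (nat_lit 388) (nat_lit 379) (nat_lit 133)) (XT.lf (nat_lit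 0) (nat_lit 888402621148) (nat_lit 380) (nat_lit 337571110667) (nat_lit 76) (nat_lit 1467762495395) (nat_lit 46) (nat_lit 5) (nat_lit 51) (nat_lit 5) (nat_lit 47) (nat_lit 5) (nat_lit 389) (nat_lit 379) (nat_lit 132))) (XT.nd (nat_lit 78) (nat_lit 0) (nat_lit 0) (XT.lf (nat_lit 0) (nat_lit 1132718498285) (nat_lit 228) (nat_lit 108869916682) (nat_lit 304) (nat_lit 1575058653567) (nat_lit 43) (nat_lit 5) (nat_lit 46) (nat_lit 5) (nat_lit 47) (nat_lit 5) (nat_lit 390) (nat_lit 379) (nat_lit 131)) (XT.lf (nat_lit 0) (nat_lit 1658895957940) (nat_lit 304) (nat_lit 235460245076) (nat_lit 76) (nat_lit 1052165223296) (nat_lit 43) (nat_lit 5) (nat_lit 47) (nat_lit 5) (nat_lit 44) (nat_lit 5) (nat_lit 391) (nat_lit 379) (nat_lit 130)))) (XT.nd (nat_lit 234) (nat_lit 456) (nat_lit 0) (XT.nd (nat_lit 78) (nat_lit 0) (nat_lit 0) (XT.lf (nat_lit 0) (nat_lit 1395885606382) (nat_lit 228) (nat_lit 750101369484)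 (nat_lit 304) (nat_lit 937886847128) (nat_lit 40) (nat_lit 5) (nat_lit 43) (nat_lit 5) (nat_lit 44) (nat_lit 5) (nat_lit 392) (nat_lit 379) (nat_lit 129)) (XT.lf (nat_lit 0) (nat_lit 2690331341689) (nat_lit 304) (nat_lit 72417588758) (nat_lit 76) (nat_lit 468002595648) (nat_lit 40) (nat_lit 5) (nat_lit 44) (nat_lit 5) (nat_lit 41) (nat_lit 5) (nat_lit 393) (nat_lit 379) (nat_lit 128))) (XT.nd (nat_lit 78) (nat_lit 0) (nat_lit 0) (XT.lf (nat_lit 0) (nat_lit 146594137029) (nat_lit 228) (nat_lit 324658836538) (nat_lit 304) (nat_lit 3077851714796) (nat_lit 34) (nat_lit 5) (nat_lit 37) (nat_lit 5) (nat_lit 38) (nat_lit 5) (nat_lit 395) (nat_lit 379) (nat_lit 126)) (XT.nd (nat_lit 45630) (nat_lit 0) (nat_lit 1520) (XT.lf (nat_lit 0) (nat_lit 1097732864844) (nat_lit 304) (nat_lit 1576431148925) (nat_lit 76) (nat_lit 1046934297655) (nat_lit 34) (nat_lit 5) (nat_lit 38) (nat_lit 5) (nat_lit 35)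 (nat_lit 5) (nat_lit 396) (nat_lit 379) (nat_lit 125)) (XT.lf (nat_lit 0) (nat_lit 741811979986) (nat_lit 532) (nat_lit 109859822923) (nat_lit 532) (nat_lit 109859822923) (nat_lit 54) (nat_lit 3) (nat_lit 61) (nat_lit 3) (nat_lit 61) (nat_lit 5) (nat_lit 380) (nat_lit 380) (nat_lit 140))))))) (XT.nd (nat_lit 702) (nat_lit 608) (nat_lit 0) (XT.nd (nat_lit 312) (nat_lit 608) (nat_lit 0) (XT.nd (nat_lit 156) (nat_lit 0) (nat_lit 76) (XT.nd (nat_lit 78) (nat_lit 0) (nat_lit 76) (XT.lf (nat_lit 76) (nat_lit 727115760146) (nat_lit 0) (nat_lit 833340326135) (nat_lit 532) (nat_lit 438130721991) (nat_lit 55) (nat_lit 5) (nat_lit 54) (nat_lit 3) (nat_lit 61) (nat_lit 5) (nat_lit 381) (nat_lit 380) (nat_lit 139)) (XT.lf (nat_lit 0) (nat_lit 1652153978039) (nat_lit 456) (nat_lit 320189671461) (nat_lit 532) (nat_lit 107111064279) (nat_lit 55) (nat_lit 5) (nat_lit 61) (nat_lit 5) (nat_lit 62) (nat_lit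 5) (nat_lit 382) (nat_lit 380) (nat_lit 138))) (XT.nd (nat_lit 78) (nat_lit 0) (nat_lit 0) (XT.lf (nat_lit 76) (nat_lit 721648807078) (nat_lit 0) (nat_lit 1068539766978) (nat_lit 532) (nat_lit 373483407841) (nat_lit 56) (nat_lit 5) (nat_lit 55) (nat_lit 5) (nat_lit 62) (nat_lit 5) (nat_lit 383) (nat_lit 380) (nat_lit 137)) (XT.lf (nat_lit 76) (nat_lit 1865043833249) (nat_lit 0) (nat_lit 82976656116) (nat_lit 532) (nat_lit 305905777974) (nat_lit 56) (nat_lit 5) (nat_lit 55) (nat_lit 5) (nat_lit 62) (nat_lit 5) (nat_lit 384) (nat_lit 380) (nat_lit 136)))) (XT.nd (nat_lit 156) (nat_lit 760) (nat_lit 0) (XT.nd (nat_lit 78) (nat_lit 0) (nat_lit 0) (XT.lf (nat_lit 76) (nat_lit 763078384904) (nat_lit 0) (nat_lit 1397356076450) (nat_lit 532) (nat_lit 187609993986) (nat_lit 57) (nat_lit 5) (nat_lit 56) (nat_lit 5) (nat_lit 63) (nat_lit 5) (nat_lit 385) (nat_lit 380) (nat_lit 135)) (XT.lf (nat_lit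 76) (nat_lit 2027043428197) (nat_lit 0) (nat_lit 375531531407) (nat_lit 532) (nat_lit 46098466100) (nat_lit 57) (nat_lit 5) (nat_lit 56) (nat_lit 5) (nat_lit 63) (nat_lit 5) (nat_lit 386) (nat_lit 380) (nat_lit 134))) (XT.nd (nat_lit 78) (nat_lit 304) (nat_lit 0) (XT.lf (nat_lit 0) (nat_lit 140586486145) (nat_lit 532) (nat_lit 1697556641061) (nat_lit 76) (nat_lit 715868888640) (nat_lit 50) (nat_lit 5) (nat_lit 57) (nat_lit 5) (nat_lit 51) (nat_lit 5) (nat_lit 387) (nat_lit 380) (nat_lit 133)) (XT.nd (nat_lit 78) (nat_lit 304) (nat_lit 0) (XT.lf (nat_lit 0) (nat_lit 361297327461) (nat_lit 532) (nat_lit 417340256908) (nat_lit 76) (nat_lit 1887317791218) (nat_lit 50) (nat_lit 5) (nat_lit 57) (nat_lit 5) (nat_lit 51) (nat_lit 5) (nat_lit 388) (nat_lit 380) (nat_lit 132)) (XT.lf (nat_lit 0) (nat_lit 633530963715) (nat_lit 380) (nat_lit 1778203220902) (nat_lit 76) (nat_lit 372410745281) (nat_lit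 46) (nat_lit 5) (nat_lit 51) (nat_lit 5) (nat_lit 47) (nat_lit 5) (nat_lit 389) (nat_lit 380) (nat_lit 131)))))) (XT.nd (nat_lit 390) (nat_lit 152) (nat_lit 0) (XT.nd (nat_lit 156) (nat_lit 228) (nat_lit 0) (XT.nd (nat_lit 78) (nat_lit 228) (nat_lit 0) (XT.lf (nat_lit 0) (nat_lit 959474849938) (nat_lit 380) (nat_lit 364576779270) (nat_lit 76) (nat_lit 1585183494622) (nat_lit 46) (nat_lit 5) (nat_lit 51) (nat_lit 5) (nat_lit 47) (nat_lit 5) (nat_lit 390) (nat_lit 380) (nat_lit 130)) (XT.lf (nat_lit 0) (nat_lit 1223335997886) (nat_lit 228) (nat_lit 117579508436) (nat_lit 304) (nat_lit 1701063326215) (nat_lit 43) (nat_lit 5) (nat_lit 46) (nat_lit 5) (nat_lit 47) (nat_lit 5) (nat_lit 391) (nat_lit 380) (nat_lit 129))) (XT.nd (nat_lit 78) (nat_lit 228) (nat_lit 0) (XT.lf (nat_lit 0) (nat_lit 1791607651423) (nat_lit 304) (nat_lit 254297045071) (nat_lit 76) (nat_lit 1136338442550) (nat_lit 43)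 (nat_lit 5) (nat_lit 47) (nat_lit 5) (nat_lit 44) (nat_lit 5) (nat_lit 392) (nat_lit 380) (nat_lit 128)) (XT.lf (nat_lit 0) (nat_lit 1507556474008) (nat_lit 228) (nat_lit 810109475988) (nat_lit 304) (nat_lit 1012917777530) (nat_lit 40) (nat_lit 5) (nat_lit 43) (nat_lit 5) (nat_lit 44) (nat_lit 5) (nat_lit 393) (nat_lit 380) (nat_lit 127)))) (XT.nd (nat_lit 45864) (nat_lit 0) (nat_lit 1216) (XT.nd (nat_lit 45786) (nat_lit 0) (nat_lit 1216) (XT.lf (nat_lit 0) (nat_lit 1879151568189) (nat_lit 152) (nat_lit 1727565007127) (nat_lit 228) (nat_lit 48514389105) (nat_lit 38) (nat_lit 5) (nat_lit 40) (nat_lit 5) (nat_lit 41) (nat_lit 5) (nat_lit 395) (nat_lit 380) (nat_lit 125)) (XT.lf (nat_lit 0) (nat_lit 801156954382) (nat_lit 532) (nat_lit 118648600105) (nat_lit 532) (nat_lit 118648600105) (nat_lit 54) (nat_lit 3) (nat_lit 61) (nat_lit 3) (nat_lit 61) (nat_lit 5) (nat_lit 381) (nat_lit 381) (nat_lit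 138))) (XT.nd (nat_lit 78) (nat_lit 0) (nat_lit 76) (XT.lf (nat_lit 76) (nat_lit 785285037825) (nat_lit 0) (nat_lit 900007565387) (nat_lit 532) (nat_lit 473181147265) (nat_lit 55) (nat_lit 5) (nat_lit 54) (nat_lit 3) (nat_lit 61) (nat_lit 5) (nat_lit 382) (nat_lit 381) (nat_lit 137)) (XT.nd (nat_lit 78) (nat_lit 0) (nat_lit 0) (XT.lf (nat_lit 0) (nat_lit 1784326323793) (nat_lit 456) (nat_lit 345804826993) (nat_lit 532) (nat_lit 115679937844) (nat_lit 55) (nat_lit 5) (nat_lit 61) (nat_lit 5) (nat_lit 62) (nat_lit 5) (nat_lit 383) (nat_lit 381) (nat_lit 136)) (XT.lf (nat_lit 76) (nat_lit 779380729369) (nat_lit 0) (nat_lit 1154022956511) (nat_lit 532) (nat_lit 403362052450) (nat_lit 56) (nat_lit 5) (nat_lit 55) (nat_lit 5) (nat_lit 62) (nat_lit 5) (nat_lit 384) (nat_lit 381) (nat_lit 135))))))))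
noncomputable def xc254 : XT := (XT.nd (nat_lit 47112) (nat_lit 0) (nat_lit 228) (XT.nd (nat_lit 624) (nat_lit 228) (nat_lit 0) (XT.nd (nat_lit 312) (nat_lit 532) (nat_lit 0) (XT.nd (nat_lit 156) (nat_lit 380) (nat_lit 0) (XT.nd (nat_lit 78) (nat_lit 0) (nat_lit 76) (XT.lf (nat_lit 76) (nat_lit 2014247356321) (nat_lit 0) (nat_lit 89614796174) (nat_lit 532) (nat_lit 330378214269) (nat_lit 56) (nat_lit 5) (nat_lit 55) (nat_lit 5) (nat_lit 62) (nat_lit 5) (nat_lit 385) (nat_lit 381) (nat_lit 134)) (XT.lf (nat_lit 76) (nat_lit 824124673782) (nat_lit 0) (nat_lit 1509144566952) (nat_lit 532) (nat_lit 202618769196) (nat_lit 57) (nat_lit 5) (nat_lit 56) (nat_lit 5) (nat_lit 63) (nat_lit 5) (nat_lit 386) (nat_lit 381) (nat_lit 133))) (XT.nd (nat_lit 78) (nat_lit 456) (nat_lit 0) (XT.lf (nat_lit 76) (nat_lit 2189206919199) (nat_lit 0) (nat_lit 405574057980) (nat_lit 532) (nat_lit 49786320881) (nat_lit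 57) (nat_lit 5) (nat_lit 56) (nat_lit 5) (nat_lit 63) (nat_lit 5) (nat_lit 387) (nat_lit 381) (nat_lit 132)) (XT.lf (nat_lit 0) (nat_lit 151833425188) (nat_lit 532) (nat_lit 1833361153178) (nat_lit 76) (nat_lit 773138397104) (nat_lit 50) (nat_lit 5) (nat_lit 57) (nat_lit 5) (nat_lit 51) (nat_lit 5) (nat_lit 388) (nat_lit 381) (nat_lit 131)))) (XT.nd (nat_lit 156) (nat_lit 228) (nat_lit 0) (XT.nd (nat_lit 78) (nat_lit 304) (nat_lit 0) (XT.lf (nat_lit 0) (nat_lit 390201132317) (nat_lit 532) (nat_lit 450727459712) (nat_lit 76) (nat_lit 2038303212084) (nat_lit 50) (nat_lit 5) (nat_lit 57) (nat_lit 5) (nat_lit 51) (nat_lit 5) (nat_lit 389) (nat_lit 381) (nat_lit 130)) (XT.lf (nat_lit 0) (nat_lit 684213458495) (nat_lit 380) (nat_lit 1920459459824) (nat_lit 76) (nat_lit 402203604529) (nat_lit 46) (nat_lit 5) (nat_lit 51) (nat_lit 5) (nat_lit 47) (nat_lit 5) (nat_lit 390) (nat_lit 381) (nat_lit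 129))) (XT.nd (nat_lit 78) (nat_lit 228) (nat_lit 0) (XT.lf (nat_lit 0) (nat_lit 1036232854306) (nat_lit 380) (nat_lit 393742904250) (nat_lit 76) (nat_lit 1711998173846) (nat_lit 46) (nat_lit 5) (nat_lit 51) (nat_lit 5) (nat_lit 47) (nat_lit 5) (nat_lit 391) (nat_lit 381) (nat_lit 128)) (XT.lf (nat_lit 0) (nat_lit 1321202894639) (nat_lit 228) (nat_lit 126985867756) (nat_lit 304) (nat_lit 1837148375476) (nat_lit 43) (nat_lit 5) (nat_lit 46) (nat_lit 5) (nat_lit 47) (nat_lit 5) (nat_lit 392) (nat_lit 381) (nat_lit 127))))) (XT.nd (nat_lit 46098) (nat_lit 0) (nat_lit 1064) (XT.nd (nat_lit 156) (nat_lit 0) (nat_lit 0) (XT.nd (nat_lit 78) (nat_lit 228) (nat_lit 0) (XT.lf (nat_lit 0) (nat_lit 1934936277982) (nat_lit 304) (nat_lit 274640791864) (nat_lit 76) (nat_lit 1227245519146) (nat_lit 43) (nat_lit 5) (nat_lit 47) (nat_lit 5) (nat_lit 44) (nat_lit 5) (nat_lit 393) (nat_lit 381) (nat_lit 126))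 (XT.lf (nat_lit 0) (nat_lit 1628161008316) (nat_lit 228) (nat_lit 874918231448) (nat_lit 304) (nat_lit 1093951184843) (nat_lit 40) (nat_lit 5) (nat_lit 43) (nat_lit 5) (nat_lit 44) (nat_lit 5) (nat_lit 394) (nat_lit 381) (nat_lit 125))) (XT.nd (nat_lit 45864) (nat_lit 0) (nat_lit 1064) (XT.lf (nat_lit 0) (nat_lit 3138002505886) (nat_lit 304) (nat_lit 84467839024) (nat_lit 76) (nat_lit 545878232770) (nat_lit 40) (nat_lit 5) (nat_lit 44) (nat_lit 5) (nat_lit 41) (nat_lit 5) (nat_lit 395) (nat_lit 381) (nat_lit 124)) (XT.lf (nat_lit 0) (nat_lit 865249524446) (nat_lit 532) (nat_lit 128140480695) (nat_lit 532) (nat_lit 128140480695) (nat_lit 54) (nat_lit 3) (nat_lit 61) (nat_lit 3) (nat_lit 61) (nat_lit 5) (nat_lit 382) (nat_lit 382) (nat_lit 136)))) (XT.nd (nat_lit 156) (nat_lit 0) (nat_lit 76) (XT.nd (nat_lit 78) (nat_lit 0) (nat_lit 76) (XT.lf (nat_lit 76) (nat_lit 848107855311) (nat_lit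 0) (nat_lit 972008181902) (nat_lit 532) (nat_lit 511035611196) (nat_lit 55) (nat_lit 5) (nat_lit 54) (nat_lit 3) (nat_lit 61) (nat_lit 5) (nat_lit 383) (nat_lit 382) (nat_lit 135)) (XT.lf (nat_lit 0) (nat_lit 1927072453283) (nat_lit 456) (nat_lit 373469197562) (nat_lit 532) (nat_lit 124934322947) (nat_lit 55) (nat_lit 5) (nat_lit 61) (nat_lit 5) (nat_lit 62) (nat_lit 5) (nat_lit 384) (nat_lit 382) (nat_lit 134))) (XT.nd (nat_lit 78) (nat_lit 0) (nat_lit 0) (XT.lf (nat_lit 76) (nat_lit 841731202915) (nat_lit 0) (nat_lit 1246344800041) (nat_lit 532) (nat_lit 435630992625) (nat_lit 56) (nat_lit 5) (nat_lit 55) (nat_lit 5) (nat_lit 62) (nat_lit 5) (nat_lit 385) (nat_lit 382) (nat_lit 133)) (XT.nd (nat_lit 78) (nat_lit 0) (nat_lit 76) (XT.lf (nat_lit 76) (nat_lit 2175387158897) (nat_lit 0) (nat_lit 96783986357) (nat_lit 532) (nat_lit 356808449169) (nat_lit 56) (nat_lit 5) (nat_lit 55) (nat_lit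 5) (nat_lit 62) (nat_lit 5) (nat_lit 386) (nat_lit 382) (nat_lit 132)) (XT.lf (nat_lit 76) (nat_lit 890054663190) (nat_lit 0) (nat_lit 1629876136068) (nat_lit 532) (nat_lit 218828249892) (nat_lit 57) (nat_lit 5) (nat_lit 56) (nat_lit 5) (nat_lit 63) (nat_lit 5) (nat_lit 387) (nat_lit 382) (nat_lit 131))))))) (XT.nd (nat_lit 46644) (nat_lit 0) (nat_lit 228) (XT.nd (nat_lit 312) (nat_lit 228) (nat_lit 0) (XT.nd (nat_lit 156) (nat_lit 304) (nat_lit 0) (XT.nd (nat_lit 78) (nat_lit 456) (nat_lit 0) (XT.lf (nat_lit 76) (nat_lit 2364343487092) (nat_lit 0) (nat_lit 438019986100) (nat_lit 532) (nat_lit 53769207254) (nat_lit 57) (nat_lit 5) (nat_lit 56) (nat_lit 5) (nat_lit 63) (nat_lit 5) (nat_lit 388) (nat_lit 382) (nat_lit 130)) (XT.lf (nat_lit 0) (nat_lit 163980116479) (nat_lit 532) (nat_lit 1980030028999) (nat_lit 76) (nat_lit 834989466621) (nat_lit 50) (nat_lit 5) (nat_lit 57) (nat_lit 5)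 (nat_lit 51) (nat_lit 5) (nat_lit 389) (nat_lit 382) (nat_lit 129))) (XT.nd (nat_lit 78) (nat_lit 304) (nat_lit 0) (XT.lf (nat_lit 0) (nat_lit 421417238899) (nat_lit 532) (nat_lit 486785641273) (nat_lit 76) (nat_lit 2201367466965) (nat_lit 50) (nat_lit 5) (nat_lit 57) (nat_lit 5) (nat_lit 51) (nat_lit 5) (nat_lit 390) (nat_lit 382) (nat_lit 128)) (XT.lf (nat_lit 0) (nat_lit 738950550335) (nat_lit 380) (nat_lit 2074096200534) (nat_lit 76) (nat_lit 434379892571) (nat_lit 46) (nat_lit 5) (nat_lit 51) (nat_lit 5) (nat_lit 47) (nat_lit 5) (nat_lit 391) (nat_lit 382) (nat_lit 127)))) (XT.nd (nat_lit 46176) (nat_lit 0) (nat_lit 836) (XT.nd (nat_lit 156) (nat_lit 228) (nat_lit 0) (XT.lf (nat_lit 0) (nat_lit 1119131496688) (nat_lit 380) (nat_lit 425242321704) (nat_lit 76) (nat_lit 1848958027457) (nat_lit 46) (nat_lit 5) (nat_lit 51) (nat_lit 5) (nat_lit 47) (nat_lit 5) (nat_lit 392) (nat_lit 382)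 (nat_lit 126)) (XT.lf (nat_lit 0) (nat_lit 2089731192604) (nat_lit 304) (nat_lit 296612040798) (nat_lit 76) (nat_lit 1325425161700) (nat_lit 43) (nat_lit 5) (nat_lit 47) (nat_lit 5) (nat_lit 44) (nat_lit 5) (nat_lit 394) (nat_lit 382) (nat_lit 124))) (XT.nd (nat_lit 78) (nat_lit 0) (nat_lit 0) (XT.lf (nat_lit 0) (nat_lit 934469498160) (nat_lit 532) (nat_lit 138391712791) (nat_lit 532) (nat_lit 138391712791) (nat_lit 54) (nat_lit 3) (nat_lit 61) (nat_lit 3) (nat_lit 61) (nat_lit 5) (nat_lit 383) (nat_lit 383) (nat_lit 134)) (XT.lf (nat_lit 76) (nat_lit 915956496134) (nat_lit 0) (nat_lit 1049768846128) (nat_lit 532) (nat_lit 551918436215) (nat_lit 55) (nat_lit 5) (nat_lit 54) (nat_lit 3) (nat_lit 61) (nat_lit 5) (nat_lit 384) (nat_lit 383) (nat_lit 133))))) (XT.nd (nat_lit 312) (nat_lit 684) (nat_lit 0) (XT.nd (nat_lit 156) (nat_lit 0) (nat_lit 0) (XT.nd (nat_lit 78) (nat_lit 0) (nat_lit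 0) (XT.lf (nat_lit 0) (nat_lit 2081238269767) (nat_lit 456) (nat_lit 403346720000) (nat_lit 532) (nat_lit 134929060273) (nat_lit 55) (nat_lit 5) (nat_lit 61) (nat_lit 5) (nat_lit 62) (nat_lit 5) (nat_lit 385) (nat_lit 383) (nat_lit 132)) (XT.lf (nat_lit 76) (nat_lit 909069712176) (nat_lit 0) (nat_lit 1346052390053) (nat_lit 532) (nat_lit 470481451442) (nat_lit 56) (nat_lit 5) (nat_lit 55) (nat_lit 5) (nat_lit 62) (nat_lit 5) (nat_lit 386) (nat_lit 383) (nat_lit 131))) (XT.nd (nat_lit 78) (nat_lit 0) (nat_lit 76) (XT.lf (nat_lit 76) (nat_lit 2349418143672) (nat_lit 0) (nat_lit 104526710829) (nat_lit 532) (nat_lit 385353106034) (nat_lit 56) (nat_lit 5) (nat_lit 55) (nat_lit 5) (nat_lit 62) (nat_lit 5) (nat_lit 387) (nat_lit 383) (nat_lit 130)) (XT.lf (nat_lit 76) (nat_lit 961259049539) (nat_lit 0) (nat_lit 1760266230177) (nat_lit 532) (nat_lit 236334492015) (nat_lit 57) (nat_lit 5) (nat_lit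 56) (nat_lit 5) (nat_lit 63) (nat_lit 5) (nat_lit 388) (nat_lit 383) (nat_lit 129)))) (XT.nd (nat_lit 156) (nat_lit 304) (nat_lit 0) (XT.nd (nat_lit 78) (nat_lit 456) (nat_lit 0) (XT.lf (nat_lit 76) (nat_lit 2553490978368) (nat_lit 0) (nat_lit 473061587972) (nat_lit 532) (nat_lit 58070727291) (nat_lit 57) (nat_lit 5) (nat_lit 56) (nat_lit 5) (nat_lit 63) (nat_lit 5) (nat_lit 389) (nat_lit 383) (nat_lit 128)) (XT.lf (nat_lit 0) (nat_lit 177098540610) (nat_lit 532) (nat_lit 2138432417230) (nat_lit 76) (nat_lit 901788622020) (nat_lit 50) (nat_lit 5) (nat_lit 57) (nat_lit 5) (nat_lit 51) (nat_lit 5) (nat_lit 390) (nat_lit 383) (nat_lit 127))) (XT.nd (nat_lit 78) (nat_lit 304) (nat_lit 0) (XT.lf (nat_lit 0) (nat_lit 455130631725) (nat_lit 532) (nat_lit 525728479529) (nat_lit 76) (nat_lit 2377476862535) (nat_lit 50) (nat_lit 5) (nat_lit 57) (nat_lit 5) (nat_lit 51) (nat_lit 5) (nat_lit 391)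 (nat_lit 383) (nat_lit 126)) (XT.nd (nat_lit 78) (nat_lit 0) (nat_lit 0) (XT.lf (nat_lit 0) (nat_lit 798066607360) (nat_lit 380) (nat_lit 2240023882794) (nat_lit 76) (nat_lit 469130283702) (nat_lit 46) (nat_lit 5) (nat_lit 51) (nat_lit 5) (nat_lit 47) (nat_lit 5) (nat_lit 392) (nat_lit 383) (nat_lit 125)) (XT.lf (nat_lit 0) (nat_lit 1208662028458) (nat_lit 380) (nat_lit 459261694679) (nat_lit 76) (nat_lit 1996874669399) (nat_lit 46) (nat_lit 5) (nat_lit 51) (nat_lit 5) (nat_lit 47) (nat_lit 5) (nat_lit 393) (nat_lit 383) (nat_lit 124))))))))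
noncomputable def xc255 : XT := (XT.nd (nat_lit 93600) (nat_lit 0) (nat_lit 532) (XT.nd (nat_lit 46644) (nat_lit 0) (nat_lit 228) (XT.nd (nat_lit 46332) (nat_lit 0) (nat_lit 912) (XT.nd (nat_lit 46176) (nat_lit 0) (nat_lit 836) (XT.nd (nat_lit 46098) (nat_lit 0) (nat_lit 836) (XT.lf (nat_lit 0) (nat_lit 1541051084414) (nat_lit 228) (nat_lit 148116313900) (nat_lit 304) (nat_lit 2142849837192) (nat_lit 43) (nat_lit 5) (nat_lit 46) (nat_lit 5) (nat_lit 47) (nat_lit 5) (nat_lit 394) (nat_lit 383) (nat_lit 123)) (XT.lf (nat_lit 0) (nat_lit 1009227068093) (nat_lit 532) (nat_lit 149463044361) (nat_lit 532) (nat_lit 149463044361) (nat_lit 54) (nat_lit 3) (nat_lit 61) (nat_lit 3) (nat_lit 61) (nat_lit 5) (nat_lit 384) (nat_lit 384) (nat_lit 132))) (XT.nd (nat_lit 78) (nat_lit 0) (nat_lit 76) (XT.lf (nat_lit 76) (nat_lit 989233026454) (nat_lit 0) (nat_lit 1133750362112) (nat_lit 532) (nat_lit 596071890641)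 (nat_lit 55) (nat_lit 5) (nat_lit 54) (nat_lit 3) (nat_lit 61) (nat_lit 5) (nat_lit 385) (nat_lit 384) (nat_lit 131)) (XT.lf (nat_lit 0) (nat_lit 2247737348685) (nat_lit 456) (nat_lit 435614446140) (nat_lit 532) (nat_lit 145723377800) (nat_lit 55) (nat_lit 5) (nat_lit 61) (nat_lit 5) (nat_lit 62) (nat_lit 5) (nat_lit 386) (nat_lit 384) (nat_lit 130)))) (XT.nd (nat_lit 156) (nat_lit 0) (nat_lit 76) (XT.nd (nat_lit 78) (nat_lit 0) (nat_lit 0) (XT.lf (nat_lit 76) (nat_lit 981795300320) (nat_lit 0) (nat_lit 1453736586408) (nat_lit 532) (nat_lit 508119949901) (nat_lit 56) (nat_lit 5) (nat_lit 55) (nat_lit 5) (nat_lit 62) (nat_lit 5) (nat_lit 387) (nat_lit 384) (nat_lit 129)) (XT.lf (nat_lit 76) (nat_lit 2537371605508) (nat_lit 0) (nat_lit 112888852466) (nat_lit 532) (nat_lit 416181338169) (nat_lit 56) (nat_lit 5) (nat_lit 55) (nat_lit 5) (nat_lit 62) (nat_lit 5) (nat_lit 388) (nat_lit 384)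 (nat_lit 128))) (XT.nd (nat_lit 78) (nat_lit 0) (nat_lit 0) (XT.lf (nat_lit 76) (nat_lit 1038159784899) (nat_lit 0) (nat_lit 1901087531354) (nat_lit 532) (nat_lit 255241236058) (nat_lit 57) (nat_lit 5) (nat_lit 56) (nat_lit 5) (nat_lit 63) (nat_lit 5) (nat_lit 389) (nat_lit 384) (nat_lit 127)) (XT.lf (nat_lit 76) (nat_lit 2757770267190) (nat_lit 0) (nat_lit 510906517569) (nat_lit 532) (nat_lit 62716371290) (nat_lit 57) (nat_lit 5) (nat_lit 56) (nat_lit 5) (nat_lit 63) (nat_lit 5) (nat_lit 390) (nat_lit 384) (nat_lit 126))))) (XT.nd (nat_lit 46566) (nat_lit 0) (nat_lit 684) (XT.nd (nat_lit 46410) (nat_lit 0) (nat_lit 608) (XT.nd (nat_lit 156) (nat_lit 304) (nat_lit 0) (XT.lf (nat_lit 0) (nat_lit 191266436557) (nat_lit 532) (nat_lit 2309506998529) (nat_lit 76) (nat_lit 973931710126) (nat_lit 50) (nat_lit 5) (nat_lit 57) (nat_lit 5) (nat_lit 51) (nat_lit 5) (nat_lit 391) (nat_lit 384) (nat_lit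 125)) (XT.lf (nat_lit 0) (nat_lit 861911947092) (nat_lit 380) (nat_lit 2419225781601) (nat_lit 76) (nat_lit 506660706163) (nat_lit 46) (nat_lit 5) (nat_lit 51) (nat_lit 5) (nat_lit 47) (nat_lit 5) (nat_lit 393) (nat_lit 384) (nat_lit 123))) (XT.nd (nat_lit 78) (nat_lit 0) (nat_lit 0) (XT.lf (nat_lit 0) (nat_lit 1089965242183) (nat_lit 532) (nat_lit 161420083235) (nat_lit 532) (nat_lit 161420083235) (nat_lit 54) (nat_lit 3) (nat_lit 61) (nat_lit 3) (nat_lit 61) (nat_lit 5) (nat_lit 385) (nat_lit 385) (nat_lit 130)) (XT.lf (nat_lit 76) (nat_lit 1068371677683) (nat_lit 0) (nat_lit 1224450398192) (nat_lit 532) (nat_lit 643757624342) (nat_lit 55) (nat_lit 5) (nat_lit 54) (nat_lit 3) (nat_lit 61) (nat_lit 5) (nat_lit 386) (nat_lit 385) (nat_lit 129)))) (XT.nd (nat_lit 156) (nat_lit 0) (nat_lit 0) (XT.nd (nat_lit 78) (nat_lit 0) (nat_lit 0) (XT.lf (nat_lit 0) (nat_lit 2427556351444) (nat_lit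 456) (nat_lit 470463592007) (nat_lit 532) (nat_lit 157381241769) (nat_lit 55) (nat_lit 5) (nat_lit 61) (nat_lit 5) (nat_lit 62) (nat_lit 5) (nat_lit 387) (nat_lit 385) (nat_lit 128)) (XT.lf (nat_lit 76) (nat_lit 1060338933922) (nat_lit 0) (nat_lit 1570035517738) (nat_lit 532) (nat_lit 548769530756) (nat_lit 56) (nat_lit 5) (nat_lit 55) (nat_lit 5) (nat_lit 62) (nat_lit 5) (nat_lit 388) (nat_lit 385) (nat_lit 127))) (XT.nd (nat_lit 78) (nat_lit 0) (nat_lit 76) (XT.lf (nat_lit 76) (nat_lit 2740361342816) (nat_lit 0) (nat_lit 121919964752) (nat_lit 532) (nat_lit 449475831207) (nat_lit 56) (nat_lit 5) (nat_lit 55) (nat_lit 5) (nat_lit 62) (nat_lit 5) (nat_lit 389) (nat_lit 385) (nat_lit 126)) (XT.nd (nat_lit 78) (nat_lit 0) (nat_lit 0) (XT.lf (nat_lit 76) (nat_lit 1121212577462) (nat_lit 0) (nat_lit 2053174536232) (nat_lit 532) (nat_lit 275660521810) (nat_lit 57) (nat_lit 5) (nat_lit 56) (nat_lit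 5) (nat_lit 63) (nat_lit 5) (nat_lit 390) (nat_lit 385) (nat_lit 125)) (XT.lf (nat_lit 76) (nat_lit 2978391897613) (nat_lit 0) (nat_lit 551779041168) (nat_lit 532) (nat_lit 67733668833) (nat_lit 57) (nat_lit 5) (nat_lit 56) (nat_lit 5) (nat_lit 63) (nat_lit 5) (nat_lit 391) (nat_lit 385) (nat_lit 124))))))) (XT.nd (nat_lit 93444) (nat_lit 0) (nat_lit 304) (XT.nd (nat_lit 46566) (nat_lit 0) (nat_lit 304) (XT.nd (nat_lit 46410) (nat_lit 0) (nat_lit 304) (XT.nd (nat_lit 78) (nat_lit 0) (nat_lit 0) (XT.lf (nat_lit 0) (nat_lit 206567762369) (nat_lit 532) (nat_lit 2494267548055) (nat_lit 76) (nat_lit 1051846245517) (nat_lit 50) (nat_lit 5) (nat_lit 57) (nat_lit 5) (nat_lit 51) (nat_lit 5) (nat_lit 392) (nat_lit 385) (nat_lit 123)) (XT.lf (nat_lit 0) (nat_lit 530864391624) (nat_lit 532) (nat_lit 613209676855) (nat_lit 76) (nat_lit 2773089009491) (nat_lit 50) (nat_lit 5) (nat_lit 57) (nat_lit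 5) (nat_lit 51) (nat_lit 5) (nat_lit 393) (nat_lit 385) (nat_lit 122))) (XT.nd (nat_lit 78) (nat_lit 0) (nat_lit 0) (XT.lf (nat_lit 0) (nat_lit 1177162468967) (nat_lit 532) (nat_lit 174333685886) (nat_lit 532) (nat_lit 174333685886) (nat_lit 54) (nat_lit 3) (nat_lit 61) (nat_lit 3) (nat_lit 61) (nat_lit 5) (nat_lit 386) (nat_lit 386) (nat_lit 128)) (XT.lf (nat_lit 76) (nat_lit 1153841419711) (nat_lit 0) (nat_lit 1322406436144) (nat_lit 532) (nat_lit 695258219242) (nat_lit 55) (nat_lit 5) (nat_lit 54) (nat_lit 3) (nat_lit 61) (nat_lit 5) (nat_lit 387) (nat_lit 386) (nat_lit 127)))) (XT.nd (nat_lit 156) (nat_lit 76) (nat_lit 0) (XT.nd (nat_lit 78) (nat_lit 0) (nat_lit 0) (XT.lf (nat_lit 0) (nat_lit 2621760872302) (nat_lit 456) (nat_lit 508100670944) (nat_lit 532) (nat_lit 169971735749) (nat_lit 55) (nat_lit 5) (nat_lit 61) (nat_lit 5) (nat_lit 62) (nat_lit 5) (nat_lit 388) (nat_lit 386)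 (nat_lit 126)) (XT.lf (nat_lit 76) (nat_lit 1145166056846) (nat_lit 0) (nat_lit 1695638362943) (nat_lit 532) (nat_lit 592671080239) (nat_lit 56) (nat_lit 5) (nat_lit 55) (nat_lit 5) (nat_lit 62) (nat_lit 5) (nat_lit 389) (nat_lit 386) (nat_lit 125))) (XT.nd (nat_lit 156) (nat_lit 76) (nat_lit 0) (XT.lf (nat_lit 76) (nat_lit 2959590257843) (nat_lit 0) (nat_lit 131673565438) (nat_lit 532) (nat_lit 485433885687) (nat_lit 56) (nat_lit 5) (nat_lit 55) (nat_lit 5) (nat_lit 62) (nat_lit 5) (nat_lit 390) (nat_lit 386) (nat_lit 124)) (XT.nd (nat_lit 46488) (nat_lit 152) (nat_lit 0) (XT.lf (nat_lit 76) (nat_lit 3216663257179) (nat_lit 0) (nat_lit 595921366343) (nat_lit 532) (nat_lit 73152351914) (nat_lit 57) (nat_lit 5) (nat_lit 56) (nat_lit 5) (nat_lit 63) (nat_lit 5) (nat_lit 392) (nat_lit 386) (nat_lit 122)) (XT.lf (nat_lit 0) (nat_lit 1271335472837) (nat_lit 532) (nat_lit 188280377321) (nat_lit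 532) (nat_lit 188280377321) (nat_lit 54) (nat_lit 3) (nat_lit 61) (nat_lit 3) (nat_lit 61) (nat_lit 5) (nat_lit 387) (nat_lit 387) (nat_lit 126)))))) (XT.nd (nat_lit 46878) (nat_lit 0) (nat_lit 0) (XT.nd (nat_lit 156) (nat_lit 0) (nat_lit 76) (XT.nd (nat_lit 78) (nat_lit 0) (nat_lit 76) (XT.lf (nat_lit 76) (nat_lit 1246148739986) (nat_lit 0) (nat_lit 1428198956262) (nat_lit 532) (nat_lit 750878863881) (nat_lit 55) (nat_lit 5) (nat_lit 54) (nat_lit 3) (nat_lit 61) (nat_lit 5) (nat_lit 388) (nat_lit 387) (nat_lit 125)) (XT.lf (nat_lit 0) (nat_lit 2831501753011) (nat_lit 456) (nat_lit 548748717398) (nat_lit 532) (nat_lit 183569470011) (nat_lit 55) (nat_lit 5) (nat_lit 61) (nat_lit 5) (nat_lit 62) (nat_lit 5) (nat_lit 389) (nat_lit 387) (nat_lit 124))) (XT.nd (nat_lit 78) (nat_lit 0) (nat_lit 0) (XT.lf (nat_lit 76) (nat_lit 1236779348432) (nat_lit 0) (nat_lit 1831289435225) (nat_lit 532) (nat_lit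 640084755532) (nat_lit 56) (nat_lit 5) (nat_lit 55) (nat_lit 5) (nat_lit 62) (nat_lit 5) (nat_lit 390) (nat_lit 387) (nat_lit 123)) (XT.lf (nat_lit 76) (nat_lit 3196357484988) (nat_lit 0) (nat_lit 142207453679) (nat_lit 532) (nat_lit 524268586240) (nat_lit 56) (nat_lit 5) (nat_lit 55) (nat_lit 5) (nat_lit 62) (nat_lit 5) (nat_lit 391) (nat_lit 387) (nat_lit 122)))) (XT.nd (nat_lit 156) (nat_lit 0) (nat_lit 0) (XT.nd (nat_lit 78) (nat_lit 0) (nat_lit 0) (XT.lf (nat_lit 0) (nat_lit 1373042316110) (nat_lit 532) (nat_lit 203342804561) (nat_lit 532) (nat_lit 203342804561) (nat_lit 54) (nat_lit 3) (nat_lit 61) (nat_lit 3) (nat_lit 61) (nat_lit 5) (nat_lit 388) (nat_lit 388) (nat_lit 124)) (XT.lf (nat_lit 76) (nat_lit 1345840644927) (nat_lit 0) (nat_lit 1542454877244) (nat_lit 532) (nat_lit 810949161932) (nat_lit 55) (nat_lit 5) (nat_lit 54) (nat_lit 3) (nat_lit 61) (nat_lit 5) (nat_lit 389)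 (nat_lit 388) (nat_lit 123))) (XT.nd (nat_lit 78) (nat_lit 76) (nat_lit 0) (XT.lf (nat_lit 0) (nat_lit 3058021902619) (nat_lit 456) (nat_lit 592648608598) (nat_lit 532) (nat_lit 198255023671) (nat_lit 55) (nat_lit 5) (nat_lit 61) (nat_lit 5) (nat_lit 62) (nat_lit 5) (nat_lit 390) (nat_lit 388) (nat_lit 122)) (XT.nd (nat_lit 46800) (nat_lit 76) (nat_lit 0) (XT.lf (nat_lit 76) (nat_lit 1335721702342) (nat_lit 0) (nat_lit 1977792592826) (nat_lit 532) (nat_lit 691291526435) (nat_lit 56) (nat_lit 5) (nat_lit 55) (nat_lit 5) (nat_lit 62) (nat_lit 5) (nat_lit 391) (nat_lit 388) (nat_lit 121)) (XT.lf (nat_lit 76) (nat_lit 1453507901445) (nat_lit 0) (nat_lit 1665851271265) (nat_lit 532) (nat_lit 875825085405) (nat_lit 55) (nat_lit 5) (nat_lit 54) (nat_lit 3) (nat_lit 61) (nat_lit 5) (nat_lit 390) (nat_lit 389) (nat_lit 121))))))))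

set_option maxRecDepth 10000000 in
noncomputable def Tp : PT := (PT.nd (nat_lit 7183566) (PT.nd (nat_lit 6809010) (PT.nd (nat_lit 6387732) pc0 pc1) (PT.nd (nat_lit 234000) pc2 pc3)) (PT.nd (nat_lit 188370) (PT.nd (nat_lit 94224) pc4 pc5) (PT.nd (nat_lit 185484) pc6 pc7)))

set_option maxRecDepth 10000000 in
noncomputable def Tx : XT := (XT.nd (nat_lit 11423646) (nat_lit 0) (nat_lit 76) XT.nil (XT.nd (nat_lit 6842394) (nat_lit 0) (nat_lit 0) (XT.nd (nat_lit 3136224) (nat_lit 0) (nat_lit 0) (XT.nd (nat_lit 2153580) (nat_lit 0) (nat_lit 0) (XT.nd (nat_lit 1498926) (nat_lit 0) (nat_lit 0) (XT.nd (nat_lit 1031238) (nat_lit 0) (nat_lit 0) (XT.nd (nat_lit 747708) (nat_lit 0) (nat_lit 0) (XT.nd (nat_lit 514332) (nat_lit 0) (nat_lit 0) (XT.nd (nat_lit 327990) (nat_lit 0) (nat_lit 0) (XT.nd (nat_lit 233922) (nat_lit 0) (nat_lit 0) xc0 xc1) (XT.nd (nat_lit 93444) (nat_lit 0) (nat_lit 0) xc2 xc3))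 (XT.nd (nat_lit 94848) (nat_lit 0) (nat_lit 0) (XT.nd (nat_lit 47502) (nat_lit 0) (nat_lit 0) xc4 xc5) (XT.nd (nat_lit 47190) (nat_lit 0) (nat_lit 0) xc6 xc7))) (XT.nd (nat_lit 142428) (nat_lit 0) (nat_lit 0) (XT.nd (nat_lit 93288) (nat_lit 0) (nat_lit 0) (XT.nd (nat_lit 46722) (nat_lit 0) (nat_lit 0) xc8 xc9) (XT.nd (nat_lit 2652) (nat_lit 0) (nat_lit 0) xc10 xc11)) (XT.nd (nat_lit 92430) (nat_lit 0) (nat_lit 0) (XT.nd (nat_lit 46254) (nat_lit 0) (nat_lit 0) xc12 xc13) (XT.nd (nat_lit 45942) (nat_lit 0) (nat_lit 0) xc14 xc15)))) (XT.nd (nat_lit 278070) (nat_lit 0) (nat_lit 0) (XT.nd (nat_lit 139620) (nat_lit 0) (nat_lit 0) (XT.nd (nat_lit 91416) (nat_lit 0) (nat_lit 0) (XT.nd (nat_lit 45786) (nat_lit 0) (nat_lit 0) xc16 xc17) (XT.nd (nat_lit 45474) (nat_lit 0) (nat_lit 0) xc18 xc19)) (XT.nd (nat_lit 90636) (nat_lit 0) (nat_lit 0) (XT.nd (nat_lit 45318) (nat_lit 0) (nat_lit 0) xc20 xc21)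 (XT.nd (nat_lit 2652) (nat_lit 0) (nat_lit 0) xc22 xc23))) (XT.nd (nat_lit 95082) (nat_lit 0) (nat_lit 0) (XT.nd (nat_lit 47580) (nat_lit 0) (nat_lit 0) (XT.nd (nat_lit 2652) (nat_lit 0) (nat_lit 0) xc24 xc25) (XT.nd (nat_lit 44772) (nat_lit 0) (nat_lit 0) xc26 xc27)) (XT.nd (nat_lit 47346) (nat_lit 0) (nat_lit 0) (XT.nd (nat_lit 44616) (nat_lit 0) (nat_lit 0) xc28 xc29) (XT.nd (nat_lit 44460) (nat_lit 0) (nat_lit 0) xc30 xc31))))) (XT.nd (nat_lit 371670) (nat_lit 0) (nat_lit 0) (XT.nd (nat_lit 187044) (nat_lit 0) (nat_lit 0) (XT.nd (nat_lit 93834) (nat_lit 0) (nat_lit 0) (XT.nd (nat_lit 46956) (nat_lit 0) (nat_lit 0) (XT.nd (nat_lit 44304) (nat_lit 0) (nat_lit 0) xc32 xc33) (XT.nd (nat_lit 44148) (nat_lit 0) (nat_lit 0) xc34 xc35)) (XT.nd (nat_lit 46644) (nat_lit 0) (nat_lit 0) (XT.nd (nat_lit 43992) (nat_lit 0) (nat_lit 0) xc36 xc37) (XT.nd (nat_lit 43836) (nat_lit 0) (nat_lit 0) xc38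 xc39))) (XT.nd (nat_lit 92586) (nat_lit 0) (nat_lit 0) (XT.nd (nat_lit 46332) (nat_lit 0) (nat_lit 0) (XT.nd (nat_lit 43680) (nat_lit 0) (nat_lit 0) xc40 xc41) (XT.nd (nat_lit 43524) (nat_lit 0) (nat_lit 0) xc42 xc43)) (XT.nd (nat_lit 46098) (nat_lit 0) (nat_lit 0) (XT.nd (nat_lit 2652) (nat_lit 0) (nat_lit 0) xc44 xc45) (XT.nd (nat_lit 2652) (nat_lit 0) (nat_lit 0) xc46 xc47)))) (XT.nd (nat_lit 142194) (nat_lit 0) (nat_lit 0) (XT.nd (nat_lit 51090) (nat_lit 0) (nat_lit 0) (XT.nd (nat_lit 45708) (nat_lit 0) (nat_lit 0) (XT.nd (nat_lit 2652) (nat_lit 0) (nat_lit 0) xc48 xc49) (XT.nd (nat_lit 2652) (nat_lit 76) (nat_lit 0) xc50 xc51)) (XT.nd (nat_lit 45630) (nat_lit 0) (nat_lit 0) (XT.nd (nat_lit 42900) (nat_lit 0) (nat_lit 0) xc52 xc53) (XT.nd (nat_lit 42744) (nat_lit 0) (nat_lit 76) xc54 xc55))) (XT.nd (nat_lit 90402) (nat_lit 0) (nat_lit 0) (XT.nd (nat_lit 45240) (nat_lit 0) (nat_lit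 0) (XT.nd (nat_lit 2652) (nat_lit 0) (nat_lit 0) xc56 xc57) (XT.nd (nat_lit 2652) (nat_lit 0) (nat_lit 0) xc58 xc59)) (XT.nd (nat_lit 5382) (nat_lit 0) (nat_lit 0) (XT.nd (nat_lit 2652) (nat_lit 76) (nat_lit 0) xc60 xc61) (XT.nd (nat_lit 42276) (nat_lit 0) (nat_lit 76) xc62 xc63)))))) (XT.nd (nat_lit 512148) (nat_lit 0) (nat_lit 0) (XT.nd (nat_lit 277758) (nat_lit 0) (nat_lit 0) (XT.nd (nat_lit 139542) (nat_lit 0) (nat_lit 0) (XT.nd (nat_lit 89622) (nat_lit 0) (nat_lit 0) (XT.nd (nat_lit 44850) (nat_lit 0) (nat_lit 0) (XT.nd (nat_lit 2652) (nat_lit 0) (nat_lit 0) xc64 xc65) (XT.nd (nat_lit 2652) (nat_lit 0) (nat_lit 0) xc66 xc67)) (XT.nd (nat_lit 5304) (nat_lit 0) (nat_lit 0) (XT.nd (nat_lit 2652) (nat_lit 228) (nat_lit 0) xc68 xc69) (XT.nd (nat_lit 41886) (nat_lit 0) (nat_lit 76) xc70 xc71))) (XT.nd (nat_lit 49764) (nat_lit 0) (nat_lit 0) (XT.nd (nat_lit 44382) (nat_lit 0) (nat_lit 0)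 (XT.nd (nat_lit 2652) (nat_lit 0) (nat_lit 0) xc72 xc73) (XT.nd (nat_lit 2652) (nat_lit 76) (nat_lit 0) xc74 xc75)) (XT.nd (nat_lit 44304) (nat_lit 0) (nat_lit 0) (XT.nd (nat_lit 41574) (nat_lit 0) (nat_lit 76) xc76 xc77) (XT.nd (nat_lit 2652) (nat_lit 0) (nat_lit 0) xc78 xc79)))) (XT.nd (nat_lit 98514) (nat_lit 0) (nat_lit 0) (XT.nd (nat_lit 49296) (nat_lit 0) (nat_lit 0) (XT.nd (nat_lit 5304) (nat_lit 0) (nat_lit 0) (XT.nd (nat_lit 2652) (nat_lit 76) (nat_lit 0) xc80 xc81) (XT.nd (nat_lit 41262) (nat_lit 0) (nat_lit 228) xc82 xc83)) (XT.nd (nat_lit 43836) (nat_lit 0) (nat_lit 0) (XT.nd (nat_lit 2652) (nat_lit 0) (nat_lit 0) xc84 xc85) (XT.nd (nat_lit 2652) (nat_lit 304) (nat_lit 0) xc86 xc87))) (XT.nd (nat_lit 87126) (nat_lit 0) (nat_lit 0) (XT.nd (nat_lit 43602) (nat_lit 0) (nat_lit 0) (XT.nd (nat_lit 40950) (nat_lit 0) (nat_lit 456) xc88 xc89) (XT.nd (nat_lit 2652) (nat_lit 76) (nat_lit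 0) xc90 xc91)) (XT.nd (nat_lit 5382) (nat_lit 76) (nat_lit 0) (XT.nd (nat_lit 2652) (nat_lit 760) (nat_lit 0) xc92 xc93) (XT.nd (nat_lit 2652) (nat_lit 0) (nat_lit 0) xc94 xc95))))) (XT.nd (nat_lit 234156) (nat_lit 0) (nat_lit 0) (XT.nd (nat_lit 97578) (nat_lit 0) (nat_lit 0) (XT.nd (nat_lit 48750) (nat_lit 0) (nat_lit 0) (XT.nd (nat_lit 5304) (nat_lit 0) (nat_lit 0) (XT.nd (nat_lit 2652) (nat_lit 228) (nat_lit 0) xc96 xc97) (XT.nd (nat_lit 40716) (nat_lit 0) (nat_lit 456) xc98 xc99)) (XT.nd (nat_lit 43446) (nat_lit 0) (nat_lit 76) (XT.nd (nat_lit 2652) (nat_lit 76) (nat_lit 0) xc100 xc101) (XT.nd (nat_lit 2652) (nat_lit 684) (nat_lit 0) xc102 xc103))) (XT.nd (nat_lit 48984) (nat_lit 0) (nat_lit 0) (XT.nd (nat_lit 43602) (nat_lit 0) (nat_lit 0) (XT.nd (nat_lit 40950) (nat_lit 0) (nat_lit 1216) xc104 xc105) (XT.nd (nat_lit 2652) (nat_lit 152) (nat_lit 0) xc106 xc107)) (XT.nd (nat_lit 43758)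 (nat_lit 0) (nat_lit 0) (XT.nd (nat_lit 41028) (nat_lit 0) (nat_lit 228) xc108 xc109) (XT.nd (nat_lit 2652) (nat_lit 0) (nat_lit 0) xc110 xc111)))) (XT.nd (nat_lit 98592) (nat_lit 0) (nat_lit 0) (XT.nd (nat_lit 49218) (nat_lit 0) (nat_lit 0) (XT.nd (nat_lit 5304) (nat_lit 0) (nat_lit 0) (XT.nd (nat_lit 2652) (nat_lit 304) (nat_lit 0) xc112 xc113) (XT.nd (nat_lit 41184) (nat_lit 0) (nat_lit 456) xc114 xc115)) (XT.nd (nat_lit 43992) (nat_lit 0) (nat_lit 76) (XT.nd (nat_lit 2652) (nat_lit 76) (nat_lit 0) xc116 xc117) (XT.nd (nat_lit 2652) (nat_lit 456) (nat_lit 0) xc118 xc119))) (XT.nd (nat_lit 88140) (nat_lit 0) (nat_lit 0) (XT.nd (nat_lit 43992) (nat_lit 0) (nat_lit 0) (XT.nd (nat_lit 41340) (nat_lit 0) (nat_lit 684) xc120 xc121) (XT.nd (nat_lit 2652) (nat_lit 76) (nat_lit 0) xc122 xc123)) (XT.nd (nat_lit 5382) (nat_lit 76) (nat_lit 0) (XT.nd (nat_lit 2652) (nat_lit 684) (nat_lit 0) xc124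 xc125) (XT.nd (nat_lit 41496) (nat_lit 0) (nat_lit 760) xc126 xc127))))))) (XT.nd (nat_lit 1171326) (nat_lit 0) (nat_lit 76) (XT.nd (nat_lit 518778) (nat_lit 0) (nat_lit 76) (XT.nd (nat_lit 238368) (nat_lit 0) (nat_lit 0) (XT.nd (nat_lit 138372) (nat_lit 0) (nat_lit 0) (XT.nd (nat_lit 49608) (nat_lit 0) (nat_lit 0) (XT.nd (nat_lit 44226) (nat_lit 0) (nat_lit 76) (XT.nd (nat_lit 2652) (nat_lit 76) (nat_lit 0) xc128 xc129) (XT.nd (nat_lit 2652) (nat_lit 684) (nat_lit 0) xc130 xc131)) (XT.nd (nat_lit 44304) (nat_lit 0) (nat_lit 0) (XT.nd (nat_lit 41652) (nat_lit 0) (nat_lit 760) xc132 xc133) (XT.nd (nat_lit 2652) (nat_lit 76) (nat_lit 0) xc134 xc135))) (XT.nd (nat_lit 49920) (nat_lit 0) (nat_lit 0) (XT.nd (nat_lit 5304) (nat_lit 76) (nat_lit 0) (XT.nd (nat_lit 2652) (nat_lit 608) (nat_lit 0) xc136 xc137) (XT.nd (nat_lit 41886) (nat_lit 0) (nat_lit 532) xc138 xc139)) (XT.nd (nat_lit 44694)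 (nat_lit 0) (nat_lit 76) (XT.nd (nat_lit 2652) (nat_lit 76) (nat_lit 0) xc140 xc141) (XT.nd (nat_lit 2652) (nat_lit 380) (nat_lit 0) xc142 xc143)))) (XT.nd (nat_lit 139854) (nat_lit 0) (nat_lit 0) (XT.nd (nat_lit 89544) (nat_lit 0) (nat_lit 0) (XT.nd (nat_lit 44694) (nat_lit 0) (nat_lit 0) (XT.nd (nat_lit 42042) (nat_lit 0) (nat_lit 304) xc144 xc145) (XT.nd (nat_lit 42120) (nat_lit 0) (nat_lit 1216) xc146 xc147)) (XT.nd (nat_lit 44928) (nat_lit 0) (nat_lit 76) (XT.nd (nat_lit 2652) (nat_lit 228) (nat_lit 0) xc148 xc149) (XT.nd (nat_lit 2652) (nat_lit 760) (nat_lit 0) xc150 xc151))) (XT.nd (nat_lit 90012) (nat_lit 0) (nat_lit 76) (XT.nd (nat_lit 44928) (nat_lit 0) (nat_lit 0) (XT.nd (nat_lit 42276) (nat_lit 0) (nat_lit 532) xc152 xc153) (XT.nd (nat_lit 2652) (nat_lit 76) (nat_lit 0) xc154 xc155)) (XT.nd (nat_lit 45162) (nat_lit 0) (nat_lit 0) (XT.nd (nat_lit 2652) (nat_lit 228) (nat_lit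 0) xc156 xc157) (XT.nd (nat_lit 2652) (nat_lit 912) (nat_lit 0) xc158 xc159))))) (XT.nd (nat_lit 323934) (nat_lit 0) (nat_lit 0) (XT.nd (nat_lit 141336) (nat_lit 0) (nat_lit 0) (XT.nd (nat_lit 90558) (nat_lit 0) (nat_lit 0) (XT.nd (nat_lit 45162) (nat_lit 0) (nat_lit 0) (XT.nd (nat_lit 42510) (nat_lit 0) (nat_lit 456) xc160 xc161) (XT.nd (nat_lit 2652) (nat_lit 0) (nat_lit 0) xc162 xc163)) (XT.nd (nat_lit 45396) (nat_lit 0) (nat_lit 0) (XT.nd (nat_lit 2652) (nat_lit 152) (nat_lit 0) xc164 xc165) (XT.nd (nat_lit 2652) (nat_lit 684) (nat_lit 0) xc166 xc167))) (XT.nd (nat_lit 91104) (nat_lit 0) (nat_lit 0) (XT.nd (nat_lit 45474) (nat_lit 0) (nat_lit 0) (XT.nd (nat_lit 42822) (nat_lit 0) (nat_lit 228) xc168 xc169) (XT.nd (nat_lit 42900) (nat_lit 0) (nat_lit 684) xc170 xc171)) (XT.nd (nat_lit 45708) (nat_lit 0) (nat_lit 0) (XT.nd (nat_lit 2652) (nat_lit 0) (nat_lit 0) xc172 xc173) (XT.nd (nat_lit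 2652) (nat_lit 228) (nat_lit 0) xc174 xc175)))) (XT.nd (nat_lit 143364) (nat_lit 0) (nat_lit 0) (XT.nd (nat_lit 51246) (nat_lit 0) (nat_lit 0) (XT.nd (nat_lit 5304) (nat_lit 0) (nat_lit 0) (XT.nd (nat_lit 2652) (nat_lit 608) (nat_lit 0) xc176 xc177) (XT.nd (nat_lit 43212) (nat_lit 0) (nat_lit 152) xc178 xc179)) (XT.nd (nat_lit 46020) (nat_lit 0) (nat_lit 0) (XT.nd (nat_lit 43290) (nat_lit 0) (nat_lit 380) xc180 xc181) (XT.nd (nat_lit 43368) (nat_lit 0) (nat_lit 684) xc182 xc183))) (XT.nd (nat_lit 92352) (nat_lit 0) (nat_lit 0) (XT.nd (nat_lit 46098) (nat_lit 0) (nat_lit 0) (XT.nd (nat_lit 43446) (nat_lit 0) (nat_lit 1216) xc184 xc185) (XT.nd (nat_lit 2652) (nat_lit 152) (nat_lit 0) xc186 xc187)) (XT.nd (nat_lit 46410) (nat_lit 0) (nat_lit 0) (XT.nd (nat_lit 2652) (nat_lit 228) (nat_lit 0) xc188 xc189) (XT.nd (nat_lit 2652) (nat_lit 456) (nat_lit 0) xc190 xc191)))))) (XT.nd (nat_lit 798096)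 (nat_lit 0) (nat_lit 380) (XT.nd (nat_lit 374790) (nat_lit 0) (nat_lit 152) (XT.nd (nat_lit 145158) (nat_lit 0) (nat_lit 76) (XT.nd (nat_lit 93132) (nat_lit 0) (nat_lit 0) (XT.nd (nat_lit 46488) (nat_lit 0) (nat_lit 0) (XT.nd (nat_lit 2652) (nat_lit 684) (nat_lit 0) xc192 xc193) (XT.nd (nat_lit 2652) (nat_lit 912) (nat_lit 0) xc194 xc195)) (XT.nd (nat_lit 5304) (nat_lit 152) (nat_lit 0) (XT.nd (nat_lit 2652) (nat_lit 988) (nat_lit 0) xc196 xc197) (XT.nd (nat_lit 43992) (nat_lit 0) (nat_lit 152) xc198 xc199))) (XT.nd (nat_lit 93678) (nat_lit 0) (nat_lit 76) (XT.nd (nat_lit 46722) (nat_lit 0) (nat_lit 76) (XT.nd (nat_lit 44070) (nat_lit 0) (nat_lit 76) xc200 xc201) (XT.nd (nat_lit 44226) (nat_lit 0) (nat_lit 0) xc202 xc203)) (XT.nd (nat_lit 47034) (nat_lit 0) (nat_lit 0) (XT.nd (nat_lit 44304) (nat_lit 0) (nat_lit 0) xc204 xc205) (XT.nd (nat_lit 44382) (nat_lit 0) (nat_lit 0) xc206 xc207))))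 (XT.nd (nat_lit 189618) (nat_lit 0) (nat_lit 76) (XT.nd (nat_lit 94536) (nat_lit 0) (nat_lit 76) (XT.nd (nat_lit 47190) (nat_lit 0) (nat_lit 0) (XT.nd (nat_lit 2652) (nat_lit 988) (nat_lit 0) xc208 xc209) (XT.nd (nat_lit 2652) (nat_lit 836) (nat_lit 0) xc210 xc211)) (XT.nd (nat_lit 47502) (nat_lit 0) (nat_lit 0) (XT.nd (nat_lit 2652) (nat_lit 532) (nat_lit 0) xc212 xc213) (XT.nd (nat_lit 2652) (nat_lit 228) (nat_lit 0) xc214 xc215))) (XT.nd (nat_lit 95316) (nat_lit 0) (nat_lit 0) (XT.nd (nat_lit 47580) (nat_lit 0) (nat_lit 0) (XT.nd (nat_lit 2652) (nat_lit 0) (nat_lit 0) xc216 xc217) (XT.nd (nat_lit 45006) (nat_lit 0) (nat_lit 608) xc218 xc219)) (XT.nd (nat_lit 47814) (nat_lit 0) (nat_lit 76) (XT.nd (nat_lit 45084) (nat_lit 0) (nat_lit 228) xc220 xc221) (XT.nd (nat_lit 45162) (nat_lit 0) (nat_lit 76) xc222 xc223))))) (XT.nd (nat_lit 518154) (nat_lit 0) (nat_lit 532) (XT.nd (nat_lit 236028)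 (nat_lit 0) (nat_lit 228) (XT.nd (nat_lit 96252) (nat_lit 0) (nat_lit 76) (XT.nd (nat_lit 48048) (nat_lit 0) (nat_lit 76) (XT.nd (nat_lit 2652) (nat_lit 304) (nat_lit 0) xc224 xc225) (XT.nd (nat_lit 45474) (nat_lit 0) (nat_lit 456) xc226 xc227)) (XT.nd (nat_lit 91260) (nat_lit 0) (nat_lit 76) (XT.nd (nat_lit 45552) (nat_lit 0) (nat_lit 0) xc228 xc229) (XT.nd (nat_lit 2652) (nat_lit 380) (nat_lit 0) xc230 xc231))) (XT.nd (nat_lit 140556) (nat_lit 0) (nat_lit 76) (XT.nd (nat_lit 48516) (nat_lit 0) (nat_lit 0) (XT.nd (nat_lit 45864) (nat_lit 0) (nat_lit 76) xc232 xc233) (XT.nd (nat_lit 45942) (nat_lit 0) (nat_lit 76) xc234 xc235)) (XT.nd (nat_lit 92508) (nat_lit 0) (nat_lit 152) (XT.nd (nat_lit 46176) (nat_lit 0) (nat_lit 76) xc236 xc237) (XT.nd (nat_lit 2652) (nat_lit 152) (nat_lit 0) xc238 xc239)))) (XT.nd (nat_lit 374946) (nat_lit 0) (nat_lit 532) (XT.nd (nat_lit 186576) (nat_lit 0) (nat_lit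 228) (XT.nd (nat_lit 93054) (nat_lit 0) (nat_lit 76) (XT.nd (nat_lit 46488) (nat_lit 0) (nat_lit 0) xc240 xc241) (XT.nd (nat_lit 46644) (nat_lit 0) (nat_lit 152) xc242 xc243)) (XT.nd (nat_lit 93990) (nat_lit 0) (nat_lit 228) (XT.nd (nat_lit 46878) (nat_lit 0) (nat_lit 76) xc244 xc245) (XT.nd (nat_lit 47112) (nat_lit 0) (nat_lit 0) xc246 xc247))) (XT.nd (nat_lit 280566) (nat_lit 0) (nat_lit 684) (XT.nd (nat_lit 139698) (nat_lit 0) (nat_lit 304) (XT.nd (nat_lit 47346) (nat_lit 0) (nat_lit 152) xc248 xc249) (XT.nd (nat_lit 47658) (nat_lit 0) (nat_lit 152) xc250 xc251)) (XT.nd (nat_lit 187590) (nat_lit 0) (nat_lit 760) (XT.nd (nat_lit 93444) (nat_lit 0) (nat_lit 304) xc252 xc253) (XT.nd (nat_lit 94458) (nat_lit 0) (nat_lit 228) xc254 xc255)))))))) XT.nil))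

set_option maxRecDepth 10000000 in
noncomputable def Te : XT := XT.nil

set_option maxRecDepth 10000000 in
noncomputable def Tz : ZL := (ZL.cons (nat_lit 76) (nat_lit 3) (nat_lit 127966637731746346119) (ZL.cons (nat_lit 152) (nat_lit 6) (nat_lit 246822150922375818230) (ZL.cons (nat_lit 228) (nat_lit 6) (nat_lit 238424668909358442916) (ZL.cons (nat_lit 304) (nat_lit 3) (nat_lit 118865571836556902079) (ZL.cons (nat_lit 380) (nat_lit 6) (nat_lit 229355388335299677578) (ZL.cons (nat_lit 456) (nat_lit 6) (nat_lit 221645250803227873292) (ZL.cons (nat_lit 532) (nat_lit 3) (nat_lit 110501548903352529814) (ZL.cons (nat_lit 608) (nat_lit 6) (nat_lit 213318302268590324664) (ZL.cons (nat_lit 684) (nat_lit 6) (nat_lit 206255462191840718698) (ZL.cons (nat_lit 760) (nat_lit 3) (nat_lit 102830438041974612283) (ZL.cons (nat_lit 836) (nat_lit 6) (nat_lit 198627594908951144256) (ZL.cons (nat_lit 912) (nat_lit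 6) (nat_lit 192176780040336835856) (ZL.cons (nat_lit 988) (nat_lit 3) (nat_lit 95813118673922355828) (ZL.cons (nat_lit 1064) (nat_lit 6) (nat_lit 185209899982233382782) (ZL.cons (nat_lit 1140) (nat_lit 6) (nat_lit 179340560072172794198) (ZL.cons (nat_lit 1216) (nat_lit 3) (nat_lit 89415399159932635897) (ZL.cons (nat_lit 1292) (nat_lit 6) (nat_lit 173001672969307358530) (ZL.cons (nat_lit 1368) (nat_lit 6) (nat_lit 167687980965519299798) (ZL.cons (nat_lit 1444) (nat_lit 3) (nat_lit 83607989671506167304) (ZL.cons (nat_lit 1520) (nat_lit 6) (nat_lit 161949193601428196370) (ZL.cons (nat_lit 1596) (nat_lit 6) (nat_lit 157170105162382593364) (ZL.cons (nat_lit 1672) (nat_lit 3) (nat_lit 78366533311512146131) (ZL.cons (nat_lit 1748) (nat_lit 6) (nat_lit 152850393501792292390) (ZL.cons (nat_lit 1824) (nat_lit 6) (nat_lit 152008689648213342118) (ZL.cons (nat_lit 1900) (nat_lit 6) (nat_lit 147748066368996466234)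 (ZL.cons (nat_lit 1976) (nat_lit 3) (nat_lit 73671700527387908532) (ZL.cons (nat_lit 2052) (nat_lit 6) (nat_lit 143925948647422749786) (ZL.cons (nat_lit 2128) (nat_lit 6) (nat_lit 143146593227442240276) (ZL.cons (nat_lit 2204) (nat_lit 6) (nat_lit 140519686896993978162) (ZL.cons (nat_lit 2280) (nat_lit 6) (nat_lit 139393396193902486856) (ZL.cons (nat_lit 2356) (nat_lit 3) (nat_lit 69509353044071313258) (ZL.cons (nat_lit 2432) (nat_lit 6) (nat_lit 136061568786550395298) (ZL.cons (nat_lit 2508) (nat_lit 6) (nat_lit 135339943397679553162) (ZL.cons (nat_lit 2584) (nat_lit 6) (nat_lit 133131366842972027286) (ZL.cons (nat_lit 2660) (nat_lit 6) (nat_lit 132088505080850276076) (ZL.cons (nat_lit 2736) (nat_lit 3) (nat_lit 65870784898869647140) (ZL.cons (nat_lit 2812) (nat_lit 6) (nat_lit 130585426203501733230) (ZL.cons (nat_lit 2888) (nat_lit 6) (nat_lit 129245123355036547696) (ZL.cons (nat_lit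 2964) (nat_lit 6) (nat_lit 128576951698674656826) (ZL.cons (nat_lit 3040) (nat_lit 6) (nat_lit 126792948550752064442) (ZL.cons (nat_lit 3116) (nat_lit 6) (nat_lit 125827335808046739248) (ZL.cons (nat_lit 3192) (nat_lit 3) (nat_lit 62753049717397915087) (ZL.cons (nat_lit 3268) (nat_lit 6) (nat_lit 124717449261749214560) (ZL.cons (nat_lit 3344) (nat_lit 6) (nat_lit 123476428105762931658) (ZL.cons (nat_lit 3420) (nat_lit 6) (nat_lit 122857750646168588260) (ZL.cons (nat_lit 3496) (nat_lit 6) (nat_lit 123006326232982055240) (ZL.cons (nat_lit 3572) (nat_lit 6) (nat_lit 121510297286920811494) (ZL.cons (nat_lit 3648) (nat_lit 6) (nat_lit 120616211414045510388) (ZL.cons (nat_lit 3724) (nat_lit 3) (nat_lit 60159385163851038032) (ZL.cons (nat_lit 3800) (nat_lit 6) (nat_lit 121649439476131966276) (ZL.cons (nat_lit 3876) (nat_lit 6) (nat_lit 119917292205927240270) (ZL.cons (nat_lit 3952) (nat_lit 6)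 (nat_lit 118768198542976978320) (ZL.cons (nat_lit 4028) (nat_lit 6) (nat_lit 118195349043352586288) (ZL.cons (nat_lit 4104) (nat_lit 3) (nat_lit 58559904887605864442) (ZL.cons (nat_lit 4180) (nat_lit 6) (nat_lit 117293363792249457920) (ZL.cons (nat_lit 4256) (nat_lit 6) (nat_lit 117815054311611757506) (ZL.cons (nat_lit 4332) (nat_lit 6) (nat_lit 118687972832672626450) (ZL.cons (nat_lit 4408) (nat_lit 6) (nat_lit 117302760845578882240) (ZL.cons (nat_lit 4484) (nat_lit 6) (nat_lit 116474903555879529364) (ZL.cons (nat_lit 4560) (nat_lit 3) (nat_lit 58099747571299285828) (ZL.cons (nat_lit 4636) (nat_lit 6) (nat_lit 115126097966333798438) (ZL.cons (nat_lit 4712) (nat_lit 6) (nat_lit 115487090321772274838) (ZL.cons (nat_lit 4788) (nat_lit 6) (nat_lit 116211214246607381574) (ZL.cons (nat_lit 4864) (nat_lit 6) (nat_lit 115147238632764546438) (ZL.cons (nat_lit 4940) (nat_lit 6) (nat_lit 114616822429408627886)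 (ZL.cons (nat_lit 5016) (nat_lit 3) (nat_lit 56726811265353388533) (ZL.cons (nat_lit 5092) (nat_lit 6) (nat_lit 113641060869107524430) (ZL.cons (nat_lit 5168) (nat_lit 6) (nat_lit 114204486630018807980) (ZL.cons (nat_lit 5244) (nat_lit 6) (nat_lit 113437952102519407168) (ZL.cons (nat_lit 5320) (nat_lit 3) (nat_lit 56591472156222223162) (ZL.cons (nat_lit 5396) (nat_lit 6) (nat_lit 112266026519823937382) (ZL.cons (nat_lit 5472) (nat_lit 6) (nat_lit 112655898263697491896) (ZL.cons (nat_lit 5548) (nat_lit 6) (nat_lit 112164772149479048792) (ZL.cons (nat_lit 5624) (nat_lit 3) (nat_lit 55676919461111027703) (ZL.cons (nat_lit 5700) (nat_lit 6) (nat_lit 111556272327694862556) (ZL.cons (nat_lit 5776) (nat_lit 3) (nat_lit 55660077001775690148) (ZL.cons (nat_lit 5852) (nat_lit 6) (nat_lit 110899092520167941424) (ZL.cons (nat_lit 5928) (nat_lit 1) (nat_lit 18446744073709551617) ZL.nil))))))))))))))))))))))))))))))))))))))))))))))))))))))))))))))))))))))))))))))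

noncomputable def vl : XL := ⟨(nat_lit 0), (nat_lit 76), (nat_lit 132686020), (nat_lit 152), (nat_lit 171952711), (nat_lit 152), (nat_lit 171952711), (nat_lit 1), (nat_lit 4), (nat_lit 2), (nat_lit 5), (nat_lit 2), (nat_lit 4), (nat_lit 0), (nat_lit 0), (nat_lit 0)⟩

noncomputable def cp0 : Nat := (nat_lit 136463912165063715345900736827073354659394722390362446136633002738314290591654784146083835738110160014767494877012283924709393786079206383723486762913425168856230461737005800263795522473978727556560687392945536899798960014869206658620221419106306784120017313944424615298460902130732571589142970029472923809989924732137016603394045415177507126359198494668673301962599637125259653054341005226249588948465485854943994423556734902534791584969697336956400145907418099920133651273143251421723040080706675331214166711217299658624291301076624683509113031911876566489225904040871931808055310409807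8188925151424538613816617617436513782669320125437004559167523470405644646746496413740670859478077060272765273781020115839750437913448121113358428084159141314257704836156195456419253786947730681520828427224794471626047838500559043075655375520436374750723161596946043972616966219526507225220343301747951099327717933977663314662977098103068124978474222156330228864293266529921038980443975246748126648975729239386152537666363444970014647780021959735387891800421289461079294838668456056758321247470228163368669559104139324564289966483984361526870275176237628183425853328151742793987520597807057305530419533995938929452271818513596748949779968381200034420047951008161747976328736272013308122200441671042313871731015815543722999661647192151768823243800494946115314943405273802354876389598368600089892444359531570151236986953790321920762772156503545324775287232333401203736406874027009112579833980253321517376787279693086072029176864558013486956442648184353840004967588426578214942719869130059337104770945081517037219220264259647800032824734919647977376706954861660273141839398860779914094194474783261143054740571955096255854152374447782032350152641349838054874753544067643547435754665146235719609495999388742829474077212672)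

noncomputable def cp1 : Nat := (nat_lit 1513914568314349902773852567146194819741135505983421603346460582388428780641845653865119718407033028676238162492567073344700709004862511832325974434230633894102750744443757033067885888828843603337420635422058792042029847383426937794553035521202965665561292713805100213773622842948849117089356959444557089654499120249290740566975780889098875449339449545982653562475792694087913328828744823051387245848048644141415720235880101833609089053077189235811433017180492324111025682912976320205657699743889100665635187478784072480660757282631909265665859904575772598440768374012041158754363334908175827081789923135718032986337415128424253430876520556667256988424260337200924511984018843132517776427330699675262016304933108152304000880816614759465406101162168140614790428897977168109707812519222205819634280938688728025949870003198662284950072111015224160413063807396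412061620239587199243661706694272941870605119233659254679677801579801872456633455096875642652652696737416436274579055026042302324543546628974567706401409904668069357415994470956447712382315497420325489415689928251972729093532323334640964669037930542558369263256122613246105946618141798070363104250154229598793907802078795195257372078590571571026329307596068744493640806255767578321115788941781499106755758849722879852456826183434619666710281939319494609782458863114705663647829216021425433425208720781032317886149886978439438697675290778763487757555470955311129856301919532854959921781349470398400612361088557344602700635931109940844523650292132941994323828648637926341810665116861193534710803200260541699472626638238400306105993761902638986183268163913845036888243351686226069103378609504484931215267757458135366143636158122265111641498460807633389934950891245340282757053979779234936176871471111512562404621379127443912401807825222457119530287104)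

noncomputable def rc0 : Nat := (nat_lit 1439372125160953138896231055207397484482956627932753624773456306466176884065393424697859962686113493823850675179632601631335296952624782008479575332217918577454262048869255163706878897746099284203453615859122278083621836838140998297766795560437237591595529121176606287294914288769582419195772380746849868000362850827139633812382996849867906720288112131418699978876163163117427374098646690187151874587208160680916482680813536097807823417497960078303605112816203612042658619955045523663995039625844565794483697418461329306096264233780870083330298992084019513442766025058822518277392893805805531621004076858629346545571706645278331302801846259203180728887863723642041906253199534757598962929740744921070554802766927824337388534510718629396746251021801141146331107654351884839469100438626465943606048606119666748688823715012020047516449668756688863752907962528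982196591980010883651448739937035945964148339722371267168156760874115981556269963496410711667954900442077421926675108882337895265926032394077224380176025390491995615928698918961002927926876302056369405610156132174689451894300297600556974876510587791840171854926765108027675616758300547329455222442304827335207915798412771618304684563265412705282334281154818865221639148129418102956677394773960409649284022098042067220004055223032107962336957005670003296209304458928192719517418373965956895126785144172397377160402403328607702483266315975147945748566655694284182401768076626787119061373071657338951367203654958803343097419384450088081251432968138814486122228259540200507354857062363990825886965478891809996920298150565875228437890178581500097518602823300359649799708158262255217016767926630697430936256888622323634534116993766194726257756462442399558025856249054798709252454557256283595290122590692586288789550000392774841977706362693209913053675520)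

noncomputable def rc1 : Nat := (nat_lit 1513914568314349902773852567146194819741135505983421603346460582388428780641845653865119718407033028676238162492567073344700709004862511832325974434230633894102750744443757033067885888828843603337420635422058792042029847383426937794553035521202965665561292713805100213773622842948849117089356959444557089654499120249290740566975780889098875449339449545982653562475792694087913328828744823051387245848048644141415720235880101833609089053077189235811433017180492324111025682912976320205657699743889100665635187478784072480660757282631909265665859904575772598440768374012041158754363334908175827081789923135718032986337415128424253430876520556667256988424260337200924511984018843132517776427330699675262016304933108152304000880816614759465406101162168140614790428897977168109707812519222205819634280938688728025949870003198662284950072111015224160413063807396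412061620239587199243661706694272941870605119233659254679677801579801872456633455096875642652652696737416436274579055026042302324543546628974567706401409904668069357415994470956447712382315497420325489415689928251972729093532323334640964669037930542558369263256122613246105946618141798070363104250154229598793907802078795195257372078590571571026329307596068744493640806255767578321115788941781499106755758849722879852456826183434619666710281939319494609782458863114705663647829216021425433425208720781032317886149886978439438697675290778763487757555470955311129856301919532854959921781349470398400612361088557344602700635931109940844523650292132941994323828648637926341810665116861193534710803200260541699472626638238400306105993761902638986183268163913845036888243351686226069103378609504484931215267757458135366143636158122265111641498460807633389934950891245340282757053979779234936176871471111512562404621379127443912401807825222457119530287104)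

end Vale.Agent.Lib.P154.PChain.BI.S2
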