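import Vale.Agent.Lib.P154.PChain.BI.R2_0

set_option linter.all false

namespace Vale.Agent.Lib.P154.PChain.BI.S3

open Vale.Agent.Lib.P154.Chain

noncomputable def pc0 : PT := (PT.nd (nat_lit 6013020) (PT.nd (nat_lit 5778786) (PT.nd (nat_lit 5685030) (PT.nd (nat_lit 5638152) (PT.nd (nat_lit 5591352) (PT.nd (nat_lit 5544552) PT.nil (PT.lf (nat_lit 76) (nat_lit 3) (nat_lit 1) (nat_lit 1) (nat_lit 166) (nat_lit 118) (nat_lit 166))) (PT.nd (nat_lit 78) (PT.lf (nat_lit 152) (nat_lit 6) (nat_lit 2) (nat_lit 3) (nat_lit 165) (nat_lit 119) (nat_lit 166)) (PT.lf (nat_lit 152) (nat_lit 6) (nat_lit 2) (nat_lit 1) (nat_lit 166) (nat_lit 119) (nat_lit 165)))) (PT.nd (nat_lit 78) (PT.lf (nat_lit 228) (nat_lit 6) (nat_lit 3) (nat_lit 3) (nat_lit 164) (nat_lit 120) (nat_lit 166)) (PT.nd (nat_lit 78) (PT.lf (nat_lit 304) (nat_lit 3) (nat_lit 4) (nat_lit 1) (nat_lit 165) (nat_lit 120) (nat_lit 165)) (PT.lf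 (nat_lit 228) (nat_lit 6) (nat_lit 3) (nat_lit 1) (nat_lit 166) (nat_lit 120) (nat_lit 164))))) (PT.nd (nat_lit 46878) (PT.nd (nat_lit 78) (PT.lf (nat_lit 380) (nat_lit 6) (nat_lit 5) (nat_lit 3) (nat_lit 164) (nat_lit 121) (nat_lit 165)) (PT.nd (nat_lit 46722) (PT.lf (nat_lit 380) (nat_lit 6) (nat_lit 5) (nat_lit 1) (nat_lit 165) (nat_lit 121) (nat_lit 164)) (PT.lf (nat_lit 456) (nat_lit 6) (nat_lit 6) (nat_lit 3) (nat_lit 163) (nat_lit 122) (nat_lit 165)))) (PT.nd (nat_lit 78) (PT.lf (nat_lit 532) (nat_lit 3) (nat_lit 7) (nat_lit 1) (nat_lit 164) (nat_lit 122) (nat_lit 164)) (PT.nd (nat_lit 46722) (PT.lf (nat_lit 456) (nat_lit 6) (nat_lit 6) (nat_lit 1) (nat_lit 165) (nat_lit 122) (nat_lit 163)) (PT.lf (nat_lit 608) (nat_lit 6) (nat_lit 8) (nat_lit 3) (nat_lit 163) (nat_lit 123) (nat_lit 164)))))) (PT.nd (nat_lit 140400) (PT.nd (nat_lit 46878) (PT.nd (nat_lit 46722) (PT.lf (nat_lit 608)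 (nat_lit 6) (nat_lit 8) (nat_lit 1) (nat_lit 164) (nat_lit 123) (nat_lit 163)) (PT.nd (nat_lit 78) (PT.lf (nat_lit 684) (nat_lit 6) (nat_lit 9) (nat_lit 3) (nat_lit 162) (nat_lit 124) (nat_lit 164)) (PT.lf (nat_lit 760) (nat_lit 3) (nat_lit 10) (nat_lit 1) (nat_lit 163) (nat_lit 124) (nat_lit 163)))) (PT.nd (nat_lit 46722) (PT.lf (nat_lit 684) (nat_lit 6) (nat_lit 9) (nat_lit 1) (nat_lit 164) (nat_lit 124) (nat_lit 162)) (PT.nd (nat_lit 78) (PT.lf (nat_lit 836) (nat_lit 6) (nat_lit 11) (nat_lit 3) (nat_lit 162) (nat_lit 125) (nat_lit 163)) (PT.lf (nat_lit 836) (nat_lit 6) (nat_lit 11) (nat_lit 1) (nat_lit 163) (nat_lit 125) (nat_lit 162))))) (PT.nd (nat_lit 46878) (PT.nd (nat_lit 78) (PT.lf (nat_lit 912) (nat_lit 6) (nat_lit 12) (nat_lit 3) (nat_lit 161) (nat_lit 126) (nat_lit 163)) (PT.nd (nat_lit 78) (PT.lf (nat_lit 988) (nat_lit 3) (nat_lit 13) (nat_lit 1) (nat_lit 162) (nat_lit 126)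 (nat_lit 162)) (PT.lf (nat_lit 912) (nat_lit 6) (nat_lit 12) (nat_lit 1) (nat_lit 163) (nat_lit 126) (nat_lit 161)))) (PT.nd (nat_lit 46800) (PT.nd (nat_lit 78) (PT.lf (nat_lit 1064) (nat_lit 6) (nat_lit 14) (nat_lit 3) (nat_lit 161) (nat_lit 127) (nat_lit 162)) (PT.lf (nat_lit 1064) (nat_lit 6) (nat_lit 14) (nat_lit 1) (nat_lit 162) (nat_lit 127) (nat_lit 161))) (PT.nd (nat_lit 78) (PT.lf (nat_lit 1140) (nat_lit 6) (nat_lit 15) (nat_lit 3) (nat_lit 160) (nat_lit 128) (nat_lit 162)) (PT.lf (nat_lit 1216) (nat_lit 3) (nat_lit 16) (nat_lit 1) (nat_lit 161) (nat_lit 128) (nat_lit 161))))))) (PT.nd (nat_lit 234078) (PT.nd (nat_lit 140400) (PT.nd (nat_lit 93522) (PT.nd (nat_lit 46722) (PT.lf (nat_lit 1140) (nat_lit 6) (nat_lit 15) (nat_lit 1) (nat_lit 162) (nat_lit 128) (nat_lit 160)) (PT.nd (nat_lit 78) (PT.lf (nat_lit 1292) (nat_lit 6) (nat_lit 17) (nat_lit 3) (nat_lit 160) (nat_lit 129) (nat_lit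 161)) (PT.lf (nat_lit 1292) (nat_lit 6) (nat_lit 17) (nat_lit 1) (nat_lit 161) (nat_lit 129) (nat_lit 160)))) (PT.nd (nat_lit 78) (PT.lf (nat_lit 1368) (nat_lit 6) (nat_lit 18) (nat_lit 3) (nat_lit 159) (nat_lit 130) (nat_lit 161)) (PT.nd (nat_lit 78) (PT.lf (nat_lit 1444) (nat_lit 3) (nat_lit 19) (nat_lit 1) (nat_lit 160) (nat_lit 130) (nat_lit 160)) (PT.lf (nat_lit 1368) (nat_lit 6) (nat_lit 18) (nat_lit 1) (nat_lit 161) (nat_lit 130) (nat_lit 159))))) (PT.nd (nat_lit 46878) (PT.nd (nat_lit 78) (PT.lf (nat_lit 1520) (nat_lit 6) (nat_lit 20) (nat_lit 3) (nat_lit 159) (nat_lit 131) (nat_lit 160)) (PT.nd (nat_lit 46722) (PT.lf (nat_lit 1520) (nat_lit 6) (nat_lit 20) (nat_lit 1) (nat_lit 160) (nat_lit 131) (nat_lit 159)) (PT.lf (nat_lit 1596) (nat_lit 6) (nat_lit 21) (nat_lit 3) (nat_lit 158) (nat_lit 132) (nat_lit 160)))) (PT.nd (nat_lit 78) (PT.lf (nat_lit 1672) (nat_lit 3) (nat_lit 22)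 (nat_lit 1) (nat_lit 159) (nat_lit 132) (nat_lit 159)) (PT.nd (nat_lit 46644) (PT.lf (nat_lit 1596) (nat_lit 6) (nat_lit 21) (nat_lit 1) (nat_lit 160) (nat_lit 132) (nat_lit 158)) (PT.lf (nat_lit 1748) (nat_lit 6) (nat_lit 23) (nat_lit 3) (nat_lit 157) (nat_lit 133) (nat_lit 160)))))) (PT.nd (nat_lit 93600) (PT.nd (nat_lit 46800) (PT.nd (nat_lit 78) (PT.lf (nat_lit 1824) (nat_lit 6) (nat_lit 24) (nat_lit 3) (nat_lit 158) (nat_lit 133) (nat_lit 159)) (PT.nd (nat_lit 78) (PT.lf (nat_lit 1824) (nat_lit 6) (nat_lit 24) (nat_lit 1) (nat_lit 159) (nat_lit 133) (nat_lit 158)) (PT.lf (nat_lit 1748) (nat_lit 6) (nat_lit 23) (nat_lit 1) (nat_lit 160) (nat_lit 133) (nat_lit 157)))) (PT.nd (nat_lit 78) (PT.lf (nat_lit 1900) (nat_lit 6) (nat_lit 25) (nat_lit 3) (nat_lit 157) (nat_lit 134) (nat_lit 159)) (PT.nd (nat_lit 78) (PT.lf (nat_lit 1976) (nat_lit 3) (nat_lit 26) (nat_lit 1) (nat_lit 158) (nat_lit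 134) (nat_lit 158)) (PT.lf (nat_lit 1900) (nat_lit 6) (nat_lit 25) (nat_lit 1) (nat_lit 159) (nat_lit 134) (nat_lit 157))))) (PT.nd (nat_lit 234) (PT.nd (nat_lit 78) (PT.lf (nat_lit 2052) (nat_lit 6) (nat_lit 27) (nat_lit 3) (nat_lit 156) (nat_lit 135) (nat_lit 159)) (PT.nd (nat_lit 78) (PT.lf (nat_lit 2128) (nat_lit 6) (nat_lit 28) (nat_lit 3) (nat_lit 157) (nat_lit 135) (nat_lit 158)) (PT.lf (nat_lit 2128) (nat_lit 6) (nat_lit 28) (nat_lit 1) (nat_lit 158) (nat_lit 135) (nat_lit 157)))) (PT.nd (nat_lit 46644) (PT.nd (nat_lit 46566) (PT.lf (nat_lit 2052) (nat_lit 6) (nat_lit 27) (nat_lit 1) (nat_lit 159) (nat_lit 135) (nat_lit 156)) (PT.lf (nat_lit 2204) (nat_lit 6) (nat_lit 29) (nat_lit 3) (nat_lit 155) (nat_lit 136) (nat_lit 159))) (PT.nd (nat_lit 78) (PT.lf (nat_lit 2280) (nat_lit 6) (nat_lit 30) (nat_lit 3) (nat_lit 156) (nat_lit 136) (nat_lit 158)) (PT.lf (nat_lit 2356) (nat_lit 3)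 (nat_lit 31) (nat_lit 1) (nat_lit 157) (nat_lit 136) (nat_lit 157))))))))
noncomputable def pc1 : PT := (PT.nd (nat_lit 234156) (PT.nd (nat_lit 140322) (PT.nd (nat_lit 93444) (PT.nd (nat_lit 46722) (PT.nd (nat_lit 78) (PT.lf (nat_lit 2280) (nat_lit 6) (nat_lit 30) (nat_lit 1) (nat_lit 158) (nat_lit 136) (nat_lit 156)) (PT.nd (nat_lit 46566) (PT.lf (nat_lit 2204) (nat_lit 6) (nat_lit 29) (nat_lit 1) (nat_lit 159) (nat_lit 136) (nat_lit 155)) (PT.lf (nat_lit 2432) (nat_lit 6) (nat_lit 32) (nat_lit 3) (nat_lit 155) (nat_lit 137) (nat_lit 158)))) (PT.nd (nat_lit 78) (PT.lf (nat_lit 2508) (nat_lit 6) (nat_lit 33) (nat_lit 3) (nat_lit 156) (nat_lit 137) (nat_lit 157)) (PT.nd (nat_lit 78) (PT.lf (nat_lit 2508) (nat_lit 6) (nat_lit 33) (nat_lit 1) (nat_lit 157) (nat_lit 137) (nat_lit 156)) (PT.lf (nat_lit 2432) (nat_lit 6) (nat_lit 32) (nat_lit 1) (nat_lit 158) (nat_lit 137) (nat_lit 155))))) (PT.nd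 (nat_lit 234) (PT.nd (nat_lit 78) (PT.lf (nat_lit 2584) (nat_lit 6) (nat_lit 34) (nat_lit 3) (nat_lit 154) (nat_lit 138) (nat_lit 158)) (PT.nd (nat_lit 78) (PT.lf (nat_lit 2660) (nat_lit 6) (nat_lit 35) (nat_lit 3) (nat_lit 155) (nat_lit 138) (nat_lit 157)) (PT.lf (nat_lit 2736) (nat_lit 3) (nat_lit 36) (nat_lit 1) (nat_lit 156) (nat_lit 138) (nat_lit 156)))) (PT.nd (nat_lit 78) (PT.lf (nat_lit 2660) (nat_lit 6) (nat_lit 35) (nat_lit 1) (nat_lit 157) (nat_lit 138) (nat_lit 155)) (PT.nd (nat_lit 46488) (PT.lf (nat_lit 2584) (nat_lit 6) (nat_lit 34) (nat_lit 1) (nat_lit 158) (nat_lit 138) (nat_lit 154)) (PT.lf (nat_lit 2812) (nat_lit 6) (nat_lit 37) (nat_lit 3) (nat_lit 153) (nat_lit 139) (nat_lit 158)))))) (PT.nd (nat_lit 46878) (PT.nd (nat_lit 234) (PT.nd (nat_lit 78) (PT.lf (nat_lit 2888) (nat_lit 6) (nat_lit 38) (nat_lit 3) (nat_lit 154) (nat_lit 139) (nat_lit 157)) (PT.nd (nat_lit 78)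 (PT.lf (nat_lit 2964) (nat_lit 6) (nat_lit 39) (nat_lit 3) (nat_lit 155) (nat_lit 139) (nat_lit 156)) (PT.lf (nat_lit 2964) (nat_lit 6) (nat_lit 39) (nat_lit 1) (nat_lit 156) (nat_lit 139) (nat_lit 155)))) (PT.nd (nat_lit 78) (PT.lf (nat_lit 2888) (nat_lit 6) (nat_lit 38) (nat_lit 1) (nat_lit 157) (nat_lit 139) (nat_lit 154)) (PT.nd (nat_lit 46488) (PT.lf (nat_lit 2812) (nat_lit 6) (nat_lit 37) (nat_lit 1) (nat_lit 158) (nat_lit 139) (nat_lit 153)) (PT.lf (nat_lit 3040) (nat_lit 6) (nat_lit 40) (nat_lit 3) (nat_lit 153) (nat_lit 140) (nat_lit 157))))) (PT.nd (nat_lit 234) (PT.nd (nat_lit 78) (PT.lf (nat_lit 3116) (nat_lit 6) (nat_lit 41) (nat_lit 3) (nat_lit 154) (nat_lit 140) (nat_lit 156)) (PT.nd (nat_lit 78) (PT.lf (nat_lit 3192) (nat_lit 3) (nat_lit 42) (nat_lit 1) (nat_lit 155) (nat_lit 140) (nat_lit 155)) (PT.lf (nat_lit 3116) (nat_lit 6) (nat_lit 41) (nat_lit 1) (nat_lit 156) (nat_lit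 140) (nat_lit 154)))) (PT.nd (nat_lit 46566) (PT.nd (nat_lit 46488) (PT.lf (nat_lit 3040) (nat_lit 6) (nat_lit 40) (nat_lit 1) (nat_lit 157) (nat_lit 140) (nat_lit 153)) (PT.lf (nat_lit 3268) (nat_lit 6) (nat_lit 43) (nat_lit 3) (nat_lit 152) (nat_lit 141) (nat_lit 157))) (PT.nd (nat_lit 78) (PT.lf (nat_lit 3344) (nat_lit 6) (nat_lit 44) (nat_lit 3) (nat_lit 153) (nat_lit 141) (nat_lit 156)) (PT.lf (nat_lit 3420) (nat_lit 6) (nat_lit 45) (nat_lit 3) (nat_lit 154) (nat_lit 141) (nat_lit 155))))))) (PT.nd (nat_lit 93600) (PT.nd (nat_lit 46800) (PT.nd (nat_lit 46566) (PT.nd (nat_lit 78) (PT.lf (nat_lit 3420) (nat_lit 6) (nat_lit 45) (nat_lit 1) (nat_lit 155) (nat_lit 141) (nat_lit 154)) (PT.nd (nat_lit 78) (PT.lf (nat_lit 3344) (nat_lit 6) (nat_lit 44) (nat_lit 1) (nat_lit 156) (nat_lit 141) (nat_lit 153)) (PT.lf (nat_lit 3268) (nat_lit 6) (nat_lit 43) (nat_lit 1) (nat_lit 157) (nat_lit 141)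 (nat_lit 152)))) (PT.nd (nat_lit 78) (PT.lf (nat_lit 3496) (nat_lit 6) (nat_lit 46) (nat_lit 3) (nat_lit 151) (nat_lit 142) (nat_lit 157)) (PT.nd (nat_lit 78) (PT.lf (nat_lit 3572) (nat_lit 6) (nat_lit 47) (nat_lit 3) (nat_lit 152) (nat_lit 142) (nat_lit 156)) (PT.lf (nat_lit 3648) (nat_lit 6) (nat_lit 48) (nat_lit 3) (nat_lit 153) (nat_lit 142) (nat_lit 155))))) (PT.nd (nat_lit 234) (PT.nd (nat_lit 78) (PT.lf (nat_lit 3724) (nat_lit 3) (nat_lit 49) (nat_lit 1) (nat_lit 154) (nat_lit 142) (nat_lit 154)) (PT.nd (nat_lit 78) (PT.lf (nat_lit 3648) (nat_lit 6) (nat_lit 48) (nat_lit 1) (nat_lit 155) (nat_lit 142) (nat_lit 153)) (PT.lf (nat_lit 3572) (nat_lit 6) (nat_lit 47) (nat_lit 1) (nat_lit 156) (nat_lit 142) (nat_lit 152)))) (PT.nd (nat_lit 46410) (PT.nd (nat_lit 46332) (PT.lf (nat_lit 3496) (nat_lit 6) (nat_lit 46) (nat_lit 1) (nat_lit 157) (nat_lit 142) (nat_lit 151)) (PT.lf (nat_lit 3800)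 (nat_lit 6) (nat_lit 50) (nat_lit 3) (nat_lit 150) (nat_lit 143) (nat_lit 157))) (PT.nd (nat_lit 78) (PT.lf (nat_lit 3876) (nat_lit 6) (nat_lit 51) (nat_lit 3) (nat_lit 151) (nat_lit 143) (nat_lit 156)) (PT.lf (nat_lit 3952) (nat_lit 6) (nat_lit 52) (nat_lit 3) (nat_lit 152) (nat_lit 143) (nat_lit 155)))))) (PT.nd (nat_lit 46722) (PT.nd (nat_lit 234) (PT.nd (nat_lit 78) (PT.lf (nat_lit 4028) (nat_lit 6) (nat_lit 53) (nat_lit 3) (nat_lit 153) (nat_lit 143) (nat_lit 154)) (PT.nd (nat_lit 78) (PT.lf (nat_lit 4028) (nat_lit 6) (nat_lit 53) (nat_lit 1) (nat_lit 154) (nat_lit 143) (nat_lit 153)) (PT.lf (nat_lit 3952) (nat_lit 6) (nat_lit 52) (nat_lit 1) (nat_lit 155) (nat_lit 143) (nat_lit 152)))) (PT.nd (nat_lit 78) (PT.lf (nat_lit 3876) (nat_lit 6) (nat_lit 51) (nat_lit 1) (nat_lit 156) (nat_lit 143) (nat_lit 151)) (PT.nd (nat_lit 46332) (PT.lf (nat_lit 3800) (nat_lit 6) (nat_lit 50) (nat_lit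 1) (nat_lit 157) (nat_lit 143) (nat_lit 150)) (PT.lf (nat_lit 4332) (nat_lit 6) (nat_lit 57) (nat_lit 3) (nat_lit 150) (nat_lit 144) (nat_lit 156))))) (PT.nd (nat_lit 234) (PT.nd (nat_lit 78) (PT.lf (nat_lit 4408) (nat_lit 6) (nat_lit 58) (nat_lit 3) (nat_lit 151) (nat_lit 144) (nat_lit 155)) (PT.nd (nat_lit 78) (PT.lf (nat_lit 4484) (nat_lit 6) (nat_lit 59) (nat_lit 3) (nat_lit 152) (nat_lit 144) (nat_lit 154)) (PT.lf (nat_lit 4560) (nat_lit 3) (nat_lit 60) (nat_lit 1) (nat_lit 153) (nat_lit 144) (nat_lit 153)))) (PT.nd (nat_lit 156) (PT.nd (nat_lit 78) (PT.lf (nat_lit 4484) (nat_lit 6) (nat_lit 59) (nat_lit 1) (nat_lit 154) (nat_lit 144) (nat_lit 152)) (PT.lf (nat_lit 4408) (nat_lit 6) (nat_lit 58) (nat_lit 1) (nat_lit 155) (nat_lit 144) (nat_lit 151))) (PT.nd (nat_lit 46332) (PT.lf (nat_lit 4332) (nat_lit 6) (nat_lit 57) (nat_lit 1) (nat_lit 156) (nat_lit 144) (nat_lit 150)) (PT.lf (nat_lit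 4256) (nat_lit 6) (nat_lit 56) (nat_lit 3) (nat_lit 149) (nat_lit 145) (nat_lit 156))))))))
noncomputable def pc2 : PT := (PT.nd (nat_lit 94224) (PT.nd (nat_lit 47112) (PT.nd (nat_lit 468) (PT.nd (nat_lit 234) (PT.nd (nat_lit 78) (PT.lf (nat_lit 4788) (nat_lit 6) (nat_lit 63) (nat_lit 3) (nat_lit 150) (nat_lit 145) (nat_lit 155)) (PT.nd (nat_lit 78) (PT.lf (nat_lit 4864) (nat_lit 6) (nat_lit 64) (nat_lit 3) (nat_lit 151) (nat_lit 145) (nat_lit 154)) (PT.lf (nat_lit 4940) (nat_lit 6) (nat_lit 65) (nat_lit 3) (nat_lit 152) (nat_lit 145) (nat_lit 153)))) (PT.nd (nat_lit 78) (PT.lf (nat_lit 4940) (nat_lit 6) (nat_lit 65) (nat_lit 1) (nat_lit 153) (nat_lit 145) (nat_lit 152)) (PT.nd (nat_lit 78) (PT.lf (nat_lit 4864) (nat_lit 6) (nat_lit 64) (nat_lit 1) (nat_lit 154) (nat_lit 145) (nat_lit 151)) (PT.lf (nat_lit 4788) (nat_lit 6) (nat_lit 63) (nat_lit 1) (nat_lit 155) (nat_lit 145) (nat_lit 150)))))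 (PT.nd (nat_lit 46410) (PT.nd (nat_lit 46254) (PT.lf (nat_lit 4256) (nat_lit 6) (nat_lit 56) (nat_lit 1) (nat_lit 156) (nat_lit 145) (nat_lit 149)) (PT.nd (nat_lit 78) (PT.lf (nat_lit 4180) (nat_lit 6) (nat_lit 55) (nat_lit 3) (nat_lit 148) (nat_lit 146) (nat_lit 156)) (PT.lf (nat_lit 4712) (nat_lit 6) (nat_lit 62) (nat_lit 3) (nat_lit 149) (nat_lit 146) (nat_lit 155)))) (PT.nd (nat_lit 78) (PT.lf (nat_lit 5168) (nat_lit 6) (nat_lit 68) (nat_lit 3) (nat_lit 150) (nat_lit 146) (nat_lit 154)) (PT.nd (nat_lit 78) (PT.lf (nat_lit 5244) (nat_lit 6) (nat_lit 69) (nat_lit 3) (nat_lit 151) (nat_lit 146) (nat_lit 153)) (PT.lf (nat_lit 5320) (nat_lit 3) (nat_lit 70) (nat_lit 1) (nat_lit 152) (nat_lit 146) (nat_lit 152)))))) (PT.nd (nat_lit 46566) (PT.nd (nat_lit 234) (PT.nd (nat_lit 78) (PT.lf (nat_lit 5244) (nat_lit 6) (nat_lit 69) (nat_lit 1) (nat_lit 153) (nat_lit 146) (nat_lit 151)) (PT.nd (nat_lit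 78) (PT.lf (nat_lit 5168) (nat_lit 6) (nat_lit 68) (nat_lit 1) (nat_lit 154) (nat_lit 146) (nat_lit 150)) (PT.lf (nat_lit 4712) (nat_lit 6) (nat_lit 62) (nat_lit 1) (nat_lit 155) (nat_lit 146) (nat_lit 149)))) (PT.nd (nat_lit 46176) (PT.lf (nat_lit 4180) (nat_lit 6) (nat_lit 55) (nat_lit 1) (nat_lit 156) (nat_lit 146) (nat_lit 148)) (PT.nd (nat_lit 78) (PT.lf (nat_lit 4104) (nat_lit 3) (nat_lit 54) (nat_lit 3) (nat_lit 147) (nat_lit 147) (nat_lit 156)) (PT.lf (nat_lit 4636) (nat_lit 6) (nat_lit 61) (nat_lit 3) (nat_lit 148) (nat_lit 147) (nat_lit 155))))) (PT.nd (nat_lit 234) (PT.nd (nat_lit 78) (PT.lf (nat_lit 5092) (nat_lit 6) (nat_lit 67) (nat_lit 3) (nat_lit 149) (nat_lit 147) (nat_lit 154)) (PT.nd (nat_lit 78) (PT.lf (nat_lit 5472) (nat_lit 6) (nat_lit 72) (nat_lit 3) (nat_lit 150) (nat_lit 147) (nat_lit 153)) (PT.lf (nat_lit 5548) (nat_lit 6) (nat_lit 73) (nat_lit 3) (nat_lit 151)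 (nat_lit 147) (nat_lit 152)))) (PT.nd (nat_lit 156) (PT.nd (nat_lit 78) (PT.lf (nat_lit 5548) (nat_lit 6) (nat_lit 73) (nat_lit 1) (nat_lit 152) (nat_lit 147) (nat_lit 151)) (PT.lf (nat_lit 5472) (nat_lit 6) (nat_lit 72) (nat_lit 1) (nat_lit 153) (nat_lit 147) (nat_lit 150))) (PT.nd (nat_lit 78) (PT.lf (nat_lit 5092) (nat_lit 6) (nat_lit 67) (nat_lit 1) (nat_lit 154) (nat_lit 147) (nat_lit 149)) (PT.lf (nat_lit 4636) (nat_lit 6) (nat_lit 61) (nat_lit 1) (nat_lit 155) (nat_lit 147) (nat_lit 148))))))) (PT.nd (nat_lit 92976) (PT.nd (nat_lit 46488) (PT.nd (nat_lit 46254) (PT.nd (nat_lit 46098) (PT.lf (nat_lit 4104) (nat_lit 3) (nat_lit 54) (nat_lit 0) (nat_lit 156) (nat_lit 147) (nat_lit 147)) (PT.nd (nat_lit 78) (PT.lf (nat_lit 4180) (nat_lit 6) (nat_lit 55) (nat_lit 5) (nat_lit 146) (nat_lit 148) (nat_lit 156)) (PT.lf (nat_lit 4636) (nat_lit 6) (nat_lit 61) (nat_lit 5) (nat_lit 147) (nat_lit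 148) (nat_lit 155)))) (PT.nd (nat_lit 78) (PT.lf (nat_lit 5016) (nat_lit 3) (nat_lit 66) (nat_lit 3) (nat_lit 148) (nat_lit 148) (nat_lit 154)) (PT.nd (nat_lit 78) (PT.lf (nat_lit 5396) (nat_lit 6) (nat_lit 71) (nat_lit 3) (nat_lit 149) (nat_lit 148) (nat_lit 153)) (PT.lf (nat_lit 5700) (nat_lit 6) (nat_lit 75) (nat_lit 3) (nat_lit 150) (nat_lit 148) (nat_lit 152))))) (PT.nd (nat_lit 234) (PT.nd (nat_lit 78) (PT.lf (nat_lit 5776) (nat_lit 3) (nat_lit 76) (nat_lit 1) (nat_lit 151) (nat_lit 148) (nat_lit 151)) (PT.nd (nat_lit 78) (PT.lf (nat_lit 5700) (nat_lit 6) (nat_lit 75) (nat_lit 1) (nat_lit 152) (nat_lit 148) (nat_lit 150)) (PT.lf (nat_lit 5396) (nat_lit 6) (nat_lit 71) (nat_lit 1) (nat_lit 153) (nat_lit 148) (nat_lit 149)))) (PT.nd (nat_lit 156) (PT.nd (nat_lit 78) (PT.lf (nat_lit 5016) (nat_lit 3) (nat_lit 66) (nat_lit 0) (nat_lit 154) (nat_lit 148) (nat_lit 148)) (PT.lf (nat_lit 4636)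 (nat_lit 6) (nat_lit 61) (nat_lit 0) (nat_lit 155) (nat_lit 148) (nat_lit 147))) (PT.nd (nat_lit 46020) (PT.lf (nat_lit 4180) (nat_lit 6) (nat_lit 55) (nat_lit 0) (nat_lit 156) (nat_lit 148) (nat_lit 146)) (PT.lf (nat_lit 4256) (nat_lit 6) (nat_lit 56) (nat_lit 5) (nat_lit 145) (nat_lit 149) (nat_lit 156)))))) (PT.nd (nat_lit 468) (PT.nd (nat_lit 234) (PT.nd (nat_lit 78) (PT.lf (nat_lit 4712) (nat_lit 6) (nat_lit 62) (nat_lit 5) (nat_lit 146) (nat_lit 149) (nat_lit 155)) (PT.nd (nat_lit 78) (PT.lf (nat_lit 5092) (nat_lit 6) (nat_lit 67) (nat_lit 5) (nat_lit 147) (nat_lit 149) (nat_lit 154)) (PT.lf (nat_lit 5396) (nat_lit 6) (nat_lit 71) (nat_lit 5) (nat_lit 148) (nat_lit 149) (nat_lit 153)))) (PT.nd (nat_lit 78) (PT.lf (nat_lit 5624) (nat_lit 3) (nat_lit 74) (nat_lit 3) (nat_lit 149) (nat_lit 149) (nat_lit 152)) (PT.nd (nat_lit 78) (PT.lf (nat_lit 5852) (nat_lit 6) (nat_lit 77) (nat_lit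 3) (nat_lit 150) (nat_lit 149) (nat_lit 151)) (PT.lf (nat_lit 5852) (nat_lit 6) (nat_lit 77) (nat_lit 1) (nat_lit 151) (nat_lit 149) (nat_lit 150))))) (PT.nd (nat_lit 234) (PT.nd (nat_lit 78) (PT.lf (nat_lit 5624) (nat_lit 3) (nat_lit 74) (nat_lit 0) (nat_lit 152) (nat_lit 149) (nat_lit 149)) (PT.nd (nat_lit 78) (PT.lf (nat_lit 5396) (nat_lit 6) (nat_lit 71) (nat_lit 0) (nat_lit 153) (nat_lit 149) (nat_lit 148)) (PT.lf (nat_lit 5092) (nat_lit 6) (nat_lit 67) (nat_lit 0) (nat_lit 154) (nat_lit 149) (nat_lit 147)))) (PT.nd (nat_lit 45942) (PT.nd (nat_lit 78) (PT.lf (nat_lit 4712) (nat_lit 6) (nat_lit 62) (nat_lit 0) (nat_lit 155) (nat_lit 149) (nat_lit 146)) (PT.lf (nat_lit 4256) (nat_lit 6) (nat_lit 56) (nat_lit 0) (nat_lit 156) (nat_lit 149) (nat_lit 145))) (PT.nd (nat_lit 78) (PT.lf (nat_lit 3800) (nat_lit 6) (nat_lit 50) (nat_lit 5) (nat_lit 143) (nat_lit 150) (nat_lit 157)) (PT.lf (nat_lit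 4332) (nat_lit 6) (nat_lit 57) (nat_lit 5) (nat_lit 144) (nat_lit 150) (nat_lit 156))))))))
noncomputable def pc3 : PT := (PT.nd (nat_lit 47580) (PT.nd (nat_lit 936) (PT.nd (nat_lit 468) (PT.nd (nat_lit 234) (PT.nd (nat_lit 78) (PT.lf (nat_lit 4788) (nat_lit 6) (nat_lit 63) (nat_lit 5) (nat_lit 145) (nat_lit 150) (nat_lit 155)) (PT.nd (nat_lit 78) (PT.lf (nat_lit 5168) (nat_lit 6) (nat_lit 68) (nat_lit 5) (nat_lit 146) (nat_lit 150) (nat_lit 154)) (PT.lf (nat_lit 5472) (nat_lit 6) (nat_lit 72) (nat_lit 5) (nat_lit 147) (nat_lit 150) (nat_lit 153)))) (PT.nd (nat_lit 78) (PT.lf (nat_lit 5700) (nat_lit 6) (nat_lit 75) (nat_lit 5) (nat_lit 148) (nat_lit 150) (nat_lit 152)) (PT.nd (nat_lit 78) (PT.lf (nat_lit 5852) (nat_lit 6) (nat_lit 77) (nat_lit 5) (nat_lit 149) (nat_lit 150) (nat_lit 151)) (PT.lf (nat_lit 5928) (nat_lit 1) (nat_lit 78) (nat_lit 0) (nat_lit 150) (nat_lit 150) (nat_lit 150)))))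 (PT.nd (nat_lit 234) (PT.nd (nat_lit 78) (PT.lf (nat_lit 5852) (nat_lit 6) (nat_lit 77) (nat_lit 0) (nat_lit 151) (nat_lit 150) (nat_lit 149)) (PT.nd (nat_lit 78) (PT.lf (nat_lit 5700) (nat_lit 6) (nat_lit 75) (nat_lit 0) (nat_lit 152) (nat_lit 150) (nat_lit 148)) (PT.lf (nat_lit 5472) (nat_lit 6) (nat_lit 72) (nat_lit 0) (nat_lit 153) (nat_lit 150) (nat_lit 147)))) (PT.nd (nat_lit 78) (PT.lf (nat_lit 5168) (nat_lit 6) (nat_lit 68) (nat_lit 0) (nat_lit 154) (nat_lit 150) (nat_lit 146)) (PT.nd (nat_lit 78) (PT.lf (nat_lit 4788) (nat_lit 6) (nat_lit 63) (nat_lit 0) (nat_lit 155) (nat_lit 150) (nat_lit 145)) (PT.lf (nat_lit 4332) (nat_lit 6) (nat_lit 57) (nat_lit 0) (nat_lit 156) (nat_lit 150) (nat_lit 144)))))) (PT.nd (nat_lit 46098) (PT.nd (nat_lit 45864) (PT.nd (nat_lit 45708) (PT.lf (nat_lit 3800) (nat_lit 6) (nat_lit 50) (nat_lit 0) (nat_lit 157) (nat_lit 150) (nat_lit 143)) (PT.nd (nat_lit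 78) (PT.lf (nat_lit 3496) (nat_lit 6) (nat_lit 46) (nat_lit 5) (nat_lit 142) (nat_lit 151) (nat_lit 157)) (PT.lf (nat_lit 3876) (nat_lit 6) (nat_lit 51) (nat_lit 5) (nat_lit 143) (nat_lit 151) (nat_lit 156)))) (PT.nd (nat_lit 78) (PT.lf (nat_lit 4408) (nat_lit 6) (nat_lit 58) (nat_lit 5) (nat_lit 144) (nat_lit 151) (nat_lit 155)) (PT.nd (nat_lit 78) (PT.lf (nat_lit 4864) (nat_lit 6) (nat_lit 64) (nat_lit 5) (nat_lit 145) (nat_lit 151) (nat_lit 154)) (PT.lf (nat_lit 5244) (nat_lit 6) (nat_lit 69) (nat_lit 5) (nat_lit 146) (nat_lit 151) (nat_lit 153))))) (PT.nd (nat_lit 234) (PT.nd (nat_lit 78) (PT.lf (nat_lit 5548) (nat_lit 6) (nat_lit 73) (nat_lit 5) (nat_lit 147) (nat_lit 151) (nat_lit 152)) (PT.nd (nat_lit 78) (PT.lf (nat_lit 5776) (nat_lit 3) (nat_lit 76) (nat_lit 4) (nat_lit 148) (nat_lit 151) (nat_lit 151)) (PT.lf (nat_lit 5852) (nat_lit 6) (nat_lit 77) (nat_lit 4) (nat_lit 149) (nat_lit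 151) (nat_lit 150)))) (PT.nd (nat_lit 156) (PT.nd (nat_lit 78) (PT.lf (nat_lit 5852) (nat_lit 6) (nat_lit 77) (nat_lit 2) (nat_lit 150) (nat_lit 151) (nat_lit 149)) (PT.lf (nat_lit 5776) (nat_lit 3) (nat_lit 76) (nat_lit 0) (nat_lit 151) (nat_lit 151) (nat_lit 148))) (PT.nd (nat_lit 78) (PT.lf (nat_lit 5548) (nat_lit 6) (nat_lit 73) (nat_lit 0) (nat_lit 152) (nat_lit 151) (nat_lit 147)) (PT.lf (nat_lit 5244) (nat_lit 6) (nat_lit 69) (nat_lit 0) (nat_lit 153) (nat_lit 151) (nat_lit 146))))))) (PT.nd (nat_lit 46566) (PT.nd (nat_lit 46020) (PT.nd (nat_lit 234) (PT.nd (nat_lit 78) (PT.lf (nat_lit 4864) (nat_lit 6) (nat_lit 64) (nat_lit 0) (nat_lit 154) (nat_lit 151) (nat_lit 145)) (PT.nd (nat_lit 78) (PT.lf (nat_lit 4408) (nat_lit 6) (nat_lit 58) (nat_lit 0) (nat_lit 155) (nat_lit 151) (nat_lit 144)) (PT.lf (nat_lit 3876) (nat_lit 6) (nat_lit 51) (nat_lit 0) (nat_lit 156) (nat_lit 151) (nat_lit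 143)))) (PT.nd (nat_lit 45630) (PT.lf (nat_lit 3496) (nat_lit 6) (nat_lit 46) (nat_lit 0) (nat_lit 157) (nat_lit 151) (nat_lit 142)) (PT.nd (nat_lit 78) (PT.lf (nat_lit 3268) (nat_lit 6) (nat_lit 43) (nat_lit 5) (nat_lit 141) (nat_lit 152) (nat_lit 157)) (PT.lf (nat_lit 3572) (nat_lit 6) (nat_lit 47) (nat_lit 5) (nat_lit 142) (nat_lit 152) (nat_lit 156))))) (PT.nd (nat_lit 234) (PT.nd (nat_lit 78) (PT.lf (nat_lit 3952) (nat_lit 6) (nat_lit 52) (nat_lit 5) (nat_lit 143) (nat_lit 152) (nat_lit 155)) (PT.nd (nat_lit 78) (PT.lf (nat_lit 4484) (nat_lit 6) (nat_lit 59) (nat_lit 5) (nat_lit 144) (nat_lit 152) (nat_lit 154)) (PT.lf (nat_lit 4940) (nat_lit 6) (nat_lit 65) (nat_lit 5) (nat_lit 145) (nat_lit 152) (nat_lit 153)))) (PT.nd (nat_lit 156) (PT.nd (nat_lit 78) (PT.lf (nat_lit 5320) (nat_lit 3) (nat_lit 70) (nat_lit 4) (nat_lit 146) (nat_lit 152) (nat_lit 152)) (PT.lf (nat_lit 5548) (nat_lit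 6) (nat_lit 73) (nat_lit 4) (nat_lit 147) (nat_lit 152) (nat_lit 151))) (PT.nd (nat_lit 78) (PT.lf (nat_lit 5700) (nat_lit 6) (nat_lit 75) (nat_lit 4) (nat_lit 148) (nat_lit 152) (nat_lit 150)) (PT.lf (nat_lit 5624) (nat_lit 3) (nat_lit 74) (nat_lit 2) (nat_lit 149) (nat_lit 152) (nat_lit 149)))))) (PT.nd (nat_lit 468) (PT.nd (nat_lit 234) (PT.nd (nat_lit 78) (PT.lf (nat_lit 5700) (nat_lit 6) (nat_lit 75) (nat_lit 2) (nat_lit 150) (nat_lit 152) (nat_lit 148)) (PT.nd (nat_lit 78) (PT.lf (nat_lit 5548) (nat_lit 6) (nat_lit 73) (nat_lit 2) (nat_lit 151) (nat_lit 152) (nat_lit 147)) (PT.lf (nat_lit 5320) (nat_lit 3) (nat_lit 70) (nat_lit 0) (nat_lit 152) (nat_lit 152) (nat_lit 146)))) (PT.nd (nat_lit 78) (PT.lf (nat_lit 4940) (nat_lit 6) (nat_lit 65) (nat_lit 0) (nat_lit 153) (nat_lit 152) (nat_lit 145)) (PT.nd (nat_lit 78) (PT.lf (nat_lit 4484) (nat_lit 6) (nat_lit 59) (nat_lit 0) (nat_lit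 154) (nat_lit 152) (nat_lit 144)) (PT.lf (nat_lit 3952) (nat_lit 6) (nat_lit 52) (nat_lit 0) (nat_lit 155) (nat_lit 152) (nat_lit 143))))) (PT.nd (nat_lit 45630) (PT.nd (nat_lit 78) (PT.lf (nat_lit 3572) (nat_lit 6) (nat_lit 47) (nat_lit 0) (nat_lit 156) (nat_lit 152) (nat_lit 142)) (PT.nd (nat_lit 45474) (PT.lf (nat_lit 3268) (nat_lit 6) (nat_lit 43) (nat_lit 0) (nat_lit 157) (nat_lit 152) (nat_lit 141)) (PT.lf (nat_lit 2812) (nat_lit 6) (nat_lit 37) (nat_lit 5) (nat_lit 139) (nat_lit 153) (nat_lit 158)))) (PT.nd (nat_lit 156) (PT.nd (nat_lit 78) (PT.lf (nat_lit 3040) (nat_lit 6) (nat_lit 40) (nat_lit 5) (nat_lit 140) (nat_lit 153) (nat_lit 157)) (PT.lf (nat_lit 3344) (nat_lit 6) (nat_lit 44) (nat_lit 5) (nat_lit 141) (nat_lit 153) (nat_lit 156))) (PT.nd (nat_lit 78) (PT.lf (nat_lit 3648) (nat_lit 6) (nat_lit 48) (nat_lit 5) (nat_lit 142) (nat_lit 153) (nat_lit 155)) (PT.lf (nat_lit 4028)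 (nat_lit 6) (nat_lit 53) (nat_lit 5) (nat_lit 143) (nat_lit 153) (nat_lit 154))))))))
noncomputable def pc4 : PT := (PT.nd (nat_lit 47190) (PT.nd (nat_lit 936) (PT.nd (nat_lit 468) (PT.nd (nat_lit 234) (PT.nd (nat_lit 78) (PT.lf (nat_lit 4560) (nat_lit 3) (nat_lit 60) (nat_lit 4) (nat_lit 144) (nat_lit 153) (nat_lit 153)) (PT.nd (nat_lit 78) (PT.lf (nat_lit 4940) (nat_lit 6) (nat_lit 65) (nat_lit 4) (nat_lit 145) (nat_lit 153) (nat_lit 152)) (PT.lf (nat_lit 5244) (nat_lit 6) (nat_lit 69) (nat_lit 4) (nat_lit 146) (nat_lit 153) (nat_lit 151)))) (PT.nd (nat_lit 78) (PT.lf (nat_lit 5472) (nat_lit 6) (nat_lit 72) (nat_lit 4) (nat_lit 147) (nat_lit 153) (nat_lit 150)) (PT.nd (nat_lit 78) (PT.lf (nat_lit 5396) (nat_lit 6) (nat_lit 71) (nat_lit 4) (nat_lit 148) (nat_lit 153) (nat_lit 149)) (PT.lf (nat_lit 5396) (nat_lit 6) (nat_lit 71) (nat_lit 2) (nat_lit 149) (nat_lit 153) (nat_lit 148))))) (PT.nd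 (nat_lit 234) (PT.nd (nat_lit 78) (PT.lf (nat_lit 5472) (nat_lit 6) (nat_lit 72) (nat_lit 2) (nat_lit 150) (nat_lit 153) (nat_lit 147)) (PT.nd (nat_lit 78) (PT.lf (nat_lit 5244) (nat_lit 6) (nat_lit 69) (nat_lit 2) (nat_lit 151) (nat_lit 153) (nat_lit 146)) (PT.lf (nat_lit 4940) (nat_lit 6) (nat_lit 65) (nat_lit 2) (nat_lit 152) (nat_lit 153) (nat_lit 145)))) (PT.nd (nat_lit 78) (PT.lf (nat_lit 4560) (nat_lit 3) (nat_lit 60) (nat_lit 0) (nat_lit 153) (nat_lit 153) (nat_lit 144)) (PT.nd (nat_lit 78) (PT.lf (nat_lit 4028) (nat_lit 6) (nat_lit 53) (nat_lit 0) (nat_lit 154) (nat_lit 153) (nat_lit 143)) (PT.lf (nat_lit 3648) (nat_lit 6) (nat_lit 48) (nat_lit 0) (nat_lit 155) (nat_lit 153) (nat_lit 142)))))) (PT.nd (nat_lit 45708) (PT.nd (nat_lit 45474) (PT.nd (nat_lit 78) (PT.lf (nat_lit 3344) (nat_lit 6) (nat_lit 44) (nat_lit 0) (nat_lit 156) (nat_lit 153) (nat_lit 141)) (PT.nd (nat_lit 78)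 (PT.lf (nat_lit 3040) (nat_lit 6) (nat_lit 40) (nat_lit 0) (nat_lit 157) (nat_lit 153) (nat_lit 140)) (PT.lf (nat_lit 2812) (nat_lit 6) (nat_lit 37) (nat_lit 0) (nat_lit 158) (nat_lit 153) (nat_lit 139)))) (PT.nd (nat_lit 78) (PT.lf (nat_lit 2584) (nat_lit 6) (nat_lit 34) (nat_lit 5) (nat_lit 138) (nat_lit 154) (nat_lit 158)) (PT.nd (nat_lit 78) (PT.lf (nat_lit 2888) (nat_lit 6) (nat_lit 38) (nat_lit 5) (nat_lit 139) (nat_lit 154) (nat_lit 157)) (PT.lf (nat_lit 3116) (nat_lit 6) (nat_lit 41) (nat_lit 5) (nat_lit 140) (nat_lit 154) (nat_lit 156))))) (PT.nd (nat_lit 234) (PT.nd (nat_lit 78) (PT.lf (nat_lit 3420) (nat_lit 6) (nat_lit 45) (nat_lit 5) (nat_lit 141) (nat_lit 154) (nat_lit 155)) (PT.nd (nat_lit 78) (PT.lf (nat_lit 3724) (nat_lit 3) (nat_lit 49) (nat_lit 4) (nat_lit 142) (nat_lit 154) (nat_lit 154)) (PT.lf (nat_lit 4028) (nat_lit 6) (nat_lit 53) (nat_lit 4) (nat_lit 143) (nat_lit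 154) (nat_lit 153)))) (PT.nd (nat_lit 156) (PT.nd (nat_lit 78) (PT.lf (nat_lit 4484) (nat_lit 6) (nat_lit 59) (nat_lit 4) (nat_lit 144) (nat_lit 154) (nat_lit 152)) (PT.lf (nat_lit 4864) (nat_lit 6) (nat_lit 64) (nat_lit 4) (nat_lit 145) (nat_lit 154) (nat_lit 151))) (PT.nd (nat_lit 78) (PT.lf (nat_lit 5168) (nat_lit 6) (nat_lit 68) (nat_lit 4) (nat_lit 146) (nat_lit 154) (nat_lit 150)) (PT.lf (nat_lit 5092) (nat_lit 6) (nat_lit 67) (nat_lit 4) (nat_lit 147) (nat_lit 154) (nat_lit 149))))))) (PT.nd (nat_lit 46020) (PT.nd (nat_lit 468) (PT.nd (nat_lit 234) (PT.nd (nat_lit 78) (PT.lf (nat_lit 5016) (nat_lit 3) (nat_lit 66) (nat_lit 2) (nat_lit 148) (nat_lit 154) (nat_lit 148)) (PT.nd (nat_lit 78) (PT.lf (nat_lit 5092) (nat_lit 6) (nat_lit 67) (nat_lit 2) (nat_lit 149) (nat_lit 154) (nat_lit 147)) (PT.lf (nat_lit 5168) (nat_lit 6) (nat_lit 68) (nat_lit 2) (nat_lit 150) (nat_lit 154) (nat_lit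 146)))) (PT.nd (nat_lit 78) (PT.lf (nat_lit 4864) (nat_lit 6) (nat_lit 64) (nat_lit 2) (nat_lit 151) (nat_lit 154) (nat_lit 145)) (PT.nd (nat_lit 78) (PT.lf (nat_lit 4484) (nat_lit 6) (nat_lit 59) (nat_lit 2) (nat_lit 152) (nat_lit 154) (nat_lit 144)) (PT.lf (nat_lit 4028) (nat_lit 6) (nat_lit 53) (nat_lit 2) (nat_lit 153) (nat_lit 154) (nat_lit 143))))) (PT.nd (nat_lit 234) (PT.nd (nat_lit 78) (PT.lf (nat_lit 3724) (nat_lit 3) (nat_lit 49) (nat_lit 0) (nat_lit 154) (nat_lit 154) (nat_lit 142)) (PT.nd (nat_lit 78) (PT.lf (nat_lit 3420) (nat_lit 6) (nat_lit 45) (nat_lit 0) (nat_lit 155) (nat_lit 154) (nat_lit 141)) (PT.lf (nat_lit 3116) (nat_lit 6) (nat_lit 41) (nat_lit 0) (nat_lit 156) (nat_lit 154) (nat_lit 140)))) (PT.nd (nat_lit 78) (PT.lf (nat_lit 2888) (nat_lit 6) (nat_lit 38) (nat_lit 0) (nat_lit 157) (nat_lit 154) (nat_lit 139)) (PT.nd (nat_lit 45162) (PT.lf (nat_lit 2584) (nat_lit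 6) (nat_lit 34) (nat_lit 0) (nat_lit 158) (nat_lit 154) (nat_lit 138)) (PT.lf (nat_lit 2204) (nat_lit 6) (nat_lit 29) (nat_lit 5) (nat_lit 136) (nat_lit 155) (nat_lit 159)))))) (PT.nd (nat_lit 468) (PT.nd (nat_lit 234) (PT.nd (nat_lit 78) (PT.lf (nat_lit 2432) (nat_lit 6) (nat_lit 32) (nat_lit 5) (nat_lit 137) (nat_lit 155) (nat_lit 158)) (PT.nd (nat_lit 78) (PT.lf (nat_lit 2660) (nat_lit 6) (nat_lit 35) (nat_lit 5) (nat_lit 138) (nat_lit 155) (nat_lit 157)) (PT.lf (nat_lit 2964) (nat_lit 6) (nat_lit 39) (nat_lit 5) (nat_lit 139) (nat_lit 155) (nat_lit 156)))) (PT.nd (nat_lit 78) (PT.lf (nat_lit 3192) (nat_lit 3) (nat_lit 42) (nat_lit 4) (nat_lit 140) (nat_lit 155) (nat_lit 155)) (PT.nd (nat_lit 78) (PT.lf (nat_lit 3420) (nat_lit 6) (nat_lit 45) (nat_lit 4) (nat_lit 141) (nat_lit 155) (nat_lit 154)) (PT.lf (nat_lit 3648) (nat_lit 6) (nat_lit 48) (nat_lit 4) (nat_lit 142) (nat_lit 155) (nat_lit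 153))))) (PT.nd (nat_lit 234) (PT.nd (nat_lit 78) (PT.lf (nat_lit 3952) (nat_lit 6) (nat_lit 52) (nat_lit 4) (nat_lit 143) (nat_lit 155) (nat_lit 152)) (PT.nd (nat_lit 78) (PT.lf (nat_lit 4408) (nat_lit 6) (nat_lit 58) (nat_lit 4) (nat_lit 144) (nat_lit 155) (nat_lit 151)) (PT.lf (nat_lit 4788) (nat_lit 6) (nat_lit 63) (nat_lit 4) (nat_lit 145) (nat_lit 155) (nat_lit 150)))) (PT.nd (nat_lit 156) (PT.nd (nat_lit 78) (PT.lf (nat_lit 4712) (nat_lit 6) (nat_lit 62) (nat_lit 4) (nat_lit 146) (nat_lit 155) (nat_lit 149)) (PT.lf (nat_lit 4636) (nat_lit 6) (nat_lit 61) (nat_lit 4) (nat_lit 147) (nat_lit 155) (nat_lit 148))) (PT.nd (nat_lit 78) (PT.lf (nat_lit 4636) (nat_lit 6) (nat_lit 61) (nat_lit 2) (nat_lit 148) (nat_lit 155) (nat_lit 147)) (PT.lf (nat_lit 4712) (nat_lit 6) (nat_lit 62) (nat_lit 2) (nat_lit 149) (nat_lit 155) (nat_lit 146))))))))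
noncomputable def pc5 : PT := (PT.nd (nat_lit 46878) (PT.nd (nat_lit 45864) (PT.nd (nat_lit 468) (PT.nd (nat_lit 234) (PT.nd (nat_lit 78) (PT.lf (nat_lit 4788) (nat_lit 6) (nat_lit 63) (nat_lit 2) (nat_lit 150) (nat_lit 155) (nat_lit 145)) (PT.nd (nat_lit 78) (PT.lf (nat_lit 4408) (nat_lit 6) (nat_lit 58) (nat_lit 2) (nat_lit 151) (nat_lit 155) (nat_lit 144)) (PT.lf (nat_lit 3952) (nat_lit 6) (nat_lit 52) (nat_lit 2) (nat_lit 152) (nat_lit 155) (nat_lit 143)))) (PT.nd (nat_lit 78) (PT.lf (nat_lit 3648) (nat_lit 6) (nat_lit 48) (nat_lit 2) (nat_lit 153) (nat_lit 155) (nat_lit 142)) (PT.nd (nat_lit 78) (PT.lf (nat_lit 3420) (nat_lit 6) (nat_lit 45) (nat_lit 2) (nat_lit 154) (nat_lit 155) (nat_lit 141)) (PT.lf (nat_lit 3192) (nat_lit 3) (nat_lit 42) (nat_lit 0) (nat_lit 155) (nat_lit 155) (nat_lit 140))))) (PT.nd (nat_lit 234) (PT.nd (nat_lit 78) (PT.lf (nat_lit 2964) (nat_lit 6) (nat_lit 39)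 (nat_lit 0) (nat_lit 156) (nat_lit 155) (nat_lit 139)) (PT.nd (nat_lit 78) (PT.lf (nat_lit 2660) (nat_lit 6) (nat_lit 35) (nat_lit 0) (nat_lit 157) (nat_lit 155) (nat_lit 138)) (PT.lf (nat_lit 2432) (nat_lit 6) (nat_lit 32) (nat_lit 0) (nat_lit 158) (nat_lit 155) (nat_lit 137)))) (PT.nd (nat_lit 45006) (PT.lf (nat_lit 2204) (nat_lit 6) (nat_lit 29) (nat_lit 0) (nat_lit 159) (nat_lit 155) (nat_lit 136)) (PT.nd (nat_lit 78) (PT.lf (nat_lit 2052) (nat_lit 6) (nat_lit 27) (nat_lit 5) (nat_lit 135) (nat_lit 156) (nat_lit 159)) (PT.lf (nat_lit 2280) (nat_lit 6) (nat_lit 30) (nat_lit 5) (nat_lit 136) (nat_lit 156) (nat_lit 158)))))) (PT.nd (nat_lit 468) (PT.nd (nat_lit 234) (PT.nd (nat_lit 78) (PT.lf (nat_lit 2508) (nat_lit 6) (nat_lit 33) (nat_lit 5) (nat_lit 137) (nat_lit 156) (nat_lit 157)) (PT.nd (nat_lit 78) (PT.lf (nat_lit 2736) (nat_lit 3) (nat_lit 36) (nat_lit 4) (nat_lit 138) (nat_lit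 156) (nat_lit 156)) (PT.lf (nat_lit 2964) (nat_lit 6) (nat_lit 39) (nat_lit 4) (nat_lit 139) (nat_lit 156) (nat_lit 155)))) (PT.nd (nat_lit 78) (PT.lf (nat_lit 3116) (nat_lit 6) (nat_lit 41) (nat_lit 4) (nat_lit 140) (nat_lit 156) (nat_lit 154)) (PT.nd (nat_lit 78) (PT.lf (nat_lit 3344) (nat_lit 6) (nat_lit 44) (nat_lit 4) (nat_lit 141) (nat_lit 156) (nat_lit 153)) (PT.lf (nat_lit 3572) (nat_lit 6) (nat_lit 47) (nat_lit 4) (nat_lit 142) (nat_lit 156) (nat_lit 152))))) (PT.nd (nat_lit 234) (PT.nd (nat_lit 78) (PT.lf (nat_lit 3876) (nat_lit 6) (nat_lit 51) (nat_lit 4) (nat_lit 143) (nat_lit 156) (nat_lit 151)) (PT.nd (nat_lit 78) (PT.lf (nat_lit 4332) (nat_lit 6) (nat_lit 57) (nat_lit 4) (nat_lit 144) (nat_lit 156) (nat_lit 150)) (PT.lf (nat_lit 4256) (nat_lit 6) (nat_lit 56) (nat_lit 4) (nat_lit 145) (nat_lit 156) (nat_lit 149)))) (PT.nd (nat_lit 156) (PT.nd (nat_lit 78) (PT.lf (nat_lit 4180)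 (nat_lit 6) (nat_lit 55) (nat_lit 4) (nat_lit 146) (nat_lit 156) (nat_lit 148)) (PT.lf (nat_lit 4104) (nat_lit 3) (nat_lit 54) (nat_lit 2) (nat_lit 147) (nat_lit 156) (nat_lit 147))) (PT.nd (nat_lit 78) (PT.lf (nat_lit 4180) (nat_lit 6) (nat_lit 55) (nat_lit 2) (nat_lit 148) (nat_lit 156) (nat_lit 146)) (PT.lf (nat_lit 4256) (nat_lit 6) (nat_lit 56) (nat_lit 2) (nat_lit 149) (nat_lit 156) (nat_lit 145))))))) (PT.nd (nat_lit 45786) (PT.nd (nat_lit 468) (PT.nd (nat_lit 234) (PT.nd (nat_lit 78) (PT.lf (nat_lit 4332) (nat_lit 6) (nat_lit 57) (nat_lit 2) (nat_lit 150) (nat_lit 156) (nat_lit 144)) (PT.nd (nat_lit 78) (PT.lf (nat_lit 3876) (nat_lit 6) (nat_lit 51) (nat_lit 2) (nat_lit 151) (nat_lit 156) (nat_lit 143)) (PT.lf (nat_lit 3572) (nat_lit 6) (nat_lit 47) (nat_lit 2) (nat_lit 152) (nat_lit 156) (nat_lit 142)))) (PT.nd (nat_lit 78) (PT.lf (nat_lit 3344) (nat_lit 6) (nat_lit 44) (nat_lit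 2) (nat_lit 153) (nat_lit 156) (nat_lit 141)) (PT.nd (nat_lit 78) (PT.lf (nat_lit 3116) (nat_lit 6) (nat_lit 41) (nat_lit 2) (nat_lit 154) (nat_lit 156) (nat_lit 140)) (PT.lf (nat_lit 2964) (nat_lit 6) (nat_lit 39) (nat_lit 2) (nat_lit 155) (nat_lit 156) (nat_lit 139))))) (PT.nd (nat_lit 234) (PT.nd (nat_lit 78) (PT.lf (nat_lit 2736) (nat_lit 3) (nat_lit 36) (nat_lit 0) (nat_lit 156) (nat_lit 156) (nat_lit 138)) (PT.nd (nat_lit 78) (PT.lf (nat_lit 2508) (nat_lit 6) (nat_lit 33) (nat_lit 0) (nat_lit 157) (nat_lit 156) (nat_lit 137)) (PT.lf (nat_lit 2280) (nat_lit 6) (nat_lit 30) (nat_lit 0) (nat_lit 158) (nat_lit 156) (nat_lit 136)))) (PT.nd (nat_lit 44928) (PT.nd (nat_lit 44850) (PT.lf (nat_lit 2052) (nat_lit 6) (nat_lit 27) (nat_lit 0) (nat_lit 159) (nat_lit 156) (nat_lit 135)) (PT.lf (nat_lit 1748) (nat_lit 6) (nat_lit 23) (nat_lit 5) (nat_lit 133) (nat_lit 157) (nat_lit 160))) (PT.nd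 (nat_lit 78) (PT.lf (nat_lit 1900) (nat_lit 6) (nat_lit 25) (nat_lit 5) (nat_lit 134) (nat_lit 157) (nat_lit 159)) (PT.lf (nat_lit 2128) (nat_lit 6) (nat_lit 28) (nat_lit 5) (nat_lit 135) (nat_lit 157) (nat_lit 158)))))) (PT.nd (nat_lit 468) (PT.nd (nat_lit 234) (PT.nd (nat_lit 78) (PT.lf (nat_lit 2356) (nat_lit 3) (nat_lit 31) (nat_lit 4) (nat_lit 136) (nat_lit 157) (nat_lit 157)) (PT.nd (nat_lit 78) (PT.lf (nat_lit 2508) (nat_lit 6) (nat_lit 33) (nat_lit 4) (nat_lit 137) (nat_lit 157) (nat_lit 156)) (PT.lf (nat_lit 2660) (nat_lit 6) (nat_lit 35) (nat_lit 4) (nat_lit 138) (nat_lit 157) (nat_lit 155)))) (PT.nd (nat_lit 78) (PT.lf (nat_lit 2888) (nat_lit 6) (nat_lit 38) (nat_lit 4) (nat_lit 139) (nat_lit 157) (nat_lit 154)) (PT.nd (nat_lit 78) (PT.lf (nat_lit 3040) (nat_lit 6) (nat_lit 40) (nat_lit 4) (nat_lit 140) (nat_lit 157) (nat_lit 153)) (PT.lf (nat_lit 3268) (nat_lit 6) (nat_lit 43)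 (nat_lit 4) (nat_lit 141) (nat_lit 157) (nat_lit 152))))) (PT.nd (nat_lit 702) (PT.nd (nat_lit 78) (PT.lf (nat_lit 3496) (nat_lit 6) (nat_lit 46) (nat_lit 4) (nat_lit 142) (nat_lit 157) (nat_lit 151)) (PT.nd (nat_lit 546) (PT.lf (nat_lit 3800) (nat_lit 6) (nat_lit 50) (nat_lit 4) (nat_lit 143) (nat_lit 157) (nat_lit 150)) (PT.lf (nat_lit 3800) (nat_lit 6) (nat_lit 50) (nat_lit 2) (nat_lit 150) (nat_lit 157) (nat_lit 143)))) (PT.nd (nat_lit 156) (PT.nd (nat_lit 78) (PT.lf (nat_lit 3496) (nat_lit 6) (nat_lit 46) (nat_lit 2) (nat_lit 151) (nat_lit 157) (nat_lit 142)) (PT.lf (nat_lit 3268) (nat_lit 6) (nat_lit 43) (nat_lit 2) (nat_lit 152) (nat_lit 157) (nat_lit 141))) (PT.nd (nat_lit 78) (PT.lf (nat_lit 3040) (nat_lit 6) (nat_lit 40) (nat_lit 2) (nat_lit 153) (nat_lit 157) (nat_lit 140)) (PT.lf (nat_lit 2888) (nat_lit 6) (nat_lit 38) (nat_lit 2) (nat_lit 154) (nat_lit 157) (nat_lit 139))))))))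
noncomputable def pc6 : PT := (PT.nd (nat_lit 92040) (PT.nd (nat_lit 45552) (PT.nd (nat_lit 45084) (PT.nd (nat_lit 234) (PT.nd (nat_lit 78) (PT.lf (nat_lit 2660) (nat_lit 6) (nat_lit 35) (nat_lit 2) (nat_lit 155) (nat_lit 157) (nat_lit 138)) (PT.nd (nat_lit 78) (PT.lf (nat_lit 2508) (nat_lit 6) (nat_lit 33) (nat_lit 2) (nat_lit 156) (nat_lit 157) (nat_lit 137)) (PT.lf (nat_lit 2356) (nat_lit 3) (nat_lit 31) (nat_lit 0) (nat_lit 157) (nat_lit 157) (nat_lit 136)))) (PT.nd (nat_lit 78) (PT.lf (nat_lit 2128) (nat_lit 6) (nat_lit 28) (nat_lit 0) (nat_lit 158) (nat_lit 157) (nat_lit 135)) (PT.nd (nat_lit 78) (PT.lf (nat_lit 1900) (nat_lit 6) (nat_lit 25) (nat_lit 0) (nat_lit 159) (nat_lit 157) (nat_lit 134)) (PT.lf (nat_lit 1748) (nat_lit 6) (nat_lit 23) (nat_lit 0) (nat_lit 160) (nat_lit 157) (nat_lit 133))))) (PT.nd (nat_lit 234) (PT.nd (nat_lit 78) (PT.lf (nat_lit 1596) (nat_lit 6) (nat_lit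 21) (nat_lit 5) (nat_lit 132) (nat_lit 158) (nat_lit 160)) (PT.nd (nat_lit 78) (PT.lf (nat_lit 1824) (nat_lit 6) (nat_lit 24) (nat_lit 5) (nat_lit 133) (nat_lit 158) (nat_lit 159)) (PT.lf (nat_lit 1976) (nat_lit 3) (nat_lit 26) (nat_lit 4) (nat_lit 134) (nat_lit 158) (nat_lit 158)))) (PT.nd (nat_lit 78) (PT.lf (nat_lit 2128) (nat_lit 6) (nat_lit 28) (nat_lit 4) (nat_lit 135) (nat_lit 158) (nat_lit 157)) (PT.nd (nat_lit 78) (PT.lf (nat_lit 2280) (nat_lit 6) (nat_lit 30) (nat_lit 4) (nat_lit 136) (nat_lit 158) (nat_lit 156)) (PT.lf (nat_lit 2432) (nat_lit 6) (nat_lit 32) (nat_lit 4) (nat_lit 137) (nat_lit 158) (nat_lit 155)))))) (PT.nd (nat_lit 1482) (PT.nd (nat_lit 1248) (PT.nd (nat_lit 78) (PT.lf (nat_lit 2584) (nat_lit 6) (nat_lit 34) (nat_lit 4) (nat_lit 138) (nat_lit 158) (nat_lit 154)) (PT.nd (nat_lit 1092) (PT.lf (nat_lit 2812) (nat_lit 6) (nat_lit 37) (nat_lit 4) (nat_lit 139) (nat_lit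 158) (nat_lit 153)) (PT.lf (nat_lit 2812) (nat_lit 6) (nat_lit 37) (nat_lit 2) (nat_lit 153) (nat_lit 158) (nat_lit 139)))) (PT.nd (nat_lit 78) (PT.lf (nat_lit 2584) (nat_lit 6) (nat_lit 34) (nat_lit 2) (nat_lit 154) (nat_lit 158) (nat_lit 138)) (PT.nd (nat_lit 78) (PT.lf (nat_lit 2432) (nat_lit 6) (nat_lit 32) (nat_lit 2) (nat_lit 155) (nat_lit 158) (nat_lit 137)) (PT.lf (nat_lit 2280) (nat_lit 6) (nat_lit 30) (nat_lit 2) (nat_lit 156) (nat_lit 158) (nat_lit 136))))) (PT.nd (nat_lit 234) (PT.nd (nat_lit 78) (PT.lf (nat_lit 2128) (nat_lit 6) (nat_lit 28) (nat_lit 2) (nat_lit 157) (nat_lit 158) (nat_lit 135)) (PT.nd (nat_lit 78) (PT.lf (nat_lit 1976) (nat_lit 3) (nat_lit 26) (nat_lit 0) (nat_lit 158) (nat_lit 158) (nat_lit 134)) (PT.lf (nat_lit 1824) (nat_lit 6) (nat_lit 24) (nat_lit 0) (nat_lit 159) (nat_lit 158) (nat_lit 133)))) (PT.nd (nat_lit 44616) (PT.nd (nat_lit 44538) (PT.lf (nat_lit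 1596) (nat_lit 6) (nat_lit 21) (nat_lit 0) (nat_lit 160) (nat_lit 158) (nat_lit 132)) (PT.lf (nat_lit 1368) (nat_lit 6) (nat_lit 18) (nat_lit 5) (nat_lit 130) (nat_lit 159) (nat_lit 161))) (PT.nd (nat_lit 78) (PT.lf (nat_lit 1520) (nat_lit 6) (nat_lit 20) (nat_lit 5) (nat_lit 131) (nat_lit 159) (nat_lit 160)) (PT.lf (nat_lit 1672) (nat_lit 3) (nat_lit 22) (nat_lit 4) (nat_lit 132) (nat_lit 159) (nat_lit 159))))))) (PT.nd (nat_lit 46644) (PT.nd (nat_lit 1872) (PT.nd (nat_lit 234) (PT.nd (nat_lit 78) (PT.lf (nat_lit 1824) (nat_lit 6) (nat_lit 24) (nat_lit 4) (nat_lit 133) (nat_lit 159) (nat_lit 158)) (PT.nd (nat_lit 78) (PT.lf (nat_lit 1900) (nat_lit 6) (nat_lit 25) (nat_lit 4) (nat_lit 134) (nat_lit 159) (nat_lit 157)) (PT.lf (nat_lit 2052) (nat_lit 6) (nat_lit 27) (nat_lit 4) (nat_lit 135) (nat_lit 159) (nat_lit 156)))) (PT.nd (nat_lit 1482) (PT.lf (nat_lit 2204) (nat_lit 6) (nat_lit 29)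 (nat_lit 4) (nat_lit 136) (nat_lit 159) (nat_lit 155)) (PT.nd (nat_lit 78) (PT.lf (nat_lit 2204) (nat_lit 6) (nat_lit 29) (nat_lit 2) (nat_lit 155) (nat_lit 159) (nat_lit 136)) (PT.lf (nat_lit 2052) (nat_lit 6) (nat_lit 27) (nat_lit 2) (nat_lit 156) (nat_lit 159) (nat_lit 135))))) (PT.nd (nat_lit 234) (PT.nd (nat_lit 78) (PT.lf (nat_lit 1900) (nat_lit 6) (nat_lit 25) (nat_lit 2) (nat_lit 157) (nat_lit 159) (nat_lit 134)) (PT.nd (nat_lit 78) (PT.lf (nat_lit 1824) (nat_lit 6) (nat_lit 24) (nat_lit 2) (nat_lit 158) (nat_lit 159) (nat_lit 133)) (PT.lf (nat_lit 1672) (nat_lit 3) (nat_lit 22) (nat_lit 0) (nat_lit 159) (nat_lit 159) (nat_lit 132)))) (PT.nd (nat_lit 44382) (PT.nd (nat_lit 78) (PT.lf (nat_lit 1520) (nat_lit 6) (nat_lit 20) (nat_lit 0) (nat_lit 160) (nat_lit 159) (nat_lit 131)) (PT.lf (nat_lit 1368) (nat_lit 6) (nat_lit 18) (nat_lit 0) (nat_lit 161) (nat_lit 159) (nat_lit 130))) (PT.nd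 (nat_lit 78) (PT.lf (nat_lit 1140) (nat_lit 6) (nat_lit 15) (nat_lit 5) (nat_lit 128) (nat_lit 160) (nat_lit 162)) (PT.lf (nat_lit 1292) (nat_lit 6) (nat_lit 17) (nat_lit 5) (nat_lit 129) (nat_lit 160) (nat_lit 161)))))) (PT.nd (nat_lit 2262) (PT.nd (nat_lit 234) (PT.nd (nat_lit 78) (PT.lf (nat_lit 1444) (nat_lit 3) (nat_lit 19) (nat_lit 4) (nat_lit 130) (nat_lit 160) (nat_lit 160)) (PT.nd (nat_lit 78) (PT.lf (nat_lit 1520) (nat_lit 6) (nat_lit 20) (nat_lit 4) (nat_lit 131) (nat_lit 160) (nat_lit 159)) (PT.lf (nat_lit 1596) (nat_lit 6) (nat_lit 21) (nat_lit 4) (nat_lit 132) (nat_lit 160) (nat_lit 158)))) (PT.nd (nat_lit 1872) (PT.lf (nat_lit 1748) (nat_lit 6) (nat_lit 23) (nat_lit 4) (nat_lit 133) (nat_lit 160) (nat_lit 157)) (PT.nd (nat_lit 78) (PT.lf (nat_lit 1748) (nat_lit 6) (nat_lit 23) (nat_lit 2) (nat_lit 157) (nat_lit 160) (nat_lit 133)) (PT.lf (nat_lit 1596) (nat_lit 6) (nat_lit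 21) (nat_lit 2) (nat_lit 158) (nat_lit 160) (nat_lit 132))))) (PT.nd (nat_lit 234) (PT.nd (nat_lit 78) (PT.lf (nat_lit 1520) (nat_lit 6) (nat_lit 20) (nat_lit 2) (nat_lit 159) (nat_lit 160) (nat_lit 131)) (PT.nd (nat_lit 78) (PT.lf (nat_lit 1444) (nat_lit 3) (nat_lit 19) (nat_lit 0) (nat_lit 160) (nat_lit 160) (nat_lit 130)) (PT.lf (nat_lit 1292) (nat_lit 6) (nat_lit 17) (nat_lit 0) (nat_lit 161) (nat_lit 160) (nat_lit 129)))) (PT.nd (nat_lit 44148) (PT.nd (nat_lit 44070) (PT.lf (nat_lit 1140) (nat_lit 6) (nat_lit 15) (nat_lit 0) (nat_lit 162) (nat_lit 160) (nat_lit 128)) (PT.lf (nat_lit 912) (nat_lit 6) (nat_lit 12) (nat_lit 5) (nat_lit 126) (nat_lit 161) (nat_lit 163))) (PT.nd (nat_lit 78) (PT.lf (nat_lit 1064) (nat_lit 6) (nat_lit 14) (nat_lit 5) (nat_lit 127) (nat_lit 161) (nat_lit 162)) (PT.lf (nat_lit 1216) (nat_lit 3) (nat_lit 16) (nat_lit 4) (nat_lit 128) (nat_lit 161) (nat_lit 161))))))))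
noncomputable def pc7 : PT := (PT.nd (nat_lit 96486) (PT.nd (nat_lit 49296) (PT.nd (nat_lit 2652) (PT.nd (nat_lit 2418) (PT.nd (nat_lit 78) (PT.lf (nat_lit 1292) (nat_lit 6) (nat_lit 17) (nat_lit 4) (nat_lit 129) (nat_lit 161) (nat_lit 160)) (PT.nd (nat_lit 2262) (PT.lf (nat_lit 1368) (nat_lit 6) (nat_lit 18) (nat_lit 4) (nat_lit 130) (nat_lit 161) (nat_lit 159)) (PT.lf (nat_lit 1368) (nat_lit 6) (nat_lit 18) (nat_lit 2) (nat_lit 159) (nat_lit 161) (nat_lit 130)))) (PT.nd (nat_lit 78) (PT.lf (nat_lit 1292) (nat_lit 6) (nat_lit 17) (nat_lit 2) (nat_lit 160) (nat_lit 161) (nat_lit 129)) (PT.nd (nat_lit 78) (PT.lf (nat_lit 1216) (nat_lit 3) (nat_lit 16) (nat_lit 0) (nat_lit 161) (nat_lit 161) (nat_lit 128)) (PT.lf (nat_lit 1064) (nat_lit 6) (nat_lit 14) (nat_lit 0) (nat_lit 162) (nat_lit 161) (nat_lit 127))))) (PT.nd (nat_lit 43992) (PT.nd (nat_lit 43836) (PT.lf (nat_lit 912) (nat_lit 6) (nat_lit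 12) (nat_lit 0) (nat_lit 163) (nat_lit 161) (nat_lit 126)) (PT.nd (nat_lit 78) (PT.lf (nat_lit 684) (nat_lit 6) (nat_lit 9) (nat_lit 5) (nat_lit 124) (nat_lit 162) (nat_lit 164)) (PT.lf (nat_lit 836) (nat_lit 6) (nat_lit 11) (nat_lit 5) (nat_lit 125) (nat_lit 162) (nat_lit 163)))) (PT.nd (nat_lit 78) (PT.lf (nat_lit 988) (nat_lit 3) (nat_lit 13) (nat_lit 4) (nat_lit 126) (nat_lit 162) (nat_lit 162)) (PT.nd (nat_lit 78) (PT.lf (nat_lit 1064) (nat_lit 6) (nat_lit 14) (nat_lit 4) (nat_lit 127) (nat_lit 162) (nat_lit 161)) (PT.lf (nat_lit 1140) (nat_lit 6) (nat_lit 15) (nat_lit 4) (nat_lit 128) (nat_lit 162) (nat_lit 160)))))) (PT.nd (nat_lit 43992) (PT.nd (nat_lit 234) (PT.nd (nat_lit 78) (PT.lf (nat_lit 1140) (nat_lit 6) (nat_lit 15) (nat_lit 2) (nat_lit 160) (nat_lit 162) (nat_lit 128)) (PT.nd (nat_lit 78) (PT.lf (nat_lit 1064) (nat_lit 6) (nat_lit 14) (nat_lit 2) (nat_lit 161) (nat_lit 162)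 (nat_lit 127)) (PT.lf (nat_lit 988) (nat_lit 3) (nat_lit 13) (nat_lit 0) (nat_lit 162) (nat_lit 162) (nat_lit 126)))) (PT.nd (nat_lit 78) (PT.lf (nat_lit 836) (nat_lit 6) (nat_lit 11) (nat_lit 0) (nat_lit 163) (nat_lit 162) (nat_lit 125)) (PT.nd (nat_lit 43602) (PT.lf (nat_lit 684) (nat_lit 6) (nat_lit 9) (nat_lit 0) (nat_lit 164) (nat_lit 162) (nat_lit 124)) (PT.lf (nat_lit 456) (nat_lit 6) (nat_lit 6) (nat_lit 5) (nat_lit 122) (nat_lit 163) (nat_lit 165))))) (PT.nd (nat_lit 234) (PT.nd (nat_lit 78) (PT.lf (nat_lit 608) (nat_lit 6) (nat_lit 8) (nat_lit 5) (nat_lit 123) (nat_lit 163) (nat_lit 164)) (PT.nd (nat_lit 78) (PT.lf (nat_lit 760) (nat_lit 3) (nat_lit 10) (nat_lit 4) (nat_lit 124) (nat_lit 163) (nat_lit 163)) (PT.lf (nat_lit 836) (nat_lit 6) (nat_lit 11) (nat_lit 4) (nat_lit 125) (nat_lit 163) (nat_lit 162)))) (PT.nd (nat_lit 2808) (PT.nd (nat_lit 2730) (PT.lf (nat_lit 912) (nat_lit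 6) (nat_lit 12) (nat_lit 4) (nat_lit 126) (nat_lit 163) (nat_lit 161)) (PT.lf (nat_lit 912) (nat_lit 6) (nat_lit 12) (nat_lit 2) (nat_lit 161) (nat_lit 163) (nat_lit 126))) (PT.nd (nat_lit 78) (PT.lf (nat_lit 836) (nat_lit 6) (nat_lit 11) (nat_lit 2) (nat_lit 162) (nat_lit 163) (nat_lit 125)) (PT.lf (nat_lit 760) (nat_lit 3) (nat_lit 10) (nat_lit 0) (nat_lit 163) (nat_lit 163) (nat_lit 124))))))) (PT.nd (nat_lit 90324) (PT.nd (nat_lit 43758) (PT.nd (nat_lit 43524) (PT.nd (nat_lit 78) (PT.lf (nat_lit 608) (nat_lit 6) (nat_lit 8) (nat_lit 0) (nat_lit 164) (nat_lit 163) (nat_lit 123)) (PT.nd (nat_lit 43368) (PT.lf (nat_lit 456) (nat_lit 6) (nat_lit 6) (nat_lit 0) (nat_lit 165) (nat_lit 163) (nat_lit 122)) (PT.lf (nat_lit 228) (nat_lit 6) (nat_lit 3) (nat_lit 5) (nat_lit 120) (nat_lit 164) (nat_lit 166)))) (PT.nd (nat_lit 78) (PT.lf (nat_lit 380) (nat_lit 6) (nat_lit 5) (nat_lit 5) (nat_lit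 121) (nat_lit 164) (nat_lit 165)) (PT.nd (nat_lit 78) (PT.lf (nat_lit 532) (nat_lit 3) (nat_lit 7) (nat_lit 4) (nat_lit 122) (nat_lit 164) (nat_lit 164)) (PT.lf (nat_lit 608) (nat_lit 6) (nat_lit 8) (nat_lit 4) (nat_lit 123) (nat_lit 164) (nat_lit 163))))) (PT.nd (nat_lit 3120) (PT.nd (nat_lit 2964) (PT.lf (nat_lit 684) (nat_lit 6) (nat_lit 9) (nat_lit 4) (nat_lit 124) (nat_lit 164) (nat_lit 162)) (PT.nd (nat_lit 78) (PT.lf (nat_lit 684) (nat_lit 6) (nat_lit 9) (nat_lit 2) (nat_lit 162) (nat_lit 164) (nat_lit 124)) (PT.lf (nat_lit 608) (nat_lit 6) (nat_lit 8) (nat_lit 2) (nat_lit 163) (nat_lit 164) (nat_lit 123)))) (PT.nd (nat_lit 156) (PT.nd (nat_lit 78) (PT.lf (nat_lit 532) (nat_lit 3) (nat_lit 7) (nat_lit 0) (nat_lit 164) (nat_lit 164) (nat_lit 122)) (PT.lf (nat_lit 380) (nat_lit 6) (nat_lit 5) (nat_lit 0) (nat_lit 165) (nat_lit 164) (nat_lit 121))) (PT.nd (nat_lit 43212) (PT.lf (nat_lit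 228) (nat_lit 6) (nat_lit 3) (nat_lit 0) (nat_lit 166) (nat_lit 164) (nat_lit 120)) (PT.lf (nat_lit 152) (nat_lit 6) (nat_lit 2) (nat_lit 5) (nat_lit 119) (nat_lit 165) (nat_lit 166)))))) (PT.nd (nat_lit 3588) (PT.nd (nat_lit 3354) (PT.nd (nat_lit 78) (PT.lf (nat_lit 304) (nat_lit 3) (nat_lit 4) (nat_lit 4) (nat_lit 120) (nat_lit 165) (nat_lit 165)) (PT.nd (nat_lit 78) (PT.lf (nat_lit 380) (nat_lit 6) (nat_lit 5) (nat_lit 4) (nat_lit 121) (nat_lit 165) (nat_lit 164)) (PT.lf (nat_lit 456) (nat_lit 6) (nat_lit 6) (nat_lit 4) (nat_lit 122) (nat_lit 165) (nat_lit 163)))) (PT.nd (nat_lit 78) (PT.lf (nat_lit 456) (nat_lit 6) (nat_lit 6) (nat_lit 2) (nat_lit 163) (nat_lit 165) (nat_lit 122)) (PT.nd (nat_lit 78) (PT.lf (nat_lit 380) (nat_lit 6) (nat_lit 5) (nat_lit 2) (nat_lit 164) (nat_lit 165) (nat_lit 121)) (PT.lf (nat_lit 304) (nat_lit 3) (nat_lit 4) (nat_lit 0) (nat_lit 165) (nat_lit 165) (nat_lit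 120))))) (PT.nd (nat_lit 43290) (PT.nd (nat_lit 43134) (PT.lf (nat_lit 152) (nat_lit 6) (nat_lit 2) (nat_lit 0) (nat_lit 166) (nat_lit 165) (nat_lit 119)) (PT.nd (nat_lit 78) (PT.lf (nat_lit 76) (nat_lit 3) (nat_lit 1) (nat_lit 4) (nat_lit 118) (nat_lit 166) (nat_lit 166)) (PT.lf (nat_lit 152) (nat_lit 6) (nat_lit 2) (nat_lit 4) (nat_lit 119) (nat_lit 166) (nat_lit 165)))) (PT.nd (nat_lit 3510) (PT.nd (nat_lit 3432) (PT.lf (nat_lit 228) (nat_lit 6) (nat_lit 3) (nat_lit 4) (nat_lit 120) (nat_lit 166) (nat_lit 164)) (PT.lf (nat_lit 228) (nat_lit 6) (nat_lit 3) (nat_lit 2) (nat_lit 164) (nat_lit 166) (nat_lit 120))) (PT.nd (nat_lit 78) (PT.lf (nat_lit 152) (nat_lit 6) (nat_lit 2) (nat_lit 2) (nat_lit 165) (nat_lit 166) (nat_lit 119)) (PT.lf (nat_lit 76) (nat_lit 3) (nat_lit 1) (nat_lit 0) (nat_lit 166) (nat_lit 166) (nat_lit 118))))))))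
noncomputable def xc0 : XT := (XT.nd (nat_lit 187434) (nat_lit 0) (nat_lit 0) (XT.nd (nat_lit 140322) (nat_lit 0) (nat_lit 0) (XT.nd (nat_lit 93522) (nat_lit 0) (nat_lit 0) (XT.nd (nat_lit 46800) (nat_lit 0) (nat_lit 0) (XT.nd (nat_lit 46722) (nat_lit 0) (nat_lit 0) (XT.lf (nat_lit 0) (nat_lit 211601598216) (nat_lit 76) (nat_lit 224819623144) (nat_lit 76) (nat_lit 224819623144) (nat_lit 1) (nat_lit 4) (nat_lit 2) (nat_lit 5) (nat_lit 2) (nat_lit 4) (nat_lit 394) (nat_lit 253) (nat_lit 253)) (XT.lf (nat_lit 0) (nat_lit 178572519507) (nat_lit 76) (nat_lit 194203594755) (nat_lit 76) (nat_lit 194203594755) (nat_lit 1) (nat_lit 4) (nat_lit 2) (nat_lit 5) (nat_lit 2) (nat_lit 4) (nat_lit 392) (nat_lit 254) (nat_lit 254))) (XT.nd (nat_lit 78) (nat_lit 0) (nat_lit 0) (XT.lf (nat_lit 0) (nat_lit 388943038212) (nat_lit 76) (nat_lit 417846146842) (nat_lit 76) (nat_lit 417804941582) (nat_lit 1) (nat_lit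 4) (nat_lit 2) (nat_lit 5) (nat_lit 2) (nat_lit 4) (nat_lit 393) (nat_lit 254) (nat_lit 253)) (XT.nd (nat_lit 46566) (nat_lit 0) (nat_lit 0) (XT.lf (nat_lit 0) (nat_lit 423127565957) (nat_lit 76) (nat_lit 449717702279) (nat_lit 76) (nat_lit 449638344001) (nat_lit 1) (nat_lit 4) (nat_lit 2) (nat_lit 5) (nat_lit 2) (nat_lit 4) (nat_lit 394) (nat_lit 254) (nat_lit 252)) (XT.lf (nat_lit 0) (nat_lit 150028068525) (nat_lit 76) (nat_lit 168071845435) (nat_lit 76) (nat_lit 168071845435) (nat_lit 1) (nat_lit 4) (nat_lit 2) (nat_lit 5) (nat_lit 2) (nat_lit 4) (nat_lit 390) (nat_lit 255) (nat_lit 255))))) (XT.nd (nat_lit 234) (nat_lit 0) (nat_lit 0) (XT.nd (nat_lit 78) (nat_lit 0) (nat_lit 0) (XT.lf (nat_lit 0) (nat_lit 327545135776) (nat_lit 76) (nat_lit 361270878884) (nat_lit 76) (nat_lit 361226377203) (nat_lit 1) (nat_lit 4) (nat_lit 2) (nat_lit 5) (nat_lit 2) (nat_lit 4) (nat_lit 391) (nat_lit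 255) (nat_lit 254)) (XT.nd (nat_lit 78) (nat_lit 0) (nat_lit 0) (XT.lf (nat_lit 0) (nat_lit 357063358101) (nat_lit 76) (nat_lit 388491921979) (nat_lit 76) (nat_lit 388406215039) (nat_lit 1) (nat_lit 4) (nat_lit 2) (nat_lit 5) (nat_lit 2) (nat_lit 4) (nat_lit 392) (nat_lit 255) (nat_lit 253)) (XT.lf (nat_lit 0) (nat_lit 388785726823) (nat_lit 76) (nat_lit 417968130041) (nat_lit 76) (nat_lit 417844270083) (nat_lit 1) (nat_lit 4) (nat_lit 2) (nat_lit 5) (nat_lit 2) (nat_lit 4) (nat_lit 393) (nat_lit 255) (nat_lit 252)))) (XT.nd (nat_lit 46410) (nat_lit 0) (nat_lit 0) (XT.lf (nat_lit 0) (nat_lit 422900226350) (nat_lit 76) (nat_lit 449874176895) (nat_lit 76) (nat_lit 449714990068) (nat_lit 1) (nat_lit 4) (nat_lit 2) (nat_lit 5) (nat_lit 2) (nat_lit 4) (nat_lit 394) (nat_lit 255) (nat_lit 251)) (XT.nd (nat_lit 78) (nat_lit 0) (nat_lit 0) (XT.lf (nat_lit 0) (nat_lit 125310275818) (nat_lit 76) (nat_lit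 145793967469) (nat_lit 76) (nat_lit 145793967469) (nat_lit 1) (nat_lit 4) (nat_lit 2) (nat_lit 5) (nat_lit 2) (nat_lit 4) (nat_lit 388) (nat_lit 256) (nat_lit 256)) (XT.lf (nat_lit 0) (nat_lit 274433464151) (nat_lit 76) (nat_lit 313009517897) (nat_lit 76) (nat_lit 312961456082) (nat_lit 1) (nat_lit 4) (nat_lit 2) (nat_lit 5) (nat_lit 2) (nat_lit 4) (nat_lit 389) (nat_lit 256) (nat_lit 255)))))) (XT.nd (nat_lit 46644) (nat_lit 0) (nat_lit 0) (XT.nd (nat_lit 234) (nat_lit 0) (nat_lit 0) (XT.nd (nat_lit 78) (nat_lit 0) (nat_lit 0) (XT.lf (nat_lit 0) (nat_lit 299967921663) (nat_lit 76) (nat_lit 336235201936) (nat_lit 76) (nat_lit 336142638441) (nat_lit 1) (nat_lit 4) (nat_lit 2) (nat_lit 5) (nat_lit 2) (nat_lit 4) (nat_lit 390) (nat_lit 256) (nat_lit 254)) (XT.nd (nat_lit 78) (nat_lit 0) (nat_lit 0) (XT.lf (nat_lit 0) (nat_lit 327375239477) (nat_lit 76) (nat_lit 361402620739) (nat_lit 76) (nat_lit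 361268851984) (nat_lit 1) (nat_lit 4) (nat_lit 2) (nat_lit 5) (nat_lit 2) (nat_lit 4) (nat_lit 391) (nat_lit 256) (nat_lit 253)) (XT.lf (nat_lit 0) (nat_lit 356817831326) (nat_lit 76) (nat_lit 388660914565) (nat_lit 76) (nat_lit 388488992792) (nat_lit 1) (nat_lit 4) (nat_lit 2) (nat_lit 5) (nat_lit 2) (nat_lit 4) (nat_lit 392) (nat_lit 256) (nat_lit 252)))) (XT.nd (nat_lit 78) (nat_lit 0) (nat_lit 0) (XT.lf (nat_lit 0) (nat_lit 388470171831) (nat_lit 76) (nat_lit 418171614043) (nat_lit 76) (nat_lit 417964365402) (nat_lit 1) (nat_lit 4) (nat_lit 2) (nat_lit 5) (nat_lit 2) (nat_lit 4) (nat_lit 393) (nat_lit 256) (nat_lit 251)) (XT.nd (nat_lit 46254) (nat_lit 0) (nat_lit 0) (XT.lf (nat_lit 0) (nat_lit 422519830415) (nat_lit 76) (nat_lit 450109597394) (nat_lit 76) (nat_lit 449869638689) (nat_lit 1) (nat_lit 4) (nat_lit 2) (nat_lit 5) (nat_lit 2) (nat_lit 4) (nat_lit 394) (nat_lit 256) (nat_lit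 250)) (XT.lf (nat_lit 0) (nat_lit 103853583662) (nat_lit 76) (nat_lit 126830233837) (nat_lit 76) (nat_lit 126830233837) (nat_lit 1) (nat_lit 4) (nat_lit 2) (nat_lit 5) (nat_lit 2) (nat_lit 4) (nat_lit 386) (nat_lit 257) (nat_lit 257))))) (XT.nd (nat_lit 234) (nat_lit 0) (nat_lit 0) (XT.nd (nat_lit 78) (nat_lit 0) (nat_lit 0) (XT.lf (nat_lit 0) (nat_lit 228388070564) (nat_lit 76) (nat_lit 271895417105) (nat_lit 76) (nat_lit 271843510345) (nat_lit 1) (nat_lit 4) (nat_lit 2) (nat_lit 5) (nat_lit 2) (nat_lit 4) (nat_lit 387) (nat_lit 257) (nat_lit 256)) (XT.nd (nat_lit 78) (nat_lit 0) (nat_lit 0) (XT.lf (nat_lit 0) (nat_lit 250525279020) (nat_lit 76) (nat_lit 291686766890) (nat_lit 76) (nat_lit 291586798315) (nat_lit 1) (nat_lit 4) (nat_lit 2) (nat_lit 5) (nat_lit 2) (nat_lit 4) (nat_lit 388) (nat_lit 257) (nat_lit 255)) (XT.lf (nat_lit 0) (nat_lit 274249976148) (nat_lit 76) (nat_lit 313151799100)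 (nat_lit 76) (nat_lit 313007328845) (nat_lit 1) (nat_lit 4) (nat_lit 2) (nat_lit 5) (nat_lit 2) (nat_lit 4) (nat_lit 389) (nat_lit 257) (nat_lit 254)))) (XT.nd (nat_lit 78) (nat_lit 0) (nat_lit 0) (XT.lf (nat_lit 0) (nat_lit 299702752746) (nat_lit 76) (nat_lit 336417713928) (nat_lit 76) (nat_lit 336232038414) (nat_lit 1) (nat_lit 4) (nat_lit 2) (nat_lit 5) (nat_lit 2) (nat_lit 4) (nat_lit 390) (nat_lit 257) (nat_lit 253)) (XT.nd (nat_lit 78) (nat_lit 0) (nat_lit 0) (XT.lf (nat_lit 0) (nat_lit 327034440084) (nat_lit 76) (nat_lit 361622383461) (nat_lit 76) (nat_lit 361398554928) (nat_lit 1) (nat_lit 4) (nat_lit 2) (nat_lit 5) (nat_lit 2) (nat_lit 4) (nat_lit 391) (nat_lit 257) (nat_lit 252)) (XT.lf (nat_lit 0) (nat_lit 356407003716) (nat_lit 76) (nat_lit 388915168704) (nat_lit 76) (nat_lit 388656013302) (nat_lit 1) (nat_lit 4) (nat_lit 2) (nat_lit 5) (nat_lit 2) (nat_lit 4) (nat_lit 392) (nat_lit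 257) (nat_lit 251))))))) (XT.nd (nat_lit 46878) (nat_lit 0) (nat_lit 0) (XT.nd (nat_lit 46410) (nat_lit 0) (nat_lit 0) (XT.nd (nat_lit 46176) (nat_lit 0) (nat_lit 0) (XT.nd (nat_lit 78) (nat_lit 0) (nat_lit 0) (XT.lf (nat_lit 0) (nat_lit 387994503278) (nat_lit 76) (nat_lit 418457804679) (nat_lit 76) (nat_lit 418165939214) (nat_lit 1) (nat_lit 4) (nat_lit 2) (nat_lit 5) (nat_lit 2) (nat_lit 4) (nat_lit 393) (nat_lit 257) (nat_lit 250)) (XT.lf (nat_lit 0) (nat_lit 421984123953) (nat_lit 76) (nat_lit 450425358861) (nat_lit 76) (nat_lit 450103206300) (nat_lit 1) (nat_lit 4) (nat_lit 2) (nat_lit 5) (nat_lit 2) (nat_lit 4) (nat_lit 394) (nat_lit 257) (nat_lit 249))) (XT.nd (nat_lit 78) (nat_lit 0) (nat_lit 0) (XT.lf (nat_lit 0) (nat_lit 85171546091) (nat_lit 76) (nat_lit 110718721277) (nat_lit 76) (nat_lit 110718721277) (nat_lit 1) (nat_lit 4) (nat_lit 2) (nat_lit 5) (nat_lit 2) (nat_lit 4) (nat_lit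 384) (nat_lit 258) (nat_lit 258)) (XT.nd (nat_lit 78) (nat_lit 0) (nat_lit 0) (XT.lf (nat_lit 0) (nat_lit 188360015799) (nat_lit 76) (nat_lit 236929918938) (nat_lit 76) (nat_lit 236873859637) (nat_lit 1) (nat_lit 4) (nat_lit 2) (nat_lit 5) (nat_lit 2) (nat_lit 4) (nat_lit 385) (nat_lit 258) (nat_lit 257)) (XT.lf (nat_lit 0) (nat_lit 207604272898) (nat_lit 76) (nat_lit 253767206182) (nat_lit 76) (nat_lit 253659240121) (nat_lit 1) (nat_lit 4) (nat_lit 2) (nat_lit 5) (nat_lit 2) (nat_lit 4) (nat_lit 386) (nat_lit 258) (nat_lit 256))))) (XT.nd (nat_lit 234) (nat_lit 0) (nat_lit 0) (XT.nd (nat_lit 78) (nat_lit 0) (nat_lit 0) (XT.lf (nat_lit 0) (nat_lit 228189903520) (nat_lit 76) (nat_lit 272049080805) (nat_lit 76) (nat_lit 271893052929) (nat_lit 1) (nat_lit 4) (nat_lit 2) (nat_lit 5) (nat_lit 2) (nat_lit 4) (nat_lit 387) (nat_lit 258) (nat_lit 255)) (XT.nd (nat_lit 78) (nat_lit 0) (nat_lit 0)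 (XT.lf (nat_lit 0) (nat_lit 250238896589) (nat_lit 76) (nat_lit 291883879841) (nat_lit 76) (nat_lit 291683350285) (nat_lit 1) (nat_lit 4) (nat_lit 2) (nat_lit 5) (nat_lit 2) (nat_lit 4) (nat_lit 388) (nat_lit 258) (nat_lit 254)) (XT.lf (nat_lit 0) (nat_lit 273881912804) (nat_lit 76) (nat_lit 313389142840) (nat_lit 76) (nat_lit 313147408025) (nat_lit 1) (nat_lit 4) (nat_lit 2) (nat_lit 5) (nat_lit 2) (nat_lit 4) (nat_lit 389) (nat_lit 258) (nat_lit 253)))) (XT.nd (nat_lit 78) (nat_lit 0) (nat_lit 0) (XT.lf (nat_lit 0) (nat_lit 299259058927) (nat_lit 76) (nat_lit 336692308398) (nat_lit 76) (nat_lit 336412420565) (nat_lit 1) (nat_lit 4) (nat_lit 2) (nat_lit 5) (nat_lit 2) (nat_lit 4) (nat_lit 390) (nat_lit 258) (nat_lit 252)) (XT.nd (nat_lit 78) (nat_lit 0) (nat_lit 0) (XT.lf (nat_lit 0) (nat_lit 326520718047) (nat_lit 76) (nat_lit 361931469348) (nat_lit 76) (nat_lit 361616254646) (nat_lit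 1) (nat_lit 4) (nat_lit 2) (nat_lit 5) (nat_lit 2) (nat_lit 4) (nat_lit 391) (nat_lit 258) (nat_lit 251)) (XT.lf (nat_lit 0) (nat_lit 355828440737) (nat_lit 76) (nat_lit 389256191088) (nat_lit 76) (nat_lit 388908266322) (nat_lit 1) (nat_lit 4) (nat_lit 2) (nat_lit 5) (nat_lit 2) (nat_lit 4) (nat_lit 392) (nat_lit 258) (nat_lit 250)))))) (XT.nd (nat_lit 46332) (nat_lit 0) (nat_lit 0) (XT.nd (nat_lit 46098) (nat_lit 0) (nat_lit 0) (XT.nd (nat_lit 78) (nat_lit 0) (nat_lit 0) (XT.lf (nat_lit 0) (nat_lit 387355902389) (nat_lit 76) (nat_lit 418828397894) (nat_lit 76) (nat_lit 418450186032) (nat_lit 1) (nat_lit 4) (nat_lit 2) (nat_lit 5) (nat_lit 2) (nat_lit 4) (nat_lit 393) (nat_lit 258) (nat_lit 249)) (XT.nd (nat_lit 45942) (nat_lit 0) (nat_lit 0) (XT.lf (nat_lit 0) (nat_lit 421289932406) (nat_lit 76) (nat_lit 450823332474) (nat_lit 76) (nat_lit 450417077005) (nat_lit 1) (nat_lit 4) (nat_lit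 2) (nat_lit 5) (nat_lit 2) (nat_lit 4) (nat_lit 394) (nat_lit 258) (nat_lit 248)) (XT.lf (nat_lit 0) (nat_lit 68845417013) (nat_lit 76) (nat_lit 97064275164) (nat_lit 76) (nat_lit 97064275164) (nat_lit 1) (nat_lit 4) (nat_lit 2) (nat_lit 5) (nat_lit 2) (nat_lit 4) (nat_lit 382) (nat_lit 259) (nat_lit 259)))) (XT.nd (nat_lit 78) (nat_lit 0) (nat_lit 0) (XT.lf (nat_lit 0) (nat_lit 153446735092) (nat_lit 76) (nat_lit 207258513811) (nat_lit 76) (nat_lit 207197969766) (nat_lit 1) (nat_lit 4) (nat_lit 2) (nat_lit 5) (nat_lit 2) (nat_lit 4) (nat_lit 383) (nat_lit 259) (nat_lit 258)) (XT.nd (nat_lit 78) (nat_lit 0) (nat_lit 0) (XT.lf (nat_lit 0) (nat_lit 170231966201) (nat_lit 76) (nat_lit 221552720143) (nat_lit 76) (nat_lit 221436116798) (nat_lit 1) (nat_lit 4) (nat_lit 2) (nat_lit 5) (nat_lit 2) (nat_lit 4) (nat_lit 384) (nat_lit 259) (nat_lit 257)) (XT.lf (nat_lit 0) (nat_lit 188145995391) (nat_lit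 76) (nat_lit 237095875733) (nat_lit 76) (nat_lit 236927365628) (nat_lit 1) (nat_lit 4) (nat_lit 2) (nat_lit 5) (nat_lit 2) (nat_lit 4) (nat_lit 385) (nat_lit 259) (nat_lit 256))))) (XT.nd (nat_lit 234) (nat_lit 0) (nat_lit 0) (XT.nd (nat_lit 78) (nat_lit 0) (nat_lit 0) (XT.lf (nat_lit 0) (nat_lit 207294979873) (nat_lit 76) (nat_lit 253980088170) (nat_lit 76) (nat_lit 253763516249) (nat_lit 1) (nat_lit 4) (nat_lit 2) (nat_lit 5) (nat_lit 2) (nat_lit 4) (nat_lit 386) (nat_lit 259) (nat_lit 255)) (XT.nd (nat_lit 78) (nat_lit 0) (nat_lit 0) (XT.lf (nat_lit 0) (nat_lit 227792395109) (nat_lit 76) (nat_lit 272305412044) (nat_lit 76) (nat_lit 272044338443) (nat_lit 1) (nat_lit 4) (nat_lit 2) (nat_lit 5) (nat_lit 2) (nat_lit 4) (nat_lit 387) (nat_lit 259) (nat_lit 254)) (XT.lf (nat_lit 0) (nat_lit 249759707265) (nat_lit 76) (nat_lit 292180441869) (nat_lit 76) (nat_lit 291878163008) (nat_lit 1) (nat_lit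 4) (nat_lit 2) (nat_lit 5) (nat_lit 2) (nat_lit 4) (nat_lit 388) (nat_lit 259) (nat_lit 253)))) (XT.nd (nat_lit 78) (nat_lit 0) (nat_lit 0) (XT.lf (nat_lit 0) (nat_lit 273327093004) (nat_lit 76) (nat_lit 313722955598) (nat_lit 76) (nat_lit 313382523720) (nat_lit 1) (nat_lit 4) (nat_lit 2) (nat_lit 5) (nat_lit 2) (nat_lit 4) (nat_lit 389) (nat_lit 259) (nat_lit 252)) (XT.nd (nat_lit 78) (nat_lit 0) (nat_lit 0) (XT.lf (nat_lit 0) (nat_lit 298634210910) (nat_lit 76) (nat_lit 337060612573) (nat_lit 76) (nat_lit 336684853826) (nat_lit 1) (nat_lit 4) (nat_lit 2) (nat_lit 5) (nat_lit 2) (nat_lit 4) (nat_lit 390) (nat_lit 259) (nat_lit 251)) (XT.lf (nat_lit 0) (nat_lit 325831029087) (nat_lit 76) (nat_lit 362331710020) (nat_lit 76) (nat_lit 361923241209) (nat_lit 1) (nat_lit 4) (nat_lit 2) (nat_lit 5) (nat_lit 2) (nat_lit 4) (nat_lit 391) (nat_lit 259) (nat_lit 250))))))))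
noncomputable def xc1 : XT := (XT.nd (nat_lit 93054) (nat_lit 0) (nat_lit 0) (XT.nd (nat_lit 46566) (nat_lit 0) (nat_lit 0) (XT.nd (nat_lit 46098) (nat_lit 0) (nat_lit 0) (XT.nd (nat_lit 156) (nat_lit 0) (nat_lit 0) (XT.nd (nat_lit 78) (nat_lit 0) (nat_lit 0) (XT.lf (nat_lit 0) (nat_lit 355078713867) (nat_lit 76) (nat_lit 389686002590) (nat_lit 76) (nat_lit 389247246683) (nat_lit 1) (nat_lit 4) (nat_lit 2) (nat_lit 5) (nat_lit 2) (nat_lit 4) (nat_lit 392) (nat_lit 259) (nat_lit 249)) (XT.lf (nat_lit 0) (nat_lit 386550584862) (nat_lit 76) (nat_lit 419285589795) (nat_lit 76) (nat_lit 418818790281) (nat_lit 1) (nat_lit 4) (nat_lit 2) (nat_lit 5) (nat_lit 2) (nat_lit 4) (nat_lit 393) (nat_lit 259) (nat_lit 248))) (XT.nd (nat_lit 45786) (nat_lit 0) (nat_lit 0) (XT.lf (nat_lit 0) (nat_lit 420433142049) (nat_lit 76) (nat_lit 451305876596) (nat_lit 76) (nat_lit 450813110779) (nat_lit 1) (nat_lit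 4) (nat_lit 2) (nat_lit 5) (nat_lit 2) (nat_lit 4) (nat_lit 394) (nat_lit 259) (nat_lit 247)) (XT.nd (nat_lit 78) (nat_lit 0) (nat_lit 0) (XT.lf (nat_lit 0) (nat_lit 54514356304) (nat_lit 76) (nat_lit 85529053823) (nat_lit 76) (nat_lit 85529053823) (nat_lit 1) (nat_lit 4) (nat_lit 2) (nat_lit 5) (nat_lit 2) (nat_lit 4) (nat_lit 380) (nat_lit 260) (nat_lit 260)) (XT.lf (nat_lit 0) (nat_lit 122870894706) (nat_lit 76) (nat_lit 182150410072) (nat_lit 76) (nat_lit 182085022503) (nat_lit 1) (nat_lit 4) (nat_lit 2) (nat_lit 5) (nat_lit 2) (nat_lit 4) (nat_lit 381) (nat_lit 260) (nat_lit 259))))) (XT.nd (nat_lit 234) (nat_lit 0) (nat_lit 0) (XT.nd (nat_lit 78) (nat_lit 0) (nat_lit 0) (XT.lf (nat_lit 0) (nat_lit 137570817968) (nat_lit 76) (nat_lit 194253050123) (nat_lit 76) (nat_lit 194127118510) (nat_lit 1) (nat_lit 4) (nat_lit 2) (nat_lit 5) (nat_lit 2) (nat_lit 4) (nat_lit 382) (nat_lit 260) (nat_lit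 258)) (XT.nd (nat_lit 78) (nat_lit 0) (nat_lit 0) (XT.lf (nat_lit 0) (nat_lit 153215593051) (nat_lit 76) (nat_lit 207437747150) (nat_lit 76) (nat_lit 207255756236) (nat_lit 1) (nat_lit 4) (nat_lit 2) (nat_lit 5) (nat_lit 2) (nat_lit 4) (nat_lit 383) (nat_lit 260) (nat_lit 257)) (XT.lf (nat_lit 0) (nat_lit 169897929734) (nat_lit 76) (nat_lit 221782632690) (nat_lit 76) (nat_lit 221548735016) (nat_lit 1) (nat_lit 4) (nat_lit 2) (nat_lit 5) (nat_lit 2) (nat_lit 4) (nat_lit 384) (nat_lit 260) (nat_lit 256)))) (XT.nd (nat_lit 78) (nat_lit 0) (nat_lit 0) (XT.lf (nat_lit 0) (nat_lit 187716686307) (nat_lit 76) (nat_lit 237372713472) (nat_lit 76) (nat_lit 237090753983) (nat_lit 1) (nat_lit 4) (nat_lit 2) (nat_lit 5) (nat_lit 2) (nat_lit 4) (nat_lit 385) (nat_lit 260) (nat_lit 255)) (XT.nd (nat_lit 78) (nat_lit 0) (nat_lit 0) (XT.lf (nat_lit 0) (nat_lit 206777455402) (nat_lit 76) (nat_lit 254300375160)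 (nat_lit 76) (nat_lit 253973913990) (nat_lit 1) (nat_lit 4) (nat_lit 2) (nat_lit 5) (nat_lit 2) (nat_lit 4) (nat_lit 386) (nat_lit 260) (nat_lit 254)) (XT.lf (nat_lit 0) (nat_lit 227193189725) (nat_lit 76) (nat_lit 272665929823) (nat_lit 76) (nat_lit 272298263394) (nat_lit 1) (nat_lit 4) (nat_lit 2) (nat_lit 5) (nat_lit 2) (nat_lit 4) (nat_lit 387) (nat_lit 260) (nat_lit 253)))))) (XT.nd (nat_lit 468) (nat_lit 0) (nat_lit 0) (XT.nd (nat_lit 234) (nat_lit 0) (nat_lit 0) (XT.nd (nat_lit 78) (nat_lit 0) (nat_lit 0) (XT.lf (nat_lit 0) (nat_lit 249084871406) (nat_lit 76) (nat_lit 292578210378) (nat_lit 76) (nat_lit 292172390931) (nat_lit 1) (nat_lit 4) (nat_lit 2) (nat_lit 5) (nat_lit 2) (nat_lit 4) (nat_lit 388) (nat_lit 260) (nat_lit 252)) (XT.nd (nat_lit 78) (nat_lit 0) (nat_lit 0) (XT.lf (nat_lit 0) (nat_lit 272582228927) (nat_lit 76) (nat_lit 314155215524) (nat_lit 76) (nat_lit 313714069208)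 (nat_lit 1) (nat_lit 4) (nat_lit 2) (nat_lit 5) (nat_lit 2) (nat_lit 4) (nat_lit 389) (nat_lit 260) (nat_lit 251)) (XT.lf (nat_lit 0) (nat_lit 297824505890) (nat_lit 76) (nat_lit 337524808996) (nat_lit 76) (nat_lit 337050952616) (nat_lit 1) (nat_lit 4) (nat_lit 2) (nat_lit 5) (nat_lit 2) (nat_lit 4) (nat_lit 390) (nat_lit 260) (nat_lit 250)))) (XT.nd (nat_lit 78) (nat_lit 0) (nat_lit 0) (XT.lf (nat_lit 0) (nat_lit 324961286158) (nat_lit 76) (nat_lit 362825477273) (nat_lit 76) (nat_lit 362321333798) (nat_lit 1) (nat_lit 4) (nat_lit 2) (nat_lit 5) (nat_lit 2) (nat_lit 4) (nat_lit 391) (nat_lit 260) (nat_lit 249)) (XT.nd (nat_lit 78) (nat_lit 0) (nat_lit 0) (XT.lf (nat_lit 0) (nat_lit 354153380280) (nat_lit 76) (nat_lit 390207150242) (nat_lit 76) (nat_lit 389674963159) (nat_lit 1) (nat_lit 4) (nat_lit 2) (nat_lit 5) (nat_lit 2) (nat_lit 4) (nat_lit 392) (nat_lit 260) (nat_lit 248)) (XT.lf (nat_lit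 0) (nat_lit 385573778445) (nat_lit 76) (nat_lit 419832089668) (nat_lit 76) (nat_lit 419273936282) (nat_lit 1) (nat_lit 4) (nat_lit 2) (nat_lit 5) (nat_lit 2) (nat_lit 4) (nat_lit 393) (nat_lit 260) (nat_lit 247))))) (XT.nd (nat_lit 45786) (nat_lit 0) (nat_lit 0) (XT.nd (nat_lit 45630) (nat_lit 0) (nat_lit 0) (XT.lf (nat_lit 0) (nat_lit 419408675603) (nat_lit 76) (nat_lit 451875850748) (nat_lit 76) (nat_lit 451293654489) (nat_lit 1) (nat_lit 4) (nat_lit 2) (nat_lit 5) (nat_lit 2) (nat_lit 4) (nat_lit 394) (nat_lit 260) (nat_lit 246)) (XT.nd (nat_lit 78) (nat_lit 0) (nat_lit 0) (XT.lf (nat_lit 0) (nat_lit 41867022237) (nat_lit 76) (nat_lit 75824427380) (nat_lit 76) (nat_lit 75824427380) (nat_lit 1) (nat_lit 4) (nat_lit 2) (nat_lit 5) (nat_lit 2) (nat_lit 4) (nat_lit 378) (nat_lit 261) (nat_lit 261)) (XT.lf (nat_lit 0) (nat_lit 95962243929) (nat_lit 76) (nat_lit 160981029260) (nat_lit 76) (nat_lit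 160910410686) (nat_lit 1) (nat_lit 4) (nat_lit 2) (nat_lit 5) (nat_lit 2) (nat_lit 4) (nat_lit 379) (nat_lit 261) (nat_lit 260)))) (XT.nd (nat_lit 78) (nat_lit 0) (nat_lit 0) (XT.lf (nat_lit 0) (nat_lit 108899095264) (nat_lit 76) (nat_lit 171192567426) (nat_lit 76) (nat_lit 171056561284) (nat_lit 1) (nat_lit 4) (nat_lit 2) (nat_lit 5) (nat_lit 2) (nat_lit 4) (nat_lit 380) (nat_lit 261) (nat_lit 259)) (XT.nd (nat_lit 78) (nat_lit 0) (nat_lit 0) (XT.lf (nat_lit 0) (nat_lit 122621261302) (nat_lit 76) (nat_lit 182343982078) (nat_lit 76) (nat_lit 182147431891) (nat_lit 1) (nat_lit 4) (nat_lit 2) (nat_lit 5) (nat_lit 2) (nat_lit 4) (nat_lit 381) (nat_lit 261) (nat_lit 258)) (XT.lf (nat_lit 0) (nat_lit 137210058584) (nat_lit 76) (nat_lit 194501355674) (nat_lit 76) (nat_lit 194248746186) (nat_lit 1) (nat_lit 4) (nat_lit 2) (nat_lit 5) (nat_lit 2) (nat_lit 4) (nat_lit 382) (nat_lit 261) (nat_lit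 257))))))) (XT.nd (nat_lit 46332) (nat_lit 0) (nat_lit 0) (XT.nd (nat_lit 468) (nat_lit 0) (nat_lit 0) (XT.nd (nat_lit 234) (nat_lit 0) (nat_lit 0) (XT.nd (nat_lit 78) (nat_lit 0) (nat_lit 0) (XT.lf (nat_lit 0) (nat_lit 152751939241) (nat_lit 76) (nat_lit 207736731908) (nat_lit 76) (nat_lit 207432215659) (nat_lit 1) (nat_lit 4) (nat_lit 2) (nat_lit 5) (nat_lit 2) (nat_lit 4) (nat_lit 383) (nat_lit 261) (nat_lit 256)) (XT.nd (nat_lit 78) (nat_lit 0) (nat_lit 0) (XT.lf (nat_lit 0) (nat_lit 169339003306) (nat_lit 76) (nat_lit 222128542639) (nat_lit 76) (nat_lit 221775964576) (nat_lit 1) (nat_lit 4) (nat_lit 2) (nat_lit 5) (nat_lit 2) (nat_lit 4) (nat_lit 384) (nat_lit 261) (nat_lit 255)) (XT.lf (nat_lit 0) (nat_lit 187069544492) (nat_lit 76) (nat_lit 237762072673) (nat_lit 76) (nat_lit 237364992929) (nat_lit 1) (nat_lit 4) (nat_lit 2) (nat_lit 5) (nat_lit 2) (nat_lit 4) (nat_lit 385) (nat_lit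 261) (nat_lit 254)))) (XT.nd (nat_lit 78) (nat_lit 0) (nat_lit 0) (XT.lf (nat_lit 0) (nat_lit 206048632674) (nat_lit 76) (nat_lit 254729965149) (nat_lit 76) (nat_lit 254291680146) (nat_lit 1) (nat_lit 4) (nat_lit 2) (nat_lit 5) (nat_lit 2) (nat_lit 4) (nat_lit 386) (nat_lit 261) (nat_lit 253)) (XT.nd (nat_lit 78) (nat_lit 0) (nat_lit 0) (XT.lf (nat_lit 0) (nat_lit 226388736522) (nat_lit 76) (nat_lit 273132770542) (nat_lit 76) (nat_lit 272656332521) (nat_lit 1) (nat_lit 4) (nat_lit 2) (nat_lit 5) (nat_lit 2) (nat_lit 4) (nat_lit 387) (nat_lit 261) (nat_lit 252)) (XT.lf (nat_lit 0) (nat_lit 248210389985) (nat_lit 76) (nat_lit 293079542514) (nat_lit 76) (nat_lit 292567777624) (nat_lit 1) (nat_lit 4) (nat_lit 2) (nat_lit 5) (nat_lit 2) (nat_lit 4) (nat_lit 388) (nat_lit 261) (nat_lit 251))))) (XT.nd (nat_lit 234) (nat_lit 0) (nat_lit 0) (XT.nd (nat_lit 78) (nat_lit 0) (nat_lit 0) (XT.lf (nat_lit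 0) (nat_lit 271642906564) (nat_lit 76) (nat_lit 314688484157) (nat_lit 76) (nat_lit 314144009204) (nat_lit 1) (nat_lit 4) (nat_lit 2) (nat_lit 5) (nat_lit 2) (nat_lit 4) (nat_lit 389) (nat_lit 261) (nat_lit 250)) (XT.nd (nat_lit 78) (nat_lit 0) (nat_lit 0) (XT.lf (nat_lit 0) (nat_lit 296825145617) (nat_lit 76) (nat_lit 338087648460) (nat_lit 76) (nat_lit 337512886411) (nat_lit 1) (nat_lit 4) (nat_lit 2) (nat_lit 5) (nat_lit 2) (nat_lit 4) (nat_lit 390) (nat_lit 261) (nat_lit 249)) (XT.lf (nat_lit 0) (nat_lit 323906335228) (nat_lit 76) (nat_lit 363415697136) (nat_lit 76) (nat_lit 362812891479) (nat_lit 1) (nat_lit 4) (nat_lit 2) (nat_lit 5) (nat_lit 2) (nat_lit 4) (nat_lit 391) (nat_lit 261) (nat_lit 248)))) (XT.nd (nat_lit 78) (nat_lit 0) (nat_lit 0) (XT.lf (nat_lit 0) (nat_lit 353046956519) (nat_lit 76) (nat_lit 390822722326) (nat_lit 76) (nat_lit 390193950366) (nat_lit 1) (nat_lit 4) (nat_lit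 2) (nat_lit 5) (nat_lit 2) (nat_lit 4) (nat_lit 392) (nat_lit 261) (nat_lit 247)) (XT.nd (nat_lit 78) (nat_lit 0) (nat_lit 0) (XT.lf (nat_lit 0) (nat_lit 384419694655) (nat_lit 76) (nat_lit 420471136030) (nat_lit 76) (nat_lit 419818321198) (nat_lit 1) (nat_lit 4) (nat_lit 2) (nat_lit 5) (nat_lit 2) (nat_lit 4) (nat_lit 393) (nat_lit 261) (nat_lit 246)) (XT.lf (nat_lit 0) (nat_lit 418210462158) (nat_lit 76) (nat_lit 452536632554) (nat_lit 76) (nat_lit 451861555801) (nat_lit 1) (nat_lit 4) (nat_lit 2) (nat_lit 5) (nat_lit 2) (nat_lit 4) (nat_lit 394) (nat_lit 261) (nat_lit 245)))))) (XT.nd (nat_lit 468) (nat_lit 0) (nat_lit 0) (XT.nd (nat_lit 234) (nat_lit 0) (nat_lit 0) (XT.nd (nat_lit 78) (nat_lit 0) (nat_lit 0) (XT.lf (nat_lit 0) (nat_lit 30634351633) (nat_lit 76) (nat_lit 67704038336) (nat_lit 76) (nat_lit 67704038336) (nat_lit 1) (nat_lit 4) (nat_lit 2) (nat_lit 5) (nat_lit 2) (nat_lit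 4) (nat_lit 376) (nat_lit 262) (nat_lit 262)) (XT.nd (nat_lit 78) (nat_lit 0) (nat_lit 0) (XT.lf (nat_lit 0) (nat_lit 72142033497) (nat_lit 76) (nat_lit 143217010213) (nat_lit 76) (nat_lit 143140742153) (nat_lit 1) (nat_lit 4) (nat_lit 2) (nat_lit 5) (nat_lit 2) (nat_lit 4) (nat_lit 377) (nat_lit 262) (nat_lit 261)) (XT.lf (nat_lit 0) (nat_lit 83594057743) (nat_lit 76) (nat_lit 151794071322) (nat_lit 76) (nat_lit 151647184688) (nat_lit 1) (nat_lit 4) (nat_lit 2) (nat_lit 5) (nat_lit 2) (nat_lit 4) (nat_lit 378) (nat_lit 262) (nat_lit 260)))) (XT.nd (nat_lit 78) (nat_lit 0) (nat_lit 0) (XT.lf (nat_lit 0) (nat_lit 95692639853) (nat_lit 76) (nat_lit 161190087027) (nat_lit 76) (nat_lit 160977812824) (nat_lit 1) (nat_lit 4) (nat_lit 2) (nat_lit 5) (nat_lit 2) (nat_lit 4) (nat_lit 379) (nat_lit 262) (nat_lit 259)) (XT.nd (nat_lit 78) (nat_lit 0) (nat_lit 0) (XT.lf (nat_lit 0) (nat_lit 108509475129)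 (nat_lit 76) (nat_lit 171460737420) (nat_lit 76) (nat_lit 171187919173) (nat_lit 1) (nat_lit 4) (nat_lit 2) (nat_lit 5) (nat_lit 2) (nat_lit 4) (nat_lit 380) (nat_lit 262) (nat_lit 258)) (XT.lf (nat_lit 0) (nat_lit 122120515187) (nat_lit 76) (nat_lit 182666885616) (nat_lit 76) (nat_lit 182338008068) (nat_lit 1) (nat_lit 4) (nat_lit 2) (nat_lit 5) (nat_lit 2) (nat_lit 4) (nat_lit 381) (nat_lit 262) (nat_lit 257))))) (XT.nd (nat_lit 234) (nat_lit 0) (nat_lit 0) (XT.nd (nat_lit 78) (nat_lit 0) (nat_lit 0) (XT.lf (nat_lit 0) (nat_lit 136606418042) (nat_lit 76) (nat_lit 194874938419) (nat_lit 76) (nat_lit 194494154111) (nat_lit 1) (nat_lit 4) (nat_lit 2) (nat_lit 5) (nat_lit 2) (nat_lit 4) (nat_lit 382) (nat_lit 262) (nat_lit 256)) (XT.nd (nat_lit 78) (nat_lit 0) (nat_lit 0) (XT.lf (nat_lit 0) (nat_lit 152053026081) (nat_lit 76) (nat_lit 208157239844) (nat_lit 76) (nat_lit 207728393722) (nat_lit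 1) (nat_lit 4) (nat_lit 2) (nat_lit 5) (nat_lit 2) (nat_lit 4) (nat_lit 383) (nat_lit 262) (nat_lit 255)) (XT.lf (nat_lit 0) (nat_lit 168551874760) (nat_lit 76) (nat_lit 222592499828) (nat_lit 76) (nat_lit 222119152025) (nat_lit 1) (nat_lit 4) (nat_lit 2) (nat_lit 5) (nat_lit 2) (nat_lit 4) (nat_lit 384) (nat_lit 262) (nat_lit 254)))) (XT.nd (nat_lit 78) (nat_lit 0) (nat_lit 0) (XT.lf (nat_lit 0) (nat_lit 186200735033) (nat_lit 76) (nat_lit 238266260650) (nat_lit 76) (nat_lit 237751707587) (nat_lit 1) (nat_lit 4) (nat_lit 2) (nat_lit 5) (nat_lit 2) (nat_lit 4) (nat_lit 385) (nat_lit 262) (nat_lit 253)) (XT.nd (nat_lit 78) (nat_lit 0) (nat_lit 0) (XT.lf (nat_lit 0) (nat_lit 205104192740) (nat_lit 76) (nat_lit 255271403856) (nat_lit 76) (nat_lit 254718697775) (nat_lit 1) (nat_lit 4) (nat_lit 2) (nat_lit 5) (nat_lit 2) (nat_lit 4) (nat_lit 386) (nat_lit 262) (nat_lit 252)) (XT.lf (nat_lit 0)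 (nat_lit 225374268370) (nat_lit 76) (nat_lit 273708700666) (nat_lit 76) (nat_lit 273120667717) (nat_lit 1) (nat_lit 4) (nat_lit 2) (nat_lit 5) (nat_lit 2) (nat_lit 4) (nat_lit 387) (nat_lit 262) (nat_lit 251))))))))
noncomputable def xc2 : XT := (XT.nd (nat_lit 47034) (nat_lit 0) (nat_lit 0) (XT.nd (nat_lit 46098) (nat_lit 0) (nat_lit 0) (XT.nd (nat_lit 390) (nat_lit 0) (nat_lit 0) (XT.nd (nat_lit 156) (nat_lit 0) (nat_lit 0) (XT.nd (nat_lit 78) (nat_lit 0) (nat_lit 0) (XT.lf (nat_lit 0) (nat_lit 247131080890) (nat_lit 76) (nat_lit 293687409135) (nat_lit 76) (nat_lit 293066666122) (nat_lit 1) (nat_lit 4) (nat_lit 2) (nat_lit 5) (nat_lit 2) (nat_lit 4) (nat_lit 388) (nat_lit 262) (nat_lit 250)) (XT.lf (nat_lit 0) (nat_lit 270503559559) (nat_lit 76) (nat_lit 315325921609) (nat_lit 76) (nat_lit 314674891500) (nat_lit 1) (nat_lit 4) (nat_lit 2) (nat_lit 5) (nat_lit 2) (nat_lit 4) (nat_lit 389)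 (nat_lit 262) (nat_lit 249))) (XT.nd (nat_lit 78) (nat_lit 0) (nat_lit 0) (XT.lf (nat_lit 0) (nat_lit 295630207955) (nat_lit 76) (nat_lit 338752466310) (nat_lit 76) (nat_lit 338073392594) (nat_lit 1) (nat_lit 4) (nat_lit 2) (nat_lit 5) (nat_lit 2) (nat_lit 4) (nat_lit 390) (nat_lit 262) (nat_lit 248)) (XT.nd (nat_lit 78) (nat_lit 0) (nat_lit 0) (XT.lf (nat_lit 0) (nat_lit 322659924735) (nat_lit 76) (nat_lit 364105867207) (nat_lit 76) (nat_lit 363400827188) (nat_lit 1) (nat_lit 4) (nat_lit 2) (nat_lit 5) (nat_lit 2) (nat_lit 4) (nat_lit 391) (nat_lit 262) (nat_lit 247)) (XT.lf (nat_lit 0) (nat_lit 351752885999) (nat_lit 76) (nat_lit 391536366676) (nat_lit 76) (nat_lit 390807283783) (nat_lit 1) (nat_lit 4) (nat_lit 2) (nat_lit 5) (nat_lit 2) (nat_lit 4) (nat_lit 392) (nat_lit 262) (nat_lit 246))))) (XT.nd (nat_lit 45474) (nat_lit 0) (nat_lit 0) (XT.nd (nat_lit 78) (nat_lit 0) (nat_lit 0) (XT.lf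 (nat_lit 0) (nat_lit 383081494479) (nat_lit 76) (nat_lit 421206515824) (nat_lit 76) (nat_lit 420455171012) (nat_lit 1) (nat_lit 4) (nat_lit 2) (nat_lit 5) (nat_lit 2) (nat_lit 4) (nat_lit 393) (nat_lit 262) (nat_lit 245)) (XT.nd (nat_lit 45318) (nat_lit 0) (nat_lit 0) (XT.lf (nat_lit 0) (nat_lit 416831401189) (nat_lit 76) (nat_lit 453292137758) (nat_lit 76) (nat_lit 452520180057) (nat_lit 1) (nat_lit 4) (nat_lit 2) (nat_lit 5) (nat_lit 2) (nat_lit 4) (nat_lit 394) (nat_lit 262) (nat_lit 244)) (XT.lf (nat_lit 0) (nat_lit 20583357323) (nat_lit 76) (nat_lit 60957858629) (nat_lit 76) (nat_lit 60957858629) (nat_lit 1) (nat_lit 4) (nat_lit 2) (nat_lit 5) (nat_lit 2) (nat_lit 4) (nat_lit 374) (nat_lit 263) (nat_lit 263)))) (XT.nd (nat_lit 78) (nat_lit 0) (nat_lit 0) (XT.lf (nat_lit 0) (nat_lit 50909632505) (nat_lit 76) (nat_lit 128403365040) (nat_lit 76) (nat_lit 128320995535) (nat_lit 1) (nat_lit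 4) (nat_lit 2) (nat_lit 5) (nat_lit 2) (nat_lit 4) (nat_lit 375) (nat_lit 263) (nat_lit 262)) (XT.nd (nat_lit 78) (nat_lit 0) (nat_lit 0) (XT.lf (nat_lit 0) (nat_lit 61117517597) (nat_lit 76) (nat_lit 135564910558) (nat_lit 76) (nat_lit 135406272994) (nat_lit 1) (nat_lit 4) (nat_lit 2) (nat_lit 5) (nat_lit 2) (nat_lit 4) (nat_lit 376) (nat_lit 263) (nat_lit 261)) (XT.lf (nat_lit 0) (nat_lit 71850861095) (nat_lit 76) (nat_lit 143442792602) (nat_lit 76) (nat_lit 143213536463) (nat_lit 1) (nat_lit 4) (nat_lit 2) (nat_lit 5) (nat_lit 2) (nat_lit 4) (nat_lit 377) (nat_lit 263) (nat_lit 260)))))) (XT.nd (nat_lit 468) (nat_lit 0) (nat_lit 0) (XT.nd (nat_lit 234) (nat_lit 0) (nat_lit 0) (XT.nd (nat_lit 78) (nat_lit 0) (nat_lit 0) (XT.lf (nat_lit 0) (nat_lit 83173267997) (nat_lit 76) (nat_lit 152083694916) (nat_lit 76) (nat_lit 151789051209) (nat_lit 1) (nat_lit 4) (nat_lit 2) (nat_lit 5) (nat_lit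 2) (nat_lit 4) (nat_lit 378) (nat_lit 263) (nat_lit 259)) (XT.nd (nat_lit 78) (nat_lit 0) (nat_lit 0) (XT.lf (nat_lit 0) (nat_lit 95151834048) (nat_lit 76) (nat_lit 161538822848) (nat_lit 76) (nat_lit 161183635096) (nat_lit 1) (nat_lit 4) (nat_lit 2) (nat_lit 5) (nat_lit 2) (nat_lit 4) (nat_lit 379) (nat_lit 263) (nat_lit 258)) (XT.lf (nat_lit 0) (nat_lit 107857543343) (nat_lit 76) (nat_lit 171864206785) (nat_lit 76) (nat_lit 171452959732) (nat_lit 1) (nat_lit 4) (nat_lit 2) (nat_lit 5) (nat_lit 2) (nat_lit 4) (nat_lit 380) (nat_lit 263) (nat_lit 257)))) (XT.nd (nat_lit 78) (nat_lit 0) (nat_lit 0) (XT.lf (nat_lit 0) (nat_lit 121365688974) (nat_lit 76) (nat_lit 183121034188) (nat_lit 76) (nat_lit 182657880376) (nat_lit 1) (nat_lit 4) (nat_lit 2) (nat_lit 5) (nat_lit 2) (nat_lit 4) (nat_lit 381) (nat_lit 263) (nat_lit 256)) (XT.nd (nat_lit 78) (nat_lit 0) (nat_lit 0) (XT.lf (nat_lit 0) (nat_lit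 135756319212) (nat_lit 76) (nat_lit 195376012182) (nat_lit 76) (nat_lit 194864796555) (nat_lit 1) (nat_lit 4) (nat_lit 2) (nat_lit 5) (nat_lit 2) (nat_lit 4) (nat_lit 382) (nat_lit 263) (nat_lit 255)) (XT.lf (nat_lit 0) (nat_lit 151114711865) (nat_lit 76) (nat_lit 208701762860) (nat_lit 76) (nat_lit 208146045552) (nat_lit 1) (nat_lit 4) (nat_lit 2) (nat_lit 5) (nat_lit 2) (nat_lit 4) (nat_lit 383) (nat_lit 263) (nat_lit 254))))) (XT.nd (nat_lit 234) (nat_lit 0) (nat_lit 0) (XT.nd (nat_lit 78) (nat_lit 0) (nat_lit 0) (XT.lf (nat_lit 0) (nat_lit 167531879630) (nat_lit 76) (nat_lit 223177253632) (nat_lit 76) (nat_lit 222580331064) (nat_lit 1) (nat_lit 4) (nat_lit 2) (nat_lit 5) (nat_lit 2) (nat_lit 4) (nat_lit 384) (nat_lit 263) (nat_lit 253)) (XT.nd (nat_lit 78) (nat_lit 0) (nat_lit 0) (XT.lf (nat_lit 0) (nat_lit 185105109428) (nat_lit 76) (nat_lit 238888265184) (nat_lit 76) (nat_lit 238253189598)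 (nat_lit 1) (nat_lit 4) (nat_lit 2) (nat_lit 5) (nat_lit 2) (nat_lit 4) (nat_lit 385) (nat_lit 263) (nat_lit 252)) (XT.lf (nat_lit 0) (nat_lit 203938538917) (nat_lit 76) (nat_lit 255927899807) (nat_lit 76) (nat_lit 255257497353) (nat_lit 1) (nat_lit 4) (nat_lit 2) (nat_lit 5) (nat_lit 2) (nat_lit 4) (nat_lit 386) (nat_lit 263) (nat_lit 251)))) (XT.nd (nat_lit 78) (nat_lit 0) (nat_lit 0) (XT.lf (nat_lit 0) (nat_lit 224143773604) (nat_lit 76) (nat_lit 274397133114) (nat_lit 76) (nat_lit 273694020597) (nat_lit 1) (nat_lit 4) (nat_lit 2) (nat_lit 5) (nat_lit 2) (nat_lit 4) (nat_lit 387) (nat_lit 263) (nat_lit 250)) (XT.nd (nat_lit 78) (nat_lit 0) (nat_lit 0) (XT.lf (nat_lit 0) (nat_lit 245840548215) (nat_lit 76) (nat_lit 294405412414) (nat_lit 76) (nat_lit 293672012800) (nat_lit 1) (nat_lit 4) (nat_lit 2) (nat_lit 5) (nat_lit 2) (nat_lit 4) (nat_lit 388) (nat_lit 263) (nat_lit 249)) (XT.lf (nat_lit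 0) (nat_lit 269157436227) (nat_lit 76) (nat_lit 316071305286) (nat_lit 76) (nat_lit 315309862065) (nat_lit 1) (nat_lit 4) (nat_lit 2) (nat_lit 5) (nat_lit 2) (nat_lit 4) (nat_lit 389) (nat_lit 263) (nat_lit 248))))))) (XT.nd (nat_lit 46020) (nat_lit 0) (nat_lit 0) (XT.nd (nat_lit 45552) (nat_lit 0) (nat_lit 0) (XT.nd (nat_lit 234) (nat_lit 0) (nat_lit 0) (XT.nd (nat_lit 78) (nat_lit 0) (nat_lit 0) (XT.lf (nat_lit 0) (nat_lit 294232611793) (nat_lit 76) (nat_lit 339523202209) (nat_lit 76) (nat_lit 338735792685) (nat_lit 1) (nat_lit 4) (nat_lit 2) (nat_lit 5) (nat_lit 2) (nat_lit 4) (nat_lit 390) (nat_lit 263) (nat_lit 247)) (XT.nd (nat_lit 78) (nat_lit 0) (nat_lit 0) (XT.lf (nat_lit 0) (nat_lit 321214668544) (nat_lit 76) (nat_lit 364900077384) (nat_lit 76) (nat_lit 364088624987) (nat_lit 1) (nat_lit 4) (nat_lit 2) (nat_lit 5) (nat_lit 2) (nat_lit 4) (nat_lit 391) (nat_lit 263) (nat_lit 246))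 (XT.lf (nat_lit 0) (nat_lit 350263500152) (nat_lit 76) (nat_lit 392352312296) (nat_lit 76) (nat_lit 391518597979) (nat_lit 1) (nat_lit 4) (nat_lit 2) (nat_lit 5) (nat_lit 2) (nat_lit 4) (nat_lit 392) (nat_lit 263) (nat_lit 245)))) (XT.nd (nat_lit 78) (nat_lit 0) (nat_lit 0) (XT.lf (nat_lit 0) (nat_lit 381551247839) (nat_lit 76) (nat_lit 422042586855) (nat_lit 76) (nat_lit 421188259649) (nat_lit 1) (nat_lit 4) (nat_lit 2) (nat_lit 5) (nat_lit 2) (nat_lit 4) (nat_lit 393) (nat_lit 263) (nat_lit 244)) (XT.nd (nat_lit 45162) (nat_lit 0) (nat_lit 0) (XT.lf (nat_lit 0) (nat_lit 415263320482) (nat_lit 76) (nat_lit 454146843428) (nat_lit 76) (nat_lit 453273430214) (nat_lit 1) (nat_lit 4) (nat_lit 2) (nat_lit 5) (nat_lit 2) (nat_lit 4) (nat_lit 394) (nat_lit 263) (nat_lit 243)) (XT.lf (nat_lit 0) (nat_lit 11511796794) (nat_lit 76) (nat_lit 55407101540) (nat_lit 76) (nat_lit 55407101540) (nat_lit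 1) (nat_lit 4) (nat_lit 2) (nat_lit 5) (nat_lit 2) (nat_lit 4) (nat_lit 372) (nat_lit 264) (nat_lit 264))))) (XT.nd (nat_lit 234) (nat_lit 0) (nat_lit 0) (XT.nd (nat_lit 78) (nat_lit 0) (nat_lit 0) (XT.lf (nat_lit 0) (nat_lit 31831028215) (nat_lit 76) (nat_lit 116152480959) (nat_lit 76) (nat_lit 116063521894) (nat_lit 1) (nat_lit 4) (nat_lit 2) (nat_lit 5) (nat_lit 2) (nat_lit 4) (nat_lit 373) (nat_lit 264) (nat_lit 263)) (XT.nd (nat_lit 78) (nat_lit 0) (nat_lit 0) (XT.lf (nat_lit 0) (nat_lit 41003434124) (nat_lit 76) (nat_lit 122085097856) (nat_lit 76) (nat_lit 121913769287) (nat_lit 1) (nat_lit 4) (nat_lit 2) (nat_lit 5) (nat_lit 2) (nat_lit 4) (nat_lit 374) (nat_lit 264) (nat_lit 262)) (XT.lf (nat_lit 0) (nat_lit 50595166311) (nat_lit 76) (nat_lit 128647210020) (nat_lit 76) (nat_lit 128399613390) (nat_lit 1) (nat_lit 4) (nat_lit 2) (nat_lit 5) (nat_lit 2) (nat_lit 4) (nat_lit 375) (nat_lit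 264) (nat_lit 261)))) (XT.nd (nat_lit 78) (nat_lit 0) (nat_lit 0) (XT.lf (nat_lit 0) (nat_lit 60663064672) (nat_lit 76) (nat_lit 135877704040) (nat_lit 76) (nat_lit 135559488836) (nat_lit 1) (nat_lit 4) (nat_lit 2) (nat_lit 5) (nat_lit 2) (nat_lit 4) (nat_lit 376) (nat_lit 264) (nat_lit 260)) (XT.nd (nat_lit 78) (nat_lit 0) (nat_lit 0) (XT.lf (nat_lit 0) (nat_lit 71266790826) (nat_lit 76) (nat_lit 143819427288) (nat_lit 76) (nat_lit 143435824516) (nat_lit 1) (nat_lit 4) (nat_lit 2) (nat_lit 5) (nat_lit 2) (nat_lit 4) (nat_lit 377) (nat_lit 264) (nat_lit 259)) (XT.lf (nat_lit 0) (nat_lit 82469181668) (nat_lit 76) (nat_lit 152519441830) (nat_lit 76) (nat_lit 152075295013) (nat_lit 1) (nat_lit 4) (nat_lit 2) (nat_lit 5) (nat_lit 2) (nat_lit 4) (nat_lit 378) (nat_lit 264) (nat_lit 258)))))) (XT.nd (nat_lit 468) (nat_lit 0) (nat_lit 0) (XT.nd (nat_lit 234) (nat_lit 0) (nat_lit 0) (XT.nd (nat_lit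 78) (nat_lit 0) (nat_lit 0) (XT.lf (nat_lit 0) (nat_lit 94336621739) (nat_lit 76) (nat_lit 162029303305) (nat_lit 76) (nat_lit 161529097188) (nat_lit 1) (nat_lit 4) (nat_lit 2) (nat_lit 5) (nat_lit 2) (nat_lit 4) (nat_lit 379) (nat_lit 264) (nat_lit 257)) (XT.nd (nat_lit 78) (nat_lit 0) (nat_lit 0) (XT.lf (nat_lit 0) (nat_lit 106939436607) (nat_lit 76) (nat_lit 172405366450) (nat_lit 76) (nat_lit 171853253572) (nat_lit 1) (nat_lit 4) (nat_lit 2) (nat_lit 5) (nat_lit 2) (nat_lit 4) (nat_lit 380) (nat_lit 264) (nat_lit 256)) (XT.lf (nat_lit 0) (nat_lit 120352309621) (nat_lit 76) (nat_lit 183709119045) (nat_lit 76) (nat_lit 183108944352) (nat_lit 1) (nat_lit 4) (nat_lit 2) (nat_lit 5) (nat_lit 2) (nat_lit 4) (nat_lit 381) (nat_lit 264) (nat_lit 255)))) (XT.nd (nat_lit 78) (nat_lit 0) (nat_lit 0) (XT.lf (nat_lit 0) (nat_lit 134654724472) (nat_lit 76) (nat_lit 196007546291) (nat_lit 76) (nat_lit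 195362869918) (nat_lit 1) (nat_lit 4) (nat_lit 2) (nat_lit 5) (nat_lit 2) (nat_lit 4) (nat_lit 382) (nat_lit 264) (nat_lit 254)) (XT.nd (nat_lit 78) (nat_lit 0) (nat_lit 0) (XT.lf (nat_lit 0) (nat_lit 149931436212) (nat_lit 76) (nat_lit 209373527757) (nat_lit 76) (nat_lit 208687646124) (nat_lit 1) (nat_lit 4) (nat_lit 2) (nat_lit 5) (nat_lit 2) (nat_lit 4) (nat_lit 383) (nat_lit 264) (nat_lit 253)) (XT.lf (nat_lit 0) (nat_lit 166272973502) (nat_lit 76) (nat_lit 223886269258) (nat_lit 76) (nat_lit 223162234608) (nat_lit 1) (nat_lit 4) (nat_lit 2) (nat_lit 5) (nat_lit 2) (nat_lit 4) (nat_lit 384) (nat_lit 264) (nat_lit 252))))) (XT.nd (nat_lit 234) (nat_lit 0) (nat_lit 0) (XT.nd (nat_lit 78) (nat_lit 0) (nat_lit 0) (XT.lf (nat_lit 0) (nat_lit 183776175082) (nat_lit 76) (nat_lit 239631772228) (nat_lit 76) (nat_lit 238872410708) (nat_lit 1) (nat_lit 4) (nat_lit 2) (nat_lit 5) (nat_lit 2) (nat_lit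 4) (nat_lit 385) (nat_lit 264) (nat_lit 251)) (XT.nd (nat_lit 78) (nat_lit 0) (nat_lit 0) (XT.lf (nat_lit 0) (nat_lit 202544763628) (nat_lit 76) (nat_lit 256703343348) (nat_lit 76) (nat_lit 255911271765) (nat_lit 1) (nat_lit 4) (nat_lit 2) (nat_lit 5) (nat_lit 2) (nat_lit 4) (nat_lit 386) (nat_lit 264) (nat_lit 250)) (XT.lf (nat_lit 0) (nat_lit 222689960406) (nat_lit 76) (nat_lit 275202147486) (nat_lit 76) (nat_lit 274379788807) (nat_lit 1) (nat_lit 4) (nat_lit 2) (nat_lit 5) (nat_lit 2) (nat_lit 4) (nat_lit 387) (nat_lit 264) (nat_lit 249)))) (XT.nd (nat_lit 78) (nat_lit 0) (nat_lit 0) (XT.lf (nat_lit 0) (nat_lit 244331144359) (nat_lit 76) (nat_lit 295237807184) (nat_lit 76) (nat_lit 294387404898) (nat_lit 1) (nat_lit 4) (nat_lit 2) (nat_lit 5) (nat_lit 2) (nat_lit 4) (nat_lit 388) (nat_lit 264) (nat_lit 248)) (XT.nd (nat_lit 78) (nat_lit 0) (nat_lit 0) (XT.lf (nat_lit 0) (nat_lit 267596559541)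 (nat_lit 76) (nat_lit 316929052278) (nat_lit 76) (nat_lit 316052683689) (nat_lit 1) (nat_lit 4) (nat_lit 2) (nat_lit 5) (nat_lit 2) (nat_lit 4) (nat_lit 389) (nat_lit 264) (nat_lit 247)) (XT.lf (nat_lit 0) (nat_lit 292624075078) (nat_lit 76) (nat_lit 340404423479) (nat_lit 76) (nat_lit 339504012016) (nat_lit 1) (nat_lit 4) (nat_lit 2) (nat_lit 5) (nat_lit 2) (nat_lit 4) (nat_lit 390) (nat_lit 264) (nat_lit 246))))))))
noncomputable def xc3 : XT := (XT.nd (nat_lit 46722) (nat_lit 0) (nat_lit 0) (XT.nd (nat_lit 45786) (nat_lit 0) (nat_lit 0) (XT.nd (nat_lit 45318) (nat_lit 0) (nat_lit 0) (XT.nd (nat_lit 156) (nat_lit 0) (nat_lit 0) (XT.nd (nat_lit 78) (nat_lit 0) (nat_lit 0) (XT.lf (nat_lit 0) (nat_lit 319562002173) (nat_lit 76) (nat_lit 365803034098) (nat_lit 76) (nat_lit 364880360716) (nat_lit 1) (nat_lit 4) (nat_lit 2) (nat_lit 5) (nat_lit 2) (nat_lit 4) (nat_lit 391) (nat_lit 264) (nat_lit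 245)) (XT.lf (nat_lit 0) (nat_lit 348569972988) (nat_lit 76) (nat_lit 393275394420) (nat_lit 76) (nat_lit 392332108149) (nat_lit 1) (nat_lit 4) (nat_lit 2) (nat_lit 5) (nat_lit 2) (nat_lit 4) (nat_lit 392) (nat_lit 264) (nat_lit 244))) (XT.nd (nat_lit 78) (nat_lit 0) (nat_lit 0) (XT.lf (nat_lit 0) (nat_lit 379819886609) (nat_lit 76) (nat_lit 422984303618) (nat_lit 76) (nat_lit 422021931339) (nat_lit 1) (nat_lit 4) (nat_lit 2) (nat_lit 5) (nat_lit 2) (nat_lit 4) (nat_lit 393) (nat_lit 264) (nat_lit 243)) (XT.nd (nat_lit 45006) (nat_lit 0) (nat_lit 0) (XT.lf (nat_lit 0) (nat_lit 413496927708) (nat_lit 76) (nat_lit 455105814486) (nat_lit 76) (nat_lit 454125769978) (nat_lit 1) (nat_lit 4) (nat_lit 2) (nat_lit 5) (nat_lit 2) (nat_lit 4) (nat_lit 394) (nat_lit 264) (nat_lit 242)) (XT.lf (nat_lit 0) (nat_lit 3243586631) (nat_lit 76) (nat_lit 50899867040) (nat_lit 76) (nat_lit 50899867040) (nat_lit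 1) (nat_lit 4) (nat_lit 2) (nat_lit 5) (nat_lit 2) (nat_lit 4) (nat_lit 370) (nat_lit 265) (nat_lit 265))))) (XT.nd (nat_lit 234) (nat_lit 0) (nat_lit 0) (XT.nd (nat_lit 78) (nat_lit 0) (nat_lit 0) (XT.lf (nat_lit 0) (nat_lit 14528938036) (nat_lit 76) (nat_lit 106134705770) (nat_lit 76) (nat_lit 106038629980) (nat_lit 1) (nat_lit 4) (nat_lit 2) (nat_lit 5) (nat_lit 2) (nat_lit 4) (nat_lit 371) (nat_lit 265) (nat_lit 264)) (XT.nd (nat_lit 78) (nat_lit 0) (nat_lit 0) (XT.lf (nat_lit 0) (nat_lit 22847250622) (nat_lit 76) (nat_lit 110997134126) (nat_lit 76) (nat_lit 110812099271) (nat_lit 1) (nat_lit 4) (nat_lit 2) (nat_lit 5) (nat_lit 2) (nat_lit 4) (nat_lit 372) (nat_lit 265) (nat_lit 263)) (XT.lf (nat_lit 0) (nat_lit 31491404726) (nat_lit 76) (nat_lit 116415833537) (nat_lit 76) (nat_lit 116148429177) (nat_lit 1) (nat_lit 4) (nat_lit 2) (nat_lit 5) (nat_lit 2) (nat_lit 4) (nat_lit 373) (nat_lit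 265) (nat_lit 262)))) (XT.nd (nat_lit 78) (nat_lit 0) (nat_lit 0) (XT.lf (nat_lit 0) (nat_lit 40512624964) (nat_lit 76) (nat_lit 122422914816) (nat_lit 76) (nat_lit 122079242396) (nat_lit 1) (nat_lit 4) (nat_lit 2) (nat_lit 5) (nat_lit 2) (nat_lit 4) (nat_lit 374) (nat_lit 265) (nat_lit 261)) (XT.nd (nat_lit 78) (nat_lit 0) (nat_lit 0) (XT.lf (nat_lit 0) (nat_lit 49964370420) (nat_lit 76) (nat_lit 129053975481) (nat_lit 76) (nat_lit 128639684488) (nat_lit 1) (nat_lit 4) (nat_lit 2) (nat_lit 5) (nat_lit 2) (nat_lit 4) (nat_lit 375) (nat_lit 265) (nat_lit 260)) (XT.lf (nat_lit 0) (nat_lit 59902651437) (nat_lit 76) (nat_lit 136348310707) (nat_lit 76) (nat_lit 135868632144) (nat_lit 1) (nat_lit 4) (nat_lit 2) (nat_lit 5) (nat_lit 2) (nat_lit 4) (nat_lit 376) (nat_lit 265) (nat_lit 259)))))) (XT.nd (nat_lit 468) (nat_lit 0) (nat_lit 0) (XT.nd (nat_lit 234) (nat_lit 0) (nat_lit 0) (XT.nd (nat_lit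 78) (nat_lit 0) (nat_lit 0) (XT.lf (nat_lit 0) (nat_lit 70386361531) (nat_lit 76) (nat_lit 144349146183) (nat_lit 76) (nat_lit 143808923576) (nat_lit 1) (nat_lit 4) (nat_lit 2) (nat_lit 5) (nat_lit 2) (nat_lit 4) (nat_lit 377) (nat_lit 265) (nat_lit 258)) (XT.nd (nat_lit 78) (nat_lit 0) (nat_lit 0) (XT.lf (nat_lit 0) (nat_lit 81477626393) (nat_lit 76) (nat_lit 153103894268) (nat_lit 76) (nat_lit 152507612360) (nat_lit 1) (nat_lit 4) (nat_lit 2) (nat_lit 5) (nat_lit 2) (nat_lit 4) (nat_lit 378) (nat_lit 265) (nat_lit 257)) (XT.lf (nat_lit 0) (nat_lit 93242172037) (nat_lit 76) (nat_lit 162664434950) (nat_lit 76) (nat_lit 162016246283) (nat_lit 1) (nat_lit 4) (nat_lit 2) (nat_lit 5) (nat_lit 2) (nat_lit 4) (nat_lit 379) (nat_lit 265) (nat_lit 256)))) (XT.nd (nat_lit 78) (nat_lit 0) (nat_lit 0) (XT.lf (nat_lit 0) (nat_lit 105749714288) (nat_lit 76) (nat_lit 173087423287) (nat_lit 76) (nat_lit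 172391172804) (nat_lit 1) (nat_lit 4) (nat_lit 2) (nat_lit 5) (nat_lit 2) (nat_lit 4) (nat_lit 380) (nat_lit 265) (nat_lit 255)) (XT.nd (nat_lit 78) (nat_lit 0) (nat_lit 0) (XT.lf (nat_lit 0) (nat_lit 119074371915) (nat_lit 76) (nat_lit 184434625133) (nat_lit 76) (nat_lit 183693872970) (nat_lit 1) (nat_lit 4) (nat_lit 2) (nat_lit 5) (nat_lit 2) (nat_lit 4) (nat_lit 381) (nat_lit 265) (nat_lit 254)) (XT.lf (nat_lit 0) (nat_lit 133295105853) (nat_lit 76) (nat_lit 196773283168) (nat_lit 76) (nat_lit 195991325745) (nat_lit 1) (nat_lit 4) (nat_lit 2) (nat_lit 5) (nat_lit 2) (nat_lit 4) (nat_lit 382) (nat_lit 265) (nat_lit 253))))) (XT.nd (nat_lit 234) (nat_lit 0) (nat_lit 0) (XT.nd (nat_lit 78) (nat_lit 0) (nat_lit 0) (XT.lf (nat_lit 0) (nat_lit 148496187118) (nat_lit 76) (nat_lit 210176515364) (nat_lit 76) (nat_lit 209356404923) (nat_lit 1) (nat_lit 4) (nat_lit 2) (nat_lit 5) (nat_lit 2) (nat_lit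 4) (nat_lit 383) (nat_lit 265) (nat_lit 252)) (XT.nd (nat_lit 78) (nat_lit 0) (nat_lit 0) (XT.lf (nat_lit 0) (nat_lit 164767696190) (nat_lit 76) (nat_lit 224723748283) (nat_lit 76) (nat_lit 223868310973) (nat_lit 1) (nat_lit 4) (nat_lit 2) (nat_lit 5) (nat_lit 2) (nat_lit 4) (nat_lit 384) (nat_lit 265) (nat_lit 251)) (XT.lf (nat_lit 0) (nat_lit 182206056828) (nat_lit 76) (nat_lit 240501187749) (nat_lit 76) (nat_lit 239613040376) (nat_lit 1) (nat_lit 4) (nat_lit 2) (nat_lit 5) (nat_lit 2) (nat_lit 4) (nat_lit 385) (nat_lit 265) (nat_lit 250)))) (XT.nd (nat_lit 78) (nat_lit 0) (nat_lit 0) (XT.lf (nat_lit 0) (nat_lit 200914607464) (nat_lit 76) (nat_lit 257602329700) (nat_lit 76) (nat_lit 256683895231) (nat_lit 1) (nat_lit 4) (nat_lit 2) (nat_lit 5) (nat_lit 2) (nat_lit 4) (nat_lit 386) (nat_lit 265) (nat_lit 249)) (XT.nd (nat_lit 78) (nat_lit 0) (nat_lit 0) (XT.lf (nat_lit 0) (nat_lit 221004213585)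 (nat_lit 76) (nat_lit 276128514236) (nat_lit 76) (nat_lit 275182036160) (nat_lit 1) (nat_lit 4) (nat_lit 2) (nat_lit 5) (nat_lit 2) (nat_lit 4) (nat_lit 387) (nat_lit 265) (nat_lit 248)) (XT.lf (nat_lit 0) (nat_lit 242593924707) (nat_lit 76) (nat_lit 296189526155) (nat_lit 76) (nat_lit 295217081776) (nat_lit 1) (nat_lit 4) (nat_lit 2) (nat_lit 5) (nat_lit 2) (nat_lit 4) (nat_lit 388) (nat_lit 265) (nat_lit 247))))))) (XT.nd (nat_lit 45708) (nat_lit 0) (nat_lit 0) (XT.nd (nat_lit 45240) (nat_lit 0) (nat_lit 0) (XT.nd (nat_lit 234) (nat_lit 0) (nat_lit 0) (XT.nd (nat_lit 78) (nat_lit 0) (nat_lit 0) (XT.lf (nat_lit 0) (nat_lit 265811679860) (nat_lit 76) (nat_lit 317904245528) (nat_lit 76) (nat_lit 316907758275) (nat_lit 1) (nat_lit 4) (nat_lit 2) (nat_lit 5) (nat_lit 2) (nat_lit 4) (nat_lit 389) (nat_lit 265) (nat_lit 246)) (XT.nd (nat_lit 78) (nat_lit 0) (nat_lit 0) (XT.lf (nat_lit 0) (nat_lit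 290795065742) (nat_lit 76) (nat_lit 341401352172) (nat_lit 76) (nat_lit 340382603000) (nat_lit 1) (nat_lit 4) (nat_lit 2) (nat_lit 5) (nat_lit 2) (nat_lit 4) (nat_lit 390) (nat_lit 265) (nat_lit 245)) (XT.lf (nat_lit 0) (nat_lit 317692132045) (nat_lit 76) (nat_lit 366820088202) (nat_lit 76) (nat_lit 365780726141) (nat_lit 1) (nat_lit 4) (nat_lit 2) (nat_lit 5) (nat_lit 2) (nat_lit 4) (nat_lit 391) (nat_lit 265) (nat_lit 244)))) (XT.nd (nat_lit 78) (nat_lit 0) (nat_lit 0) (XT.lf (nat_lit 0) (nat_lit 346662268792) (nat_lit 76) (nat_lit 394311083163) (nat_lit 76) (nat_lit 393252635094) (nat_lit 1) (nat_lit 4) (nat_lit 2) (nat_lit 5) (nat_lit 2) (nat_lit 4) (nat_lit 392) (nat_lit 265) (nat_lit 243)) (XT.nd (nat_lit 78) (nat_lit 0) (nat_lit 0) (XT.lf (nat_lit 0) (nat_lit 377877150869) (nat_lit 76) (nat_lit 424037246656) (nat_lit 76) (nat_lit 422961126358) (nat_lit 1) (nat_lit 4) (nat_lit 2) (nat_lit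 5) (nat_lit 2) (nat_lit 4) (nat_lit 393) (nat_lit 265) (nat_lit 242)) (XT.lf (nat_lit 0) (nat_lit 411521755354) (nat_lit 76) (nat_lit 456174733725) (nat_lit 76) (nat_lit 455082250251) (nat_lit 1) (nat_lit 4) (nat_lit 2) (nat_lit 5) (nat_lit 2) (nat_lit 4) (nat_lit 394) (nat_lit 265) (nat_lit 241))))) (XT.nd (nat_lit 234) (nat_lit 0) (nat_lit 0) (XT.nd (nat_lit 78) (nat_lit 76) (nat_lit 0) (XT.lf (nat_lit 0) (nat_lit 43000580034) (nat_lit 152) (nat_lit 4235112849) (nat_lit 0) (nat_lit 43000580034) (nat_lit 2) (nat_lit 5) (nat_lit 4) (nat_lit 4) (nat_lit 2) (nat_lit 4) (nat_lit 368) (nat_lit 266) (nat_lit 266)) (XT.nd (nat_lit 78) (nat_lit 76) (nat_lit 0) (XT.lf (nat_lit 0) (nat_lit 96765291462) (nat_lit 152) (nat_lit 1283267963) (nat_lit 0) (nat_lit 96661529608) (nat_lit 2) (nat_lit 5) (nat_lit 4) (nat_lit 4) (nat_lit 2) (nat_lit 4) (nat_lit 369) (nat_lit 266) (nat_lit 265)) (XT.lf (nat_lit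 0) (nat_lit 6296722861) (nat_lit 76) (nat_lit 101997299610) (nat_lit 76) (nat_lit 101797461966) (nat_lit 1) (nat_lit 4) (nat_lit 2) (nat_lit 5) (nat_lit 2) (nat_lit 4) (nat_lit 370) (nat_lit 266) (nat_lit 264)))) (XT.nd (nat_lit 78) (nat_lit 0) (nat_lit 0) (XT.lf (nat_lit 0) (nat_lit 14162144668) (nat_lit 76) (nat_lit 106419126554) (nat_lit 76) (nat_lit 106130329846) (nat_lit 1) (nat_lit 4) (nat_lit 2) (nat_lit 5) (nat_lit 2) (nat_lit 4) (nat_lit 371) (nat_lit 266) (nat_lit 263)) (XT.nd (nat_lit 78) (nat_lit 0) (nat_lit 0) (XT.lf (nat_lit 0) (nat_lit 22317176730) (nat_lit 76) (nat_lit 111361976442) (nat_lit 76) (nat_lit 110990810229) (nat_lit 1) (nat_lit 4) (nat_lit 2) (nat_lit 5) (nat_lit 2) (nat_lit 4) (nat_lit 372) (nat_lit 266) (nat_lit 262)) (XT.lf (nat_lit 0) (nat_lit 30810145164) (nat_lit 76) (nat_lit 116855140236) (nat_lit 76) (nat_lit 116407705963) (nat_lit 1) (nat_lit 4) (nat_lit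 2) (nat_lit 5) (nat_lit 2) (nat_lit 4) (nat_lit 373) (nat_lit 266) (nat_lit 261)))))) (XT.nd (nat_lit 468) (nat_lit 0) (nat_lit 0) (XT.nd (nat_lit 234) (nat_lit 0) (nat_lit 0) (XT.nd (nat_lit 78) (nat_lit 0) (nat_lit 0) (XT.lf (nat_lit 0) (nat_lit 39691378671) (nat_lit 76) (nat_lit 122931170017) (nat_lit 76) (nat_lit 122413117169) (nat_lit 1) (nat_lit 4) (nat_lit 2) (nat_lit 5) (nat_lit 2) (nat_lit 4) (nat_lit 374) (nat_lit 266) (nat_lit 260)) (XT.nd (nat_lit 78) (nat_lit 0) (nat_lit 0) (XT.lf (nat_lit 0) (nat_lit 49013506782) (nat_lit 76) (nat_lit 129626071887) (nat_lit 76) (nat_lit 129042631471) (nat_lit 1) (nat_lit 4) (nat_lit 2) (nat_lit 5) (nat_lit 2) (nat_lit 4) (nat_lit 375) (nat_lit 266) (nat_lit 259)) (XT.lf (nat_lit 0) (nat_lit 58831771740) (nat_lit 76) (nat_lit 136979519340) (nat_lit 76) (nat_lit 136335534879) (nat_lit 1) (nat_lit 4) (nat_lit 2) (nat_lit 5) (nat_lit 2) (nat_lit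 4) (nat_lit 376) (nat_lit 266) (nat_lit 258)))) (XT.nd (nat_lit 78) (nat_lit 0) (nat_lit 0) (XT.lf (nat_lit 0) (nat_lit 69204355854) (nat_lit 76) (nat_lit 145035088359) (nat_lit 76) (nat_lit 144335044598) (nat_lit 1) (nat_lit 4) (nat_lit 2) (nat_lit 5) (nat_lit 2) (nat_lit 4) (nat_lit 377) (nat_lit 266) (nat_lit 257)) (XT.nd (nat_lit 78) (nat_lit 0) (nat_lit 0) (XT.lf (nat_lit 0) (nat_lit 80192726289) (nat_lit 76) (nat_lit 153840515651) (nat_lit 76) (nat_lit 153088565130) (nat_lit 1) (nat_lit 4) (nat_lit 2) (nat_lit 5) (nat_lit 2) (nat_lit 4) (nat_lit 378) (nat_lit 266) (nat_lit 256)) (XT.lf (nat_lit 0) (nat_lit 91861999315) (nat_lit 76) (nat_lit 163447981526) (nat_lit 76) (nat_lit 162647969190) (nat_lit 1) (nat_lit 4) (nat_lit 2) (nat_lit 5) (nat_lit 2) (nat_lit 4) (nat_lit 379) (nat_lit 266) (nat_lit 255))))) (XT.nd (nat_lit 234) (nat_lit 0) (nat_lit 0) (XT.nd (nat_lit 78) (nat_lit 0)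 (nat_lit 0) (XT.lf (nat_lit 0) (nat_lit 104281326180) (nat_lit 76) (nat_lit 173914419114) (nat_lit 76) (nat_lit 173069905097) (nat_lit 1) (nat_lit 4) (nat_lit 2) (nat_lit 5) (nat_lit 2) (nat_lit 4) (nat_lit 380) (nat_lit 266) (nat_lit 254)) (XT.nd (nat_lit 78) (nat_lit 0) (nat_lit 0) (XT.lf (nat_lit 0) (nat_lit 117524302894) (nat_lit 76) (nat_lit 185301851749) (nat_lit 76) (nat_lit 184416132473) (nat_lit 1) (nat_lit 4) (nat_lit 2) (nat_lit 5) (nat_lit 2) (nat_lit 4) (nat_lit 381) (nat_lit 266) (nat_lit 253)) (XT.lf (nat_lit 0) (nat_lit 131669406356) (nat_lit 76) (nat_lit 197677760514) (nat_lit 76) (nat_lit 196753888220) (nat_lit 1) (nat_lit 4) (nat_lit 2) (nat_lit 5) (nat_lit 2) (nat_lit 4) (nat_lit 382) (nat_lit 266) (nat_lit 252)))) (XT.nd (nat_lit 78) (nat_lit 0) (nat_lit 0) (XT.lf (nat_lit 0) (nat_lit 146800459403) (nat_lit 76) (nat_lit 211115484127) (nat_lit 76) (nat_lit 210156284964)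 (nat_lit 1) (nat_lit 4) (nat_lit 2) (nat_lit 5) (nat_lit 2) (nat_lit 4) (nat_lit 383) (nat_lit 266) (nat_lit 251)) (XT.nd (nat_lit 78) (nat_lit 0) (nat_lit 0) (XT.lf (nat_lit 0) (nat_lit 163007127533) (nat_lit 76) (nat_lit 225694653542) (nat_lit 76) (nat_lit 224702744316) (nat_lit 1) (nat_lit 4) (nat_lit 2) (nat_lit 5) (nat_lit 2) (nat_lit 4) (nat_lit 384) (nat_lit 266) (nat_lit 250)) (XT.lf (nat_lit 0) (nat_lit 180385450261) (nat_lit 76) (nat_lit 241501663839) (nat_lit 76) (nat_lit 240479467517) (nat_lit 1) (nat_lit 4) (nat_lit 2) (nat_lit 5) (nat_lit 2) (nat_lit 4) (nat_lit 385) (nat_lit 266) (nat_lit 249))))))))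
noncomputable def xc4 : XT := (XT.nd (nat_lit 46410) (nat_lit 0) (nat_lit 0) (XT.nd (nat_lit 45474) (nat_lit 0) (nat_lit 0) (XT.nd (nat_lit 390) (nat_lit 0) (nat_lit 0) (XT.nd (nat_lit 156) (nat_lit 0) (nat_lit 0) (XT.nd (nat_lit 78) (nat_lit 0) (nat_lit 0) (XT.lf (nat_lit 0) (nat_lit 199038410240) (nat_lit 76) (nat_lit 258630186189) (nat_lit 76) (nat_lit 257579946259) (nat_lit 1) (nat_lit 4) (nat_lit 2) (nat_lit 5) (nat_lit 2) (nat_lit 4) (nat_lit 386) (nat_lit 266) (nat_lit 248)) (XT.lf (nat_lit 0) (nat_lit 219076543530) (nat_lit 76) (nat_lit 277181722947) (nat_lit 76) (nat_lit 276105516714) (nat_lit 1) (nat_lit 4) (nat_lit 2) (nat_lit 5) (nat_lit 2) (nat_lit 4) (nat_lit 387) (nat_lit 266) (nat_lit 247))) (XT.nd (nat_lit 78) (nat_lit 0) (nat_lit 0) (XT.lf (nat_lit 0) (nat_lit 240618594624) (nat_lit 76) (nat_lit 297266209144) (nat_lit 76) (nat_lit 296165960038) (nat_lit 1) (nat_lit 4) (nat_lit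 2) (nat_lit 5) (nat_lit 2) (nat_lit 4) (nat_lit 388) (nat_lit 266) (nat_lit 246)) (XT.nd (nat_lit 78) (nat_lit 0) (nat_lit 0) (XT.lf (nat_lit 0) (nat_lit 263792220121) (nat_lit 76) (nat_lit 319002663960) (nat_lit 76) (nat_lit 317880152935) (nat_lit 1) (nat_lit 4) (nat_lit 2) (nat_lit 5) (nat_lit 2) (nat_lit 4) (nat_lit 389) (nat_lit 266) (nat_lit 245)) (XT.lf (nat_lit 0) (nat_lit 288734745210) (nat_lit 76) (nat_lit 342519896015) (nat_lit 76) (nat_lit 341376772101) (nat_lit 1) (nat_lit 4) (nat_lit 2) (nat_lit 5) (nat_lit 2) (nat_lit 4) (nat_lit 390) (nat_lit 266) (nat_lit 244))))) (XT.nd (nat_lit 234) (nat_lit 0) (nat_lit 0) (XT.nd (nat_lit 78) (nat_lit 0) (nat_lit 0) (XT.lf (nat_lit 0) (nat_lit 315593977446) (nat_lit 76) (nat_lit 367957266683) (nat_lit 76) (nat_lit 366795056761) (nat_lit 1) (nat_lit 4) (nat_lit 2) (nat_lit 5) (nat_lit 2) (nat_lit 4) (nat_lit 391) (nat_lit 266) (nat_lit 243))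 (XT.nd (nat_lit 78) (nat_lit 0) (nat_lit 0) (XT.lf (nat_lit 0) (nat_lit 344529082650) (nat_lit 76) (nat_lit 395465515941) (nat_lit 76) (nat_lit 394285633789) (nat_lit 1) (nat_lit 4) (nat_lit 2) (nat_lit 5) (nat_lit 2) (nat_lit 4) (nat_lit 392) (nat_lit 266) (nat_lit 242)) (XT.lf (nat_lit 0) (nat_lit 375711528112) (nat_lit 76) (nat_lit 425207655634) (nat_lit 76) (nat_lit 424011410307) (nat_lit 1) (nat_lit 4) (nat_lit 2) (nat_lit 5) (nat_lit 2) (nat_lit 4) (nat_lit 393) (nat_lit 266) (nat_lit 241)))) (XT.nd (nat_lit 44694) (nat_lit 0) (nat_lit 76) (XT.lf (nat_lit 0) (nat_lit 409326098695) (nat_lit 76) (nat_lit 457359935479) (nat_lit 76) (nat_lit 456148539064) (nat_lit 1) (nat_lit 4) (nat_lit 2) (nat_lit 5) (nat_lit 2) (nat_lit 4) (nat_lit 394) (nat_lit 266) (nat_lit 240)) (XT.nd (nat_lit 78) (nat_lit 0) (nat_lit 0) (XT.lf (nat_lit 0) (nat_lit 33220755778) (nat_lit 152) (nat_lit 11112044460)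 (nat_lit 0) (nat_lit 33220755778) (nat_lit 2) (nat_lit 5) (nat_lit 4) (nat_lit 4) (nat_lit 2) (nat_lit 4) (nat_lit 366) (nat_lit 267) (nat_lit 267)) (XT.lf (nat_lit 0) (nat_lit 75951594156) (nat_lit 152) (nat_lit 15508274179) (nat_lit 0) (nat_lit 75839531354) (nat_lit 2) (nat_lit 5) (nat_lit 4) (nat_lit 4) (nat_lit 2) (nat_lit 4) (nat_lit 367) (nat_lit 267) (nat_lit 266)))))) (XT.nd (nat_lit 468) (nat_lit 0) (nat_lit 0) (XT.nd (nat_lit 234) (nat_lit 0) (nat_lit 0) (XT.nd (nat_lit 78) (nat_lit 76) (nat_lit 0) (XT.lf (nat_lit 0) (nat_lit 86012055746) (nat_lit 152) (nat_lit 8669328883) (nat_lit 0) (nat_lit 85796231091) (nat_lit 2) (nat_lit 5) (nat_lit 4) (nat_lit 4) (nat_lit 2) (nat_lit 4) (nat_lit 368) (nat_lit 267) (nat_lit 265)) (XT.nd (nat_lit 78) (nat_lit 76) (nat_lit 0) (XT.lf (nat_lit 0) (nat_lit 96682513877) (nat_lit 152) (nat_lit 1666725948) (nat_lit 0) (nat_lit 96370613432) (nat_lit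 2) (nat_lit 5) (nat_lit 4) (nat_lit 4) (nat_lit 2) (nat_lit 4) (nat_lit 369) (nat_lit 267) (nat_lit 264)) (XT.lf (nat_lit 0) (nat_lit 5724243057) (nat_lit 76) (nat_lit 102391329312) (nat_lit 76) (nat_lit 101990469801) (nat_lit 1) (nat_lit 4) (nat_lit 2) (nat_lit 5) (nat_lit 2) (nat_lit 4) (nat_lit 370) (nat_lit 267) (nat_lit 263)))) (XT.nd (nat_lit 78) (nat_lit 0) (nat_lit 0) (XT.lf (nat_lit 0) (nat_lit 13426384341) (nat_lit 76) (nat_lit 106893577789) (nat_lit 76) (nat_lit 106410348774) (nat_lit 1) (nat_lit 4) (nat_lit 2) (nat_lit 5) (nat_lit 2) (nat_lit 4) (nat_lit 371) (nat_lit 267) (nat_lit 262)) (XT.nd (nat_lit 78) (nat_lit 0) (nat_lit 0) (XT.lf (nat_lit 0) (nat_lit 21430230733) (nat_lit 76) (nat_lit 111910892059) (nat_lit 76) (nat_lit 111351394984) (nat_lit 1) (nat_lit 4) (nat_lit 2) (nat_lit 5) (nat_lit 2) (nat_lit 4) (nat_lit 372) (nat_lit 267) (nat_lit 261)) (XT.lf (nat_lit 0) (nat_lit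 29783212435) (nat_lit 76) (nat_lit 117473004354) (nat_lit 76) (nat_lit 116842888705) (nat_lit 1) (nat_lit 4) (nat_lit 2) (nat_lit 5) (nat_lit 2) (nat_lit 4) (nat_lit 373) (nat_lit 267) (nat_lit 260))))) (XT.nd (nat_lit 234) (nat_lit 0) (nat_lit 0) (XT.nd (nat_lit 78) (nat_lit 0) (nat_lit 0) (XT.lf (nat_lit 0) (nat_lit 38534828598) (nat_lit 76) (nat_lit 123612875340) (nat_lit 76) (nat_lit 122917372123) (nat_lit 1) (nat_lit 4) (nat_lit 2) (nat_lit 5) (nat_lit 2) (nat_lit 4) (nat_lit 374) (nat_lit 267) (nat_lit 259)) (XT.nd (nat_lit 78) (nat_lit 0) (nat_lit 0) (XT.lf (nat_lit 0) (nat_lit 47736940650) (nat_lit 76) (nat_lit 130366889438) (nat_lit 76) (nat_lit 129610842176) (nat_lit 1) (nat_lit 4) (nat_lit 2) (nat_lit 5) (nat_lit 2) (nat_lit 4) (nat_lit 375) (nat_lit 267) (nat_lit 258)) (XT.lf (nat_lit 0) (nat_lit 57444079627) (nat_lit 76) (nat_lit 137775070434) (nat_lit 76) (nat_lit 136962963871)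 (nat_lit 1) (nat_lit 4) (nat_lit 2) (nat_lit 5) (nat_lit 2) (nat_lit 4) (nat_lit 376) (nat_lit 267) (nat_lit 257)))) (XT.nd (nat_lit 78) (nat_lit 0) (nat_lit 0) (XT.lf (nat_lit 0) (nat_lit 67713769314) (nat_lit 76) (nat_lit 145881318661) (nat_lit 76) (nat_lit 145017305338) (nat_lit 1) (nat_lit 4) (nat_lit 2) (nat_lit 5) (nat_lit 2) (nat_lit 4) (nat_lit 377) (nat_lit 267) (nat_lit 256)) (XT.nd (nat_lit 78) (nat_lit 0) (nat_lit 0) (XT.lf (nat_lit 0) (nat_lit 78606867132) (nat_lit 76) (nat_lit 154733671145) (nat_lit 76) (nat_lit 153821596007) (nat_lit 1) (nat_lit 4) (nat_lit 2) (nat_lit 5) (nat_lit 2) (nat_lit 4) (nat_lit 378) (nat_lit 267) (nat_lit 255)) (XT.lf (nat_lit 0) (nat_lit 90187924772) (nat_lit 76) (nat_lit 164384586271) (nat_lit 76) (nat_lit 163428009453) (nat_lit 1) (nat_lit 4) (nat_lit 2) (nat_lit 5) (nat_lit 2) (nat_lit 4) (nat_lit 379) (nat_lit 267) (nat_lit 254))))))) (XT.nd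 (nat_lit 858) (nat_lit 0) (nat_lit 0) (XT.nd (nat_lit 390) (nat_lit 0) (nat_lit 0) (XT.nd (nat_lit 156) (nat_lit 0) (nat_lit 0) (XT.nd (nat_lit 78) (nat_lit 0) (nat_lit 0) (XT.lf (nat_lit 0) (nat_lit 102525570723) (nat_lit 76) (nat_lit 174891254648) (nat_lit 76) (nat_lit 173893472570) (nat_lit 1) (nat_lit 4) (nat_lit 2) (nat_lit 5) (nat_lit 2) (nat_lit 4) (nat_lit 380) (nat_lit 267) (nat_lit 253)) (XT.lf (nat_lit 0) (nat_lit 115692916962) (nat_lit 76) (nat_lit 186315938013) (nat_lit 76) (nat_lit 185280002917) (nat_lit 1) (nat_lit 4) (nat_lit 2) (nat_lit 5) (nat_lit 2) (nat_lit 4) (nat_lit 381) (nat_lit 267) (nat_lit 252))) (XT.nd (nat_lit 78) (nat_lit 0) (nat_lit 0) (XT.lf (nat_lit 0) (nat_lit 129767992207) (nat_lit 76) (nat_lit 198726338194) (nat_lit 76) (nat_lit 197655076230) (nat_lit 1) (nat_lit 4) (nat_lit 2) (nat_lit 5) (nat_lit 2) (nat_lit 4) (nat_lit 382) (nat_lit 267) (nat_lit 251))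 (XT.nd (nat_lit 78) (nat_lit 0) (nat_lit 0) (XT.lf (nat_lit 0) (nat_lit 144834204311) (nat_lit 76) (nat_lit 212195998304) (nat_lit 76) (nat_lit 211092026276) (nat_lit 1) (nat_lit 4) (nat_lit 2) (nat_lit 5) (nat_lit 2) (nat_lit 4) (nat_lit 383) (nat_lit 267) (nat_lit 250)) (XT.lf (nat_lit 0) (nat_lit 160980834531) (nat_lit 76) (nat_lit 226804738551) (nat_lit 76) (nat_lit 225670479427) (nat_lit 1) (nat_lit 4) (nat_lit 2) (nat_lit 5) (nat_lit 2) (nat_lit 4) (nat_lit 384) (nat_lit 267) (nat_lit 249))))) (XT.nd (nat_lit 234) (nat_lit 0) (nat_lit 0) (XT.nd (nat_lit 78) (nat_lit 0) (nat_lit 0) (XT.lf (nat_lit 0) (nat_lit 178303566602) (nat_lit 76) (nat_lit 242639129246) (nat_lit 76) (nat_lit 241476826515) (nat_lit 1) (nat_lit 4) (nat_lit 2) (nat_lit 5) (nat_lit 2) (nat_lit 4) (nat_lit 385) (nat_lit 267) (nat_lit 248)) (XT.nd (nat_lit 78) (nat_lit 0) (nat_lit 0) (XT.lf (nat_lit 0) (nat_lit 196905053750)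 (nat_lit 76) (nat_lit 259793003817) (nat_lit 76) (nat_lit 258604734783) (nat_lit 1) (nat_lit 4) (nat_lit 2) (nat_lit 5) (nat_lit 2) (nat_lit 4) (nat_lit 386) (nat_lit 267) (nat_lit 247)) (XT.lf (nat_lit 0) (nat_lit 216895527012) (nat_lit 76) (nat_lit 278368014853) (nat_lit 76) (nat_lit 277155702946) (nat_lit 1) (nat_lit 4) (nat_lit 2) (nat_lit 5) (nat_lit 2) (nat_lit 4) (nat_lit 387) (nat_lit 267) (nat_lit 246)))) (XT.nd (nat_lit 78) (nat_lit 0) (nat_lit 0) (XT.lf (nat_lit 0) (nat_lit 238393448450) (nat_lit 76) (nat_lit 298474236494) (nat_lit 76) (nat_lit 297239662667) (nat_lit 1) (nat_lit 4) (nat_lit 2) (nat_lit 5) (nat_lit 2) (nat_lit 4) (nat_lit 388) (nat_lit 267) (nat_lit 245)) (XT.nd (nat_lit 78) (nat_lit 0) (nat_lit 0) (XT.lf (nat_lit 0) (nat_lit 261526213155) (nat_lit 76) (nat_lit 320230816721) (nat_lit 76) (nat_lit 318975630005) (nat_lit 1) (nat_lit 4) (nat_lit 2) (nat_lit 5) (nat_lit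 2) (nat_lit 4) (nat_lit 389) (nat_lit 267) (nat_lit 244)) (XT.lf (nat_lit 0) (nat_lit 286430904176) (nat_lit 76) (nat_lit 343766683415) (nat_lit 76) (nat_lit 342492410691) (nat_lit 1) (nat_lit 4) (nat_lit 2) (nat_lit 5) (nat_lit 2) (nat_lit 4) (nat_lit 390) (nat_lit 267) (nat_lit 243)))))) (XT.nd (nat_lit 44928) (nat_lit 0) (nat_lit 0) (XT.nd (nat_lit 234) (nat_lit 0) (nat_lit 0) (XT.nd (nat_lit 78) (nat_lit 0) (nat_lit 0) (XT.lf (nat_lit 0) (nat_lit 313255104869) (nat_lit 76) (nat_lit 369221308379) (nat_lit 76) (nat_lit 367929363426) (nat_lit 1) (nat_lit 4) (nat_lit 2) (nat_lit 5) (nat_lit 2) (nat_lit 4) (nat_lit 391) (nat_lit 267) (nat_lit 242)) (XT.nd (nat_lit 78) (nat_lit 0) (nat_lit 0) (XT.lf (nat_lit 0) (nat_lit 342157773458) (nat_lit 76) (nat_lit 396745533836) (nat_lit 76) (nat_lit 395437225707) (nat_lit 1) (nat_lit 4) (nat_lit 2) (nat_lit 5) (nat_lit 2) (nat_lit 4) (nat_lit 392)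 (nat_lit 267) (nat_lit 241)) (XT.lf (nat_lit 0) (nat_lit 373310185018) (nat_lit 76) (nat_lit 426502466306) (nat_lit 76) (nat_lit 425179007089) (nat_lit 1) (nat_lit 4) (nat_lit 2) (nat_lit 5) (nat_lit 2) (nat_lit 4) (nat_lit 393) (nat_lit 267) (nat_lit 240)))) (XT.nd (nat_lit 44538) (nat_lit 0) (nat_lit 76) (XT.lf (nat_lit 0) (nat_lit 406896946432) (nat_lit 76) (nat_lit 458668443168) (nat_lit 76) (nat_lit 457330955165) (nat_lit 1) (nat_lit 4) (nat_lit 2) (nat_lit 5) (nat_lit 2) (nat_lit 4) (nat_lit 394) (nat_lit 267) (nat_lit 239)) (XT.nd (nat_lit 78) (nat_lit 0) (nat_lit 0) (XT.lf (nat_lit 0) (nat_lit 24544507925) (nat_lit 152) (nat_lit 17606394319) (nat_lit 0) (nat_lit 24544507925) (nat_lit 2) (nat_lit 5) (nat_lit 4) (nat_lit 4) (nat_lit 2) (nat_lit 4) (nat_lit 364) (nat_lit 268) (nat_lit 268)) (XT.lf (nat_lit 0) (nat_lit 57546479728) (nat_lit 152) (nat_lit 28856570527) (nat_lit 0) (nat_lit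 57425451902) (nat_lit 2) (nat_lit 5) (nat_lit 4) (nat_lit 4) (nat_lit 2) (nat_lit 4) (nat_lit 365) (nat_lit 268) (nat_lit 267))))) (XT.nd (nat_lit 234) (nat_lit 76) (nat_lit 0) (XT.nd (nat_lit 78) (nat_lit 0) (nat_lit 0) (XT.lf (nat_lit 0) (nat_lit 66453278889) (nat_lit 152) (nat_lit 22439120360) (nat_lit 0) (nat_lit 66220188261) (nat_lit 2) (nat_lit 5) (nat_lit 4) (nat_lit 4) (nat_lit 2) (nat_lit 4) (nat_lit 366) (nat_lit 268) (nat_lit 266)) (XT.nd (nat_lit 78) (nat_lit 0) (nat_lit 0) (XT.lf (nat_lit 0) (nat_lit 75862194364) (nat_lit 152) (nat_lit 15922408803) (nat_lit 0) (nat_lit 75525341884) (nat_lit 2) (nat_lit 5) (nat_lit 4) (nat_lit 4) (nat_lit 2) (nat_lit 4) (nat_lit 367) (nat_lit 268) (nat_lit 265)) (XT.lf (nat_lit 0) (nat_lit 85828982692) (nat_lit 152) (nat_lit 9267818308) (nat_lit 0) (nat_lit 85396054421) (nat_lit 2) (nat_lit 5) (nat_lit 4) (nat_lit 4) (nat_lit 2) (nat_lit 4) (nat_lit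 368) (nat_lit 268) (nat_lit 264)))) (XT.nd (nat_lit 78) (nat_lit 76) (nat_lit 0) (XT.lf (nat_lit 0) (nat_lit 96412706320) (nat_lit 152) (nat_lit 2435914262) (nat_lit 0) (nat_lit 95890818984) (nat_lit 2) (nat_lit 5) (nat_lit 4) (nat_lit 4) (nat_lit 2) (nat_lit 4) (nat_lit 369) (nat_lit 268) (nat_lit 263)) (XT.nd (nat_lit 78) (nat_lit 0) (nat_lit 0) (XT.lf (nat_lit 0) (nat_lit 4766341380) (nat_lit 76) (nat_lit 102984158177) (nat_lit 76) (nat_lit 102379901337) (nat_lit 1) (nat_lit 4) (nat_lit 2) (nat_lit 5) (nat_lit 2) (nat_lit 4) (nat_lit 370) (nat_lit 268) (nat_lit 262)) (XT.lf (nat_lit 0) (nat_lit 12317296994) (nat_lit 76) (nat_lit 107560871036) (nat_lit 76) (nat_lit 106880346136) (nat_lit 1) (nat_lit 4) (nat_lit 2) (nat_lit 5) (nat_lit 2) (nat_lit 4) (nat_lit 371) (nat_lit 268) (nat_lit 261))))))))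
noncomputable def xc5 : XT := (XT.nd (nat_lit 46098) (nat_lit 0) (nat_lit 0) (XT.nd (nat_lit 858) (nat_lit 0) (nat_lit 0) (XT.nd (nat_lit 390) (nat_lit 0) (nat_lit 0) (XT.nd (nat_lit 156) (nat_lit 0) (nat_lit 0) (XT.nd (nat_lit 78) (nat_lit 0) (nat_lit 0) (XT.lf (nat_lit 0) (nat_lit 20181156654) (nat_lit 76) (nat_lit 112647133808) (nat_lit 76) (nat_lit 111895990334) (nat_lit 1) (nat_lit 4) (nat_lit 2) (nat_lit 5) (nat_lit 2) (nat_lit 4) (nat_lit 372) (nat_lit 268) (nat_lit 260)) (XT.lf (nat_lit 0) (nat_lit 28404521013) (nat_lit 76) (nat_lit 118273087309) (nat_lit 76) (nat_lit 117456556266) (nat_lit 1) (nat_lit 4) (nat_lit 2) (nat_lit 5) (nat_lit 2) (nat_lit 4) (nat_lit 373) (nat_lit 268) (nat_lit 259))) (XT.nd (nat_lit 78) (nat_lit 0) (nat_lit 0) (XT.lf (nat_lit 0) (nat_lit 37036121116) (nat_lit 76) (nat_lit 124472070522) (nat_lit 76) (nat_lit 123594995434) (nat_lit 1) (nat_lit 4) (nat_lit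 2) (nat_lit 5) (nat_lit 2) (nat_lit 4) (nat_lit 374) (nat_lit 268) (nat_lit 258)) (XT.nd (nat_lit 78) (nat_lit 0) (nat_lit 0) (XT.lf (nat_lit 0) (nat_lit 46127107188) (nat_lit 76) (nat_lit 131280818164) (nat_lit 76) (nat_lit 130347683775) (nat_lit 1) (nat_lit 4) (nat_lit 2) (nat_lit 5) (nat_lit 2) (nat_lit 4) (nat_lit 375) (nat_lit 268) (nat_lit 257)) (XT.lf (nat_lit 0) (nat_lit 55731351737) (nat_lit 76) (nat_lit 138739678367) (nat_lit 76) (nat_lit 137754637218) (nat_lit 1) (nat_lit 4) (nat_lit 2) (nat_lit 5) (nat_lit 2) (nat_lit 4) (nat_lit 376) (nat_lit 268) (nat_lit 256))))) (XT.nd (nat_lit 234) (nat_lit 0) (nat_lit 0) (XT.nd (nat_lit 78) (nat_lit 0) (nat_lit 0) (XT.lf (nat_lit 0) (nat_lit 65905768807) (nat_lit 76) (nat_lit 146892851786) (nat_lit 76) (nat_lit 145859748822) (nat_lit 1) (nat_lit 4) (nat_lit 2) (nat_lit 5) (nat_lit 2) (nat_lit 4) (nat_lit 377) (nat_lit 268) (nat_lit 255))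 (XT.nd (nat_lit 78) (nat_lit 0) (nat_lit 0) (XT.lf (nat_lit 0) (nat_lit 76710651239) (nat_lit 76) (nat_lit 155788653521) (nat_lit 76) (nat_lit 154711048877) (nat_lit 1) (nat_lit 4) (nat_lit 2) (nat_lit 5) (nat_lit 2) (nat_lit 4) (nat_lit 378) (nat_lit 268) (nat_lit 254)) (XT.lf (nat_lit 0) (nat_lit 88210027965) (nat_lit 76) (nat_lit 165479799436) (nat_lit 76) (nat_lit 164360989533) (nat_lit 1) (nat_lit 4) (nat_lit 2) (nat_lit 5) (nat_lit 2) (nat_lit 4) (nat_lit 379) (nat_lit 268) (nat_lit 253)))) (XT.nd (nat_lit 78) (nat_lit 0) (nat_lit 0) (XT.lf (nat_lit 0) (nat_lit 100472043441) (nat_lit 76) (nat_lit 176023718543) (nat_lit 76) (nat_lit 174866755621) (nat_lit 1) (nat_lit 4) (nat_lit 2) (nat_lit 5) (nat_lit 2) (nat_lit 4) (nat_lit 380) (nat_lit 268) (nat_lit 252)) (XT.nd (nat_lit 78) (nat_lit 0) (nat_lit 0) (XT.lf (nat_lit 0) (nat_lit 113569361462) (nat_lit 76) (nat_lit 187482893325) (nat_lit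 76) (nat_lit 186290603535) (nat_lit 1) (nat_lit 4) (nat_lit 2) (nat_lit 5) (nat_lit 2) (nat_lit 4) (nat_lit 381) (nat_lit 268) (nat_lit 251)) (XT.lf (nat_lit 0) (nat_lit 127579595765) (nat_lit 76) (nat_lit 199925230003) (nat_lit 76) (nat_lit 198700230150) (nat_lit 1) (nat_lit 4) (nat_lit 2) (nat_lit 5) (nat_lit 2) (nat_lit 4) (nat_lit 382) (nat_lit 268) (nat_lit 250)))))) (XT.nd (nat_lit 468) (nat_lit 0) (nat_lit 0) (XT.nd (nat_lit 234) (nat_lit 0) (nat_lit 0) (XT.nd (nat_lit 78) (nat_lit 0) (nat_lit 0) (XT.lf (nat_lit 0) (nat_lit 142585769959) (nat_lit 76) (nat_lit 213424460944) (nat_lit 76) (nat_lit 212169173994) (nat_lit 1) (nat_lit 4) (nat_lit 2) (nat_lit 5) (nat_lit 2) (nat_lit 4) (nat_lit 383) (nat_lit 268) (nat_lit 249)) (XT.nd (nat_lit 78) (nat_lit 0) (nat_lit 0) (XT.lf (nat_lit 0) (nat_lit 158676809522) (nat_lit 76) (nat_lit 228060581589) (nat_lit 76) (nat_lit 226777251032) (nat_lit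 1) (nat_lit 4) (nat_lit 2) (nat_lit 5) (nat_lit 2) (nat_lit 4) (nat_lit 384) (nat_lit 268) (nat_lit 248)) (XT.lf (nat_lit 0) (nat_lit 175948068762) (nat_lit 76) (nat_lit 243920324506) (nat_lit 76) (nat_lit 242611027645) (nat_lit 1) (nat_lit 4) (nat_lit 2) (nat_lit 5) (nat_lit 2) (nat_lit 4) (nat_lit 385) (nat_lit 268) (nat_lit 247)))) (XT.nd (nat_lit 78) (nat_lit 0) (nat_lit 0) (XT.lf (nat_lit 0) (nat_lit 194501895882) (nat_lit 76) (nat_lit 261097673355) (nat_lit 76) (nat_lit 259764333622) (nat_lit 1) (nat_lit 4) (nat_lit 2) (nat_lit 5) (nat_lit 2) (nat_lit 4) (nat_lit 386) (nat_lit 268) (nat_lit 246)) (XT.nd (nat_lit 78) (nat_lit 0) (nat_lit 0) (XT.lf (nat_lit 0) (nat_lit 214448239488) (nat_lit 76) (nat_lit 279694419835) (nat_lit 76) (nat_lit 278338818182) (nat_lit 1) (nat_lit 4) (nat_lit 2) (nat_lit 5) (nat_lit 2) (nat_lit 4) (nat_lit 387) (nat_lit 268) (nat_lit 245)) (XT.lf (nat_lit 0)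 (nat_lit 235905300134) (nat_lit 76) (nat_lit 299820766886) (nat_lit 76) (nat_lit 298444552345) (nat_lit 1) (nat_lit 4) (nat_lit 2) (nat_lit 5) (nat_lit 2) (nat_lit 4) (nat_lit 388) (nat_lit 268) (nat_lit 244))))) (XT.nd (nat_lit 234) (nat_lit 0) (nat_lit 0) (XT.nd (nat_lit 78) (nat_lit 0) (nat_lit 0) (XT.lf (nat_lit 0) (nat_lit 259000230771) (nat_lit 76) (nat_lit 321595981752) (nat_lit 76) (nat_lit 320200681202) (nat_lit 1) (nat_lit 4) (nat_lit 2) (nat_lit 5) (nat_lit 2) (nat_lit 4) (nat_lit 389) (nat_lit 268) (nat_lit 243)) (XT.nd (nat_lit 78) (nat_lit 0) (nat_lit 0) (XT.lf (nat_lit 0) (nat_lit 283869890249) (nat_lit 76) (nat_lit 345149102741) (nat_lit 76) (nat_lit 343736129962) (nat_lit 1) (nat_lit 4) (nat_lit 2) (nat_lit 5) (nat_lit 2) (nat_lit 4) (nat_lit 390) (nat_lit 268) (nat_lit 242)) (XT.lf (nat_lit 0) (nat_lit 310661654327) (nat_lit 76) (nat_lit 370619703905) (nat_lit 76) (nat_lit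 369190367951) (nat_lit 1) (nat_lit 4) (nat_lit 2) (nat_lit 5) (nat_lit 2) (nat_lit 4) (nat_lit 391) (nat_lit 268) (nat_lit 241)))) (XT.nd (nat_lit 78) (nat_lit 0) (nat_lit 0) (XT.lf (nat_lit 0) (nat_lit 339534289014) (nat_lit 76) (nat_lit 398158722140) (nat_lit 76) (nat_lit 396714235097) (nat_lit 1) (nat_lit 4) (nat_lit 2) (nat_lit 5) (nat_lit 2) (nat_lit 4) (nat_lit 392) (nat_lit 268) (nat_lit 240)) (XT.nd (nat_lit 78) (nat_lit 0) (nat_lit 0) (XT.lf (nat_lit 0) (nat_lit 370658891405) (nat_lit 76) (nat_lit 427929351626) (nat_lit 76) (nat_lit 426470835798) (nat_lit 1) (nat_lit 4) (nat_lit 2) (nat_lit 5) (nat_lit 2) (nat_lit 4) (nat_lit 393) (nat_lit 268) (nat_lit 239)) (XT.lf (nat_lit 0) (nat_lit 404219903588) (nat_lit 76) (nat_lit 460108010911) (nat_lit 76) (nat_lit 458636505466) (nat_lit 1) (nat_lit 4) (nat_lit 2) (nat_lit 5) (nat_lit 2) (nat_lit 4) (nat_lit 394) (nat_lit 268) (nat_lit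 238))))))) (XT.nd (nat_lit 936) (nat_lit 0) (nat_lit 0) (XT.nd (nat_lit 468) (nat_lit 76) (nat_lit 0) (XT.nd (nat_lit 234) (nat_lit 0) (nat_lit 0) (XT.nd (nat_lit 78) (nat_lit 0) (nat_lit 0) (XT.lf (nat_lit 0) (nat_lit 16791068975) (nat_lit 152) (nat_lit 23820621145) (nat_lit 0) (nat_lit 16791068975) (nat_lit 2) (nat_lit 5) (nat_lit 4) (nat_lit 4) (nat_lit 2) (nat_lit 4) (nat_lit 362) (nat_lit 269) (nat_lit 269)) (XT.nd (nat_lit 78) (nat_lit 0) (nat_lit 0) (XT.lf (nat_lit 0) (nat_lit 41161479004) (nat_lit 152) (nat_lit 41545441173) (nat_lit 0) (nat_lit 41030768952) (nat_lit 2) (nat_lit 5) (nat_lit 4) (nat_lit 4) (nat_lit 2) (nat_lit 4) (nat_lit 363) (nat_lit 269) (nat_lit 268)) (XT.lf (nat_lit 0) (nat_lit 49101724570) (nat_lit 152) (nat_lit 35445022593) (nat_lit 0) (nat_lit 48849986692) (nat_lit 2) (nat_lit 5) (nat_lit 4) (nat_lit 4) (nat_lit 2) (nat_lit 4) (nat_lit 364) (nat_lit 269) (nat_lit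 267)))) (XT.nd (nat_lit 78) (nat_lit 0) (nat_lit 0) (XT.lf (nat_lit 0) (nat_lit 57449927953) (nat_lit 152) (nat_lit 29303835921) (nat_lit 0) (nat_lit 57086127274) (nat_lit 2) (nat_lit 5) (nat_lit 4) (nat_lit 4) (nat_lit 2) (nat_lit 4) (nat_lit 365) (nat_lit 269) (nat_lit 266)) (XT.nd (nat_lit 78) (nat_lit 0) (nat_lit 0) (XT.lf (nat_lit 0) (nat_lit 66255559990) (nat_lit 152) (nat_lit 23085488938) (nat_lit 0) (nat_lit 65787997457) (nat_lit 2) (nat_lit 5) (nat_lit 4) (nat_lit 4) (nat_lit 2) (nat_lit 4) (nat_lit 366) (nat_lit 269) (nat_lit 265)) (XT.lf (nat_lit 0) (nat_lit 75570802203) (nat_lit 152) (nat_lit 16753132182) (nat_lit 0) (nat_lit 75007163880) (nat_lit 2) (nat_lit 5) (nat_lit 4) (nat_lit 4) (nat_lit 2) (nat_lit 4) (nat_lit 367) (nat_lit 269) (nat_lit 264))))) (XT.nd (nat_lit 234) (nat_lit 0) (nat_lit 0) (XT.nd (nat_lit 78) (nat_lit 76) (nat_lit 0) (XT.lf (nat_lit 0) (nat_lit 85450856028)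 (nat_lit 152) (nat_lit 10269240576) (nat_lit 0) (nat_lit 84798258640) (nat_lit 2) (nat_lit 5) (nat_lit 4) (nat_lit 4) (nat_lit 2) (nat_lit 4) (nat_lit 368) (nat_lit 269) (nat_lit 263)) (XT.nd (nat_lit 78) (nat_lit 76) (nat_lit 0) (XT.lf (nat_lit 0) (nat_lit 95954269931) (nat_lit 152) (nat_lit 3595391058) (nat_lit 0) (nat_lit 95219303039) (nat_lit 2) (nat_lit 5) (nat_lit 4) (nat_lit 4) (nat_lit 2) (nat_lit 4) (nat_lit 369) (nat_lit 269) (nat_lit 262)) (XT.lf (nat_lit 0) (nat_lit 3417341375) (nat_lit 76) (nat_lit 103779299267) (nat_lit 76) (nat_lit 102968064314) (nat_lit 1) (nat_lit 4) (nat_lit 2) (nat_lit 5) (nat_lit 2) (nat_lit 4) (nat_lit 370) (nat_lit 269) (nat_lit 261)))) (XT.nd (nat_lit 78) (nat_lit 0) (nat_lit 0) (XT.lf (nat_lit 0) (nat_lit 10828310257) (nat_lit 76) (nat_lit 108424960628) (nat_lit 76) (nat_lit 107543107101) (nat_lit 1) (nat_lit 4) (nat_lit 2) (nat_lit 5) (nat_lit 2)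 (nat_lit 4) (nat_lit 371) (nat_lit 269) (nat_lit 260)) (XT.nd (nat_lit 78) (nat_lit 0) (nat_lit 0) (XT.lf (nat_lit 0) (nat_lit 18562552574) (nat_lit 76) (nat_lit 113575064605) (nat_lit 76) (nat_lit 112627823510) (nat_lit 1) (nat_lit 4) (nat_lit 2) (nat_lit 5) (nat_lit 2) (nat_lit 4) (nat_lit 372) (nat_lit 269) (nat_lit 259)) (XT.lf (nat_lit 0) (nat_lit 26665900873) (nat_lit 76) (nat_lit 119260130333) (nat_lit 76) (nat_lit 118252345193) (nat_lit 1) (nat_lit 4) (nat_lit 2) (nat_lit 5) (nat_lit 2) (nat_lit 4) (nat_lit 373) (nat_lit 269) (nat_lit 258)))))) (XT.nd (nat_lit 468) (nat_lit 0) (nat_lit 0) (XT.nd (nat_lit 234) (nat_lit 0) (nat_lit 0) (XT.nd (nat_lit 78) (nat_lit 0) (nat_lit 0) (XT.lf (nat_lit 0) (nat_lit 35186374995) (nat_lit 76) (nat_lit 125513847090) (nat_lit 76) (nat_lit 124450002649) (nat_lit 1) (nat_lit 4) (nat_lit 2) (nat_lit 5) (nat_lit 2) (nat_lit 4) (nat_lit 374) (nat_lit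 269) (nat_lit 257)) (XT.nd (nat_lit 78) (nat_lit 0) (nat_lit 0) (XT.lf (nat_lit 0) (nat_lit 44174466640) (nat_lit 76) (nat_lit 132373273938) (nat_lit 76) (nat_lit 131257522738) (nat_lit 1) (nat_lit 4) (nat_lit 2) (nat_lit 5) (nat_lit 2) (nat_lit 4) (nat_lit 375) (nat_lit 269) (nat_lit 256)) (XT.lf (nat_lit 0) (nat_lit 53683438573) (nat_lit 76) (nat_lit 139879059333) (nat_lit 76) (nat_lit 138715246318) (nat_lit 1) (nat_lit 4) (nat_lit 2) (nat_lit 5) (nat_lit 2) (nat_lit 4) (nat_lit 376) (nat_lit 269) (nat_lit 255)))) (XT.nd (nat_lit 78) (nat_lit 0) (nat_lit 0) (XT.lf (nat_lit 0) (nat_lit 63769640256) (nat_lit 76) (nat_lit 148075682004) (nat_lit 76) (nat_lit 146867367308) (nat_lit 1) (nat_lit 4) (nat_lit 2) (nat_lit 5) (nat_lit 2) (nat_lit 4) (nat_lit 377) (nat_lit 269) (nat_lit 254)) (XT.nd (nat_lit 78) (nat_lit 0) (nat_lit 0) (XT.lf (nat_lit 0) (nat_lit 74492841775) (nat_lit 76) (nat_lit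 157011714528) (nat_lit 76) (nat_lit 155762194573) (nat_lit 1) (nat_lit 4) (nat_lit 2) (nat_lit 5) (nat_lit 2) (nat_lit 4) (nat_lit 378) (nat_lit 269) (nat_lit 253)) (XT.lf (nat_lit 0) (nat_lit 85916588026) (nat_lit 76) (nat_lit 166740111173) (nat_lit 76) (nat_lit 165452438199) (nat_lit 1) (nat_lit 4) (nat_lit 2) (nat_lit 5) (nat_lit 2) (nat_lit 4) (nat_lit 379) (nat_lit 269) (nat_lit 252))))) (XT.nd (nat_lit 234) (nat_lit 0) (nat_lit 0) (XT.nd (nat_lit 78) (nat_lit 0) (nat_lit 0) (XT.lf (nat_lit 0) (nat_lit 98108575284) (nat_lit 76) (nat_lit 177318521696) (nat_lit 76) (nat_lit 175995521854) (nat_lit 1) (nat_lit 4) (nat_lit 2) (nat_lit 5) (nat_lit 2) (nat_lit 4) (nat_lit 380) (nat_lit 269) (nat_lit 251)) (XT.nd (nat_lit 78) (nat_lit 0) (nat_lit 0) (XT.lf (nat_lit 0) (nat_lit 111141052362) (nat_lit 76) (nat_lit 188809632976) (nat_lit 76) (nat_lit 187453923070) (nat_lit 1) (nat_lit 4) (nat_lit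 2) (nat_lit 5) (nat_lit 2) (nat_lit 4) (nat_lit 381) (nat_lit 269) (nat_lit 250)) (XT.lf (nat_lit 0) (nat_lit 125091248755) (nat_lit 76) (nat_lit 201281540485) (nat_lit 76) (nat_lit 199895543483) (nat_lit 1) (nat_lit 4) (nat_lit 2) (nat_lit 5) (nat_lit 2) (nat_lit 4) (nat_lit 382) (nat_lit 269) (nat_lit 249)))) (XT.nd (nat_lit 78) (nat_lit 0) (nat_lit 0) (XT.lf (nat_lit 0) (nat_lit 140041832292) (nat_lit 76) (nat_lit 214808151824) (nat_lit 76) (nat_lit 213394111215) (nat_lit 1) (nat_lit 4) (nat_lit 2) (nat_lit 5) (nat_lit 2) (nat_lit 4) (nat_lit 383) (nat_lit 269) (nat_lit 248)) (XT.nd (nat_lit 78) (nat_lit 0) (nat_lit 0) (XT.lf (nat_lit 0) (nat_lit 156081399024) (nat_lit 76) (nat_lit 229469624690) (nat_lit 76) (nat_lit 228029617778) (nat_lit 1) (nat_lit 4) (nat_lit 2) (nat_lit 5) (nat_lit 2) (nat_lit 4) (nat_lit 384) (nat_lit 269) (nat_lit 247)) (XT.lf (nat_lit 0) (nat_lit 173304998236)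 (nat_lit 76) (nat_lit 245352841885) (nat_lit 76) (nat_lit 243888792100) (nat_lit 1) (nat_lit 4) (nat_lit 2) (nat_lit 5) (nat_lit 2) (nat_lit 4) (nat_lit 385) (nat_lit 269) (nat_lit 246))))))))
noncomputable def xc6 : XT := (XT.nd (nat_lit 45942) (nat_lit 0) (nat_lit 0) (XT.nd (nat_lit 45006) (nat_lit 0) (nat_lit 0) (XT.nd (nat_lit 390) (nat_lit 0) (nat_lit 0) (XT.nd (nat_lit 156) (nat_lit 0) (nat_lit 0) (XT.nd (nat_lit 78) (nat_lit 0) (nat_lit 0) (XT.lf (nat_lit 0) (nat_lit 191814695700) (nat_lit 76) (nat_lit 262551926178) (nat_lit 76) (nat_lit 261065614473) (nat_lit 1) (nat_lit 4) (nat_lit 2) (nat_lit 5) (nat_lit 2) (nat_lit 4) (nat_lit 386) (nat_lit 269) (nat_lit 245)) (XT.lf (nat_lit 0) (nat_lit 211720178514) (nat_lit 76) (nat_lit 281168798068) (nat_lit 76) (nat_lit 279661873475) (nat_lit 1) (nat_lit 4) (nat_lit 2) (nat_lit 5) (nat_lit 2) (nat_lit 4) (nat_lit 387) (nat_lit 269) (nat_lit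 244))) (XT.nd (nat_lit 78) (nat_lit 0) (nat_lit 0) (XT.lf (nat_lit 0) (nat_lit 233139405092) (nat_lit 76) (nat_lit 301313779759) (nat_lit 76) (nat_lit 299787769158) (nat_lit 1) (nat_lit 4) (nat_lit 2) (nat_lit 5) (nat_lit 2) (nat_lit 4) (nat_lit 388) (nat_lit 269) (nat_lit 243)) (XT.nd (nat_lit 78) (nat_lit 0) (nat_lit 0) (XT.lf (nat_lit 0) (nat_lit 256199304186) (nat_lit 76) (nat_lit 323106248920) (nat_lit 76) (nat_lit 321562566089) (nat_lit 1) (nat_lit 4) (nat_lit 2) (nat_lit 5) (nat_lit 2) (nat_lit 4) (nat_lit 389) (nat_lit 269) (nat_lit 242)) (XT.lf (nat_lit 0) (nat_lit 281036527049) (nat_lit 76) (nat_lit 346675346109) (nat_lit 76) (nat_lit 345115300103) (nat_lit 1) (nat_lit 4) (nat_lit 2) (nat_lit 5) (nat_lit 2) (nat_lit 4) (nat_lit 390) (nat_lit 269) (nat_lit 241))))) (XT.nd (nat_lit 234) (nat_lit 0) (nat_lit 0) (XT.nd (nat_lit 78) (nat_lit 0) (nat_lit 0) (XT.lf (nat_lit 0) (nat_lit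 307798257225) (nat_lit 76) (nat_lit 372160740051) (nat_lit 76) (nat_lit 370585542956) (nat_lit 1) (nat_lit 4) (nat_lit 2) (nat_lit 5) (nat_lit 2) (nat_lit 4) (nat_lit 391) (nat_lit 269) (nat_lit 240)) (XT.nd (nat_lit 78) (nat_lit 0) (nat_lit 0) (XT.lf (nat_lit 0) (nat_lit 336643082743) (nat_lit 76) (nat_lit 399713455301) (nat_lit 76) (nat_lit 398124229421) (nat_lit 1) (nat_lit 4) (nat_lit 2) (nat_lit 5) (nat_lit 2) (nat_lit 4) (nat_lit 392) (nat_lit 269) (nat_lit 239)) (XT.lf (nat_lit 0) (nat_lit 367741935904) (nat_lit 76) (nat_lit 429496767211) (nat_lit 76) (nat_lit 427894551714) (nat_lit 1) (nat_lit 4) (nat_lit 2) (nat_lit 5) (nat_lit 2) (nat_lit 4) (nat_lit 393) (nat_lit 269) (nat_lit 238)))) (XT.nd (nat_lit 44226) (nat_lit 0) (nat_lit 76) (XT.lf (nat_lit 0) (nat_lit 401279106207) (nat_lit 76) (nat_lit 461687169478) (nat_lit 76) (nat_lit 460072926559) (nat_lit 1) (nat_lit 4) (nat_lit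 2) (nat_lit 5) (nat_lit 2) (nat_lit 4) (nat_lit 394) (nat_lit 269) (nat_lit 237)) (XT.nd (nat_lit 78) (nat_lit 0) (nat_lit 0) (XT.lf (nat_lit 0) (nat_lit 9803593533) (nat_lit 152) (nat_lit 29846397105) (nat_lit 0) (nat_lit 9803593533) (nat_lit 2) (nat_lit 5) (nat_lit 4) (nat_lit 4) (nat_lit 2) (nat_lit 4) (nat_lit 360) (nat_lit 270) (nat_lit 270)) (XT.lf (nat_lit 0) (nat_lit 26459953650) (nat_lit 152) (nat_lit 53768549208) (nat_lit 0) (nat_lit 26318786794) (nat_lit 2) (nat_lit 5) (nat_lit 4) (nat_lit 4) (nat_lit 2) (nat_lit 4) (nat_lit 361) (nat_lit 270) (nat_lit 269)))))) (XT.nd (nat_lit 468) (nat_lit 76) (nat_lit 0) (XT.nd (nat_lit 234) (nat_lit 0) (nat_lit 0) (XT.nd (nat_lit 78) (nat_lit 0) (nat_lit 0) (XT.lf (nat_lit 0) (nat_lit 33595863367) (nat_lit 152) (nat_lit 47892054960) (nat_lit 0) (nat_lit 33323986459) (nat_lit 2) (nat_lit 5) (nat_lit 4) (nat_lit 4) (nat_lit 2) (nat_lit 4) (nat_lit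 362) (nat_lit 270) (nat_lit 268)) (XT.nd (nat_lit 78) (nat_lit 0) (nat_lit 0) (XT.lf (nat_lit 0) (nat_lit 41057203087) (nat_lit 152) (nat_lit 42028487799) (nat_lit 0) (nat_lit 40664298354) (nat_lit 2) (nat_lit 5) (nat_lit 4) (nat_lit 4) (nat_lit 2) (nat_lit 4) (nat_lit 363) (nat_lit 270) (nat_lit 267)) (XT.lf (nat_lit 0) (nat_lit 48888188159) (nat_lit 152) (nat_lit 36143100658) (nat_lit 0) (nat_lit 48383220623) (nat_lit 2) (nat_lit 5) (nat_lit 4) (nat_lit 4) (nat_lit 2) (nat_lit 4) (nat_lit 364) (nat_lit 270) (nat_lit 266)))) (XT.nd (nat_lit 78) (nat_lit 0) (nat_lit 0) (XT.lf (nat_lit 0) (nat_lit 57135224419) (nat_lit 152) (nat_lit 30201017170) (nat_lit 0) (nat_lit 56526495030) (nat_lit 2) (nat_lit 5) (nat_lit 4) (nat_lit 4) (nat_lit 2) (nat_lit 4) (nat_lit 365) (nat_lit 270) (nat_lit 265)) (XT.nd (nat_lit 78) (nat_lit 0) (nat_lit 0) (XT.lf (nat_lit 0) (nat_lit 65847183193) (nat_lit 152)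 (nat_lit 24167024988) (nat_lit 0) (nat_lit 65142378013) (nat_lit 2) (nat_lit 5) (nat_lit 4) (nat_lit 4) (nat_lit 2) (nat_lit 4) (nat_lit 366) (nat_lit 270) (nat_lit 264)) (XT.lf (nat_lit 0) (nat_lit 75075690903) (nat_lit 152) (nat_lit 18005367122) (nat_lit 0) (nat_lit 74281926659) (nat_lit 2) (nat_lit 5) (nat_lit 4) (nat_lit 4) (nat_lit 2) (nat_lit 4) (nat_lit 367) (nat_lit 270) (nat_lit 263))))) (XT.nd (nat_lit 234) (nat_lit 0) (nat_lit 0) (XT.nd (nat_lit 78) (nat_lit 76) (nat_lit 0) (XT.lf (nat_lit 0) (nat_lit 84875435003) (nat_lit 152) (nat_lit 11679530042) (nat_lit 0) (nat_lit 83999301255) (nat_lit 2) (nat_lit 5) (nat_lit 4) (nat_lit 4) (nat_lit 2) (nat_lit 4) (nat_lit 368) (nat_lit 270) (nat_lit 262)) (XT.nd (nat_lit 78) (nat_lit 76) (nat_lit 0) (XT.lf (nat_lit 0) (nat_lit 95304488051) (nat_lit 152) (nat_lit 5152027309) (nat_lit 0) (nat_lit 94352086242) (nat_lit 2) (nat_lit 5) (nat_lit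 4) (nat_lit 4) (nat_lit 2) (nat_lit 4) (nat_lit 369) (nat_lit 270) (nat_lit 261)) (XT.lf (nat_lit 0) (nat_lit 1669248968) (nat_lit 76) (nat_lit 104781464527) (nat_lit 76) (nat_lit 103758444145) (nat_lit 1) (nat_lit 4) (nat_lit 2) (nat_lit 5) (nat_lit 2) (nat_lit 4) (nat_lit 370) (nat_lit 270) (nat_lit 260)))) (XT.nd (nat_lit 78) (nat_lit 0) (nat_lit 0) (XT.lf (nat_lit 0) (nat_lit 8950600506) (nat_lit 76) (nat_lit 109490967094) (nat_lit 76) (nat_lit 108402559143) (nat_lit 1) (nat_lit 4) (nat_lit 2) (nat_lit 5) (nat_lit 2) (nat_lit 4) (nat_lit 371) (nat_lit 270) (nat_lit 259)) (XT.nd (nat_lit 78) (nat_lit 0) (nat_lit 0) (XT.lf (nat_lit 0) (nat_lit 16564826764) (nat_lit 76) (nat_lit 114700183298) (nat_lit 76) (nat_lit 113551231302) (nat_lit 1) (nat_lit 4) (nat_lit 2) (nat_lit 5) (nat_lit 2) (nat_lit 4) (nat_lit 372) (nat_lit 270) (nat_lit 258)) (XT.lf (nat_lit 0) (nat_lit 24557049082) (nat_lit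 76) (nat_lit 120439982569) (nat_lit 76) (nat_lit 119234971273) (nat_lit 1) (nat_lit 4) (nat_lit 2) (nat_lit 5) (nat_lit 2) (nat_lit 4) (nat_lit 373) (nat_lit 270) (nat_lit 257))))))) (XT.nd (nat_lit 936) (nat_lit 0) (nat_lit 0) (XT.nd (nat_lit 468) (nat_lit 0) (nat_lit 0) (XT.nd (nat_lit 234) (nat_lit 0) (nat_lit 0) (XT.nd (nat_lit 78) (nat_lit 0) (nat_lit 0) (XT.lf (nat_lit 0) (nat_lit 32974628778) (nat_lit 76) (nat_lit 126744378534) (nat_lit 76) (nat_lit 125487460477) (nat_lit 1) (nat_lit 4) (nat_lit 2) (nat_lit 5) (nat_lit 2) (nat_lit 4) (nat_lit 374) (nat_lit 270) (nat_lit 256)) (XT.nd (nat_lit 78) (nat_lit 0) (nat_lit 0) (XT.lf (nat_lit 0) (nat_lit 41867447805) (nat_lit 76) (nat_lit 133650730574) (nat_lit 76) (nat_lit 132345750702) (nat_lit 1) (nat_lit 4) (nat_lit 2) (nat_lit 5) (nat_lit 2) (nat_lit 4) (nat_lit 375) (nat_lit 270) (nat_lit 255)) (XT.lf (nat_lit 0) (nat_lit 51288204351)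 (nat_lit 76) (nat_lit 141199965221) (nat_lit 76) (nat_lit 139850483669) (nat_lit 1) (nat_lit 4) (nat_lit 2) (nat_lit 5) (nat_lit 2) (nat_lit 4) (nat_lit 376) (nat_lit 270) (nat_lit 254)))) (XT.nd (nat_lit 78) (nat_lit 0) (nat_lit 0) (XT.lf (nat_lit 0) (nat_lit 61292725121) (nat_lit 76) (nat_lit 149436818680) (nat_lit 76) (nat_lit 148046131868) (nat_lit 1) (nat_lit 4) (nat_lit 2) (nat_lit 5) (nat_lit 2) (nat_lit 4) (nat_lit 377) (nat_lit 270) (nat_lit 253)) (XT.nd (nat_lit 78) (nat_lit 0) (nat_lit 0) (XT.lf (nat_lit 0) (nat_lit 71940296164) (nat_lit 76) (nat_lit 158410101934) (nat_lit 76) (nat_lit 156981262105) (nat_lit 1) (nat_lit 4) (nat_lit 2) (nat_lit 5) (nat_lit 2) (nat_lit 4) (nat_lit 378) (nat_lit 270) (nat_lit 252)) (XT.lf (nat_lit 0) (nat_lit 83294014198) (nat_lit 76) (nat_lit 168172989996) (nat_lit 76) (nat_lit 166708823298) (nat_lit 1) (nat_lit 4) (nat_lit 2) (nat_lit 5) (nat_lit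 2) (nat_lit 4) (nat_lit 379) (nat_lit 270) (nat_lit 251))))) (XT.nd (nat_lit 234) (nat_lit 0) (nat_lit 0) (XT.nd (nat_lit 78) (nat_lit 0) (nat_lit 0) (XT.lf (nat_lit 0) (nat_lit 95421160513) (nat_lit 76) (nat_lit 178783337016) (nat_lit 76) (nat_lit 177286460255) (nat_lit 1) (nat_lit 4) (nat_lit 2) (nat_lit 5) (nat_lit 2) (nat_lit 4) (nat_lit 380) (nat_lit 270) (nat_lit 250)) (XT.nd (nat_lit 78) (nat_lit 0) (nat_lit 0) (XT.lf (nat_lit 0) (nat_lit 108393599682) (nat_lit 76) (nat_lit 190304019126) (nat_lit 76) (nat_lit 188776855268) (nat_lit 1) (nat_lit 4) (nat_lit 2) (nat_lit 5) (nat_lit 2) (nat_lit 4) (nat_lit 381) (nat_lit 270) (nat_lit 249)) (XT.lf (nat_lit 0) (nat_lit 122288205418) (nat_lit 76) (nat_lit 202803307034) (nat_lit 76) (nat_lit 201248099569) (nat_lit 1) (nat_lit 4) (nat_lit 2) (nat_lit 5) (nat_lit 2) (nat_lit 4) (nat_lit 382) (nat_lit 270) (nat_lit 248)))) (XT.nd (nat_lit 78)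 (nat_lit 0) (nat_lit 0) (XT.lf (nat_lit 0) (nat_lit 137187316124) (nat_lit 76) (nat_lit 216355270594) (nat_lit 76) (nat_lit 214774096826) (nat_lit 1) (nat_lit 4) (nat_lit 2) (nat_lit 5) (nat_lit 2) (nat_lit 4) (nat_lit 383) (nat_lit 270) (nat_lit 247)) (XT.nd (nat_lit 78) (nat_lit 0) (nat_lit 0) (XT.lf (nat_lit 0) (nat_lit 153179222828) (nat_lit 76) (nat_lit 231040217739) (nat_lit 76) (nat_lit 229435001098) (nat_lit 1) (nat_lit 4) (nat_lit 2) (nat_lit 5) (nat_lit 2) (nat_lit 4) (nat_lit 384) (nat_lit 270) (nat_lit 246)) (XT.lf (nat_lit 0) (nat_lit 170358692384) (nat_lit 76) (nat_lit 246945170378) (nat_lit 76) (nat_lit 245317691817) (nat_lit 1) (nat_lit 4) (nat_lit 2) (nat_lit 5) (nat_lit 2) (nat_lit 4) (nat_lit 385) (nat_lit 270) (nat_lit 245)))))) (XT.nd (nat_lit 468) (nat_lit 0) (nat_lit 0) (XT.nd (nat_lit 234) (nat_lit 0) (nat_lit 0) (XT.nd (nat_lit 78) (nat_lit 0) (nat_lit 0) (XT.lf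 (nat_lit 0) (nat_lit 188827529056) (nat_lit 76) (nat_lit 264164380081) (nat_lit 76) (nat_lit 262516288631) (nat_lit 1) (nat_lit 4) (nat_lit 2) (nat_lit 5) (nat_lit 2) (nat_lit 4) (nat_lit 386) (nat_lit 270) (nat_lit 244)) (XT.nd (nat_lit 78) (nat_lit 0) (nat_lit 0) (XT.lf (nat_lit 0) (nat_lit 208695177802) (nat_lit 76) (nat_lit 282799886610) (nat_lit 76) (nat_lit 281132709153) (nat_lit 1) (nat_lit 4) (nat_lit 2) (nat_lit 5) (nat_lit 2) (nat_lit 4) (nat_lit 387) (nat_lit 270) (nat_lit 243)) (XT.lf (nat_lit 0) (nat_lit 230079372836) (nat_lit 76) (nat_lit 302962122597) (nat_lit 76) (nat_lit 301277272910) (nat_lit 1) (nat_lit 4) (nat_lit 2) (nat_lit 5) (nat_lit 2) (nat_lit 4) (nat_lit 388) (nat_lit 270) (nat_lit 242)))) (XT.nd (nat_lit 78) (nat_lit 0) (nat_lit 0) (XT.lf (nat_lit 0) (nat_lit 253106835316) (nat_lit 76) (nat_lit 324770567957) (nat_lit 76) (nat_lit 323069355095) (nat_lit 1) (nat_lit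 4) (nat_lit 2) (nat_lit 5) (nat_lit 2) (nat_lit 4) (nat_lit 389) (nat_lit 270) (nat_lit 241)) (XT.nd (nat_lit 78) (nat_lit 0) (nat_lit 0) (XT.lf (nat_lit 0) (nat_lit 277914024277) (nat_lit 76) (nat_lit 348354457924) (nat_lit 76) (nat_lit 346638093973) (nat_lit 1) (nat_lit 4) (nat_lit 2) (nat_lit 5) (nat_lit 2) (nat_lit 4) (nat_lit 390) (nat_lit 270) (nat_lit 240)) (XT.lf (nat_lit 0) (nat_lit 304647945284) (nat_lit 76) (nat_lit 373853548882) (nat_lit 76) (nat_lit 372123156145) (nat_lit 1) (nat_lit 4) (nat_lit 2) (nat_lit 5) (nat_lit 2) (nat_lit 4) (nat_lit 391) (nat_lit 270) (nat_lit 239))))) (XT.nd (nat_lit 44226) (nat_lit 0) (nat_lit 76) (XT.nd (nat_lit 78) (nat_lit 0) (nat_lit 0) (XT.lf (nat_lit 0) (nat_lit 333467021572) (nat_lit 76) (nat_lit 401418946555) (nat_lit 76) (nat_lit 399675564202) (nat_lit 1) (nat_lit 4) (nat_lit 2) (nat_lit 5) (nat_lit 2) (nat_lit 4) (nat_lit 392) (nat_lit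 270) (nat_lit 238)) (XT.nd (nat_lit 78) (nat_lit 0) (nat_lit 0) (XT.lf (nat_lit 0) (nat_lit 364542032852) (nat_lit 76) (nat_lit 431214001448) (nat_lit 76) (nat_lit 429458591672) (nat_lit 1) (nat_lit 4) (nat_lit 2) (nat_lit 5) (nat_lit 2) (nat_lit 4) (nat_lit 393) (nat_lit 270) (nat_lit 237)) (XT.lf (nat_lit 0) (nat_lit 398057127341) (nat_lit 76) (nat_lit 463415276848) (nat_lit 76) (nat_lit 461648730571) (nat_lit 1) (nat_lit 4) (nat_lit 2) (nat_lit 5) (nat_lit 2) (nat_lit 4) (nat_lit 394) (nat_lit 270) (nat_lit 236)))) (XT.nd (nat_lit 78) (nat_lit 0) (nat_lit 0) (XT.lf (nat_lit 0) (nat_lit 3445596241) (nat_lit 152) (nat_lit 35766453068) (nat_lit 0) (nat_lit 3445596241) (nat_lit 2) (nat_lit 5) (nat_lit 4) (nat_lit 4) (nat_lit 2) (nat_lit 4) (nat_lit 358) (nat_lit 271) (nat_lit 271)) (XT.nd (nat_lit 78) (nat_lit 0) (nat_lit 0) (XT.lf (nat_lit 0) (nat_lit 13149414830) (nat_lit 152) (nat_lit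 65699896605) (nat_lit 0) (nat_lit 12996954626) (nat_lit 2) (nat_lit 5) (nat_lit 4) (nat_lit 4) (nat_lit 2) (nat_lit 4) (nat_lit 359) (nat_lit 271) (nat_lit 270)) (XT.lf (nat_lit 0) (nat_lit 19622010515) (nat_lit 152) (nat_lit 59963671895) (nat_lit 0) (nat_lit 19328383455) (nat_lit 2) (nat_lit 5) (nat_lit 4) (nat_lit 4) (nat_lit 2) (nat_lit 4) (nat_lit 360) (nat_lit 271) (nat_lit 269))))))))
noncomputable def xc7 : XT := (XT.nd (nat_lit 1794) (nat_lit 0) (nat_lit 0) (XT.nd (nat_lit 858) (nat_lit 0) (nat_lit 0) (XT.nd (nat_lit 390) (nat_lit 76) (nat_lit 0) (XT.nd (nat_lit 156) (nat_lit 0) (nat_lit 0) (XT.nd (nat_lit 78) (nat_lit 0) (nat_lit 0) (XT.lf (nat_lit 0) (nat_lit 26347335660) (nat_lit 152) (nat_lit 54290239563) (nat_lit 0) (nat_lit 25922998547) (nat_lit 2) (nat_lit 5) (nat_lit 4) (nat_lit 4) (nat_lit 2) (nat_lit 4) (nat_lit 361) (nat_lit 271) (nat_lit 268)) (XT.lf (nat_lit 0) (nat_lit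 33365244043) (nat_lit 152) (nat_lit 48645979270) (nat_lit 0) (nat_lit 32819879105) (nat_lit 2) (nat_lit 5) (nat_lit 4) (nat_lit 4) (nat_lit 2) (nat_lit 4) (nat_lit 362) (nat_lit 271) (nat_lit 267))) (XT.nd (nat_lit 78) (nat_lit 0) (nat_lit 0) (XT.lf (nat_lit 0) (nat_lit 40717323270) (nat_lit 152) (nat_lit 42997443548) (nat_lit 0) (nat_lit 40059895530) (nat_lit 2) (nat_lit 5) (nat_lit 4) (nat_lit 4) (nat_lit 2) (nat_lit 4) (nat_lit 363) (nat_lit 271) (nat_lit 266)) (XT.nd (nat_lit 78) (nat_lit 0) (nat_lit 0) (XT.lf (nat_lit 0) (nat_lit 48447141218) (nat_lit 152) (nat_lit 37311159592) (nat_lit 0) (nat_lit 47685951624) (nat_lit 2) (nat_lit 5) (nat_lit 4) (nat_lit 4) (nat_lit 2) (nat_lit 4) (nat_lit 364) (nat_lit 271) (nat_lit 265)) (XT.lf (nat_lit 0) (nat_lit 56600504215) (nat_lit 152) (nat_lit 31553430905) (nat_lit 0) (nat_lit 55743238831) (nat_lit 2) (nat_lit 5) (nat_lit 4) (nat_lit 4) (nat_lit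 2) (nat_lit 4) (nat_lit 365) (nat_lit 271) (nat_lit 264))))) (XT.nd (nat_lit 234) (nat_lit 76) (nat_lit 0) (XT.nd (nat_lit 78) (nat_lit 0) (nat_lit 0) (XT.lf (nat_lit 0) (nat_lit 65225728486) (nat_lit 152) (nat_lit 25690137612) (nat_lit 0) (nat_lit 64279504038) (nat_lit 2) (nat_lit 5) (nat_lit 4) (nat_lit 4) (nat_lit 2) (nat_lit 4) (nat_lit 366) (nat_lit 271) (nat_lit 263)) (XT.nd (nat_lit 78) (nat_lit 0) (nat_lit 0) (XT.lf (nat_lit 0) (nat_lit 74373926472) (nat_lit 152) (nat_lit 19686534273) (nat_lit 0) (nat_lit 73345332519) (nat_lit 2) (nat_lit 5) (nat_lit 4) (nat_lit 4) (nat_lit 2) (nat_lit 4) (nat_lit 367) (nat_lit 271) (nat_lit 262)) (XT.lf (nat_lit 0) (nat_lit 84099309716) (nat_lit 152) (nat_lit 13507043978) (nat_lit 0) (nat_lit 82994447703) (nat_lit 2) (nat_lit 5) (nat_lit 4) (nat_lit 4) (nat_lit 2) (nat_lit 4) (nat_lit 368) (nat_lit 271) (nat_lit 261)))) (XT.nd (nat_lit 78) (nat_lit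 76) (nat_lit 0) (XT.lf (nat_lit 0) (nat_lit 94459510119) (nat_lit 152) (nat_lit 7115047526) (nat_lit 0) (nat_lit 93284029532) (nat_lit 2) (nat_lit 5) (nat_lit 4) (nat_lit 4) (nat_lit 2) (nat_lit 4) (nat_lit 369) (nat_lit 271) (nat_lit 260)) (XT.nd (nat_lit 78) (nat_lit 76) (nat_lit 0) (XT.lf (nat_lit 0) (nat_lit 105515921461) (nat_lit 152) (nat_lit 472666419) (nat_lit 0) (nat_lit 104275053306) (nat_lit 2) (nat_lit 5) (nat_lit 4) (nat_lit 4) (nat_lit 2) (nat_lit 4) (nat_lit 370) (nat_lit 271) (nat_lit 259)) (XT.lf (nat_lit 0) (nat_lit 6673040572) (nat_lit 76) (nat_lit 110765207509) (nat_lit 76) (nat_lit 109463795309) (nat_lit 1) (nat_lit 4) (nat_lit 2) (nat_lit 5) (nat_lit 2) (nat_lit 4) (nat_lit 371) (nat_lit 271) (nat_lit 258)))))) (XT.nd (nat_lit 468) (nat_lit 0) (nat_lit 0) (XT.nd (nat_lit 234) (nat_lit 0) (nat_lit 0) (XT.nd (nat_lit 78) (nat_lit 0) (nat_lit 0) (XT.lf (nat_lit 0) (nat_lit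 14176140848) (nat_lit 76) (nat_lit 116029157257) (nat_lit 76) (nat_lit 114671685756) (nat_lit 1) (nat_lit 4) (nat_lit 2) (nat_lit 5) (nat_lit 2) (nat_lit 4) (nat_lit 372) (nat_lit 271) (nat_lit 257)) (XT.nd (nat_lit 78) (nat_lit 0) (nat_lit 0) (XT.lf (nat_lit 0) (nat_lit 22065468740) (nat_lit 76) (nat_lit 121819635736) (nat_lit 76) (nat_lit 120410257475) (nat_lit 1) (nat_lit 4) (nat_lit 2) (nat_lit 5) (nat_lit 2) (nat_lit 4) (nat_lit 373) (nat_lit 271) (nat_lit 256)) (XT.lf (nat_lit 0) (nat_lit 30387775818) (nat_lit 76) (nat_lit 128170956892) (nat_lit 76) (nat_lit 126713516816) (nat_lit 1) (nat_lit 4) (nat_lit 2) (nat_lit 5) (nat_lit 2) (nat_lit 4) (nat_lit 374) (nat_lit 271) (nat_lit 255)))) (XT.nd (nat_lit 78) (nat_lit 0) (nat_lit 0) (XT.lf (nat_lit 0) (nat_lit 39192379460) (nat_lit 76) (nat_lit 135120758184) (nat_lit 76) (nat_lit 133618816427) (nat_lit 1) (nat_lit 4) (nat_lit 2) (nat_lit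 5) (nat_lit 2) (nat_lit 4) (nat_lit 375) (nat_lit 271) (nat_lit 254)) (XT.nd (nat_lit 78) (nat_lit 0) (nat_lit 0) (XT.lf (nat_lit 0) (nat_lit 48531455092) (nat_lit 76) (nat_lit 142710223619) (nat_lit 76) (nat_lit 141167076603) (nat_lit 1) (nat_lit 4) (nat_lit 2) (nat_lit 5) (nat_lit 2) (nat_lit 4) (nat_lit 376) (nat_lit 271) (nat_lit 253)) (XT.lf (nat_lit 0) (nat_lit 58460345387) (nat_lit 76) (nat_lit 150984327808) (nat_lit 76) (nat_lit 149403027774) (nat_lit 1) (nat_lit 4) (nat_lit 2) (nat_lit 5) (nat_lit 2) (nat_lit 4) (nat_lit 377) (nat_lit 271) (nat_lit 252))))) (XT.nd (nat_lit 234) (nat_lit 0) (nat_lit 0) (XT.nd (nat_lit 78) (nat_lit 0) (nat_lit 0) (XT.lf (nat_lit 0) (nat_lit 69037888212) (nat_lit 76) (nat_lit 159992102480) (nat_lit 76) (nat_lit 158375475577) (nat_lit 1) (nat_lit 4) (nat_lit 2) (nat_lit 5) (nat_lit 2) (nat_lit 4) (nat_lit 378) (nat_lit 271) (nat_lit 251)) (XT.nd (nat_lit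 78) (nat_lit 0) (nat_lit 0) (XT.lf (nat_lit 0) (nat_lit 80326765303) (nat_lit 76) (nat_lit 169786927038) (nat_lit 76) (nat_lit 168137590072) (nat_lit 1) (nat_lit 4) (nat_lit 2) (nat_lit 5) (nat_lit 2) (nat_lit 4) (nat_lit 379) (nat_lit 271) (nat_lit 250)) (XT.lf (nat_lit 0) (nat_lit 92393873709) (nat_lit 76) (nat_lit 180426844889) (nat_lit 76) (nat_lit 178747220827) (nat_lit 1) (nat_lit 4) (nat_lit 2) (nat_lit 5) (nat_lit 2) (nat_lit 4) (nat_lit 380) (nat_lit 271) (nat_lit 249)))) (XT.nd (nat_lit 78) (nat_lit 0) (nat_lit 0) (XT.lf (nat_lit 0) (nat_lit 105310722221) (nat_lit 76) (nat_lit 191974907398) (nat_lit 76) (nat_lit 190267239728) (nat_lit 1) (nat_lit 4) (nat_lit 2) (nat_lit 5) (nat_lit 2) (nat_lit 4) (nat_lit 381) (nat_lit 271) (nat_lit 248)) (XT.nd (nat_lit 78) (nat_lit 0) (nat_lit 0) (XT.lf (nat_lit 0) (nat_lit 119153855126) (nat_lit 76) (nat_lit 204499547527) (nat_lit 76) (nat_lit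 202765913554) (nat_lit 1) (nat_lit 4) (nat_lit 2) (nat_lit 5) (nat_lit 2) (nat_lit 4) (nat_lit 382) (nat_lit 271) (nat_lit 247)) (XT.lf (nat_lit 0) (nat_lit 134005305804) (nat_lit 76) (nat_lit 218074985366) (nat_lit 76) (nat_lit 216317308520) (nat_lit 1) (nat_lit 4) (nat_lit 2) (nat_lit 5) (nat_lit 2) (nat_lit 4) (nat_lit 383) (nat_lit 271) (nat_lit 246))))))) (XT.nd (nat_lit 44772) (nat_lit 0) (nat_lit 76) (XT.nd (nat_lit 468) (nat_lit 0) (nat_lit 0) (XT.nd (nat_lit 234) (nat_lit 0) (nat_lit 0) (XT.nd (nat_lit 78) (nat_lit 0) (nat_lit 0) (XT.lf (nat_lit 0) (nat_lit 149953082852) (nat_lit 76) (nat_lit 232781667954) (nat_lit 76) (nat_lit 231001729189) (nat_lit 1) (nat_lit 4) (nat_lit 2) (nat_lit 5) (nat_lit 2) (nat_lit 4) (nat_lit 384) (nat_lit 271) (nat_lit 245)) (XT.nd (nat_lit 78) (nat_lit 0) (nat_lit 0) (XT.lf (nat_lit 0) (nat_lit 167091691615) (nat_lit 76) (nat_lit 248706746003) (nat_lit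 76) (nat_lit 246906194349) (nat_lit 1) (nat_lit 4) (nat_lit 2) (nat_lit 5) (nat_lit 2) (nat_lit 4) (nat_lit 385) (nat_lit 271) (nat_lit 244)) (XT.lf (nat_lit 0) (nat_lit 185522694220) (nat_lit 76) (nat_lit 265944590346) (nat_lit 76) (nat_lit 264124952684) (nat_lit 1) (nat_lit 4) (nat_lit 2) (nat_lit 5) (nat_lit 2) (nat_lit 4) (nat_lit 386) (nat_lit 271) (nat_lit 243)))) (XT.nd (nat_lit 78) (nat_lit 0) (nat_lit 0) (XT.lf (nat_lit 0) (nat_lit 205355311422) (nat_lit 76) (nat_lit 284597351170) (nat_lit 76) (nat_lit 282760041279) (nat_lit 1) (nat_lit 4) (nat_lit 2) (nat_lit 5) (nat_lit 2) (nat_lit 4) (nat_lit 387) (nat_lit 271) (nat_lit 242)) (XT.nd (nat_lit 78) (nat_lit 0) (nat_lit 0) (XT.lf (nat_lit 0) (nat_lit 226707069842) (nat_lit 76) (nat_lit 304775563357) (nat_lit 76) (nat_lit 302921890290) (nat_lit 1) (nat_lit 4) (nat_lit 2) (nat_lit 5) (nat_lit 2) (nat_lit 4) (nat_lit 388) (nat_lit 271)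 (nat_lit 241)) (XT.lf (nat_lit 0) (nat_lit 249704498419) (nat_lit 76) (nat_lit 326598801495) (nat_lit 76) (nat_lit 324729977339) (nat_lit 1) (nat_lit 4) (nat_lit 2) (nat_lit 5) (nat_lit 2) (nat_lit 4) (nat_lit 389) (nat_lit 271) (nat_lit 240))))) (XT.nd (nat_lit 234) (nat_lit 0) (nat_lit 0) (XT.nd (nat_lit 78) (nat_lit 0) (nat_lit 0) (XT.lf (nat_lit 0) (nat_lit 274483878212) (nat_lit 76) (nat_lit 350196388478) (nat_lit 76) (nat_lit 348313535537) (nat_lit 1) (nat_lit 4) (nat_lit 2) (nat_lit 5) (nat_lit 2) (nat_lit 4) (nat_lit 390) (nat_lit 271) (nat_lit 239)) (XT.nd (nat_lit 78) (nat_lit 0) (nat_lit 0) (XT.lf (nat_lit 0) (nat_lit 301192049988) (nat_lit 76) (nat_lit 375708161858) (nat_lit 76) (nat_lit 373812319300) (nat_lit 1) (nat_lit 4) (nat_lit 2) (nat_lit 5) (nat_lit 2) (nat_lit 4) (nat_lit 391) (nat_lit 271) (nat_lit 238)) (XT.lf (nat_lit 0) (nat_lit 329987284396) (nat_lit 76) (nat_lit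 403285302514) (nat_lit 76) (nat_lit 401377432534) (nat_lit 1) (nat_lit 4) (nat_lit 2) (nat_lit 5) (nat_lit 2) (nat_lit 4) (nat_lit 392) (nat_lit 271) (nat_lit 237)))) (XT.nd (nat_lit 78) (nat_lit 0) (nat_lit 0) (XT.lf (nat_lit 0) (nat_lit 361040219862) (nat_lit 76) (nat_lit 433091230540) (nat_lit 76) (nat_lit 431172224058) (nat_lit 1) (nat_lit 4) (nat_lit 2) (nat_lit 5) (nat_lit 2) (nat_lit 4) (nat_lit 393) (nat_lit 271) (nat_lit 236)) (XT.nd (nat_lit 43914) (nat_lit 0) (nat_lit 228) (XT.lf (nat_lit 0) (nat_lit 394534873781) (nat_lit 76) (nat_lit 465302573657) (nat_lit 76) (nat_lit 463373255598) (nat_lit 1) (nat_lit 4) (nat_lit 2) (nat_lit 5) (nat_lit 2) (nat_lit 4) (nat_lit 394) (nat_lit 271) (nat_lit 235)) (XT.lf (nat_lit 0) (nat_lit 32117652162) (nat_lit 76) (nat_lit 2363370286) (nat_lit 76) (nat_lit 2363370286) (nat_lit 4) (nat_lit 4) (nat_lit 5) (nat_lit 5) (nat_lit 5) (nat_lit 4) (nat_lit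 356) (nat_lit 272) (nat_lit 272)))))) (XT.nd (nat_lit 468) (nat_lit 0) (nat_lit 0) (XT.nd (nat_lit 234) (nat_lit 0) (nat_lit 0) (XT.nd (nat_lit 78) (nat_lit 0) (nat_lit 0) (XT.lf (nat_lit 0) (nat_lit 974914732) (nat_lit 152) (nat_lit 77497266472) (nat_lit 0) (nat_lit 810257711) (nat_lit 2) (nat_lit 5) (nat_lit 4) (nat_lit 4) (nat_lit 2) (nat_lit 4) (nat_lit 357) (nat_lit 272) (nat_lit 271)) (XT.nd (nat_lit 78) (nat_lit 0) (nat_lit 0) (XT.lf (nat_lit 0) (nat_lit 6907201808) (nat_lit 152) (nat_lit 71825454036) (nat_lit 0) (nat_lit 6590084583) (nat_lit 2) (nat_lit 5) (nat_lit 4) (nat_lit 4) (nat_lit 2) (nat_lit 4) (nat_lit 358) (nat_lit 272) (nat_lit 270)) (XT.lf (nat_lit 0) (nat_lit 13027787401) (nat_lit 152) (nat_lit 66263322189) (nat_lit 0) (nat_lit 12569503319) (nat_lit 2) (nat_lit 5) (nat_lit 4) (nat_lit 4) (nat_lit 2) (nat_lit 4) (nat_lit 359) (nat_lit 272) (nat_lit 269)))) (XT.nd (nat_lit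 78) (nat_lit 0) (nat_lit 0) (XT.lf (nat_lit 0) (nat_lit 19372941646) (nat_lit 152) (nat_lit 60777910149) (nat_lit 0) (nat_lit 18783947512) (nat_lit 2) (nat_lit 5) (nat_lit 4) (nat_lit 4) (nat_lit 2) (nat_lit 4) (nat_lit 360) (nat_lit 272) (nat_lit 268)) (XT.nd (nat_lit 78) (nat_lit 0) (nat_lit 0) (XT.lf (nat_lit 0) (nat_lit 25980265457) (nat_lit 152) (nat_lit 55336711772) (nat_lit 0) (nat_lit 25270243498) (nat_lit 2) (nat_lit 5) (nat_lit 4) (nat_lit 4) (nat_lit 2) (nat_lit 4) (nat_lit 361) (nat_lit 272) (nat_lit 267)) (XT.lf (nat_lit 0) (nat_lit 32888913347) (nat_lit 152) (nat_lit 49907482919) (nat_lit 0) (nat_lit 32066828586) (nat_lit 2) (nat_lit 5) (nat_lit 4) (nat_lit 4) (nat_lit 2) (nat_lit 4) (nat_lit 362) (nat_lit 272) (nat_lit 266))))) (XT.nd (nat_lit 234) (nat_lit 0) (nat_lit 0) (XT.nd (nat_lit 78) (nat_lit 0) (nat_lit 0) (XT.lf (nat_lit 0) (nat_lit 40139825450) (nat_lit 152) (nat_lit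 44458050381) (nat_lit 0) (nat_lit 39213978836) (nat_lit 2) (nat_lit 5) (nat_lit 4) (nat_lit 4) (nat_lit 2) (nat_lit 4) (nat_lit 363) (nat_lit 272) (nat_lit 265)) (XT.nd (nat_lit 78) (nat_lit 0) (nat_lit 0) (XT.lf (nat_lit 0) (nat_lit 47775970135) (nat_lit 152) (nat_lit 38956121226) (nat_lit 0) (nat_lit 46754047730) (nat_lit 2) (nat_lit 5) (nat_lit 4) (nat_lit 4) (nat_lit 2) (nat_lit 4) (nat_lit 364) (nat_lit 272) (nat_lit 264)) (XT.lf (nat_lit 0) (nat_lit 55842598629) (nat_lit 152) (nat_lit 33369091428) (nat_lit 0) (nat_lit 54731717160) (nat_lit 2) (nat_lit 5) (nat_lit 4) (nat_lit 4) (nat_lit 2) (nat_lit 4) (nat_lit 365) (nat_lit 272) (nat_lit 263)))) (XT.nd (nat_lit 78) (nat_lit 0) (nat_lit 0) (XT.lf (nat_lit 0) (nat_lit 64387513176) (nat_lit 152) (nat_lit 27663852662) (nat_lit 0) (nat_lit 63194262202) (nat_lit 2) (nat_lit 5) (nat_lit 4) (nat_lit 4) (nat_lit 2) (nat_lit 4) (nat_lit 366)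 (nat_lit 272) (nat_lit 262)) (XT.nd (nat_lit 78) (nat_lit 0) (nat_lit 0) (XT.lf (nat_lit 0) (nat_lit 73461350306) (nat_lit 152) (nat_lit 21806596107) (nat_lit 0) (nat_lit 72191831272) (nat_lit 2) (nat_lit 5) (nat_lit 4) (nat_lit 4) (nat_lit 2) (nat_lit 4) (nat_lit 367) (nat_lit 272) (nat_lit 261)) (XT.lf (nat_lit 0) (nat_lit 83117880906) (nat_lit 152) (nat_lit 15762612095) (nat_lit 0) (nat_lit 81777743298) (nat_lit 2) (nat_lit 5) (nat_lit 4) (nat_lit 4) (nat_lit 2) (nat_lit 4) (nat_lit 368) (nat_lit 272) (nat_lit 260))))))))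
noncomputable def xc8 : XT := (XT.nd (nat_lit 1794) (nat_lit 0) (nat_lit 0) (XT.nd (nat_lit 858) (nat_lit 0) (nat_lit 0) (XT.nd (nat_lit 390) (nat_lit 0) (nat_lit 0) (XT.nd (nat_lit 156) (nat_lit 76) (nat_lit 0) (XT.nd (nat_lit 78) (nat_lit 0) (nat_lit 0) (XT.lf (nat_lit 0) (nat_lit 93414328860) (nat_lit 152) (nat_lit 9496084422) (nat_lit 0) (nat_lit 92008803684) (nat_lit 2) (nat_lit 5) (nat_lit 4) (nat_lit 4) (nat_lit 2) (nat_lit 4) (nat_lit 369) (nat_lit 272) (nat_lit 259)) (XT.lf (nat_lit 0) (nat_lit 104411710157) (nat_lit 152) (nat_lit 2969878111) (nat_lit 0) (nat_lit 102945640936) (nat_lit 2) (nat_lit 5) (nat_lit 4) (nat_lit 4) (nat_lit 2) (nat_lit 4) (nat_lit 370) (nat_lit 272) (nat_lit 258))) (XT.nd (nat_lit 78) (nat_lit 0) (nat_lit 0) (XT.lf (nat_lit 0) (nat_lit 3982133803) (nat_lit 76) (nat_lit 112255232929) (nat_lit 76) (nat_lit 110733104407) (nat_lit 1) (nat_lit 4) (nat_lit 2)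 (nat_lit 5) (nat_lit 2) (nat_lit 4) (nat_lit 371) (nat_lit 272) (nat_lit 257)) (XT.nd (nat_lit 78) (nat_lit 0) (nat_lit 0) (XT.lf (nat_lit 0) (nat_lit 11382339653) (nat_lit 76) (nat_lit 117569861884) (nat_lit 76) (nat_lit 115995826602) (nat_lit 1) (nat_lit 4) (nat_lit 2) (nat_lit 5) (nat_lit 2) (nat_lit 4) (nat_lit 372) (nat_lit 272) (nat_lit 256)) (XT.lf (nat_lit 0) (nat_lit 19176394927) (nat_lit 76) (nat_lit 123407265555) (nat_lit 76) (nat_lit 121785168458) (nat_lit 1) (nat_lit 4) (nat_lit 2) (nat_lit 5) (nat_lit 2) (nat_lit 4) (nat_lit 373) (nat_lit 272) (nat_lit 255))))) (XT.nd (nat_lit 234) (nat_lit 0) (nat_lit 0) (XT.nd (nat_lit 78) (nat_lit 0) (nat_lit 0) (XT.lf (nat_lit 0) (nat_lit 27410486619) (nat_lit 76) (nat_lit 129802035962) (nat_lit 76) (nat_lit 128135437185) (nat_lit 1) (nat_lit 4) (nat_lit 2) (nat_lit 5) (nat_lit 2) (nat_lit 4) (nat_lit 374) (nat_lit 272) (nat_lit 254)) (XT.nd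 (nat_lit 78) (nat_lit 0) (nat_lit 0) (XT.lf (nat_lit 0) (nat_lit 36133409347) (nat_lit 76) (nat_lit 136792068043) (nat_lit 76) (nat_lit 135084264006) (nat_lit 1) (nat_lit 4) (nat_lit 2) (nat_lit 5) (nat_lit 2) (nat_lit 4) (nat_lit 375) (nat_lit 272) (nat_lit 253)) (XT.lf (nat_lit 0) (nat_lit 45396854504) (nat_lit 76) (nat_lit 144418784208) (nat_lit 76) (nat_lit 142672827153) (nat_lit 1) (nat_lit 4) (nat_lit 2) (nat_lit 5) (nat_lit 2) (nat_lit 4) (nat_lit 376) (nat_lit 272) (nat_lit 252)))) (XT.nd (nat_lit 78) (nat_lit 0) (nat_lit 0) (XT.lf (nat_lit 0) (nat_lit 55255716581) (nat_lit 76) (nat_lit 152727379814) (nat_lit 76) (nat_lit 150946095891) (nat_lit 1) (nat_lit 4) (nat_lit 2) (nat_lit 5) (nat_lit 2) (nat_lit 4) (nat_lit 377) (nat_lit 272) (nat_lit 251)) (XT.nd (nat_lit 78) (nat_lit 0) (nat_lit 0) (XT.lf (nat_lit 0) (nat_lit 65768418464) (nat_lit 76) (nat_lit 161767090983) (nat_lit 76)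 (nat_lit 159953096995) (nat_lit 1) (nat_lit 4) (nat_lit 2) (nat_lit 5) (nat_lit 2) (nat_lit 4) (nat_lit 378) (nat_lit 272) (nat_lit 250)) (XT.lf (nat_lit 0) (nat_lit 76997257645) (nat_lit 76) (nat_lit 171591486372) (nat_lit 76) (nat_lit 169747205289) (nat_lit 1) (nat_lit 4) (nat_lit 2) (nat_lit 5) (nat_lit 2) (nat_lit 4) (nat_lit 379) (nat_lit 272) (nat_lit 249)))))) (XT.nd (nat_lit 468) (nat_lit 0) (nat_lit 0) (XT.nd (nat_lit 234) (nat_lit 0) (nat_lit 0) (XT.nd (nat_lit 78) (nat_lit 0) (nat_lit 0) (XT.lf (nat_lit 0) (nat_lit 89008775394) (nat_lit 76) (nat_lit 182258784622) (nat_lit 76) (nat_lit 180386459931) (nat_lit 1) (nat_lit 4) (nat_lit 2) (nat_lit 5) (nat_lit 2) (nat_lit 4) (nat_lit 380) (nat_lit 272) (nat_lit 248)) (XT.nd (nat_lit 78) (nat_lit 0) (nat_lit 0) (XT.lf (nat_lit 0) (nat_lit 101874151075) (nat_lit 76) (nat_lit 193832199351) (nat_lit 76) (nat_lit 191933908358) (nat_lit 1)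 (nat_lit 4) (nat_lit 2) (nat_lit 5) (nat_lit 2) (nat_lit 4) (nat_lit 381) (nat_lit 272) (nat_lit 247)) (XT.lf (nat_lit 0) (nat_lit 115669623951) (nat_lit 76) (nat_lit 206380313759) (nat_lit 76) (nat_lit 204457979892) (nat_lit 1) (nat_lit 4) (nat_lit 2) (nat_lit 5) (nat_lit 2) (nat_lit 4) (nat_lit 382) (nat_lit 272) (nat_lit 246)))) (XT.nd (nat_lit 78) (nat_lit 0) (nat_lit 0) (XT.lf (nat_lit 0) (nat_lit 130476944973) (nat_lit 76) (nat_lit 219977487041) (nat_lit 76) (nat_lit 218032891255) (nat_lit 1) (nat_lit 4) (nat_lit 2) (nat_lit 5) (nat_lit 2) (nat_lit 4) (nat_lit 383) (nat_lit 272) (nat_lit 245)) (XT.nd (nat_lit 78) (nat_lit 0) (nat_lit 0) (XT.lf (nat_lit 0) (nat_lit 146383861229) (nat_lit 76) (nat_lit 234704295040) (nat_lit 76) (nat_lit 232739086365) (nat_lit 1) (nat_lit 4) (nat_lit 2) (nat_lit 5) (nat_lit 2) (nat_lit 4) (nat_lit 384) (nat_lit 272) (nat_lit 244)) (XT.lf (nat_lit 0) (nat_lit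 163484635925) (nat_lit 76) (nat_lit 250648007728) (nat_lit 76) (nat_lit 248663713045) (nat_lit 1) (nat_lit 4) (nat_lit 2) (nat_lit 5) (nat_lit 2) (nat_lit 4) (nat_lit 385) (nat_lit 272) (nat_lit 243))))) (XT.nd (nat_lit 234) (nat_lit 0) (nat_lit 0) (XT.nd (nat_lit 78) (nat_lit 0) (nat_lit 0) (XT.lf (nat_lit 0) (nat_lit 181880606986) (nat_lit 76) (nat_lit 267903106366) (nat_lit 76) (nat_lit 265901139454) (nat_lit 1) (nat_lit 4) (nat_lit 2) (nat_lit 5) (nat_lit 2) (nat_lit 4) (nat_lit 386) (nat_lit 272) (nat_lit 242)) (XT.nd (nat_lit 78) (nat_lit 0) (nat_lit 0) (XT.lf (nat_lit 0) (nat_lit 201680787574) (nat_lit 76) (nat_lit 286571843391) (nat_lit 76) (nat_lit 284553513303) (nat_lit 1) (nat_lit 4) (nat_lit 2) (nat_lit 5) (nat_lit 2) (nat_lit 4) (nat_lit 387) (nat_lit 272) (nat_lit 241)) (XT.lf (nat_lit 0) (nat_lit 223002512092) (nat_lit 76) (nat_lit 306764848355) (nat_lit 76) (nat_lit 304731367178)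 (nat_lit 1) (nat_lit 4) (nat_lit 2) (nat_lit 5) (nat_lit 2) (nat_lit 4) (nat_lit 388) (nat_lit 272) (nat_lit 240)))) (XT.nd (nat_lit 78) (nat_lit 0) (nat_lit 0) (XT.lf (nat_lit 0) (nat_lit 245972131500) (nat_lit 76) (nat_lit 328601783509) (nat_lit 76) (nat_lit 326554273547) (nat_lit 1) (nat_lit 4) (nat_lit 2) (nat_lit 5) (nat_lit 2) (nat_lit 4) (nat_lit 389) (nat_lit 272) (nat_lit 239)) (XT.nd (nat_lit 78) (nat_lit 0) (nat_lit 0) (XT.lf (nat_lit 0) (nat_lit 270725762062) (nat_lit 76) (nat_lit 352212052914) (nat_lit 76) (nat_lit 350151553336) (nat_lit 1) (nat_lit 4) (nat_lit 2) (nat_lit 5) (nat_lit 2) (nat_lit 4) (nat_lit 390) (nat_lit 272) (nat_lit 238)) (XT.lf (nat_lit 0) (nat_lit 297410091958) (nat_lit 76) (nat_lit 377735569278) (nat_lit 76) (nat_lit 375663042277) (nat_lit 1) (nat_lit 4) (nat_lit 2) (nat_lit 5) (nat_lit 2) (nat_lit 4) (nat_lit 391) (nat_lit 272) (nat_lit 237))))))) (XT.nd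 (nat_lit 44538) (nat_lit 0) (nat_lit 0) (XT.nd (nat_lit 44070) (nat_lit 0) (nat_lit 76) (XT.nd (nat_lit 156) (nat_lit 0) (nat_lit 0) (XT.nd (nat_lit 78) (nat_lit 0) (nat_lit 0) (XT.lf (nat_lit 0) (nat_lit 326183250551) (nat_lit 76) (nat_lit 405323583068) (nat_lit 76) (nat_lit 403239919564) (nat_lit 1) (nat_lit 4) (nat_lit 2) (nat_lit 5) (nat_lit 2) (nat_lit 4) (nat_lit 392) (nat_lit 272) (nat_lit 236)) (XT.lf (nat_lit 0) (nat_lit 357215745448) (nat_lit 76) (nat_lit 435139578809) (nat_lit 76) (nat_lit 433045603730) (nat_lit 1) (nat_lit 4) (nat_lit 2) (nat_lit 5) (nat_lit 2) (nat_lit 4) (nat_lit 393) (nat_lit 272) (nat_lit 235))) (XT.nd (nat_lit 43758) (nat_lit 0) (nat_lit 228) (XT.lf (nat_lit 0) (nat_lit 390691472914) (nat_lit 76) (nat_lit 467360243885) (nat_lit 76) (nat_lit 465256721050) (nat_lit 1) (nat_lit 4) (nat_lit 2) (nat_lit 5) (nat_lit 2) (nat_lit 4) (nat_lit 394) (nat_lit 272) (nat_lit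 234)) (XT.nd (nat_lit 78) (nat_lit 0) (nat_lit 0) (XT.lf (nat_lit 0) (nat_lit 16437089205) (nat_lit 76) (nat_lit 7717558362) (nat_lit 76) (nat_lit 7717558362) (nat_lit 4) (nat_lit 4) (nat_lit 5) (nat_lit 5) (nat_lit 5) (nat_lit 4) (nat_lit 354) (nat_lit 273) (nat_lit 273)) (XT.lf (nat_lit 0) (nat_lit 48105013050) (nat_lit 76) (nat_lit 10301571546) (nat_lit 76) (nat_lit 10114850484) (nat_lit 4) (nat_lit 4) (nat_lit 5) (nat_lit 5) (nat_lit 5) (nat_lit 4) (nat_lit 355) (nat_lit 273) (nat_lit 272))))) (XT.nd (nat_lit 234) (nat_lit 0) (nat_lit 0) (XT.nd (nat_lit 78) (nat_lit 152) (nat_lit 0) (XT.lf (nat_lit 0) (nat_lit 63939924569) (nat_lit 76) (nat_lit 5058016152) (nat_lit 76) (nat_lit 4698405219) (nat_lit 4) (nat_lit 4) (nat_lit 5) (nat_lit 5) (nat_lit 5) (nat_lit 4) (nat_lit 356) (nat_lit 273) (nat_lit 271)) (XT.nd (nat_lit 78) (nat_lit 0) (nat_lit 0) (XT.lf (nat_lit 0) (nat_lit 843557108)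 (nat_lit 152) (nat_lit 78105766102) (nat_lit 0) (nat_lit 348610300) (nat_lit 2) (nat_lit 5) (nat_lit 4) (nat_lit 4) (nat_lit 2) (nat_lit 4) (nat_lit 357) (nat_lit 273) (nat_lit 270)) (XT.lf (nat_lit 0) (nat_lit 6638207429) (nat_lit 152) (nat_lit 72704831351) (nat_lit 0) (nat_lit 6002093765) (nat_lit 2) (nat_lit 5) (nat_lit 4) (nat_lit 4) (nat_lit 2) (nat_lit 4) (nat_lit 358) (nat_lit 273) (nat_lit 269)))) (XT.nd (nat_lit 78) (nat_lit 0) (nat_lit 0) (XT.lf (nat_lit 0) (nat_lit 12631351582) (nat_lit 152) (nat_lit 67393512175) (nat_lit 0) (nat_lit 11864527866) (nat_lit 2) (nat_lit 5) (nat_lit 4) (nat_lit 4) (nat_lit 2) (nat_lit 4) (nat_lit 359) (nat_lit 273) (nat_lit 268)) (XT.nd (nat_lit 78) (nat_lit 0) (nat_lit 0) (XT.lf (nat_lit 0) (nat_lit 18858504494) (nat_lit 152) (nat_lit 62140334090) (nat_lit 0) (nat_lit 17970652952) (nat_lit 2) (nat_lit 5) (nat_lit 4) (nat_lit 4) (nat_lit 2) (nat_lit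 4) (nat_lit 360) (nat_lit 273) (nat_lit 267)) (XT.lf (nat_lit 0) (nat_lit 25356567812) (nat_lit 152) (nat_lit 56914167152) (nat_lit 0) (nat_lit 24356653468) (nat_lit 2) (nat_lit 5) (nat_lit 4) (nat_lit 4) (nat_lit 2) (nat_lit 4) (nat_lit 361) (nat_lit 273) (nat_lit 266)))))) (XT.nd (nat_lit 468) (nat_lit 76) (nat_lit 0) (XT.nd (nat_lit 234) (nat_lit 0) (nat_lit 0) (XT.nd (nat_lit 78) (nat_lit 0) (nat_lit 0) (XT.lf (nat_lit 0) (nat_lit 32164048577) (nat_lit 152) (nat_lit 51684041483) (nat_lit 0) (nat_lit 31060372380) (nat_lit 2) (nat_lit 5) (nat_lit 4) (nat_lit 4) (nat_lit 2) (nat_lit 4) (nat_lit 362) (nat_lit 273) (nat_lit 265)) (XT.nd (nat_lit 78) (nat_lit 0) (nat_lit 0) (XT.lf (nat_lit 0) (nat_lit 39321287418) (nat_lit 152) (nat_lit 46418963746) (nat_lit 0) (nat_lit 38121535431) (nat_lit 2) (nat_lit 5) (nat_lit 4) (nat_lit 4) (nat_lit 2) (nat_lit 4) (nat_lit 363) (nat_lit 273) (nat_lit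 264)) (XT.lf (nat_lit 0) (nat_lit 46870697600) (nat_lit 152) (nat_lit 41087733480) (nat_lit 0) (nat_lit 45581986548) (nat_lit 2) (nat_lit 5) (nat_lit 4) (nat_lit 4) (nat_lit 2) (nat_lit 4) (nat_lit 364) (nat_lit 273) (nat_lit 263)))) (XT.nd (nat_lit 78) (nat_lit 0) (nat_lit 0) (XT.lf (nat_lit 0) (nat_lit 54857016370) (nat_lit 152) (nat_lit 35658758209) (nat_lit 0) (nat_lit 53485935813) (nat_lit 2) (nat_lit 5) (nat_lit 4) (nat_lit 4) (nat_lit 2) (nat_lit 4) (nat_lit 365) (nat_lit 273) (nat_lit 262)) (XT.nd (nat_lit 78) (nat_lit 0) (nat_lit 0) (XT.lf (nat_lit 0) (nat_lit 63327570061) (nat_lit 152) (nat_lit 30099866228) (nat_lit 0) (nat_lit 61880221444) (nat_lit 2) (nat_lit 5) (nat_lit 4) (nat_lit 4) (nat_lit 2) (nat_lit 4) (nat_lit 366) (nat_lit 273) (nat_lit 261)) (XT.lf (nat_lit 0) (nat_lit 72332554546) (nat_lit 152) (nat_lit 24378115955) (nat_lit 0) (nat_lit 70814587355) (nat_lit 2) (nat_lit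 5) (nat_lit 4) (nat_lit 4) (nat_lit 2) (nat_lit 4) (nat_lit 367) (nat_lit 273) (nat_lit 260))))) (XT.nd (nat_lit 234) (nat_lit 76) (nat_lit 0) (XT.nd (nat_lit 78) (nat_lit 0) (nat_lit 0) (XT.lf (nat_lit 0) (nat_lit 81925332697) (nat_lit 152) (nat_lit 18459600722) (nat_lit 0) (nat_lit 80341977938) (nat_lit 2) (nat_lit 5) (nat_lit 4) (nat_lit 4) (nat_lit 2) (nat_lit 4) (nat_lit 368) (nat_lit 273) (nat_lit 259)) (XT.nd (nat_lit 78) (nat_lit 0) (nat_lit 0) (XT.lf (nat_lit 0) (nat_lit 92162750606) (nat_lit 152) (nat_lit 12309247846) (nat_lit 0) (nat_lit 90518851802) (nat_lit 2) (nat_lit 5) (nat_lit 4) (nat_lit 4) (nat_lit 2) (nat_lit 4) (nat_lit 369) (nat_lit 273) (nat_lit 258)) (XT.lf (nat_lit 0) (nat_lit 103105474454) (nat_lit 152) (nat_lit 5890610790) (nat_lit 0) (nat_lit 101405516349) (nat_lit 2) (nat_lit 5) (nat_lit 4) (nat_lit 4) (nat_lit 2) (nat_lit 4) (nat_lit 370) (nat_lit 273) (nat_lit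 257)))) (XT.nd (nat_lit 78) (nat_lit 0) (nat_lit 0) (XT.lf (nat_lit 0) (nat_lit 861934084) (nat_lit 76) (nat_lit 113969873133) (nat_lit 76) (nat_lit 112218008269) (nat_lit 1) (nat_lit 4) (nat_lit 2) (nat_lit 5) (nat_lit 2) (nat_lit 4) (nat_lit 371) (nat_lit 273) (nat_lit 256)) (XT.nd (nat_lit 78) (nat_lit 0) (nat_lit 0) (XT.lf (nat_lit 0) (nat_lit 8166867317) (nat_lit 76) (nat_lit 119331427280) (nat_lit 76) (nat_lit 117531500601) (nat_lit 1) (nat_lit 4) (nat_lit 2) (nat_lit 5) (nat_lit 2) (nat_lit 4) (nat_lit 372) (nat_lit 273) (nat_lit 255)) (XT.lf (nat_lit 0) (nat_lit 15872707205) (nat_lit 76) (nat_lit 125212280202) (nat_lit 76) (nat_lit 123367851843) (nat_lit 1) (nat_lit 4) (nat_lit 2) (nat_lit 5) (nat_lit 2) (nat_lit 4) (nat_lit 373) (nat_lit 273) (nat_lit 254))))))))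
noncomputable def xc9 : XT := (XT.nd (nat_lit 45318) (nat_lit 0) (nat_lit 0) (XT.nd (nat_lit 858) (nat_lit 0) (nat_lit 0) (XT.nd (nat_lit 390) (nat_lit 0) (nat_lit 0) (XT.nd (nat_lit 156) (nat_lit 0) (nat_lit 0) (XT.nd (nat_lit 78) (nat_lit 0) (nat_lit 0) (XT.lf (nat_lit 0) (nat_lit 24025117983) (nat_lit 76) (nat_lit 131647281399) (nat_lit 76) (nat_lit 129761647779) (nat_lit 1) (nat_lit 4) (nat_lit 2) (nat_lit 5) (nat_lit 2) (nat_lit 4) (nat_lit 374) (nat_lit 273) (nat_lit 253)) (XT.lf (nat_lit 0) (nat_lit 32672410236) (nat_lit 76) (nat_lit 138674564209) (nat_lit 76) (nat_lit 136750777572) (nat_lit 1) (nat_lit 4) (nat_lit 2) (nat_lit 5) (nat_lit 2) (nat_lit 4) (nat_lit 375) (nat_lit 273) (nat_lit 252))) (XT.nd (nat_lit 78) (nat_lit 0) (nat_lit 0) (XT.lf (nat_lit 0) (nat_lit 41865827176) (nat_lit 76) (nat_lit 146335771792) (nat_lit 76) (nat_lit 144376658286) (nat_lit 1) (nat_lit 4) (nat_lit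 2) (nat_lit 5) (nat_lit 2) (nat_lit 4) (nat_lit 376) (nat_lit 273) (nat_lit 251)) (XT.nd (nat_lit 78) (nat_lit 0) (nat_lit 0) (XT.lf (nat_lit 0) (nat_lit 51659848310) (nat_lit 76) (nat_lit 154676303895) (nat_lit 76) (nat_lit 152684480325) (nat_lit 1) (nat_lit 4) (nat_lit 2) (nat_lit 5) (nat_lit 2) (nat_lit 4) (nat_lit 377) (nat_lit 273) (nat_lit 250)) (XT.lf (nat_lit 0) (nat_lit 62112512283) (nat_lit 76) (nat_lit 163745585894) (nat_lit 76) (nat_lit 161723475228) (nat_lit 1) (nat_lit 4) (nat_lit 2) (nat_lit 5) (nat_lit 2) (nat_lit 4) (nat_lit 378) (nat_lit 273) (nat_lit 249))))) (XT.nd (nat_lit 234) (nat_lit 0) (nat_lit 0) (XT.nd (nat_lit 78) (nat_lit 0) (nat_lit 0) (XT.lf (nat_lit 0) (nat_lit 73285760807) (nat_lit 76) (nat_lit 173597361682) (nat_lit 76) (nat_lit 171547207409) (nat_lit 1) (nat_lit 4) (nat_lit 2) (nat_lit 5) (nat_lit 2) (nat_lit 4) (nat_lit 379) (nat_lit 273) (nat_lit 248))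 (XT.nd (nat_lit 78) (nat_lit 0) (nat_lit 0) (XT.lf (nat_lit 0) (nat_lit 85245805725) (nat_lit 76) (nat_lit 184290012152) (nat_lit 76) (nat_lit 182213891576) (nat_lit 1) (nat_lit 4) (nat_lit 2) (nat_lit 5) (nat_lit 2) (nat_lit 4) (nat_lit 380) (nat_lit 273) (nat_lit 247)) (XT.lf (nat_lit 0) (nat_lit 98063521378) (nat_lit 76) (nat_lit 195886901161) (nat_lit 76) (nat_lit 193786737711) (nat_lit 1) (nat_lit 4) (nat_lit 2) (nat_lit 5) (nat_lit 2) (nat_lit 4) (nat_lit 381) (nat_lit 273) (nat_lit 246)))) (XT.nd (nat_lit 78) (nat_lit 0) (nat_lit 0) (XT.lf (nat_lit 0) (nat_lit 111814864598) (nat_lit 76) (nat_lit 208456751012) (nat_lit 76) (nat_lit 206334325643) (nat_lit 1) (nat_lit 4) (nat_lit 2) (nat_lit 5) (nat_lit 2) (nat_lit 4) (nat_lit 382) (nat_lit 273) (nat_lit 245)) (XT.nd (nat_lit 78) (nat_lit 0) (nat_lit 0) (XT.lf (nat_lit 0) (nat_lit 126581324828) (nat_lit 76) (nat_lit 222074049704) (nat_lit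 76) (nat_lit 219931011447) (nat_lit 1) (nat_lit 4) (nat_lit 2) (nat_lit 5) (nat_lit 2) (nat_lit 4) (nat_lit 383) (nat_lit 273) (nat_lit 244)) (XT.lf (nat_lit 0) (nat_lit 142450407016) (nat_lit 76) (nat_lit 236819492342) (nat_lit 76) (nat_lit 234657368077) (nat_lit 1) (nat_lit 4) (nat_lit 2) (nat_lit 5) (nat_lit 2) (nat_lit 4) (nat_lit 384) (nat_lit 273) (nat_lit 243)))))) (XT.nd (nat_lit 468) (nat_lit 0) (nat_lit 0) (XT.nd (nat_lit 234) (nat_lit 0) (nat_lit 0) (XT.nd (nat_lit 78) (nat_lit 0) (nat_lit 0) (XT.lf (nat_lit 0) (nat_lit 159516150169) (nat_lit 76) (nat_lit 252780459326) (nat_lit 76) (nat_lit 250600662831) (nat_lit 1) (nat_lit 4) (nat_lit 2) (nat_lit 5) (nat_lit 2) (nat_lit 4) (nat_lit 385) (nat_lit 273) (nat_lit 242)) (XT.nd (nat_lit 78) (nat_lit 0) (nat_lit 0) (XT.lf (nat_lit 0) (nat_lit 177879684615) (nat_lit 76) (nat_lit 270051534164) (nat_lit 76) (nat_lit 267855374493) (nat_lit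 1) (nat_lit 4) (nat_lit 2) (nat_lit 5) (nat_lit 2) (nat_lit 4) (nat_lit 386) (nat_lit 273) (nat_lit 241)) (XT.lf (nat_lit 0) (nat_lit 197649831301) (nat_lit 76) (nat_lit 288735063966) (nat_lit 76) (nat_lit 286523753207) (nat_lit 1) (nat_lit 4) (nat_lit 2) (nat_lit 5) (nat_lit 2) (nat_lit 4) (nat_lit 387) (nat_lit 273) (nat_lit 240)))) (XT.nd (nat_lit 78) (nat_lit 0) (nat_lit 0) (XT.lf (nat_lit 0) (nat_lit 218943746650) (nat_lit 76) (nat_lit 308941765946) (nat_lit 76) (nat_lit 306716426401) (nat_lit 1) (nat_lit 4) (nat_lit 2) (nat_lit 5) (nat_lit 2) (nat_lit 4) (nat_lit 388) (nat_lit 273) (nat_lit 239)) (XT.nd (nat_lit 78) (nat_lit 0) (nat_lit 0) (XT.lf (nat_lit 0) (nat_lit 241887616828) (nat_lit 76) (nat_lit 330791383523) (nat_lit 76) (nat_lit 328553054362) (nat_lit 1) (nat_lit 4) (nat_lit 2) (nat_lit 5) (nat_lit 2) (nat_lit 4) (nat_lit 389) (nat_lit 273) (nat_lit 238)) (XT.lf (nat_lit 0)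 (nat_lit 266617405510) (nat_lit 76) (nat_lit 354413395912) (nat_lit 76) (nat_lit 352163039328) (nat_lit 1) (nat_lit 4) (nat_lit 2) (nat_lit 5) (nat_lit 2) (nat_lit 4) (nat_lit 390) (nat_lit 273) (nat_lit 237))))) (XT.nd (nat_lit 234) (nat_lit 0) (nat_lit 0) (XT.nd (nat_lit 78) (nat_lit 0) (nat_lit 0) (XT.lf (nat_lit 0) (nat_lit 293279659591) (nat_lit 76) (nat_lit 379947785408) (nat_lit 76) (nat_lit 377686292323) (nat_lit 1) (nat_lit 4) (nat_lit 2) (nat_lit 5) (nat_lit 2) (nat_lit 4) (nat_lit 391) (nat_lit 273) (nat_lit 236)) (XT.nd (nat_lit 78) (nat_lit 0) (nat_lit 0) (XT.lf (nat_lit 0) (nat_lit 322032377615) (nat_lit 76) (nat_lit 407545866914) (nat_lit 76) (nat_lit 405274062252) (nat_lit 1) (nat_lit 4) (nat_lit 2) (nat_lit 5) (nat_lit 2) (nat_lit 4) (nat_lit 392) (nat_lit 273) (nat_lit 235)) (XT.lf (nat_lit 0) (nat_lit 353045946059) (nat_lit 76) (nat_lit 437371184614) (nat_lit 76) (nat_lit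 435089832197) (nat_lit 1) (nat_lit 4) (nat_lit 2) (nat_lit 5) (nat_lit 2) (nat_lit 4) (nat_lit 393) (nat_lit 273) (nat_lit 234)))) (XT.nd (nat_lit 43602) (nat_lit 0) (nat_lit 228) (XT.lf (nat_lit 0) (nat_lit 386504149032) (nat_lit 76) (nat_lit 469600481134) (nat_lit 76) (nat_lit 467310288202) (nat_lit 1) (nat_lit 4) (nat_lit 2) (nat_lit 5) (nat_lit 2) (nat_lit 4) (nat_lit 394) (nat_lit 273) (nat_lit 233)) (XT.nd (nat_lit 78) (nat_lit 0) (nat_lit 0) (XT.lf (nat_lit 0) (nat_lit 2105644194) (nat_lit 76) (nat_lit 12763219592) (nat_lit 76) (nat_lit 12763219592) (nat_lit 4) (nat_lit 4) (nat_lit 5) (nat_lit 5) (nat_lit 5) (nat_lit 4) (nat_lit 352) (nat_lit 274) (nat_lit 274)) (XT.lf (nat_lit 0) (nat_lit 18157163854) (nat_lit 76) (nat_lit 20690731442) (nat_lit 76) (nat_lit 20489072695) (nat_lit 4) (nat_lit 4) (nat_lit 5) (nat_lit 5) (nat_lit 5) (nat_lit 4) (nat_lit 353) (nat_lit 274) (nat_lit 273)))))))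 (XT.nd (nat_lit 936) (nat_lit 76) (nat_lit 0) (XT.nd (nat_lit 468) (nat_lit 0) (nat_lit 0) (XT.nd (nat_lit 234) (nat_lit 152) (nat_lit 0) (XT.nd (nat_lit 78) (nat_lit 0) (nat_lit 0) (XT.lf (nat_lit 0) (nat_lit 32555168275) (nat_lit 76) (nat_lit 15792894351) (nat_lit 76) (nat_lit 15404514542) (nat_lit 4) (nat_lit 4) (nat_lit 5) (nat_lit 5) (nat_lit 5) (nat_lit 4) (nat_lit 354) (nat_lit 274) (nat_lit 272)) (XT.nd (nat_lit 78) (nat_lit 0) (nat_lit 0) (XT.lf (nat_lit 0) (nat_lit 47490623159) (nat_lit 76) (nat_lit 10803903691) (nat_lit 76) (nat_lit 10242634011) (nat_lit 4) (nat_lit 4) (nat_lit 5) (nat_lit 5) (nat_lit 5) (nat_lit 4) (nat_lit 355) (nat_lit 274) (nat_lit 271)) (XT.lf (nat_lit 0) (nat_lit 63052034904) (nat_lit 76) (nat_lit 5694195075) (nat_lit 76) (nat_lit 4972842180) (nat_lit 4) (nat_lit 4) (nat_lit 5) (nat_lit 5) (nat_lit 5) (nat_lit 4) (nat_lit 356) (nat_lit 274) (nat_lit 270))))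 (XT.nd (nat_lit 78) (nat_lit 76) (nat_lit 0) (XT.lf (nat_lit 0) (nat_lit 422131765) (nat_lit 152) (nat_lit 4207975) (nat_lit 76) (nat_lit 78902338514) (nat_lit 3) (nat_lit 5) (nat_lit 5) (nat_lit 5) (nat_lit 4) (nat_lit 4) (nat_lit 357) (nat_lit 274) (nat_lit 269)) (XT.nd (nat_lit 78) (nat_lit 0) (nat_lit 0) (XT.lf (nat_lit 0) (nat_lit 6082615305) (nat_lit 152) (nat_lit 74176249207) (nat_lit 0) (nat_lit 5123735640) (nat_lit 2) (nat_lit 5) (nat_lit 4) (nat_lit 4) (nat_lit 2) (nat_lit 4) (nat_lit 358) (nat_lit 274) (nat_lit 268)) (XT.lf (nat_lit 0) (nat_lit 11957758125) (nat_lit 152) (nat_lit 69097163985) (nat_lit 0) (nat_lit 10877850634) (nat_lit 2) (nat_lit 5) (nat_lit 4) (nat_lit 4) (nat_lit 2) (nat_lit 4) (nat_lit 359) (nat_lit 274) (nat_lit 267))))) (XT.nd (nat_lit 234) (nat_lit 0) (nat_lit 0) (XT.nd (nat_lit 78) (nat_lit 0) (nat_lit 0) (XT.lf (nat_lit 0) (nat_lit 18075650543) (nat_lit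 152) (nat_lit 64059017339) (nat_lit 0) (nat_lit 16883680250) (nat_lit 2) (nat_lit 5) (nat_lit 4) (nat_lit 4) (nat_lit 2) (nat_lit 4) (nat_lit 360) (nat_lit 274) (nat_lit 266)) (XT.nd (nat_lit 78) (nat_lit 0) (nat_lit 0) (XT.lf (nat_lit 0) (nat_lit 24472546737) (nat_lit 152) (nat_lit 59031953586) (nat_lit 0) (nat_lit 23176814591) (nat_lit 2) (nat_lit 5) (nat_lit 4) (nat_lit 4) (nat_lit 2) (nat_lit 4) (nat_lit 361) (nat_lit 274) (nat_lit 265)) (XT.lf (nat_lit 0) (nat_lit 31186354240) (nat_lit 152) (nat_lit 53986182718) (nat_lit 0) (nat_lit 29794546303) (nat_lit 2) (nat_lit 5) (nat_lit 4) (nat_lit 4) (nat_lit 2) (nat_lit 4) (nat_lit 362) (nat_lit 274) (nat_lit 264)))) (XT.nd (nat_lit 78) (nat_lit 0) (nat_lit 0) (XT.lf (nat_lit 0) (nat_lit 38256858578) (nat_lit 152) (nat_lit 48891803870) (nat_lit 0) (nat_lit 36776091576) (nat_lit 2) (nat_lit 5) (nat_lit 4) (nat_lit 4) (nat_lit 2) (nat_lit 4)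 (nat_lit 363) (nat_lit 274) (nat_lit 263)) (XT.nd (nat_lit 78) (nat_lit 0) (nat_lit 0) (XT.lf (nat_lit 0) (nat_lit 45725959035) (nat_lit 152) (nat_lit 43718628131) (nat_lit 0) (nat_lit 44162822530) (nat_lit 2) (nat_lit 5) (nat_lit 4) (nat_lit 4) (nat_lit 2) (nat_lit 4) (nat_lit 364) (nat_lit 274) (nat_lit 262)) (XT.lf (nat_lit 0) (nat_lit 53637916949) (nat_lit 152) (nat_lit 38435999645) (nat_lit 0) (nat_lit 51998512383) (nat_lit 2) (nat_lit 5) (nat_lit 4) (nat_lit 4) (nat_lit 2) (nat_lit 4) (nat_lit 365) (nat_lit 274) (nat_lit 261)))))) (XT.nd (nat_lit 468) (nat_lit 76) (nat_lit 0) (XT.nd (nat_lit 234) (nat_lit 0) (nat_lit 0) (XT.nd (nat_lit 78) (nat_lit 0) (nat_lit 0) (XT.lf (nat_lit 0) (nat_lit 62039617995) (nat_lit 152) (nat_lit 33012613946) (nat_lit 0) (nat_lit 60329594856) (nat_lit 2) (nat_lit 5) (nat_lit 4) (nat_lit 4) (nat_lit 2) (nat_lit 4) (nat_lit 366) (nat_lit 274) (nat_lit 260))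 (XT.nd (nat_lit 78) (nat_lit 0) (nat_lit 0) (XT.lf (nat_lit 0) (nat_lit 70980850032) (nat_lit 152) (nat_lit 27416332453) (nat_lit 0) (nat_lit 69205439324) (nat_lit 2) (nat_lit 5) (nat_lit 4) (nat_lit 4) (nat_lit 2) (nat_lit 4) (nat_lit 367) (nat_lit 274) (nat_lit 259)) (XT.lf (nat_lit 0) (nat_lit 80514598138) (nat_lit 152) (nat_lit 21613992015) (nat_lit 0) (nat_lit 78678643385) (nat_lit 2) (nat_lit 5) (nat_lit 4) (nat_lit 4) (nat_lit 2) (nat_lit 4) (nat_lit 368) (nat_lit 274) (nat_lit 258)))) (XT.nd (nat_lit 78) (nat_lit 0) (nat_lit 0) (XT.lf (nat_lit 0) (nat_lit 90697358598) (nat_lit 152) (nat_lit 15571208394) (nat_lit 0) (nat_lit 88805344544) (nat_lit 2) (nat_lit 5) (nat_lit 4) (nat_lit 4) (nat_lit 2) (nat_lit 4) (nat_lit 369) (nat_lit 274) (nat_lit 257)) (XT.nd (nat_lit 78) (nat_lit 0) (nat_lit 0) (XT.lf (nat_lit 0) (nat_lit 101589473697) (nat_lit 152) (nat_lit 9252172501) (nat_lit 0)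 (nat_lit 99645552883) (nat_lit 2) (nat_lit 5) (nat_lit 4) (nat_lit 4) (nat_lit 2) (nat_lit 4) (nat_lit 370) (nat_lit 274) (nat_lit 256)) (XT.lf (nat_lit 0) (nat_lit 113255489301) (nat_lit 152) (nat_lit 2619438198) (nat_lit 0) (nat_lit 111263506672) (nat_lit 2) (nat_lit 5) (nat_lit 4) (nat_lit 4) (nat_lit 2) (nat_lit 4) (nat_lit 371) (nat_lit 274) (nat_lit 255))))) (XT.nd (nat_lit 234) (nat_lit 0) (nat_lit 0) (XT.nd (nat_lit 78) (nat_lit 0) (nat_lit 0) (XT.lf (nat_lit 0) (nat_lit 4510669191) (nat_lit 76) (nat_lit 121324292351) (nat_lit 76) (nat_lit 119287808042) (nat_lit 1) (nat_lit 4) (nat_lit 2) (nat_lit 5) (nat_lit 2) (nat_lit 4) (nat_lit 372) (nat_lit 274) (nat_lit 254)) (XT.nd (nat_lit 78) (nat_lit 0) (nat_lit 0) (XT.lf (nat_lit 0) (nat_lit 12134828165) (nat_lit 76) (nat_lit 127245376062) (nat_lit 76) (nat_lit 125167686494) (nat_lit 1) (nat_lit 4) (nat_lit 2) (nat_lit 5) (nat_lit 2)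 (nat_lit 4) (nat_lit 373) (nat_lit 274) (nat_lit 253)) (XT.lf (nat_lit 0) (nat_lit 20211608469) (nat_lit 76) (nat_lit 133717627988) (nat_lit 76) (nat_lit 131601785402) (nat_lit 1) (nat_lit 4) (nat_lit 2) (nat_lit 5) (nat_lit 2) (nat_lit 4) (nat_lit 374) (nat_lit 274) (nat_lit 252)))) (XT.nd (nat_lit 78) (nat_lit 0) (nat_lit 0) (XT.lf (nat_lit 0) (nat_lit 28788872503) (nat_lit 76) (nat_lit 140779402216) (nat_lit 76) (nat_lit 138628232761) (nat_lit 1) (nat_lit 4) (nat_lit 2) (nat_lit 5) (nat_lit 2) (nat_lit 4) (nat_lit 375) (nat_lit 274) (nat_lit 251)) (XT.nd (nat_lit 78) (nat_lit 0) (nat_lit 0) (XT.lf (nat_lit 0) (nat_lit 37917448501) (nat_lit 76) (nat_lit 148472546296) (nat_lit 76) (nat_lit 146288666777) (nat_lit 1) (nat_lit 4) (nat_lit 2) (nat_lit 5) (nat_lit 2) (nat_lit 4) (nat_lit 376) (nat_lit 274) (nat_lit 250)) (XT.lf (nat_lit 0) (nat_lit 47651431725) (nat_lit 76) (nat_lit 156842649229)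 (nat_lit 76) (nat_lit 154628482614) (nat_lit 1) (nat_lit 4) (nat_lit 2) (nat_lit 5) (nat_lit 2) (nat_lit 4) (nat_lit 377) (nat_lit 274) (nat_lit 249))))))))
noncomputable def xc10 : XT := (XT.nd (nat_lit 45162) (nat_lit 0) (nat_lit 0) (XT.nd (nat_lit 858) (nat_lit 0) (nat_lit 0) (XT.nd (nat_lit 390) (nat_lit 0) (nat_lit 0) (XT.nd (nat_lit 156) (nat_lit 0) (nat_lit 0) (XT.nd (nat_lit 78) (nat_lit 0) (nat_lit 0) (XT.lf (nat_lit 0) (nat_lit 58048505041) (nat_lit 76) (nat_lit 165939311627) (nat_lit 76) (nat_lit 163697101404) (nat_lit 1) (nat_lit 4) (nat_lit 2) (nat_lit 5) (nat_lit 2) (nat_lit 4) (nat_lit 378) (nat_lit 274) (nat_lit 248)) (XT.lf (nat_lit 0) (nat_lit 69170280735) (nat_lit 76) (nat_lit 175816439636) (nat_lit 76) (nat_lit 173548263111) (nat_lit 1) (nat_lit 4) (nat_lit 2) (nat_lit 5) (nat_lit 2) (nat_lit 4) (nat_lit 379) (nat_lit 274) (nat_lit 247))) (XT.nd (nat_lit 78) (nat_lit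 0) (nat_lit 0) (XT.lf (nat_lit 0) (nat_lit 81082665624) (nat_lit 76) (nat_lit 186532564385) (nat_lit 76) (nat_lit 184240344987) (nat_lit 1) (nat_lit 4) (nat_lit 2) (nat_lit 5) (nat_lit 2) (nat_lit 4) (nat_lit 380) (nat_lit 274) (nat_lit 246)) (XT.nd (nat_lit 78) (nat_lit 0) (nat_lit 0) (XT.lf (nat_lit 0) (nat_lit 93856251621) (nat_lit 76) (nat_lit 198151188837) (nat_lit 76) (nat_lit 195836707519) (nat_lit 1) (nat_lit 4) (nat_lit 2) (nat_lit 5) (nat_lit 2) (nat_lit 4) (nat_lit 381) (nat_lit 274) (nat_lit 245)) (XT.lf (nat_lit 0) (nat_lit 107566734049) (nat_lit 76) (nat_lit 210741164098) (nat_lit 76) (nat_lit 208406069892) (nat_lit 1) (nat_lit 4) (nat_lit 2) (nat_lit 5) (nat_lit 2) (nat_lit 4) (nat_lit 382) (nat_lit 274) (nat_lit 244))))) (XT.nd (nat_lit 234) (nat_lit 0) (nat_lit 0) (XT.nd (nat_lit 78) (nat_lit 0) (nat_lit 0) (XT.lf (nat_lit 0) (nat_lit 122295360211) (nat_lit 76) (nat_lit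 224377097430) (nat_lit 76) (nat_lit 222022917216) (nat_lit 1) (nat_lit 4) (nat_lit 2) (nat_lit 5) (nat_lit 2) (nat_lit 4) (nat_lit 383) (nat_lit 274) (nat_lit 243)) (XT.nd (nat_lit 78) (nat_lit 0) (nat_lit 0) (XT.lf (nat_lit 0) (nat_lit 138129410856) (nat_lit 76) (nat_lit 239139794364) (nat_lit 76) (nat_lit 236767941920) (nat_lit 1) (nat_lit 4) (nat_lit 2) (nat_lit 5) (nat_lit 2) (nat_lit 4) (nat_lit 384) (nat_lit 274) (nat_lit 242)) (XT.lf (nat_lit 0) (nat_lit 155162717394) (nat_lit 76) (nat_lit 255116737547) (nat_lit 76) (nat_lit 252728521928) (nat_lit 1) (nat_lit 4) (nat_lit 2) (nat_lit 5) (nat_lit 2) (nat_lit 4) (nat_lit 385) (nat_lit 274) (nat_lit 241)))) (XT.nd (nat_lit 78) (nat_lit 0) (nat_lit 0) (XT.lf (nat_lit 0) (nat_lit 173496217938) (nat_lit 76) (nat_lit 272402605163) (nat_lit 76) (nat_lit 269999238455) (nat_lit 1) (nat_lit 4) (nat_lit 2) (nat_lit 5) (nat_lit 2) (nat_lit 4) (nat_lit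 386) (nat_lit 274) (nat_lit 240)) (XT.nd (nat_lit 78) (nat_lit 0) (nat_lit 0) (XT.lf (nat_lit 0) (nat_lit 193238555455) (nat_lit 76) (nat_lit 291099831981) (nat_lit 76) (nat_lit 288682436487) (nat_lit 1) (nat_lit 4) (nat_lit 2) (nat_lit 5) (nat_lit 2) (nat_lit 4) (nat_lit 387) (nat_lit 274) (nat_lit 239)) (XT.lf (nat_lit 0) (nat_lit 214506721574) (nat_lit 76) (nat_lit 311319216383) (nat_lit 76) (nat_lit 308888831273) (nat_lit 1) (nat_lit 4) (nat_lit 2) (nat_lit 5) (nat_lit 2) (nat_lit 4) (nat_lit 388) (nat_lit 274) (nat_lit 238)))))) (XT.nd (nat_lit 43836) (nat_lit 0) (nat_lit 228) (XT.nd (nat_lit 234) (nat_lit 0) (nat_lit 0) (XT.nd (nat_lit 78) (nat_lit 0) (nat_lit 0) (XT.lf (nat_lit 0) (nat_lit 237426749872) (nat_lit 76) (nat_lit 333180576943) (nat_lit 76) (nat_lit 330738164411) (nat_lit 1) (nat_lit 4) (nat_lit 2) (nat_lit 5) (nat_lit 2) (nat_lit 4) (nat_lit 389) (nat_lit 274) (nat_lit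 237)) (XT.nd (nat_lit 78) (nat_lit 0) (nat_lit 0) (XT.lf (nat_lit 0) (nat_lit 262134462739) (nat_lit 76) (nat_lit 356813462465) (nat_lit 76) (nat_lit 354359913431) (nat_lit 1) (nat_lit 4) (nat_lit 2) (nat_lit 5) (nat_lit 2) (nat_lit 4) (nat_lit 390) (nat_lit 274) (nat_lit 236)) (XT.lf (nat_lit 0) (nat_lit 288776276251) (nat_lit 76) (nat_lit 382357919678) (nat_lit 76) (nat_lit 379894059067) (nat_lit 1) (nat_lit 4) (nat_lit 2) (nat_lit 5) (nat_lit 2) (nat_lit 4) (nat_lit 391) (nat_lit 274) (nat_lit 235)))) (XT.nd (nat_lit 78) (nat_lit 0) (nat_lit 0) (XT.lf (nat_lit 0) (nat_lit 317510067822) (nat_lit 76) (nat_lit 409965323143) (nat_lit 76) (nat_lit 407491914776) (nat_lit 1) (nat_lit 4) (nat_lit 2) (nat_lit 5) (nat_lit 2) (nat_lit 4) (nat_lit 392) (nat_lit 274) (nat_lit 234)) (XT.nd (nat_lit 78) (nat_lit 0) (nat_lit 0) (XT.lf (nat_lit 0) (nat_lit 348506111772) (nat_lit 76) (nat_lit 439799272287)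 (nat_lit 76) (nat_lit 437317023405) (nat_lit 1) (nat_lit 4) (nat_lit 2) (nat_lit 5) (nat_lit 2) (nat_lit 4) (nat_lit 393) (nat_lit 274) (nat_lit 233)) (XT.lf (nat_lit 0) (nat_lit 381948088362) (nat_lit 76) (nat_lit 472036560883) (nat_lit 76) (nat_lit 469546126340) (nat_lit 1) (nat_lit 4) (nat_lit 2) (nat_lit 5) (nat_lit 2) (nat_lit 4) (nat_lit 394) (nat_lit 274) (nat_lit 232))))) (XT.nd (nat_lit 234) (nat_lit 0) (nat_lit 0) (XT.nd (nat_lit 78) (nat_lit 76) (nat_lit 0) (XT.lf (nat_lit 0) (nat_lit 6614542055) (nat_lit 152) (nat_lit 10783625445) (nat_lit 0) (nat_lit 6614542055) (nat_lit 5) (nat_lit 5) (nat_lit 7) (nat_lit 4) (nat_lit 5) (nat_lit 4) (nat_lit 350) (nat_lit 275) (nat_lit 275)) (XT.nd (nat_lit 78) (nat_lit 76) (nat_lit 0) (XT.lf (nat_lit 0) (nat_lit 21327580185) (nat_lit 152) (nat_lit 9065358650) (nat_lit 0) (nat_lit 21109788738) (nat_lit 5) (nat_lit 5) (nat_lit 7) (nat_lit 4)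 (nat_lit 5) (nat_lit 4) (nat_lit 351) (nat_lit 275) (nat_lit 274)) (XT.lf (nat_lit 0) (nat_lit 3866757441) (nat_lit 76) (nat_lit 25912839021) (nat_lit 76) (nat_lit 25493388829) (nat_lit 4) (nat_lit 4) (nat_lit 5) (nat_lit 5) (nat_lit 5) (nat_lit 4) (nat_lit 352) (nat_lit 275) (nat_lit 273)))) (XT.nd (nat_lit 78) (nat_lit 0) (nat_lit 0) (XT.lf (nat_lit 0) (nat_lit 17493622772) (nat_lit 76) (nat_lit 21233250159) (nat_lit 76) (nat_lit 20627078904) (nat_lit 4) (nat_lit 4) (nat_lit 5) (nat_lit 5) (nat_lit 5) (nat_lit 4) (nat_lit 353) (nat_lit 275) (nat_lit 272)) (XT.nd (nat_lit 78) (nat_lit 0) (nat_lit 0) (XT.lf (nat_lit 0) (nat_lit 31596247437) (nat_lit 76) (nat_lit 16479967587) (nat_lit 76) (nat_lit 15700906460) (nat_lit 4) (nat_lit 4) (nat_lit 5) (nat_lit 5) (nat_lit 5) (nat_lit 4) (nat_lit 354) (nat_lit 275) (nat_lit 271)) (XT.lf (nat_lit 0) (nat_lit 46258202548) (nat_lit 76) (nat_lit 11624823704)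 (nat_lit 76) (nat_lit 10685679363) (nat_lit 4) (nat_lit 4) (nat_lit 5) (nat_lit 5) (nat_lit 5) (nat_lit 4) (nat_lit 355) (nat_lit 275) (nat_lit 270))))))) (XT.nd (nat_lit 936) (nat_lit 76) (nat_lit 0) (XT.nd (nat_lit 468) (nat_lit 0) (nat_lit 0) (XT.nd (nat_lit 234) (nat_lit 0) (nat_lit 0) (XT.nd (nat_lit 78) (nat_lit 152) (nat_lit 0) (XT.lf (nat_lit 0) (nat_lit 61566373762) (nat_lit 76) (nat_lit 6639047288) (nat_lit 76) (nat_lit 5551677748) (nat_lit 4) (nat_lit 4) (nat_lit 5) (nat_lit 5) (nat_lit 5) (nat_lit 4) (nat_lit 356) (nat_lit 275) (nat_lit 269)) (XT.nd (nat_lit 78) (nat_lit 152) (nat_lit 0) (XT.lf (nat_lit 0) (nat_lit 77611476169) (nat_lit 76) (nat_lit 1493092996) (nat_lit 76) (nat_lit 268477902) (nat_lit 4) (nat_lit 4) (nat_lit 5) (nat_lit 5) (nat_lit 5) (nat_lit 4) (nat_lit 357) (nat_lit 275) (nat_lit 268)) (XT.lf (nat_lit 0) (nat_lit 5237133038) (nat_lit 152) (nat_lit 76248427116)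 (nat_lit 0) (nat_lit 3949805122) (nat_lit 2) (nat_lit 5) (nat_lit 4) (nat_lit 4) (nat_lit 2) (nat_lit 4) (nat_lit 358) (nat_lit 275) (nat_lit 267)))) (XT.nd (nat_lit 78) (nat_lit 0) (nat_lit 0) (XT.lf (nat_lit 0) (nat_lit 11003015364) (nat_lit 152) (nat_lit 71384373334) (nat_lit 0) (nat_lit 9603624646) (nat_lit 2) (nat_lit 5) (nat_lit 4) (nat_lit 4) (nat_lit 2) (nat_lit 4) (nat_lit 359) (nat_lit 275) (nat_lit 266)) (XT.nd (nat_lit 78) (nat_lit 0) (nat_lit 0) (XT.lf (nat_lit 0) (nat_lit 17019740658) (nat_lit 152) (nat_lit 66545329873) (nat_lit 0) (nat_lit 15516588087) (nat_lit 2) (nat_lit 5) (nat_lit 4) (nat_lit 4) (nat_lit 2) (nat_lit 4) (nat_lit 360) (nat_lit 275) (nat_lit 265)) (XT.lf (nat_lit 0) (nat_lit 23322963589) (nat_lit 152) (nat_lit 61702620920) (nat_lit 0) (nat_lit 21723735228) (nat_lit 2) (nat_lit 5) (nat_lit 4) (nat_lit 4) (nat_lit 2) (nat_lit 4) (nat_lit 361) (nat_lit 275)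 (nat_lit 264))))) (XT.nd (nat_lit 234) (nat_lit 0) (nat_lit 0) (XT.nd (nat_lit 78) (nat_lit 0) (nat_lit 0) (XT.lf (nat_lit 0) (nat_lit 29950036590) (nat_lit 152) (nat_lit 56827548942) (nat_lit 0) (nat_lit 28261849163) (nat_lit 2) (nat_lit 5) (nat_lit 4) (nat_lit 4) (nat_lit 2) (nat_lit 4) (nat_lit 362) (nat_lit 275) (nat_lit 263)) (XT.nd (nat_lit 78) (nat_lit 0) (nat_lit 0) (XT.lf (nat_lit 0) (nat_lit 36940231203) (nat_lit 152) (nat_lit 51891224621) (nat_lit 0) (nat_lit 35169674272) (nat_lit 2) (nat_lit 5) (nat_lit 4) (nat_lit 4) (nat_lit 2) (nat_lit 4) (nat_lit 363) (nat_lit 275) (nat_lit 262)) (XT.lf (nat_lit 0) (nat_lit 44334970805) (nat_lit 152) (nat_lit 46864395667) (nat_lit 0) (nat_lit 42488145814) (nat_lit 2) (nat_lit 5) (nat_lit 4) (nat_lit 4) (nat_lit 2) (nat_lit 4) (nat_lit 364) (nat_lit 275) (nat_lit 261)))) (XT.nd (nat_lit 78) (nat_lit 0) (nat_lit 0) (XT.lf (nat_lit 0) (nat_lit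 52178076074) (nat_lit 152) (nat_lit 41717273462) (nat_lit 0) (nat_lit 50260632509) (nat_lit 2) (nat_lit 5) (nat_lit 4) (nat_lit 4) (nat_lit 2) (nat_lit 4) (nat_lit 365) (nat_lit 275) (nat_lit 260)) (XT.nd (nat_lit 78) (nat_lit 0) (nat_lit 0) (XT.lf (nat_lit 0) (nat_lit 60516024671) (nat_lit 152) (nat_lit 36419356543) (nat_lit 0) (nat_lit 58533193538) (nat_lit 2) (nat_lit 5) (nat_lit 4) (nat_lit 4) (nat_lit 2) (nat_lit 4) (nat_lit 366) (nat_lit 275) (nat_lit 259)) (XT.lf (nat_lit 0) (nat_lit 69398226663) (nat_lit 152) (nat_lit 30939249845) (nat_lit 0) (nat_lit 67354851485) (nat_lit 2) (nat_lit 5) (nat_lit 4) (nat_lit 4) (nat_lit 2) (nat_lit 4) (nat_lit 367) (nat_lit 275) (nat_lit 258)))))) (XT.nd (nat_lit 468) (nat_lit 0) (nat_lit 0) (XT.nd (nat_lit 234) (nat_lit 76) (nat_lit 0) (XT.nd (nat_lit 78) (nat_lit 0) (nat_lit 0) (XT.lf (nat_lit 0) (nat_lit 78877317320) (nat_lit 152) (nat_lit 25244478663)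 (nat_lit 0) (nat_lit 76777882841) (nat_lit 2) (nat_lit 5) (nat_lit 4) (nat_lit 4) (nat_lit 2) (nat_lit 4) (nat_lit 368) (nat_lit 275) (nat_lit 257)) (XT.nd (nat_lit 78) (nat_lit 0) (nat_lit 0) (XT.lf (nat_lit 0) (nat_lit 89009469031) (nat_lit 152) (nat_lit 19301296205) (nat_lit 0) (nat_lit 86858127792) (nat_lit 2) (nat_lit 5) (nat_lit 4) (nat_lit 4) (nat_lit 2) (nat_lit 4) (nat_lit 369) (nat_lit 275) (nat_lit 256)) (XT.lf (nat_lit 0) (nat_lit 99854724176) (nat_lit 152) (nat_lit 13074483610) (nat_lit 0) (nat_lit 97655321123) (nat_lit 2) (nat_lit 5) (nat_lit 4) (nat_lit 4) (nat_lit 2) (nat_lit 4) (nat_lit 370) (nat_lit 275) (nat_lit 255)))) (XT.nd (nat_lit 78) (nat_lit 76) (nat_lit 0) (XT.lf (nat_lit 0) (nat_lit 111477350935) (nat_lit 152) (nat_lit 6527141250) (nat_lit 0) (nat_lit 109233446201) (nat_lit 2) (nat_lit 5) (nat_lit 4) (nat_lit 4) (nat_lit 2) (nat_lit 4) (nat_lit 371) (nat_lit 275)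 (nat_lit 254)) (XT.nd (nat_lit 78) (nat_lit 0) (nat_lit 0) (XT.lf (nat_lit 0) (nat_lit 392078915) (nat_lit 76) (nat_lit 123560266668) (nat_lit 76) (nat_lit 121275156675) (nat_lit 1) (nat_lit 4) (nat_lit 2) (nat_lit 5) (nat_lit 2) (nat_lit 4) (nat_lit 372) (nat_lit 275) (nat_lit 253)) (XT.lf (nat_lit 0) (nat_lit 7940607414) (nat_lit 76) (nat_lit 129518601109) (nat_lit 76) (nat_lit 127195338098) (nat_lit 1) (nat_lit 4) (nat_lit 2) (nat_lit 5) (nat_lit 2) (nat_lit 4) (nat_lit 373) (nat_lit 275) (nat_lit 252))))) (XT.nd (nat_lit 234) (nat_lit 0) (nat_lit 0) (XT.nd (nat_lit 78) (nat_lit 0) (nat_lit 0) (XT.lf (nat_lit 0) (nat_lit 15947359500) (nat_lit 76) (nat_lit 136025344453) (nat_lit 76) (nat_lit 133666754572) (nat_lit 1) (nat_lit 4) (nat_lit 2) (nat_lit 5) (nat_lit 2) (nat_lit 4) (nat_lit 374) (nat_lit 275) (nat_lit 251)) (XT.nd (nat_lit 78) (nat_lit 0) (nat_lit 0) (XT.lf (nat_lit 0) (nat_lit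 24459782592) (nat_lit 76) (nat_lit 143119055177) (nat_lit 76) (nat_lit 140727755233) (nat_lit 1) (nat_lit 4) (nat_lit 2) (nat_lit 5) (nat_lit 2) (nat_lit 4) (nat_lit 375) (nat_lit 275) (nat_lit 250)) (XT.lf (nat_lit 0) (nat_lit 33528320679) (nat_lit 76) (nat_lit 150841770087) (nat_lit 76) (nat_lit 148420183047) (nat_lit 1) (nat_lit 4) (nat_lit 2) (nat_lit 5) (nat_lit 2) (nat_lit 4) (nat_lit 376) (nat_lit 275) (nat_lit 249)))) (XT.nd (nat_lit 78) (nat_lit 0) (nat_lit 0) (XT.lf (nat_lit 0) (nat_lit 43206713247) (nat_lit 76) (nat_lit 159239253420) (nat_lit 76) (nat_lit 156789622772) (nat_lit 1) (nat_lit 4) (nat_lit 2) (nat_lit 5) (nat_lit 2) (nat_lit 4) (nat_lit 377) (nat_lit 275) (nat_lit 248)) (XT.nd (nat_lit 78) (nat_lit 0) (nat_lit 0) (XT.lf (nat_lit 0) (nat_lit 53552313732) (nat_lit 76) (nat_lit 168361268038) (nat_lit 76) (nat_lit 165885671088) (nat_lit 1) (nat_lit 4) (nat_lit 2) (nat_lit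 5) (nat_lit 2) (nat_lit 4) (nat_lit 378) (nat_lit 275) (nat_lit 247)) (XT.lf (nat_lit 0) (nat_lit 64626429397) (nat_lit 76) (nat_lit 178261870326) (nat_lit 76) (nat_lit 175762230502) (nat_lit 1) (nat_lit 4) (nat_lit 2) (nat_lit 5) (nat_lit 2) (nat_lit 4) (nat_lit 379) (nat_lit 275) (nat_lit 246))))))))
noncomputable def xc11 : XT := (XT.nd (nat_lit 45006) (nat_lit 0) (nat_lit 0) (XT.nd (nat_lit 858) (nat_lit 0) (nat_lit 0) (XT.nd (nat_lit 390) (nat_lit 0) (nat_lit 0) (XT.nd (nat_lit 156) (nat_lit 0) (nat_lit 0) (XT.nd (nat_lit 78) (nat_lit 0) (nat_lit 0) (XT.lf (nat_lit 0) (nat_lit 76494684631) (nat_lit 76) (nat_lit 188999730519) (nat_lit 76) (nat_lit 186477828776) (nat_lit 1) (nat_lit 4) (nat_lit 2) (nat_lit 5) (nat_lit 2) (nat_lit 4) (nat_lit 380) (nat_lit 275) (nat_lit 245)) (XT.lf (nat_lit 0) (nat_lit 89227409835) (nat_lit 76) (nat_lit 200638480381) (nat_lit 76) (nat_lit 198095965749)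 (nat_lit 1) (nat_lit 4) (nat_lit 2) (nat_lit 5) (nat_lit 2) (nat_lit 4) (nat_lit 381) (nat_lit 275) (nat_lit 244))) (XT.nd (nat_lit 78) (nat_lit 0) (nat_lit 0) (XT.lf (nat_lit 0) (nat_lit 102900058196) (nat_lit 76) (nat_lit 213247090282) (nat_lit 76) (nat_lit 210685489642) (nat_lit 1) (nat_lit 4) (nat_lit 2) (nat_lit 5) (nat_lit 2) (nat_lit 4) (nat_lit 382) (nat_lit 275) (nat_lit 243)) (XT.nd (nat_lit 78) (nat_lit 0) (nat_lit 0) (XT.lf (nat_lit 0) (nat_lit 117593652815) (nat_lit 76) (nat_lit 226900277909) (nat_lit 76) (nat_lit 224321005040) (nat_lit 1) (nat_lit 4) (nat_lit 2) (nat_lit 5) (nat_lit 2) (nat_lit 4) (nat_lit 383) (nat_lit 275) (nat_lit 242)) (XT.lf (nat_lit 0) (nat_lit 133395266845) (nat_lit 76) (nat_lit 241678951042) (nat_lit 76) (nat_lit 239083314998) (nat_lit 1) (nat_lit 4) (nat_lit 2) (nat_lit 5) (nat_lit 2) (nat_lit 4) (nat_lit 384) (nat_lit 275) (nat_lit 241))))) (XT.nd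 (nat_lit 234) (nat_lit 0) (nat_lit 0) (XT.nd (nat_lit 78) (nat_lit 0) (nat_lit 0) (XT.lf (nat_lit 0) (nat_lit 150398539480) (nat_lit 76) (nat_lit 257670687003) (nat_lit 76) (nat_lit 255059899870) (nat_lit 1) (nat_lit 4) (nat_lit 2) (nat_lit 5) (nat_lit 2) (nat_lit 4) (nat_lit 385) (nat_lit 275) (nat_lit 240)) (XT.nd (nat_lit 78) (nat_lit 0) (nat_lit 0) (XT.lf (nat_lit 0) (nat_lit 168704230856) (nat_lit 76) (nat_lit 274970251635) (nat_lit 76) (nat_lit 272345435716) (nat_lit 1) (nat_lit 4) (nat_lit 2) (nat_lit 5) (nat_lit 2) (nat_lit 4) (nat_lit 386) (nat_lit 275) (nat_lit 239)) (XT.lf (nat_lit 0) (nat_lit 188420819142) (nat_lit 76) (nat_lit 293680160875) (nat_lit 76) (nat_lit 291042355340) (nat_lit 1) (nat_lit 4) (nat_lit 2) (nat_lit 5) (nat_lit 2) (nat_lit 4) (nat_lit 387) (nat_lit 275) (nat_lit 238)))) (XT.nd (nat_lit 78) (nat_lit 0) (nat_lit 0) (XT.lf (nat_lit 0) (nat_lit 209665143381)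 (nat_lit 76) (nat_lit 313911288261) (nat_lit 76) (nat_lit 311261455304) (nat_lit 1) (nat_lit 4) (nat_lit 2) (nat_lit 5) (nat_lit 2) (nat_lit 4) (nat_lit 388) (nat_lit 275) (nat_lit 237)) (XT.nd (nat_lit 78) (nat_lit 0) (nat_lit 0) (XT.lf (nat_lit 0) (nat_lit 232563095864) (nat_lit 76) (nat_lit 335783521955) (nat_lit 76) (nat_lit 333122552495) (nat_lit 1) (nat_lit 4) (nat_lit 2) (nat_lit 5) (nat_lit 2) (nat_lit 4) (nat_lit 389) (nat_lit 275) (nat_lit 236)) (XT.lf (nat_lit 0) (nat_lit 257250368162) (nat_lit 76) (nat_lit 359426475193) (nat_lit 76) (nat_lit 356755194156) (nat_lit 1) (nat_lit 4) (nat_lit 2) (nat_lit 5) (nat_lit 2) (nat_lit 4) (nat_lit 390) (nat_lit 275) (nat_lit 235)))))) (XT.nd (nat_lit 43680) (nat_lit 0) (nat_lit 228) (XT.nd (nat_lit 234) (nat_lit 0) (nat_lit 0) (XT.nd (nat_lit 78) (nat_lit 0) (nat_lit 0) (XT.lf (nat_lit 0) (nat_lit 283873255221) (nat_lit 76) (nat_lit 384980254364)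 (nat_lit 76) (nat_lit 382299425572) (nat_lit 1) (nat_lit 4) (nat_lit 2) (nat_lit 5) (nat_lit 2) (nat_lit 4) (nat_lit 391) (nat_lit 275) (nat_lit 234)) (XT.nd (nat_lit 78) (nat_lit 0) (nat_lit 0) (XT.lf (nat_lit 0) (nat_lit 312589522299) (nat_lit 76) (nat_lit 412596289272) (nat_lit 76) (nat_lit 409906619966) (nat_lit 1) (nat_lit 4) (nat_lit 2) (nat_lit 5) (nat_lit 2) (nat_lit 4) (nat_lit 392) (nat_lit 275) (nat_lit 233)) (XT.lf (nat_lit 0) (nat_lit 343569339866) (nat_lit 76) (nat_lit 442438230494) (nat_lit 76) (nat_lit 439740375526) (nat_lit 1) (nat_lit 4) (nat_lit 2) (nat_lit 5) (nat_lit 2) (nat_lit 4) (nat_lit 393) (nat_lit 275) (nat_lit 232)))) (XT.nd (nat_lit 43290) (nat_lit 0) (nat_lit 304) (XT.lf (nat_lit 0) (nat_lit 376996292027) (nat_lit 76) (nat_lit 474682919162) (nat_lit 76) (nat_lit 471977484878) (nat_lit 1) (nat_lit 4) (nat_lit 2) (nat_lit 5) (nat_lit 2) (nat_lit 4) (nat_lit 394)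 (nat_lit 275) (nat_lit 231)) (XT.nd (nat_lit 78) (nat_lit 152) (nat_lit 0) (XT.lf (nat_lit 0) (nat_lit 19115985645) (nat_lit 76) (nat_lit 907539842) (nat_lit 76) (nat_lit 907539842) (nat_lit 7) (nat_lit 4) (nat_lit 8) (nat_lit 5) (nat_lit 8) (nat_lit 4) (nat_lit 348) (nat_lit 276) (nat_lit 276)) (XT.lf (nat_lit 0) (nat_lit 5610960995) (nat_lit 152) (nat_lit 33836764954) (nat_lit 0) (nat_lit 5375746232) (nat_lit 5) (nat_lit 5) (nat_lit 7) (nat_lit 4) (nat_lit 5) (nat_lit 4) (nat_lit 349) (nat_lit 276) (nat_lit 275))))) (XT.nd (nat_lit 234) (nat_lit 0) (nat_lit 0) (XT.nd (nat_lit 78) (nat_lit 76) (nat_lit 0) (XT.lf (nat_lit 0) (nat_lit 13280111933) (nat_lit 152) (nat_lit 21927435000) (nat_lit 0) (nat_lit 12827105725) (nat_lit 5) (nat_lit 5) (nat_lit 7) (nat_lit 4) (nat_lit 5) (nat_lit 4) (nat_lit 350) (nat_lit 276) (nat_lit 274)) (XT.nd (nat_lit 78) (nat_lit 76) (nat_lit 0) (XT.lf (nat_lit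 0) (nat_lit 21208064545) (nat_lit 152) (nat_lit 9759046564) (nat_lit 0) (nat_lit 20553399590) (nat_lit 5) (nat_lit 5) (nat_lit 7) (nat_lit 4) (nat_lit 5) (nat_lit 4) (nat_lit 351) (nat_lit 276) (nat_lit 273)) (XT.lf (nat_lit 0) (nat_lit 2831122936) (nat_lit 76) (nat_lit 26654878116) (nat_lit 76) (nat_lit 25813492100) (nat_lit 4) (nat_lit 4) (nat_lit 5) (nat_lit 5) (nat_lit 5) (nat_lit 4) (nat_lit 352) (nat_lit 276) (nat_lit 272)))) (XT.nd (nat_lit 78) (nat_lit 0) (nat_lit 0) (XT.lf (nat_lit 0) (nat_lit 16162608511) (nat_lit 76) (nat_lit 22119843773) (nat_lit 76) (nat_lit 21105567884) (nat_lit 4) (nat_lit 4) (nat_lit 5) (nat_lit 5) (nat_lit 5) (nat_lit 4) (nat_lit 353) (nat_lit 276) (nat_lit 271)) (XT.nd (nat_lit 78) (nat_lit 0) (nat_lit 0) (XT.lf (nat_lit 0) (nat_lit 29991733404) (nat_lit 76) (nat_lit 17500407977) (nat_lit 76) (nat_lit 16326048874) (nat_lit 4) (nat_lit 4) (nat_lit 5) (nat_lit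 5) (nat_lit 5) (nat_lit 4) (nat_lit 354) (nat_lit 276) (nat_lit 270)) (XT.lf (nat_lit 0) (nat_lit 44400447983) (nat_lit 76) (nat_lit 12769196295) (nat_lit 76) (nat_lit 11446611993) (nat_lit 4) (nat_lit 4) (nat_lit 5) (nat_lit 5) (nat_lit 5) (nat_lit 4) (nat_lit 355) (nat_lit 276) (nat_lit 269))))))) (XT.nd (nat_lit 936) (nat_lit 76) (nat_lit 0) (XT.nd (nat_lit 468) (nat_lit 0) (nat_lit 0) (XT.nd (nat_lit 234) (nat_lit 0) (nat_lit 0) (XT.nd (nat_lit 78) (nat_lit 152) (nat_lit 0) (XT.lf (nat_lit 0) (nat_lit 59474137224) (nat_lit 76) (nat_lit 7898171916) (nat_lit 76) (nat_lit 6438342059) (nat_lit 4) (nat_lit 4) (nat_lit 5) (nat_lit 5) (nat_lit 5) (nat_lit 4) (nat_lit 356) (nat_lit 276) (nat_lit 268)) (XT.nd (nat_lit 78) (nat_lit 152) (nat_lit 0) (XT.lf (nat_lit 0) (nat_lit 75302126693) (nat_lit 76) (nat_lit 2858469511) (nat_lit 76) (nat_lit 1271560438) (nat_lit 4) (nat_lit 4) (nat_lit 5) (nat_lit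 5) (nat_lit 5) (nat_lit 4) (nat_lit 357) (nat_lit 276) (nat_lit 267)) (XT.lf (nat_lit 0) (nat_lit 4096750363) (nat_lit 152) (nat_lit 78933644652) (nat_lit 0) (nat_lit 2473345586) (nat_lit 2) (nat_lit 5) (nat_lit 4) (nat_lit 4) (nat_lit 2) (nat_lit 4) (nat_lit 358) (nat_lit 276) (nat_lit 266)))) (XT.nd (nat_lit 78) (nat_lit 0) (nat_lit 0) (XT.lf (nat_lit 0) (nat_lit 9761465565) (nat_lit 152) (nat_lit 74268694055) (nat_lit 0) (nat_lit 8034298934) (nat_lit 2) (nat_lit 5) (nat_lit 4) (nat_lit 4) (nat_lit 2) (nat_lit 4) (nat_lit 359) (nat_lit 276) (nat_lit 265)) (XT.nd (nat_lit 78) (nat_lit 0) (nat_lit 0) (XT.lf (nat_lit 0) (nat_lit 15684517596) (nat_lit 152) (nat_lit 69614005394) (nat_lit 0) (nat_lit 13861275176) (nat_lit 2) (nat_lit 5) (nat_lit 4) (nat_lit 4) (nat_lit 2) (nat_lit 4) (nat_lit 360) (nat_lit 276) (nat_lit 264)) (XT.lf (nat_lit 0) (nat_lit 21901006025) (nat_lit 152) (nat_lit 64941995331)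 (nat_lit 0) (nat_lit 19988804539) (nat_lit 2) (nat_lit 5) (nat_lit 4) (nat_lit 4) (nat_lit 2) (nat_lit 4) (nat_lit 361) (nat_lit 276) (nat_lit 263))))) (XT.nd (nat_lit 234) (nat_lit 0) (nat_lit 0) (XT.nd (nat_lit 78) (nat_lit 0) (nat_lit 0) (XT.lf (nat_lit 0) (nat_lit 28447769301) (nat_lit 152) (nat_lit 60224977880) (nat_lit 0) (nat_lit 26453198311) (nat_lit 2) (nat_lit 5) (nat_lit 4) (nat_lit 4) (nat_lit 2) (nat_lit 4) (nat_lit 362) (nat_lit 276) (nat_lit 262)) (XT.nd (nat_lit 78) (nat_lit 0) (nat_lit 0) (XT.lf (nat_lit 0) (nat_lit 35363603058) (nat_lit 152) (nat_lit 55435000343) (nat_lit 0) (nat_lit 33292764008) (nat_lit 2) (nat_lit 5) (nat_lit 4) (nat_lit 4) (nat_lit 2) (nat_lit 4) (nat_lit 363) (nat_lit 276) (nat_lit 261)) (XT.lf (nat_lit 0) (nat_lit 42689490015) (nat_lit 152) (nat_lit 50543677671) (nat_lit 0) (nat_lit 40548032391) (nat_lit 2) (nat_lit 5) (nat_lit 4) (nat_lit 4) (nat_lit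 2) (nat_lit 4) (nat_lit 364) (nat_lit 276) (nat_lit 260)))) (XT.nd (nat_lit 78) (nat_lit 0) (nat_lit 0) (XT.lf (nat_lit 0) (nat_lit 50468842835) (nat_lit 152) (nat_lit 45522024246) (nat_lit 0) (nat_lit 48261997643) (nat_lit 2) (nat_lit 5) (nat_lit 4) (nat_lit 4) (nat_lit 2) (nat_lit 4) (nat_lit 365) (nat_lit 276) (nat_lit 259)) (XT.nd (nat_lit 78) (nat_lit 0) (nat_lit 0) (XT.lf (nat_lit 0) (nat_lit 58747761388) (nat_lit 152) (nat_lit 40340282122) (nat_lit 0) (nat_lit 56480372151) (nat_lit 2) (nat_lit 5) (nat_lit 4) (nat_lit 4) (nat_lit 2) (nat_lit 4) (nat_lit 366) (nat_lit 276) (nat_lit 258)) (XT.lf (nat_lit 0) (nat_lit 67575305930) (nat_lit 152) (nat_lit 34967744680) (nat_lit 0) (nat_lit 65251857392) (nat_lit 2) (nat_lit 5) (nat_lit 4) (nat_lit 4) (nat_lit 2) (nat_lit 4) (nat_lit 367) (nat_lit 276) (nat_lit 257)))))) (XT.nd (nat_lit 468) (nat_lit 0) (nat_lit 0) (XT.nd (nat_lit 234) (nat_lit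 76) (nat_lit 0) (XT.nd (nat_lit 78) (nat_lit 0) (nat_lit 0) (XT.lf (nat_lit 0) (nat_lit 77003787838) (nat_lit 152) (nat_lit 29372574661) (nat_lit 0) (nat_lit 74628432540) (nat_lit 2) (nat_lit 5) (nat_lit 4) (nat_lit 4) (nat_lit 2) (nat_lit 4) (nat_lit 368) (nat_lit 276) (nat_lit 256)) (XT.nd (nat_lit 78) (nat_lit 0) (nat_lit 0) (XT.lf (nat_lit 0) (nat_lit 87089079596) (nat_lit 152) (nat_lit 23521615501) (nat_lit 0) (nat_lit 84665662483) (nat_lit 2) (nat_lit 5) (nat_lit 4) (nat_lit 4) (nat_lit 2) (nat_lit 4) (nat_lit 369) (nat_lit 276) (nat_lit 255)) (XT.lf (nat_lit 0) (nat_lit 97890945896) (nat_lit 152) (nat_lit 17380194849) (nat_lit 0) (nat_lit 95423027103) (nat_lit 2) (nat_lit 5) (nat_lit 4) (nat_lit 4) (nat_lit 2) (nat_lit 4) (nat_lit 370) (nat_lit 276) (nat_lit 254)))) (XT.nd (nat_lit 78) (nat_lit 76) (nat_lit 0) (XT.lf (nat_lit 0) (nat_lit 109473397799) (nat_lit 152) (nat_lit 10911919103)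 (nat_lit 0) (nat_lit 106964273746) (nat_lit 2) (nat_lit 5) (nat_lit 4) (nat_lit 4) (nat_lit 2) (nat_lit 4) (nat_lit 371) (nat_lit 276) (nat_lit 253)) (XT.nd (nat_lit 78) (nat_lit 76) (nat_lit 0) (XT.lf (nat_lit 0) (nat_lit 121905072055) (nat_lit 152) (nat_lit 4078457739) (nat_lit 0) (nat_lit 119357794984) (nat_lit 2) (nat_lit 5) (nat_lit 4) (nat_lit 4) (nat_lit 2) (nat_lit 4) (nat_lit 372) (nat_lit 276) (nat_lit 252)) (XT.lf (nat_lit 0) (nat_lit 3265190309) (nat_lit 76) (nat_lit 132045426307) (nat_lit 76) (nat_lit 129462822368) (nat_lit 1) (nat_lit 4) (nat_lit 2) (nat_lit 5) (nat_lit 2) (nat_lit 4) (nat_lit 373) (nat_lit 276) (nat_lit 251))))) (XT.nd (nat_lit 234) (nat_lit 0) (nat_lit 0) (XT.nd (nat_lit 78) (nat_lit 0) (nat_lit 0) (XT.lf (nat_lit 0) (nat_lit 11207101453) (nat_lit 76) (nat_lit 138584106148) (nat_lit 76) (nat_lit 135968792145) (nat_lit 1) (nat_lit 4) (nat_lit 2) (nat_lit 5)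 (nat_lit 2) (nat_lit 4) (nat_lit 374) (nat_lit 276) (nat_lit 250)) (XT.nd (nat_lit 78) (nat_lit 0) (nat_lit 0) (XT.lf (nat_lit 0) (nat_lit 19659486635) (nat_lit 76) (nat_lit 145707387703) (nat_lit 76) (nat_lit 143061786604) (nat_lit 1) (nat_lit 4) (nat_lit 2) (nat_lit 5) (nat_lit 2) (nat_lit 4) (nat_lit 375) (nat_lit 276) (nat_lit 249)) (XT.lf (nat_lit 0) (nat_lit 28672434065) (nat_lit 76) (nat_lit 153457483012) (nat_lit 76) (nat_lit 150783838305) (nat_lit 1) (nat_lit 4) (nat_lit 2) (nat_lit 5) (nat_lit 2) (nat_lit 4) (nat_lit 376) (nat_lit 276) (nat_lit 248)))) (XT.nd (nat_lit 78) (nat_lit 0) (nat_lit 0) (XT.lf (nat_lit 0) (nat_lit 38299353802) (nat_lit 76) (nat_lit 161880318565) (nat_lit 76) (nat_lit 159180707556) (nat_lit 1) (nat_lit 4) (nat_lit 2) (nat_lit 5) (nat_lit 2) (nat_lit 4) (nat_lit 377) (nat_lit 276) (nat_lit 247)) (XT.nd (nat_lit 78) (nat_lit 0) (nat_lit 0) (XT.lf (nat_lit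 0) (nat_lit 48597294259) (nat_lit 76) (nat_lit 171025807462) (nat_lit 76) (nat_lit 168302153580) (nat_lit 1) (nat_lit 4) (nat_lit 2) (nat_lit 5) (nat_lit 2) (nat_lit 4) (nat_lit 378) (nat_lit 276) (nat_lit 246)) (XT.lf (nat_lit 0) (nat_lit 59627280268) (nat_lit 76) (nat_lit 180948145193) (nat_lit 76) (nat_lit 178202229391) (nat_lit 1) (nat_lit 4) (nat_lit 2) (nat_lit 5) (nat_lit 2) (nat_lit 4) (nat_lit 379) (nat_lit 276) (nat_lit 245))))))))
noncomputable def xc12 : XT := (XT.nd (nat_lit 44850) (nat_lit 0) (nat_lit 0) (XT.nd (nat_lit 858) (nat_lit 0) (nat_lit 0) (XT.nd (nat_lit 390) (nat_lit 0) (nat_lit 0) (XT.nd (nat_lit 156) (nat_lit 0) (nat_lit 0) (XT.nd (nat_lit 78) (nat_lit 0) (nat_lit 0) (XT.lf (nat_lit 0) (nat_lit 71454674710) (nat_lit 76) (nat_lit 191706130797) (nat_lit 76) (nat_lit 188939602106) (nat_lit 1) (nat_lit 4) (nat_lit 2) (nat_lit 5) (nat_lit 2) (nat_lit 4) (nat_lit 380)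 (nat_lit 276) (nat_lit 244)) (XT.lf (nat_lit 0) (nat_lit 84149565847) (nat_lit 76) (nat_lit 203363515298) (nat_lit 76) (nat_lit 200577900599) (nat_lit 1) (nat_lit 4) (nat_lit 2) (nat_lit 5) (nat_lit 2) (nat_lit 4) (nat_lit 381) (nat_lit 276) (nat_lit 243))) (XT.nd (nat_lit 78) (nat_lit 0) (nat_lit 0) (XT.lf (nat_lit 0) (nat_lit 97787182664) (nat_lit 76) (nat_lit 215989379494) (nat_lit 76) (nat_lit 213186092566) (nat_lit 1) (nat_lit 4) (nat_lit 2) (nat_lit 5) (nat_lit 2) (nat_lit 4) (nat_lit 382) (nat_lit 276) (nat_lit 242)) (XT.nd (nat_lit 78) (nat_lit 0) (nat_lit 0) (XT.lf (nat_lit 0) (nat_lit 112448340668) (nat_lit 76) (nat_lit 229658543322) (nat_lit 76) (nat_lit 226838893218) (nat_lit 1) (nat_lit 4) (nat_lit 2) (nat_lit 5) (nat_lit 2) (nat_lit 4) (nat_lit 383) (nat_lit 276) (nat_lit 241)) (XT.lf (nat_lit 0) (nat_lit 128219920796) (nat_lit 76) (nat_lit 244452009232) (nat_lit 76) (nat_lit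 241617208040) (nat_lit 1) (nat_lit 4) (nat_lit 2) (nat_lit 5) (nat_lit 2) (nat_lit 4) (nat_lit 384) (nat_lit 276) (nat_lit 240))))) (XT.nd (nat_lit 234) (nat_lit 0) (nat_lit 0) (XT.nd (nat_lit 78) (nat_lit 0) (nat_lit 0) (XT.lf (nat_lit 0) (nat_lit 145195384263) (nat_lit 76) (nat_lit 260457442209) (nat_lit 76) (nat_lit 257608612232) (nat_lit 1) (nat_lit 4) (nat_lit 2) (nat_lit 5) (nat_lit 2) (nat_lit 4) (nat_lit 385) (nat_lit 276) (nat_lit 239)) (XT.nd (nat_lit 78) (nat_lit 0) (nat_lit 0) (XT.lf (nat_lit 0) (nat_lit 163475326408) (nat_lit 76) (nat_lit 277769689263) (nat_lit 76) (nat_lit 274907869669) (nat_lit 1) (nat_lit 4) (nat_lit 2) (nat_lit 5) (nat_lit 2) (nat_lit 4) (nat_lit 386) (nat_lit 276) (nat_lit 238)) (XT.lf (nat_lit 0) (nat_lit 183168072814) (nat_lit 76) (nat_lit 296491341488) (nat_lit 76) (nat_lit 293617494471) (nat_lit 1) (nat_lit 4) (nat_lit 2) (nat_lit 5) (nat_lit 2) (nat_lit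 4) (nat_lit 387) (nat_lit 276) (nat_lit 237)))) (XT.nd (nat_lit 78) (nat_lit 0) (nat_lit 0) (XT.lf (nat_lit 0) (nat_lit 204390321238) (nat_lit 76) (nat_lit 316733342007) (nat_lit 76) (nat_lit 313848358487) (nat_lit 1) (nat_lit 4) (nat_lit 2) (nat_lit 5) (nat_lit 2) (nat_lit 4) (nat_lit 388) (nat_lit 276) (nat_lit 236)) (XT.nd (nat_lit 78) (nat_lit 0) (nat_lit 0) (XT.lf (nat_lit 0) (nat_lit 227267833152) (nat_lit 76) (nat_lit 338615643416) (nat_lit 76) (nat_lit 335720348321) (nat_lit 1) (nat_lit 4) (nat_lit 2) (nat_lit 5) (nat_lit 2) (nat_lit 4) (nat_lit 389) (nat_lit 276) (nat_lit 235)) (XT.lf (nat_lit 0) (nat_lit 251936178997) (nat_lit 76) (nat_lit 362267918613) (nat_lit 76) (nat_lit 359363075762) (nat_lit 1) (nat_lit 4) (nat_lit 2) (nat_lit 5) (nat_lit 2) (nat_lit 4) (nat_lit 390) (nat_lit 276) (nat_lit 234)))))) (XT.nd (nat_lit 43524) (nat_lit 0) (nat_lit 228) (XT.nd (nat_lit 234) (nat_lit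 0) (nat_lit 0) (XT.nd (nat_lit 78) (nat_lit 0) (nat_lit 0) (XT.lf (nat_lit 0) (nat_lit 278541541562) (nat_lit 76) (nat_lit 387830329228) (nat_lit 76) (nat_lit 384916645862) (nat_lit 1) (nat_lit 4) (nat_lit 2) (nat_lit 5) (nat_lit 2) (nat_lit 4) (nat_lit 391) (nat_lit 276) (nat_lit 233)) (XT.nd (nat_lit 78) (nat_lit 0) (nat_lit 0) (XT.lf (nat_lit 0) (nat_lit 307241582257) (nat_lit 76) (nat_lit 415454356213) (nat_lit 76) (nat_lit 412532487186) (nat_lit 1) (nat_lit 4) (nat_lit 2) (nat_lit 5) (nat_lit 2) (nat_lit 4) (nat_lit 392) (nat_lit 276) (nat_lit 232)) (XT.lf (nat_lit 0) (nat_lit 338206375396) (nat_lit 76) (nat_lit 445303697507) (nat_lit 76) (nat_lit 442374249163) (nat_lit 1) (nat_lit 4) (nat_lit 2) (nat_lit 5) (nat_lit 2) (nat_lit 4) (nat_lit 393) (nat_lit 276) (nat_lit 231)))) (XT.nd (nat_lit 43134) (nat_lit 0) (nat_lit 456) (XT.lf (nat_lit 0) (nat_lit 371619416049) (nat_lit 76) (nat_lit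 477555238093) (nat_lit 76) (nat_lit 474618771864) (nat_lit 1) (nat_lit 4) (nat_lit 2) (nat_lit 5) (nat_lit 2) (nat_lit 4) (nat_lit 394) (nat_lit 276) (nat_lit 230)) (XT.nd (nat_lit 78) (nat_lit 0) (nat_lit 0) (XT.lf (nat_lit 0) (nat_lit 2729279462) (nat_lit 76) (nat_lit 7784004662) (nat_lit 76) (nat_lit 7784004662) (nat_lit 7) (nat_lit 4) (nat_lit 8) (nat_lit 5) (nat_lit 8) (nat_lit 4) (nat_lit 346) (nat_lit 277) (nat_lit 277)) (XT.lf (nat_lit 0) (nat_lit 21403767201) (nat_lit 76) (nat_lit 8992576668) (nat_lit 76) (nat_lit 8725843128) (nat_lit 7) (nat_lit 4) (nat_lit 8) (nat_lit 5) (nat_lit 8) (nat_lit 4) (nat_lit 347) (nat_lit 277) (nat_lit 276))))) (XT.nd (nat_lit 234) (nat_lit 76) (nat_lit 0) (XT.nd (nat_lit 78) (nat_lit 152) (nat_lit 0) (XT.lf (nat_lit 0) (nat_lit 37868433467) (nat_lit 76) (nat_lit 2258390844) (nat_lit 76) (nat_lit 1744681803) (nat_lit 7) (nat_lit 4) (nat_lit 8) (nat_lit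 5) (nat_lit 8) (nat_lit 4) (nat_lit 348) (nat_lit 277) (nat_lit 275)) (XT.nd (nat_lit 78) (nat_lit 0) (nat_lit 0) (XT.lf (nat_lit 0) (nat_lit 5481884104) (nat_lit 152) (nat_lit 34585947901) (nat_lit 0) (nat_lit 4774845952) (nat_lit 5) (nat_lit 5) (nat_lit 7) (nat_lit 4) (nat_lit 5) (nat_lit 4) (nat_lit 349) (nat_lit 277) (nat_lit 274)) (XT.lf (nat_lit 0) (nat_lit 12980491580) (nat_lit 152) (nat_lit 23010121752) (nat_lit 0) (nat_lit 12071794682) (nat_lit 5) (nat_lit 5) (nat_lit 7) (nat_lit 4) (nat_lit 5) (nat_lit 4) (nat_lit 350) (nat_lit 277) (nat_lit 273)))) (XT.nd (nat_lit 78) (nat_lit 76) (nat_lit 0) (XT.lf (nat_lit 0) (nat_lit 20750533578) (nat_lit 152) (nat_lit 11150533135) (nat_lit 0) (nat_lit 19655115618) (nat_lit 5) (nat_lit 5) (nat_lit 7) (nat_lit 4) (nat_lit 5) (nat_lit 4) (nat_lit 351) (nat_lit 277) (nat_lit 272)) (XT.nd (nat_lit 78) (nat_lit 0) (nat_lit 0) (XT.lf (nat_lit 0)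 (nat_lit 1098247779) (nat_lit 76) (nat_lit 27756953738) (nat_lit 76) (nat_lit 26488645906) (nat_lit 4) (nat_lit 4) (nat_lit 5) (nat_lit 5) (nat_lit 5) (nat_lit 4) (nat_lit 352) (nat_lit 277) (nat_lit 271)) (XT.lf (nat_lit 0) (nat_lit 14156233581) (nat_lit 76) (nat_lit 23355766171) (nat_lit 76) (nat_lit 21927375124) (nat_lit 4) (nat_lit 4) (nat_lit 5) (nat_lit 5) (nat_lit 5) (nat_lit 4) (nat_lit 353) (nat_lit 277) (nat_lit 270))))))) (XT.nd (nat_lit 858) (nat_lit 76) (nat_lit 0) (XT.nd (nat_lit 390) (nat_lit 0) (nat_lit 0) (XT.nd (nat_lit 156) (nat_lit 152) (nat_lit 0) (XT.nd (nat_lit 78) (nat_lit 0) (nat_lit 0) (XT.lf (nat_lit 0) (nat_lit 27732117942) (nat_lit 76) (nat_lit 18860262576) (nat_lit 76) (nat_lit 17283646330) (nat_lit 4) (nat_lit 4) (nat_lit 5) (nat_lit 5) (nat_lit 5) (nat_lit 4) (nat_lit 354) (nat_lit 277) (nat_lit 269)) (XT.lf (nat_lit 0) (nat_lit 41906350548) (nat_lit 76) (nat_lit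 14243802931) (nat_lit 76) (nat_lit 12529941131) (nat_lit 4) (nat_lit 4) (nat_lit 5) (nat_lit 5) (nat_lit 5) (nat_lit 4) (nat_lit 355) (nat_lit 277) (nat_lit 268))) (XT.nd (nat_lit 78) (nat_lit 152) (nat_lit 0) (XT.lf (nat_lit 0) (nat_lit 56762926851) (nat_lit 76) (nat_lit 9479030439) (nat_lit 76) (nat_lit 7638089422) (nat_lit 4) (nat_lit 4) (nat_lit 5) (nat_lit 5) (nat_lit 5) (nat_lit 4) (nat_lit 356) (nat_lit 277) (nat_lit 267)) (XT.nd (nat_lit 78) (nat_lit 152) (nat_lit 0) (XT.lf (nat_lit 0) (nat_lit 72389885822) (nat_lit 76) (nat_lit 4537709411) (nat_lit 76) (nat_lit 2579102452) (nat_lit 4) (nat_lit 4) (nat_lit 5) (nat_lit 5) (nat_lit 5) (nat_lit 4) (nat_lit 357) (nat_lit 277) (nat_lit 266)) (XT.lf (nat_lit 0) (nat_lit 2654709456) (nat_lit 152) (nat_lit 82247814215) (nat_lit 0) (nat_lit 685607642) (nat_lit 2) (nat_lit 5) (nat_lit 4) (nat_lit 4) (nat_lit 2) (nat_lit 4) (nat_lit 358) (nat_lit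 277) (nat_lit 265))))) (XT.nd (nat_lit 234) (nat_lit 0) (nat_lit 0) (XT.nd (nat_lit 78) (nat_lit 0) (nat_lit 0) (XT.lf (nat_lit 0) (nat_lit 8225751395) (nat_lit 152) (nat_lit 77767218418) (nat_lit 0) (nat_lit 6160573791) (nat_lit 2) (nat_lit 5) (nat_lit 4) (nat_lit 4) (nat_lit 2) (nat_lit 4) (nat_lit 359) (nat_lit 277) (nat_lit 264)) (XT.nd (nat_lit 78) (nat_lit 0) (nat_lit 0) (XT.lf (nat_lit 0) (nat_lit 14062068924) (nat_lit 152) (nat_lit 73283228647) (nat_lit 0) (nat_lit 11907932255) (nat_lit 2) (nat_lit 5) (nat_lit 4) (nat_lit 4) (nat_lit 2) (nat_lit 4) (nat_lit 360) (nat_lit 277) (nat_lit 263)) (XT.lf (nat_lit 0) (nat_lit 20198247628) (nat_lit 152) (nat_lit 68769273111) (nat_lit 0) (nat_lit 17961741454) (nat_lit 2) (nat_lit 5) (nat_lit 4) (nat_lit 4) (nat_lit 2) (nat_lit 4) (nat_lit 361) (nat_lit 277) (nat_lit 262)))) (XT.nd (nat_lit 78) (nat_lit 0) (nat_lit 0) (XT.lf (nat_lit 0) (nat_lit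 26670650048) (nat_lit 152) (nat_lit 64198602444) (nat_lit 0) (nat_lit 24357875814) (nat_lit 2) (nat_lit 5) (nat_lit 4) (nat_lit 4) (nat_lit 2) (nat_lit 4) (nat_lit 362) (nat_lit 277) (nat_lit 261)) (XT.nd (nat_lit 78) (nat_lit 0) (nat_lit 0) (XT.lf (nat_lit 0) (nat_lit 33517631160) (nat_lit 152) (nat_lit 59544131190) (nat_lit 0) (nat_lit 31134238353) (nat_lit 2) (nat_lit 5) (nat_lit 4) (nat_lit 4) (nat_lit 2) (nat_lit 4) (nat_lit 363) (nat_lit 277) (nat_lit 260)) (XT.lf (nat_lit 0) (nat_lit 40779765669) (nat_lit 152) (nat_lit 54778277297) (nat_lit 0) (nat_lit 38330985293) (nat_lit 2) (nat_lit 5) (nat_lit 4) (nat_lit 4) (nat_lit 2) (nat_lit 4) (nat_lit 364) (nat_lit 277) (nat_lit 259)))))) (XT.nd (nat_lit 468) (nat_lit 76) (nat_lit 0) (XT.nd (nat_lit 234) (nat_lit 0) (nat_lit 0) (XT.nd (nat_lit 78) (nat_lit 0) (nat_lit 0) (XT.lf (nat_lit 0) (nat_lit 48500088444) (nat_lit 152) (nat_lit 49872798668)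 (nat_lit 0) (nat_lit 45990764023) (nat_lit 2) (nat_lit 5) (nat_lit 4) (nat_lit 4) (nat_lit 2) (nat_lit 4) (nat_lit 365) (nat_lit 277) (nat_lit 258)) (XT.nd (nat_lit 78) (nat_lit 0) (nat_lit 0) (XT.lf (nat_lit 0) (nat_lit 56724349548) (nat_lit 152) (nat_lit 44798625800) (nat_lit 0) (nat_lit 54158965826) (nat_lit 2) (nat_lit 5) (nat_lit 4) (nat_lit 4) (nat_lit 2) (nat_lit 4) (nat_lit 366) (nat_lit 277) (nat_lit 257)) (XT.lf (nat_lit 0) (nat_lit 65501285341) (nat_lit 152) (nat_lit 39525689520) (nat_lit 0) (nat_lit 62883994859) (nat_lit 2) (nat_lit 5) (nat_lit 4) (nat_lit 4) (nat_lit 2) (nat_lit 4) (nat_lit 367) (nat_lit 277) (nat_lit 256)))) (XT.nd (nat_lit 78) (nat_lit 0) (nat_lit 0) (XT.lf (nat_lit 0) (nat_lit 74882907295) (nat_lit 152) (nat_lit 34022742799) (nat_lit 0) (nat_lit 72217554999) (nat_lit 2) (nat_lit 5) (nat_lit 4) (nat_lit 4) (nat_lit 2) (nat_lit 4) (nat_lit 368) (nat_lit 277)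 (nat_lit 255)) (XT.nd (nat_lit 78) (nat_lit 0) (nat_lit 0) (XT.lf (nat_lit 0) (nat_lit 84924810208) (nat_lit 152) (nat_lit 28257175582) (nat_lit 0) (nat_lit 82214956231) (nat_lit 2) (nat_lit 5) (nat_lit 4) (nat_lit 4) (nat_lit 2) (nat_lit 4) (nat_lit 369) (nat_lit 277) (nat_lit 254)) (XT.lf (nat_lit 0) (nat_lit 95686501652) (nat_lit 152) (nat_lit 22194821545) (nat_lit 0) (nat_lit 92935442415) (nat_lit 2) (nat_lit 5) (nat_lit 4) (nat_lit 4) (nat_lit 2) (nat_lit 4) (nat_lit 370) (nat_lit 277) (nat_lit 253))))) (XT.nd (nat_lit 234) (nat_lit 76) (nat_lit 0) (XT.nd (nat_lit 78) (nat_lit 0) (nat_lit 0) (XT.lf (nat_lit 0) (nat_lit 107231754613) (nat_lit 152) (nat_lit 15799755627) (nat_lit 0) (nat_lit 104442542358) (nat_lit 2) (nat_lit 5) (nat_lit 4) (nat_lit 4) (nat_lit 2) (nat_lit 4) (nat_lit 371) (nat_lit 277) (nat_lit 252)) (XT.nd (nat_lit 78) (nat_lit 0) (nat_lit 0) (XT.lf (nat_lit 0) (nat_lit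 119628985405) (nat_lit 152) (nat_lit 9034081140) (nat_lit 0) (nat_lit 116804446281) (nat_lit 2) (nat_lit 5) (nat_lit 4) (nat_lit 4) (nat_lit 2) (nat_lit 4) (nat_lit 372) (nat_lit 277) (nat_lit 251)) (XT.lf (nat_lit 0) (nat_lit 132951659099) (nat_lit 152) (nat_lit 1857705199) (nat_lit 0) (nat_lit 130094409912) (nat_lit 2) (nat_lit 5) (nat_lit 4) (nat_lit 4) (nat_lit 2) (nat_lit 4) (nat_lit 373) (nat_lit 277) (nat_lit 250)))) (XT.nd (nat_lit 78) (nat_lit 0) (nat_lit 0) (XT.lf (nat_lit 0) (nat_lit 5962743910) (nat_lit 76) (nat_lit 141409076106) (nat_lit 76) (nat_lit 138521539823) (nat_lit 1) (nat_lit 4) (nat_lit 2) (nat_lit 5) (nat_lit 2) (nat_lit 4) (nat_lit 374) (nat_lit 277) (nat_lit 249)) (XT.nd (nat_lit 78) (nat_lit 0) (nat_lit 0) (XT.lf (nat_lit 0) (nat_lit 14359538435) (nat_lit 76) (nat_lit 148559738060) (nat_lit 76) (nat_lit 145644158170) (nat_lit 1) (nat_lit 4) (nat_lit 2) (nat_lit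 5) (nat_lit 2) (nat_lit 4) (nat_lit 375) (nat_lit 277) (nat_lit 248)) (XT.lf (nat_lit 0) (nat_lit 23321013035) (nat_lit 76) (nat_lit 156335185590) (nat_lit 76) (nat_lit 153393639397) (nat_lit 1) (nat_lit 4) (nat_lit 2) (nat_lit 5) (nat_lit 2) (nat_lit 4) (nat_lit 376) (nat_lit 277) (nat_lit 247))))))))
noncomputable def xc13 : XT := (XT.nd (nat_lit 44694) (nat_lit 0) (nat_lit 76) (XT.nd (nat_lit 858) (nat_lit 0) (nat_lit 0) (XT.nd (nat_lit 390) (nat_lit 0) (nat_lit 0) (XT.nd (nat_lit 156) (nat_lit 0) (nat_lit 0) (XT.nd (nat_lit 78) (nat_lit 0) (nat_lit 0) (XT.lf (nat_lit 0) (nat_lit 32900272743) (nat_lit 76) (nat_lit 164781495422) (nat_lit 76) (nat_lit 161815906355) (nat_lit 1) (nat_lit 4) (nat_lit 2) (nat_lit 5) (nat_lit 2) (nat_lit 4) (nat_lit 377) (nat_lit 277) (nat_lit 246)) (XT.lf (nat_lit 0) (nat_lit 43154083544) (nat_lit 76) (nat_lit 173948719762) (nat_lit 76) (nat_lit 170960868776)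 (nat_lit 1) (nat_lit 4) (nat_lit 2) (nat_lit 5) (nat_lit 2) (nat_lit 4) (nat_lit 378) (nat_lit 277) (nat_lit 245))) (XT.nd (nat_lit 78) (nat_lit 0) (nat_lit 0) (XT.lf (nat_lit 0) (nat_lit 54143208761) (nat_lit 76) (nat_lit 183891182904) (nat_lit 76) (nat_lit 180882719029) (nat_lit 1) (nat_lit 4) (nat_lit 2) (nat_lit 5) (nat_lit 2) (nat_lit 4) (nat_lit 379) (nat_lit 277) (nat_lit 244)) (XT.nd (nat_lit 78) (nat_lit 0) (nat_lit 0) (XT.lf (nat_lit 0) (nat_lit 65932769135) (nat_lit 76) (nat_lit 194667803147) (nat_lit 76) (nat_lit 191640253264) (nat_lit 1) (nat_lit 4) (nat_lit 2) (nat_lit 5) (nat_lit 2) (nat_lit 4) (nat_lit 380) (nat_lit 277) (nat_lit 243)) (XT.lf (nat_lit 0) (nat_lit 78592628728) (nat_lit 76) (nat_lit 206342441943) (nat_lit 76) (nat_lit 203297219831) (nat_lit 1) (nat_lit 4) (nat_lit 2) (nat_lit 5) (nat_lit 2) (nat_lit 4) (nat_lit 381) (nat_lit 277) (nat_lit 242))))) (XT.nd (nat_lit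 234) (nat_lit 0) (nat_lit 0) (XT.nd (nat_lit 78) (nat_lit 0) (nat_lit 0) (XT.lf (nat_lit 0) (nat_lit 92197808931) (nat_lit 76) (nat_lit 218984282339) (nat_lit 76) (nat_lit 215922697052) (nat_lit 1) (nat_lit 4) (nat_lit 2) (nat_lit 5) (nat_lit 2) (nat_lit 4) (nat_lit 382) (nat_lit 277) (nat_lit 241)) (XT.nd (nat_lit 78) (nat_lit 0) (nat_lit 0) (XT.lf (nat_lit 0) (nat_lit 106828933033) (nat_lit 76) (nat_lit 232668238944) (nat_lit 76) (nat_lit 229591502568) (nat_lit 1) (nat_lit 4) (nat_lit 2) (nat_lit 5) (nat_lit 2) (nat_lit 4) (nat_lit 383) (nat_lit 277) (nat_lit 240)) (XT.lf (nat_lit 0) (nat_lit 122572703992) (nat_lit 76) (nat_lit 247475401871) (nat_lit 76) (nat_lit 244384636709) (nat_lit 1) (nat_lit 4) (nat_lit 2) (nat_lit 5) (nat_lit 2) (nat_lit 4) (nat_lit 384) (nat_lit 277) (nat_lit 239)))) (XT.nd (nat_lit 78) (nat_lit 0) (nat_lit 0) (XT.lf (nat_lit 0) (nat_lit 139522418228) (nat_lit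 76) (nat_lit 263493517271) (nat_lit 76) (nat_lit 260389762493) (nat_lit 1) (nat_lit 4) (nat_lit 2) (nat_lit 5) (nat_lit 2) (nat_lit 4) (nat_lit 385) (nat_lit 277) (nat_lit 238)) (XT.nd (nat_lit 78) (nat_lit 0) (nat_lit 0) (XT.lf (nat_lit 0) (nat_lit 157778518493) (nat_lit 76) (nat_lit 280817507308) (nat_lit 76) (nat_lit 277701725108) (nat_lit 1) (nat_lit 4) (nat_lit 2) (nat_lit 5) (nat_lit 2) (nat_lit 4) (nat_lit 386) (nat_lit 277) (nat_lit 237)) (XT.lf (nat_lit 0) (nat_lit 177449189085) (nat_lit 76) (nat_lit 299550032665) (nat_lit 76) (nat_lit 296423113963) (nat_lit 1) (nat_lit 4) (nat_lit 2) (nat_lit 5) (nat_lit 2) (nat_lit 4) (nat_lit 387) (nat_lit 277) (nat_lit 236)))))) (XT.nd (nat_lit 468) (nat_lit 0) (nat_lit 0) (XT.nd (nat_lit 234) (nat_lit 0) (nat_lit 0) (XT.nd (nat_lit 78) (nat_lit 0) (nat_lit 0) (XT.lf (nat_lit 0) (nat_lit 198650996940) (nat_lit 76) (nat_lit 319802100900) (nat_lit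 76) (nat_lit 316664870621) (nat_lit 1) (nat_lit 4) (nat_lit 2) (nat_lit 5) (nat_lit 2) (nat_lit 4) (nat_lit 388) (nat_lit 277) (nat_lit 235)) (XT.nd (nat_lit 78) (nat_lit 0) (nat_lit 0) (XT.lf (nat_lit 0) (nat_lit 221509582400) (nat_lit 76) (nat_lit 341693724269) (nat_lit 76) (nat_lit 338546946234) (nat_lit 1) (nat_lit 4) (nat_lit 2) (nat_lit 5) (nat_lit 2) (nat_lit 4) (nat_lit 389) (nat_lit 277) (nat_lit 234)) (XT.lf (nat_lit 0) (nat_lit 246160403752) (nat_lit 76) (nat_lit 365354630909) (nat_lit 76) (nat_lit 362199012359) (nat_lit 1) (nat_lit 4) (nat_lit 2) (nat_lit 5) (nat_lit 2) (nat_lit 4) (nat_lit 390) (nat_lit 277) (nat_lit 233)))) (XT.nd (nat_lit 78) (nat_lit 0) (nat_lit 0) (XT.lf (nat_lit 0) (nat_lit 272749539934) (nat_lit 76) (nat_lit 390925033602) (nat_lit 76) (nat_lit 387761229390) (nat_lit 1) (nat_lit 4) (nat_lit 2) (nat_lit 5) (nat_lit 2) (nat_lit 4) (nat_lit 391) (nat_lit 277)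 (nat_lit 232)) (XT.nd (nat_lit 78) (nat_lit 0) (nat_lit 0) (XT.lf (nat_lit 0) (nat_lit 301434556200) (nat_lit 76) (nat_lit 418556460659) (nat_lit 76) (nat_lit 415385077131) (nat_lit 1) (nat_lit 4) (nat_lit 2) (nat_lit 5) (nat_lit 2) (nat_lit 4) (nat_lit 392) (nat_lit 277) (nat_lit 231)) (XT.lf (nat_lit 0) (nat_lit 332385437831) (nat_lit 76) (nat_lit 448412653870) (nat_lit 76) (nat_lit 445234252457) (nat_lit 1) (nat_lit 4) (nat_lit 2) (nat_lit 5) (nat_lit 2) (nat_lit 4) (nat_lit 393) (nat_lit 277) (nat_lit 230))))) (XT.nd (nat_lit 43134) (nat_lit 0) (nat_lit 456) (XT.nd (nat_lit 42978) (nat_lit 0) (nat_lit 532) (XT.lf (nat_lit 0) (nat_lit 365785597458) (nat_lit 76) (nat_lit 480670538825) (nat_lit 76) (nat_lit 477485639370) (nat_lit 1) (nat_lit 4) (nat_lit 2) (nat_lit 5) (nat_lit 2) (nat_lit 4) (nat_lit 394) (nat_lit 277) (nat_lit 229)) (XT.nd (nat_lit 78) (nat_lit 0) (nat_lit 0) (XT.lf (nat_lit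 0) (nat_lit 2021285179) (nat_lit 152) (nat_lit 12015171812) (nat_lit 0) (nat_lit 2021285179) (nat_lit 8) (nat_lit 5) (nat_lit 10) (nat_lit 4) (nat_lit 8) (nat_lit 4) (nat_lit 344) (nat_lit 278) (nat_lit 278)) (XT.lf (nat_lit 0) (nat_lit 12407136124) (nat_lit 152) (nat_lit 9739644842) (nat_lit 0) (nat_lit 12119063900) (nat_lit 8) (nat_lit 5) (nat_lit 10) (nat_lit 4) (nat_lit 8) (nat_lit 4) (nat_lit 345) (nat_lit 278) (nat_lit 277)))) (XT.nd (nat_lit 78) (nat_lit 0) (nat_lit 0) (XT.lf (nat_lit 0) (nat_lit 5065938075) (nat_lit 76) (nat_lit 16046785375) (nat_lit 76) (nat_lit 15491979612) (nat_lit 7) (nat_lit 4) (nat_lit 8) (nat_lit 5) (nat_lit 8) (nat_lit 4) (nat_lit 346) (nat_lit 278) (nat_lit 276)) (XT.nd (nat_lit 78) (nat_lit 0) (nat_lit 0) (XT.lf (nat_lit 0) (nat_lit 20647608528) (nat_lit 76) (nat_lit 9647930336) (nat_lit 76) (nat_lit 8846149073) (nat_lit 7) (nat_lit 4) (nat_lit 8) (nat_lit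 5) (nat_lit 8) (nat_lit 4) (nat_lit 347) (nat_lit 278) (nat_lit 275)) (XT.lf (nat_lit 0) (nat_lit 36775665697) (nat_lit 76) (nat_lit 3077242307) (nat_lit 76) (nat_lit 2046780024) (nat_lit 7) (nat_lit 4) (nat_lit 8) (nat_lit 5) (nat_lit 8) (nat_lit 4) (nat_lit 348) (nat_lit 278) (nat_lit 274))))))) (XT.nd (nat_lit 936) (nat_lit 0) (nat_lit 0) (XT.nd (nat_lit 468) (nat_lit 152) (nat_lit 0) (XT.nd (nat_lit 234) (nat_lit 76) (nat_lit 0) (XT.nd (nat_lit 78) (nat_lit 0) (nat_lit 0) (XT.lf (nat_lit 0) (nat_lit 4987750659) (nat_lit 152) (nat_lit 36088753398) (nat_lit 0) (nat_lit 3804699263) (nat_lit 5) (nat_lit 5) (nat_lit 7) (nat_lit 4) (nat_lit 5) (nat_lit 4) (nat_lit 349) (nat_lit 278) (nat_lit 273)) (XT.nd (nat_lit 78) (nat_lit 0) (nat_lit 0) (XT.lf (nat_lit 0) (nat_lit 12328447522) (nat_lit 152) (nat_lit 24821727068) (nat_lit 0) (nat_lit 10958675064) (nat_lit 5) (nat_lit 5) (nat_lit 7) (nat_lit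 4) (nat_lit 5) (nat_lit 4) (nat_lit 350) (nat_lit 278) (nat_lit 272)) (XT.lf (nat_lit 0) (nat_lit 19952275990) (nat_lit 152) (nat_lit 13248064210) (nat_lit 0) (nat_lit 18409613660) (nat_lit 5) (nat_lit 5) (nat_lit 7) (nat_lit 4) (nat_lit 5) (nat_lit 4) (nat_lit 351) (nat_lit 278) (nat_lit 271)))) (XT.nd (nat_lit 78) (nat_lit 76) (nat_lit 0) (XT.lf (nat_lit 0) (nat_lit 27904414305) (nat_lit 152) (nat_lit 1299180155) (nat_lit 0) (nat_lit 26201668760) (nat_lit 5) (nat_lit 5) (nat_lit 7) (nat_lit 4) (nat_lit 5) (nat_lit 4) (nat_lit 352) (nat_lit 278) (nat_lit 270)) (XT.nd (nat_lit 78) (nat_lit 0) (nat_lit 0) (XT.lf (nat_lit 0) (nat_lit 11462608352) (nat_lit 76) (nat_lit 24948341338) (nat_lit 76) (nat_lit 23097370594) (nat_lit 4) (nat_lit 4) (nat_lit 5) (nat_lit 5) (nat_lit 5) (nat_lit 4) (nat_lit 353) (nat_lit 278) (nat_lit 269)) (XT.lf (nat_lit 0) (nat_lit 24804010740) (nat_lit 76) (nat_lit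 20567589780) (nat_lit 76) (nat_lit 18579373482) (nat_lit 4) (nat_lit 4) (nat_lit 5) (nat_lit 5) (nat_lit 5) (nat_lit 4) (nat_lit 354) (nat_lit 278) (nat_lit 268))))) (XT.nd (nat_lit 234) (nat_lit 152) (nat_lit 0) (XT.nd (nat_lit 78) (nat_lit 0) (nat_lit 0) (XT.lf (nat_lit 0) (nat_lit 38761130408) (nat_lit 76) (nat_lit 16057382022) (nat_lit 76) (nat_lit 13942086507) (nat_lit 4) (nat_lit 4) (nat_lit 5) (nat_lit 5) (nat_lit 5) (nat_lit 4) (nat_lit 355) (nat_lit 278) (nat_lit 267)) (XT.nd (nat_lit 78) (nat_lit 0) (nat_lit 0) (XT.lf (nat_lit 0) (nat_lit 53416676212) (nat_lit 76) (nat_lit 11390990907) (nat_lit 76) (nat_lit 9158029450) (nat_lit 4) (nat_lit 4) (nat_lit 5) (nat_lit 5) (nat_lit 5) (nat_lit 4) (nat_lit 356) (nat_lit 278) (nat_lit 266)) (XT.lf (nat_lit 0) (nat_lit 68857495833) (nat_lit 76) (nat_lit 6540763746) (nat_lit 76) (nat_lit 4198852342) (nat_lit 4) (nat_lit 4) (nat_lit 5) (nat_lit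 5) (nat_lit 5) (nat_lit 4) (nat_lit 357) (nat_lit 278) (nat_lit 265)))) (XT.nd (nat_lit 78) (nat_lit 76) (nat_lit 0) (XT.lf (nat_lit 0) (nat_lit 933951863) (nat_lit 152) (nat_lit 528189661) (nat_lit 76) (nat_lit 84225321632) (nat_lit 3) (nat_lit 5) (nat_lit 5) (nat_lit 5) (nat_lit 4) (nat_lit 4) (nat_lit 358) (nat_lit 278) (nat_lit 264)) (XT.nd (nat_lit 78) (nat_lit 0) (nat_lit 0) (XT.lf (nat_lit 0) (nat_lit 6386772326) (nat_lit 152) (nat_lit 81900678421) (nat_lit 0) (nat_lit 3971345658) (nat_lit 2) (nat_lit 5) (nat_lit 4) (nat_lit 4) (nat_lit 2) (nat_lit 4) (nat_lit 359) (nat_lit 278) (nat_lit 263)) (XT.lf (nat_lit 0) (nat_lit 12142780131) (nat_lit 152) (nat_lit 77574743177) (nat_lit 0) (nat_lit 9644983958) (nat_lit 2) (nat_lit 5) (nat_lit 4) (nat_lit 4) (nat_lit 2) (nat_lit 4) (nat_lit 360) (nat_lit 278) (nat_lit 262)))))) (XT.nd (nat_lit 468) (nat_lit 0) (nat_lit 0) (XT.nd (nat_lit 234)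 (nat_lit 0) (nat_lit 0) (XT.nd (nat_lit 78) (nat_lit 0) (nat_lit 0) (XT.lf (nat_lit 0) (nat_lit 18204597979) (nat_lit 152) (nat_lit 73207134426) (nat_lit 0) (nat_lit 15630533746) (nat_lit 2) (nat_lit 5) (nat_lit 4) (nat_lit 4) (nat_lit 2) (nat_lit 4) (nat_lit 361) (nat_lit 278) (nat_lit 261)) (XT.nd (nat_lit 78) (nat_lit 0) (nat_lit 0) (XT.lf (nat_lit 0) (nat_lit 24608147754) (nat_lit 152) (nat_lit 68771970040) (nat_lit 0) (nat_lit 21963464948) (nat_lit 2) (nat_lit 5) (nat_lit 4) (nat_lit 4) (nat_lit 2) (nat_lit 4) (nat_lit 362) (nat_lit 278) (nat_lit 260)) (XT.lf (nat_lit 0) (nat_lit 31391376418) (nat_lit 152) (nat_lit 64242967566) (nat_lit 0) (nat_lit 28681306043) (nat_lit 2) (nat_lit 5) (nat_lit 4) (nat_lit 4) (nat_lit 2) (nat_lit 4) (nat_lit 363) (nat_lit 278) (nat_lit 259)))) (XT.nd (nat_lit 78) (nat_lit 0) (nat_lit 0) (XT.lf (nat_lit 0) (nat_lit 38594480881) (nat_lit 152) (nat_lit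 59593288469) (nat_lit 0) (nat_lit 35823866462) (nat_lit 2) (nat_lit 5) (nat_lit 4) (nat_lit 4) (nat_lit 2) (nat_lit 4) (nat_lit 364) (nat_lit 278) (nat_lit 258)) (XT.nd (nat_lit 78) (nat_lit 0) (nat_lit 0) (XT.lf (nat_lit 0) (nat_lit 46260146208) (nat_lit 152) (nat_lit 54795379095) (nat_lit 0) (nat_lit 43433472487) (nat_lit 2) (nat_lit 5) (nat_lit 4) (nat_lit 4) (nat_lit 2) (nat_lit 4) (nat_lit 365) (nat_lit 278) (nat_lit 257)) (XT.lf (nat_lit 0) (nat_lit 54433798562) (nat_lit 152) (nat_lit 49820807389) (nat_lit 0) (nat_lit 51555218081) (nat_lit 2) (nat_lit 5) (nat_lit 4) (nat_lit 4) (nat_lit 2) (nat_lit 4) (nat_lit 366) (nat_lit 278) (nat_lit 256))))) (XT.nd (nat_lit 234) (nat_lit 0) (nat_lit 0) (XT.nd (nat_lit 78) (nat_lit 0) (nat_lit 0) (XT.lf (nat_lit 0) (nat_lit 63163874402) (nat_lit 152) (nat_lit 44640094408) (nat_lit 0) (nat_lit 60237232107) (nat_lit 2) (nat_lit 5) (nat_lit 4) (nat_lit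 4) (nat_lit 2) (nat_lit 4) (nat_lit 367) (nat_lit 278) (nat_lit 255)) (XT.nd (nat_lit 78) (nat_lit 0) (nat_lit 0) (XT.lf (nat_lit 0) (nat_lit 72502107511) (nat_lit 152) (nat_lit 39222539630) (nat_lit 0) (nat_lit 69530963536) (nat_lit 2) (nat_lit 5) (nat_lit 4) (nat_lit 4) (nat_lit 2) (nat_lit 4) (nat_lit 368) (nat_lit 278) (nat_lit 254)) (XT.lf (nat_lit 0) (nat_lit 82503835567) (nat_lit 152) (nat_lit 33536039027) (nat_lit 0) (nat_lit 79491486332) (nat_lit 2) (nat_lit 5) (nat_lit 4) (nat_lit 4) (nat_lit 2) (nat_lit 4) (nat_lit 369) (nat_lit 278) (nat_lit 253)))) (XT.nd (nat_lit 78) (nat_lit 0) (nat_lit 0) (XT.lf (nat_lit 0) (nat_lit 93228328069) (nat_lit 152) (nat_lit 27546894818) (nat_lit 0) (nat_lit 90177825816) (nat_lit 2) (nat_lit 5) (nat_lit 4) (nat_lit 4) (nat_lit 2) (nat_lit 4) (nat_lit 370) (nat_lit 278) (nat_lit 252)) (XT.nd (nat_lit 78) (nat_lit 0) (nat_lit 0) (XT.lf (nat_lit 0)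 (nat_lit 104739137566) (nat_lit 152) (nat_lit 21219615777) (nat_lit 0) (nat_lit 101653308444) (nat_lit 2) (nat_lit 5) (nat_lit 4) (nat_lit 4) (nat_lit 2) (nat_lit 4) (nat_lit 371) (nat_lit 278) (nat_lit 251)) (XT.lf (nat_lit 0) (nat_lit 117104476261) (nat_lit 152) (nat_lit 14516706918) (nat_lit 0) (nat_lit 113985937076) (nat_lit 2) (nat_lit 5) (nat_lit 4) (nat_lit 4) (nat_lit 2) (nat_lit 4) (nat_lit 372) (nat_lit 278) (nat_lit 250))))))))
noncomputable def xc14 : XT := (XT.nd (nat_lit 44538) (nat_lit 0) (nat_lit 76) (XT.nd (nat_lit 858) (nat_lit 0) (nat_lit 0) (XT.nd (nat_lit 390) (nat_lit 0) (nat_lit 0) (XT.nd (nat_lit 156) (nat_lit 0) (nat_lit 0) (XT.nd (nat_lit 78) (nat_lit 76) (nat_lit 0) (XT.lf (nat_lit 0) (nat_lit 130397620237) (nat_lit 152) (nat_lit 7398447299) (nat_lit 0) (nat_lit 127248793955) (nat_lit 2) (nat_lit 5) (nat_lit 4) (nat_lit 4) (nat_lit 2) (nat_lit 4) (nat_lit 373)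 (nat_lit 278) (nat_lit 249)) (XT.lf (nat_lit 0) (nat_lit 183209197) (nat_lit 76) (nat_lit 144516994890) (nat_lit 76) (nat_lit 141340125002) (nat_lit 1) (nat_lit 4) (nat_lit 2) (nat_lit 5) (nat_lit 2) (nat_lit 4) (nat_lit 374) (nat_lit 278) (nat_lit 248))) (XT.nd (nat_lit 78) (nat_lit 0) (nat_lit 0) (XT.lf (nat_lit 0) (nat_lit 8528530891) (nat_lit 76) (nat_lit 151693009065) (nat_lit 76) (nat_lit 148490172873) (nat_lit 1) (nat_lit 4) (nat_lit 2) (nat_lit 5) (nat_lit 2) (nat_lit 4) (nat_lit 375) (nat_lit 278) (nat_lit 247)) (XT.nd (nat_lit 78) (nat_lit 0) (nat_lit 0) (XT.lf (nat_lit 0) (nat_lit 17442345463) (nat_lit 76) (nat_lit 159491930874) (nat_lit 76) (nat_lit 156265051809) (nat_lit 1) (nat_lit 4) (nat_lit 2) (nat_lit 5) (nat_lit 2) (nat_lit 4) (nat_lit 376) (nat_lit 278) (nat_lit 246)) (XT.lf (nat_lit 0) (nat_lit 26977475515) (nat_lit 76) (nat_lit 167959976149) (nat_lit 76) (nat_lit 164710835165)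 (nat_lit 1) (nat_lit 4) (nat_lit 2) (nat_lit 5) (nat_lit 2) (nat_lit 4) (nat_lit 377) (nat_lit 278) (nat_lit 245))))) (XT.nd (nat_lit 234) (nat_lit 0) (nat_lit 0) (XT.nd (nat_lit 78) (nat_lit 0) (nat_lit 0) (XT.lf (nat_lit 0) (nat_lit 37190425523) (nat_lit 76) (nat_lit 177147325900) (nat_lit 76) (nat_lit 173877572027) (nat_lit 1) (nat_lit 4) (nat_lit 2) (nat_lit 5) (nat_lit 2) (nat_lit 4) (nat_lit 378) (nat_lit 278) (nat_lit 244)) (XT.nd (nat_lit 78) (nat_lit 0) (nat_lit 0) (XT.lf (nat_lit 0) (nat_lit 48141716673) (nat_lit 76) (nat_lit 187108423681) (nat_lit 76) (nat_lit 183819583800) (nat_lit 1) (nat_lit 4) (nat_lit 2) (nat_lit 5) (nat_lit 2) (nat_lit 4) (nat_lit 379) (nat_lit 278) (nat_lit 243)) (XT.lf (nat_lit 0) (nat_lit 59896245503) (nat_lit 76) (nat_lit 197902298219) (nat_lit 76) (nat_lit 194595786109) (nat_lit 1) (nat_lit 4) (nat_lit 2) (nat_lit 5) (nat_lit 2) (nat_lit 4) (nat_lit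 380) (nat_lit 278) (nat_lit 242)))) (XT.nd (nat_lit 78) (nat_lit 0) (nat_lit 0) (XT.lf (nat_lit 0) (nat_lit 72523668482) (nat_lit 76) (nat_lit 209592913216) (nat_lit 76) (nat_lit 206270037930) (nat_lit 1) (nat_lit 4) (nat_lit 2) (nat_lit 5) (nat_lit 2) (nat_lit 4) (nat_lit 381) (nat_lit 278) (nat_lit 241)) (XT.nd (nat_lit 78) (nat_lit 0) (nat_lit 0) (XT.lf (nat_lit 0) (nat_lit 86098814782) (nat_lit 76) (nat_lit 222249546389) (nat_lit 76) (nat_lit 218911520015) (nat_lit 1) (nat_lit 4) (nat_lit 2) (nat_lit 5) (nat_lit 2) (nat_lit 4) (nat_lit 382) (nat_lit 278) (nat_lit 240)) (XT.lf (nat_lit 0) (nat_lit 100702129716) (nat_lit 76) (nat_lit 235947200010) (nat_lit 76) (nat_lit 232595144850) (nat_lit 1) (nat_lit 4) (nat_lit 2) (nat_lit 5) (nat_lit 2) (nat_lit 4) (nat_lit 383) (nat_lit 278) (nat_lit 239)))))) (XT.nd (nat_lit 468) (nat_lit 0) (nat_lit 0) (XT.nd (nat_lit 234) (nat_lit 0) (nat_lit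 0) (XT.nd (nat_lit 78) (nat_lit 0) (nat_lit 0) (XT.lf (nat_lit 0) (nat_lit 116420151444) (nat_lit 76) (nat_lit 250767045360) (nat_lit 76) (nat_lit 247402000583) (nat_lit 1) (nat_lit 4) (nat_lit 2) (nat_lit 5) (nat_lit 2) (nat_lit 4) (nat_lit 384) (nat_lit 278) (nat_lit 238)) (XT.nd (nat_lit 78) (nat_lit 0) (nat_lit 0) (XT.lf (nat_lit 0) (nat_lit 133346023801) (nat_lit 76) (nat_lit 266796903743) (nat_lit 76) (nat_lit 263419831544) (nat_lit 1) (nat_lit 4) (nat_lit 2) (nat_lit 5) (nat_lit 2) (nat_lit 4) (nat_lit 385) (nat_lit 278) (nat_lit 237)) (XT.lf (nat_lit 0) (nat_lit 151580048251) (nat_lit 76) (nat_lit 284131766913) (nat_lit 76) (nat_lit 280743558212) (nat_lit 1) (nat_lit 4) (nat_lit 2) (nat_lit 5) (nat_lit 2) (nat_lit 4) (nat_lit 386) (nat_lit 278) (nat_lit 236)))) (XT.nd (nat_lit 78) (nat_lit 0) (nat_lit 0) (XT.lf (nat_lit 0) (nat_lit 171230278273) (nat_lit 76) (nat_lit 302874359986)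 (nat_lit 76) (nat_lit 299475839709) (nat_lit 1) (nat_lit 4) (nat_lit 2) (nat_lit 5) (nat_lit 2) (nat_lit 4) (nat_lit 387) (nat_lit 278) (nat_lit 235)) (XT.nd (nat_lit 78) (nat_lit 0) (nat_lit 0) (XT.lf (nat_lit 0) (nat_lit 192413159675) (nat_lit 76) (nat_lit 323135750180) (nat_lit 76) (nat_lit 319727682147) (nat_lit 1) (nat_lit 4) (nat_lit 2) (nat_lit 5) (nat_lit 2) (nat_lit 4) (nat_lit 388) (nat_lit 278) (nat_lit 234)) (XT.lf (nat_lit 0) (nat_lit 215254220642) (nat_lit 76) (nat_lit 345036004992) (nat_lit 76) (nat_lit 341619096444) (nat_lit 1) (nat_lit 4) (nat_lit 2) (nat_lit 5) (nat_lit 2) (nat_lit 4) (nat_lit 389) (nat_lit 278) (nat_lit 233))))) (XT.nd (nat_lit 234) (nat_lit 0) (nat_lit 0) (XT.nd (nat_lit 78) (nat_lit 0) (nat_lit 0) (XT.lf (nat_lit 0) (nat_lit 239888815611) (nat_lit 76) (nat_lit 368704903710) (nat_lit 76) (nat_lit 365279809500) (nat_lit 1) (nat_lit 4) (nat_lit 2) (nat_lit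 5) (nat_lit 2) (nat_lit 4) (nat_lit 390) (nat_lit 278) (nat_lit 232)) (XT.nd (nat_lit 78) (nat_lit 0) (nat_lit 0) (XT.lf (nat_lit 0) (nat_lit 266462927365) (nat_lit 76) (nat_lit 394282706474) (nat_lit 76) (nat_lit 390850032948) (nat_lit 1) (nat_lit 4) (nat_lit 2) (nat_lit 5) (nat_lit 2) (nat_lit 4) (nat_lit 391) (nat_lit 278) (nat_lit 231)) (XT.lf (nat_lit 0) (nat_lit 295134032123) (nat_lit 76) (nat_lit 421920985449) (nat_lit 76) (nat_lit 418481294038) (nat_lit 1) (nat_lit 4) (nat_lit 2) (nat_lit 5) (nat_lit 2) (nat_lit 4) (nat_lit 392) (nat_lit 278) (nat_lit 230)))) (XT.nd (nat_lit 78) (nat_lit 0) (nat_lit 0) (XT.lf (nat_lit 0) (nat_lit 326072032728) (nat_lit 76) (nat_lit 451783523030) (nat_lit 76) (nat_lit 448337333576) (nat_lit 1) (nat_lit 4) (nat_lit 2) (nat_lit 5) (nat_lit 2) (nat_lit 4) (nat_lit 393) (nat_lit 278) (nat_lit 229)) (XT.nd (nat_lit 42822) (nat_lit 0) (nat_lit 684) (XT.lf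 (nat_lit 0) (nat_lit 359460265479) (nat_lit 76) (nat_lit 484047282400) (nat_lit 76) (nat_lit 480595076241) (nat_lit 1) (nat_lit 4) (nat_lit 2) (nat_lit 5) (nat_lit 2) (nat_lit 4) (nat_lit 394) (nat_lit 278) (nat_lit 228)) (XT.lf (nat_lit 0) (nat_lit 2775300545) (nat_lit 76) (nat_lit 5685940671) (nat_lit 76) (nat_lit 5685940671) (nat_lit 10) (nat_lit 4) (nat_lit 11) (nat_lit 5) (nat_lit 11) (nat_lit 4) (nat_lit 342) (nat_lit 279) (nat_lit 279))))))) (XT.nd (nat_lit 936) (nat_lit 152) (nat_lit 0) (XT.nd (nat_lit 468) (nat_lit 228) (nat_lit 0) (XT.nd (nat_lit 234) (nat_lit 76) (nat_lit 0) (XT.nd (nat_lit 78) (nat_lit 152) (nat_lit 0) (XT.lf (nat_lit 0) (nat_lit 22351780479) (nat_lit 76) (nat_lit 4053637660) (nat_lit 76) (nat_lit 3726963758) (nat_lit 10) (nat_lit 4) (nat_lit 11) (nat_lit 5) (nat_lit 11) (nat_lit 4) (nat_lit 343) (nat_lit 279) (nat_lit 278)) (XT.nd (nat_lit 78) (nat_lit 0) (nat_lit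 0) (XT.lf (nat_lit 0) (nat_lit 4142238281) (nat_lit 152) (nat_lit 24440802518) (nat_lit 0) (nat_lit 3543048056) (nat_lit 8) (nat_lit 5) (nat_lit 10) (nat_lit 4) (nat_lit 8) (nat_lit 4) (nat_lit 344) (nat_lit 279) (nat_lit 277)) (XT.lf (nat_lit 0) (nat_lit 12311016935) (nat_lit 152) (nat_lit 10530158266) (nat_lit 0) (nat_lit 11445093170) (nat_lit 8) (nat_lit 5) (nat_lit 10) (nat_lit 4) (nat_lit 8) (nat_lit 4) (nat_lit 345) (nat_lit 279) (nat_lit 276)))) (XT.nd (nat_lit 78) (nat_lit 0) (nat_lit 0) (XT.lf (nat_lit 0) (nat_lit 3885748884) (nat_lit 76) (nat_lit 16931144955) (nat_lit 76) (nat_lit 15818245690) (nat_lit 7) (nat_lit 4) (nat_lit 8) (nat_lit 5) (nat_lit 8) (nat_lit 4) (nat_lit 346) (nat_lit 279) (nat_lit 275)) (XT.nd (nat_lit 78) (nat_lit 0) (nat_lit 0) (XT.lf (nat_lit 0) (nat_lit 19130810241) (nat_lit 76) (nat_lit 10695787711) (nat_lit 76) (nat_lit 9354207427) (nat_lit 7) (nat_lit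 4) (nat_lit 8) (nat_lit 5) (nat_lit 8) (nat_lit 4) (nat_lit 347) (nat_lit 279) (nat_lit 274)) (XT.lf (nat_lit 0) (nat_lit 34947192321) (nat_lit 76) (nat_lit 4276486527) (nat_lit 76) (nat_lit 2723164560) (nat_lit 7) (nat_lit 4) (nat_lit 8) (nat_lit 5) (nat_lit 8) (nat_lit 4) (nat_lit 348) (nat_lit 279) (nat_lit 273))))) (XT.nd (nat_lit 234) (nat_lit 76) (nat_lit 0) (XT.nd (nat_lit 78) (nat_lit 0) (nat_lit 0) (XT.lf (nat_lit 0) (nat_lit 4125632464) (nat_lit 152) (nat_lit 38354086958) (nat_lit 0) (nat_lit 2459557147) (nat_lit 5) (nat_lit 5) (nat_lit 7) (nat_lit 4) (nat_lit 5) (nat_lit 4) (nat_lit 349) (nat_lit 279) (nat_lit 272)) (XT.nd (nat_lit 78) (nat_lit 0) (nat_lit 0) (XT.lf (nat_lit 0) (nat_lit 11320115796) (nat_lit 152) (nat_lit 27372986387) (nat_lit 0) (nat_lit 9481150607) (nat_lit 5) (nat_lit 5) (nat_lit 7) (nat_lit 4) (nat_lit 5) (nat_lit 4) (nat_lit 350) (nat_lit 279) (nat_lit 271))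 (XT.lf (nat_lit 0) (nat_lit 18808561364) (nat_lit 152) (nat_lit 16064069602) (nat_lit 0) (nat_lit 16809512961) (nat_lit 5) (nat_lit 5) (nat_lit 7) (nat_lit 4) (nat_lit 5) (nat_lit 4) (nat_lit 351) (nat_lit 279) (nat_lit 270)))) (XT.nd (nat_lit 78) (nat_lit 76) (nat_lit 0) (XT.lf (nat_lit 0) (nat_lit 26635345143) (nat_lit 152) (nat_lit 4360320799) (nat_lit 0) (nat_lit 24488071541) (nat_lit 5) (nat_lit 5) (nat_lit 7) (nat_lit 4) (nat_lit 5) (nat_lit 4) (nat_lit 352) (nat_lit 279) (nat_lit 269)) (XT.nd (nat_lit 78) (nat_lit 0) (nat_lit 0) (XT.lf (nat_lit 0) (nat_lit 8065770600) (nat_lit 76) (nat_lit 26907006756) (nat_lit 76) (nat_lit 24622487600) (nat_lit 4) (nat_lit 4) (nat_lit 5) (nat_lit 5) (nat_lit 5) (nat_lit 4) (nat_lit 353) (nat_lit 279) (nat_lit 268)) (XT.lf (nat_lit 0) (nat_lit 21190060050) (nat_lit 76) (nat_lit 22632507085) (nat_lit 76) (nat_lit 20220908712) (nat_lit 4) (nat_lit 4)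 (nat_lit 5) (nat_lit 5) (nat_lit 5) (nat_lit 4) (nat_lit 354) (nat_lit 279) (nat_lit 267)))))) (XT.nd (nat_lit 468) (nat_lit 0) (nat_lit 0) (XT.nd (nat_lit 234) (nat_lit 152) (nat_lit 0) (XT.nd (nat_lit 78) (nat_lit 0) (nat_lit 0) (XT.lf (nat_lit 0) (nat_lit 34946149219) (nat_lit 76) (nat_lit 18220680704) (nat_lit 76) (nat_lit 15691416388) (nat_lit 4) (nat_lit 4) (nat_lit 5) (nat_lit 5) (nat_lit 5) (nat_lit 4) (nat_lit 355) (nat_lit 279) (nat_lit 266)) (XT.nd (nat_lit 78) (nat_lit 0) (nat_lit 0) (XT.lf (nat_lit 0) (nat_lit 49415555674) (nat_lit 76) (nat_lit 13645383456) (nat_lit 76) (nat_lit 11007169194) (nat_lit 4) (nat_lit 4) (nat_lit 5) (nat_lit 5) (nat_lit 5) (nat_lit 4) (nat_lit 356) (nat_lit 279) (nat_lit 265)) (XT.lf (nat_lit 0) (nat_lit 64684024044) (nat_lit 76) (nat_lit 8879502468) (nat_lit 76) (nat_lit 6140408626) (nat_lit 4) (nat_lit 4) (nat_lit 5) (nat_lit 5) (nat_lit 5) (nat_lit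 4) (nat_lit 357) (nat_lit 279) (nat_lit 264)))) (XT.nd (nat_lit 78) (nat_lit 152) (nat_lit 0) (XT.lf (nat_lit 0) (nat_lit 80842034143) (nat_lit 76) (nat_lit 3894795483) (nat_lit 76) (nat_lit 1062294623) (nat_lit 4) (nat_lit 4) (nat_lit 5) (nat_lit 5) (nat_lit 5) (nat_lit 4) (nat_lit 358) (nat_lit 279) (nat_lit 263)) (XT.nd (nat_lit 78) (nat_lit 0) (nat_lit 0) (XT.lf (nat_lit 0) (nat_lit 4233630705) (nat_lit 152) (nat_lit 86693568640) (nat_lit 0) (nat_lit 1453641334) (nat_lit 2) (nat_lit 5) (nat_lit 4) (nat_lit 4) (nat_lit 2) (nat_lit 4) (nat_lit 359) (nat_lit 279) (nat_lit 262)) (XT.lf (nat_lit 0) (nat_lit 9915277653) (nat_lit 152) (nat_lit 82513980181) (nat_lit 0) (nat_lit 7059020223) (nat_lit 2) (nat_lit 5) (nat_lit 4) (nat_lit 4) (nat_lit 2) (nat_lit 4) (nat_lit 360) (nat_lit 279) (nat_lit 261))))) (XT.nd (nat_lit 234) (nat_lit 0) (nat_lit 0) (XT.nd (nat_lit 78) (nat_lit 0) (nat_lit 0)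 (XT.lf (nat_lit 0) (nat_lit 15908242857) (nat_lit 152) (nat_lit 78281877711) (nat_lit 0) (nat_lit 12981366852) (nat_lit 2) (nat_lit 5) (nat_lit 4) (nat_lit 4) (nat_lit 2) (nat_lit 4) (nat_lit 361) (nat_lit 279) (nat_lit 260)) (XT.nd (nat_lit 78) (nat_lit 0) (nat_lit 0) (XT.lf (nat_lit 0) (nat_lit 22248040183) (nat_lit 152) (nat_lit 73972182106) (nat_lit 0) (nat_lit 19255776610) (nat_lit 2) (nat_lit 5) (nat_lit 4) (nat_lit 4) (nat_lit 2) (nat_lit 4) (nat_lit 362) (nat_lit 279) (nat_lit 259)) (XT.lf (nat_lit 0) (nat_lit 28972238802) (nat_lit 152) (nat_lit 69559354427) (nat_lit 0) (nat_lit 25919431184) (nat_lit 2) (nat_lit 5) (nat_lit 4) (nat_lit 4) (nat_lit 2) (nat_lit 4) (nat_lit 363) (nat_lit 279) (nat_lit 258)))) (XT.nd (nat_lit 78) (nat_lit 0) (nat_lit 0) (XT.lf (nat_lit 0) (nat_lit 36120685817) (nat_lit 152) (nat_lit 65017244585) (nat_lit 0) (nat_lit 33011818898) (nat_lit 2) (nat_lit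 5) (nat_lit 4) (nat_lit 4) (nat_lit 2) (nat_lit 4) (nat_lit 364) (nat_lit 279) (nat_lit 257)) (XT.nd (nat_lit 78) (nat_lit 0) (nat_lit 0) (XT.lf (nat_lit 0) (nat_lit 43735742394) (nat_lit 152) (nat_lit 60318936374) (nat_lit 0) (nat_lit 40574968715) (nat_lit 2) (nat_lit 5) (nat_lit 4) (nat_lit 4) (nat_lit 2) (nat_lit 4) (nat_lit 365) (nat_lit 279) (nat_lit 256)) (XT.lf (nat_lit 0) (nat_lit 51862534795) (nat_lit 152) (nat_lit 55436587967) (nat_lit 0) (nat_lit 48653699301) (nat_lit 2) (nat_lit 5) (nat_lit 4) (nat_lit 4) (nat_lit 2) (nat_lit 4) (nat_lit 366) (nat_lit 279) (nat_lit 255))))))))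
noncomputable def xc15 : XT := (XT.nd (nat_lit 1794) (nat_lit 0) (nat_lit 0) (XT.nd (nat_lit 858) (nat_lit 0) (nat_lit 0) (XT.nd (nat_lit 390) (nat_lit 76) (nat_lit 0) (XT.nd (nat_lit 156) (nat_lit 0) (nat_lit 0) (XT.nd (nat_lit 78) (nat_lit 0) (nat_lit 0) (XT.lf (nat_lit 0) (nat_lit 60549221790) (nat_lit 152) (nat_lit 50341266929) (nat_lit 0) (nat_lit 57295884616) (nat_lit 2) (nat_lit 5) (nat_lit 4) (nat_lit 4) (nat_lit 2) (nat_lit 4) (nat_lit 367) (nat_lit 279) (nat_lit 254)) (XT.lf (nat_lit 0) (nat_lit 69847280042) (nat_lit 152) (nat_lit 45002778765) (nat_lit 0) (nat_lit 66552737609) (nat_lit 2) (nat_lit 5) (nat_lit 4) (nat_lit 4) (nat_lit 2) (nat_lit 4) (nat_lit 368) (nat_lit 279) (nat_lit 253))) (XT.nd (nat_lit 78) (nat_lit 0) (nat_lit 0) (XT.lf (nat_lit 0) (nat_lit 79811809157) (nat_lit 152) (nat_lit 39389487990) (nat_lit 0) (nat_lit 76479113705) (nat_lit 2) (nat_lit 5) (nat_lit 4)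 (nat_lit 4) (nat_lit 2) (nat_lit 4) (nat_lit 369) (nat_lit 279) (nat_lit 252)) (XT.nd (nat_lit 78) (nat_lit 0) (nat_lit 0) (XT.lf (nat_lit 0) (nat_lit 90501858195) (nat_lit 152) (nat_lit 33468130658) (nat_lit 0) (nat_lit 87133835874) (nat_lit 2) (nat_lit 5) (nat_lit 4) (nat_lit 4) (nat_lit 2) (nat_lit 4) (nat_lit 370) (nat_lit 279) (nat_lit 251)) (XT.lf (nat_lit 0) (nat_lit 101980775595) (nat_lit 152) (nat_lit 27203617245) (nat_lit 0) (nat_lit 98580043211) (nat_lit 2) (nat_lit 5) (nat_lit 4) (nat_lit 4) (nat_lit 2) (nat_lit 4) (nat_lit 371) (nat_lit 279) (nat_lit 250))))) (XT.nd (nat_lit 234) (nat_lit 76) (nat_lit 0) (XT.nd (nat_lit 78) (nat_lit 0) (nat_lit 0) (XT.lf (nat_lit 0) (nat_lit 114316584571) (nat_lit 152) (nat_lit 20558824707) (nat_lit 0) (nat_lit 110885565091) (nat_lit 2) (nat_lit 5) (nat_lit 4) (nat_lit 4) (nat_lit 2) (nat_lit 4) (nat_lit 372) (nat_lit 279) (nat_lit 249)) (XT.nd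 (nat_lit 78) (nat_lit 0) (nat_lit 0) (XT.lf (nat_lit 0) (nat_lit 127582386214) (nat_lit 152) (nat_lit 13494376497) (nat_lit 0) (nat_lit 124123323127) (nat_lit 2) (nat_lit 5) (nat_lit 4) (nat_lit 4) (nat_lit 2) (nat_lit 4) (nat_lit 373) (nat_lit 279) (nat_lit 248)) (XT.lf (nat_lit 0) (nat_lit 141856792681) (nat_lit 152) (nat_lit 5968409218) (nat_lit 0) (nat_lit 138371763291) (nat_lit 2) (nat_lit 5) (nat_lit 4) (nat_lit 4) (nat_lit 2) (nat_lit 4) (nat_lit 374) (nat_lit 279) (nat_lit 247)))) (XT.nd (nat_lit 78) (nat_lit 0) (nat_lit 0) (XT.lf (nat_lit 0) (nat_lit 2131909885) (nat_lit 76) (nat_lit 155125768251) (nat_lit 76) (nat_lit 151616695987) (nat_lit 1) (nat_lit 4) (nat_lit 2) (nat_lit 5) (nat_lit 2) (nat_lit 4) (nat_lit 375) (nat_lit 279) (nat_lit 246)) (XT.nd (nat_lit 78) (nat_lit 0) (nat_lit 0) (XT.lf (nat_lit 0) (nat_lit 11001594800) (nat_lit 76) (nat_lit 162946425503) (nat_lit 76) (nat_lit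 159415091320) (nat_lit 1) (nat_lit 4) (nat_lit 2) (nat_lit 5) (nat_lit 2) (nat_lit 4) (nat_lit 376) (nat_lit 279) (nat_lit 245)) (XT.lf (nat_lit 0) (nat_lit 20495864060) (nat_lit 76) (nat_lit 171434596189) (nat_lit 76) (nat_lit 167882649117) (nat_lit 1) (nat_lit 4) (nat_lit 2) (nat_lit 5) (nat_lit 2) (nat_lit 4) (nat_lit 377) (nat_lit 279) (nat_lit 244)))))) (XT.nd (nat_lit 468) (nat_lit 0) (nat_lit 0) (XT.nd (nat_lit 234) (nat_lit 0) (nat_lit 0) (XT.nd (nat_lit 78) (nat_lit 0) (nat_lit 0) (XT.lf (nat_lit 0) (nat_lit 30670980001) (nat_lit 76) (nat_lit 180640580579) (nat_lit 76) (nat_lit 177069547499) (nat_lit 1) (nat_lit 4) (nat_lit 2) (nat_lit 5) (nat_lit 2) (nat_lit 4) (nat_lit 378) (nat_lit 279) (nat_lit 243)) (XT.nd (nat_lit 78) (nat_lit 0) (nat_lit 0) (XT.lf (nat_lit 0) (nat_lit 41587239607) (nat_lit 76) (nat_lit 190618932655) (nat_lit 76) (nat_lit 187030227346) (nat_lit 1) (nat_lit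 4) (nat_lit 2) (nat_lit 5) (nat_lit 2) (nat_lit 4) (nat_lit 379) (nat_lit 279) (nat_lit 242)) (XT.lf (nat_lit 0) (nat_lit 53309331823) (nat_lit 76) (nat_lit 201428783393) (nat_lit 76) (nat_lit 197823714908) (nat_lit 1) (nat_lit 4) (nat_lit 2) (nat_lit 5) (nat_lit 2) (nat_lit 4) (nat_lit 380) (nat_lit 279) (nat_lit 241)))) (XT.nd (nat_lit 78) (nat_lit 0) (nat_lit 0) (XT.lf (nat_lit 0) (nat_lit 65906720900) (nat_lit 76) (nat_lit 213134191167) (nat_lit 76) (nat_lit 209513971594) (nat_lit 1) (nat_lit 4) (nat_lit 2) (nat_lit 5) (nat_lit 2) (nat_lit 4) (nat_lit 381) (nat_lit 279) (nat_lit 240)) (XT.nd (nat_lit 78) (nat_lit 0) (nat_lit 0) (XT.lf (nat_lit 0) (nat_lit 79454058031) (nat_lit 76) (nat_lit 225804521357) (nat_lit 76) (nat_lit 222170272998) (nat_lit 1) (nat_lit 4) (nat_lit 2) (nat_lit 5) (nat_lit 2) (nat_lit 4) (nat_lit 382) (nat_lit 279) (nat_lit 239)) (XT.lf (nat_lit 0) (nat_lit 94031623734)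 (nat_lit 76) (nat_lit 239514857400) (nat_lit 76) (nat_lit 235867619425) (nat_lit 1) (nat_lit 4) (nat_lit 2) (nat_lit 5) (nat_lit 2) (nat_lit 4) (nat_lit 383) (nat_lit 279) (nat_lit 238))))) (XT.nd (nat_lit 234) (nat_lit 0) (nat_lit 0) (XT.nd (nat_lit 78) (nat_lit 0) (nat_lit 0) (XT.lf (nat_lit 0) (nat_lit 109725803582) (nat_lit 76) (nat_lit 254346445733) (nat_lit 76) (nat_lit 250687180336) (nat_lit 1) (nat_lit 4) (nat_lit 2) (nat_lit 5) (nat_lit 2) (nat_lit 4) (nat_lit 384) (nat_lit 279) (nat_lit 237)) (XT.nd (nat_lit 78) (nat_lit 0) (nat_lit 0) (XT.lf (nat_lit 0) (nat_lit 126629600124) (nat_lit 76) (nat_lit 270387177249) (nat_lit 76) (nat_lit 266716775350) (nat_lit 1) (nat_lit 4) (nat_lit 2) (nat_lit 5) (nat_lit 2) (nat_lit 4) (nat_lit 385) (nat_lit 279) (nat_lit 236)) (XT.lf (nat_lit 0) (nat_lit 144843184005) (nat_lit 76) (nat_lit 287732108136) (nat_lit 76) (nat_lit 284051394660) (nat_lit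 1) (nat_lit 4) (nat_lit 2) (nat_lit 5) (nat_lit 2) (nat_lit 4) (nat_lit 386) (nat_lit 279) (nat_lit 235)))) (XT.nd (nat_lit 78) (nat_lit 0) (nat_lit 0) (XT.lf (nat_lit 0) (nat_lit 164474487574) (nat_lit 76) (nat_lit 306484023168) (nat_lit 76) (nat_lit 302793761936) (nat_lit 1) (nat_lit 4) (nat_lit 2) (nat_lit 5) (nat_lit 2) (nat_lit 4) (nat_lit 387) (nat_lit 279) (nat_lit 234)) (XT.nd (nat_lit 78) (nat_lit 0) (nat_lit 0) (XT.lf (nat_lit 0) (nat_lit 185639844483) (nat_lit 76) (nat_lit 326754044805) (nat_lit 76) (nat_lit 323054943059) (nat_lit 1) (nat_lit 4) (nat_lit 2) (nat_lit 5) (nat_lit 2) (nat_lit 4) (nat_lit 388) (nat_lit 279) (nat_lit 233)) (XT.lf (nat_lit 0) (nat_lit 208464679067) (nat_lit 76) (nat_lit 348662291695) (nat_lit 76) (nat_lit 344955004286) (nat_lit 1) (nat_lit 4) (nat_lit 2) (nat_lit 5) (nat_lit 2) (nat_lit 4) (nat_lit 389) (nat_lit 279) (nat_lit 232))))))) (XT.nd (nat_lit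 43524) (nat_lit 0) (nat_lit 228) (XT.nd (nat_lit 43056) (nat_lit 0) (nat_lit 456) (XT.nd (nat_lit 234) (nat_lit 0) (nat_lit 0) (XT.nd (nat_lit 78) (nat_lit 0) (nat_lit 0) (XT.lf (nat_lit 0) (nat_lit 233084249607) (nat_lit 76) (nat_lit 372338590484) (nat_lit 76) (nat_lit 368623723760) (nat_lit 1) (nat_lit 4) (nat_lit 2) (nat_lit 5) (nat_lit 2) (nat_lit 4) (nat_lit 390) (nat_lit 279) (nat_lit 231)) (XT.nd (nat_lit 78) (nat_lit 0) (nat_lit 0) (XT.lf (nat_lit 0) (nat_lit 259644449853) (nat_lit 76) (nat_lit 397923245166) (nat_lit 76) (nat_lit 394201360557) (nat_lit 1) (nat_lit 4) (nat_lit 2) (nat_lit 5) (nat_lit 2) (nat_lit 4) (nat_lit 391) (nat_lit 279) (nat_lit 230)) (XT.lf (nat_lit 0) (nat_lit 288302673585) (nat_lit 76) (nat_lit 425567868510) (nat_lit 76) (nat_lit 421839485858) (nat_lit 1) (nat_lit 4) (nat_lit 2) (nat_lit 5) (nat_lit 2) (nat_lit 4) (nat_lit 392) (nat_lit 279) (nat_lit 229))))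 (XT.nd (nat_lit 78) (nat_lit 0) (nat_lit 0) (XT.lf (nat_lit 0) (nat_lit 319228747314) (nat_lit 76) (nat_lit 455436280506) (nat_lit 76) (nat_lit 451701881148) (nat_lit 1) (nat_lit 4) (nat_lit 2) (nat_lit 5) (nat_lit 2) (nat_lit 4) (nat_lit 393) (nat_lit 279) (nat_lit 228)) (XT.nd (nat_lit 42666) (nat_lit 0) (nat_lit 912) (XT.lf (nat_lit 0) (nat_lit 352605936662) (nat_lit 76) (nat_lit 487705479150) (nat_lit 76) (nat_lit 483965508769) (nat_lit 1) (nat_lit 4) (nat_lit 2) (nat_lit 5) (nat_lit 2) (nat_lit 4) (nat_lit 394) (nat_lit 279) (nat_lit 227)) (XT.lf (nat_lit 0) (nat_lit 12291890092) (nat_lit 76) (nat_lit 115581150) (nat_lit 76) (nat_lit 115581150) (nat_lit 13) (nat_lit 4) (nat_lit 14) (nat_lit 5) (nat_lit 14) (nat_lit 4) (nat_lit 340) (nat_lit 280) (nat_lit 280))))) (XT.nd (nat_lit 234) (nat_lit 228) (nat_lit 0) (XT.nd (nat_lit 78) (nat_lit 76) (nat_lit 0) (XT.lf (nat_lit 0) (nat_lit 8249908971)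 (nat_lit 152) (nat_lit 10457799185) (nat_lit 0) (nat_lit 7897101158) (nat_lit 11) (nat_lit 5) (nat_lit 13) (nat_lit 4) (nat_lit 11) (nat_lit 4) (nat_lit 341) (nat_lit 280) (nat_lit 279)) (XT.nd (nat_lit 78) (nat_lit 0) (nat_lit 0) (XT.lf (nat_lit 0) (nat_lit 5136496501) (nat_lit 76) (nat_lit 11924060963) (nat_lit 76) (nat_lit 11244579248) (nat_lit 10) (nat_lit 4) (nat_lit 11) (nat_lit 5) (nat_lit 11) (nat_lit 4) (nat_lit 342) (nat_lit 280) (nat_lit 278)) (XT.lf (nat_lit 0) (nat_lit 21554245713) (nat_lit 76) (nat_lit 4790420805) (nat_lit 76) (nat_lit 3808463256) (nat_lit 10) (nat_lit 4) (nat_lit 11) (nat_lit 5) (nat_lit 11) (nat_lit 4) (nat_lit 343) (nat_lit 280) (nat_lit 277)))) (XT.nd (nat_lit 78) (nat_lit 76) (nat_lit 0) (XT.lf (nat_lit 0) (nat_lit 3842642446) (nat_lit 152) (nat_lit 25674611546) (nat_lit 0) (nat_lit 2640711240) (nat_lit 8) (nat_lit 5) (nat_lit 10) (nat_lit 4) (nat_lit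 8) (nat_lit 4) (nat_lit 344) (nat_lit 280) (nat_lit 276)) (XT.nd (nat_lit 78) (nat_lit 76) (nat_lit 0) (XT.lf (nat_lit 0) (nat_lit 11830136739) (nat_lit 152) (nat_lit 12115869637) (nat_lit 0) (nat_lit 10381230033) (nat_lit 8) (nat_lit 5) (nat_lit 10) (nat_lit 4) (nat_lit 8) (nat_lit 4) (nat_lit 345) (nat_lit 280) (nat_lit 275)) (XT.lf (nat_lit 0) (nat_lit 1910997637) (nat_lit 76) (nat_lit 18226328714) (nat_lit 76) (nat_lit 16548740989) (nat_lit 7) (nat_lit 4) (nat_lit 8) (nat_lit 5) (nat_lit 8) (nat_lit 4) (nat_lit 346) (nat_lit 280) (nat_lit 274)))))) (XT.nd (nat_lit 468) (nat_lit 76) (nat_lit 0) (XT.nd (nat_lit 234) (nat_lit 0) (nat_lit 0) (XT.nd (nat_lit 78) (nat_lit 152) (nat_lit 0) (XT.lf (nat_lit 0) (nat_lit 16844383905) (nat_lit 76) (nat_lit 12142358316) (nat_lit 76) (nat_lit 10253028907) (nat_lit 7) (nat_lit 4) (nat_lit 8) (nat_lit 5) (nat_lit 8) (nat_lit 4) (nat_lit 347) (nat_lit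 280) (nat_lit 273)) (XT.nd (nat_lit 78) (nat_lit 152) (nat_lit 0) (XT.lf (nat_lit 0) (nat_lit 32372177940) (nat_lit 76) (nat_lit 5863230139) (nat_lit 76) (nat_lit 3777843615) (nat_lit 7) (nat_lit 4) (nat_lit 8) (nat_lit 5) (nat_lit 8) (nat_lit 4) (nat_lit 348) (nat_lit 280) (nat_lit 272)) (XT.lf (nat_lit 0) (nat_lit 2890420669) (nat_lit 152) (nat_lit 41395372782) (nat_lit 0) (nat_lit 731448393) (nat_lit 5) (nat_lit 5) (nat_lit 7) (nat_lit 4) (nat_lit 5) (nat_lit 4) (nat_lit 349) (nat_lit 280) (nat_lit 271)))) (XT.nd (nat_lit 78) (nat_lit 0) (nat_lit 0) (XT.lf (nat_lit 0) (nat_lit 9949521102) (nat_lit 152) (nat_lit 30679018283) (nat_lit 0) (nat_lit 7630465611) (nat_lit 5) (nat_lit 5) (nat_lit 7) (nat_lit 4) (nat_lit 5) (nat_lit 4) (nat_lit 350) (nat_lit 280) (nat_lit 270)) (XT.nd (nat_lit 78) (nat_lit 0) (nat_lit 0) (XT.lf (nat_lit 0) (nat_lit 17312612134) (nat_lit 152) (nat_lit 19615236750)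 (nat_lit 0) (nat_lit 14845331445) (nat_lit 5) (nat_lit 5) (nat_lit 7) (nat_lit 4) (nat_lit 5) (nat_lit 4) (nat_lit 351) (nat_lit 280) (nat_lit 269)) (XT.lf (nat_lit 0) (nat_lit 25023326898) (nat_lit 152) (nat_lit 8138465033) (nat_lit 0) (nat_lit 22418800654) (nat_lit 5) (nat_lit 5) (nat_lit 7) (nat_lit 4) (nat_lit 5) (nat_lit 4) (nat_lit 352) (nat_lit 280) (nat_lit 268))))) (XT.nd (nat_lit 234) (nat_lit 0) (nat_lit 0) (XT.nd (nat_lit 78) (nat_lit 0) (nat_lit 0) (XT.lf (nat_lit 0) (nat_lit 3945590917) (nat_lit 76) (nat_lit 29243369333) (nat_lit 76) (nat_lit 26511763872) (nat_lit 4) (nat_lit 4) (nat_lit 5) (nat_lit 5) (nat_lit 5) (nat_lit 4) (nat_lit 353) (nat_lit 280) (nat_lit 267)) (XT.nd (nat_lit 78) (nat_lit 0) (nat_lit 0) (XT.lf (nat_lit 0) (nat_lit 16868849868) (nat_lit 76) (nat_lit 25067251038) (nat_lit 76) (nat_lit 22217979636) (nat_lit 4) (nat_lit 4) (nat_lit 5) (nat_lit 5) (nat_lit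 5) (nat_lit 4) (nat_lit 354) (nat_lit 280) (nat_lit 266)) (XT.lf (nat_lit 0) (nat_lit 30438799687) (nat_lit 76) (nat_lit 20746518524) (nat_lit 76) (nat_lit 17788297175) (nat_lit 4) (nat_lit 4) (nat_lit 5) (nat_lit 5) (nat_lit 5) (nat_lit 4) (nat_lit 355) (nat_lit 280) (nat_lit 265)))) (XT.nd (nat_lit 78) (nat_lit 0) (nat_lit 0) (XT.lf (nat_lit 0) (nat_lit 44735854892) (nat_lit 76) (nat_lit 16255567449) (nat_lit 76) (nat_lit 13196466520) (nat_lit 4) (nat_lit 4) (nat_lit 5) (nat_lit 5) (nat_lit 5) (nat_lit 4) (nat_lit 356) (nat_lit 280) (nat_lit 264)) (XT.nd (nat_lit 78) (nat_lit 0) (nat_lit 0) (XT.lf (nat_lit 0) (nat_lit 59844738771) (nat_lit 76) (nat_lit 11567784769) (nat_lit 76) (nat_lit 8415276823) (nat_lit 4) (nat_lit 4) (nat_lit 5) (nat_lit 5) (nat_lit 5) (nat_lit 4) (nat_lit 357) (nat_lit 280) (nat_lit 263)) (XT.lf (nat_lit 0) (nat_lit 75854985452) (nat_lit 76) (nat_lit 6655391033)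 (nat_lit 76) (nat_lit 3416395107) (nat_lit 4) (nat_lit 4) (nat_lit 5) (nat_lit 5) (nat_lit 5) (nat_lit 4) (nat_lit 358) (nat_lit 280) (nat_lit 262))))))))
noncomputable def xc16 : XT := (XT.nd (nat_lit 1794) (nat_lit 0) (nat_lit 0) (XT.nd (nat_lit 858) (nat_lit 76) (nat_lit 0) (XT.nd (nat_lit 390) (nat_lit 0) (nat_lit 0) (XT.nd (nat_lit 156) (nat_lit 0) (nat_lit 0) (XT.nd (nat_lit 78) (nat_lit 0) (nat_lit 0) (XT.lf (nat_lit 0) (nat_lit 322272265) (nat_lit 76) (nat_lit 1453995858) (nat_lit 152) (nat_lit 90742996480) (nat_lit 2) (nat_lit 5) (nat_lit 3) (nat_lit 5) (nat_lit 4) (nat_lit 4) (nat_lit 359) (nat_lit 280) (nat_lit 261)) (XT.lf (nat_lit 0) (nat_lit 7366361477) (nat_lit 152) (nat_lit 88130209212) (nat_lit 0) (nat_lit 4134716818) (nat_lit 2) (nat_lit 5) (nat_lit 4) (nat_lit 4) (nat_lit 2) (nat_lit 4) (nat_lit 360) (nat_lit 280) (nat_lit 260))) (XT.nd (nat_lit 78) (nat_lit 0) (nat_lit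 0) (XT.lf (nat_lit 0) (nat_lit 13295574232) (nat_lit 152) (nat_lit 84023575522) (nat_lit 0) (nat_lit 9998542005) (nat_lit 2) (nat_lit 5) (nat_lit 4) (nat_lit 4) (nat_lit 2) (nat_lit 4) (nat_lit 361) (nat_lit 280) (nat_lit 259)) (XT.nd (nat_lit 78) (nat_lit 0) (nat_lit 0) (XT.lf (nat_lit 0) (nat_lit 19576341513) (nat_lit 152) (nat_lit 79830054712) (nat_lit 0) (nat_lit 16218765241) (nat_lit 2) (nat_lit 5) (nat_lit 4) (nat_lit 4) (nat_lit 2) (nat_lit 4) (nat_lit 362) (nat_lit 280) (nat_lit 258)) (XT.lf (nat_lit 0) (nat_lit 26245882683) (nat_lit 152) (nat_lit 75524796288) (nat_lit 0) (nat_lit 22832247110) (nat_lit 2) (nat_lit 5) (nat_lit 4) (nat_lit 4) (nat_lit 2) (nat_lit 4) (nat_lit 363) (nat_lit 280) (nat_lit 257))))) (XT.nd (nat_lit 234) (nat_lit 0) (nat_lit 0) (XT.nd (nat_lit 78) (nat_lit 0) (nat_lit 0) (XT.lf (nat_lit 0) (nat_lit 33343720948) (nat_lit 152) (nat_lit 71082287609) (nat_lit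 0) (nat_lit 29878178615) (nat_lit 2) (nat_lit 5) (nat_lit 4) (nat_lit 4) (nat_lit 2) (nat_lit 4) (nat_lit 364) (nat_lit 280) (nat_lit 256)) (XT.nd (nat_lit 78) (nat_lit 0) (nat_lit 0) (XT.lf (nat_lit 0) (nat_lit 40911917573) (nat_lit 152) (nat_lit 66476202697) (nat_lit 0) (nat_lit 37398313425) (nat_lit 2) (nat_lit 5) (nat_lit 4) (nat_lit 4) (nat_lit 2) (nat_lit 4) (nat_lit 365) (nat_lit 280) (nat_lit 255)) (XT.lf (nat_lit 0) (nat_lit 48995321128) (nat_lit 152) (nat_lit 61679246233) (nat_lit 0) (nat_lit 45437215300) (nat_lit 2) (nat_lit 5) (nat_lit 4) (nat_lit 4) (nat_lit 2) (nat_lit 4) (nat_lit 366) (nat_lit 280) (nat_lit 254)))) (XT.nd (nat_lit 78) (nat_lit 0) (nat_lit 0) (XT.lf (nat_lit 0) (nat_lit 57641833267) (nat_lit 152) (nat_lit 56662991809) (nat_lit 0) (nat_lit 54042522179) (nat_lit 2) (nat_lit 5) (nat_lit 4) (nat_lit 4) (nat_lit 2) (nat_lit 4) (nat_lit 367) (nat_lit 280) (nat_lit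 253)) (XT.nd (nat_lit 78) (nat_lit 0) (nat_lit 0) (XT.lf (nat_lit 0) (nat_lit 66902692578) (nat_lit 152) (nat_lit 51397713473) (nat_lit 0) (nat_lit 63265228472) (nat_lit 2) (nat_lit 5) (nat_lit 4) (nat_lit 4) (nat_lit 2) (nat_lit 4) (nat_lit 368) (nat_lit 280) (nat_lit 252)) (XT.lf (nat_lit 0) (nat_lit 76832778228) (nat_lit 152) (nat_lit 45852209575) (nat_lit 0) (nat_lit 73159987253) (nat_lit 2) (nat_lit 5) (nat_lit 4) (nat_lit 4) (nat_lit 2) (nat_lit 4) (nat_lit 369) (nat_lit 280) (nat_lit 251)))))) (XT.nd (nat_lit 468) (nat_lit 76) (nat_lit 0) (XT.nd (nat_lit 234) (nat_lit 0) (nat_lit 0) (XT.nd (nat_lit 78) (nat_lit 0) (nat_lit 0) (XT.lf (nat_lit 0) (nat_lit 87490935169) (nat_lit 152) (nat_lit 39993617870) (nat_lit 0) (nat_lit 83785434131) (nat_lit 2) (nat_lit 5) (nat_lit 4) (nat_lit 4) (nat_lit 2) (nat_lit 4) (nat_lit 370) (nat_lit 280) (nat_lit 250)) (XT.nd (nat_lit 78) (nat_lit 0) (nat_lit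 0) (XT.lf (nat_lit 0) (nat_lit 98940322850) (nat_lit 152) (nat_lit 33787220778) (nat_lit 0) (nat_lit 95204534716) (nat_lit 2) (nat_lit 5) (nat_lit 4) (nat_lit 4) (nat_lit 2) (nat_lit 4) (nat_lit 371) (nat_lit 280) (nat_lit 249)) (XT.lf (nat_lit 0) (nat_lit 111248789494) (nat_lit 152) (nat_lit 27196239650) (nat_lit 0) (nat_lit 107484957752) (nat_lit 2) (nat_lit 5) (nat_lit 4) (nat_lit 4) (nat_lit 2) (nat_lit 4) (nat_lit 372) (nat_lit 280) (nat_lit 248)))) (XT.nd (nat_lit 78) (nat_lit 0) (nat_lit 0) (XT.lf (nat_lit 0) (nat_lit 124489274162) (nat_lit 152) (nat_lit 20181616818) (nat_lit 0) (nat_lit 120699476118) (nat_lit 2) (nat_lit 5) (nat_lit 4) (nat_lit 4) (nat_lit 2) (nat_lit 4) (nat_lit 373) (nat_lit 280) (nat_lit 247)) (XT.nd (nat_lit 78) (nat_lit 0) (nat_lit 0) (XT.lf (nat_lit 0) (nat_lit 138740238986) (nat_lit 152) (nat_lit 12701784149) (nat_lit 0) (nat_lit 134926398069) (nat_lit 2)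 (nat_lit 5) (nat_lit 4) (nat_lit 4) (nat_lit 2) (nat_lit 4) (nat_lit 374) (nat_lit 280) (nat_lit 246)) (XT.lf (nat_lit 0) (nat_lit 154086134128) (nat_lit 152) (nat_lit 4712416707) (nat_lit 0) (nat_lit 150250031291) (nat_lit 2) (nat_lit 5) (nat_lit 4) (nat_lit 4) (nat_lit 2) (nat_lit 4) (nat_lit 375) (nat_lit 280) (nat_lit 245))))) (XT.nd (nat_lit 234) (nat_lit 0) (nat_lit 0) (XT.nd (nat_lit 78) (nat_lit 0) (nat_lit 0) (XT.lf (nat_lit 0) (nat_lit 3960593636) (nat_lit 76) (nat_lit 166719140556) (nat_lit 76) (nat_lit 162862424830) (nat_lit 1) (nat_lit 4) (nat_lit 2) (nat_lit 5) (nat_lit 2) (nat_lit 4) (nat_lit 376) (nat_lit 280) (nat_lit 244)) (XT.nd (nat_lit 78) (nat_lit 0) (nat_lit 0) (XT.lf (nat_lit 0) (nat_lit 13417028829) (nat_lit 76) (nat_lit 175225945881) (nat_lit 76) (nat_lit 171350144147) (nat_lit 1) (nat_lit 4) (nat_lit 2) (nat_lit 5) (nat_lit 2) (nat_lit 4) (nat_lit 377) (nat_lit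 280) (nat_lit 243)) (XT.lf (nat_lit 0) (nat_lit 23557113227) (nat_lit 76) (nat_lit 184449184567) (nat_lit 76) (nat_lit 180555710603) (nat_lit 1) (nat_lit 4) (nat_lit 2) (nat_lit 5) (nat_lit 2) (nat_lit 4) (nat_lit 378) (nat_lit 280) (nat_lit 242)))) (XT.nd (nat_lit 78) (nat_lit 0) (nat_lit 0) (XT.lf (nat_lit 0) (nat_lit 34440936218) (nat_lit 76) (nat_lit 194443512843) (nat_lit 76) (nat_lit 190533675704) (nat_lit 1) (nat_lit 4) (nat_lit 2) (nat_lit 5) (nat_lit 2) (nat_lit 4) (nat_lit 379) (nat_lit 280) (nat_lit 241)) (XT.nd (nat_lit 78) (nat_lit 0) (nat_lit 0) (XT.lf (nat_lit 0) (nat_lit 46132994532) (nat_lit 76) (nat_lit 205268156358) (nat_lit 76) (nat_lit 201343168131) (nat_lit 1) (nat_lit 4) (nat_lit 2) (nat_lit 5) (nat_lit 2) (nat_lit 4) (nat_lit 380) (nat_lit 280) (nat_lit 240)) (XT.lf (nat_lit 0) (nat_lit 58702574439) (nat_lit 76) (nat_lit 216987261148) (nat_lit 76) (nat_lit 213048244135)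 (nat_lit 1) (nat_lit 4) (nat_lit 2) (nat_lit 5) (nat_lit 2) (nat_lit 4) (nat_lit 381) (nat_lit 280) (nat_lit 239))))))) (XT.nd (nat_lit 858) (nat_lit 0) (nat_lit 0) (XT.nd (nat_lit 390) (nat_lit 0) (nat_lit 0) (XT.nd (nat_lit 156) (nat_lit 0) (nat_lit 0) (XT.nd (nat_lit 78) (nat_lit 0) (nat_lit 0) (XT.lf (nat_lit 0) (nat_lit 72224162340) (nat_lit 76) (nat_lit 229670273760) (nat_lit 76) (nat_lit 225718267131) (nat_lit 1) (nat_lit 4) (nat_lit 2) (nat_lit 5) (nat_lit 2) (nat_lit 4) (nat_lit 382) (nat_lit 280) (nat_lit 238)) (XT.lf (nat_lit 0) (nat_lit 86777886163) (nat_lit 76) (nat_lit 243392352787) (nat_lit 76) (nat_lit 239428318736) (nat_lit 1) (nat_lit 4) (nat_lit 2) (nat_lit 5) (nat_lit 2) (nat_lit 4) (nat_lit 383) (nat_lit 280) (nat_lit 237))) (XT.nd (nat_lit 78) (nat_lit 0) (nat_lit 0) (XT.lf (nat_lit 0) (nat_lit 102449990197) (nat_lit 76) (nat_lit 258234814253) (nat_lit 76) (nat_lit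 254259643699) (nat_lit 1) (nat_lit 4) (nat_lit 2) (nat_lit 5) (nat_lit 2) (nat_lit 4) (nat_lit 384) (nat_lit 280) (nat_lit 236)) (XT.nd (nat_lit 78) (nat_lit 0) (nat_lit 0) (XT.lf (nat_lit 0) (nat_lit 119333346170) (nat_lit 76) (nat_lit 274285613485) (nat_lit 76) (nat_lit 270300131355) (nat_lit 1) (nat_lit 4) (nat_lit 2) (nat_lit 5) (nat_lit 2) (nat_lit 4) (nat_lit 385) (nat_lit 280) (nat_lit 235)) (XT.lf (nat_lit 0) (nat_lit 137528003598) (nat_lit 76) (nat_lit 291639866331) (nat_lit 76) (nat_lit 287644836445) (nat_lit 1) (nat_lit 4) (nat_lit 2) (nat_lit 5) (nat_lit 2) (nat_lit 4) (nat_lit 386) (nat_lit 280) (nat_lit 234))))) (XT.nd (nat_lit 234) (nat_lit 0) (nat_lit 0) (XT.nd (nat_lit 78) (nat_lit 0) (nat_lit 0) (XT.lf (nat_lit 0) (nat_lit 157141782673) (nat_lit 76) (nat_lit 310400412807) (nat_lit 76) (nat_lit 306396542406) (nat_lit 1) (nat_lit 4) (nat_lit 2) (nat_lit 5) (nat_lit 2) (nat_lit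 4) (nat_lit 387) (nat_lit 280) (nat_lit 233)) (XT.nd (nat_lit 78) (nat_lit 0) (nat_lit 0) (XT.lf (nat_lit 0) (nat_lit 178290913199) (nat_lit 76) (nat_lit 330678426521) (nat_lit 76) (nat_lit 326666370459) (nat_lit 1) (nat_lit 4) (nat_lit 2) (nat_lit 5) (nat_lit 2) (nat_lit 4) (nat_lit 388) (nat_lit 280) (nat_lit 232)) (XT.lf (nat_lit 0) (nat_lit 201100723354) (nat_lit 76) (nat_lit 352594073482) (nat_lit 76) (nat_lit 348574438103) (nat_lit 1) (nat_lit 4) (nat_lit 2) (nat_lit 5) (nat_lit 2) (nat_lit 4) (nat_lit 389) (nat_lit 280) (nat_lit 231)))) (XT.nd (nat_lit 78) (nat_lit 0) (nat_lit 0) (XT.lf (nat_lit 0) (nat_lit 225706382386) (nat_lit 76) (nat_lit 376277224190) (nat_lit 76) (nat_lit 372250570926) (nat_lit 1) (nat_lit 4) (nat_lit 2) (nat_lit 5) (nat_lit 2) (nat_lit 4) (nat_lit 390) (nat_lit 280) (nat_lit 230)) (XT.nd (nat_lit 78) (nat_lit 0) (nat_lit 0) (XT.lf (nat_lit 0) (nat_lit 252253701607)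 (nat_lit 76) (nat_lit 401868223241) (nat_lit 76) (nat_lit 397835071935) (nat_lit 1) (nat_lit 4) (nat_lit 2) (nat_lit 5) (nat_lit 2) (nat_lit 4) (nat_lit 391) (nat_lit 280) (nat_lit 229)) (XT.lf (nat_lit 0) (nat_lit 280899998463) (nat_lit 76) (nat_lit 429518721000) (nat_lit 76) (nat_lit 425479552988) (nat_lit 1) (nat_lit 4) (nat_lit 2) (nat_lit 5) (nat_lit 2) (nat_lit 4) (nat_lit 392) (nat_lit 280) (nat_lit 228)))))) (XT.nd (nat_lit 42900) (nat_lit 0) (nat_lit 456) (XT.nd (nat_lit 42666) (nat_lit 0) (nat_lit 760) (XT.nd (nat_lit 78) (nat_lit 0) (nat_lit 0) (XT.lf (nat_lit 0) (nat_lit 311815028788) (nat_lit 76) (nat_lit 459392572270) (nat_lit 76) (nat_lit 455347833234) (nat_lit 1) (nat_lit 4) (nat_lit 2) (nat_lit 5) (nat_lit 2) (nat_lit 4) (nat_lit 393) (nat_lit 280) (nat_lit 227)) (XT.nd (nat_lit 42510) (nat_lit 0) (nat_lit 988) (XT.lf (nat_lit 0) (nat_lit 345181992762) (nat_lit 76) (nat_lit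 491666807278) (nat_lit 76) (nat_lit 487616909887) (nat_lit 1) (nat_lit 4) (nat_lit 2) (nat_lit 5) (nat_lit 2) (nat_lit 4) (nat_lit 394) (nat_lit 280) (nat_lit 226)) (XT.lf (nat_lit 0) (nat_lit 3315628400) (nat_lit 152) (nat_lit 4500716160) (nat_lit 0) (nat_lit 3315628400) (nat_lit 14) (nat_lit 5) (nat_lit 16) (nat_lit 4) (nat_lit 14) (nat_lit 4) (nat_lit 338) (nat_lit 281) (nat_lit 281)))) (XT.nd (nat_lit 78) (nat_lit 152) (nat_lit 0) (XT.lf (nat_lit 0) (nat_lit 7200645502) (nat_lit 76) (nat_lit 8399607455) (nat_lit 76) (nat_lit 7999523395) (nat_lit 13) (nat_lit 4) (nat_lit 14) (nat_lit 5) (nat_lit 14) (nat_lit 4) (nat_lit 339) (nat_lit 281) (nat_lit 280)) (XT.nd (nat_lit 78) (nat_lit 152) (nat_lit 0) (XT.lf (nat_lit 0) (nat_lit 24179569432) (nat_lit 76) (nat_lit 823844698) (nat_lit 76) (nat_lit 53312434) (nat_lit 13) (nat_lit 4) (nat_lit 14) (nat_lit 5) (nat_lit 14) (nat_lit 4) (nat_lit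 340) (nat_lit 281) (nat_lit 279)) (XT.lf (nat_lit 0) (nat_lit 8197745114) (nat_lit 152) (nat_lit 11291568551) (nat_lit 0) (nat_lit 7137230961) (nat_lit 11) (nat_lit 5) (nat_lit 13) (nat_lit 4) (nat_lit 11) (nat_lit 4) (nat_lit 341) (nat_lit 281) (nat_lit 278))))) (XT.nd (nat_lit 234) (nat_lit 76) (nat_lit 0) (XT.nd (nat_lit 78) (nat_lit 152) (nat_lit 0) (XT.lf (nat_lit 0) (nat_lit 3891728779) (nat_lit 76) (nat_lit 12904390285) (nat_lit 76) (nat_lit 11541400297) (nat_lit 10) (nat_lit 4) (nat_lit 11) (nat_lit 5) (nat_lit 11) (nat_lit 4) (nat_lit 342) (nat_lit 281) (nat_lit 277)) (XT.nd (nat_lit 78) (nat_lit 152) (nat_lit 0) (XT.lf (nat_lit 0) (nat_lit 19954450050) (nat_lit 76) (nat_lit 5941679317) (nat_lit 76) (nat_lit 4298619112) (nat_lit 10) (nat_lit 4) (nat_lit 11) (nat_lit 5) (nat_lit 11) (nat_lit 4) (nat_lit 343) (nat_lit 281) (nat_lit 276)) (XT.lf (nat_lit 0) (nat_lit 3142007473) (nat_lit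 152) (nat_lit 27739082170) (nat_lit 0) (nat_lit 1330212730) (nat_lit 8) (nat_lit 5) (nat_lit 10) (nat_lit 4) (nat_lit 8) (nat_lit 4) (nat_lit 344) (nat_lit 281) (nat_lit 275)))) (XT.nd (nat_lit 78) (nat_lit 76) (nat_lit 0) (XT.lf (nat_lit 0) (nat_lit 10961645875) (nat_lit 152) (nat_lit 14506175763) (nat_lit 0) (nat_lit 8921170113) (nat_lit 8) (nat_lit 5) (nat_lit 10) (nat_lit 4) (nat_lit 8) (nat_lit 4) (nat_lit 345) (nat_lit 281) (nat_lit 274)) (XT.nd (nat_lit 78) (nat_lit 76) (nat_lit 0) (XT.lf (nat_lit 0) (nat_lit 19083577338) (nat_lit 152) (nat_lit 842171887) (nat_lit 0) (nat_lit 16831359893) (nat_lit 8) (nat_lit 5) (nat_lit 10) (nat_lit 4) (nat_lit 8) (nat_lit 4) (nat_lit 346) (nat_lit 281) (nat_lit 273)) (XT.lf (nat_lit 0) (nat_lit 13774780329) (nat_lit 76) (nat_lit 13996214422) (nat_lit 76) (nat_lit 11547939862) (nat_lit 7) (nat_lit 4) (nat_lit 8) (nat_lit 5) (nat_lit 8) (nat_lit 4)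 (nat_lit 347) (nat_lit 281) (nat_lit 272))))))))
noncomputable def xc17 : XT := (XT.nd (nat_lit 1794) (nat_lit 76) (nat_lit 0) (XT.nd (nat_lit 858) (nat_lit 152) (nat_lit 0) (XT.nd (nat_lit 390) (nat_lit 76) (nat_lit 0) (XT.nd (nat_lit 156) (nat_lit 76) (nat_lit 0) (XT.nd (nat_lit 78) (nat_lit 76) (nat_lit 0) (XT.lf (nat_lit 0) (nat_lit 29035363211) (nat_lit 76) (nat_lit 7846876066) (nat_lit 76) (nat_lit 5217067140) (nat_lit 7) (nat_lit 4) (nat_lit 8) (nat_lit 5) (nat_lit 8) (nat_lit 4) (nat_lit 348) (nat_lit 281) (nat_lit 271)) (XT.lf (nat_lit 0) (nat_lit 1299376814) (nat_lit 152) (nat_lit 134173831) (nat_lit 76) (nat_lit 43680781446) (nat_lit 6) (nat_lit 5) (nat_lit 8) (nat_lit 5) (nat_lit 7) (nat_lit 4) (nat_lit 349) (nat_lit 281) (nat_lit 270))) (XT.nd (nat_lit 78) (nat_lit 0) (nat_lit 0) (XT.lf (nat_lit 0) (nat_lit 8208541397) (nat_lit 152) (nat_lit 34759414056) (nat_lit 0) (nat_lit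 5395653054) (nat_lit 5) (nat_lit 5) (nat_lit 7) (nat_lit 4) (nat_lit 5) (nat_lit 4) (nat_lit 350) (nat_lit 281) (nat_lit 269)) (XT.nd (nat_lit 78) (nat_lit 0) (nat_lit 0) (XT.lf (nat_lit 0) (nat_lit 15455563414) (nat_lit 152) (nat_lit 23922609609) (nat_lit 0) (nat_lit 12505429517) (nat_lit 5) (nat_lit 5) (nat_lit 7) (nat_lit 4) (nat_lit 5) (nat_lit 4) (nat_lit 351) (nat_lit 281) (nat_lit 268)) (XT.lf (nat_lit 0) (nat_lit 23058806868) (nat_lit 152) (nat_lit 12656001860) (nat_lit 0) (nat_lit 19981593753) (nat_lit 5) (nat_lit 5) (nat_lit 7) (nat_lit 4) (nat_lit 5) (nat_lit 4) (nat_lit 352) (nat_lit 281) (nat_lit 267))))) (XT.nd (nat_lit 234) (nat_lit 0) (nat_lit 0) (XT.nd (nat_lit 78) (nat_lit 76) (nat_lit 0) (XT.lf (nat_lit 0) (nat_lit 31063328016) (nat_lit 152) (nat_lit 892825726) (nat_lit 0) (nat_lit 27868448960) (nat_lit 5) (nat_lit 5) (nat_lit 7) (nat_lit 4) (nat_lit 5) (nat_lit 4) (nat_lit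 353) (nat_lit 281) (nat_lit 266)) (XT.nd (nat_lit 78) (nat_lit 0) (nat_lit 0) (XT.lf (nat_lit 0) (nat_lit 11814773024) (nat_lit 76) (nat_lit 27886249751) (nat_lit 76) (nat_lit 24582420748) (nat_lit 4) (nat_lit 4) (nat_lit 5) (nat_lit 5) (nat_lit 5) (nat_lit 4) (nat_lit 354) (nat_lit 281) (nat_lit 265)) (XT.lf (nat_lit 0) (nat_lit 25212371593) (nat_lit 76) (nat_lit 23649863410) (nat_lit 76) (nat_lit 20245154828) (nat_lit 4) (nat_lit 4) (nat_lit 5) (nat_lit 5) (nat_lit 5) (nat_lit 4) (nat_lit 355) (nat_lit 281) (nat_lit 264)))) (XT.nd (nat_lit 78) (nat_lit 0) (nat_lit 0) (XT.lf (nat_lit 0) (nat_lit 39349842306) (nat_lit 76) (nat_lit 19237010643) (nat_lit 76) (nat_lit 15738895043) (nat_lit 4) (nat_lit 4) (nat_lit 5) (nat_lit 5) (nat_lit 5) (nat_lit 4) (nat_lit 356) (nat_lit 281) (nat_lit 263)) (XT.nd (nat_lit 78) (nat_lit 0) (nat_lit 0) (XT.lf (nat_lit 0) (nat_lit 54310962767) (nat_lit 76)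 (nat_lit 14621541213) (nat_lit 76) (nat_lit 11036937632) (nat_lit 4) (nat_lit 4) (nat_lit 5) (nat_lit 5) (nat_lit 5) (nat_lit 4) (nat_lit 357) (nat_lit 281) (nat_lit 262)) (XT.lf (nat_lit 0) (nat_lit 70184391469) (nat_lit 76) (nat_lit 9776104188) (nat_lit 76) (nat_lit 6111419145) (nat_lit 4) (nat_lit 4) (nat_lit 5) (nat_lit 5) (nat_lit 5) (nat_lit 4) (nat_lit 358) (nat_lit 281) (nat_lit 261)))))) (XT.nd (nat_lit 468) (nat_lit 0) (nat_lit 0) (XT.nd (nat_lit 234) (nat_lit 0) (nat_lit 0) (XT.nd (nat_lit 78) (nat_lit 152) (nat_lit 0) (XT.lf (nat_lit 0) (nat_lit 87064193174) (nat_lit 76) (nat_lit 4671985869) (nat_lit 76) (nat_lit 933151323) (nat_lit 4) (nat_lit 4) (nat_lit 5) (nat_lit 5) (nat_lit 5) (nat_lit 4) (nat_lit 359) (nat_lit 281) (nat_lit 260)) (XT.nd (nat_lit 78) (nat_lit 0) (nat_lit 0) (XT.lf (nat_lit 0) (nat_lit 4480926914) (nat_lit 152) (nat_lit 94456711626) (nat_lit 0) (nat_lit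 854744540) (nat_lit 2) (nat_lit 5) (nat_lit 4) (nat_lit 4) (nat_lit 2) (nat_lit 4) (nat_lit 360) (nat_lit 281) (nat_lit 259)) (XT.lf (nat_lit 0) (nat_lit 10351109623) (nat_lit 152) (nat_lit 90466252732) (nat_lit 0) (nat_lit 6664383204) (nat_lit 2) (nat_lit 5) (nat_lit 4) (nat_lit 4) (nat_lit 2) (nat_lit 4) (nat_lit 361) (nat_lit 281) (nat_lit 258)))) (XT.nd (nat_lit 78) (nat_lit 0) (nat_lit 0) (XT.lf (nat_lit 0) (nat_lit 16577219456) (nat_lit 152) (nat_lit 86380301178) (nat_lit 0) (nat_lit 12834433736) (nat_lit 2) (nat_lit 5) (nat_lit 4) (nat_lit 4) (nat_lit 2) (nat_lit 4) (nat_lit 362) (nat_lit 281) (nat_lit 257)) (XT.nd (nat_lit 78) (nat_lit 0) (nat_lit 0) (XT.lf (nat_lit 0) (nat_lit 23196151876) (nat_lit 152) (nat_lit 82174643917) (nat_lit 0) (nat_lit 19401459397) (nat_lit 2) (nat_lit 5) (nat_lit 4) (nat_lit 4) (nat_lit 2) (nat_lit 4) (nat_lit 363) (nat_lit 281) (nat_lit 256)) (XT.lf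 (nat_lit 0) (nat_lit 30247130189) (nat_lit 152) (nat_lit 77824358536) (nat_lit 0) (nat_lit 26404375894) (nat_lit 2) (nat_lit 5) (nat_lit 4) (nat_lit 4) (nat_lit 2) (nat_lit 4) (nat_lit 364) (nat_lit 281) (nat_lit 255))))) (XT.nd (nat_lit 234) (nat_lit 0) (nat_lit 0) (XT.nd (nat_lit 78) (nat_lit 0) (nat_lit 0) (XT.lf (nat_lit 0) (nat_lit 37771937967) (nat_lit 152) (nat_lit 73303665566) (nat_lit 0) (nat_lit 33884681993) (nat_lit 2) (nat_lit 5) (nat_lit 4) (nat_lit 4) (nat_lit 2) (nat_lit 4) (nat_lit 365) (nat_lit 281) (nat_lit 254)) (XT.nd (nat_lit 78) (nat_lit 0) (nat_lit 0) (XT.lf (nat_lit 0) (nat_lit 45815166666) (nat_lit 152) (nat_lit 68585775716) (nat_lit 0) (nat_lit 41886705432) (nat_lit 2) (nat_lit 5) (nat_lit 4) (nat_lit 4) (nat_lit 2) (nat_lit 4) (nat_lit 366) (nat_lit 281) (nat_lit 253)) (XT.lf (nat_lit 0) (nat_lit 54424479863) (nat_lit 152) (nat_lit 63642731120) (nat_lit 0) (nat_lit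 50457865611) (nat_lit 2) (nat_lit 5) (nat_lit 4) (nat_lit 4) (nat_lit 2) (nat_lit 4) (nat_lit 367) (nat_lit 281) (nat_lit 252)))) (XT.nd (nat_lit 78) (nat_lit 0) (nat_lit 0) (XT.lf (nat_lit 0) (nat_lit 63650895710) (nat_lit 152) (nat_lit 58445239662) (nat_lit 0) (nat_lit 59648954589) (nat_lit 2) (nat_lit 5) (nat_lit 4) (nat_lit 4) (nat_lit 2) (nat_lit 4) (nat_lit 368) (nat_lit 281) (nat_lit 251)) (XT.nd (nat_lit 78) (nat_lit 0) (nat_lit 0) (XT.lf (nat_lit 0) (nat_lit 73549089264) (nat_lit 152) (nat_lit 52962501391) (nat_lit 0) (nat_lit 69514438079) (nat_lit 2) (nat_lit 5) (nat_lit 4) (nat_lit 4) (nat_lit 2) (nat_lit 4) (nat_lit 369) (nat_lit 281) (nat_lit 250)) (XT.lf (nat_lit 0) (nat_lit 84177716486) (nat_lit 152) (nat_lit 47162026009) (nat_lit 0) (nat_lit 80112778205) (nat_lit 2) (nat_lit 5) (nat_lit 4) (nat_lit 4) (nat_lit 2) (nat_lit 4) (nat_lit 370) (nat_lit 281) (nat_lit 249)))))))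 (XT.nd (nat_lit 936) (nat_lit 0) (nat_lit 0) (XT.nd (nat_lit 468) (nat_lit 76) (nat_lit 0) (XT.nd (nat_lit 234) (nat_lit 0) (nat_lit 0) (XT.nd (nat_lit 78) (nat_lit 0) (nat_lit 0) (XT.lf (nat_lit 0) (nat_lit 95599761834) (nat_lit 152) (nat_lit 41009440326) (nat_lit 0) (nat_lit 91506779946) (nat_lit 2) (nat_lit 5) (nat_lit 4) (nat_lit 4) (nat_lit 2) (nat_lit 4) (nat_lit 371) (nat_lit 281) (nat_lit 248)) (XT.nd (nat_lit 78) (nat_lit 0) (nat_lit 0) (XT.lf (nat_lit 0) (nat_lit 107882911503) (nat_lit 152) (nat_lit 34468284576) (nat_lit 0) (nat_lit 103763963312) (nat_lit 2) (nat_lit 5) (nat_lit 4) (nat_lit 4) (nat_lit 2) (nat_lit 4) (nat_lit 372) (nat_lit 281) (nat_lit 247)) (XT.lf (nat_lit 0) (nat_lit 121099954529) (nat_lit 152) (nat_lit 27499796354) (nat_lit 0) (nat_lit 116956963464) (nat_lit 2) (nat_lit 5) (nat_lit 4) (nat_lit 4) (nat_lit 2) (nat_lit 4) (nat_lit 373) (nat_lit 281) (nat_lit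 246)))) (XT.nd (nat_lit 78) (nat_lit 0) (nat_lit 0) (XT.lf (nat_lit 0) (nat_lit 135329214128) (nat_lit 152) (nat_lit 20062680916) (nat_lit 0) (nat_lit 131163961144) (nat_lit 2) (nat_lit 5) (nat_lit 4) (nat_lit 4) (nat_lit 2) (nat_lit 4) (nat_lit 374) (nat_lit 281) (nat_lit 245)) (XT.nd (nat_lit 78) (nat_lit 0) (nat_lit 0) (XT.lf (nat_lit 0) (nat_lit 150655011839) (nat_lit 152) (nat_lit 12112866466) (nat_lit 0) (nat_lit 146469145967) (nat_lit 2) (nat_lit 5) (nat_lit 4) (nat_lit 4) (nat_lit 2) (nat_lit 4) (nat_lit 375) (nat_lit 281) (nat_lit 244)) (XT.lf (nat_lit 0) (nat_lit 167168167205) (nat_lit 152) (nat_lit 3603242993) (nat_lit 0) (nat_lit 162963215325) (nat_lit 2) (nat_lit 5) (nat_lit 4) (nat_lit 4) (nat_lit 2) (nat_lit 4) (nat_lit 376) (nat_lit 281) (nat_lit 243))))) (XT.nd (nat_lit 234) (nat_lit 0) (nat_lit 0) (XT.nd (nat_lit 78) (nat_lit 0) (nat_lit 0) (XT.lf (nat_lit 0) (nat_lit 5699021169)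 (nat_lit 76) (nat_lit 179356492483) (nat_lit 76) (nat_lit 175133868373) (nat_lit 1) (nat_lit 4) (nat_lit 2) (nat_lit 5) (nat_lit 2) (nat_lit 4) (nat_lit 377) (nat_lit 281) (nat_lit 242)) (XT.nd (nat_lit 78) (nat_lit 0) (nat_lit 0) (XT.lf (nat_lit 0) (nat_lit 15806668952) (nat_lit 76) (nat_lit 188595707369) (nat_lit 76) (nat_lit 184356720083) (nat_lit 1) (nat_lit 4) (nat_lit 2) (nat_lit 5) (nat_lit 2) (nat_lit 4) (nat_lit 378) (nat_lit 281) (nat_lit 241)) (XT.lf (nat_lit 0) (nat_lit 26660458041) (nat_lit 76) (nat_lit 198604828422) (nat_lit 76) (nat_lit 194350690048) (nat_lit 1) (nat_lit 4) (nat_lit 2) (nat_lit 5) (nat_lit 2) (nat_lit 4) (nat_lit 379) (nat_lit 281) (nat_lit 240)))) (XT.nd (nat_lit 78) (nat_lit 0) (nat_lit 0) (XT.lf (nat_lit 0) (nat_lit 38324707186) (nat_lit 76) (nat_lit 209443168954) (nat_lit 76) (nat_lit 205175001794) (nat_lit 1) (nat_lit 4) (nat_lit 2) (nat_lit 5) (nat_lit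 2) (nat_lit 4) (nat_lit 380) (nat_lit 281) (nat_lit 239)) (XT.nd (nat_lit 78) (nat_lit 0) (nat_lit 0) (XT.lf (nat_lit 0) (nat_lit 50868537863) (nat_lit 76) (nat_lit 221174956166) (nat_lit 76) (nat_lit 216893799390) (nat_lit 1) (nat_lit 4) (nat_lit 2) (nat_lit 5) (nat_lit 2) (nat_lit 4) (nat_lit 381) (nat_lit 281) (nat_lit 238)) (XT.lf (nat_lit 0) (nat_lit 64366283884) (nat_lit 76) (nat_lit 233869711762) (nat_lit 76) (nat_lit 229576527564) (nat_lit 1) (nat_lit 4) (nat_lit 2) (nat_lit 5) (nat_lit 2) (nat_lit 4) (nat_lit 382) (nat_lit 281) (nat_lit 237)))))) (XT.nd (nat_lit 468) (nat_lit 0) (nat_lit 0) (XT.nd (nat_lit 234) (nat_lit 0) (nat_lit 0) (XT.nd (nat_lit 78) (nat_lit 0) (nat_lit 0) (XT.lf (nat_lit 0) (nat_lit 78897931892) (nat_lit 76) (nat_lit 247602663922) (nat_lit 76) (nat_lit 243298343221) (nat_lit 1) (nat_lit 4) (nat_lit 2) (nat_lit 5) (nat_lit 2) (nat_lit 4) (nat_lit 383) (nat_lit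 281) (nat_lit 236)) (XT.nd (nat_lit 78) (nat_lit 0) (nat_lit 0) (XT.lf (nat_lit 0) (nat_lit 94549595357) (nat_lit 76) (nat_lit 262455193104) (nat_lit 76) (nat_lit 258140560827) (nat_lit 1) (nat_lit 4) (nat_lit 2) (nat_lit 5) (nat_lit 2) (nat_lit 4) (nat_lit 384) (nat_lit 281) (nat_lit 235)) (XT.lf (nat_lit 0) (nat_lit 111414024876) (nat_lit 76) (nat_lit 278515314295) (nat_lit 76) (nat_lit 274191134262) (nat_lit 1) (nat_lit 4) (nat_lit 2) (nat_lit 5) (nat_lit 2) (nat_lit 4) (nat_lit 385) (nat_lit 281) (nat_lit 234)))) (XT.nd (nat_lit 78) (nat_lit 0) (nat_lit 0) (XT.lf (nat_lit 0) (nat_lit 129591157811) (nat_lit 76) (nat_lit 295878198584) (nat_lit 76) (nat_lit 291545178037) (nat_lit 1) (nat_lit 4) (nat_lit 2) (nat_lit 5) (nat_lit 2) (nat_lit 4) (nat_lit 386) (nat_lit 281) (nat_lit 233)) (XT.nd (nat_lit 78) (nat_lit 0) (nat_lit 0) (XT.lf (nat_lit 0) (nat_lit 149188710504) (nat_lit 76) (nat_lit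 314646737137) (nat_lit 76) (nat_lit 310305530928) (nat_lit 1) (nat_lit 4) (nat_lit 2) (nat_lit 5) (nat_lit 2) (nat_lit 4) (nat_lit 387) (nat_lit 281) (nat_lit 232)) (XT.lf (nat_lit 0) (nat_lit 170322816600) (nat_lit 76) (nat_lit 334932150924) (nat_lit 76) (nat_lit 330583365398) (nat_lit 1) (nat_lit 4) (nat_lit 2) (nat_lit 5) (nat_lit 2) (nat_lit 4) (nat_lit 388) (nat_lit 281) (nat_lit 231))))) (XT.nd (nat_lit 234) (nat_lit 0) (nat_lit 0) (XT.nd (nat_lit 78) (nat_lit 0) (nat_lit 0) (XT.lf (nat_lit 0) (nat_lit 193118715248) (nat_lit 76) (nat_lit 356854649803) (nat_lit 76) (nat_lit 352498846392) (nat_lit 1) (nat_lit 4) (nat_lit 2) (nat_lit 5) (nat_lit 2) (nat_lit 4) (nat_lit 389) (nat_lit 281) (nat_lit 230)) (XT.nd (nat_lit 78) (nat_lit 0) (nat_lit 0) (XT.lf (nat_lit 0) (nat_lit 217711493254) (nat_lit 76) (nat_lit 380544144879) (nat_lit 76) (nat_lit 376181843426) (nat_lit 1) (nat_lit 4) (nat_lit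 2) (nat_lit 5) (nat_lit 2) (nat_lit 4) (nat_lit 390) (nat_lit 281) (nat_lit 229)) (XT.lf (nat_lit 0) (nat_lit 244246885598) (nat_lit 76) (nat_lit 406141018346) (nat_lit 76) (nat_lit 401772700187) (nat_lit 1) (nat_lit 4) (nat_lit 2) (nat_lit 5) (nat_lit 2) (nat_lit 4) (nat_lit 391) (nat_lit 281) (nat_lit 228)))) (XT.nd (nat_lit 78) (nat_lit 0) (nat_lit 0) (XT.lf (nat_lit 0) (nat_lit 272882139051) (nat_lit 76) (nat_lit 433796955379) (nat_lit 76) (nat_lit 429423066196) (nat_lit 1) (nat_lit 4) (nat_lit 2) (nat_lit 5) (nat_lit 2) (nat_lit 4) (nat_lit 392) (nat_lit 281) (nat_lit 227)) (XT.nd (nat_lit 42432) (nat_lit 0) (nat_lit 1140) (XT.lf (nat_lit 0) (nat_lit 303786944003) (nat_lit 76) (nat_lit 463675843012) (nat_lit 76) (nat_lit 459296795474) (nat_lit 1) (nat_lit 4) (nat_lit 2) (nat_lit 5) (nat_lit 2) (nat_lit 4) (nat_lit 393) (nat_lit 281) (nat_lit 226)) (XT.lf (nat_lit 0) (nat_lit 329944880)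 (nat_lit 76) (nat_lit 4808382507) (nat_lit 76) (nat_lit 4808382507) (nat_lit 16) (nat_lit 4) (nat_lit 17) (nat_lit 5) (nat_lit 17) (nat_lit 4) (nat_lit 336) (nat_lit 282) (nat_lit 282))))))))
noncomputable def xc18 : XT := (XT.nd (nat_lit 1794) (nat_lit 228) (nat_lit 0) (XT.nd (nat_lit 858) (nat_lit 228) (nat_lit 0) (XT.nd (nat_lit 390) (nat_lit 304) (nat_lit 0) (XT.nd (nat_lit 156) (nat_lit 228) (nat_lit 0) (XT.nd (nat_lit 78) (nat_lit 152) (nat_lit 0) (XT.lf (nat_lit 0) (nat_lit 17534606893) (nat_lit 76) (nat_lit 1978390269) (nat_lit 76) (nat_lit 1524694944) (nat_lit 16) (nat_lit 4) (nat_lit 17) (nat_lit 5) (nat_lit 17) (nat_lit 4) (nat_lit 337) (nat_lit 282) (nat_lit 281)) (XT.lf (nat_lit 0) (nat_lit 6841621912) (nat_lit 152) (nat_lit 9424007682) (nat_lit 0) (nat_lit 6009447066) (nat_lit 14) (nat_lit 5) (nat_lit 16) (nat_lit 4) (nat_lit 14) (nat_lit 4) (nat_lit 338) (nat_lit 282) (nat_lit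 280))) (XT.nd (nat_lit 78) (nat_lit 152) (nat_lit 0) (XT.lf (nat_lit 0) (nat_lit 6359887139) (nat_lit 76) (nat_lit 9232302784) (nat_lit 76) (nat_lit 8029679735) (nat_lit 13) (nat_lit 4) (nat_lit 14) (nat_lit 5) (nat_lit 14) (nat_lit 4) (nat_lit 339) (nat_lit 282) (nat_lit 279)) (XT.nd (nat_lit 78) (nat_lit 152) (nat_lit 0) (XT.lf (nat_lit 0) (nat_lit 22964541855) (nat_lit 76) (nat_lit 1834871822) (nat_lit 76) (nat_lit 289241176) (nat_lit 13) (nat_lit 4) (nat_lit 14) (nat_lit 5) (nat_lit 14) (nat_lit 4) (nat_lit 340) (nat_lit 282) (nat_lit 278)) (XT.lf (nat_lit 0) (nat_lit 7740300468) (nat_lit 152) (nat_lit 12964048139) (nat_lit 0) (nat_lit 5965795447) (nat_lit 11) (nat_lit 5) (nat_lit 13) (nat_lit 4) (nat_lit 11) (nat_lit 4) (nat_lit 341) (nat_lit 282) (nat_lit 277))))) (XT.nd (nat_lit 234) (nat_lit 76) (nat_lit 0) (XT.nd (nat_lit 78) (nat_lit 152) (nat_lit 0) (XT.lf (nat_lit 0) (nat_lit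 1808921522) (nat_lit 76) (nat_lit 14318678668) (nat_lit 76) (nat_lit 12264103429) (nat_lit 10) (nat_lit 4) (nat_lit 11) (nat_lit 5) (nat_lit 11) (nat_lit 4) (nat_lit 342) (nat_lit 282) (nat_lit 276)) (XT.nd (nat_lit 78) (nat_lit 152) (nat_lit 0) (XT.lf (nat_lit 0) (nat_lit 17542913218) (nat_lit 76) (nat_lit 7514235468) (nat_lit 76) (nat_lit 5200335954) (nat_lit 10) (nat_lit 4) (nat_lit 11) (nat_lit 5) (nat_lit 11) (nat_lit 4) (nat_lit 343) (nat_lit 282) (nat_lit 275)) (XT.lf (nat_lit 0) (nat_lit 1633257993) (nat_lit 76) (nat_lit 409313995) (nat_lit 152) (nat_lit 30243524832) (nat_lit 8) (nat_lit 5) (nat_lit 9) (nat_lit 5) (nat_lit 10) (nat_lit 4) (nat_lit 344) (nat_lit 282) (nat_lit 274)))) (XT.nd (nat_lit 78) (nat_lit 76) (nat_lit 0) (XT.lf (nat_lit 0) (nat_lit 9700397731) (nat_lit 152) (nat_lit 17715241423) (nat_lit 0) (nat_lit 7056261206) (nat_lit 8) (nat_lit 5) (nat_lit 10) (nat_lit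 4) (nat_lit 8) (nat_lit 4) (nat_lit 345) (nat_lit 282) (nat_lit 273)) (XT.nd (nat_lit 78) (nat_lit 76) (nat_lit 0) (XT.lf (nat_lit 0) (nat_lit 17678419823) (nat_lit 152) (nat_lit 4330588972) (nat_lit 0) (nat_lit 14838226183) (nat_lit 8) (nat_lit 5) (nat_lit 10) (nat_lit 4) (nat_lit 8) (nat_lit 4) (nat_lit 346) (nat_lit 282) (nat_lit 272)) (XT.lf (nat_lit 0) (nat_lit 9903809268) (nat_lit 76) (nat_lit 16268341844) (nat_lit 76) (nat_lit 13246613838) (nat_lit 7) (nat_lit 4) (nat_lit 8) (nat_lit 5) (nat_lit 8) (nat_lit 4) (nat_lit 347) (nat_lit 282) (nat_lit 271)))))) (XT.nd (nat_lit 468) (nat_lit 76) (nat_lit 0) (XT.nd (nat_lit 234) (nat_lit 0) (nat_lit 0) (XT.nd (nat_lit 78) (nat_lit 152) (nat_lit 0) (XT.lf (nat_lit 0) (nat_lit 24916974415) (nat_lit 76) (nat_lit 10239179247) (nat_lit 76) (nat_lit 7049363866) (nat_lit 7) (nat_lit 4) (nat_lit 8) (nat_lit 5) (nat_lit 8) (nat_lit 4) (nat_lit 348)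 (nat_lit 282) (nat_lit 270)) (XT.nd (nat_lit 78) (nat_lit 152) (nat_lit 0) (XT.lf (nat_lit 0) (nat_lit 40654684546) (nat_lit 76) (nat_lit 3959133254) (nat_lit 76) (nat_lit 613681414) (nat_lit 7) (nat_lit 4) (nat_lit 8) (nat_lit 5) (nat_lit 8) (nat_lit 4) (nat_lit 349) (nat_lit 282) (nat_lit 269)) (XT.lf (nat_lit 0) (nat_lit 6086859764) (nat_lit 152) (nat_lit 39638353829) (nat_lit 0) (nat_lit 2763469600) (nat_lit 5) (nat_lit 5) (nat_lit 7) (nat_lit 4) (nat_lit 5) (nat_lit 4) (nat_lit 350) (nat_lit 282) (nat_lit 268)))) (XT.nd (nat_lit 78) (nat_lit 0) (nat_lit 0) (XT.lf (nat_lit 0) (nat_lit 13226410472) (nat_lit 152) (nat_lit 29011713350) (nat_lit 0) (nat_lit 9775941091) (nat_lit 5) (nat_lit 5) (nat_lit 7) (nat_lit 4) (nat_lit 5) (nat_lit 4) (nat_lit 351) (nat_lit 282) (nat_lit 267)) (XT.nd (nat_lit 78) (nat_lit 0) (nat_lit 0) (XT.lf (nat_lit 0) (nat_lit 20730143453) (nat_lit 152) (nat_lit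 17939701868) (nat_lit 0) (nat_lit 17162008131) (nat_lit 5) (nat_lit 5) (nat_lit 7) (nat_lit 4) (nat_lit 5) (nat_lit 4) (nat_lit 352) (nat_lit 282) (nat_lit 266)) (XT.lf (nat_lit 0) (nat_lit 28642525275) (nat_lit 152) (nat_lit 6356707463) (nat_lit 0) (nat_lit 24965440006) (nat_lit 5) (nat_lit 5) (nat_lit 7) (nat_lit 4) (nat_lit 5) (nat_lit 4) (nat_lit 353) (nat_lit 282) (nat_lit 265))))) (XT.nd (nat_lit 234) (nat_lit 0) (nat_lit 0) (XT.nd (nat_lit 78) (nat_lit 0) (nat_lit 0) (XT.lf (nat_lit 0) (nat_lit 5997879431) (nat_lit 76) (nat_lit 31106208401) (nat_lit 76) (nat_lit 27328243552) (nat_lit 4) (nat_lit 4) (nat_lit 5) (nat_lit 5) (nat_lit 5) (nat_lit 4) (nat_lit 354) (nat_lit 282) (nat_lit 264)) (XT.nd (nat_lit 78) (nat_lit 0) (nat_lit 0) (XT.lf (nat_lit 0) (nat_lit 19235893509) (nat_lit 76) (nat_lit 26947920368) (nat_lit 76) (nat_lit 23076548502) (nat_lit 4) (nat_lit 4) (nat_lit 5) (nat_lit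 5) (nat_lit 5) (nat_lit 4) (nat_lit 355) (nat_lit 282) (nat_lit 263)) (XT.lf (nat_lit 0) (nat_lit 33225600805) (nat_lit 76) (nat_lit 22607380851) (nat_lit 76) (nat_lit 18649521004) (nat_lit 4) (nat_lit 4) (nat_lit 5) (nat_lit 5) (nat_lit 5) (nat_lit 4) (nat_lit 356) (nat_lit 282) (nat_lit 262)))) (XT.nd (nat_lit 78) (nat_lit 0) (nat_lit 0) (XT.lf (nat_lit 0) (nat_lit 48049903287) (nat_lit 76) (nat_lit 18058868132) (nat_lit 76) (nat_lit 14020926822) (nat_lit 4) (nat_lit 4) (nat_lit 5) (nat_lit 5) (nat_lit 5) (nat_lit 4) (nat_lit 357) (nat_lit 282) (nat_lit 261)) (XT.nd (nat_lit 78) (nat_lit 0) (nat_lit 0) (XT.lf (nat_lit 0) (nat_lit 63796648675) (nat_lit 76) (nat_lit 13275428063) (nat_lit 76) (nat_lit 9163337250) (nat_lit 4) (nat_lit 4) (nat_lit 5) (nat_lit 5) (nat_lit 5) (nat_lit 4) (nat_lit 358) (nat_lit 282) (nat_lit 260)) (XT.lf (nat_lit 0) (nat_lit 80559151015) (nat_lit 76) (nat_lit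 8228714331) (nat_lit 76) (nat_lit 4047966572) (nat_lit 4) (nat_lit 4) (nat_lit 5) (nat_lit 5) (nat_lit 5) (nat_lit 4) (nat_lit 359) (nat_lit 282) (nat_lit 259))))))) (XT.nd (nat_lit 936) (nat_lit 76) (nat_lit 0) (XT.nd (nat_lit 468) (nat_lit 0) (nat_lit 0) (XT.nd (nat_lit 234) (nat_lit 0) (nat_lit 0) (XT.nd (nat_lit 78) (nat_lit 76) (nat_lit 0) (XT.lf (nat_lit 0) (nat_lit 1312114101) (nat_lit 152) (nat_lit 1554485098) (nat_lit 76) (nat_lit 97102408265) (nat_lit 3) (nat_lit 5) (nat_lit 5) (nat_lit 5) (nat_lit 4) (nat_lit 4) (nat_lit 360) (nat_lit 282) (nat_lit 258)) (XT.nd (nat_lit 78) (nat_lit 0) (nat_lit 0) (XT.lf (nat_lit 0) (nat_lit 7057400352) (nat_lit 152) (nat_lit 97648088170) (nat_lit 0) (nat_lit 2959132474) (nat_lit 2) (nat_lit 5) (nat_lit 4) (nat_lit 4) (nat_lit 2) (nat_lit 4) (nat_lit 361) (nat_lit 282) (nat_lit 257)) (XT.lf (nat_lit 0) (nat_lit 13232901435) (nat_lit 152) (nat_lit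 93661737778) (nat_lit 0) (nat_lit 9082726797) (nat_lit 2) (nat_lit 5) (nat_lit 4) (nat_lit 4) (nat_lit 2) (nat_lit 4) (nat_lit 362) (nat_lit 282) (nat_lit 256)))) (XT.nd (nat_lit 78) (nat_lit 0) (nat_lit 0) (XT.lf (nat_lit 0) (nat_lit 19804973903) (nat_lit 152) (nat_lit 89548303816) (nat_lit 0) (nat_lit 15606737450) (nat_lit 2) (nat_lit 5) (nat_lit 4) (nat_lit 4) (nat_lit 2) (nat_lit 4) (nat_lit 363) (nat_lit 282) (nat_lit 255)) (XT.nd (nat_lit 78) (nat_lit 0) (nat_lit 0) (XT.lf (nat_lit 0) (nat_lit 26812563370) (nat_lit 152) (nat_lit 85283410379) (nat_lit 0) (nat_lit 22569825236) (nat_lit 2) (nat_lit 5) (nat_lit 4) (nat_lit 4) (nat_lit 2) (nat_lit 4) (nat_lit 364) (nat_lit 282) (nat_lit 254)) (XT.lf (nat_lit 0) (nat_lit 34297196292) (nat_lit 152) (nat_lit 80841784023) (nat_lit 0) (nat_lit 30013252899) (nat_lit 2) (nat_lit 5) (nat_lit 4) (nat_lit 4) (nat_lit 2) (nat_lit 4) (nat_lit 365)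 (nat_lit 282) (nat_lit 253))))) (XT.nd (nat_lit 234) (nat_lit 0) (nat_lit 0) (XT.nd (nat_lit 78) (nat_lit 0) (nat_lit 0) (XT.lf (nat_lit 0) (nat_lit 42303226049) (nat_lit 152) (nat_lit 76197104001) (nat_lit 0) (nat_lit 37981129638) (nat_lit 2) (nat_lit 5) (nat_lit 4) (nat_lit 4) (nat_lit 2) (nat_lit 4) (nat_lit 366) (nat_lit 282) (nat_lit 252)) (XT.nd (nat_lit 78) (nat_lit 0) (nat_lit 0) (XT.lf (nat_lit 0) (nat_lit 50878095782) (nat_lit 152) (nat_lit 71321846282) (nat_lit 0) (nat_lit 46520672502) (nat_lit 2) (nat_lit 5) (nat_lit 4) (nat_lit 4) (nat_lit 2) (nat_lit 4) (nat_lit 367) (nat_lit 282) (nat_lit 251)) (XT.lf (nat_lit 0) (nat_lit 60072619532) (nat_lit 152) (nat_lit 66187120451) (nat_lit 0) (nat_lit 55682486189) (nat_lit 2) (nat_lit 5) (nat_lit 4) (nat_lit 4) (nat_lit 2) (nat_lit 4) (nat_lit 368) (nat_lit 282) (nat_lit 250)))) (XT.nd (nat_lit 78) (nat_lit 0) (nat_lit 0) (XT.lf (nat_lit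 0) (nat_lit 69941283366) (nat_lit 152) (nat_lit 60762498502) (nat_lit 0) (nat_lit 65520862927) (nat_lit 2) (nat_lit 5) (nat_lit 4) (nat_lit 4) (nat_lit 2) (nat_lit 4) (nat_lit 369) (nat_lit 282) (nat_lit 249)) (XT.nd (nat_lit 78) (nat_lit 0) (nat_lit 0) (XT.lf (nat_lit 0) (nat_lit 80542568256) (nat_lit 152) (nat_lit 55015834528) (nat_lit 0) (nat_lit 76094104210) (nat_lit 2) (nat_lit 5) (nat_lit 4) (nat_lit 4) (nat_lit 2) (nat_lit 4) (nat_lit 370) (nat_lit 282) (nat_lit 248)) (XT.lf (nat_lit 0) (nat_lit 91939296630) (nat_lit 152) (nat_lit 48913074224) (nat_lit 0) (nat_lit 87464866281) (nat_lit 2) (nat_lit 5) (nat_lit 4) (nat_lit 4) (nat_lit 2) (nat_lit 4) (nat_lit 371) (nat_lit 282) (nat_lit 247)))))) (XT.nd (nat_lit 468) (nat_lit 76) (nat_lit 0) (XT.nd (nat_lit 234) (nat_lit 0) (nat_lit 0) (XT.nd (nat_lit 78) (nat_lit 0) (nat_lit 0) (XT.lf (nat_lit 0) (nat_lit 104199004656) (nat_lit 152)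 (nat_lit 42418053084) (nat_lit 0) (nat_lit 99700531434) (nat_lit 2) (nat_lit 5) (nat_lit 4) (nat_lit 4) (nat_lit 2) (nat_lit 4) (nat_lit 372) (nat_lit 282) (nat_lit 246)) (XT.nd (nat_lit 78) (nat_lit 0) (nat_lit 0) (XT.lf (nat_lit 0) (nat_lit 117394342457) (nat_lit 152) (nat_lit 35492282094) (nat_lit 0) (nat_lit 112873607314) (nat_lit 2) (nat_lit 5) (nat_lit 4) (nat_lit 4) (nat_lit 2) (nat_lit 4) (nat_lit 373) (nat_lit 282) (nat_lit 245)) (XT.lf (nat_lit 0) (nat_lit 131603504625) (nat_lit 152) (nat_lit 28094719648) (nat_lit 0) (nat_lit 127062156594) (nat_lit 2) (nat_lit 5) (nat_lit 4) (nat_lit 4) (nat_lit 2) (nat_lit 4) (nat_lit 374) (nat_lit 282) (nat_lit 244)))) (XT.nd (nat_lit 78) (nat_lit 0) (nat_lit 0) (XT.lf (nat_lit 0) (nat_lit 146910693605) (nat_lit 152) (nat_lit 20181528339) (nat_lit 0) (nat_lit 142350259566) (nat_lit 2) (nat_lit 5) (nat_lit 4) (nat_lit 4) (nat_lit 2) (nat_lit 4)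 (nat_lit 375) (nat_lit 282) (nat_lit 243)) (XT.nd (nat_lit 78) (nat_lit 0) (nat_lit 0) (XT.lf (nat_lit 0) (nat_lit 163406618663) (nat_lit 152) (nat_lit 11705815181) (nat_lit 0) (nat_lit 158828512394) (nat_lit 2) (nat_lit 5) (nat_lit 4) (nat_lit 4) (nat_lit 2) (nat_lit 4) (nat_lit 376) (nat_lit 282) (nat_lit 242)) (XT.lf (nat_lit 0) (nat_lit 181189033430) (nat_lit 152) (nat_lit 2617353727) (nat_lit 0) (nat_lit 176594563986) (nat_lit 2) (nat_lit 5) (nat_lit 4) (nat_lit 4) (nat_lit 2) (nat_lit 4) (nat_lit 377) (nat_lit 282) (nat_lit 241))))) (XT.nd (nat_lit 234) (nat_lit 0) (nat_lit 0) (XT.nd (nat_lit 78) (nat_lit 0) (nat_lit 0) (XT.lf (nat_lit 0) (nat_lit 7373718619) (nat_lit 76) (nat_lit 193104720972) (nat_lit 76) (nat_lit 188495100440) (nat_lit 1) (nat_lit 4) (nat_lit 2) (nat_lit 5) (nat_lit 2) (nat_lit 4) (nat_lit 378) (nat_lit 282) (nat_lit 240)) (XT.nd (nat_lit 78) (nat_lit 0) (nat_lit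 0) (XT.lf (nat_lit 0) (nat_lit 18199698539) (nat_lit 76) (nat_lit 203127539042) (nat_lit 76) (nat_lit 198503889724) (nat_lit 1) (nat_lit 4) (nat_lit 2) (nat_lit 5) (nat_lit 2) (nat_lit 4) (nat_lit 379) (nat_lit 282) (nat_lit 239)) (XT.lf (nat_lit 0) (nat_lit 29838198453) (nat_lit 76) (nat_lit 213978561996) (nat_lit 76) (nat_lit 209341923061) (nat_lit 1) (nat_lit 4) (nat_lit 2) (nat_lit 5) (nat_lit 2) (nat_lit 4) (nat_lit 380) (nat_lit 282) (nat_lit 238)))) (XT.nd (nat_lit 78) (nat_lit 0) (nat_lit 0) (XT.lf (nat_lit 0) (nat_lit 42358187250) (nat_lit 76) (nat_lit 225722092192) (nat_lit 76) (nat_lit 221073425835) (nat_lit 1) (nat_lit 4) (nat_lit 2) (nat_lit 5) (nat_lit 2) (nat_lit 4) (nat_lit 381) (nat_lit 282) (nat_lit 237)) (XT.nd (nat_lit 78) (nat_lit 0) (nat_lit 0) (XT.lf (nat_lit 0) (nat_lit 55833857457) (nat_lit 76) (nat_lit 238427720921) (nat_lit 76) (nat_lit 233767918062) (nat_lit 1)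 (nat_lit 4) (nat_lit 2) (nat_lit 5) (nat_lit 2) (nat_lit 4) (nat_lit 382) (nat_lit 282) (nat_lit 236)) (XT.lf (nat_lit 0) (nat_lit 70345064895) (nat_lit 76) (nat_lit 252170740797) (nat_lit 76) (nat_lit 247500626361) (nat_lit 1) (nat_lit 4) (nat_lit 2) (nat_lit 5) (nat_lit 2) (nat_lit 4) (nat_lit 383) (nat_lit 282) (nat_lit 235))))))))
noncomputable def xc19 : XT := (XT.nd (nat_lit 43992) (nat_lit 0) (nat_lit 76) (XT.nd (nat_lit 43056) (nat_lit 0) (nat_lit 532) (XT.nd (nat_lit 390) (nat_lit 0) (nat_lit 0) (XT.nd (nat_lit 156) (nat_lit 0) (nat_lit 0) (XT.nd (nat_lit 78) (nat_lit 0) (nat_lit 0) (XT.lf (nat_lit 0) (nat_lit 85977801907) (nat_lit 76) (nat_lit 267032591938) (nat_lit 76) (nat_lit 262352929746) (nat_lit 1) (nat_lit 4) (nat_lit 2) (nat_lit 5) (nat_lit 2) (nat_lit 4) (nat_lit 384) (nat_lit 282) (nat_lit 234)) (XT.lf (nat_lit 0) (nat_lit 102824706933) (nat_lit 76) (nat_lit 283101344572)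 (nat_lit 76) (nat_lit 278412841866) (nat_lit 1) (nat_lit 4) (nat_lit 2) (nat_lit 5) (nat_lit 2) (nat_lit 4) (nat_lit 385) (nat_lit 282) (nat_lit 233))) (XT.nd (nat_lit 78) (nat_lit 0) (nat_lit 0) (XT.lf (nat_lit 0) (nat_lit 120985613485) (nat_lit 76) (nat_lit 300472220939) (nat_lit 76) (nat_lit 295775532571) (nat_lit 1) (nat_lit 4) (nat_lit 2) (nat_lit 5) (nat_lit 2) (nat_lit 4) (nat_lit 386) (nat_lit 282) (nat_lit 232)) (XT.nd (nat_lit 78) (nat_lit 0) (nat_lit 0) (XT.lf (nat_lit 0) (nat_lit 140568141749) (nat_lit 76) (nat_lit 319248159563) (nat_lit 76) (nat_lit 314543891880) (nat_lit 1) (nat_lit 4) (nat_lit 2) (nat_lit 5) (nat_lit 2) (nat_lit 4) (nat_lit 387) (nat_lit 282) (nat_lit 231)) (XT.lf (nat_lit 0) (nat_lit 161688336337) (nat_lit 76) (nat_lit 339540425268) (nat_lit 76) (nat_lit 334829139699) (nat_lit 1) (nat_lit 4) (nat_lit 2) (nat_lit 5) (nat_lit 2) (nat_lit 4) (nat_lit 388) (nat_lit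 282) (nat_lit 230))))) (XT.nd (nat_lit 234) (nat_lit 0) (nat_lit 0) (XT.nd (nat_lit 78) (nat_lit 0) (nat_lit 0) (XT.lf (nat_lit 0) (nat_lit 184471353959) (nat_lit 76) (nat_lit 361469268516) (nat_lit 76) (nat_lit 356751484904) (nat_lit 1) (nat_lit 4) (nat_lit 2) (nat_lit 5) (nat_lit 2) (nat_lit 4) (nat_lit 389) (nat_lit 282) (nat_lit 229)) (XT.nd (nat_lit 78) (nat_lit 0) (nat_lit 0) (XT.lf (nat_lit 0) (nat_lit 209052205089) (nat_lit 76) (nat_lit 385164638008) (nat_lit 76) (nat_lit 380440837690) (nat_lit 1) (nat_lit 4) (nat_lit 2) (nat_lit 5) (nat_lit 2) (nat_lit 4) (nat_lit 390) (nat_lit 282) (nat_lit 228)) (XT.lf (nat_lit 0) (nat_lit 235576554030) (nat_lit 76) (nat_lit 410766950748) (nat_lit 76) (nat_lit 406037579407) (nat_lit 1) (nat_lit 4) (nat_lit 2) (nat_lit 5) (nat_lit 2) (nat_lit 4) (nat_lit 391) (nat_lit 282) (nat_lit 227)))) (XT.nd (nat_lit 78) (nat_lit 0) (nat_lit 0) (XT.lf (nat_lit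 0) (nat_lit 264201582109) (nat_lit 76) (nat_lit 438427924145) (nat_lit 76) (nat_lit 433693394449) (nat_lit 1) (nat_lit 4) (nat_lit 2) (nat_lit 5) (nat_lit 2) (nat_lit 4) (nat_lit 392) (nat_lit 282) (nat_lit 226)) (XT.nd (nat_lit 42276) (nat_lit 0) (nat_lit 1368) (XT.lf (nat_lit 0) (nat_lit 295096919123) (nat_lit 76) (nat_lit 468311475079) (nat_lit 76) (nat_lit 463572169128) (nat_lit 1) (nat_lit 4) (nat_lit 2) (nat_lit 5) (nat_lit 2) (nat_lit 4) (nat_lit 393) (nat_lit 282) (nat_lit 225)) (XT.lf (nat_lit 0) (nat_lit 2757228879) (nat_lit 76) (nat_lit 3086858900) (nat_lit 76) (nat_lit 3086858900) (nat_lit 19) (nat_lit 4) (nat_lit 20) (nat_lit 5) (nat_lit 20) (nat_lit 4) (nat_lit 334) (nat_lit 283) (nat_lit 283)))))) (XT.nd (nat_lit 468) (nat_lit 380) (nat_lit 0) (XT.nd (nat_lit 234) (nat_lit 228) (nat_lit 0) (XT.nd (nat_lit 78) (nat_lit 76) (nat_lit 0) (XT.lf (nat_lit 0) (nat_lit 2026778012)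 (nat_lit 152) (nat_lit 15279825340) (nat_lit 0) (nat_lit 1536787062) (nat_lit 17) (nat_lit 5) (nat_lit 19) (nat_lit 4) (nat_lit 17) (nat_lit 4) (nat_lit 335) (nat_lit 283) (nat_lit 282)) (XT.nd (nat_lit 78) (nat_lit 0) (nat_lit 0) (XT.lf (nat_lit 0) (nat_lit 234018217) (nat_lit 76) (nat_lit 10307204699) (nat_lit 76) (nat_lit 9363518424) (nat_lit 16) (nat_lit 4) (nat_lit 17) (nat_lit 5) (nat_lit 17) (nat_lit 4) (nat_lit 336) (nat_lit 283) (nat_lit 281)) (XT.lf (nat_lit 0) (nat_lit 16714409847) (nat_lit 76) (nat_lit 2854430633) (nat_lit 76) (nat_lit 1490656095) (nat_lit 16) (nat_lit 4) (nat_lit 17) (nat_lit 5) (nat_lit 17) (nat_lit 4) (nat_lit 337) (nat_lit 283) (nat_lit 280)))) (XT.nd (nat_lit 78) (nat_lit 76) (nat_lit 0) (XT.lf (nat_lit 0) (nat_lit 6641789006) (nat_lit 152) (nat_lit 10694237918) (nat_lit 0) (nat_lit 4972507908) (nat_lit 14) (nat_lit 5) (nat_lit 16) (nat_lit 4) (nat_lit 14)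 (nat_lit 4) (nat_lit 338) (nat_lit 283) (nat_lit 279)) (XT.nd (nat_lit 78) (nat_lit 0) (nat_lit 0) (XT.lf (nat_lit 0) (nat_lit 4673388141) (nat_lit 76) (nat_lit 10502543873) (nat_lit 76) (nat_lit 8490255178) (nat_lit 13) (nat_lit 4) (nat_lit 14) (nat_lit 5) (nat_lit 14) (nat_lit 4) (nat_lit 339) (nat_lit 283) (nat_lit 278)) (XT.lf (nat_lit 0) (nat_lit 20931497289) (nat_lit 76) (nat_lit 3270234942) (nat_lit 76) (nat_lit 940346622) (nat_lit 13) (nat_lit 4) (nat_lit 14) (nat_lit 5) (nat_lit 14) (nat_lit 4) (nat_lit 340) (nat_lit 283) (nat_lit 277))))) (XT.nd (nat_lit 234) (nat_lit 152) (nat_lit 0) (XT.nd (nat_lit 78) (nat_lit 76) (nat_lit 0) (XT.lf (nat_lit 0) (nat_lit 6874864249) (nat_lit 152) (nat_lit 15485148939) (nat_lit 0) (nat_lit 4375852774) (nat_lit 11) (nat_lit 5) (nat_lit 13) (nat_lit 4) (nat_lit 11) (nat_lit 4) (nat_lit 341) (nat_lit 283) (nat_lit 276)) (XT.nd (nat_lit 78) (nat_lit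 76) (nat_lit 0) (XT.lf (nat_lit 0) (nat_lit 15068592220) (nat_lit 152) (nat_lit 1088284238) (nat_lit 0) (nat_lit 12310256470) (nat_lit 11) (nat_lit 5) (nat_lit 13) (nat_lit 4) (nat_lit 11) (nat_lit 4) (nat_lit 342) (nat_lit 283) (nat_lit 275)) (XT.lf (nat_lit 0) (nat_lit 14305344630) (nat_lit 76) (nat_lit 9517408109) (nat_lit 76) (nat_lit 6518957290) (nat_lit 10) (nat_lit 4) (nat_lit 11) (nat_lit 5) (nat_lit 11) (nat_lit 4) (nat_lit 343) (nat_lit 283) (nat_lit 274)))) (XT.nd (nat_lit 78) (nat_lit 76) (nat_lit 0) (XT.lf (nat_lit 0) (nat_lit 592091804) (nat_lit 152) (nat_lit 2006991388) (nat_lit 76) (nat_lit 29780995060) (nat_lit 9) (nat_lit 5) (nat_lit 11) (nat_lit 5) (nat_lit 10) (nat_lit 4) (nat_lit 344) (nat_lit 283) (nat_lit 273)) (XT.nd (nat_lit 78) (nat_lit 0) (nat_lit 0) (XT.lf (nat_lit 0) (nat_lit 8038918244) (nat_lit 152) (nat_lit 21762083300) (nat_lit 0) (nat_lit 4775451998) (nat_lit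 8) (nat_lit 5) (nat_lit 10) (nat_lit 4) (nat_lit 8) (nat_lit 4) (nat_lit 345) (nat_lit 283) (nat_lit 272)) (XT.lf (nat_lit 0) (nat_lit 15883690918) (nat_lit 152) (nat_lit 8636089577) (nat_lit 0) (nat_lit 12438690307) (nat_lit 8) (nat_lit 5) (nat_lit 10) (nat_lit 4) (nat_lit 8) (nat_lit 4) (nat_lit 346) (nat_lit 283) (nat_lit 271))))))) (XT.nd (nat_lit 936) (nat_lit 152) (nat_lit 0) (XT.nd (nat_lit 468) (nat_lit 76) (nat_lit 0) (XT.nd (nat_lit 234) (nat_lit 152) (nat_lit 0) (XT.nd (nat_lit 78) (nat_lit 0) (nat_lit 0) (XT.lf (nat_lit 0) (nat_lit 5208531634) (nat_lit 76) (nat_lit 18972205040) (nat_lit 76) (nat_lit 15359117053) (nat_lit 7) (nat_lit 4) (nat_lit 8) (nat_lit 5) (nat_lit 8) (nat_lit 4) (nat_lit 347) (nat_lit 283) (nat_lit 270)) (XT.nd (nat_lit 78) (nat_lit 0) (nat_lit 0) (XT.lf (nat_lit 0) (nat_lit 19992606287) (nat_lit 76) (nat_lit 13054316294) (nat_lit 76) (nat_lit 9285591848)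 (nat_lit 7) (nat_lit 4) (nat_lit 8) (nat_lit 5) (nat_lit 8) (nat_lit 4) (nat_lit 348) (nat_lit 283) (nat_lit 269)) (XT.lf (nat_lit 0) (nat_lit 35518195589) (nat_lit 76) (nat_lit 6877301645) (nat_lit 76) (nat_lit 2964469367) (nat_lit 7) (nat_lit 4) (nat_lit 8) (nat_lit 5) (nat_lit 8) (nat_lit 4) (nat_lit 349) (nat_lit 283) (nat_lit 268)))) (XT.nd (nat_lit 78) (nat_lit 0) (nat_lit 0) (XT.lf (nat_lit 0) (nat_lit 3285449969) (nat_lit 76) (nat_lit 290996579) (nat_lit 152) (nat_lit 45058296531) (nat_lit 5) (nat_lit 5) (nat_lit 6) (nat_lit 5) (nat_lit 7) (nat_lit 4) (nat_lit 350) (nat_lit 283) (nat_lit 267)) (XT.nd (nat_lit 78) (nat_lit 0) (nat_lit 0) (XT.lf (nat_lit 0) (nat_lit 10611943512) (nat_lit 152) (nat_lit 34912705626) (nat_lit 0) (nat_lit 6640691421) (nat_lit 5) (nat_lit 5) (nat_lit 7) (nat_lit 4) (nat_lit 5) (nat_lit 4) (nat_lit 351) (nat_lit 283) (nat_lit 266)) (XT.lf (nat_lit 0) (nat_lit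 18023537167) (nat_lit 152) (nat_lit 24020875872) (nat_lit 0) (nat_lit 13943335131) (nat_lit 5) (nat_lit 5) (nat_lit 7) (nat_lit 4) (nat_lit 5) (nat_lit 4) (nat_lit 352) (nat_lit 283) (nat_lit 265))))) (XT.nd (nat_lit 234) (nat_lit 0) (nat_lit 0) (XT.nd (nat_lit 78) (nat_lit 76) (nat_lit 0) (XT.lf (nat_lit 0) (nat_lit 25850604798) (nat_lit 152) (nat_lit 12604716401) (nat_lit 0) (nat_lit 21669523182) (nat_lit 5) (nat_lit 5) (nat_lit 7) (nat_lit 4) (nat_lit 5) (nat_lit 4) (nat_lit 353) (nat_lit 283) (nat_lit 264)) (XT.nd (nat_lit 78) (nat_lit 76) (nat_lit 0) (XT.lf (nat_lit 0) (nat_lit 34139529027) (nat_lit 152) (nat_lit 596575896) (nat_lit 0) (nat_lit 29865040392) (nat_lit 5) (nat_lit 5) (nat_lit 7) (nat_lit 4) (nat_lit 5) (nat_lit 4) (nat_lit 354) (nat_lit 283) (nat_lit 263)) (XT.lf (nat_lit 0) (nat_lit 12473949270) (nat_lit 76) (nat_lit 30660233441) (nat_lit 76) (nat_lit 26299256827) (nat_lit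 4) (nat_lit 4) (nat_lit 5) (nat_lit 5) (nat_lit 5) (nat_lit 4) (nat_lit 355) (nat_lit 283) (nat_lit 262)))) (XT.nd (nat_lit 78) (nat_lit 0) (nat_lit 0) (XT.lf (nat_lit 0) (nat_lit 26326838586) (nat_lit 76) (nat_lit 26386650635) (nat_lit 76) (nat_lit 21945592558) (nat_lit 4) (nat_lit 4) (nat_lit 5) (nat_lit 5) (nat_lit 5) (nat_lit 4) (nat_lit 356) (nat_lit 283) (nat_lit 261)) (XT.nd (nat_lit 78) (nat_lit 0) (nat_lit 0) (XT.lf (nat_lit 0) (nat_lit 41024457755) (nat_lit 76) (nat_lit 21900134871) (nat_lit 76) (nat_lit 17384927292) (nat_lit 4) (nat_lit 4) (nat_lit 5) (nat_lit 5) (nat_lit 5) (nat_lit 4) (nat_lit 357) (nat_lit 283) (nat_lit 260)) (XT.lf (nat_lit 0) (nat_lit 56653903778) (nat_lit 76) (nat_lit 17174099390) (nat_lit 76) (nat_lit 12590234864) (nat_lit 4) (nat_lit 4) (nat_lit 5) (nat_lit 5) (nat_lit 5) (nat_lit 4) (nat_lit 358) (nat_lit 283) (nat_lit 259)))))) (XT.nd (nat_lit 468) (nat_lit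 0) (nat_lit 0) (XT.nd (nat_lit 234) (nat_lit 0) (nat_lit 0) (XT.nd (nat_lit 78) (nat_lit 152) (nat_lit 0) (XT.lf (nat_lit 0) (nat_lit 73307795595) (nat_lit 76) (nat_lit 12180538056) (nat_lit 76) (nat_lit 7533102282) (nat_lit 4) (nat_lit 4) (nat_lit 5) (nat_lit 5) (nat_lit 5) (nat_lit 4) (nat_lit 359) (nat_lit 283) (nat_lit 258)) (XT.nd (nat_lit 78) (nat_lit 152) (nat_lit 0) (XT.lf (nat_lit 0) (nat_lit 91084822934) (nat_lit 76) (nat_lit 6889859393) (nat_lit 76) (nat_lit 2183561353) (nat_lit 4) (nat_lit 4) (nat_lit 5) (nat_lit 5) (nat_lit 5) (nat_lit 4) (nat_lit 360) (nat_lit 283) (nat_lit 257)) (XT.lf (nat_lit 0) (nat_lit 2236468564) (nat_lit 76) (nat_lit 1176833241) (nat_lit 152) (nat_lit 104453181286) (nat_lit 2) (nat_lit 5) (nat_lit 3) (nat_lit 5) (nat_lit 4) (nat_lit 4) (nat_lit 361) (nat_lit 283) (nat_lit 256)))) (XT.nd (nat_lit 78) (nat_lit 0) (nat_lit 0) (XT.lf (nat_lit 0) (nat_lit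 9523569271) (nat_lit 152) (nat_lit 101717513768) (nat_lit 0) (nat_lit 4941412087) (nat_lit 2) (nat_lit 5) (nat_lit 4) (nat_lit 4) (nat_lit 2) (nat_lit 4) (nat_lit 362) (nat_lit 283) (nat_lit 255)) (XT.nd (nat_lit 78) (nat_lit 0) (nat_lit 0) (XT.lf (nat_lit 0) (nat_lit 16052252893) (nat_lit 152) (nat_lit 97689471749) (nat_lit 0) (nat_lit 11425594029) (nat_lit 2) (nat_lit 5) (nat_lit 4) (nat_lit 4) (nat_lit 2) (nat_lit 4) (nat_lit 363) (nat_lit 283) (nat_lit 254)) (XT.lf (nat_lit 0) (nat_lit 23019667503) (nat_lit 152) (nat_lit 93503644926) (nat_lit 0) (nat_lit 18351803379) (nat_lit 2) (nat_lit 5) (nat_lit 4) (nat_lit 4) (nat_lit 2) (nat_lit 4) (nat_lit 364) (nat_lit 283) (nat_lit 253))))) (XT.nd (nat_lit 234) (nat_lit 0) (nat_lit 0) (XT.nd (nat_lit 78) (nat_lit 0) (nat_lit 0) (XT.lf (nat_lit 0) (nat_lit 30467101484) (nat_lit 152) (nat_lit 89135228398) (nat_lit 0) (nat_lit 25761084342) (nat_lit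 2) (nat_lit 5) (nat_lit 4) (nat_lit 4) (nat_lit 2) (nat_lit 4) (nat_lit 365) (nat_lit 283) (nat_lit 252)) (XT.nd (nat_lit 78) (nat_lit 0) (nat_lit 0) (XT.lf (nat_lit 0) (nat_lit 38438687777) (nat_lit 152) (nat_lit 84558335253) (nat_lit 0) (nat_lit 33697343766) (nat_lit 2) (nat_lit 5) (nat_lit 4) (nat_lit 4) (nat_lit 2) (nat_lit 4) (nat_lit 366) (nat_lit 283) (nat_lit 251)) (XT.lf (nat_lit 0) (nat_lit 46981665413) (nat_lit 152) (nat_lit 79745843162) (nat_lit 0) (nat_lit 42207611339) (nat_lit 2) (nat_lit 5) (nat_lit 4) (nat_lit 4) (nat_lit 2) (nat_lit 4) (nat_lit 367) (nat_lit 283) (nat_lit 250)))) (XT.nd (nat_lit 78) (nat_lit 0) (nat_lit 0) (XT.lf (nat_lit 0) (nat_lit 56146659444) (nat_lit 152) (nat_lit 74669233653) (nat_lit 0) (nat_lit 51342318274) (nat_lit 2) (nat_lit 5) (nat_lit 4) (nat_lit 4) (nat_lit 2) (nat_lit 4) (nat_lit 368) (nat_lit 283) (nat_lit 249)) (XT.nd (nat_lit 78) (nat_lit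 0) (nat_lit 0) (XT.lf (nat_lit 0) (nat_lit 65987980946) (nat_lit 152) (nat_lit 69298423113) (nat_lit 0) (nat_lit 61155596169) (nat_lit 2) (nat_lit 5) (nat_lit 4) (nat_lit 4) (nat_lit 2) (nat_lit 4) (nat_lit 369) (nat_lit 283) (nat_lit 248)) (XT.lf (nat_lit 0) (nat_lit 76563948861) (nat_lit 152) (nat_lit 63601584518) (nat_lit 0) (nat_lit 71705597781) (nat_lit 2) (nat_lit 5) (nat_lit 4) (nat_lit 4) (nat_lit 2) (nat_lit 4) (nat_lit 370) (nat_lit 283) (nat_lit 247))))))))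
noncomputable def xc20 : XT := (XT.nd (nat_lit 43836) (nat_lit 0) (nat_lit 304) (XT.nd (nat_lit 858) (nat_lit 0) (nat_lit 0) (XT.nd (nat_lit 390) (nat_lit 76) (nat_lit 0) (XT.nd (nat_lit 156) (nat_lit 0) (nat_lit 0) (XT.nd (nat_lit 78) (nat_lit 0) (nat_lit 0) (XT.lf (nat_lit 0) (nat_lit 87937235592) (nat_lit 152) (nat_lit 57544958823) (nat_lit 0) (nat_lit 83054841638) (nat_lit 2) (nat_lit 5) (nat_lit 4) (nat_lit 4) (nat_lit 2) (nat_lit 4) (nat_lit 371) (nat_lit 283) (nat_lit 246)) (XT.lf (nat_lit 0) (nat_lit 100175238393) (nat_lit 152) (nat_lit 51092654914) (nat_lit 0) (nat_lit 95270582520) (nat_lit 2) (nat_lit 5) (nat_lit 4) (nat_lit 4) (nat_lit 2) (nat_lit 4) (nat_lit 372) (nat_lit 283) (nat_lit 245))) (XT.nd (nat_lit 78) (nat_lit 0) (nat_lit 0) (XT.lf (nat_lit 0) (nat_lit 113350478763) (nat_lit 152) (nat_lit 44206436916) (nat_lit 0) (nat_lit 108425210001) (nat_lit 2) (nat_lit 5) (nat_lit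 4) (nat_lit 4) (nat_lit 2) (nat_lit 4) (nat_lit 373) (nat_lit 283) (nat_lit 244)) (XT.nd (nat_lit 78) (nat_lit 0) (nat_lit 0) (XT.lf (nat_lit 0) (nat_lit 127541032200) (nat_lit 152) (nat_lit 36845497611) (nat_lit 0) (nat_lit 122596677430) (nat_lit 2) (nat_lit 5) (nat_lit 4) (nat_lit 4) (nat_lit 2) (nat_lit 4) (nat_lit 374) (nat_lit 283) (nat_lit 243)) (XT.lf (nat_lit 0) (nat_lit 142830990872) (nat_lit 152) (nat_lit 28966216617) (nat_lit 0) (nat_lit 137868963872) (nat_lit 2) (nat_lit 5) (nat_lit 4) (nat_lit 4) (nat_lit 2) (nat_lit 4) (nat_lit 375) (nat_lit 283) (nat_lit 242))))) (XT.nd (nat_lit 234) (nat_lit 76) (nat_lit 0) (XT.nd (nat_lit 78) (nat_lit 0) (nat_lit 0) (XT.lf (nat_lit 0) (nat_lit 159310961941) (nat_lit 152) (nat_lit 20521901900) (nat_lit 0) (nat_lit 154332571766) (nat_lit 2) (nat_lit 5) (nat_lit 4) (nat_lit 4) (nat_lit 2) (nat_lit 4) (nat_lit 376) (nat_lit 283) (nat_lit 241))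 (XT.nd (nat_lit 78) (nat_lit 0) (nat_lit 0) (XT.lf (nat_lit 0) (nat_lit 177078604497) (nat_lit 152) (nat_lit 11462513075) (nat_lit 0) (nat_lit 172085063234) (nat_lit 2) (nat_lit 5) (nat_lit 4) (nat_lit 4) (nat_lit 2) (nat_lit 4) (nat_lit 377) (nat_lit 283) (nat_lit 240)) (XT.lf (nat_lit 0) (nat_lit 196239208272) (nat_lit 152) (nat_lit 1734364876) (nat_lit 0) (nat_lit 191231638223) (nat_lit 2) (nat_lit 5) (nat_lit 4) (nat_lit 4) (nat_lit 2) (nat_lit 4) (nat_lit 378) (nat_lit 283) (nat_lit 239)))) (XT.nd (nat_lit 78) (nat_lit 0) (nat_lit 0) (XT.lf (nat_lit 0) (nat_lit 9008519877) (nat_lit 76) (nat_lit 208038445950) (nat_lit 76) (nat_lit 203017886284) (nat_lit 1) (nat_lit 4) (nat_lit 2) (nat_lit 5) (nat_lit 2) (nat_lit 4) (nat_lit 379) (nat_lit 283) (nat_lit 238)) (XT.nd (nat_lit 78) (nat_lit 0) (nat_lit 0) (XT.lf (nat_lit 0) (nat_lit 20623177911) (nat_lit 76) (nat_lit 218901211887) (nat_lit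 76) (nat_lit 213868624799) (nat_lit 1) (nat_lit 4) (nat_lit 2) (nat_lit 5) (nat_lit 2) (nat_lit 4) (nat_lit 380) (nat_lit 283) (nat_lit 237)) (XT.lf (nat_lit 0) (nat_lit 33121090894) (nat_lit 76) (nat_lit 230655615217) (nat_lit 76) (nat_lit 225611891626) (nat_lit 1) (nat_lit 4) (nat_lit 2) (nat_lit 5) (nat_lit 2) (nat_lit 4) (nat_lit 381) (nat_lit 283) (nat_lit 236)))))) (XT.nd (nat_lit 468) (nat_lit 0) (nat_lit 0) (XT.nd (nat_lit 234) (nat_lit 0) (nat_lit 0) (XT.nd (nat_lit 78) (nat_lit 0) (nat_lit 0) (XT.lf (nat_lit 0) (nat_lit 46576320531) (nat_lit 76) (nat_lit 243371311661) (nat_lit 76) (nat_lit 238317276495) (nat_lit 1) (nat_lit 4) (nat_lit 2) (nat_lit 5) (nat_lit 2) (nat_lit 4) (nat_lit 382) (nat_lit 283) (nat_lit 235)) (XT.nd (nat_lit 78) (nat_lit 0) (nat_lit 0) (XT.lf (nat_lit 0) (nat_lit 61068601517) (nat_lit 76) (nat_lit 257123653496) (nat_lit 76) (nat_lit 252060070574) (nat_lit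 1) (nat_lit 4) (nat_lit 2) (nat_lit 5) (nat_lit 2) (nat_lit 4) (nat_lit 383) (nat_lit 283) (nat_lit 234)) (XT.lf (nat_lit 0) (nat_lit 76683814035) (nat_lit 76) (nat_lit 271994136080) (nat_lit 76) (nat_lit 266921712644) (nat_lit 1) (nat_lit 4) (nat_lit 2) (nat_lit 5) (nat_lit 2) (nat_lit 4) (nat_lit 384) (nat_lit 283) (nat_lit 233)))) (XT.nd (nat_lit 78) (nat_lit 0) (nat_lit 0) (XT.lf (nat_lit 0) (nat_lit 93514492678) (nat_lit 76) (nat_lit 288070880792) (nat_lit 76) (nat_lit 282990271694) (nat_lit 1) (nat_lit 4) (nat_lit 2) (nat_lit 5) (nat_lit 2) (nat_lit 4) (nat_lit 385) (nat_lit 283) (nat_lit 232)) (XT.nd (nat_lit 78) (nat_lit 0) (nat_lit 0) (XT.lf (nat_lit 0) (nat_lit 111660374801) (nat_lit 76) (nat_lit 305449157230) (nat_lit 76) (nat_lit 300360968816) (nat_lit 1) (nat_lit 4) (nat_lit 2) (nat_lit 5) (nat_lit 2) (nat_lit 4) (nat_lit 386) (nat_lit 283) (nat_lit 231)) (XT.lf (nat_lit 0)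 (nat_lit 131228991557) (nat_lit 76) (nat_lit 324231947773) (nat_lit 76) (nat_lit 319136741473) (nat_lit 1) (nat_lit 4) (nat_lit 2) (nat_lit 5) (nat_lit 2) (nat_lit 4) (nat_lit 387) (nat_lit 283) (nat_lit 230))))) (XT.nd (nat_lit 234) (nat_lit 0) (nat_lit 0) (XT.nd (nat_lit 78) (nat_lit 0) (nat_lit 0) (XT.lf (nat_lit 0) (nat_lit 152336305120) (nat_lit 76) (nat_lit 344530557847) (nat_lit 76) (nat_lit 339428853504) (nat_lit 1) (nat_lit 4) (nat_lit 2) (nat_lit 5) (nat_lit 2) (nat_lit 4) (nat_lit 388) (nat_lit 283) (nat_lit 229)) (XT.nd (nat_lit 78) (nat_lit 0) (nat_lit 0) (XT.lf (nat_lit 0) (nat_lit 175107395866) (nat_lit 76) (nat_lit 366465275510) (nat_lit 76) (nat_lit 361357554462) (nat_lit 1) (nat_lit 4) (nat_lit 2) (nat_lit 5) (nat_lit 2) (nat_lit 4) (nat_lit 389) (nat_lit 283) (nat_lit 228)) (XT.lf (nat_lit 0) (nat_lit 199677203592) (nat_lit 76) (nat_lit 390166084275) (nat_lit 76) (nat_lit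 385052792203) (nat_lit 1) (nat_lit 4) (nat_lit 2) (nat_lit 5) (nat_lit 2) (nat_lit 4) (nat_lit 390) (nat_lit 283) (nat_lit 227)))) (XT.nd (nat_lit 78) (nat_lit 0) (nat_lit 0) (XT.lf (nat_lit 0) (nat_lit 226191327160) (nat_lit 76) (nat_lit 415773433380) (nat_lit 76) (nat_lit 410654982953) (nat_lit 1) (nat_lit 4) (nat_lit 2) (nat_lit 5) (nat_lit 2) (nat_lit 4) (nat_lit 391) (nat_lit 283) (nat_lit 226)) (XT.nd (nat_lit 78) (nat_lit 0) (nat_lit 0) (XT.lf (nat_lit 0) (nat_lit 254806887300) (nat_lit 76) (nat_lit 443439070078) (nat_lit 76) (nat_lit 438315843396) (nat_lit 1) (nat_lit 4) (nat_lit 2) (nat_lit 5) (nat_lit 2) (nat_lit 4) (nat_lit 392) (nat_lit 283) (nat_lit 225)) (XT.lf (nat_lit 0) (nat_lit 285693457703) (nat_lit 76) (nat_lit 473326938882) (nat_lit 76) (nat_lit 468199289742) (nat_lit 1) (nat_lit 4) (nat_lit 2) (nat_lit 5) (nat_lit 2) (nat_lit 4) (nat_lit 393) (nat_lit 283) (nat_lit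 224))))))) (XT.nd (nat_lit 858) (nat_lit 456) (nat_lit 0) (XT.nd (nat_lit 390) (nat_lit 456) (nat_lit 0) (XT.nd (nat_lit 156) (nat_lit 228) (nat_lit 0) (XT.nd (nat_lit 78) (nat_lit 152) (nat_lit 0) (XT.lf (nat_lit 0) (nat_lit 3390337525) (nat_lit 76) (nat_lit 2334502843) (nat_lit 76) (nat_lit 2334502843) (nat_lit 22) (nat_lit 4) (nat_lit 23) (nat_lit 5) (nat_lit 23) (nat_lit 4) (nat_lit 332) (nat_lit 284) (nat_lit 284)) (XT.lf (nat_lit 0) (nat_lit 3493230273) (nat_lit 152) (nat_lit 10530144952) (nat_lit 0) (nat_lit 2937580536) (nat_lit 20) (nat_lit 5) (nat_lit 22) (nat_lit 4) (nat_lit 20) (nat_lit 4) (nat_lit 333) (nat_lit 284) (nat_lit 283))) (XT.nd (nat_lit 78) (nat_lit 152) (nat_lit 0) (XT.lf (nat_lit 0) (nat_lit 5099281174) (nat_lit 76) (nat_lit 6921969168) (nat_lit 76) (nat_lit 5851828932) (nat_lit 19) (nat_lit 4) (nat_lit 20) (nat_lit 5) (nat_lit 20) (nat_lit 4) (nat_lit 334) (nat_lit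 284) (nat_lit 282)) (XT.nd (nat_lit 78) (nat_lit 0) (nat_lit 0) (XT.lf (nat_lit 0) (nat_lit 2100918817) (nat_lit 152) (nat_lit 16137286607) (nat_lit 0) (nat_lit 628042315) (nat_lit 17) (nat_lit 5) (nat_lit 19) (nat_lit 4) (nat_lit 17) (nat_lit 4) (nat_lit 335) (nat_lit 284) (nat_lit 281)) (XT.lf (nat_lit 0) (nat_lit 10409141744) (nat_lit 152) (nat_lit 1012637718) (nat_lit 0) (nat_lit 8516176979) (nat_lit 17) (nat_lit 5) (nat_lit 19) (nat_lit 4) (nat_lit 17) (nat_lit 4) (nat_lit 336) (nat_lit 284) (nat_lit 280))))) (XT.nd (nat_lit 234) (nat_lit 152) (nat_lit 0) (XT.nd (nat_lit 78) (nat_lit 228) (nat_lit 0) (XT.lf (nat_lit 0) (nat_lit 15069155329) (nat_lit 76) (nat_lit 4158007388) (nat_lit 76) (nat_lit 1876072008) (nat_lit 16) (nat_lit 4) (nat_lit 17) (nat_lit 5) (nat_lit 17) (nat_lit 4) (nat_lit 337) (nat_lit 284) (nat_lit 279)) (XT.nd (nat_lit 78) (nat_lit 76) (nat_lit 0) (XT.lf (nat_lit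 0) (nat_lit 6030573890) (nat_lit 152) (nat_lit 12819650317) (nat_lit 0) (nat_lit 3514294504) (nat_lit 14) (nat_lit 5) (nat_lit 16) (nat_lit 4) (nat_lit 14) (nat_lit 4) (nat_lit 338) (nat_lit 284) (nat_lit 278)) (XT.lf (nat_lit 0) (nat_lit 2131154441) (nat_lit 76) (nat_lit 12217858075) (nat_lit 76) (nat_lit 9383979062) (nat_lit 13) (nat_lit 4) (nat_lit 14) (nat_lit 5) (nat_lit 14) (nat_lit 4) (nat_lit 339) (nat_lit 284) (nat_lit 277)))) (XT.nd (nat_lit 78) (nat_lit 152) (nat_lit 0) (XT.lf (nat_lit 0) (nat_lit 18068388062) (nat_lit 76) (nat_lit 5138439915) (nat_lit 76) (nat_lit 2010487175) (nat_lit 13) (nat_lit 4) (nat_lit 14) (nat_lit 5) (nat_lit 14) (nat_lit 4) (nat_lit 340) (nat_lit 284) (nat_lit 276)) (XT.nd (nat_lit 78) (nat_lit 0) (nat_lit 0) (XT.lf (nat_lit 0) (nat_lit 5596307947) (nat_lit 152) (nat_lit 18869810808) (nat_lit 0) (nat_lit 2357981062) (nat_lit 11) (nat_lit 5) (nat_lit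 13) (nat_lit 4) (nat_lit 11) (nat_lit 4) (nat_lit 341) (nat_lit 284) (nat_lit 275)) (XT.lf (nat_lit 0) (nat_lit 13636953125) (nat_lit 152) (nat_lit 4767583306) (nat_lit 0) (nat_lit 10158511170) (nat_lit 11) (nat_lit 5) (nat_lit 13) (nat_lit 4) (nat_lit 11) (nat_lit 4) (nat_lit 342) (nat_lit 284) (nat_lit 274)))))) (XT.nd (nat_lit 468) (nat_lit 152) (nat_lit 0) (XT.nd (nat_lit 234) (nat_lit 76) (nat_lit 0) (XT.nd (nat_lit 78) (nat_lit 152) (nat_lit 0) (XT.lf (nat_lit 0) (nat_lit 10222558693) (nat_lit 76) (nat_lit 11963067894) (nat_lit 76) (nat_lit 8262297171) (nat_lit 10) (nat_lit 4) (nat_lit 11) (nat_lit 5) (nat_lit 11) (nat_lit 4) (nat_lit 343) (nat_lit 284) (nat_lit 273)) (XT.nd (nat_lit 78) (nat_lit 152) (nat_lit 0) (XT.lf (nat_lit 0) (nat_lit 26039372154) (nat_lit 76) (nat_lit 5180408396) (nat_lit 76) (nat_lit 1273777702) (nat_lit 10) (nat_lit 4) (nat_lit 11) (nat_lit 5) (nat_lit 11)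 (nat_lit 4) (nat_lit 344) (nat_lit 284) (nat_lit 272)) (XT.lf (nat_lit 0) (nat_lit 5967361608) (nat_lit 152) (nat_lit 26670682681) (nat_lit 0) (nat_lit 2065226582) (nat_lit 8) (nat_lit 5) (nat_lit 10) (nat_lit 4) (nat_lit 8) (nat_lit 4) (nat_lit 345) (nat_lit 284) (nat_lit 271)))) (XT.nd (nat_lit 78) (nat_lit 76) (nat_lit 0) (XT.lf (nat_lit 0) (nat_lit 13688755192) (nat_lit 152) (nat_lit 13784187779) (nat_lit 0) (nat_lit 9618532791) (nat_lit 8) (nat_lit 5) (nat_lit 10) (nat_lit 4) (nat_lit 8) (nat_lit 4) (nat_lit 346) (nat_lit 284) (nat_lit 270)) (XT.nd (nat_lit 78) (nat_lit 76) (nat_lit 0) (XT.lf (nat_lit 0) (nat_lit 21790241274) (nat_lit 152) (nat_lit 328030276) (nat_lit 0) (nat_lit 17564382414) (nat_lit 8) (nat_lit 5) (nat_lit 10) (nat_lit 4) (nat_lit 8) (nat_lit 4) (nat_lit 347) (nat_lit 284) (nat_lit 269)) (XT.lf (nat_lit 0) (nat_lit 14233077385) (nat_lit 76) (nat_lit 16308969501) (nat_lit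 76) (nat_lit 11939002808) (nat_lit 7) (nat_lit 4) (nat_lit 8) (nat_lit 5) (nat_lit 8) (nat_lit 4) (nat_lit 348) (nat_lit 284) (nat_lit 268))))) (XT.nd (nat_lit 234) (nat_lit 0) (nat_lit 0) (XT.nd (nat_lit 78) (nat_lit 152) (nat_lit 0) (XT.lf (nat_lit 0) (nat_lit 29562258513) (nat_lit 76) (nat_lit 10227354244) (nat_lit 76) (nat_lit 5723954374) (nat_lit 7) (nat_lit 4) (nat_lit 8) (nat_lit 5) (nat_lit 8) (nat_lit 4) (nat_lit 349) (nat_lit 284) (nat_lit 267)) (XT.nd (nat_lit 78) (nat_lit 76) (nat_lit 0) (XT.lf (nat_lit 0) (nat_lit 758914052) (nat_lit 152) (nat_lit 3071175301) (nat_lit 76) (nat_lit 44967739906) (nat_lit 6) (nat_lit 5) (nat_lit 8) (nat_lit 5) (nat_lit 7) (nat_lit 4) (nat_lit 350) (nat_lit 284) (nat_lit 266)) (XT.lf (nat_lit 0) (nat_lit 7596669396) (nat_lit 152) (nat_lit 41660555279) (nat_lit 0) (nat_lit 3081101251) (nat_lit 5) (nat_lit 5) (nat_lit 7) (nat_lit 4) (nat_lit 5) (nat_lit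 4) (nat_lit 351) (nat_lit 284) (nat_lit 265)))) (XT.nd (nat_lit 78) (nat_lit 0) (nat_lit 0) (XT.lf (nat_lit 0) (nat_lit 14922948861) (nat_lit 152) (nat_lit 30935560459) (nat_lit 0) (nat_lit 10306501135) (nat_lit 5) (nat_lit 5) (nat_lit 7) (nat_lit 4) (nat_lit 5) (nat_lit 4) (nat_lit 352) (nat_lit 284) (nat_lit 264)) (XT.nd (nat_lit 78) (nat_lit 0) (nat_lit 0) (XT.lf (nat_lit 0) (nat_lit 22671021870) (nat_lit 152) (nat_lit 19673877778) (nat_lit 0) (nat_lit 17961167127) (nat_lit 5) (nat_lit 5) (nat_lit 7) (nat_lit 4) (nat_lit 5) (nat_lit 4) (nat_lit 353) (nat_lit 284) (nat_lit 263)) (XT.lf (nat_lit 0) (nat_lit 30886802931) (nat_lit 152) (nat_lit 7808771339) (nat_lit 0) (nat_lit 26090460208) (nat_lit 5) (nat_lit 5) (nat_lit 7) (nat_lit 4) (nat_lit 5) (nat_lit 4) (nat_lit 354) (nat_lit 284) (nat_lit 262))))))))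
noncomputable def xc21 : XT := (XT.nd (nat_lit 1794) (nat_lit 76) (nat_lit 0) (XT.nd (nat_lit 858) (nat_lit 0) (nat_lit 0) (XT.nd (nat_lit 390) (nat_lit 152) (nat_lit 0) (XT.nd (nat_lit 156) (nat_lit 0) (nat_lit 0) (XT.nd (nat_lit 78) (nat_lit 0) (nat_lit 0) (XT.lf (nat_lit 0) (nat_lit 4886468095) (nat_lit 76) (nat_lit 34808801520) (nat_lit 76) (nat_lit 29932377334) (nat_lit 4) (nat_lit 4) (nat_lit 5) (nat_lit 5) (nat_lit 5) (nat_lit 4) (nat_lit 355) (nat_lit 284) (nat_lit 261)) (XT.lf (nat_lit 0) (nat_lit 18612674098) (nat_lit 76) (nat_lit 30597215669) (nat_lit 76) (nat_lit 25646641980) (nat_lit 4) (nat_lit 4) (nat_lit 5) (nat_lit 5) (nat_lit 5) (nat_lit 4) (nat_lit 356) (nat_lit 284) (nat_lit 260))) (XT.nd (nat_lit 78) (nat_lit 0) (nat_lit 0) (XT.lf (nat_lit 0) (nat_lit 33192993901) (nat_lit 76) (nat_lit 26168104494) (nat_lit 76) (nat_lit 21148873858) (nat_lit 4) (nat_lit 4) (nat_lit 5)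 (nat_lit 5) (nat_lit 5) (nat_lit 4) (nat_lit 357) (nat_lit 284) (nat_lit 259)) (XT.nd (nat_lit 78) (nat_lit 0) (nat_lit 0) (XT.lf (nat_lit 0) (nat_lit 48713829401) (nat_lit 76) (nat_lit 21495221410) (nat_lit 76) (nat_lit 16412419527) (nat_lit 4) (nat_lit 4) (nat_lit 5) (nat_lit 5) (nat_lit 5) (nat_lit 4) (nat_lit 358) (nat_lit 284) (nat_lit 258)) (XT.lf (nat_lit 0) (nat_lit 65267155919) (nat_lit 76) (nat_lit 16550875257) (nat_lit 76) (nat_lit 11409211108) (nat_lit 4) (nat_lit 4) (nat_lit 5) (nat_lit 5) (nat_lit 5) (nat_lit 4) (nat_lit 359) (nat_lit 284) (nat_lit 257))))) (XT.nd (nat_lit 234) (nat_lit 0) (nat_lit 0) (XT.nd (nat_lit 78) (nat_lit 152) (nat_lit 0) (XT.lf (nat_lit 0) (nat_lit 82951067241) (nat_lit 76) (nat_lit 11305766207) (nat_lit 76) (nat_lit 6109599960) (nat_lit 4) (nat_lit 4) (nat_lit 5) (nat_lit 5) (nat_lit 5) (nat_lit 4) (nat_lit 360) (nat_lit 284) (nat_lit 256)) (XT.nd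 (nat_lit 78) (nat_lit 152) (nat_lit 0) (XT.lf (nat_lit 0) (nat_lit 101870356916) (nat_lit 76) (nat_lit 5728812132) (nat_lit 76) (nat_lit 482180980) (nat_lit 4) (nat_lit 4) (nat_lit 5) (nat_lit 5) (nat_lit 5) (nat_lit 4) (nat_lit 361) (nat_lit 284) (nat_lit 255)) (XT.lf (nat_lit 0) (nat_lit 5427241735) (nat_lit 152) (nat_lit 110595367079) (nat_lit 0) (nat_lit 385948481) (nat_lit 2) (nat_lit 5) (nat_lit 4) (nat_lit 4) (nat_lit 2) (nat_lit 4) (nat_lit 362) (nat_lit 284) (nat_lit 254)))) (XT.nd (nat_lit 78) (nat_lit 0) (nat_lit 0) (XT.lf (nat_lit 0) (nat_lit 11915750501) (nat_lit 152) (nat_lit 106646391674) (nat_lit 0) (nat_lit 6833251987) (nat_lit 2) (nat_lit 5) (nat_lit 4) (nat_lit 4) (nat_lit 2) (nat_lit 4) (nat_lit 363) (nat_lit 284) (nat_lit 253)) (XT.nd (nat_lit 78) (nat_lit 0) (nat_lit 0) (XT.lf (nat_lit 0) (nat_lit 18845966169) (nat_lit 152) (nat_lit 102533774678) (nat_lit 0) (nat_lit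 13725314638) (nat_lit 2) (nat_lit 5) (nat_lit 4) (nat_lit 4) (nat_lit 2) (nat_lit 4) (nat_lit 364) (nat_lit 284) (nat_lit 252)) (XT.lf (nat_lit 0) (nat_lit 26258956686) (nat_lit 152) (nat_lit 98233145028) (nat_lit 0) (nat_lit 21102978285) (nat_lit 2) (nat_lit 5) (nat_lit 4) (nat_lit 4) (nat_lit 2) (nat_lit 4) (nat_lit 365) (nat_lit 284) (nat_lit 251)))))) (XT.nd (nat_lit 468) (nat_lit 0) (nat_lit 0) (XT.nd (nat_lit 234) (nat_lit 0) (nat_lit 0) (XT.nd (nat_lit 78) (nat_lit 0) (nat_lit 0) (XT.lf (nat_lit 0) (nat_lit 34198650882) (nat_lit 152) (nat_lit 93719017511) (nat_lit 0) (nat_lit 29009962418) (nat_lit 2) (nat_lit 5) (nat_lit 4) (nat_lit 4) (nat_lit 2) (nat_lit 4) (nat_lit 366) (nat_lit 284) (nat_lit 250)) (XT.nd (nat_lit 78) (nat_lit 0) (nat_lit 0) (XT.lf (nat_lit 0) (nat_lit 42712098799) (nat_lit 152) (nat_lit 88964641741) (nat_lit 0) (nat_lit 37493123239) (nat_lit 2) (nat_lit 5) (nat_lit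 4) (nat_lit 4) (nat_lit 2) (nat_lit 4) (nat_lit 367) (nat_lit 284) (nat_lit 249)) (XT.lf (nat_lit 0) (nat_lit 51849750498) (nat_lit 152) (nat_lit 83941843641) (nat_lit 0) (nat_lit 46602731331) (nat_lit 2) (nat_lit 5) (nat_lit 4) (nat_lit 4) (nat_lit 2) (nat_lit 4) (nat_lit 368) (nat_lit 284) (nat_lit 248)))) (XT.nd (nat_lit 78) (nat_lit 0) (nat_lit 0) (XT.lf (nat_lit 0) (nat_lit 61665755025) (nat_lit 152) (nat_lit 78620858480) (nat_lit 0) (nat_lit 56392769555) (nat_lit 2) (nat_lit 5) (nat_lit 4) (nat_lit 4) (nat_lit 2) (nat_lit 4) (nat_lit 369) (nat_lit 284) (nat_lit 247)) (XT.nd (nat_lit 78) (nat_lit 0) (nat_lit 0) (XT.lf (nat_lit 0) (nat_lit 72218281297) (nat_lit 152) (nat_lit 72970154494) (nat_lit 0) (nat_lit 66921252954) (nat_lit 2) (nat_lit 5) (nat_lit 4) (nat_lit 4) (nat_lit 2) (nat_lit 4) (nat_lit 370) (nat_lit 284) (nat_lit 246)) (XT.lf (nat_lit 0) (nat_lit 83569862803) (nat_lit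 152) (nat_lit 66956246031) (nat_lit 0) (nat_lit 78250572540) (nat_lit 2) (nat_lit 5) (nat_lit 4) (nat_lit 4) (nat_lit 2) (nat_lit 4) (nat_lit 371) (nat_lit 284) (nat_lit 245))))) (XT.nd (nat_lit 234) (nat_lit 0) (nat_lit 0) (XT.nd (nat_lit 78) (nat_lit 0) (nat_lit 0) (XT.lf (nat_lit 0) (nat_lit 95787768174) (nat_lit 152) (nat_lit 60543495114) (nat_lit 0) (nat_lit 90447865022) (nat_lit 2) (nat_lit 5) (nat_lit 4) (nat_lit 4) (nat_lit 2) (nat_lit 4) (nat_lit 372) (nat_lit 284) (nat_lit 244)) (XT.nd (nat_lit 78) (nat_lit 0) (nat_lit 0) (XT.lf (nat_lit 0) (nat_lit 108944399811) (nat_lit 152) (nat_lit 53693900257) (nat_lit 0) (nat_lit 103585410652) (nat_lit 2) (nat_lit 5) (nat_lit 4) (nat_lit 4) (nat_lit 2) (nat_lit 4) (nat_lit 373) (nat_lit 284) (nat_lit 243)) (XT.lf (nat_lit 0) (nat_lit 123117722940) (nat_lit 152) (nat_lit 46366871267) (nat_lit 0) (nat_lit 117741061551) (nat_lit 2) (nat_lit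 5) (nat_lit 4) (nat_lit 4) (nat_lit 2) (nat_lit 4) (nat_lit 374) (nat_lit 284) (nat_lit 242)))) (XT.nd (nat_lit 78) (nat_lit 0) (nat_lit 0) (XT.lf (nat_lit 0) (nat_lit 138391727624) (nat_lit 152) (nat_lit 38518988714) (nat_lit 0) (nat_lit 132998703059) (nat_lit 2) (nat_lit 5) (nat_lit 4) (nat_lit 4) (nat_lit 2) (nat_lit 4) (nat_lit 375) (nat_lit 284) (nat_lit 241)) (XT.nd (nat_lit 78) (nat_lit 0) (nat_lit 0) (XT.lf (nat_lit 0) (nat_lit 154856926482) (nat_lit 152) (nat_lit 30103746626) (nat_lit 0) (nat_lit 149448750829) (nat_lit 2) (nat_lit 5) (nat_lit 4) (nat_lit 4) (nat_lit 2) (nat_lit 4) (nat_lit 376) (nat_lit 284) (nat_lit 240)) (XT.lf (nat_lit 0) (nat_lit 172610891065) (nat_lit 152) (nat_lit 21071276903) (nat_lit 0) (nat_lit 167188686626) (nat_lit 2) (nat_lit 5) (nat_lit 4) (nat_lit 4) (nat_lit 2) (nat_lit 4) (nat_lit 377) (nat_lit 284) (nat_lit 239))))))) (XT.nd (nat_lit 936) (nat_lit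 0) (nat_lit 0) (XT.nd (nat_lit 468) (nat_lit 0) (nat_lit 0) (XT.nd (nat_lit 234) (nat_lit 0) (nat_lit 0) (XT.nd (nat_lit 78) (nat_lit 76) (nat_lit 0) (XT.lf (nat_lit 0) (nat_lit 191758830049) (nat_lit 152) (nat_lit 11368053799) (nat_lit 0) (nat_lit 186323635994) (nat_lit 2) (nat_lit 5) (nat_lit 4) (nat_lit 4) (nat_lit 2) (nat_lit 4) (nat_lit 378) (nat_lit 284) (nat_lit 238)) (XT.nd (nat_lit 78) (nat_lit 76) (nat_lit 0) (XT.lf (nat_lit 0) (nat_lit 212414212705) (nat_lit 152) (nat_lit 936576731) (nat_lit 0) (nat_lit 206966991227) (nat_lit 2) (nat_lit 5) (nat_lit 4) (nat_lit 4) (nat_lit 2) (nat_lit 4) (nat_lit 379) (nat_lit 284) (nat_lit 237)) (XT.lf (nat_lit 0) (nat_lit 10625038032) (nat_lit 76) (nat_lit 224240289887) (nat_lit 76) (nat_lit 218781931907) (nat_lit 1) (nat_lit 4) (nat_lit 2) (nat_lit 5) (nat_lit 2) (nat_lit 4) (nat_lit 380) (nat_lit 284) (nat_lit 236)))) (XT.nd (nat_lit 78) (nat_lit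 0) (nat_lit 0) (XT.lf (nat_lit 0) (nat_lit 23102510445) (nat_lit 76) (nat_lit 236004760932) (nat_lit 76) (nat_lit 230536091376) (nat_lit 1) (nat_lit 4) (nat_lit 2) (nat_lit 5) (nat_lit 2) (nat_lit 4) (nat_lit 381) (nat_lit 284) (nat_lit 235)) (XT.nd (nat_lit 78) (nat_lit 0) (nat_lit 0) (XT.lf (nat_lit 0) (nat_lit 36538813629) (nat_lit 76) (nat_lit 248729779335) (nat_lit 76) (nat_lit 243251562024) (nat_lit 1) (nat_lit 4) (nat_lit 2) (nat_lit 5) (nat_lit 2) (nat_lit 4) (nat_lit 382) (nat_lit 284) (nat_lit 234)) (XT.lf (nat_lit 0) (nat_lit 51013570121) (nat_lit 76) (nat_lit 262490752614) (nat_lit 76) (nat_lit 257003694788) (nat_lit 1) (nat_lit 4) (nat_lit 2) (nat_lit 5) (nat_lit 2) (nat_lit 4) (nat_lit 383) (nat_lit 284) (nat_lit 233))))) (XT.nd (nat_lit 234) (nat_lit 0) (nat_lit 0) (XT.nd (nat_lit 78) (nat_lit 0) (nat_lit 0) (XT.lf (nat_lit 0) (nat_lit 66612556256) (nat_lit 76) (nat_lit 277369227276)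 (nat_lit 76) (nat_lit 271873983788) (nat_lit 1) (nat_lit 4) (nat_lit 2) (nat_lit 5) (nat_lit 2) (nat_lit 4) (nat_lit 384) (nat_lit 284) (nat_lit 232)) (XT.nd (nat_lit 78) (nat_lit 0) (nat_lit 0) (XT.lf (nat_lit 0) (nat_lit 83428210471) (nat_lit 76) (nat_lit 293453372059) (nat_lit 76) (nat_lit 287950549255) (nat_lit 1) (nat_lit 4) (nat_lit 2) (nat_lit 5) (nat_lit 2) (nat_lit 4) (nat_lit 385) (nat_lit 284) (nat_lit 231)) (XT.lf (nat_lit 0) (nat_lit 101560181086) (nat_lit 76) (nat_lit 310838500416) (nat_lit 76) (nat_lit 305328659726) (nat_lit 1) (nat_lit 4) (nat_lit 2) (nat_lit 5) (nat_lit 2) (nat_lit 4) (nat_lit 386) (nat_lit 284) (nat_lit 230)))) (XT.nd (nat_lit 78) (nat_lit 0) (nat_lit 0) (XT.lf (nat_lit 0) (nat_lit 121115916816) (nat_lit 76) (nat_lit 329627635327) (nat_lit 76) (nat_lit 324111296595) (nat_lit 1) (nat_lit 4) (nat_lit 2) (nat_lit 5) (nat_lit 2) (nat_lit 4) (nat_lit 387) (nat_lit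 284) (nat_lit 229)) (XT.nd (nat_lit 78) (nat_lit 0) (nat_lit 0) (XT.lf (nat_lit 0) (nat_lit 142211303503) (nat_lit 76) (nat_lit 349932119816) (nat_lit 76) (nat_lit 344409764378) (nat_lit 1) (nat_lit 4) (nat_lit 2) (nat_lit 5) (nat_lit 2) (nat_lit 4) (nat_lit 388) (nat_lit 284) (nat_lit 228)) (XT.lf (nat_lit 0) (nat_lit 164971350845) (nat_lit 76) (nat_lit 371872276753) (nat_lit 76) (nat_lit 366344350291) (nat_lit 1) (nat_lit 4) (nat_lit 2) (nat_lit 5) (nat_lit 2) (nat_lit 4) (nat_lit 389) (nat_lit 284) (nat_lit 227)))))) (XT.nd (nat_lit 42354) (nat_lit 0) (nat_lit 1140) (XT.nd (nat_lit 234) (nat_lit 0) (nat_lit 0) (XT.nd (nat_lit 78) (nat_lit 0) (nat_lit 0) (XT.lf (nat_lit 0) (nat_lit 189530933198) (nat_lit 76) (nat_lit 395578121883) (nat_lit 76) (nat_lit 390045037066) (nat_lit 1) (nat_lit 4) (nat_lit 2) (nat_lit 5) (nat_lit 2) (nat_lit 4) (nat_lit 390) (nat_lit 284) (nat_lit 226)) (XT.nd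 (nat_lit 78) (nat_lit 0) (nat_lit 0) (XT.lf (nat_lit 0) (nat_lit 216035588827) (nat_lit 76) (nat_lit 421190134288) (nat_lit 76) (nat_lit 415652273216) (nat_lit 1) (nat_lit 4) (nat_lit 2) (nat_lit 5) (nat_lit 2) (nat_lit 4) (nat_lit 391) (nat_lit 284) (nat_lit 225)) (XT.lf (nat_lit 0) (nat_lit 244642382358) (nat_lit 76) (nat_lit 448860088856) (nat_lit 76) (nat_lit 443317805326) (nat_lit 1) (nat_lit 4) (nat_lit 2) (nat_lit 5) (nat_lit 2) (nat_lit 4) (nat_lit 392) (nat_lit 284) (nat_lit 224)))) (XT.nd (nat_lit 41964) (nat_lit 0) (nat_lit 1672) (XT.lf (nat_lit 0) (nat_lit 275520835530) (nat_lit 76) (nat_lit 478751955689) (nat_lit 76) (nat_lit 473205577290) (nat_lit 1) (nat_lit 4) (nat_lit 2) (nat_lit 5) (nat_lit 2) (nat_lit 4) (nat_lit 393) (nat_lit 284) (nat_lit 223)) (XT.nd (nat_lit 78) (nat_lit 152) (nat_lit 0) (XT.lf (nat_lit 0) (nat_lit 2802102168) (nat_lit 152) (nat_lit 2253234259) (nat_lit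 152) (nat_lit 2253234259) (nat_lit 25) (nat_lit 4) (nat_lit 27) (nat_lit 5) (nat_lit 27) (nat_lit 4) (nat_lit 330) (nat_lit 285) (nat_lit 285)) (XT.lf (nat_lit 0) (nat_lit 3489399889) (nat_lit 152) (nat_lit 8994797239) (nat_lit 0) (nat_lit 2859293086) (nat_lit 23) (nat_lit 5) (nat_lit 25) (nat_lit 4) (nat_lit 23) (nat_lit 4) (nat_lit 331) (nat_lit 285) (nat_lit 284))))) (XT.nd (nat_lit 234) (nat_lit 228) (nat_lit 0) (XT.nd (nat_lit 78) (nat_lit 228) (nat_lit 0) (XT.lf (nat_lit 0) (nat_lit 6376243657) (nat_lit 76) (nat_lit 5483523812) (nat_lit 76) (nat_lit 4269984784) (nat_lit 22) (nat_lit 4) (nat_lit 23) (nat_lit 5) (nat_lit 23) (nat_lit 4) (nat_lit 332) (nat_lit 285) (nat_lit 283)) (XT.nd (nat_lit 78) (nat_lit 76) (nat_lit 0) (XT.lf (nat_lit 0) (nat_lit 3643858788) (nat_lit 152) (nat_lit 11366072701) (nat_lit 0) (nat_lit 1973616836) (nat_lit 20) (nat_lit 5) (nat_lit 22) (nat_lit 4) (nat_lit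 20) (nat_lit 4) (nat_lit 333) (nat_lit 285) (nat_lit 282)) (XT.lf (nat_lit 0) (nat_lit 3851291114) (nat_lit 76) (nat_lit 8101017115) (nat_lit 76) (nat_lit 5954395071) (nat_lit 19) (nat_lit 4) (nat_lit 20) (nat_lit 5) (nat_lit 20) (nat_lit 4) (nat_lit 334) (nat_lit 285) (nat_lit 281)))) (XT.nd (nat_lit 78) (nat_lit 76) (nat_lit 0) (XT.lf (nat_lit 0) (nat_lit 1042870616) (nat_lit 76) (nat_lit 728146620) (nat_lit 152) (nat_lit 17140512183) (nat_lit 17) (nat_lit 5) (nat_lit 18) (nat_lit 5) (nat_lit 19) (nat_lit 4) (nat_lit 335) (nat_lit 285) (nat_lit 280)) (XT.nd (nat_lit 78) (nat_lit 76) (nat_lit 0) (XT.lf (nat_lit 0) (nat_lit 9880308517) (nat_lit 152) (nat_lit 3086071713) (nat_lit 0) (nat_lit 7026847693) (nat_lit 17) (nat_lit 5) (nat_lit 19) (nat_lit 4) (nat_lit 17) (nat_lit 4) (nat_lit 336) (nat_lit 285) (nat_lit 279)) (XT.lf (nat_lit 0) (nat_lit 12589093680) (nat_lit 76) (nat_lit 5896845431)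 (nat_lit 76) (nat_lit 2683226631) (nat_lit 16) (nat_lit 4) (nat_lit 17) (nat_lit 5) (nat_lit 17) (nat_lit 4) (nat_lit 337) (nat_lit 285) (nat_lit 278))))))))
noncomputable def xc22 : XT := (XT.nd (nat_lit 1794) (nat_lit 228) (nat_lit 0) (XT.nd (nat_lit 858) (nat_lit 228) (nat_lit 0) (XT.nd (nat_lit 390) (nat_lit 304) (nat_lit 0) (XT.nd (nat_lit 156) (nat_lit 228) (nat_lit 0) (XT.nd (nat_lit 78) (nat_lit 0) (nat_lit 0) (XT.lf (nat_lit 0) (nat_lit 5004354547) (nat_lit 152) (nat_lit 15812839916) (nat_lit 0) (nat_lit 1626165587) (nat_lit 14) (nat_lit 5) (nat_lit 16) (nat_lit 4) (nat_lit 14) (nat_lit 4) (nat_lit 338) (nat_lit 285) (nat_lit 277)) (XT.lf (nat_lit 0) (nat_lit 13126544890) (nat_lit 152) (nat_lit 1240850915) (nat_lit 0) (nat_lit 9454282202) (nat_lit 14) (nat_lit 5) (nat_lit 16) (nat_lit 4) (nat_lit 14) (nat_lit 4) (nat_lit 339) (nat_lit 285) (nat_lit 276))) (XT.nd (nat_lit 78) (nat_lit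 152) (nat_lit 0) (XT.lf (nat_lit 0) (nat_lit 14358247601) (nat_lit 76) (nat_lit 7450557584) (nat_lit 76) (nat_lit 3506004408) (nat_lit 13) (nat_lit 4) (nat_lit 14) (nat_lit 5) (nat_lit 14) (nat_lit 4) (nat_lit 340) (nat_lit 285) (nat_lit 275)) (XT.nd (nat_lit 78) (nat_lit 0) (nat_lit 0) (XT.lf (nat_lit 0) (nat_lit 3795587703) (nat_lit 76) (nat_lit 103076541) (nat_lit 152) (nat_lit 23036623772) (nat_lit 11) (nat_lit 5) (nat_lit 12) (nat_lit 5) (nat_lit 13) (nat_lit 4) (nat_lit 341) (nat_lit 285) (nat_lit 274)) (XT.lf (nat_lit 0) (nat_lit 11795956782) (nat_lit 152) (nat_lit 9308675720) (nat_lit 0) (nat_lit 7576795633) (nat_lit 11) (nat_lit 5) (nat_lit 13) (nat_lit 4) (nat_lit 11) (nat_lit 4) (nat_lit 342) (nat_lit 285) (nat_lit 273))))) (XT.nd (nat_lit 234) (nat_lit 76) (nat_lit 0) (XT.nd (nat_lit 78) (nat_lit 152) (nat_lit 0) (XT.lf (nat_lit 0) (nat_lit 5270361120) (nat_lit 76) (nat_lit 14865707620)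 (nat_lit 76) (nat_lit 10440686501) (nat_lit 10) (nat_lit 4) (nat_lit 11) (nat_lit 5) (nat_lit 11) (nat_lit 4) (nat_lit 343) (nat_lit 285) (nat_lit 272)) (XT.nd (nat_lit 78) (nat_lit 152) (nat_lit 0) (XT.lf (nat_lit 0) (nat_lit 20845548531) (nat_lit 76) (nat_lit 8199379656) (nat_lit 76) (nat_lit 3583747453) (nat_lit 10) (nat_lit 4) (nat_lit 11) (nat_lit 5) (nat_lit 11) (nat_lit 4) (nat_lit 344) (nat_lit 285) (nat_lit 271)) (XT.lf (nat_lit 0) (nat_lit 2364508567) (nat_lit 76) (nat_lit 1126531683) (nat_lit 152) (nat_lit 31361184194) (nat_lit 8) (nat_lit 5) (nat_lit 9) (nat_lit 5) (nat_lit 10) (nat_lit 4) (nat_lit 345) (nat_lit 285) (nat_lit 270)))) (XT.nd (nat_lit 78) (nat_lit 76) (nat_lit 0) (XT.lf (nat_lit 0) (nat_lit 11080605620) (nat_lit 152) (nat_lit 19805390828) (nat_lit 0) (nat_lit 6361041592) (nat_lit 8) (nat_lit 5) (nat_lit 10) (nat_lit 4) (nat_lit 8) (nat_lit 4) (nat_lit 346) (nat_lit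 285) (nat_lit 269)) (XT.nd (nat_lit 78) (nat_lit 76) (nat_lit 0) (XT.lf (nat_lit 0) (nat_lit 19076314018) (nat_lit 152) (nat_lit 6554564961) (nat_lit 0) (nat_lit 14212642158) (nat_lit 8) (nat_lit 5) (nat_lit 10) (nat_lit 4) (nat_lit 8) (nat_lit 4) (nat_lit 347) (nat_lit 285) (nat_lit 268)) (XT.lf (nat_lit 0) (nat_lit 7604257169) (nat_lit 76) (nat_lit 20022425700) (nat_lit 76) (nat_lit 15025320662) (nat_lit 7) (nat_lit 4) (nat_lit 8) (nat_lit 5) (nat_lit 8) (nat_lit 4) (nat_lit 348) (nat_lit 285) (nat_lit 267)))))) (XT.nd (nat_lit 468) (nat_lit 76) (nat_lit 0) (XT.nd (nat_lit 234) (nat_lit 0) (nat_lit 0) (XT.nd (nat_lit 78) (nat_lit 152) (nat_lit 0) (XT.lf (nat_lit 0) (nat_lit 22751578875) (nat_lit 76) (nat_lit 14029143215) (nat_lit 76) (nat_lit 8908488938) (nat_lit 7) (nat_lit 4) (nat_lit 8) (nat_lit 5) (nat_lit 8) (nat_lit 4) (nat_lit 349) (nat_lit 285) (nat_lit 266)) (XT.nd (nat_lit 78)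 (nat_lit 152) (nat_lit 0) (XT.lf (nat_lit 0) (nat_lit 38760438544) (nat_lit 76) (nat_lit 7726520504) (nat_lit 76) (nat_lit 2491468784) (nat_lit 7) (nat_lit 4) (nat_lit 8) (nat_lit 5) (nat_lit 8) (nat_lit 4) (nat_lit 350) (nat_lit 285) (nat_lit 265)) (XT.lf (nat_lit 0) (nat_lit 3223149458) (nat_lit 76) (nat_lit 954472364) (nat_lit 152) (nat_lit 48355679191) (nat_lit 5) (nat_lit 5) (nat_lit 6) (nat_lit 5) (nat_lit 7) (nat_lit 4) (nat_lit 351) (nat_lit 285) (nat_lit 264)))) (XT.nd (nat_lit 78) (nat_lit 0) (nat_lit 0) (XT.lf (nat_lit 0) (nat_lit 11410004678) (nat_lit 152) (nat_lit 38724731538) (nat_lit 0) (nat_lit 6229954536) (nat_lit 5) (nat_lit 5) (nat_lit 7) (nat_lit 4) (nat_lit 5) (nat_lit 4) (nat_lit 352) (nat_lit 285) (nat_lit 263)) (XT.nd (nat_lit 78) (nat_lit 0) (nat_lit 0) (XT.lf (nat_lit 0) (nat_lit 19084934519) (nat_lit 152) (nat_lit 27606082922) (nat_lit 0) (nat_lit 13818396398)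 (nat_lit 5) (nat_lit 5) (nat_lit 7) (nat_lit 4) (nat_lit 5) (nat_lit 4) (nat_lit 353) (nat_lit 285) (nat_lit 262)) (XT.lf (nat_lit 0) (nat_lit 27232990425) (nat_lit 152) (nat_lit 15873415432) (nat_lit 0) (nat_lit 21886370841) (nat_lit 5) (nat_lit 5) (nat_lit 7) (nat_lit 4) (nat_lit 5) (nat_lit 4) (nat_lit 354) (nat_lit 285) (nat_lit 261))))) (XT.nd (nat_lit 234) (nat_lit 0) (nat_lit 0) (XT.nd (nat_lit 78) (nat_lit 76) (nat_lit 0) (XT.lf (nat_lit 0) (nat_lit 35902457171) (nat_lit 152) (nat_lit 3457202150) (nat_lit 0) (nat_lit 30481688084) (nat_lit 5) (nat_lit 5) (nat_lit 7) (nat_lit 4) (nat_lit 5) (nat_lit 4) (nat_lit 355) (nat_lit 285) (nat_lit 260)) (XT.nd (nat_lit 78) (nat_lit 0) (nat_lit 0) (XT.lf (nat_lit 0) (nat_lit 10037393771) (nat_lit 76) (nat_lit 35264027450) (nat_lit 76) (nat_lit 29774601416) (nat_lit 4) (nat_lit 4) (nat_lit 5) (nat_lit 5) (nat_lit 5) (nat_lit 4) (nat_lit 356)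 (nat_lit 285) (nat_lit 259)) (XT.lf (nat_lit 0) (nat_lit 24509103051) (nat_lit 76) (nat_lit 30888068671) (nat_lit 76) (nat_lit 25335071391) (nat_lit 4) (nat_lit 4) (nat_lit 5) (nat_lit 5) (nat_lit 5) (nat_lit 4) (nat_lit 357) (nat_lit 285) (nat_lit 258)))) (XT.nd (nat_lit 78) (nat_lit 0) (nat_lit 0) (XT.lf (nat_lit 0) (nat_lit 39929373252) (nat_lit 76) (nat_lit 26264400769) (nat_lit 76) (nat_lit 20652541222) (nat_lit 4) (nat_lit 4) (nat_lit 5) (nat_lit 5) (nat_lit 5) (nat_lit 4) (nat_lit 358) (nat_lit 285) (nat_lit 257)) (XT.nd (nat_lit 78) (nat_lit 0) (nat_lit 0) (XT.lf (nat_lit 0) (nat_lit 56389583752) (nat_lit 76) (nat_lit 21365624229) (nat_lit 76) (nat_lit 15699262585) (nat_lit 4) (nat_lit 4) (nat_lit 5) (nat_lit 5) (nat_lit 5) (nat_lit 4) (nat_lit 359) (nat_lit 285) (nat_lit 256)) (XT.lf (nat_lit 0) (nat_lit 73987276539) (nat_lit 76) (nat_lit 16162709265) (nat_lit 76) (nat_lit 10445882715)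 (nat_lit 4) (nat_lit 4) (nat_lit 5) (nat_lit 5) (nat_lit 5) (nat_lit 4) (nat_lit 360) (nat_lit 285) (nat_lit 255))))))) (XT.nd (nat_lit 936) (nat_lit 76) (nat_lit 0) (XT.nd (nat_lit 468) (nat_lit 0) (nat_lit 0) (XT.nd (nat_lit 234) (nat_lit 0) (nat_lit 0) (XT.nd (nat_lit 78) (nat_lit 152) (nat_lit 0) (XT.lf (nat_lit 0) (nat_lit 92826734238) (nat_lit 76) (nat_lit 10624823788) (nat_lit 76) (nat_lit 4861270474) (nat_lit 4) (nat_lit 4) (nat_lit 5) (nat_lit 5) (nat_lit 5) (nat_lit 4) (nat_lit 361) (nat_lit 285) (nat_lit 254)) (XT.nd (nat_lit 78) (nat_lit 76) (nat_lit 0) (XT.lf (nat_lit 0) (nat_lit 1052855963) (nat_lit 152) (nat_lit 3648464111) (nat_lit 76) (nat_lit 111948911489) (nat_lit 3) (nat_lit 5) (nat_lit 5) (nat_lit 5) (nat_lit 4) (nat_lit 4) (nat_lit 362) (nat_lit 285) (nat_lit 253)) (XT.lf (nat_lit 0) (nat_lit 7370954118) (nat_lit 152) (nat_lit 116472141635) (nat_lit 0) (nat_lit 1802497446)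 (nat_lit 2) (nat_lit 5) (nat_lit 4) (nat_lit 4) (nat_lit 2) (nat_lit 4) (nat_lit 363) (nat_lit 285) (nat_lit 252)))) (XT.nd (nat_lit 78) (nat_lit 0) (nat_lit 0) (XT.lf (nat_lit 0) (nat_lit 14266726323) (nat_lit 152) (nat_lit 112427311517) (nat_lit 0) (nat_lit 8662942782) (nat_lit 2) (nat_lit 5) (nat_lit 4) (nat_lit 4) (nat_lit 2) (nat_lit 4) (nat_lit 364) (nat_lit 285) (nat_lit 251)) (XT.nd (nat_lit 78) (nat_lit 0) (nat_lit 0) (XT.lf (nat_lit 0) (nat_lit 21647824742) (nat_lit 152) (nat_lit 108189447494) (nat_lit 0) (nat_lit 16011331138) (nat_lit 2) (nat_lit 5) (nat_lit 4) (nat_lit 4) (nat_lit 2) (nat_lit 4) (nat_lit 365) (nat_lit 285) (nat_lit 250)) (XT.lf (nat_lit 0) (nat_lit 29557989220) (nat_lit 152) (nat_lit 103733436298) (nat_lit 0) (nat_lit 23891208520) (nat_lit 2) (nat_lit 5) (nat_lit 4) (nat_lit 4) (nat_lit 2) (nat_lit 4) (nat_lit 366) (nat_lit 285) (nat_lit 249))))) (XT.nd (nat_lit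 234) (nat_lit 0) (nat_lit 0) (XT.nd (nat_lit 78) (nat_lit 0) (nat_lit 0) (XT.lf (nat_lit 0) (nat_lit 38044094804) (nat_lit 152) (nat_lit 99032871938) (nat_lit 0) (nat_lit 32349270497) (nat_lit 2) (nat_lit 5) (nat_lit 4) (nat_lit 4) (nat_lit 2) (nat_lit 4) (nat_lit 367) (nat_lit 285) (nat_lit 248)) (XT.nd (nat_lit 78) (nat_lit 0) (nat_lit 0) (XT.lf (nat_lit 0) (nat_lit 47156429529) (nat_lit 152) (nat_lit 94059899216) (nat_lit 0) (nat_lit 41435638918) (nat_lit 2) (nat_lit 5) (nat_lit 4) (nat_lit 4) (nat_lit 2) (nat_lit 4) (nat_lit 368) (nat_lit 285) (nat_lit 247)) (XT.lf (nat_lit 0) (nat_lit 56948992413) (nat_lit 152) (nat_lit 88785048664) (nat_lit 0) (nat_lit 51204158929) (nat_lit 2) (nat_lit 5) (nat_lit 4) (nat_lit 4) (nat_lit 2) (nat_lit 4) (nat_lit 369) (nat_lit 285) (nat_lit 246)))) (XT.nd (nat_lit 78) (nat_lit 0) (nat_lit 0) (XT.lf (nat_lit 0) (nat_lit 67479813460) (nat_lit 152) (nat_lit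 83177061910) (nat_lit 0) (nat_lit 61712718056) (nat_lit 2) (nat_lit 5) (nat_lit 4) (nat_lit 4) (nat_lit 2) (nat_lit 4) (nat_lit 370) (nat_lit 285) (nat_lit 245)) (XT.nd (nat_lit 78) (nat_lit 0) (nat_lit 0) (XT.lf (nat_lit 0) (nat_lit 78811297535) (nat_lit 152) (nat_lit 77202706439) (nat_lit 0) (nat_lit 73023589243) (nat_lit 2) (nat_lit 5) (nat_lit 4) (nat_lit 4) (nat_lit 2) (nat_lit 4) (nat_lit 371) (nat_lit 285) (nat_lit 244)) (XT.lf (nat_lit 0) (nat_lit 91010594174) (nat_lit 152) (nat_lit 70826578663) (nat_lit 0) (nat_lit 85203799874) (nat_lit 2) (nat_lit 5) (nat_lit 4) (nat_lit 4) (nat_lit 2) (nat_lit 4) (nat_lit 372) (nat_lit 285) (nat_lit 243)))))) (XT.nd (nat_lit 468) (nat_lit 76) (nat_lit 0) (XT.nd (nat_lit 234) (nat_lit 0) (nat_lit 0) (XT.nd (nat_lit 78) (nat_lit 0) (nat_lit 0) (XT.lf (nat_lit 0) (nat_lit 104149995504) (nat_lit 152) (nat_lit 64010894121) (nat_lit 0) (nat_lit 98325528974)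 (nat_lit 2) (nat_lit 5) (nat_lit 4) (nat_lit 4) (nat_lit 2) (nat_lit 4) (nat_lit 373) (nat_lit 285) (nat_lit 242)) (XT.nd (nat_lit 78) (nat_lit 0) (nat_lit 0) (XT.lf (nat_lit 0) (nat_lit 118307364645) (nat_lit 152) (nat_lit 56715263571) (nat_lit 0) (nat_lit 112466534939) (nat_lit 2) (nat_lit 5) (nat_lit 4) (nat_lit 4) (nat_lit 2) (nat_lit 4) (nat_lit 374) (nat_lit 285) (nat_lit 241)) (XT.lf (nat_lit 0) (nat_lit 133566597117) (nat_lit 152) (nat_lit 48896453648) (nat_lit 0) (nat_lit 127710616323) (nat_lit 2) (nat_lit 5) (nat_lit 4) (nat_lit 4) (nat_lit 2) (nat_lit 4) (nat_lit 375) (nat_lit 285) (nat_lit 240)))) (XT.nd (nat_lit 78) (nat_lit 0) (nat_lit 0) (XT.lf (nat_lit 0) (nat_lit 150018118002) (nat_lit 152) (nat_lit 40508130662) (nat_lit 0) (nat_lit 144148108422) (nat_lit 2) (nat_lit 5) (nat_lit 4) (nat_lit 4) (nat_lit 2) (nat_lit 4) (nat_lit 376) (nat_lit 285) (nat_lit 239)) (XT.nd (nat_lit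 78) (nat_lit 0) (nat_lit 0) (XT.lf (nat_lit 0) (nat_lit 167759417793) (nat_lit 152) (nat_lit 31500586034) (nat_lit 0) (nat_lit 161876418598) (nat_lit 2) (nat_lit 5) (nat_lit 4) (nat_lit 4) (nat_lit 2) (nat_lit 4) (nat_lit 377) (nat_lit 285) (nat_lit 238)) (XT.lf (nat_lit 0) (nat_lit 186895630120) (nat_lit 152) (nat_lit 21820441720) (nat_lit 0) (nat_lit 181000603502) (nat_lit 2) (nat_lit 5) (nat_lit 4) (nat_lit 4) (nat_lit 2) (nat_lit 4) (nat_lit 378) (nat_lit 285) (nat_lit 237))))) (XT.nd (nat_lit 234) (nat_lit 0) (nat_lit 0) (XT.nd (nat_lit 78) (nat_lit 76) (nat_lit 0) (XT.lf (nat_lit 0) (nat_lit 207540154759) (nat_lit 152) (nat_lit 11410333903) (nat_lit 0) (nat_lit 201633991639) (nat_lit 2) (nat_lit 5) (nat_lit 4) (nat_lit 4) (nat_lit 2) (nat_lit 4) (nat_lit 379) (nat_lit 285) (nat_lit 236)) (XT.nd (nat_lit 78) (nat_lit 76) (nat_lit 0) (XT.lf (nat_lit 0) (nat_lit 229815329634) (nat_lit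 152) (nat_lit 208573055) (nat_lit 0) (nat_lit 223898854938) (nat_lit 2) (nat_lit 5) (nat_lit 4) (nat_lit 4) (nat_lit 2) (nat_lit 4) (nat_lit 380) (nat_lit 285) (nat_lit 235)) (XT.lf (nat_lit 0) (nat_lit 12243076538) (nat_lit 76) (nat_lit 241801227979) (nat_lit 76) (nat_lit 235875205527) (nat_lit 1) (nat_lit 4) (nat_lit 2) (nat_lit 5) (nat_lit 2) (nat_lit 4) (nat_lit 381) (nat_lit 285) (nat_lit 234)))) (XT.nd (nat_lit 78) (nat_lit 0) (nat_lit 0) (XT.lf (nat_lit 0) (nat_lit 25661855228) (nat_lit 76) (nat_lit 254534877826) (nat_lit 76) (nat_lit 248600014859) (nat_lit 1) (nat_lit 4) (nat_lit 2) (nat_lit 5) (nat_lit 2) (nat_lit 4) (nat_lit 382) (nat_lit 285) (nat_lit 233)) (XT.nd (nat_lit 78) (nat_lit 0) (nat_lit 0) (XT.lf (nat_lit 0) (nat_lit 40120385337) (nat_lit 76) (nat_lit 268303843182) (nat_lit 76) (nat_lit 262360794553) (nat_lit 1) (nat_lit 4) (nat_lit 2) (nat_lit 5) (nat_lit 2) (nat_lit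 4) (nat_lit 383) (nat_lit 285) (nat_lit 232)) (XT.lf (nat_lit 0) (nat_lit 55704347044) (nat_lit 76) (nat_lit 283189717915) (nat_lit 76) (nat_lit 277239089971) (nat_lit 1) (nat_lit 4) (nat_lit 2) (nat_lit 5) (nat_lit 2) (nat_lit 4) (nat_lit 384) (nat_lit 285) (nat_lit 231))))))))
noncomputable def xc23 : XT := (XT.nd (nat_lit 43524) (nat_lit 0) (nat_lit 76) (XT.nd (nat_lit 42588) (nat_lit 0) (nat_lit 836) (XT.nd (nat_lit 390) (nat_lit 0) (nat_lit 0) (XT.nd (nat_lit 156) (nat_lit 0) (nat_lit 0) (XT.nd (nat_lit 78) (nat_lit 0) (nat_lit 0) (XT.lf (nat_lit 0) (nat_lit 72506089750) (nat_lit 76) (nat_lit 299280714617) (nat_lit 76) (nat_lit 293323068787) (nat_lit 1) (nat_lit 4) (nat_lit 2) (nat_lit 5) (nat_lit 2) (nat_lit 4) (nat_lit 385) (nat_lit 285) (nat_lit 230)) (XT.lf (nat_lit 0) (nat_lit 90625179339) (nat_lit 76) (nat_lit 316672187342) (nat_lit 76) (nat_lit 310708043470) (nat_lit 1) (nat_lit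 4) (nat_lit 2) (nat_lit 5) (nat_lit 2) (nat_lit 4) (nat_lit 386) (nat_lit 285) (nat_lit 229))) (XT.nd (nat_lit 78) (nat_lit 0) (nat_lit 0) (XT.lf (nat_lit 0) (nat_lit 110168988194) (nat_lit 76) (nat_lit 335467196669) (nat_lit 76) (nat_lit 329497036091) (nat_lit 1) (nat_lit 4) (nat_lit 2) (nat_lit 5) (nat_lit 2) (nat_lit 4) (nat_lit 387) (nat_lit 285) (nat_lit 228)) (XT.nd (nat_lit 78) (nat_lit 0) (nat_lit 0) (XT.lf (nat_lit 0) (nat_lit 131253331477) (nat_lit 76) (nat_lit 355777120432) (nat_lit 76) (nat_lit 349801388830) (nat_lit 1) (nat_lit 4) (nat_lit 2) (nat_lit 5) (nat_lit 2) (nat_lit 4) (nat_lit 388) (nat_lit 285) (nat_lit 227)) (XT.lf (nat_lit 0) (nat_lit 154003153446) (nat_lit 76) (nat_lit 377722313733) (nat_lit 76) (nat_lit 371741423776) (nat_lit 1) (nat_lit 4) (nat_lit 2) (nat_lit 5) (nat_lit 2) (nat_lit 4) (nat_lit 389) (nat_lit 285) (nat_lit 226))))) (XT.nd (nat_lit 234) (nat_lit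 0) (nat_lit 0) (XT.nd (nat_lit 78) (nat_lit 0) (nat_lit 0) (XT.lf (nat_lit 0) (nat_lit 178553267860) (nat_lit 76) (nat_lit 401432822163) (nat_lit 76) (nat_lit 395447155951) (nat_lit 1) (nat_lit 4) (nat_lit 2) (nat_lit 5) (nat_lit 2) (nat_lit 4) (nat_lit 390) (nat_lit 285) (nat_lit 225)) (XT.nd (nat_lit 78) (nat_lit 0) (nat_lit 0) (XT.lf (nat_lit 0) (nat_lit 205049156879) (nat_lit 76) (nat_lit 427049152439) (nat_lit 76) (nat_lit 421059063768) (nat_lit 1) (nat_lit 4) (nat_lit 2) (nat_lit 5) (nat_lit 2) (nat_lit 4) (nat_lit 391) (nat_lit 285) (nat_lit 224)) (XT.lf (nat_lit 0) (nat_lit 233647833179) (nat_lit 76) (nat_lit 454723105036) (nat_lit 76) (nat_lit 448728921496) (nat_lit 1) (nat_lit 4) (nat_lit 2) (nat_lit 5) (nat_lit 2) (nat_lit 4) (nat_lit 392) (nat_lit 285) (nat_lit 223)))) (XT.nd (nat_lit 41808) (nat_lit 0) (nat_lit 1976) (XT.lf (nat_lit 0) (nat_lit 264518770396) (nat_lit 76) (nat_lit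 484618673747) (nat_lit 76) (nat_lit 478620698663) (nat_lit 1) (nat_lit 4) (nat_lit 2) (nat_lit 5) (nat_lit 2) (nat_lit 4) (nat_lit 393) (nat_lit 285) (nat_lit 222)) (XT.nd (nat_lit 78) (nat_lit 152) (nat_lit 0) (XT.lf (nat_lit 0) (nat_lit 1423405517) (nat_lit 152) (nat_lit 2618189726) (nat_lit 152) (nat_lit 2618189726) (nat_lit 29) (nat_lit 4) (nat_lit 31) (nat_lit 5) (nat_lit 31) (nat_lit 4) (nat_lit 328) (nat_lit 286) (nat_lit 286)) (XT.lf (nat_lit 0) (nat_lit 2508791664) (nat_lit 152) (nat_lit 9645632961) (nat_lit 0) (nat_lit 1794250550) (nat_lit 27) (nat_lit 5) (nat_lit 29) (nat_lit 4) (nat_lit 27) (nat_lit 4) (nat_lit 329) (nat_lit 286) (nat_lit 285)))))) (XT.nd (nat_lit 468) (nat_lit 456) (nat_lit 0) (XT.nd (nat_lit 234) (nat_lit 304) (nat_lit 0) (XT.nd (nat_lit 78) (nat_lit 228) (nat_lit 0) (XT.lf (nat_lit 0) (nat_lit 5210603317) (nat_lit 152) (nat_lit 5396827004) (nat_lit 152) (nat_lit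 4020673747) (nat_lit 25) (nat_lit 4) (nat_lit 27) (nat_lit 5) (nat_lit 27) (nat_lit 4) (nat_lit 330) (nat_lit 286) (nat_lit 284)) (XT.nd (nat_lit 78) (nat_lit 76) (nat_lit 0) (XT.lf (nat_lit 0) (nat_lit 3725407247) (nat_lit 152) (nat_lit 9809090332) (nat_lit 0) (nat_lit 1831352872) (nat_lit 23) (nat_lit 5) (nat_lit 25) (nat_lit 4) (nat_lit 23) (nat_lit 4) (nat_lit 331) (nat_lit 286) (nat_lit 283)) (XT.lf (nat_lit 0) (nat_lit 5160552843) (nat_lit 76) (nat_lit 6718365935) (nat_lit 76) (nat_lit 4284096538) (nat_lit 22) (nat_lit 4) (nat_lit 23) (nat_lit 5) (nat_lit 23) (nat_lit 4) (nat_lit 332) (nat_lit 286) (nat_lit 282)))) (XT.nd (nat_lit 78) (nat_lit 152) (nat_lit 0) (XT.lf (nat_lit 0) (nat_lit 3390358694) (nat_lit 152) (nat_lit 13042881846) (nat_lit 0) (nat_lit 595626796) (nat_lit 20) (nat_lit 5) (nat_lit 22) (nat_lit 4) (nat_lit 20) (nat_lit 4) (nat_lit 333) (nat_lit 286) (nat_lit 281))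 (XT.nd (nat_lit 78) (nat_lit 76) (nat_lit 0) (XT.lf (nat_lit 0) (nat_lit 1763092084) (nat_lit 76) (nat_lit 9717848593) (nat_lit 76) (nat_lit 6482024018) (nat_lit 19) (nat_lit 4) (nat_lit 20) (nat_lit 5) (nat_lit 20) (nat_lit 4) (nat_lit 334) (nat_lit 286) (nat_lit 280)) (XT.lf (nat_lit 0) (nat_lit 1064365964) (nat_lit 152) (nat_lit 1462293492) (nat_lit 76) (nat_lit 16451381953) (nat_lit 18) (nat_lit 5) (nat_lit 20) (nat_lit 5) (nat_lit 19) (nat_lit 4) (nat_lit 335) (nat_lit 286) (nat_lit 279))))) (XT.nd (nat_lit 234) (nat_lit 152) (nat_lit 0) (XT.nd (nat_lit 78) (nat_lit 228) (nat_lit 0) (XT.lf (nat_lit 0) (nat_lit 8947935729) (nat_lit 152) (nat_lit 6006060827) (nat_lit 0) (nat_lit 5117069449) (nat_lit 17) (nat_lit 5) (nat_lit 19) (nat_lit 4) (nat_lit 17) (nat_lit 4) (nat_lit 336) (nat_lit 286) (nat_lit 278)) (XT.nd (nat_lit 78) (nat_lit 152) (nat_lit 0) (XT.lf (nat_lit 0) (nat_lit 9259528241)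 (nat_lit 76) (nat_lit 8081248990) (nat_lit 76) (nat_lit 3916903102) (nat_lit 16) (nat_lit 4) (nat_lit 17) (nat_lit 5) (nat_lit 17) (nat_lit 4) (nat_lit 337) (nat_lit 286) (nat_lit 277)) (XT.lf (nat_lit 0) (nat_lit 2842075133) (nat_lit 76) (nat_lit 726314347) (nat_lit 152) (nat_lit 18976569590) (nat_lit 14) (nat_lit 5) (nat_lit 15) (nat_lit 5) (nat_lit 16) (nat_lit 4) (nat_lit 338) (nat_lit 286) (nat_lit 276)))) (XT.nd (nat_lit 78) (nat_lit 152) (nat_lit 0) (XT.lf (nat_lit 0) (nat_lit 11528337253) (nat_lit 152) (nat_lit 5407152825) (nat_lit 0) (nat_lit 6995929333) (nat_lit 14) (nat_lit 5) (nat_lit 16) (nat_lit 4) (nat_lit 14) (nat_lit 4) (nat_lit 339) (nat_lit 286) (nat_lit 275)) (XT.nd (nat_lit 78) (nat_lit 76) (nat_lit 0) (XT.lf (nat_lit 0) (nat_lit 9779089889) (nat_lit 76) (nat_lit 10220289388) (nat_lit 76) (nat_lit 5435760645) (nat_lit 13) (nat_lit 4) (nat_lit 14) (nat_lit 5) (nat_lit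 14) (nat_lit 4) (nat_lit 340) (nat_lit 286) (nat_lit 274)) (XT.lf (nat_lit 0) (nat_lit 1835849580) (nat_lit 152) (nat_lit 1254482309) (nat_lit 76) (nat_lit 23976558739) (nat_lit 12) (nat_lit 5) (nat_lit 14) (nat_lit 5) (nat_lit 13) (nat_lit 4) (nat_lit 341) (nat_lit 286) (nat_lit 273))))))) (XT.nd (nat_lit 936) (nat_lit 228) (nat_lit 0) (XT.nd (nat_lit 468) (nat_lit 228) (nat_lit 0) (XT.nd (nat_lit 234) (nat_lit 152) (nat_lit 0) (XT.nd (nat_lit 78) (nat_lit 76) (nat_lit 0) (XT.lf (nat_lit 0) (nat_lit 9534693585) (nat_lit 152) (nat_lit 14738471658) (nat_lit 0) (nat_lit 4549810805) (nat_lit 11) (nat_lit 5) (nat_lit 13) (nat_lit 4) (nat_lit 11) (nat_lit 4) (nat_lit 342) (nat_lit 286) (nat_lit 272)) (XT.nd (nat_lit 78) (nat_lit 76) (nat_lit 0) (XT.lf (nat_lit 0) (nat_lit 17670998380) (nat_lit 152) (nat_lit 562011795) (nat_lit 0) (nat_lit 12495504516) (nat_lit 11) (nat_lit 5) (nat_lit 13) (nat_lit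 4) (nat_lit 11) (nat_lit 4) (nat_lit 343) (nat_lit 286) (nat_lit 271)) (XT.lf (nat_lit 0) (nat_lit 14770865142) (nat_lit 76) (nat_lit 11683914536) (nat_lit 76) (nat_lit 6331928929) (nat_lit 10) (nat_lit 4) (nat_lit 11) (nat_lit 5) (nat_lit 11) (nat_lit 4) (nat_lit 344) (nat_lit 286) (nat_lit 270)))) (XT.nd (nat_lit 78) (nat_lit 76) (nat_lit 0) (XT.lf (nat_lit 0) (nat_lit 684702730) (nat_lit 152) (nat_lit 4111763292) (nat_lit 76) (nat_lit 30223259774) (nat_lit 9) (nat_lit 5) (nat_lit 11) (nat_lit 5) (nat_lit 10) (nat_lit 4) (nat_lit 345) (nat_lit 286) (nat_lit 269)) (XT.nd (nat_lit 78) (nat_lit 0) (nat_lit 0) (XT.lf (nat_lit 0) (nat_lit 8043786499) (nat_lit 152) (nat_lit 26735379926) (nat_lit 0) (nat_lit 2646913058) (nat_lit 8) (nat_lit 5) (nat_lit 10) (nat_lit 4) (nat_lit 8) (nat_lit 4) (nat_lit 346) (nat_lit 286) (nat_lit 268)) (XT.lf (nat_lit 0) (nat_lit 15941552597) (nat_lit 152) (nat_lit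 13674675946) (nat_lit 0) (nat_lit 10411245978) (nat_lit 8) (nat_lit 5) (nat_lit 10) (nat_lit 4) (nat_lit 8) (nat_lit 4) (nat_lit 347) (nat_lit 286) (nat_lit 267))))) (XT.nd (nat_lit 234) (nat_lit 152) (nat_lit 0) (XT.nd (nat_lit 78) (nat_lit 0) (nat_lit 0) (XT.lf (nat_lit 0) (nat_lit 66863739) (nat_lit 76) (nat_lit 24216690560) (nat_lit 76) (nat_lit 18562834702) (nat_lit 7) (nat_lit 4) (nat_lit 8) (nat_lit 5) (nat_lit 8) (nat_lit 4) (nat_lit 348) (nat_lit 286) (nat_lit 266)) (XT.nd (nat_lit 78) (nat_lit 0) (nat_lit 0) (XT.lf (nat_lit 0) (nat_lit 15045797093) (nat_lit 76) (nat_lit 18305197677) (nat_lit 76) (nat_lit 12536944376) (nat_lit 7) (nat_lit 4) (nat_lit 8) (nat_lit 5) (nat_lit 8) (nat_lit 4) (nat_lit 349) (nat_lit 286) (nat_lit 265)) (XT.lf (nat_lit 0) (nat_lit 30898741621) (nat_lit 76) (nat_lit 12078306080) (nat_lit 76) (nat_lit 6204129220) (nat_lit 7) (nat_lit 4) (nat_lit 8) (nat_lit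 5) (nat_lit 8) (nat_lit 4) (nat_lit 350) (nat_lit 286) (nat_lit 264)))) (XT.nd (nat_lit 78) (nat_lit 76) (nat_lit 0) (XT.lf (nat_lit 0) (nat_lit 457995170) (nat_lit 152) (nat_lit 5033364130) (nat_lit 76) (nat_lit 47253889158) (nat_lit 6) (nat_lit 5) (nat_lit 8) (nat_lit 5) (nat_lit 7) (nat_lit 4) (nat_lit 351) (nat_lit 286) (nat_lit 263)) (XT.nd (nat_lit 78) (nat_lit 0) (nat_lit 0) (XT.lf (nat_lit 0) (nat_lit 7463887171) (nat_lit 152) (nat_lit 47434547158) (nat_lit 0) (nat_lit 1689538020) (nat_lit 5) (nat_lit 5) (nat_lit 7) (nat_lit 4) (nat_lit 5) (nat_lit 4) (nat_lit 352) (nat_lit 286) (nat_lit 262)) (XT.lf (nat_lit 0) (nat_lit 15071091857) (nat_lit 152) (nat_lit 36448337492) (nat_lit 0) (nat_lit 9216661244) (nat_lit 5) (nat_lit 5) (nat_lit 7) (nat_lit 4) (nat_lit 5) (nat_lit 4) (nat_lit 353) (nat_lit 286) (nat_lit 261)))))) (XT.nd (nat_lit 468) (nat_lit 152) (nat_lit 0) (XT.nd (nat_lit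 234) (nat_lit 0) (nat_lit 0) (XT.nd (nat_lit 78) (nat_lit 76) (nat_lit 0) (XT.lf (nat_lit 0) (nat_lit 23156439286) (nat_lit 152) (nat_lit 24838298659) (nat_lit 0) (nat_lit 17227859170) (nat_lit 5) (nat_lit 5) (nat_lit 7) (nat_lit 4) (nat_lit 5) (nat_lit 4) (nat_lit 354) (nat_lit 286) (nat_lit 260)) (XT.nd (nat_lit 78) (nat_lit 76) (nat_lit 0) (XT.lf (nat_lit 0) (nat_lit 31767842627) (nat_lit 152) (nat_lit 12535630429) (nat_lit 0) (nat_lit 25770605564) (nat_lit 5) (nat_lit 5) (nat_lit 7) (nat_lit 4) (nat_lit 5) (nat_lit 4) (nat_lit 355) (nat_lit 286) (nat_lit 259)) (XT.lf (nat_lit 0) (nat_lit 550181130) (nat_lit 76) (nat_lit 40414741157) (nat_lit 76) (nat_lit 34353932848) (nat_lit 4) (nat_lit 4) (nat_lit 5) (nat_lit 5) (nat_lit 5) (nat_lit 4) (nat_lit 356) (nat_lit 286) (nat_lit 258)))) (XT.nd (nat_lit 78) (nat_lit 0) (nat_lit 0) (XT.lf (nat_lit 0) (nat_lit 14921325111) (nat_lit 76) (nat_lit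 36087997561) (nat_lit 76) (nat_lit 29968326985) (nat_lit 4) (nat_lit 4) (nat_lit 5) (nat_lit 5) (nat_lit 5) (nat_lit 4) (nat_lit 357) (nat_lit 286) (nat_lit 257)) (XT.nd (nat_lit 78) (nat_lit 0) (nat_lit 0) (XT.lf (nat_lit 0) (nat_lit 30248479294) (nat_lit 76) (nat_lit 31509899271) (nat_lit 76) (nat_lit 25335726597) (nat_lit 4) (nat_lit 4) (nat_lit 5) (nat_lit 5) (nat_lit 5) (nat_lit 4) (nat_lit 358) (nat_lit 286) (nat_lit 256)) (XT.lf (nat_lit 0) (nat_lit 46622471259) (nat_lit 76) (nat_lit 26653316818) (nat_lit 76) (nat_lit 20428679238) (nat_lit 4) (nat_lit 4) (nat_lit 5) (nat_lit 5) (nat_lit 5) (nat_lit 4) (nat_lit 359) (nat_lit 286) (nat_lit 255))))) (XT.nd (nat_lit 234) (nat_lit 152) (nat_lit 0) (XT.nd (nat_lit 78) (nat_lit 0) (nat_lit 0) (XT.lf (nat_lit 0) (nat_lit 64140332069) (nat_lit 76) (nat_lit 21489470452) (nat_lit 76) (nat_lit 15218106108) (nat_lit 4) (nat_lit 4) (nat_lit 5)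 (nat_lit 5) (nat_lit 5) (nat_lit 4) (nat_lit 360) (nat_lit 286) (nat_lit 254)) (XT.nd (nat_lit 78) (nat_lit 0) (nat_lit 0) (XT.lf (nat_lit 0) (nat_lit 82905871271) (nat_lit 76) (nat_lit 15987759603) (nat_lit 76) (nat_lit 9673129737) (nat_lit 4) (nat_lit 4) (nat_lit 5) (nat_lit 5) (nat_lit 5) (nat_lit 4) (nat_lit 361) (nat_lit 286) (nat_lit 253)) (XT.lf (nat_lit 0) (nat_lit 103030292059) (nat_lit 76) (nat_lit 10115581540) (nat_lit 76) (nat_lit 3760891005) (nat_lit 4) (nat_lit 4) (nat_lit 5) (nat_lit 5) (nat_lit 5) (nat_lit 4) (nat_lit 362) (nat_lit 286) (nat_lit 252)))) (XT.nd (nat_lit 78) (nat_lit 76) (nat_lit 0) (XT.lf (nat_lit 0) (nat_lit 2471912969) (nat_lit 152) (nat_lit 1324362160) (nat_lit 76) (nat_lit 122119074248) (nat_lit 3) (nat_lit 5) (nat_lit 5) (nat_lit 5) (nat_lit 4) (nat_lit 4) (nat_lit 363) (nat_lit 286) (nat_lit 251)) (XT.nd (nat_lit 78) (nat_lit 0) (nat_lit 0) (XT.lf (nat_lit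 0) (nat_lit 9254811728) (nat_lit 152) (nat_lit 123242883807) (nat_lit 0) (nat_lit 3134688571) (nat_lit 2) (nat_lit 5) (nat_lit 4) (nat_lit 4) (nat_lit 2) (nat_lit 4) (nat_lit 364) (nat_lit 286) (nat_lit 250)) (XT.lf (nat_lit 0) (nat_lit 16606380428) (nat_lit 152) (nat_lit 119063136106) (nat_lit 0) (nat_lit 10455970176) (nat_lit 2) (nat_lit 5) (nat_lit 4) (nat_lit 4) (nat_lit 2) (nat_lit 4) (nat_lit 365) (nat_lit 286) (nat_lit 249))))))))
noncomputable def xc24 : XT := (XT.nd (nat_lit 1794) (nat_lit 0) (nat_lit 0) (XT.nd (nat_lit 858) (nat_lit 76) (nat_lit 0) (XT.nd (nat_lit 390) (nat_lit 0) (nat_lit 0) (XT.nd (nat_lit 156) (nat_lit 0) (nat_lit 0) (XT.nd (nat_lit 78) (nat_lit 0) (nat_lit 0) (XT.lf (nat_lit 0) (nat_lit 24489202573) (nat_lit 152) (nat_lit 114660936319) (nat_lit 0) (nat_lit 18310748714) (nat_lit 2) (nat_lit 5) (nat_lit 4) (nat_lit 4) (nat_lit 2) (nat_lit 4) (nat_lit 366) (nat_lit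 286) (nat_lit 248)) (XT.lf (nat_lit 0) (nat_lit 32949991183) (nat_lit 152) (nat_lit 110010197337) (nat_lit 0) (nat_lit 26745571020) (nat_lit 2) (nat_lit 5) (nat_lit 4) (nat_lit 4) (nat_lit 2) (nat_lit 4) (nat_lit 367) (nat_lit 286) (nat_lit 247))) (XT.nd (nat_lit 78) (nat_lit 0) (nat_lit 0) (XT.lf (nat_lit 0) (nat_lit 42038884264) (nat_lit 152) (nat_lit 105083359225) (nat_lit 0) (nat_lit 35810421228) (nat_lit 2) (nat_lit 5) (nat_lit 4) (nat_lit 4) (nat_lit 2) (nat_lit 4) (nat_lit 368) (nat_lit 286) (nat_lit 246)) (XT.nd (nat_lit 78) (nat_lit 0) (nat_lit 0) (XT.lf (nat_lit 0) (nat_lit 51809741924) (nat_lit 152) (nat_lit 99851225905) (nat_lit 0) (nat_lit 45559016968) (nat_lit 2) (nat_lit 5) (nat_lit 4) (nat_lit 4) (nat_lit 2) (nat_lit 4) (nat_lit 369) (nat_lit 286) (nat_lit 245)) (XT.lf (nat_lit 0) (nat_lit 62320465540) (nat_lit 152) (nat_lit 94282792143) (nat_lit 0) (nat_lit 56049127696)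 (nat_lit 2) (nat_lit 5) (nat_lit 4) (nat_lit 4) (nat_lit 2) (nat_lit 4) (nat_lit 370) (nat_lit 286) (nat_lit 244))))) (XT.nd (nat_lit 234) (nat_lit 0) (nat_lit 0) (XT.nd (nat_lit 78) (nat_lit 0) (nat_lit 0) (XT.lf (nat_lit 0) (nat_lit 73633340883) (nat_lit 152) (nat_lit 88345059812) (nat_lit 0) (nat_lit 67342917031) (nat_lit 2) (nat_lit 5) (nat_lit 4) (nat_lit 4) (nat_lit 2) (nat_lit 4) (nat_lit 371) (nat_lit 286) (nat_lit 243)) (XT.nd (nat_lit 78) (nat_lit 0) (nat_lit 0) (XT.lf (nat_lit 0) (nat_lit 85815407214) (nat_lit 152) (nat_lit 82002842352) (nat_lit 0) (nat_lit 79507311133) (nat_lit 2) (nat_lit 5) (nat_lit 4) (nat_lit 4) (nat_lit 2) (nat_lit 4) (nat_lit 372) (nat_lit 286) (nat_lit 242)) (XT.lf (nat_lit 0) (nat_lit 98938854556) (nat_lit 152) (nat_lit 75218556250) (nat_lit 0) (nat_lit 92614395299) (nat_lit 2) (nat_lit 5) (nat_lit 4) (nat_lit 4) (nat_lit 2) (nat_lit 4) (nat_lit 373)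 (nat_lit 286) (nat_lit 241)))) (XT.nd (nat_lit 78) (nat_lit 0) (nat_lit 0) (XT.lf (nat_lit 0) (nat_lit 113081451485) (nat_lit 152) (nat_lit 67951998330) (nat_lit 0) (nat_lit 106741841140) (nat_lit 2) (nat_lit 5) (nat_lit 4) (nat_lit 4) (nat_lit 2) (nat_lit 4) (nat_lit 374) (nat_lit 286) (nat_lit 240)) (XT.nd (nat_lit 78) (nat_lit 0) (nat_lit 0) (XT.lf (nat_lit 0) (nat_lit 128327005984) (nat_lit 152) (nat_lit 60160107509) (nat_lit 0) (nat_lit 121973366853) (nat_lit 2) (nat_lit 5) (nat_lit 4) (nat_lit 4) (nat_lit 2) (nat_lit 4) (nat_lit 375) (nat_lit 286) (nat_lit 239)) (XT.lf (nat_lit 0) (nat_lit 144765862079) (nat_lit 152) (nat_lit 51796709617) (nat_lit 0) (nat_lit 138399233331) (nat_lit 2) (nat_lit 5) (nat_lit 4) (nat_lit 4) (nat_lit 2) (nat_lit 4) (nat_lit 376) (nat_lit 286) (nat_lit 238)))))) (XT.nd (nat_lit 468) (nat_lit 0) (nat_lit 0) (XT.nd (nat_lit 234) (nat_lit 76) (nat_lit 0) (XT.nd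 (nat_lit 78) (nat_lit 0) (nat_lit 0) (XT.lf (nat_lit 0) (nat_lit 162495435213) (nat_lit 152) (nat_lit 42812243779) (nat_lit 0) (nat_lit 156116779042) (nat_lit 2) (nat_lit 5) (nat_lit 4) (nat_lit 4) (nat_lit 2) (nat_lit 4) (nat_lit 377) (nat_lit 286) (nat_lit 237)) (XT.nd (nat_lit 78) (nat_lit 0) (nat_lit 0) (XT.lf (nat_lit 0) (nat_lit 181620789523) (nat_lit 152) (nat_lit 33153468716) (nat_lit 0) (nat_lit 175230996851) (nat_lit 2) (nat_lit 5) (nat_lit 4) (nat_lit 4) (nat_lit 2) (nat_lit 4) (nat_lit 378) (nat_lit 286) (nat_lit 236)) (XT.lf (nat_lit 0) (nat_lit 202255260443) (nat_lit 152) (nat_lit 22763147243) (nat_lit 0) (nat_lit 195855156195) (nat_lit 2) (nat_lit 5) (nat_lit 4) (nat_lit 4) (nat_lit 2) (nat_lit 4) (nat_lit 379) (nat_lit 286) (nat_lit 235)))) (XT.nd (nat_lit 78) (nat_lit 76) (nat_lit 0) (XT.lf (nat_lit 0) (nat_lit 224521126319) (nat_lit 152) (nat_lit 11579707083) (nat_lit 0)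 (nat_lit 218111474315) (nat_lit 2) (nat_lit 5) (nat_lit 4) (nat_lit 4) (nat_lit 2) (nat_lit 4) (nat_lit 380) (nat_lit 286) (nat_lit 234)) (XT.nd (nat_lit 78) (nat_lit 0) (nat_lit 0) (XT.lf (nat_lit 0) (nat_lit 478436971) (nat_lit 76) (nat_lit 248079365793) (nat_lit 76) (nat_lit 241660873274) (nat_lit 1) (nat_lit 4) (nat_lit 2) (nat_lit 5) (nat_lit 2) (nat_lit 4) (nat_lit 381) (nat_lit 286) (nat_lit 233)) (XT.lf (nat_lit 0) (nat_lit 13880989279) (nat_lit 76) (nat_lit 260821007717) (nat_lit 76) (nat_lit 254394329537) (nat_lit 1) (nat_lit 4) (nat_lit 2) (nat_lit 5) (nat_lit 2) (nat_lit 4) (nat_lit 382) (nat_lit 286) (nat_lit 232))))) (XT.nd (nat_lit 234) (nat_lit 0) (nat_lit 0) (XT.nd (nat_lit 78) (nat_lit 0) (nat_lit 0) (XT.lf (nat_lit 0) (nat_lit 28324494959) (nat_lit 76) (nat_lit 274597373145) (nat_lit 76) (nat_lit 268163115648) (nat_lit 1) (nat_lit 4) (nat_lit 2) (nat_lit 5) (nat_lit 2)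 (nat_lit 4) (nat_lit 383) (nat_lit 286) (nat_lit 231)) (XT.nd (nat_lit 78) (nat_lit 0) (nat_lit 0) (XT.lf (nat_lit 0) (nat_lit 43894545158) (nat_lit 76) (nat_lit 289490099796) (nat_lit 76) (nat_lit 283048824414) (nat_lit 1) (nat_lit 4) (nat_lit 2) (nat_lit 5) (nat_lit 2) (nat_lit 4) (nat_lit 384) (nat_lit 286) (nat_lit 230)) (XT.lf (nat_lit 0) (nat_lit 60683406838) (nat_lit 76) (nat_lit 305587440867) (nat_lit 76) (nat_lit 299139667442) (nat_lit 1) (nat_lit 4) (nat_lit 2) (nat_lit 5) (nat_lit 2) (nat_lit 4) (nat_lit 385) (nat_lit 286) (nat_lit 229)))) (XT.nd (nat_lit 78) (nat_lit 0) (nat_lit 0) (XT.lf (nat_lit 0) (nat_lit 78790569552) (nat_lit 76) (nat_lit 322984788007) (nat_lit 76) (nat_lit 316530997877) (nat_lit 1) (nat_lit 4) (nat_lit 2) (nat_lit 5) (nat_lit 2) (nat_lit 4) (nat_lit 386) (nat_lit 286) (nat_lit 228)) (XT.nd (nat_lit 78) (nat_lit 0) (nat_lit 0) (XT.lf (nat_lit 0) (nat_lit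 98323335003) (nat_lit 76) (nat_lit 341785236608) (nat_lit 76) (nat_lit 335325875454) (nat_lit 1) (nat_lit 4) (nat_lit 2) (nat_lit 5) (nat_lit 2) (nat_lit 4) (nat_lit 387) (nat_lit 286) (nat_lit 227)) (XT.lf (nat_lit 0) (nat_lit 119397452912) (nat_lit 76) (nat_lit 362100196735) (nat_lit 76) (nat_lit 355635677225) (nat_lit 1) (nat_lit 4) (nat_lit 2) (nat_lit 5) (nat_lit 2) (nat_lit 4) (nat_lit 388) (nat_lit 286) (nat_lit 226))))))) (XT.nd (nat_lit 42432) (nat_lit 0) (nat_lit 760) (XT.nd (nat_lit 41964) (nat_lit 0) (nat_lit 1672) (XT.nd (nat_lit 156) (nat_lit 0) (nat_lit 0) (XT.nd (nat_lit 78) (nat_lit 0) (nat_lit 0) (XT.lf (nat_lit 0) (nat_lit 142137806943) (nat_lit 76) (nat_lit 384050053336) (nat_lit 76) (nat_lit 377580757572) (nat_lit 1) (nat_lit 4) (nat_lit 2) (nat_lit 5) (nat_lit 2) (nat_lit 4) (nat_lit 389) (nat_lit 286) (nat_lit 225)) (XT.lf (nat_lit 0) (nat_lit 166679154747) (nat_lit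 76) (nat_lit 407764879637) (nat_lit 76) (nat_lit 401291161415) (nat_lit 1) (nat_lit 4) (nat_lit 2) (nat_lit 5) (nat_lit 2) (nat_lit 4) (nat_lit 390) (nat_lit 286) (nat_lit 224))) (XT.nd (nat_lit 78) (nat_lit 0) (nat_lit 0) (XT.lf (nat_lit 0) (nat_lit 193166926535) (nat_lit 76) (nat_lit 433385207942) (nat_lit 76) (nat_lit 426907394850) (nat_lit 1) (nat_lit 4) (nat_lit 2) (nat_lit 5) (nat_lit 2) (nat_lit 4) (nat_lit 391) (nat_lit 286) (nat_lit 223)) (XT.nd (nat_lit 78) (nat_lit 0) (nat_lit 0) (XT.lf (nat_lit 0) (nat_lit 221758086879) (nat_lit 76) (nat_lit 461062862417) (nat_lit 76) (nat_lit 454581257780) (nat_lit 1) (nat_lit 4) (nat_lit 2) (nat_lit 5) (nat_lit 2) (nat_lit 4) (nat_lit 392) (nat_lit 286) (nat_lit 222)) (XT.lf (nat_lit 0) (nat_lit 252622064879) (nat_lit 76) (nat_lit 490961858793) (nat_lit 76) (nat_lit 484476743467) (nat_lit 1) (nat_lit 4) (nat_lit 2) (nat_lit 5) (nat_lit 2) (nat_lit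 4) (nat_lit 393) (nat_lit 286) (nat_lit 221))))) (XT.nd (nat_lit 234) (nat_lit 456) (nat_lit 0) (XT.nd (nat_lit 78) (nat_lit 456) (nat_lit 0) (XT.lf (nat_lit 0) (nat_lit 2843794530) (nat_lit 152) (nat_lit 409800612) (nat_lit 0) (nat_lit 2843794530) (nat_lit 35) (nat_lit 5) (nat_lit 37) (nat_lit 4) (nat_lit 35) (nat_lit 4) (nat_lit 326) (nat_lit 287) (nat_lit 287)) (XT.nd (nat_lit 78) (nat_lit 152) (nat_lit 0) (XT.lf (nat_lit 0) (nat_lit 921892527) (nat_lit 152) (nat_lit 11708804224) (nat_lit 0) (nat_lit 111602904) (nat_lit 31) (nat_lit 5) (nat_lit 33) (nat_lit 4) (nat_lit 31) (nat_lit 4) (nat_lit 327) (nat_lit 287) (nat_lit 286)) (XT.lf (nat_lit 0) (nat_lit 2464164636) (nat_lit 152) (nat_lit 6213420602) (nat_lit 152) (nat_lit 4652862808) (nat_lit 29) (nat_lit 4) (nat_lit 31) (nat_lit 5) (nat_lit 31) (nat_lit 4) (nat_lit 328) (nat_lit 287) (nat_lit 285)))) (XT.nd (nat_lit 78) (nat_lit 304)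 (nat_lit 0) (XT.lf (nat_lit 0) (nat_lit 2840288127) (nat_lit 152) (nat_lit 10438119884) (nat_lit 0) (nat_lit 692430467) (nat_lit 27) (nat_lit 5) (nat_lit 29) (nat_lit 4) (nat_lit 27) (nat_lit 4) (nat_lit 329) (nat_lit 287) (nat_lit 284)) (XT.nd (nat_lit 78) (nat_lit 152) (nat_lit 0) (XT.lf (nat_lit 0) (nat_lit 4027467809) (nat_lit 152) (nat_lit 6697025402) (nat_lit 152) (nat_lit 3936563905) (nat_lit 25) (nat_lit 4) (nat_lit 27) (nat_lit 5) (nat_lit 27) (nat_lit 4) (nat_lit 330) (nat_lit 287) (nat_lit 283)) (XT.lf (nat_lit 0) (nat_lit 3568713722) (nat_lit 152) (nat_lit 11442501959) (nat_lit 0) (nat_lit 399487750) (nat_lit 23) (nat_lit 5) (nat_lit 25) (nat_lit 4) (nat_lit 23) (nat_lit 4) (nat_lit 331) (nat_lit 287) (nat_lit 282)))))) (XT.nd (nat_lit 468) (nat_lit 380) (nat_lit 0) (XT.nd (nat_lit 234) (nat_lit 304) (nat_lit 0) (XT.nd (nat_lit 78) (nat_lit 152) (nat_lit 0) (XT.lf (nat_lit 0)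 (nat_lit 3126398517) (nat_lit 76) (nat_lit 8380849639) (nat_lit 76) (nat_lit 4711424572) (nat_lit 22) (nat_lit 4) (nat_lit 23) (nat_lit 5) (nat_lit 23) (nat_lit 4) (nat_lit 332) (nat_lit 287) (nat_lit 281)) (XT.nd (nat_lit 78) (nat_lit 0) (nat_lit 0) (XT.lf (nat_lit 0) (nat_lit 1506272589) (nat_lit 76) (nat_lit 1244383491) (nat_lit 152) (nat_lit 14345553854) (nat_lit 20) (nat_lit 5) (nat_lit 21) (nat_lit 5) (nat_lit 22) (nat_lit 4) (nat_lit 333) (nat_lit 287) (nat_lit 280)) (XT.lf (nat_lit 0) (nat_lit 10622741442) (nat_lit 152) (nat_lit 1139996982) (nat_lit 0) (nat_lit 6278539080) (nat_lit 20) (nat_lit 5) (nat_lit 22) (nat_lit 4) (nat_lit 20) (nat_lit 4) (nat_lit 334) (nat_lit 287) (nat_lit 279)))) (XT.nd (nat_lit 78) (nat_lit 228) (nat_lit 0) (XT.lf (nat_lit 0) (nat_lit 14287823771) (nat_lit 76) (nat_lit 4750449188) (nat_lit 76) (nat_lit 28080951) (nat_lit 19) (nat_lit 4) (nat_lit 20) (nat_lit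 5) (nat_lit 20) (nat_lit 4) (nat_lit 335) (nat_lit 287) (nat_lit 278)) (XT.nd (nat_lit 78) (nat_lit 76) (nat_lit 0) (XT.lf (nat_lit 0) (nat_lit 7606498208) (nat_lit 152) (nat_lit 9789908700) (nat_lit 0) (nat_lit 2775525042) (nat_lit 17) (nat_lit 5) (nat_lit 19) (nat_lit 4) (nat_lit 17) (nat_lit 4) (nat_lit 336) (nat_lit 287) (nat_lit 277)) (XT.lf (nat_lit 0) (nat_lit 5060728253) (nat_lit 76) (nat_lit 10724162677) (nat_lit 76) (nat_lit 5584412096) (nat_lit 16) (nat_lit 4) (nat_lit 17) (nat_lit 5) (nat_lit 17) (nat_lit 4) (nat_lit 337) (nat_lit 287) (nat_lit 276))))) (XT.nd (nat_lit 234) (nat_lit 152) (nat_lit 0) (XT.nd (nat_lit 78) (nat_lit 152) (nat_lit 0) (XT.lf (nat_lit 0) (nat_lit 1765464308) (nat_lit 152) (nat_lit 1806453761) (nat_lit 76) (nat_lit 19095435017) (nat_lit 15) (nat_lit 5) (nat_lit 17) (nat_lit 5) (nat_lit 16) (nat_lit 4) (nat_lit 338) (nat_lit 287) (nat_lit 275)) (XT.nd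 (nat_lit 78) (nat_lit 76) (nat_lit 0) (XT.lf (nat_lit 0) (nat_lit 9511645450) (nat_lit 152) (nat_lit 10460650736) (nat_lit 0) (nat_lit 4092233585) (nat_lit 14) (nat_lit 5) (nat_lit 16) (nat_lit 4) (nat_lit 14) (nat_lit 4) (nat_lit 339) (nat_lit 287) (nat_lit 274)) (XT.lf (nat_lit 0) (nat_lit 4303779177) (nat_lit 76) (nat_lit 13464048552) (nat_lit 76) (nat_lit 7811191480) (nat_lit 13) (nat_lit 4) (nat_lit 14) (nat_lit 5) (nat_lit 14) (nat_lit 4) (nat_lit 340) (nat_lit 287) (nat_lit 273)))) (XT.nd (nat_lit 78) (nat_lit 152) (nat_lit 0) (XT.lf (nat_lit 0) (nat_lit 20132335517) (nat_lit 76) (nat_lit 6477561335) (nat_lit 76) (nat_lit 608551294) (nat_lit 13) (nat_lit 4) (nat_lit 14) (nat_lit 5) (nat_lit 14) (nat_lit 4) (nat_lit 341) (nat_lit 287) (nat_lit 272)) (XT.nd (nat_lit 78) (nat_lit 0) (nat_lit 0) (XT.lf (nat_lit 0) (nat_lit 6839763454) (nat_lit 152) (nat_lit 21089147688) (nat_lit 0) (nat_lit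 1059618998) (nat_lit 11) (nat_lit 5) (nat_lit 13) (nat_lit 4) (nat_lit 11) (nat_lit 4) (nat_lit 342) (nat_lit 287) (nat_lit 271)) (XT.lf (nat_lit 0) (nat_lit 14863547826) (nat_lit 152) (nat_lit 7129254962) (nat_lit 0) (nat_lit 8906911625) (nat_lit 11) (nat_lit 5) (nat_lit 13) (nat_lit 4) (nat_lit 11) (nat_lit 4) (nat_lit 343) (nat_lit 287) (nat_lit 270))))))))
noncomputable def xc25 : XT := (XT.nd (nat_lit 1794) (nat_lit 76) (nat_lit 0) (XT.nd (nat_lit 858) (nat_lit 228) (nat_lit 0) (XT.nd (nat_lit 390) (nat_lit 228) (nat_lit 0) (XT.nd (nat_lit 156) (nat_lit 152) (nat_lit 0) (XT.nd (nat_lit 78) (nat_lit 0) (nat_lit 0) (XT.lf (nat_lit 0) (nat_lit 7779323864) (nat_lit 76) (nat_lit 15654662131) (nat_lit 76) (nat_lit 9534607649) (nat_lit 10) (nat_lit 4) (nat_lit 11) (nat_lit 5) (nat_lit 11) (nat_lit 4) (nat_lit 344) (nat_lit 287) (nat_lit 269)) (XT.lf (nat_lit 0) (nat_lit 23736206449) (nat_lit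 76) (nat_lit 8871157112) (nat_lit 76) (nat_lit 2599789406) (nat_lit 10) (nat_lit 4) (nat_lit 11) (nat_lit 5) (nat_lit 11) (nat_lit 4) (nat_lit 345) (nat_lit 287) (nat_lit 268))) (XT.nd (nat_lit 78) (nat_lit 0) (nat_lit 0) (XT.lf (nat_lit 0) (nat_lit 2988259475) (nat_lit 76) (nat_lit 1596975655) (nat_lit 152) (nat_lit 33043179285) (nat_lit 8) (nat_lit 5) (nat_lit 9) (nat_lit 5) (nat_lit 10) (nat_lit 4) (nat_lit 346) (nat_lit 287) (nat_lit 267)) (XT.nd (nat_lit 78) (nat_lit 0) (nat_lit 0) (XT.lf (nat_lit 0) (nat_lit 12367380648) (nat_lit 152) (nat_lit 21730556479) (nat_lit 0) (nat_lit 6137667083) (nat_lit 8) (nat_lit 5) (nat_lit 10) (nat_lit 4) (nat_lit 8) (nat_lit 4) (nat_lit 347) (nat_lit 287) (nat_lit 266)) (XT.lf (nat_lit 0) (nat_lit 20624368684) (nat_lit 152) (nat_lit 8154155724) (nat_lit 0) (nat_lit 14280257675) (nat_lit 8) (nat_lit 5) (nat_lit 10) (nat_lit 4) (nat_lit 8) (nat_lit 4)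 (nat_lit 348) (nat_lit 287) (nat_lit 265))))) (XT.nd (nat_lit 234) (nat_lit 152) (nat_lit 0) (XT.nd (nat_lit 78) (nat_lit 0) (nat_lit 0) (XT.lf (nat_lit 0) (nat_lit 6399249274) (nat_lit 76) (nat_lit 23080857212) (nat_lit 76) (nat_lit 16630822645) (nat_lit 7) (nat_lit 4) (nat_lit 8) (nat_lit 5) (nat_lit 8) (nat_lit 4) (nat_lit 349) (nat_lit 287) (nat_lit 264)) (XT.nd (nat_lit 78) (nat_lit 0) (nat_lit 0) (XT.lf (nat_lit 0) (nat_lit 22107827930) (nat_lit 76) (nat_lit 16924087017) (nat_lit 76) (nat_lit 10375975080) (nat_lit 7) (nat_lit 4) (nat_lit 8) (nat_lit 5) (nat_lit 8) (nat_lit 4) (nat_lit 350) (nat_lit 287) (nat_lit 263)) (XT.lf (nat_lit 0) (nat_lit 38795054904) (nat_lit 76) (nat_lit 10409823831) (nat_lit 76) (nat_lit 3770899515) (nat_lit 7) (nat_lit 4) (nat_lit 8) (nat_lit 5) (nat_lit 8) (nat_lit 4) (nat_lit 351) (nat_lit 287) (nat_lit 262)))) (XT.nd (nat_lit 78) (nat_lit 76) (nat_lit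 0) (XT.lf (nat_lit 0) (nat_lit 3120371658) (nat_lit 152) (nat_lit 326247950) (nat_lit 76) (nat_lit 53386600804) (nat_lit 6) (nat_lit 5) (nat_lit 8) (nat_lit 5) (nat_lit 7) (nat_lit 4) (nat_lit 352) (nat_lit 287) (nat_lit 261)) (XT.nd (nat_lit 78) (nat_lit 0) (nat_lit 0) (XT.lf (nat_lit 0) (nat_lit 10605708149) (nat_lit 152) (nat_lit 46253040034) (nat_lit 0) (nat_lit 4128692121) (nat_lit 5) (nat_lit 5) (nat_lit 7) (nat_lit 4) (nat_lit 5) (nat_lit 4) (nat_lit 353) (nat_lit 287) (nat_lit 260)) (XT.lf (nat_lit 0) (nat_lit 18632992173) (nat_lit 152) (nat_lit 34756546254) (nat_lit 0) (nat_lit 12087319198) (nat_lit 5) (nat_lit 5) (nat_lit 7) (nat_lit 4) (nat_lit 5) (nat_lit 4) (nat_lit 354) (nat_lit 287) (nat_lit 259)))))) (XT.nd (nat_lit 468) (nat_lit 152) (nat_lit 0) (XT.nd (nat_lit 234) (nat_lit 0) (nat_lit 0) (XT.nd (nat_lit 78) (nat_lit 76) (nat_lit 0) (XT.lf (nat_lit 0) (nat_lit 27190633102)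 (nat_lit 152) (nat_lit 22559012332) (nat_lit 0) (nat_lit 20581388880) (nat_lit 5) (nat_lit 5) (nat_lit 7) (nat_lit 4) (nat_lit 5) (nat_lit 4) (nat_lit 355) (nat_lit 287) (nat_lit 258)) (XT.nd (nat_lit 78) (nat_lit 76) (nat_lit 0) (XT.lf (nat_lit 0) (nat_lit 36329342883) (nat_lit 152) (nat_lit 9588156586) (nat_lit 0) (nat_lit 29661236395) (nat_lit 5) (nat_lit 5) (nat_lit 7) (nat_lit 4) (nat_lit 5) (nat_lit 4) (nat_lit 356) (nat_lit 287) (nat_lit 257)) (XT.lf (nat_lit 0) (nat_lit 4372843619) (nat_lit 76) (nat_lit 41798705557) (nat_lit 76) (nat_lit 35076096971) (nat_lit 4) (nat_lit 4) (nat_lit 5) (nat_lit 5) (nat_lit 5) (nat_lit 4) (nat_lit 357) (nat_lit 287) (nat_lit 256)))) (XT.nd (nat_lit 78) (nat_lit 0) (nat_lit 0) (XT.lf (nat_lit 0) (nat_lit 19613779267) (nat_lit 76) (nat_lit 37262801353) (nat_lit 76) (nat_lit 30489727862) (nat_lit 4) (nat_lit 4) (nat_lit 5) (nat_lit 5) (nat_lit 5) (nat_lit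 4) (nat_lit 358) (nat_lit 287) (nat_lit 255)) (XT.nd (nat_lit 78) (nat_lit 0) (nat_lit 0) (XT.lf (nat_lit 0) (nat_lit 35907939255) (nat_lit 76) (nat_lit 32445287498) (nat_lit 76) (nat_lit 25625487242) (nat_lit 4) (nat_lit 4) (nat_lit 5) (nat_lit 5) (nat_lit 5) (nat_lit 4) (nat_lit 359) (nat_lit 287) (nat_lit 254)) (XT.lf (nat_lit 0) (nat_lit 53351881568) (nat_lit 76) (nat_lit 27317615760) (nat_lit 76) (nat_lit 20454549982) (nat_lit 4) (nat_lit 4) (nat_lit 5) (nat_lit 5) (nat_lit 5) (nat_lit 4) (nat_lit 360) (nat_lit 287) (nat_lit 253))))) (XT.nd (nat_lit 234) (nat_lit 152) (nat_lit 0) (XT.nd (nat_lit 78) (nat_lit 0) (nat_lit 0) (XT.lf (nat_lit 0) (nat_lit 72048977717) (nat_lit 76) (nat_lit 21849399937) (nat_lit 76) (nat_lit 14946273490) (nat_lit 4) (nat_lit 4) (nat_lit 5) (nat_lit 5) (nat_lit 5) (nat_lit 4) (nat_lit 361) (nat_lit 287) (nat_lit 252)) (XT.nd (nat_lit 78) (nat_lit 0) (nat_lit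 0) (XT.lf (nat_lit 0) (nat_lit 92110025308) (nat_lit 76) (nat_lit 16008235787) (nat_lit 76) (nat_lit 9068016128) (nat_lit 4) (nat_lit 4) (nat_lit 5) (nat_lit 5) (nat_lit 5) (nat_lit 4) (nat_lit 362) (nat_lit 287) (nat_lit 251)) (XT.lf (nat_lit 0) (nat_lit 113653904623) (nat_lit 76) (nat_lit 9759509004) (nat_lit 76) (nat_lit 2784943778) (nat_lit 4) (nat_lit 4) (nat_lit 5) (nat_lit 5) (nat_lit 5) (nat_lit 4) (nat_lit 363) (nat_lit 287) (nat_lit 250)))) (XT.nd (nat_lit 78) (nat_lit 0) (nat_lit 0) (XT.lf (nat_lit 0) (nat_lit 839333188) (nat_lit 76) (nat_lit 2987837477) (nat_lit 152) (nat_lit 132103394868) (nat_lit 2) (nat_lit 5) (nat_lit 3) (nat_lit 5) (nat_lit 4) (nat_lit 4) (nat_lit 364) (nat_lit 287) (nat_lit 249)) (XT.nd (nat_lit 78) (nat_lit 0) (nat_lit 0) (XT.lf (nat_lit 0) (nat_lit 11104748517) (nat_lit 152) (nat_lit 130918647537) (nat_lit 0) (nat_lit 4403974742) (nat_lit 2) (nat_lit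 5) (nat_lit 4) (nat_lit 4) (nat_lit 2) (nat_lit 4) (nat_lit 365) (nat_lit 287) (nat_lit 248)) (XT.lf (nat_lit 0) (nat_lit 18962253688) (nat_lit 152) (nat_lit 126566273129) (nat_lit 0) (nat_lit 12235513609) (nat_lit 2) (nat_lit 5) (nat_lit 4) (nat_lit 4) (nat_lit 2) (nat_lit 4) (nat_lit 366) (nat_lit 287) (nat_lit 247))))))) (XT.nd (nat_lit 936) (nat_lit 76) (nat_lit 0) (XT.nd (nat_lit 468) (nat_lit 0) (nat_lit 0) (XT.nd (nat_lit 234) (nat_lit 0) (nat_lit 0) (XT.nd (nat_lit 78) (nat_lit 0) (nat_lit 0) (XT.lf (nat_lit 0) (nat_lit 27399600655) (nat_lit 152) (nat_lit 121961668757) (nat_lit 0) (nat_lit 20648817703) (nat_lit 2) (nat_lit 5) (nat_lit 4) (nat_lit 4) (nat_lit 2) (nat_lit 4) (nat_lit 367) (nat_lit 287) (nat_lit 246)) (XT.nd (nat_lit 78) (nat_lit 0) (nat_lit 0) (XT.lf (nat_lit 0) (nat_lit 36466788511) (nat_lit 152) (nat_lit 117077547876) (nat_lit 0) (nat_lit 29693743639) (nat_lit 2)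 (nat_lit 5) (nat_lit 4) (nat_lit 4) (nat_lit 2) (nat_lit 4) (nat_lit 368) (nat_lit 287) (nat_lit 245)) (XT.lf (nat_lit 0) (nat_lit 46217548740) (nat_lit 152) (nat_lit 111884967548) (nat_lit 0) (nat_lit 39423890979) (nat_lit 2) (nat_lit 5) (nat_lit 4) (nat_lit 4) (nat_lit 2) (nat_lit 4) (nat_lit 369) (nat_lit 287) (nat_lit 244)))) (XT.nd (nat_lit 78) (nat_lit 0) (nat_lit 0) (XT.lf (nat_lit 0) (nat_lit 56709663624) (nat_lit 152) (nat_lit 106353156927) (nat_lit 0) (nat_lit 49896919856) (nat_lit 2) (nat_lit 5) (nat_lit 4) (nat_lit 4) (nat_lit 2) (nat_lit 4) (nat_lit 370) (nat_lit 287) (nat_lit 243)) (XT.nd (nat_lit 78) (nat_lit 0) (nat_lit 0) (XT.lf (nat_lit 0) (nat_lit 68005308660) (nat_lit 152) (nat_lit 100449334912) (nat_lit 0) (nat_lit 61174892662) (nat_lit 2) (nat_lit 5) (nat_lit 4) (nat_lit 4) (nat_lit 2) (nat_lit 4) (nat_lit 371) (nat_lit 287) (nat_lit 242)) (XT.lf (nat_lit 0) (nat_lit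 80171421002) (nat_lit 152) (nat_lit 94138515891) (nat_lit 0) (nat_lit 73324641829) (nat_lit 2) (nat_lit 5) (nat_lit 4) (nat_lit 4) (nat_lit 2) (nat_lit 4) (nat_lit 372) (nat_lit 287) (nat_lit 241))))) (XT.nd (nat_lit 234) (nat_lit 0) (nat_lit 0) (XT.nd (nat_lit 78) (nat_lit 0) (nat_lit 0) (XT.lf (nat_lit 0) (nat_lit 93280096133) (nat_lit 152) (nat_lit 87383302420) (nat_lit 0) (nat_lit 86418165871) (nat_lit 2) (nat_lit 5) (nat_lit 4) (nat_lit 4) (nat_lit 2) (nat_lit 4) (nat_lit 373) (nat_lit 287) (nat_lit 240)) (XT.nd (nat_lit 78) (nat_lit 0) (nat_lit 0) (XT.lf (nat_lit 0) (nat_lit 107409015088) (nat_lit 152) (nat_lit 80143663602) (nat_lit 0) (nat_lit 100533056041) (nat_lit 2) (nat_lit 5) (nat_lit 4) (nat_lit 4) (nat_lit 2) (nat_lit 4) (nat_lit 374) (nat_lit 287) (nat_lit 239)) (XT.lf (nat_lit 0) (nat_lit 122641904797) (nat_lit 152) (nat_lit 72376697874) (nat_lit 0) (nat_lit 115752956133)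 (nat_lit 2) (nat_lit 5) (nat_lit 4) (nat_lit 4) (nat_lit 2) (nat_lit 4) (nat_lit 375) (nat_lit 287) (nat_lit 238)))) (XT.nd (nat_lit 78) (nat_lit 0) (nat_lit 0) (XT.lf (nat_lit 0) (nat_lit 139069034233) (nat_lit 152) (nat_lit 64036378774) (nat_lit 0) (nat_lit 132168058147) (nat_lit 2) (nat_lit 5) (nat_lit 4) (nat_lit 4) (nat_lit 2) (nat_lit 4) (nat_lit 376) (nat_lit 287) (nat_lit 237)) (XT.nd (nat_lit 78) (nat_lit 0) (nat_lit 0) (XT.lf (nat_lit 0) (nat_lit 156787749351) (nat_lit 152) (nat_lit 55073282187) (nat_lit 0) (nat_lit 149875636763) (nat_lit 2) (nat_lit 5) (nat_lit 4) (nat_lit 4) (nat_lit 2) (nat_lit 4) (nat_lit 377) (nat_lit 287) (nat_lit 236)) (XT.lf (nat_lit 0) (nat_lit 175903049943) (nat_lit 152) (nat_lit 45434293467) (nat_lit 0) (nat_lit 168980625778) (nat_lit 2) (nat_lit 5) (nat_lit 4) (nat_lit 4) (nat_lit 2) (nat_lit 4) (nat_lit 378) (nat_lit 287) (nat_lit 235)))))) (XT.nd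 (nat_lit 468) (nat_lit 0) (nat_lit 0) (XT.nd (nat_lit 234) (nat_lit 76) (nat_lit 0) (XT.nd (nat_lit 78) (nat_lit 0) (nat_lit 0) (XT.lf (nat_lit 0) (nat_lit 196528211864) (nat_lit 152) (nat_lit 35062292682) (nat_lit 0) (nat_lit 189596239943) (nat_lit 2) (nat_lit 5) (nat_lit 4) (nat_lit 4) (nat_lit 2) (nat_lit 4) (nat_lit 379) (nat_lit 287) (nat_lit 234)) (XT.nd (nat_lit 78) (nat_lit 0) (nat_lit 0) (XT.lf (nat_lit 0) (nat_lit 218785458296) (nat_lit 152) (nat_lit 23895816122) (nat_lit 0) (nat_lit 211844645861) (nat_lit 2) (nat_lit 5) (nat_lit 4) (nat_lit 4) (nat_lit 2) (nat_lit 4) (nat_lit 380) (nat_lit 287) (nat_lit 233)) (XT.lf (nat_lit 0) (nat_lit 242806684033) (nat_lit 152) (nat_lit 11868692075) (nat_lit 0) (nat_lit 235857685937) (nat_lit 2) (nat_lit 5) (nat_lit 4) (nat_lit 4) (nat_lit 2) (nat_lit 4) (nat_lit 381) (nat_lit 287) (nat_lit 232)))) (XT.nd (nat_lit 78) (nat_lit 0) (nat_lit 0)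 (XT.lf (nat_lit 0) (nat_lit 1126403242) (nat_lit 76) (nat_lit 267625420149) (nat_lit 76) (nat_lit 260668842736) (nat_lit 1) (nat_lit 4) (nat_lit 2) (nat_lit 5) (nat_lit 2) (nat_lit 4) (nat_lit 382) (nat_lit 287) (nat_lit 231)) (XT.nd (nat_lit 78) (nat_lit 0) (nat_lit 0) (XT.lf (nat_lit 0) (nat_lit 15555997415) (nat_lit 76) (nat_lit 281408637494) (nat_lit 76) (nat_lit 274445042196) (nat_lit 1) (nat_lit 4) (nat_lit 2) (nat_lit 5) (nat_lit 2) (nat_lit 4) (nat_lit 383) (nat_lit 287) (nat_lit 230)) (XT.lf (nat_lit 0) (nat_lit 31113166587) (nat_lit 76) (nat_lit 296307708515) (nat_lit 76) (nat_lit 289337615174) (nat_lit 1) (nat_lit 4) (nat_lit 2) (nat_lit 5) (nat_lit 2) (nat_lit 4) (nat_lit 384) (nat_lit 287) (nat_lit 229))))) (XT.nd (nat_lit 234) (nat_lit 0) (nat_lit 0) (XT.nd (nat_lit 78) (nat_lit 0) (nat_lit 0) (XT.lf (nat_lit 0) (nat_lit 47890101392) (nat_lit 76) (nat_lit 312410924001) (nat_lit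 76) (nat_lit 305434813954) (nat_lit 1) (nat_lit 4) (nat_lit 2) (nat_lit 5) (nat_lit 2) (nat_lit 4) (nat_lit 385) (nat_lit 287) (nat_lit 228)) (XT.nd (nat_lit 78) (nat_lit 0) (nat_lit 0) (XT.lf (nat_lit 0) (nat_lit 65986220702) (nat_lit 76) (nat_lit 329813710415) (nat_lit 76) (nat_lit 322832029345) (nat_lit 1) (nat_lit 4) (nat_lit 2) (nat_lit 5) (nat_lit 2) (nat_lit 4) (nat_lit 386) (nat_lit 287) (nat_lit 227)) (XT.lf (nat_lit 0) (nat_lit 85508760779) (nat_lit 76) (nat_lit 348619195380) (nat_lit 76) (nat_lit 341632355954) (nat_lit 1) (nat_lit 4) (nat_lit 2) (nat_lit 5) (nat_lit 2) (nat_lit 4) (nat_lit 387) (nat_lit 287) (nat_lit 226)))) (XT.nd (nat_lit 78) (nat_lit 0) (nat_lit 0) (XT.lf (nat_lit 0) (nat_lit 106573410750) (nat_lit 76) (nat_lit 368938818807) (nat_lit 76) (nat_lit 361947203127) (nat_lit 1) (nat_lit 4) (nat_lit 2) (nat_lit 5) (nat_lit 2) (nat_lit 4) (nat_lit 388) (nat_lit 287)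 (nat_lit 225)) (XT.nd (nat_lit 78) (nat_lit 0) (nat_lit 0) (XT.lf (nat_lit 0) (nat_lit 129304998171) (nat_lit 76) (nat_lit 390892993279) (nat_lit 76) (nat_lit 383896955141) (nat_lit 1) (nat_lit 4) (nat_lit 2) (nat_lit 5) (nat_lit 2) (nat_lit 4) (nat_lit 389) (nat_lit 287) (nat_lit 224)) (XT.lf (nat_lit 0) (nat_lit 153838228744) (nat_lit 76) (nat_lit 414611817609) (nat_lit 76) (nat_lit 407611684601) (nat_lit 1) (nat_lit 4) (nat_lit 2) (nat_lit 5) (nat_lit 2) (nat_lit 4) (nat_lit 390) (nat_lit 287) (nat_lit 223))))))))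
noncomputable def xc26 : XT := (XT.nd (nat_lit 43212) (nat_lit 0) (nat_lit 76) (XT.nd (nat_lit 42276) (nat_lit 0) (nat_lit 760) (XT.nd (nat_lit 41808) (nat_lit 0) (nat_lit 1672) (XT.nd (nat_lit 156) (nat_lit 0) (nat_lit 0) (XT.nd (nat_lit 78) (nat_lit 0) (nat_lit 0) (XT.lf (nat_lit 0) (nat_lit 180318484577) (nat_lit 76) (nat_lit 440235847791) (nat_lit 76) (nat_lit 433231923238) (nat_lit 1) (nat_lit 4) (nat_lit 2) (nat_lit 5) (nat_lit 2) (nat_lit 4) (nat_lit 391) (nat_lit 287) (nat_lit 222)) (XT.lf (nat_lit 0) (nat_lit 208902685704) (nat_lit 76) (nat_lit 467916929931) (nat_lit 76) (nat_lit 460909494689) (nat_lit 1) (nat_lit 4) (nat_lit 2) (nat_lit 5) (nat_lit 2) (nat_lit 4) (nat_lit 392) (nat_lit 287) (nat_lit 221))) (XT.nd (nat_lit 41496) (nat_lit 0) (nat_lit 2736) (XT.lf (nat_lit 0) (nat_lit 239760219983) (nat_lit 76) (nat_lit 497819100072) (nat_lit 76) (nat_lit 490808414190) (nat_lit 1)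 (nat_lit 4) (nat_lit 2) (nat_lit 5) (nat_lit 2) (nat_lit 4) (nat_lit 393) (nat_lit 287) (nat_lit 220)) (XT.nd (nat_lit 78) (nat_lit 152) (nat_lit 0) (XT.lf (nat_lit 0) (nat_lit 1594819862) (nat_lit 228) (nat_lit 2418387396) (nat_lit 0) (nat_lit 1594819862) (nat_lit 39) (nat_lit 5) (nat_lit 42) (nat_lit 4) (nat_lit 39) (nat_lit 4) (nat_lit 324) (nat_lit 288) (nat_lit 288)) (XT.lf (nat_lit 0) (nat_lit 8830838855) (nat_lit 152) (nat_lit 1913012630) (nat_lit 152) (nat_lit 948200775) (nat_lit 37) (nat_lit 4) (nat_lit 39) (nat_lit 5) (nat_lit 39) (nat_lit 4) (nat_lit 325) (nat_lit 288) (nat_lit 287))))) (XT.nd (nat_lit 234) (nat_lit 456) (nat_lit 0) (XT.nd (nat_lit 78) (nat_lit 456) (nat_lit 0) (XT.lf (nat_lit 0) (nat_lit 6397870902) (nat_lit 152) (nat_lit 1179233942) (nat_lit 0) (nat_lit 4628198364) (nat_lit 35) (nat_lit 5) (nat_lit 37) (nat_lit 4) (nat_lit 35) (nat_lit 4) (nat_lit 326) (nat_lit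 288) (nat_lit 286)) (XT.nd (nat_lit 78) (nat_lit 152) (nat_lit 0) (XT.lf (nat_lit 0) (nat_lit 266859255) (nat_lit 76) (nat_lit 1110854584) (nat_lit 152) (nat_lit 11385723785) (nat_lit 31) (nat_lit 5) (nat_lit 32) (nat_lit 5) (nat_lit 33) (nat_lit 4) (nat_lit 327) (nat_lit 288) (nat_lit 285)) (XT.lf (nat_lit 0) (nat_lit 1313957909) (nat_lit 152) (nat_lit 7589776129) (nat_lit 152) (nat_lit 4459412792) (nat_lit 29) (nat_lit 4) (nat_lit 31) (nat_lit 5) (nat_lit 31) (nat_lit 4) (nat_lit 328) (nat_lit 288) (nat_lit 284)))) (XT.nd (nat_lit 78) (nat_lit 304) (nat_lit 0) (XT.lf (nat_lit 0) (nat_lit 1973903929) (nat_lit 76) (nat_lit 829755238) (nat_lit 152) (nat_lit 11210989515) (nat_lit 27) (nat_lit 5) (nat_lit 28) (nat_lit 5) (nat_lit 29) (nat_lit 4) (nat_lit 329) (nat_lit 288) (nat_lit 283)) (XT.nd (nat_lit 78) (nat_lit 152) (nat_lit 0) (XT.lf (nat_lit 0) (nat_lit 2047786639) (nat_lit 152) (nat_lit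 8414768592) (nat_lit 152) (nat_lit 4253640565) (nat_lit 25) (nat_lit 4) (nat_lit 27) (nat_lit 5) (nat_lit 27) (nat_lit 4) (nat_lit 330) (nat_lit 288) (nat_lit 282)) (XT.lf (nat_lit 0) (nat_lit 1549135178) (nat_lit 76) (nat_lit 1492558604) (nat_lit 152) (nat_lit 12435456014) (nat_lit 23) (nat_lit 5) (nat_lit 24) (nat_lit 5) (nat_lit 25) (nat_lit 4) (nat_lit 331) (nat_lit 288) (nat_lit 281)))))) (XT.nd (nat_lit 468) (nat_lit 456) (nat_lit 0) (XT.nd (nat_lit 234) (nat_lit 228) (nat_lit 0) (XT.nd (nat_lit 78) (nat_lit 152) (nat_lit 0) (XT.lf (nat_lit 0) (nat_lit 261726429) (nat_lit 76) (nat_lit 10480826680) (nat_lit 76) (nat_lit 5554501201) (nat_lit 22) (nat_lit 4) (nat_lit 23) (nat_lit 5) (nat_lit 23) (nat_lit 4) (nat_lit 332) (nat_lit 288) (nat_lit 280)) (XT.nd (nat_lit 78) (nat_lit 76) (nat_lit 0) (XT.lf (nat_lit 0) (nat_lit 1746627419) (nat_lit 152) (nat_lit 1774579370) (nat_lit 76) (nat_lit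 13663485035) (nat_lit 21) (nat_lit 5) (nat_lit 23) (nat_lit 5) (nat_lit 22) (nat_lit 4) (nat_lit 333) (nat_lit 288) (nat_lit 279)) (XT.lf (nat_lit 0) (nat_lit 9395239000) (nat_lit 152) (nat_lit 4828820670) (nat_lit 0) (nat_lit 3916915430) (nat_lit 20) (nat_lit 5) (nat_lit 22) (nat_lit 4) (nat_lit 20) (nat_lit 4) (nat_lit 334) (nat_lit 288) (nat_lit 278)))) (XT.nd (nat_lit 78) (nat_lit 152) (nat_lit 0) (XT.lf (nat_lit 0) (nat_lit 10194468705) (nat_lit 76) (nat_lit 7405323882) (nat_lit 76) (nat_lit 1576846723) (nat_lit 19) (nat_lit 4) (nat_lit 20) (nat_lit 5) (nat_lit 20) (nat_lit 4) (nat_lit 335) (nat_lit 288) (nat_lit 277)) (XT.nd (nat_lit 78) (nat_lit 0) (nat_lit 0) (XT.lf (nat_lit 0) (nat_lit 5836187859) (nat_lit 76) (nat_lit 12046923) (nat_lit 152) (nat_lit 14448179297) (nat_lit 17) (nat_lit 5) (nat_lit 18) (nat_lit 5) (nat_lit 19) (nat_lit 4) (nat_lit 336) (nat_lit 288) (nat_lit 276))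 (XT.lf (nat_lit 0) (nat_lit 13809562687) (nat_lit 152) (nat_lit 31157842) (nat_lit 0) (nat_lit 7663949632) (nat_lit 17) (nat_lit 5) (nat_lit 19) (nat_lit 4) (nat_lit 17) (nat_lit 4) (nat_lit 337) (nat_lit 288) (nat_lit 275))))) (XT.nd (nat_lit 234) (nat_lit 228) (nat_lit 0) (XT.nd (nat_lit 78) (nat_lit 152) (nat_lit 0) (XT.lf (nat_lit 0) (nat_lit 15549390048) (nat_lit 76) (nat_lit 6835862499) (nat_lit 76) (nat_lit 425522580) (nat_lit 16) (nat_lit 4) (nat_lit 17) (nat_lit 5) (nat_lit 17) (nat_lit 4) (nat_lit 338) (nat_lit 288) (nat_lit 274)) (XT.nd (nat_lit 78) (nat_lit 0) (nat_lit 0) (XT.lf (nat_lit 0) (nat_lit 7064518716) (nat_lit 152) (nat_lit 16431291303) (nat_lit 0) (nat_lit 725987872) (nat_lit 14) (nat_lit 5) (nat_lit 16) (nat_lit 4) (nat_lit 14) (nat_lit 4) (nat_lit 339) (nat_lit 288) (nat_lit 273)) (XT.lf (nat_lit 0) (nat_lit 15133715459) (nat_lit 152) (nat_lit 2032913520) (nat_lit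 0) (nat_lit 8579031645) (nat_lit 14) (nat_lit 5) (nat_lit 16) (nat_lit 4) (nat_lit 14) (nat_lit 4) (nat_lit 340) (nat_lit 288) (nat_lit 272)))) (XT.nd (nat_lit 78) (nat_lit 152) (nat_lit 0) (XT.lf (nat_lit 0) (nat_lit 13510043026) (nat_lit 76) (nat_lit 10318625025) (nat_lit 76) (nat_lit 3563799574) (nat_lit 13) (nat_lit 4) (nat_lit 14) (nat_lit 5) (nat_lit 14) (nat_lit 4) (nat_lit 341) (nat_lit 288) (nat_lit 271)) (XT.nd (nat_lit 78) (nat_lit 0) (nat_lit 0) (XT.lf (nat_lit 0) (nat_lit 731376194) (nat_lit 76) (nat_lit 3010827696) (nat_lit 152) (nat_lit 25434517207) (nat_lit 11) (nat_lit 5) (nat_lit 12) (nat_lit 5) (nat_lit 13) (nat_lit 4) (nat_lit 342) (nat_lit 288) (nat_lit 270)) (XT.lf (nat_lit 0) (nat_lit 11614795228) (nat_lit 152) (nat_lit 14638969846) (nat_lit 0) (nat_lit 4841718106) (nat_lit 11) (nat_lit 5) (nat_lit 13) (nat_lit 4) (nat_lit 11) (nat_lit 4) (nat_lit 343) (nat_lit 288)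 (nat_lit 269))))))) (XT.nd (nat_lit 936) (nat_lit 228) (nat_lit 0) (XT.nd (nat_lit 468) (nat_lit 228) (nat_lit 0) (XT.nd (nat_lit 234) (nat_lit 76) (nat_lit 0) (XT.nd (nat_lit 78) (nat_lit 152) (nat_lit 0) (XT.lf (nat_lit 0) (nat_lit 19967308224) (nat_lit 152) (nat_lit 165049380) (nat_lit 0) (nat_lit 13042917878) (nat_lit 11) (nat_lit 5) (nat_lit 13) (nat_lit 4) (nat_lit 11) (nat_lit 4) (nat_lit 344) (nat_lit 288) (nat_lit 268)) (XT.nd (nat_lit 78) (nat_lit 76) (nat_lit 0) (XT.lf (nat_lit 0) (nat_lit 15608773565) (nat_lit 76) (nat_lit 13437154928) (nat_lit 76) (nat_lit 6372659744) (nat_lit 10) (nat_lit 4) (nat_lit 11) (nat_lit 5) (nat_lit 11) (nat_lit 4) (nat_lit 345) (nat_lit 288) (nat_lit 267)) (XT.lf (nat_lit 0) (nat_lit 799779880) (nat_lit 152) (nat_lit 5554673128) (nat_lit 76) (nat_lit 31495022676) (nat_lit 9) (nat_lit 5) (nat_lit 11) (nat_lit 5) (nat_lit 10) (nat_lit 4) (nat_lit 346)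 (nat_lit 288) (nat_lit 266)))) (XT.nd (nat_lit 78) (nat_lit 0) (nat_lit 0) (XT.lf (nat_lit 0) (nat_lit 8332617893) (nat_lit 152) (nat_lit 30769945112) (nat_lit 0) (nat_lit 1366580560) (nat_lit 8) (nat_lit 5) (nat_lit 10) (nat_lit 4) (nat_lit 8) (nat_lit 4) (nat_lit 347) (nat_lit 288) (nat_lit 265)) (XT.nd (nat_lit 78) (nat_lit 0) (nat_lit 0) (XT.lf (nat_lit 0) (nat_lit 16511856174) (nat_lit 152) (nat_lit 17344469240) (nat_lit 0) (nat_lit 9439895282) (nat_lit 8) (nat_lit 5) (nat_lit 10) (nat_lit 4) (nat_lit 8) (nat_lit 4) (nat_lit 348) (nat_lit 288) (nat_lit 264)) (XT.lf (nat_lit 0) (nat_lit 25195693247) (nat_lit 152) (nat_lit 3135625444) (nat_lit 0) (nat_lit 18025654986) (nat_lit 8) (nat_lit 5) (nat_lit 10) (nat_lit 4) (nat_lit 8) (nat_lit 4) (nat_lit 349) (nat_lit 288) (nat_lit 263))))) (XT.nd (nat_lit 234) (nat_lit 152) (nat_lit 0) (XT.nd (nat_lit 78) (nat_lit 0) (nat_lit 0) (XT.lf (nat_lit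 0) (nat_lit 12335603170) (nat_lit 76) (nat_lit 22292579054) (nat_lit 76) (nat_lit 15031728414) (nat_lit 7) (nat_lit 4) (nat_lit 8) (nat_lit 5) (nat_lit 8) (nat_lit 4) (nat_lit 350) (nat_lit 288) (nat_lit 262)) (XT.nd (nat_lit 78) (nat_lit 0) (nat_lit 0) (XT.lf (nat_lit 0) (nat_lit 28899059678) (nat_lit 76) (nat_lit 15838433667) (nat_lit 76) (nat_lit 8493497492) (nat_lit 7) (nat_lit 4) (nat_lit 8) (nat_lit 5) (nat_lit 8) (nat_lit 4) (nat_lit 351) (nat_lit 288) (nat_lit 261)) (XT.lf (nat_lit 0) (nat_lit 46549219957) (nat_lit 76) (nat_lit 8983739079) (nat_lit 76) (nat_lit 1560945926) (nat_lit 7) (nat_lit 4) (nat_lit 8) (nat_lit 5) (nat_lit 8) (nat_lit 4) (nat_lit 352) (nat_lit 288) (nat_lit 260)))) (XT.nd (nat_lit 78) (nat_lit 0) (nat_lit 0) (XT.lf (nat_lit 0) (nat_lit 4161668918) (nat_lit 76) (nat_lit 1524453942) (nat_lit 152) (nat_lit 55577639545) (nat_lit 5) (nat_lit 5) (nat_lit 6) (nat_lit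 5) (nat_lit 7) (nat_lit 4) (nat_lit 353) (nat_lit 288) (nat_lit 259)) (XT.nd (nat_lit 78) (nat_lit 0) (nat_lit 0) (XT.lf (nat_lit 0) (nat_lit 13635843475) (nat_lit 152) (nat_lit 45686933017) (nat_lit 0) (nat_lit 6434288468) (nat_lit 5) (nat_lit 5) (nat_lit 7) (nat_lit 4) (nat_lit 5) (nat_lit 4) (nat_lit 354) (nat_lit 288) (nat_lit 258)) (XT.lf (nat_lit 0) (nat_lit 22143704393) (nat_lit 152) (nat_lit 33586745677) (nat_lit 0) (nat_lit 14883287120) (nat_lit 5) (nat_lit 5) (nat_lit 7) (nat_lit 4) (nat_lit 5) (nat_lit 4) (nat_lit 355) (nat_lit 288) (nat_lit 257)))))) (XT.nd (nat_lit 468) (nat_lit 152) (nat_lit 0) (XT.nd (nat_lit 234) (nat_lit 0) (nat_lit 0) (XT.nd (nat_lit 78) (nat_lit 76) (nat_lit 0) (XT.lf (nat_lit 0) (nat_lit 31236321571) (nat_lit 152) (nat_lit 20706025654) (nat_lit 0) (nat_lit 23921402200) (nat_lit 5) (nat_lit 5) (nat_lit 7) (nat_lit 4) (nat_lit 5) (nat_lit 4) (nat_lit 356)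 (nat_lit 288) (nat_lit 256)) (XT.nd (nat_lit 78) (nat_lit 76) (nat_lit 0) (XT.lf (nat_lit 0) (nat_lit 40967577184) (nat_lit 152) (nat_lit 6968442757) (nat_lit 0) (nat_lit 33602192908) (nat_lit 5) (nat_lit 5) (nat_lit 7) (nat_lit 4) (nat_lit 5) (nat_lit 4) (nat_lit 357) (nat_lit 288) (nat_lit 255)) (XT.lf (nat_lit 0) (nat_lit 7962252726) (nat_lit 76) (nat_lit 43557198286) (nat_lit 76) (nat_lit 36145087245) (nat_lit 4) (nat_lit 4) (nat_lit 5) (nat_lit 5) (nat_lit 5) (nat_lit 4) (nat_lit 358) (nat_lit 288) (nat_lit 254)))) (XT.nd (nat_lit 78) (nat_lit 0) (nat_lit 0) (XT.lf (nat_lit 0) (nat_lit 24182494217) (nat_lit 76) (nat_lit 38775859059) (nat_lit 76) (nat_lit 31320482495) (nat_lit 4) (nat_lit 4) (nat_lit 5) (nat_lit 5) (nat_lit 5) (nat_lit 4) (nat_lit 359) (nat_lit 288) (nat_lit 253)) (XT.nd (nat_lit 78) (nat_lit 0) (nat_lit 0) (XT.lf (nat_lit 0) (nat_lit 41557993478) (nat_lit 76) (nat_lit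 33681682347) (nat_lit 76) (nat_lit 26186245115) (nat_lit 4) (nat_lit 4) (nat_lit 5) (nat_lit 5) (nat_lit 5) (nat_lit 4) (nat_lit 360) (nat_lit 288) (nat_lit 252)) (XT.lf (nat_lit 0) (nat_lit 60191716429) (nat_lit 76) (nat_lit 28244480437) (nat_lit 76) (nat_lit 20711949992) (nat_lit 4) (nat_lit 4) (nat_lit 5) (nat_lit 5) (nat_lit 5) (nat_lit 4) (nat_lit 361) (nat_lit 288) (nat_lit 251))))) (XT.nd (nat_lit 234) (nat_lit 152) (nat_lit 0) (XT.nd (nat_lit 78) (nat_lit 0) (nat_lit 0) (XT.lf (nat_lit 0) (nat_lit 80194085134) (nat_lit 76) (nat_lit 22432032873) (nat_lit 76) (nat_lit 14865156862) (nat_lit 4) (nat_lit 4) (nat_lit 5) (nat_lit 5) (nat_lit 5) (nat_lit 4) (nat_lit 362) (nat_lit 288) (nat_lit 250)) (XT.nd (nat_lit 78) (nat_lit 0) (nat_lit 0) (XT.lf (nat_lit 0) (nat_lit 101683632147) (nat_lit 76) (nat_lit 16209895521) (nat_lit 76) (nat_lit 8611218060) (nat_lit 4) (nat_lit 4) (nat_lit 5)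 (nat_lit 5) (nat_lit 5) (nat_lit 4) (nat_lit 363) (nat_lit 288) (nat_lit 249)) (XT.lf (nat_lit 0) (nat_lit 124787702932) (nat_lit 76) (nat_lit 9541196457) (nat_lit 76) (nat_lit 1913073208) (nat_lit 4) (nat_lit 4) (nat_lit 5) (nat_lit 5) (nat_lit 5) (nat_lit 4) (nat_lit 364) (nat_lit 288) (nat_lit 248)))) (XT.nd (nat_lit 78) (nat_lit 0) (nat_lit 0) (XT.lf (nat_lit 0) (nat_lit 2892879764) (nat_lit 76) (nat_lit 2252616641) (nat_lit 152) (nat_lit 141608789688) (nat_lit 2) (nat_lit 5) (nat_lit 3) (nat_lit 5) (nat_lit 4) (nat_lit 4) (nat_lit 365) (nat_lit 288) (nat_lit 247)) (XT.nd (nat_lit 78) (nat_lit 0) (nat_lit 0) (XT.lf (nat_lit 0) (nat_lit 12944390274) (nat_lit 152) (nat_lit 139519996872) (nat_lit 0) (nat_lit 5629501813) (nat_lit 2) (nat_lit 5) (nat_lit 4) (nat_lit 4) (nat_lit 2) (nat_lit 4) (nat_lit 366) (nat_lit 288) (nat_lit 246)) (XT.lf (nat_lit 0) (nat_lit 21360032016) (nat_lit 152)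 (nat_lit 134958109731) (nat_lit 0) (nat_lit 14022881635) (nat_lit 2) (nat_lit 5) (nat_lit 4) (nat_lit 4) (nat_lit 2) (nat_lit 4) (nat_lit 367) (nat_lit 288) (nat_lit 245))))))))
noncomputable def xc27 : XT := (XT.nd (nat_lit 1794) (nat_lit 0) (nat_lit 0) (XT.nd (nat_lit 858) (nat_lit 76) (nat_lit 0) (XT.nd (nat_lit 390) (nat_lit 0) (nat_lit 0) (XT.nd (nat_lit 156) (nat_lit 0) (nat_lit 0) (XT.nd (nat_lit 78) (nat_lit 0) (nat_lit 0) (XT.lf (nat_lit 0) (nat_lit 30407122441) (nat_lit 152) (nat_lit 130113541843) (nat_lit 0) (nat_lit 23049359172) (nat_lit 2) (nat_lit 5) (nat_lit 4) (nat_lit 4) (nat_lit 2) (nat_lit 4) (nat_lit 368) (nat_lit 288) (nat_lit 244)) (XT.lf (nat_lit 0) (nat_lit 40139273938) (nat_lit 152) (nat_lit 124957584655) (nat_lit 0) (nat_lit 32762424660) (nat_lit 2) (nat_lit 5) (nat_lit 4) (nat_lit 4) (nat_lit 2) (nat_lit 4) (nat_lit 369) (nat_lit 288) (nat_lit 243))) (XT.nd (nat_lit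 78) (nat_lit 0) (nat_lit 0) (XT.lf (nat_lit 0) (nat_lit 50614158515) (nat_lit 152) (nat_lit 119459684350) (nat_lit 0) (nat_lit 43219637008) (nat_lit 2) (nat_lit 5) (nat_lit 4) (nat_lit 4) (nat_lit 2) (nat_lit 4) (nat_lit 370) (nat_lit 288) (nat_lit 242)) (XT.nd (nat_lit 78) (nat_lit 0) (nat_lit 0) (XT.lf (nat_lit 0) (nat_lit 61893849562) (nat_lit 152) (nat_lit 113587260775) (nat_lit 0) (nat_lit 54482964880) (nat_lit 2) (nat_lit 5) (nat_lit 4) (nat_lit 4) (nat_lit 2) (nat_lit 4) (nat_lit 371) (nat_lit 288) (nat_lit 241)) (XT.lf (nat_lit 0) (nat_lit 74045189694) (nat_lit 152) (nat_lit 107305514384) (nat_lit 0) (nat_lit 66619153923) (nat_lit 2) (nat_lit 5) (nat_lit 4) (nat_lit 4) (nat_lit 2) (nat_lit 4) (nat_lit 372) (nat_lit 288) (nat_lit 240))))) (XT.nd (nat_lit 234) (nat_lit 0) (nat_lit 0) (XT.nd (nat_lit 78) (nat_lit 0) (nat_lit 0) (XT.lf (nat_lit 0) (nat_lit 87140186850) (nat_lit 152)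 (nat_lit 100577220014) (nat_lit 0) (nat_lit 79700122294) (nat_lit 2) (nat_lit 5) (nat_lit 4) (nat_lit 4) (nat_lit 2) (nat_lit 4) (nat_lit 373) (nat_lit 288) (nat_lit 239)) (XT.nd (nat_lit 78) (nat_lit 0) (nat_lit 0) (XT.lf (nat_lit 0) (nat_lit 101256441016) (nat_lit 152) (nat_lit 93362506290) (nat_lit 0) (nat_lit 93803386843) (nat_lit 2) (nat_lit 5) (nat_lit 4) (nat_lit 4) (nat_lit 2) (nat_lit 4) (nat_lit 374) (nat_lit 288) (nat_lit 238)) (XT.lf (nat_lit 0) (nat_lit 116477604066) (nat_lit 152) (nat_lit 85618619354) (nat_lit 0) (nat_lit 109012522471) (nat_lit 2) (nat_lit 5) (nat_lit 4) (nat_lit 4) (nat_lit 2) (nat_lit 4) (nat_lit 375) (nat_lit 288) (nat_lit 237)))) (XT.nd (nat_lit 78) (nat_lit 0) (nat_lit 0) (XT.lf (nat_lit 0) (nat_lit 132893875487) (nat_lit 152) (nat_lit 77299669504) (nat_lit 0) (nat_lit 125417657389) (nat_lit 2) (nat_lit 5) (nat_lit 4) (nat_lit 4) (nat_lit 2) (nat_lit 4)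 (nat_lit 376) (nat_lit 288) (nat_lit 236)) (XT.nd (nat_lit 78) (nat_lit 0) (nat_lit 0) (XT.lf (nat_lit 0) (nat_lit 150602536885) (nat_lit 152) (nat_lit 68356359261) (nat_lit 0) (nat_lit 143116007211) (nat_lit 2) (nat_lit 5) (nat_lit 4) (nat_lit 4) (nat_lit 2) (nat_lit 4) (nat_lit 377) (nat_lit 288) (nat_lit 235)) (XT.lf (nat_lit 0) (nat_lit 169708528478) (nat_lit 152) (nat_lit 58735691230) (nat_lit 0) (nat_lit 162212451048) (nat_lit 2) (nat_lit 5) (nat_lit 4) (nat_lit 4) (nat_lit 2) (nat_lit 4) (nat_lit 378) (nat_lit 288) (nat_lit 234)))))) (XT.nd (nat_lit 468) (nat_lit 0) (nat_lit 0) (XT.nd (nat_lit 234) (nat_lit 76) (nat_lit 0) (XT.nd (nat_lit 78) (nat_lit 0) (nat_lit 0) (XT.lf (nat_lit 0) (nat_lit 190325070956) (nat_lit 152) (nat_lit 48380654044) (nat_lit 0) (nat_lit 182820153011) (nat_lit 2) (nat_lit 5) (nat_lit 4) (nat_lit 4) (nat_lit 2) (nat_lit 4) (nat_lit 379) (nat_lit 288) (nat_lit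 233)) (XT.nd (nat_lit 78) (nat_lit 0) (nat_lit 0) (XT.lf (nat_lit 0) (nat_lit 212574336422) (nat_lit 152) (nat_lit 37229884522) (nat_lit 0) (nat_lit 205061232816) (nat_lit 2) (nat_lit 5) (nat_lit 4) (nat_lit 4) (nat_lit 2) (nat_lit 4) (nat_lit 380) (nat_lit 288) (nat_lit 232)) (XT.lf (nat_lit 0) (nat_lit 236588172375) (nat_lit 152) (nat_lit 25217304029) (nat_lit 0) (nat_lit 229067489453) (nat_lit 2) (nat_lit 5) (nat_lit 4) (nat_lit 4) (nat_lit 2) (nat_lit 4) (nat_lit 381) (nat_lit 288) (nat_lit 231)))) (XT.nd (nat_lit 78) (nat_lit 76) (nat_lit 0) (XT.lf (nat_lit 0) (nat_lit 262508883030) (nat_lit 152) (nat_lit 12271726901) (nat_lit 0) (nat_lit 254981182222) (nat_lit 2) (nat_lit 5) (nat_lit 4) (nat_lit 4) (nat_lit 2) (nat_lit 4) (nat_lit 382) (nat_lit 288) (nat_lit 230)) (XT.nd (nat_lit 78) (nat_lit 0) (nat_lit 0) (XT.lf (nat_lit 0) (nat_lit 1739227532) (nat_lit 76) (nat_lit 288777999279)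 (nat_lit 76) (nat_lit 281243800429) (nat_lit 1) (nat_lit 4) (nat_lit 2) (nat_lit 5) (nat_lit 2) (nat_lit 4) (nat_lit 383) (nat_lit 288) (nat_lit 229)) (XT.lf (nat_lit 0) (nat_lit 17284469829) (nat_lit 76) (nat_lit 303682944715) (nat_lit 76) (nat_lit 296142729159) (nat_lit 1) (nat_lit 4) (nat_lit 2) (nat_lit 5) (nat_lit 2) (nat_lit 4) (nat_lit 384) (nat_lit 288) (nat_lit 228))))) (XT.nd (nat_lit 234) (nat_lit 0) (nat_lit 0) (XT.nd (nat_lit 78) (nat_lit 0) (nat_lit 0) (XT.lf (nat_lit 0) (nat_lit 34050361230) (nat_lit 76) (nat_lit 319791599474) (nat_lit 76) (nat_lit 312245812895) (nat_lit 1) (nat_lit 4) (nat_lit 2) (nat_lit 5) (nat_lit 2) (nat_lit 4) (nat_lit 385) (nat_lit 288) (nat_lit 227)) (XT.nd (nat_lit 78) (nat_lit 0) (nat_lit 0) (XT.lf (nat_lit 0) (nat_lit 52136255166) (nat_lit 76) (nat_lit 337199422253) (nat_lit 76) (nat_lit 329648477318) (nat_lit 1) (nat_lit 4) (nat_lit 2) (nat_lit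 5) (nat_lit 2) (nat_lit 4) (nat_lit 386) (nat_lit 288) (nat_lit 226)) (XT.lf (nat_lit 0) (nat_lit 71649327305) (nat_lit 76) (nat_lit 356009570518) (nat_lit 76) (nat_lit 348453849328) (nat_lit 1) (nat_lit 4) (nat_lit 2) (nat_lit 5) (nat_lit 2) (nat_lit 4) (nat_lit 387) (nat_lit 288) (nat_lit 225)))) (XT.nd (nat_lit 78) (nat_lit 0) (nat_lit 0) (XT.lf (nat_lit 0) (nat_lit 92705210667) (nat_lit 76) (nat_lit 376333511816) (nat_lit 76) (nat_lit 368773368168) (nat_lit 1) (nat_lit 4) (nat_lit 2) (nat_lit 5) (nat_lit 2) (nat_lit 4) (nat_lit 388) (nat_lit 288) (nat_lit 224)) (XT.nd (nat_lit 78) (nat_lit 0) (nat_lit 0) (XT.lf (nat_lit 0) (nat_lit 115428680856) (nat_lit 76) (nat_lit 398291684317) (nat_lit 76) (nat_lit 390727445800) (nat_lit 1) (nat_lit 4) (nat_lit 2) (nat_lit 5) (nat_lit 2) (nat_lit 4) (nat_lit 389) (nat_lit 288) (nat_lit 223)) (XT.lf (nat_lit 0) (nat_lit 139954395474) (nat_lit 76)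 (nat_lit 422014210524) (nat_lit 76) (nat_lit 414446180462) (nat_lit 1) (nat_lit 4) (nat_lit 2) (nat_lit 5) (nat_lit 2) (nat_lit 4) (nat_lit 390) (nat_lit 288) (nat_lit 222))))))) (XT.nd (nat_lit 42198) (nat_lit 0) (nat_lit 836) (XT.nd (nat_lit 41730) (nat_lit 0) (nat_lit 1976) (XT.nd (nat_lit 41496) (nat_lit 0) (nat_lit 2888) (XT.nd (nat_lit 78) (nat_lit 0) (nat_lit 0) (XT.lf (nat_lit 0) (nat_lit 166427692089) (nat_lit 76) (nat_lit 447641668372) (nat_lit 76) (nat_lit 440070127620) (nat_lit 1) (nat_lit 4) (nat_lit 2) (nat_lit 5) (nat_lit 2) (nat_lit 4) (nat_lit 391) (nat_lit 288) (nat_lit 221)) (XT.nd (nat_lit 78) (nat_lit 0) (nat_lit 0) (XT.lf (nat_lit 0) (nat_lit 195005449496) (nat_lit 76) (nat_lit 475325924276) (nat_lit 76) (nat_lit 467751132885) (nat_lit 1) (nat_lit 4) (nat_lit 2) (nat_lit 5) (nat_lit 2) (nat_lit 4) (nat_lit 392) (nat_lit 288) (nat_lit 220)) (XT.lf (nat_lit 0) (nat_lit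 225857017369) (nat_lit 76) (nat_lit 505231033086) (nat_lit 76) (nat_lit 497653231845) (nat_lit 1) (nat_lit 4) (nat_lit 2) (nat_lit 5) (nat_lit 2) (nat_lit 4) (nat_lit 393) (nat_lit 288) (nat_lit 219)))) (XT.nd (nat_lit 78) (nat_lit 380) (nat_lit 0) (XT.lf (nat_lit 0) (nat_lit 353263065) (nat_lit 228) (nat_lit 4476330747) (nat_lit 0) (nat_lit 353263065) (nat_lit 44) (nat_lit 5) (nat_lit 47) (nat_lit 4) (nat_lit 44) (nat_lit 4) (nat_lit 322) (nat_lit 289) (nat_lit 289)) (XT.nd (nat_lit 78) (nat_lit 228) (nat_lit 0) (XT.lf (nat_lit 0) (nat_lit 3780042158) (nat_lit 152) (nat_lit 4045996369) (nat_lit 152) (nat_lit 2951899726) (nat_lit 42) (nat_lit 4) (nat_lit 44) (nat_lit 5) (nat_lit 44) (nat_lit 4) (nat_lit 323) (nat_lit 289) (nat_lit 288)) (XT.lf (nat_lit 0) (nat_lit 4023961509) (nat_lit 228) (nat_lit 5185430834) (nat_lit 0) (nat_lit 2017152851) (nat_lit 39) (nat_lit 5) (nat_lit 42) (nat_lit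 4) (nat_lit 39) (nat_lit 4) (nat_lit 324) (nat_lit 289) (nat_lit 287))))) (XT.nd (nat_lit 234) (nat_lit 380) (nat_lit 0) (XT.nd (nat_lit 78) (nat_lit 380) (nat_lit 0) (XT.lf (nat_lit 0) (nat_lit 8137150796) (nat_lit 152) (nat_lit 3237900375) (nat_lit 152) (nat_lit 337747407) (nat_lit 37) (nat_lit 4) (nat_lit 39) (nat_lit 5) (nat_lit 39) (nat_lit 4) (nat_lit 325) (nat_lit 289) (nat_lit 286)) (XT.nd (nat_lit 78) (nat_lit 228) (nat_lit 0) (XT.lf (nat_lit 0) (nat_lit 6763252968) (nat_lit 152) (nat_lit 2260263251) (nat_lit 0) (nat_lit 3213420943) (nat_lit 35) (nat_lit 5) (nat_lit 37) (nat_lit 4) (nat_lit 35) (nat_lit 4) (nat_lit 326) (nat_lit 289) (nat_lit 285)) (XT.lf (nat_lit 0) (nat_lit 1491997708) (nat_lit 228) (nat_lit 1220664110) (nat_lit 76) (nat_lit 10092665522) (nat_lit 32) (nat_lit 5) (nat_lit 35) (nat_lit 5) (nat_lit 33) (nat_lit 4) (nat_lit 327) (nat_lit 289) (nat_lit 284)))) (XT.nd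 (nat_lit 78) (nat_lit 304) (nat_lit 0) (XT.lf (nat_lit 0) (nat_lit 8772510597) (nat_lit 152) (nat_lit 591081368) (nat_lit 0) (nat_lit 4053791416) (nat_lit 31) (nat_lit 5) (nat_lit 33) (nat_lit 4) (nat_lit 31) (nat_lit 4) (nat_lit 328) (nat_lit 289) (nat_lit 283)) (XT.nd (nat_lit 78) (nat_lit 76) (nat_lit 0) (XT.lf (nat_lit 0) (nat_lit 2409369075) (nat_lit 228) (nat_lit 375099639) (nat_lit 76) (nat_lit 11295362620) (nat_lit 28) (nat_lit 5) (nat_lit 31) (nat_lit 5) (nat_lit 29) (nat_lit 4) (nat_lit 329) (nat_lit 289) (nat_lit 282)) (XT.lf (nat_lit 0) (nat_lit 9831620309) (nat_lit 152) (nat_lit 716481522) (nat_lit 0) (nat_lit 4245167216) (nat_lit 27) (nat_lit 5) (nat_lit 29) (nat_lit 4) (nat_lit 27) (nat_lit 4) (nat_lit 330) (nat_lit 289) (nat_lit 281)))))) (XT.nd (nat_lit 468) (nat_lit 380) (nat_lit 0) (XT.nd (nat_lit 234) (nat_lit 304) (nat_lit 0) (XT.nd (nat_lit 78) (nat_lit 228) (nat_lit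 0) (XT.lf (nat_lit 0) (nat_lit 2157660344) (nat_lit 228) (nat_lit 1649554062) (nat_lit 76) (nat_lit 11757547099) (nat_lit 24) (nat_lit 5) (nat_lit 27) (nat_lit 5) (nat_lit 25) (nat_lit 4) (nat_lit 331) (nat_lit 289) (nat_lit 280)) (XT.nd (nat_lit 78) (nat_lit 152) (nat_lit 0) (XT.lf (nat_lit 0) (nat_lit 9634173138) (nat_lit 152) (nat_lit 3340003648) (nat_lit 0) (nat_lit 3421754209) (nat_lit 23) (nat_lit 5) (nat_lit 25) (nat_lit 4) (nat_lit 23) (nat_lit 4) (nat_lit 332) (nat_lit 289) (nat_lit 279)) (XT.lf (nat_lit 0) (nat_lit 371016900) (nat_lit 152) (nat_lit 5848908451) (nat_lit 76) (nat_lit 11074977289) (nat_lit 21) (nat_lit 5) (nat_lit 23) (nat_lit 5) (nat_lit 22) (nat_lit 4) (nat_lit 333) (nat_lit 289) (nat_lit 278)))) (XT.nd (nat_lit 78) (nat_lit 228) (nat_lit 0) (XT.lf (nat_lit 0) (nat_lit 7763632455) (nat_lit 152) (nat_lit 9381668634) (nat_lit 0) (nat_lit 1118723535) (nat_lit 20) (nat_lit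 5) (nat_lit 22) (nat_lit 4) (nat_lit 20) (nat_lit 4) (nat_lit 334) (nat_lit 289) (nat_lit 277)) (XT.nd (nat_lit 78) (nat_lit 152) (nat_lit 0) (XT.lf (nat_lit 0) (nat_lit 5229451353) (nat_lit 76) (nat_lit 10525041680) (nat_lit 76) (nat_lit 3555916475) (nat_lit 19) (nat_lit 4) (nat_lit 20) (nat_lit 5) (nat_lit 20) (nat_lit 4) (nat_lit 335) (nat_lit 289) (nat_lit 276)) (XT.lf (nat_lit 0) (nat_lit 345927639) (nat_lit 76) (nat_lit 3368829974) (nat_lit 152) (nat_lit 16727890872) (nat_lit 17) (nat_lit 5) (nat_lit 18) (nat_lit 5) (nat_lit 19) (nat_lit 4) (nat_lit 336) (nat_lit 289) (nat_lit 275))))) (XT.nd (nat_lit 234) (nat_lit 152) (nat_lit 0) (XT.nd (nat_lit 78) (nat_lit 228) (nat_lit 0) (XT.lf (nat_lit 0) (nat_lit 11496024341) (nat_lit 152) (nat_lit 5855782338) (nat_lit 0) (nat_lit 4308130363) (nat_lit 17) (nat_lit 5) (nat_lit 19) (nat_lit 4) (nat_lit 17) (nat_lit 4) (nat_lit 337) (nat_lit 289)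 (nat_lit 274)) (XT.nd (nat_lit 78) (nat_lit 152) (nat_lit 0) (XT.lf (nat_lit 0) (nat_lit 9302092018) (nat_lit 76) (nat_lit 10553887697) (nat_lit 76) (nat_lit 3120876252) (nat_lit 16) (nat_lit 4) (nat_lit 17) (nat_lit 5) (nat_lit 17) (nat_lit 4) (nat_lit 338) (nat_lit 289) (nat_lit 273)) (XT.lf (nat_lit 0) (nat_lit 996814250) (nat_lit 76) (nat_lit 3226008341) (nat_lit 152) (nat_lit 20178814789) (nat_lit 14) (nat_lit 5) (nat_lit 15) (nat_lit 5) (nat_lit 16) (nat_lit 4) (nat_lit 339) (nat_lit 289) (nat_lit 272)))) (XT.nd (nat_lit 78) (nat_lit 152) (nat_lit 0) (XT.lf (nat_lit 0) (nat_lit 12130734262) (nat_lit 152) (nat_lit 9167471204) (nat_lit 0) (nat_lit 4635381137) (nat_lit 14) (nat_lit 5) (nat_lit 16) (nat_lit 4) (nat_lit 14) (nat_lit 4) (nat_lit 340) (nat_lit 289) (nat_lit 271)) (XT.nd (nat_lit 78) (nat_lit 76) (nat_lit 0) (XT.lf (nat_lit 0) (nat_lit 5937378633) (nat_lit 76) (nat_lit 14667375820)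 (nat_lit 76) (nat_lit 6986706363) (nat_lit 13) (nat_lit 4) (nat_lit 14) (nat_lit 5) (nat_lit 14) (nat_lit 4) (nat_lit 341) (nat_lit 289) (nat_lit 270)) (XT.lf (nat_lit 0) (nat_lit 317789873) (nat_lit 152) (nat_lit 7200789412) (nat_lit 76) (nat_lit 21865378300) (nat_lit 12) (nat_lit 5) (nat_lit 14) (nat_lit 5) (nat_lit 13) (nat_lit 4) (nat_lit 342) (nat_lit 289) (nat_lit 269))))))))
noncomputable def xc28 : XT := (XT.nd (nat_lit 1794) (nat_lit 228) (nat_lit 0) (XT.nd (nat_lit 858) (nat_lit 152) (nat_lit 0) (XT.nd (nat_lit 390) (nat_lit 228) (nat_lit 0) (XT.nd (nat_lit 156) (nat_lit 152) (nat_lit 0) (XT.nd (nat_lit 78) (nat_lit 0) (nat_lit 0) (XT.lf (nat_lit 0) (nat_lit 7905488720) (nat_lit 152) (nat_lit 23135658463) (nat_lit 0) (nat_lit 275833922) (nat_lit 11) (nat_lit 5) (nat_lit 13) (nat_lit 4) (nat_lit 11) (nat_lit 4) (nat_lit 343) (nat_lit 289) (nat_lit 268)) (XT.lf (nat_lit 0) (nat_lit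 16168679377) (nat_lit 152) (nat_lit 8833655973) (nat_lit 0) (nat_lit 8398919742) (nat_lit 11) (nat_lit 5) (nat_lit 13) (nat_lit 4) (nat_lit 11) (nat_lit 4) (nat_lit 344) (nat_lit 289) (nat_lit 267))) (XT.nd (nat_lit 78) (nat_lit 76) (nat_lit 0) (XT.lf (nat_lit 0) (nat_lit 6489097060) (nat_lit 76) (nat_lit 18533113007) (nat_lit 76) (nat_lit 10633626672) (nat_lit 10) (nat_lit 4) (nat_lit 11) (nat_lit 5) (nat_lit 11) (nat_lit 4) (nat_lit 345) (nat_lit 289) (nat_lit 266)) (XT.nd (nat_lit 78) (nat_lit 76) (nat_lit 0) (XT.lf (nat_lit 0) (nat_lit 23036405313) (nat_lit 76) (nat_lit 11537264347) (nat_lit 76) (nat_lit 3517660696) (nat_lit 10) (nat_lit 4) (nat_lit 11) (nat_lit 5) (nat_lit 11) (nat_lit 4) (nat_lit 346) (nat_lit 289) (nat_lit 265)) (XT.lf (nat_lit 0) (nat_lit 3879611193) (nat_lit 152) (nat_lit 177620440) (nat_lit 76) (nat_lit 36668932062) (nat_lit 9) (nat_lit 5) (nat_lit 11) (nat_lit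 5) (nat_lit 10) (nat_lit 4) (nat_lit 347) (nat_lit 289) (nat_lit 264))))) (XT.nd (nat_lit 234) (nat_lit 76) (nat_lit 0) (XT.nd (nat_lit 78) (nat_lit 76) (nat_lit 0) (XT.lf (nat_lit 0) (nat_lit 11920602392) (nat_lit 152) (nat_lit 27560677983) (nat_lit 0) (nat_lit 4078883702) (nat_lit 8) (nat_lit 5) (nat_lit 10) (nat_lit 4) (nat_lit 8) (nat_lit 4) (nat_lit 348) (nat_lit 289) (nat_lit 263)) (XT.nd (nat_lit 78) (nat_lit 76) (nat_lit 0) (XT.lf (nat_lit 0) (nat_lit 20537781582) (nat_lit 152) (nat_lit 13481227949) (nat_lit 0) (nat_lit 12605250512) (nat_lit 8) (nat_lit 5) (nat_lit 10) (nat_lit 4) (nat_lit 8) (nat_lit 4) (nat_lit 349) (nat_lit 289) (nat_lit 262)) (XT.lf (nat_lit 0) (nat_lit 1524157859) (nat_lit 76) (nat_lit 28215595477) (nat_lit 76) (nat_lit 20198978872) (nat_lit 7) (nat_lit 4) (nat_lit 8) (nat_lit 5) (nat_lit 8) (nat_lit 4) (nat_lit 350) (nat_lit 289) (nat_lit 261)))) (XT.nd (nat_lit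 78) (nat_lit 76) (nat_lit 0) (XT.lf (nat_lit 0) (nat_lit 17973012083) (nat_lit 76) (nat_lit 21817114720) (nat_lit 76) (nat_lit 13722641137) (nat_lit 7) (nat_lit 4) (nat_lit 8) (nat_lit 5) (nat_lit 8) (nat_lit 4) (nat_lit 351) (nat_lit 289) (nat_lit 260)) (XT.nd (nat_lit 78) (nat_lit 76) (nat_lit 0) (XT.lf (nat_lit 0) (nat_lit 35517059137) (nat_lit 76) (nat_lit 15013961455) (nat_lit 76) (nat_lit 6847398078) (nat_lit 7) (nat_lit 4) (nat_lit 8) (nat_lit 5) (nat_lit 8) (nat_lit 4) (nat_lit 352) (nat_lit 289) (nat_lit 259)) (XT.lf (nat_lit 0) (nat_lit 452529807) (nat_lit 152) (nat_lit 7305627082) (nat_lit 76) (nat_lit 53800070125) (nat_lit 6) (nat_lit 5) (nat_lit 8) (nat_lit 5) (nat_lit 7) (nat_lit 4) (nat_lit 353) (nat_lit 289) (nat_lit 258)))))) (XT.nd (nat_lit 468) (nat_lit 0) (nat_lit 0) (XT.nd (nat_lit 234) (nat_lit 76) (nat_lit 0) (XT.nd (nat_lit 78) (nat_lit 0) (nat_lit 0) (XT.lf (nat_lit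 0) (nat_lit 8135380458) (nat_lit 152) (nat_lit 57694231611) (nat_lit 0) (nat_lit 235267538) (nat_lit 5) (nat_lit 5) (nat_lit 7) (nat_lit 4) (nat_lit 5) (nat_lit 4) (nat_lit 354) (nat_lit 289) (nat_lit 257)) (XT.nd (nat_lit 78) (nat_lit 0) (nat_lit 0) (XT.lf (nat_lit 0) (nat_lit 16597148773) (nat_lit 152) (nat_lit 45684179994) (nat_lit 0) (nat_lit 8642533755) (nat_lit 5) (nat_lit 5) (nat_lit 7) (nat_lit 4) (nat_lit 5) (nat_lit 4) (nat_lit 355) (nat_lit 289) (nat_lit 256)) (XT.lf (nat_lit 0) (nat_lit 25647087615) (nat_lit 152) (nat_lit 32886918975) (nat_lit 0) (nat_lit 17642007691) (nat_lit 5) (nat_lit 5) (nat_lit 7) (nat_lit 4) (nat_lit 5) (nat_lit 4) (nat_lit 356) (nat_lit 289) (nat_lit 255)))) (XT.nd (nat_lit 78) (nat_lit 76) (nat_lit 0) (XT.lf (nat_lit 0) (nat_lit 35338826251) (nat_lit 152) (nat_lit 19226612932) (nat_lit 0) (nat_lit 27287019563) (nat_lit 5) (nat_lit 5) (nat_lit 7) (nat_lit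 4) (nat_lit 5) (nat_lit 4) (nat_lit 357) (nat_lit 289) (nat_lit 254)) (XT.nd (nat_lit 78) (nat_lit 76) (nat_lit 0) (XT.lf (nat_lit 0) (nat_lit 45729797205) (nat_lit 152) (nat_lit 4622311905) (nat_lit 0) (nat_lit 37634724995) (nat_lit 5) (nat_lit 5) (nat_lit 7) (nat_lit 4) (nat_lit 5) (nat_lit 4) (nat_lit 358) (nat_lit 289) (nat_lit 253)) (XT.lf (nat_lit 0) (nat_lit 11376652026) (nat_lit 76) (nat_lit 45682545998) (nat_lit 76) (nat_lit 37547413118) (nat_lit 4) (nat_lit 4) (nat_lit 5) (nat_lit 5) (nat_lit 5) (nat_lit 4) (nat_lit 359) (nat_lit 289) (nat_lit 252))))) (XT.nd (nat_lit 234) (nat_lit 0) (nat_lit 0) (XT.nd (nat_lit 78) (nat_lit 0) (nat_lit 0) (XT.lf (nat_lit 0) (nat_lit 28688778090) (nat_lit 76) (nat_lit 40619383199) (nat_lit 76) (nat_lit 32447157107) (nat_lit 4) (nat_lit 4) (nat_lit 5) (nat_lit 5) (nat_lit 5) (nat_lit 4) (nat_lit 360) (nat_lit 289) (nat_lit 251)) (XT.nd (nat_lit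 78) (nat_lit 0) (nat_lit 0) (XT.lf (nat_lit 0) (nat_lit 47263822155) (nat_lit 76) (nat_lit 35210897875) (nat_lit 76) (nat_lit 27004326216) (nat_lit 4) (nat_lit 4) (nat_lit 5) (nat_lit 5) (nat_lit 5) (nat_lit 4) (nat_lit 361) (nat_lit 289) (nat_lit 250)) (XT.lf (nat_lit 0) (nat_lit 67211858558) (nat_lit 76) (nat_lit 29425039743) (nat_lit 76) (nat_lit 21186666633) (nat_lit 4) (nat_lit 4) (nat_lit 5) (nat_lit 5) (nat_lit 5) (nat_lit 4) (nat_lit 362) (nat_lit 289) (nat_lit 249)))) (XT.nd (nat_lit 78) (nat_lit 0) (nat_lit 0) (XT.lf (nat_lit 0) (nat_lit 88651097884) (nat_lit 76) (nat_lit 23227522235) (nat_lit 76) (nat_lit 14959703338) (nat_lit 4) (nat_lit 4) (nat_lit 5) (nat_lit 5) (nat_lit 5) (nat_lit 4) (nat_lit 363) (nat_lit 289) (nat_lit 248)) (XT.nd (nat_lit 78) (nat_lit 0) (nat_lit 0) (XT.lf (nat_lit 0) (nat_lit 111708587477) (nat_lit 76) (nat_lit 16581619323) (nat_lit 76) (nat_lit 8286535807)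 (nat_lit 4) (nat_lit 4) (nat_lit 5) (nat_lit 5) (nat_lit 5) (nat_lit 4) (nat_lit 364) (nat_lit 289) (nat_lit 247)) (XT.lf (nat_lit 0) (nat_lit 136520964313) (nat_lit 76) (nat_lit 9447947877) (nat_lit 76) (nat_lit 1127619345) (nat_lit 4) (nat_lit 4) (nat_lit 5) (nat_lit 5) (nat_lit 5) (nat_lit 4) (nat_lit 365) (nat_lit 289) (nat_lit 246))))))) (XT.nd (nat_lit 936) (nat_lit 76) (nat_lit 0) (XT.nd (nat_lit 468) (nat_lit 0) (nat_lit 0) (XT.nd (nat_lit 234) (nat_lit 0) (nat_lit 0) (XT.nd (nat_lit 78) (nat_lit 0) (nat_lit 0) (XT.lf (nat_lit 0) (nat_lit 4827327910) (nat_lit 76) (nat_lit 1597565483) (nat_lit 152) (nat_lit 152026247347) (nat_lit 2) (nat_lit 5) (nat_lit 3) (nat_lit 5) (nat_lit 4) (nat_lit 4) (nat_lit 366) (nat_lit 289) (nat_lit 245)) (XT.nd (nat_lit 78) (nat_lit 0) (nat_lit 0) (XT.lf (nat_lit 0) (nat_lit 14795495230) (nat_lit 152) (nat_lit 149076536207) (nat_lit 0) (nat_lit 6828498011)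 (nat_lit 2) (nat_lit 5) (nat_lit 4) (nat_lit 4) (nat_lit 2) (nat_lit 4) (nat_lit 367) (nat_lit 289) (nat_lit 244)) (XT.lf (nat_lit 0) (nat_lit 23823976924) (nat_lit 152) (nat_lit 144268591459) (nat_lit 0) (nat_lit 15837893696) (nat_lit 2) (nat_lit 5) (nat_lit 4) (nat_lit 4) (nat_lit 2) (nat_lit 4) (nat_lit 368) (nat_lit 289) (nat_lit 243)))) (XT.nd (nat_lit 78) (nat_lit 0) (nat_lit 0) (XT.lf (nat_lit 0) (nat_lit 33538898113) (nat_lit 152) (nat_lit 139146544588) (nat_lit 0) (nat_lit 25535142656) (nat_lit 2) (nat_lit 5) (nat_lit 4) (nat_lit 4) (nat_lit 2) (nat_lit 4) (nat_lit 369) (nat_lit 289) (nat_lit 242)) (XT.nd (nat_lit 78) (nat_lit 0) (nat_lit 0) (XT.lf (nat_lit 0) (nat_lit 43997828702) (nat_lit 152) (nat_lit 133680042722) (nat_lit 0) (nat_lit 35977710069) (nat_lit 2) (nat_lit 5) (nat_lit 4) (nat_lit 4) (nat_lit 2) (nat_lit 4) (nat_lit 370) (nat_lit 289) (nat_lit 241)) (XT.lf (nat_lit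 0) (nat_lit 55262747537) (nat_lit 152) (nat_lit 127836691777) (nat_lit 0) (nat_lit 47227477816) (nat_lit 2) (nat_lit 5) (nat_lit 4) (nat_lit 4) (nat_lit 2) (nat_lit 4) (nat_lit 371) (nat_lit 289) (nat_lit 240))))) (XT.nd (nat_lit 234) (nat_lit 0) (nat_lit 0) (XT.nd (nat_lit 78) (nat_lit 0) (nat_lit 0) (XT.lf (nat_lit 0) (nat_lit 67400409695) (nat_lit 152) (nat_lit 121581864488) (nat_lit 0) (nat_lit 59351111188) (nat_lit 2) (nat_lit 5) (nat_lit 4) (nat_lit 4) (nat_lit 2) (nat_lit 4) (nat_lit 372) (nat_lit 289) (nat_lit 239)) (XT.nd (nat_lit 78) (nat_lit 0) (nat_lit 0) (XT.lf (nat_lit 0) (nat_lit 80482742062) (nat_lit 152) (nat_lit 114878495213) (nat_lit 0) (nat_lit 72420453938) (nat_lit 2) (nat_lit 5) (nat_lit 4) (nat_lit 4) (nat_lit 2) (nat_lit 4) (nat_lit 373) (nat_lit 289) (nat_lit 238)) (XT.lf (nat_lit 0) (nat_lit 94587269569) (nat_lit 152) (nat_lit 107686860280) (nat_lit 0) (nat_lit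 86512954023) (nat_lit 2) (nat_lit 5) (nat_lit 4) (nat_lit 4) (nat_lit 2) (nat_lit 4) (nat_lit 374) (nat_lit 289) (nat_lit 237)))) (XT.nd (nat_lit 78) (nat_lit 0) (nat_lit 0) (XT.lf (nat_lit 0) (nat_lit 109797574603) (nat_lit 152) (nat_lit 99964342594) (nat_lit 0) (nat_lit 101712122555) (nat_lit 2) (nat_lit 5) (nat_lit 4) (nat_lit 4) (nat_lit 2) (nat_lit 4) (nat_lit 375) (nat_lit 289) (nat_lit 236)) (XT.nd (nat_lit 78) (nat_lit 0) (nat_lit 0) (XT.lf (nat_lit 0) (nat_lit 126203792305) (nat_lit 152) (nat_lit 91665179088) (nat_lit 0) (nat_lit 118108028680) (nat_lit 2) (nat_lit 5) (nat_lit 4) (nat_lit 4) (nat_lit 2) (nat_lit 4) (nat_lit 376) (nat_lit 289) (nat_lit 235)) (XT.lf (nat_lit 0) (nat_lit 143903144704) (nat_lit 152) (nat_lit 82740189533) (nat_lit 0) (nat_lit 135797833324) (nat_lit 2) (nat_lit 5) (nat_lit 4) (nat_lit 4) (nat_lit 2) (nat_lit 4) (nat_lit 377) (nat_lit 289) (nat_lit 234))))))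 (XT.nd (nat_lit 468) (nat_lit 76) (nat_lit 0) (XT.nd (nat_lit 234) (nat_lit 0) (nat_lit 0) (XT.nd (nat_lit 78) (nat_lit 0) (nat_lit 0) (XT.lf (nat_lit 0) (nat_lit 163000516854) (nat_lit 152) (nat_lit 73136485102) (nat_lit 0) (nat_lit 154886364959) (nat_lit 2) (nat_lit 5) (nat_lit 4) (nat_lit 4) (nat_lit 2) (nat_lit 4) (nat_lit 378) (nat_lit 289) (nat_lit 233)) (XT.nd (nat_lit 78) (nat_lit 0) (nat_lit 0) (XT.lf (nat_lit 0) (nat_lit 183609078365) (nat_lit 152) (nat_lit 62797154954) (nat_lit 0) (nat_lit 175486740809) (nat_lit 2) (nat_lit 5) (nat_lit 4) (nat_lit 4) (nat_lit 2) (nat_lit 4) (nat_lit 379) (nat_lit 289) (nat_lit 232)) (XT.lf (nat_lit 0) (nat_lit 205850954048) (nat_lit 152) (nat_lit 51660928985) (nat_lit 0) (nat_lit 197721037175) (nat_lit 2) (nat_lit 5) (nat_lit 4) (nat_lit 4) (nat_lit 2) (nat_lit 4) (nat_lit 380) (nat_lit 289) (nat_lit 231)))) (XT.nd (nat_lit 78) (nat_lit 0) (nat_lit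 0) (XT.lf (nat_lit 0) (nat_lit 229857947609) (nat_lit 152) (nat_lit 39661814744) (nat_lit 0) (nat_lit 221721012851) (nat_lit 2) (nat_lit 5) (nat_lit 4) (nat_lit 4) (nat_lit 2) (nat_lit 4) (nat_lit 381) (nat_lit 289) (nat_lit 230)) (XT.nd (nat_lit 78) (nat_lit 0) (nat_lit 0) (XT.lf (nat_lit 0) (nat_lit 255772322715) (nat_lit 152) (nat_lit 26728706369) (nat_lit 0) (nat_lit 247628889915) (nat_lit 2) (nat_lit 5) (nat_lit 4) (nat_lit 4) (nat_lit 2) (nat_lit 4) (nat_lit 382) (nat_lit 289) (nat_lit 229)) (XT.lf (nat_lit 0) (nat_lit 283747646033) (nat_lit 152) (nat_lit 12784963218) (nat_lit 0) (nat_lit 275598196527) (nat_lit 2) (nat_lit 5) (nat_lit 4) (nat_lit 4) (nat_lit 2) (nat_lit 4) (nat_lit 383) (nat_lit 289) (nat_lit 228))))) (XT.nd (nat_lit 234) (nat_lit 0) (nat_lit 0) (XT.nd (nat_lit 78) (nat_lit 0) (nat_lit 0) (XT.lf (nat_lit 0) (nat_lit 2326507051) (nat_lit 76) (nat_lit 311659513500) (nat_lit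 76) (nat_lit 303504492970) (nat_lit 1) (nat_lit 4) (nat_lit 2) (nat_lit 5) (nat_lit 2) (nat_lit 4) (nat_lit 384) (nat_lit 289) (nat_lit 227)) (XT.nd (nat_lit 78) (nat_lit 0) (nat_lit 0) (XT.lf (nat_lit 0) (nat_lit 19082173079) (nat_lit 76) (nat_lit 327773204624) (nat_lit 76) (nat_lit 319613025739) (nat_lit 1) (nat_lit 4) (nat_lit 2) (nat_lit 5) (nat_lit 2) (nat_lit 4) (nat_lit 385) (nat_lit 289) (nat_lit 226)) (XT.lf (nat_lit 0) (nat_lit 37158599076) (nat_lit 76) (nat_lit 345185690702) (nat_lit 76) (nat_lit 337020735562) (nat_lit 1) (nat_lit 4) (nat_lit 2) (nat_lit 5) (nat_lit 2) (nat_lit 4) (nat_lit 386) (nat_lit 289) (nat_lit 225)))) (XT.nd (nat_lit 78) (nat_lit 0) (nat_lit 0) (XT.lf (nat_lit 0) (nat_lit 56662904605) (nat_lit 76) (nat_lit 364000156839) (nat_lit 76) (nat_lit 355830779240) (nat_lit 1) (nat_lit 4) (nat_lit 2) (nat_lit 5) (nat_lit 2) (nat_lit 4) (nat_lit 387) (nat_lit 289)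 (nat_lit 224)) (XT.nd (nat_lit 78) (nat_lit 0) (nat_lit 0) (XT.lf (nat_lit 0) (nat_lit 77710670735) (nat_lit 76) (nat_lit 384328096165) (nat_lit 76) (nat_lit 376154623698) (nat_lit 1) (nat_lit 4) (nat_lit 2) (nat_lit 5) (nat_lit 2) (nat_lit 4) (nat_lit 388) (nat_lit 289) (nat_lit 223)) (XT.lf (nat_lit 0) (nat_lit 100426624970) (nat_lit 76) (nat_lit 406289970544) (nat_lit 76) (nat_lit 398112706532) (nat_lit 1) (nat_lit 4) (nat_lit 2) (nat_lit 5) (nat_lit 2) (nat_lit 4) (nat_lit 389) (nat_lit 289) (nat_lit 222))))))))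
noncomputable def xc29 : XT := (XT.nd (nat_lit 42900) (nat_lit 0) (nat_lit 228) (XT.nd (nat_lit 41964) (nat_lit 0) (nat_lit 1140) (XT.nd (nat_lit 41496) (nat_lit 0) (nat_lit 2584) (XT.nd (nat_lit 156) (nat_lit 0) (nat_lit 0) (XT.nd (nat_lit 78) (nat_lit 0) (nat_lit 0) (XT.lf (nat_lit 0) (nat_lit 124945380370) (nat_lit 76) (nat_lit 430015924417) (nat_lit 76) (nat_lit 421835149714) (nat_lit 1) (nat_lit 4) (nat_lit 2) (nat_lit 5) (nat_lit 2) (nat_lit 4) (nat_lit 390) (nat_lit 289) (nat_lit 221)) (XT.lf (nat_lit 0) (nat_lit 151412233266) (nat_lit 76) (nat_lit 455646556028) (nat_lit 76) (nat_lit 447462530687) (nat_lit 1) (nat_lit 4) (nat_lit 2) (nat_lit 5) (nat_lit 2) (nat_lit 4) (nat_lit 391) (nat_lit 289) (nat_lit 220))) (XT.nd (nat_lit 78) (nat_lit 0) (nat_lit 0) (XT.lf (nat_lit 0) (nat_lit 179984024266) (nat_lit 76) (nat_lit 483333750602) (nat_lit 76) (nat_lit 475146715410) (nat_lit 1) (nat_lit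 4) (nat_lit 2) (nat_lit 5) (nat_lit 2) (nat_lit 4) (nat_lit 392) (nat_lit 289) (nat_lit 219)) (XT.nd (nat_lit 41184) (nat_lit 0) (nat_lit 3952) (XT.lf (nat_lit 0) (nat_lit 210830067687) (nat_lit 76) (nat_lit 513241580404) (nat_lit 76) (nat_lit 505051758313) (nat_lit 1) (nat_lit 4) (nat_lit 2) (nat_lit 5) (nat_lit 2) (nat_lit 4) (nat_lit 393) (nat_lit 289) (nat_lit 218)) (XT.lf (nat_lit 0) (nat_lit 3193827792) (nat_lit 228) (nat_lit 808672472) (nat_lit 228) (nat_lit 808672472) (nat_lit 53) (nat_lit 4) (nat_lit 56) (nat_lit 5) (nat_lit 56) (nat_lit 4) (nat_lit 320) (nat_lit 290) (nat_lit 290))))) (XT.nd (nat_lit 234) (nat_lit 532) (nat_lit 0) (XT.nd (nat_lit 78) (nat_lit 608) (nat_lit 0) (XT.lf (nat_lit 0) (nat_lit 5073140304) (nat_lit 228) (nat_lit 1077279924) (nat_lit 0) (nat_lit 3832434710) (nat_lit 50) (nat_lit 5) (nat_lit 53) (nat_lit 4) (nat_lit 50) (nat_lit 4) (nat_lit 321) (nat_lit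 290) (nat_lit 289)) (XT.nd (nat_lit 78) (nat_lit 152) (nat_lit 0) (XT.lf (nat_lit 0) (nat_lit 1076046113) (nat_lit 152) (nat_lit 614467634) (nat_lit 228) (nat_lit 8685203412) (nat_lit 44) (nat_lit 5) (nat_lit 46) (nat_lit 5) (nat_lit 47) (nat_lit 4) (nat_lit 322) (nat_lit 290) (nat_lit 288)) (XT.lf (nat_lit 0) (nat_lit 3108717368) (nat_lit 152) (nat_lit 5489354026) (nat_lit 152) (nat_lit 2200580560) (nat_lit 42) (nat_lit 4) (nat_lit 44) (nat_lit 5) (nat_lit 44) (nat_lit 4) (nat_lit 323) (nat_lit 290) (nat_lit 287)))) (XT.nd (nat_lit 78) (nat_lit 304) (nat_lit 0) (XT.lf (nat_lit 0) (nat_lit 4525062333) (nat_lit 228) (nat_lit 6233465068) (nat_lit 0) (nat_lit 499552818) (nat_lit 39) (nat_lit 5) (nat_lit 42) (nat_lit 4) (nat_lit 39) (nat_lit 4) (nat_lit 324) (nat_lit 290) (nat_lit 286)) (XT.nd (nat_lit 78) (nat_lit 152) (nat_lit 0) (XT.lf (nat_lit 0) (nat_lit 6745663932) (nat_lit 152) (nat_lit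 4930715197) (nat_lit 152) (nat_lit 78035024) (nat_lit 37) (nat_lit 4) (nat_lit 39) (nat_lit 5) (nat_lit 39) (nat_lit 4) (nat_lit 325) (nat_lit 290) (nat_lit 285)) (XT.lf (nat_lit 0) (nat_lit 6785900484) (nat_lit 152) (nat_lit 4069095251) (nat_lit 0) (nat_lit 1434872932) (nat_lit 35) (nat_lit 5) (nat_lit 37) (nat_lit 4) (nat_lit 35) (nat_lit 4) (nat_lit 326) (nat_lit 290) (nat_lit 284)))))) (XT.nd (nat_lit 468) (nat_lit 532) (nat_lit 0) (XT.nd (nat_lit 234) (nat_lit 380) (nat_lit 0) (XT.nd (nat_lit 78) (nat_lit 304) (nat_lit 0) (XT.lf (nat_lit 0) (nat_lit 1259980006) (nat_lit 228) (nat_lit 3443464268) (nat_lit 76) (nat_lit 8165044831) (nat_lit 32) (nat_lit 5) (nat_lit 35) (nat_lit 5) (nat_lit 33) (nat_lit 4) (nat_lit 327) (nat_lit 290) (nat_lit 283)) (XT.nd (nat_lit 78) (nat_lit 228) (nat_lit 0) (XT.lf (nat_lit 0) (nat_lit 8306330044) (nat_lit 152) (nat_lit 3214697184) (nat_lit 0) (nat_lit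 1971292237) (nat_lit 31) (nat_lit 5) (nat_lit 33) (nat_lit 4) (nat_lit 31) (nat_lit 4) (nat_lit 328) (nat_lit 290) (nat_lit 282)) (XT.lf (nat_lit 0) (nat_lit 1681211502) (nat_lit 228) (nat_lit 3440023728) (nat_lit 76) (nat_lit 9044230965) (nat_lit 28) (nat_lit 5) (nat_lit 31) (nat_lit 5) (nat_lit 29) (nat_lit 4) (nat_lit 329) (nat_lit 290) (nat_lit 281)))) (XT.nd (nat_lit 78) (nat_lit 304) (nat_lit 0) (XT.lf (nat_lit 0) (nat_lit 8861174039) (nat_lit 152) (nat_lit 4213607364) (nat_lit 0) (nat_lit 1816290973) (nat_lit 27) (nat_lit 5) (nat_lit 29) (nat_lit 4) (nat_lit 27) (nat_lit 4) (nat_lit 330) (nat_lit 290) (nat_lit 280)) (XT.nd (nat_lit 78) (nat_lit 76) (nat_lit 0) (XT.lf (nat_lit 0) (nat_lit 915573316) (nat_lit 228) (nat_lit 5618239874) (nat_lit 76) (nat_lit 9140034616) (nat_lit 24) (nat_lit 5) (nat_lit 27) (nat_lit 5) (nat_lit 25) (nat_lit 4) (nat_lit 331) (nat_lit 290) (nat_lit 279))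 (XT.lf (nat_lit 0) (nat_lit 8139011287) (nat_lit 152) (nat_lit 7775019298) (nat_lit 0) (nat_lit 603684572) (nat_lit 23) (nat_lit 5) (nat_lit 25) (nat_lit 4) (nat_lit 23) (nat_lit 4) (nat_lit 332) (nat_lit 290) (nat_lit 278))))) (XT.nd (nat_lit 234) (nat_lit 304) (nat_lit 0) (XT.nd (nat_lit 78) (nat_lit 152) (nat_lit 0) (XT.lf (nat_lit 0) (nat_lit 6615759863) (nat_lit 76) (nat_lit 9357382052) (nat_lit 76) (nat_lit 1454394070) (nat_lit 22) (nat_lit 4) (nat_lit 23) (nat_lit 5) (nat_lit 23) (nat_lit 4) (nat_lit 333) (nat_lit 290) (nat_lit 277)) (XT.nd (nat_lit 78) (nat_lit 0) (nat_lit 0) (XT.lf (nat_lit 0) (nat_lit 3549517620) (nat_lit 76) (nat_lit 2203132478) (nat_lit 152) (nat_lit 12656785307) (nat_lit 20) (nat_lit 5) (nat_lit 21) (nat_lit 5) (nat_lit 22) (nat_lit 4) (nat_lit 334) (nat_lit 290) (nat_lit 276)) (XT.lf (nat_lit 0) (nat_lit 13501379090) (nat_lit 152) (nat_lit 616273814) (nat_lit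 0) (nat_lit 5350307319) (nat_lit 20) (nat_lit 5) (nat_lit 22) (nat_lit 4) (nat_lit 20) (nat_lit 4) (nat_lit 335) (nat_lit 290) (nat_lit 275)))) (XT.nd (nat_lit 78) (nat_lit 152) (nat_lit 0) (XT.lf (nat_lit 0) (nat_lit 1243493994) (nat_lit 152) (nat_lit 5879872289) (nat_lit 76) (nat_lit 13485631957) (nat_lit 18) (nat_lit 5) (nat_lit 20) (nat_lit 5) (nat_lit 19) (nat_lit 4) (nat_lit 336) (nat_lit 290) (nat_lit 274)) (XT.nd (nat_lit 78) (nat_lit 76) (nat_lit 0) (XT.lf (nat_lit 0) (nat_lit 8751553882) (nat_lit 152) (nat_lit 12609636436) (nat_lit 0) (nat_lit 478784055) (nat_lit 17) (nat_lit 5) (nat_lit 19) (nat_lit 4) (nat_lit 17) (nat_lit 4) (nat_lit 337) (nat_lit 290) (nat_lit 273)) (XT.lf (nat_lit 0) (nat_lit 2111883202) (nat_lit 76) (nat_lit 14777925396) (nat_lit 76) (nat_lit 6278194952) (nat_lit 16) (nat_lit 4) (nat_lit 17) (nat_lit 5) (nat_lit 17) (nat_lit 4) (nat_lit 338) (nat_lit 290)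 (nat_lit 272))))))) (XT.nd (nat_lit 936) (nat_lit 304) (nat_lit 0) (XT.nd (nat_lit 468) (nat_lit 228) (nat_lit 0) (XT.nd (nat_lit 234) (nat_lit 228) (nat_lit 0) (XT.nd (nat_lit 78) (nat_lit 76) (nat_lit 0) (XT.lf (nat_lit 0) (nat_lit 1044846053) (nat_lit 152) (nat_lit 6567944755) (nat_lit 76) (nat_lit 16988566710) (nat_lit 15) (nat_lit 5) (nat_lit 17) (nat_lit 5) (nat_lit 16) (nat_lit 4) (nat_lit 339) (nat_lit 290) (nat_lit 271)) (XT.nd (nat_lit 78) (nat_lit 0) (nat_lit 0) (XT.lf (nat_lit 0) (nat_lit 8673894642) (nat_lit 152) (nat_lit 17279920548) (nat_lit 0) (nat_lit 193455297) (nat_lit 14) (nat_lit 5) (nat_lit 16) (nat_lit 4) (nat_lit 14) (nat_lit 4) (nat_lit 340) (nat_lit 290) (nat_lit 270)) (XT.lf (nat_lit 0) (nat_lit 16960121372) (nat_lit 152) (nat_lit 2546339235) (nat_lit 0) (nat_lit 8308092831) (nat_lit 14) (nat_lit 5) (nat_lit 16) (nat_lit 4) (nat_lit 14) (nat_lit 4) (nat_lit 341)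 (nat_lit 290) (nat_lit 269)))) (XT.nd (nat_lit 78) (nat_lit 152) (nat_lit 0) (XT.lf (nat_lit 0) (nat_lit 13447279693) (nat_lit 76) (nat_lit 12488771611) (nat_lit 76) (nat_lit 3677864185) (nat_lit 13) (nat_lit 4) (nat_lit 14) (nat_lit 5) (nat_lit 14) (nat_lit 4) (nat_lit 342) (nat_lit 290) (nat_lit 268)) (XT.nd (nat_lit 78) (nat_lit 76) (nat_lit 0) (XT.lf (nat_lit 0) (nat_lit 3809866409) (nat_lit 152) (nat_lit 1147791365) (nat_lit 76) (nat_lit 26603052034) (nat_lit 12) (nat_lit 5) (nat_lit 14) (nat_lit 5) (nat_lit 13) (nat_lit 4) (nat_lit 343) (nat_lit 290) (nat_lit 267)) (XT.lf (nat_lit 0) (nat_lit 11894132012) (nat_lit 152) (nat_lit 18526852380) (nat_lit 0) (nat_lit 3232960069) (nat_lit 11) (nat_lit 5) (nat_lit 13) (nat_lit 4) (nat_lit 11) (nat_lit 4) (nat_lit 344) (nat_lit 290) (nat_lit 266))))) (XT.nd (nat_lit 234) (nat_lit 152) (nat_lit 0) (XT.nd (nat_lit 78) (nat_lit 76) (nat_lit 0)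 (XT.lf (nat_lit 0) (nat_lit 20569770203) (nat_lit 152) (nat_lit 3559182932) (nat_lit 0) (nat_lit 11788480945) (nat_lit 11) (nat_lit 5) (nat_lit 13) (nat_lit 4) (nat_lit 11) (nat_lit 4) (nat_lit 345) (nat_lit 290) (nat_lit 265)) (XT.nd (nat_lit 78) (nat_lit 0) (nat_lit 0) (XT.lf (nat_lit 0) (nat_lit 12729456179) (nat_lit 76) (nat_lit 17261259293) (nat_lit 76) (nat_lit 8368750298) (nat_lit 10) (nat_lit 4) (nat_lit 11) (nat_lit 5) (nat_lit 11) (nat_lit 4) (nat_lit 346) (nat_lit 290) (nat_lit 264)) (XT.lf (nat_lit 0) (nat_lit 30176754177) (nat_lit 76) (nat_lit 9909779982) (nat_lit 76) (nat_lit 914289749) (nat_lit 10) (nat_lit 4) (nat_lit 11) (nat_lit 5) (nat_lit 11) (nat_lit 4) (nat_lit 347) (nat_lit 290) (nat_lit 263)))) (XT.nd (nat_lit 78) (nat_lit 0) (nat_lit 0) (XT.lf (nat_lit 0) (nat_lit 4957784964) (nat_lit 76) (nat_lit 1895204399) (nat_lit 152) (nat_lit 36997707502) (nat_lit 8) (nat_lit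 5) (nat_lit 9) (nat_lit 5) (nat_lit 10) (nat_lit 4) (nat_lit 348) (nat_lit 290) (nat_lit 262)) (XT.nd (nat_lit 78) (nat_lit 0) (nat_lit 0) (XT.lf (nat_lit 0) (nat_lit 15378858838) (nat_lit 152) (nat_lit 24903681452) (nat_lit 0) (nat_lit 6636827368) (nat_lit 8) (nat_lit 5) (nat_lit 10) (nat_lit 4) (nat_lit 8) (nat_lit 4) (nat_lit 349) (nat_lit 290) (nat_lit 261)) (XT.lf (nat_lit 0) (nat_lit 24499885826) (nat_lit 152) (nat_lit 10058012509) (nat_lit 0) (nat_lit 15679997378) (nat_lit 8) (nat_lit 5) (nat_lit 10) (nat_lit 4) (nat_lit 8) (nat_lit 4) (nat_lit 350) (nat_lit 290) (nat_lit 260)))))) (XT.nd (nat_lit 468) (nat_lit 76) (nat_lit 0) (XT.nd (nat_lit 234) (nat_lit 152) (nat_lit 0) (XT.nd (nat_lit 78) (nat_lit 0) (nat_lit 0) (XT.lf (nat_lit 0) (nat_lit 5952165173) (nat_lit 76) (nat_lit 28381296210) (nat_lit 76) (nat_lit 19489317968) (nat_lit 7) (nat_lit 4) (nat_lit 8) (nat_lit 5) (nat_lit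 8) (nat_lit 4) (nat_lit 351) (nat_lit 290) (nat_lit 259)) (XT.nd (nat_lit 78) (nat_lit 0) (nat_lit 0) (XT.lf (nat_lit 0) (nat_lit 23397959240) (nat_lit 76) (nat_lit 21625866393) (nat_lit 76) (nat_lit 12667138341) (nat_lit 7) (nat_lit 4) (nat_lit 8) (nat_lit 5) (nat_lit 8) (nat_lit 4) (nat_lit 352) (nat_lit 290) (nat_lit 258)) (XT.lf (nat_lit 0) (nat_lit 42050188859) (nat_lit 76) (nat_lit 14421914015) (nat_lit 76) (nat_lit 5401380585) (nat_lit 7) (nat_lit 4) (nat_lit 8) (nat_lit 5) (nat_lit 8) (nat_lit 4) (nat_lit 353) (nat_lit 290) (nat_lit 257)))) (XT.nd (nat_lit 78) (nat_lit 76) (nat_lit 0) (XT.lf (nat_lit 0) (nat_lit 2275764588) (nat_lit 152) (nat_lit 4412443226) (nat_lit 76) (nat_lit 59705079997) (nat_lit 6) (nat_lit 5) (nat_lit 8) (nat_lit 5) (nat_lit 7) (nat_lit 4) (nat_lit 354) (nat_lit 290) (nat_lit 256)) (XT.nd (nat_lit 78) (nat_lit 0) (nat_lit 0) (XT.lf (nat_lit 0) (nat_lit 10518097765)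 (nat_lit 152) (nat_lit 58923003784) (nat_lit 0) (nat_lit 1822146542) (nat_lit 5) (nat_lit 5) (nat_lit 7) (nat_lit 4) (nat_lit 5) (nat_lit 4) (nat_lit 355) (nat_lit 290) (nat_lit 255)) (XT.lf (nat_lit 0) (nat_lit 19528519629) (nat_lit 152) (nat_lit 46203019619) (nat_lit 0) (nat_lit 10785841642) (nat_lit 5) (nat_lit 5) (nat_lit 7) (nat_lit 4) (nat_lit 5) (nat_lit 4) (nat_lit 356) (nat_lit 290) (nat_lit 254))))) (XT.nd (nat_lit 234) (nat_lit 76) (nat_lit 0) (XT.nd (nat_lit 78) (nat_lit 0) (nat_lit 0) (XT.lf (nat_lit 0) (nat_lit 29183668471) (nat_lit 152) (nat_lit 32614266220) (nat_lit 0) (nat_lit 20397724961) (nat_lit 5) (nat_lit 5) (nat_lit 7) (nat_lit 4) (nat_lit 5) (nat_lit 4) (nat_lit 357) (nat_lit 290) (nat_lit 253)) (XT.nd (nat_lit 78) (nat_lit 0) (nat_lit 0) (XT.lf (nat_lit 0) (nat_lit 39540759987) (nat_lit 152) (nat_lit 18076217641) (nat_lit 0) (nat_lit 30714755807) (nat_lit 5) (nat_lit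 5) (nat_lit 7) (nat_lit 4) (nat_lit 5) (nat_lit 4) (nat_lit 358) (nat_lit 290) (nat_lit 252)) (XT.lf (nat_lit 0) (nat_lit 50661169533) (nat_lit 152) (nat_lit 2502722481) (nat_lit 0) (nat_lit 41798072142) (nat_lit 5) (nat_lit 5) (nat_lit 7) (nat_lit 4) (nat_lit 5) (nat_lit 4) (nat_lit 359) (nat_lit 290) (nat_lit 251)))) (XT.nd (nat_lit 78) (nat_lit 0) (nat_lit 0) (XT.lf (nat_lit 0) (nat_lit 14667973388) (nat_lit 76) (nat_lit 48171830618) (nat_lit 76) (nat_lit 39274387660) (nat_lit 4) (nat_lit 4) (nat_lit 5) (nat_lit 5) (nat_lit 5) (nat_lit 4) (nat_lit 360) (nat_lit 290) (nat_lit 250)) (XT.nd (nat_lit 78) (nat_lit 0) (nat_lit 0) (XT.lf (nat_lit 0) (nat_lit 33188685151) (nat_lit 76) (nat_lit 42789934726) (nat_lit 76) (nat_lit 33860690317) (nat_lit 4) (nat_lit 4) (nat_lit 5) (nat_lit 5) (nat_lit 5) (nat_lit 4) (nat_lit 361) (nat_lit 290) (nat_lit 249)) (XT.lf (nat_lit 0) (nat_lit 53086413867)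 (nat_lit 76) (nat_lit 37028696437) (nat_lit 76) (nat_lit 28070006241) (nat_lit 4) (nat_lit 4) (nat_lit 5) (nat_lit 5) (nat_lit 5) (nat_lit 4) (nat_lit 362) (nat_lit 290) (nat_lit 248))))))))
noncomputable def xc30 : XT := (XT.nd (nat_lit 1794) (nat_lit 0) (nat_lit 0) (XT.nd (nat_lit 858) (nat_lit 76) (nat_lit 0) (XT.nd (nat_lit 390) (nat_lit 0) (nat_lit 0) (XT.nd (nat_lit 156) (nat_lit 152) (nat_lit 0) (XT.nd (nat_lit 78) (nat_lit 0) (nat_lit 0) (XT.lf (nat_lit 0) (nat_lit 74479072001) (nat_lit 76) (nat_lit 30853975082) (nat_lit 76) (nat_lit 21868020267) (nat_lit 4) (nat_lit 4) (nat_lit 5) (nat_lit 5) (nat_lit 5) (nat_lit 4) (nat_lit 363) (nat_lit 290) (nat_lit 247)) (XT.lf (nat_lit 0) (nat_lit 97493430862) (nat_lit 76) (nat_lit 24229179717) (nat_lit 76) (nat_lit 15217979886) (nat_lit 4) (nat_lit 4) (nat_lit 5) (nat_lit 5) (nat_lit 5) (nat_lit 4) (nat_lit 364) (nat_lit 290) (nat_lit 246)))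 (XT.nd (nat_lit 78) (nat_lit 152) (nat_lit 0) (XT.lf (nat_lit 0) (nat_lit 122265871834) (nat_lit 76) (nat_lit 17115052297) (nat_lit 76) (nat_lit 8080477450) (nat_lit 4) (nat_lit 4) (nat_lit 5) (nat_lit 5) (nat_lit 5) (nat_lit 4) (nat_lit 365) (nat_lit 290) (nat_lit 245)) (XT.nd (nat_lit 78) (nat_lit 152) (nat_lit 0) (XT.lf (nat_lit 0) (nat_lit 148943194568) (nat_lit 76) (nat_lit 9469435030) (nat_lit 76) (nat_lit 413216650) (nat_lit 4) (nat_lit 4) (nat_lit 5) (nat_lit 5) (nat_lit 5) (nat_lit 4) (nat_lit 366) (nat_lit 290) (nat_lit 244)) (XT.lf (nat_lit 0) (nat_lit 6673577384) (nat_lit 76) (nat_lit 1009269480) (nat_lit 152) (nat_lit 163407100979) (nat_lit 2) (nat_lit 5) (nat_lit 3) (nat_lit 5) (nat_lit 4) (nat_lit 4) (nat_lit 367) (nat_lit 290) (nat_lit 243))))) (XT.nd (nat_lit 234) (nat_lit 0) (nat_lit 0) (XT.nd (nat_lit 78) (nat_lit 0) (nat_lit 0) (XT.lf (nat_lit 0) (nat_lit 16678340725)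 (nat_lit 152) (nat_lit 159626578502) (nat_lit 0) (nat_lit 8016612602) (nat_lit 2) (nat_lit 5) (nat_lit 4) (nat_lit 4) (nat_lit 2) (nat_lit 4) (nat_lit 368) (nat_lit 290) (nat_lit 242)) (XT.nd (nat_lit 78) (nat_lit 0) (nat_lit 0) (XT.lf (nat_lit 0) (nat_lit 26377307926) (nat_lit 152) (nat_lit 154535930070) (nat_lit 0) (nat_lit 17699216627) (nat_lit 2) (nat_lit 5) (nat_lit 4) (nat_lit 4) (nat_lit 2) (nat_lit 4) (nat_lit 369) (nat_lit 290) (nat_lit 241)) (XT.lf (nat_lit 0) (nat_lit 36821466303) (nat_lit 152) (nat_lit 149098500834) (nat_lit 0) (nat_lit 28128223916) (nat_lit 2) (nat_lit 5) (nat_lit 4) (nat_lit 4) (nat_lit 2) (nat_lit 4) (nat_lit 370) (nat_lit 290) (nat_lit 240)))) (XT.nd (nat_lit 78) (nat_lit 0) (nat_lit 0) (XT.lf (nat_lit 0) (nat_lit 48072707165) (nat_lit 152) (nat_lit 143282068991) (nat_lit 0) (nat_lit 39365435992) (nat_lit 2) (nat_lit 5) (nat_lit 4) (nat_lit 4) (nat_lit 2)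 (nat_lit 4) (nat_lit 371) (nat_lit 290) (nat_lit 239)) (XT.nd (nat_lit 78) (nat_lit 0) (nat_lit 0) (XT.lf (nat_lit 0) (nat_lit 60197704533) (nat_lit 152) (nat_lit 137052166797) (nat_lit 0) (nat_lit 51477443743) (nat_lit 2) (nat_lit 5) (nat_lit 4) (nat_lit 4) (nat_lit 2) (nat_lit 4) (nat_lit 372) (nat_lit 290) (nat_lit 238)) (XT.lf (nat_lit 0) (nat_lit 73268310241) (nat_lit 152) (nat_lit 130371876312) (nat_lit 0) (nat_lit 64536022030) (nat_lit 2) (nat_lit 5) (nat_lit 4) (nat_lit 4) (nat_lit 2) (nat_lit 4) (nat_lit 373) (nat_lit 290) (nat_lit 237)))))) (XT.nd (nat_lit 468) (nat_lit 76) (nat_lit 0) (XT.nd (nat_lit 234) (nat_lit 0) (nat_lit 0) (XT.nd (nat_lit 78) (nat_lit 0) (nat_lit 0) (XT.lf (nat_lit 0) (nat_lit 87361979733) (nat_lit 152) (nat_lit 123201610630) (nat_lit 0) (nat_lit 78618555019) (nat_lit 2) (nat_lit 5) (nat_lit 4) (nat_lit 4) (nat_lit 2) (nat_lit 4) (nat_lit 374) (nat_lit 290)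 (nat_lit 236)) (XT.nd (nat_lit 78) (nat_lit 0) (nat_lit 0) (XT.lf (nat_lit 0) (nat_lit 102562231048) (nat_lit 152) (nat_lit 115498879287) (nat_lit 0) (nat_lit 93808494757) (nat_lit 2) (nat_lit 5) (nat_lit 4) (nat_lit 4) (nat_lit 2) (nat_lit 4) (nat_lit 375) (nat_lit 290) (nat_lit 235)) (XT.lf (nat_lit 0) (nat_lit 118959139750) (nat_lit 152) (nat_lit 107218036469) (nat_lit 0) (nat_lit 110195855704) (nat_lit 2) (nat_lit 5) (nat_lit 4) (nat_lit 4) (nat_lit 2) (nat_lit 4) (nat_lit 376) (nat_lit 290) (nat_lit 234)))) (XT.nd (nat_lit 78) (nat_lit 0) (nat_lit 0) (XT.lf (nat_lit 0) (nat_lit 136649872707) (nat_lit 152) (nat_lit 98310010515) (nat_lit 0) (nat_lit 127877748146) (nat_lit 2) (nat_lit 5) (nat_lit 4) (nat_lit 4) (nat_lit 2) (nat_lit 4) (nat_lit 377) (nat_lit 290) (nat_lit 233)) (XT.nd (nat_lit 78) (nat_lit 0) (nat_lit 0) (XT.lf (nat_lit 0) (nat_lit 155739263889) (nat_lit 152) (nat_lit 88722013121)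 (nat_lit 0) (nat_lit 146958953667) (nat_lit 2) (nat_lit 5) (nat_lit 4) (nat_lit 4) (nat_lit 2) (nat_lit 4) (nat_lit 378) (nat_lit 290) (nat_lit 232)) (XT.lf (nat_lit 0) (nat_lit 176340435617) (nat_lit 152) (nat_lit 78397226526) (nat_lit 0) (nat_lit 167552546079) (nat_lit 2) (nat_lit 5) (nat_lit 4) (nat_lit 4) (nat_lit 2) (nat_lit 4) (nat_lit 379) (nat_lit 290) (nat_lit 231))))) (XT.nd (nat_lit 234) (nat_lit 76) (nat_lit 0) (XT.nd (nat_lit 78) (nat_lit 0) (nat_lit 0) (XT.lf (nat_lit 0) (nat_lit 198575468908) (nat_lit 152) (nat_lit 67274466810) (nat_lit 0) (nat_lit 189780561484) (nat_lit 2) (nat_lit 5) (nat_lit 4) (nat_lit 4) (nat_lit 2) (nat_lit 4) (nat_lit 380) (nat_lit 290) (nat_lit 230)) (XT.nd (nat_lit 78) (nat_lit 0) (nat_lit 0) (XT.lf (nat_lit 0) (nat_lit 222576126921) (nat_lit 152) (nat_lit 55287821322) (nat_lit 0) (nat_lit 213774721455) (nat_lit 2) (nat_lit 5) (nat_lit 4) (nat_lit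 4) (nat_lit 2) (nat_lit 4) (nat_lit 381) (nat_lit 290) (nat_lit 229)) (XT.lf (nat_lit 0) (nat_lit 248484635779) (nat_lit 152) (nat_lit 42366258088) (nat_lit 0) (nat_lit 239677213607) (nat_lit 2) (nat_lit 5) (nat_lit 4) (nat_lit 4) (nat_lit 2) (nat_lit 4) (nat_lit 382) (nat_lit 290) (nat_lit 228)))) (XT.nd (nat_lit 78) (nat_lit 76) (nat_lit 0) (XT.lf (nat_lit 0) (nat_lit 276454527385) (nat_lit 152) (nat_lit 28433204883) (nat_lit 0) (nat_lit 267641534189) (nat_lit 2) (nat_lit 5) (nat_lit 4) (nat_lit 4) (nat_lit 2) (nat_lit 4) (nat_lit 383) (nat_lit 290) (nat_lit 227)) (XT.nd (nat_lit 78) (nat_lit 76) (nat_lit 0) (XT.lf (nat_lit 0) (nat_lit 306651549246) (nat_lit 152) (nat_lit 13406095466) (nat_lit 0) (nat_lit 297833397695) (nat_lit 2) (nat_lit 5) (nat_lit 4) (nat_lit 4) (nat_lit 2) (nat_lit 4) (nat_lit 384) (nat_lit 290) (nat_lit 226)) (XT.lf (nat_lit 0) (nat_lit 2896836563) (nat_lit 76) (nat_lit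 336403037850) (nat_lit 76) (nat_lit 327580110044) (nat_lit 1) (nat_lit 4) (nat_lit 2) (nat_lit 5) (nat_lit 2) (nat_lit 4) (nat_lit 385) (nat_lit 290) (nat_lit 225))))))) (XT.nd (nat_lit 41886) (nat_lit 0) (nat_lit 1596) (XT.nd (nat_lit 468) (nat_lit 0) (nat_lit 0) (XT.nd (nat_lit 234) (nat_lit 0) (nat_lit 0) (XT.nd (nat_lit 78) (nat_lit 0) (nat_lit 0) (XT.lf (nat_lit 0) (nat_lit 20964495950) (nat_lit 76) (nat_lit 353819841799) (nat_lit 76) (nat_lit 344992491535) (nat_lit 1) (nat_lit 4) (nat_lit 2) (nat_lit 5) (nat_lit 2) (nat_lit 4) (nat_lit 386) (nat_lit 290) (nat_lit 224)) (XT.nd (nat_lit 78) (nat_lit 0) (nat_lit 0) (XT.lf (nat_lit 0) (nat_lit 40460684248) (nat_lit 76) (nat_lit 372638305964) (nat_lit 76) (nat_lit 363806860831) (nat_lit 1) (nat_lit 4) (nat_lit 2) (nat_lit 5) (nat_lit 2) (nat_lit 4) (nat_lit 387) (nat_lit 290) (nat_lit 223)) (XT.lf (nat_lit 0) (nat_lit 61500934423) (nat_lit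 76) (nat_lit 392969947168) (nat_lit 76) (nat_lit 384134710490) (nat_lit 1) (nat_lit 4) (nat_lit 2) (nat_lit 5) (nat_lit 2) (nat_lit 4) (nat_lit 388) (nat_lit 290) (nat_lit 222)))) (XT.nd (nat_lit 78) (nat_lit 0) (nat_lit 0) (XT.lf (nat_lit 0) (nat_lit 84209929440) (nat_lit 76) (nat_lit 414935249212) (nat_lit 76) (nat_lit 406096501844) (nat_lit 1) (nat_lit 4) (nat_lit 2) (nat_lit 5) (nat_lit 2) (nat_lit 4) (nat_lit 389) (nat_lit 290) (nat_lit 221)) (XT.nd (nat_lit 78) (nat_lit 0) (nat_lit 0) (XT.lf (nat_lit 0) (nat_lit 108722241121) (nat_lit 76) (nat_lit 438664376849) (nat_lit 76) (nat_lit 429822378842) (nat_lit 1) (nat_lit 4) (nat_lit 2) (nat_lit 5) (nat_lit 2) (nat_lit 4) (nat_lit 390) (nat_lit 290) (nat_lit 220)) (XT.lf (nat_lit 0) (nat_lit 135183127609) (nat_lit 76) (nat_lit 464297947130) (nat_lit 76) (nat_lit 455452939272) (nat_lit 1) (nat_lit 4) (nat_lit 2) (nat_lit 5) (nat_lit 2) (nat_lit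 4) (nat_lit 391) (nat_lit 290) (nat_lit 219))))) (XT.nd (nat_lit 41184) (nat_lit 0) (nat_lit 3724) (XT.nd (nat_lit 78) (nat_lit 0) (nat_lit 0) (XT.lf (nat_lit 0) (nat_lit 163749394158) (nat_lit 76) (nat_lit 491987862696) (nat_lit 76) (nat_lit 483140067939) (nat_lit 1) (nat_lit 4) (nat_lit 2) (nat_lit 5) (nat_lit 2) (nat_lit 4) (nat_lit 392) (nat_lit 290) (nat_lit 218)) (XT.nd (nat_lit 41028) (nat_lit 0) (nat_lit 4484) (XT.lf (nat_lit 0) (nat_lit 194590322346) (nat_lit 76) (nat_lit 521898211933) (nat_lit 76) (nat_lit 513047836715) (nat_lit 1) (nat_lit 4) (nat_lit 2) (nat_lit 5) (nat_lit 2) (nat_lit 4) (nat_lit 393) (nat_lit 290) (nat_lit 217)) (XT.lf (nat_lit 0) (nat_lit 772970585) (nat_lit 228) (nat_lit 1857602065) (nat_lit 228) (nat_lit 1857602065) (nat_lit 60) (nat_lit 4) (nat_lit 63) (nat_lit 5) (nat_lit 63) (nat_lit 4) (nat_lit 318) (nat_lit 291) (nat_lit 291)))) (XT.nd (nat_lit 78)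 (nat_lit 456) (nat_lit 0) (XT.lf (nat_lit 0) (nat_lit 2616338625) (nat_lit 304) (nat_lit 5464704868) (nat_lit 0) (nat_lit 1209378482) (nat_lit 56) (nat_lit 5) (nat_lit 60) (nat_lit 4) (nat_lit 56) (nat_lit 4) (nat_lit 319) (nat_lit 291) (nat_lit 290)) (XT.nd (nat_lit 78) (nat_lit 228) (nat_lit 0) (XT.lf (nat_lit 0) (nat_lit 6087398738) (nat_lit 228) (nat_lit 3127327122) (nat_lit 228) (nat_lit 417626105) (nat_lit 53) (nat_lit 4) (nat_lit 56) (nat_lit 5) (nat_lit 56) (nat_lit 4) (nat_lit 320) (nat_lit 291) (nat_lit 289)) (XT.lf (nat_lit 0) (nat_lit 6013852057) (nat_lit 228) (nat_lit 1704847949) (nat_lit 0) (nat_lit 2284382946) (nat_lit 50) (nat_lit 5) (nat_lit 53) (nat_lit 4) (nat_lit 50) (nat_lit 4) (nat_lit 321) (nat_lit 291) (nat_lit 288)))))) (XT.nd (nat_lit 468) (nat_lit 760) (nat_lit 0) (XT.nd (nat_lit 234) (nat_lit 532) (nat_lit 0) (XT.nd (nat_lit 78) (nat_lit 380) (nat_lit 0) (XT.lf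 (nat_lit 0) (nat_lit 65604041) (nat_lit 152) (nat_lit 2304531676) (nat_lit 228) (nat_lit 8035773479) (nat_lit 44) (nat_lit 5) (nat_lit 46) (nat_lit 5) (nat_lit 47) (nat_lit 4) (nat_lit 322) (nat_lit 291) (nat_lit 287)) (XT.nd (nat_lit 78) (nat_lit 228) (nat_lit 0) (XT.lf (nat_lit 0) (nat_lit 1762089569) (nat_lit 152) (nat_lit 7290525928) (nat_lit 152) (nat_lit 1787586612) (nat_lit 42) (nat_lit 4) (nat_lit 44) (nat_lit 5) (nat_lit 44) (nat_lit 4) (nat_lit 323) (nat_lit 291) (nat_lit 286)) (XT.lf (nat_lit 0) (nat_lit 3300520040) (nat_lit 152) (nat_lit 1417523153) (nat_lit 228) (nat_lit 6591696424) (nat_lit 39) (nat_lit 5) (nat_lit 41) (nat_lit 5) (nat_lit 42) (nat_lit 4) (nat_lit 324) (nat_lit 291) (nat_lit 285)))) (XT.nd (nat_lit 78) (nat_lit 380) (nat_lit 0) (XT.lf (nat_lit 0) (nat_lit 4648132417) (nat_lit 152) (nat_lit 7001488592) (nat_lit 152) (nat_lit 167524591) (nat_lit 37) (nat_lit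 4) (nat_lit 39) (nat_lit 5) (nat_lit 39) (nat_lit 4) (nat_lit 325) (nat_lit 291) (nat_lit 284)) (XT.nd (nat_lit 78) (nat_lit 228) (nat_lit 0) (XT.lf (nat_lit 0) (nat_lit 5735803017) (nat_lit 76) (nat_lit 741725047) (nat_lit 152) (nat_lit 5886304305) (nat_lit 35) (nat_lit 5) (nat_lit 36) (nat_lit 5) (nat_lit 37) (nat_lit 4) (nat_lit 326) (nat_lit 291) (nat_lit 283)) (XT.lf (nat_lit 0) (nat_lit 676119394) (nat_lit 228) (nat_lit 6423254530) (nat_lit 76) (nat_lit 5854131609) (nat_lit 32) (nat_lit 5) (nat_lit 35) (nat_lit 5) (nat_lit 33) (nat_lit 4) (nat_lit 327) (nat_lit 291) (nat_lit 282))))) (XT.nd (nat_lit 234) (nat_lit 380) (nat_lit 0) (XT.nd (nat_lit 78) (nat_lit 304) (nat_lit 0) (XT.lf (nat_lit 0) (nat_lit 6966347138) (nat_lit 76) (nat_lit 523745254) (nat_lit 152) (nat_lit 6098923628) (nat_lit 31) (nat_lit 5) (nat_lit 32) (nat_lit 5) (nat_lit 33) (nat_lit 4) (nat_lit 328) (nat_lit 291)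 (nat_lit 281)) (XT.nd (nat_lit 78) (nat_lit 76) (nat_lit 0) (XT.lf (nat_lit 0) (nat_lit 584053270) (nat_lit 228) (nat_lit 7302208102) (nat_lit 76) (nat_lit 6387340266) (nat_lit 28) (nat_lit 5) (nat_lit 31) (nat_lit 5) (nat_lit 29) (nat_lit 4) (nat_lit 329) (nat_lit 291) (nat_lit 280)) (XT.lf (nat_lit 0) (nat_lit 6464457307) (nat_lit 76) (nat_lit 1065674803) (nat_lit 152) (nat_lit 7480819925) (nat_lit 27) (nat_lit 5) (nat_lit 28) (nat_lit 5) (nat_lit 29) (nat_lit 4) (nat_lit 330) (nat_lit 291) (nat_lit 279)))) (XT.nd (nat_lit 78) (nat_lit 228) (nat_lit 0) (XT.lf (nat_lit 0) (nat_lit 5364114317) (nat_lit 152) (nat_lit 9701780499) (nat_lit 152) (nat_lit 739792127) (nat_lit 25) (nat_lit 4) (nat_lit 27) (nat_lit 5) (nat_lit 27) (nat_lit 4) (nat_lit 331) (nat_lit 291) (nat_lit 278)) (XT.nd (nat_lit 78) (nat_lit 76) (nat_lit 0) (XT.lf (nat_lit 0) (nat_lit 3540326309) (nat_lit 76) (nat_lit 2746678086)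 (nat_lit 152) (nat_lit 10374184231) (nat_lit 23) (nat_lit 5) (nat_lit 24) (nat_lit 5) (nat_lit 25) (nat_lit 4) (nat_lit 332) (nat_lit 291) (nat_lit 277)) (XT.lf (nat_lit 0) (nat_lit 901478556) (nat_lit 76) (nat_lit 12962861919) (nat_lit 76) (nat_lit 3719546532) (nat_lit 22) (nat_lit 4) (nat_lit 23) (nat_lit 5) (nat_lit 23) (nat_lit 4) (nat_lit 333) (nat_lit 291) (nat_lit 276))))))))
noncomputable def xc31 : XT := (XT.nd (nat_lit 1794) (nat_lit 228) (nat_lit 0) (XT.nd (nat_lit 858) (nat_lit 456) (nat_lit 0) (XT.nd (nat_lit 390) (nat_lit 456) (nat_lit 0) (XT.nd (nat_lit 156) (nat_lit 228) (nat_lit 0) (XT.nd (nat_lit 78) (nat_lit 76) (nat_lit 0) (XT.lf (nat_lit 0) (nat_lit 3383726154) (nat_lit 152) (nat_lit 2621887048) (nat_lit 76) (nat_lit 12570788375) (nat_lit 21) (nat_lit 5) (nat_lit 23) (nat_lit 5) (nat_lit 22) (nat_lit 4) (nat_lit 334) (nat_lit 291) (nat_lit 275)) (XT.lf (nat_lit 0) (nat_lit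 10913357748) (nat_lit 152) (nat_lit 7200517637) (nat_lit 0) (nat_lit 1532036764) (nat_lit 20) (nat_lit 5) (nat_lit 22) (nat_lit 4) (nat_lit 20) (nat_lit 4) (nat_lit 335) (nat_lit 291) (nat_lit 274))) (XT.nd (nat_lit 78) (nat_lit 152) (nat_lit 0) (XT.lf (nat_lit 0) (nat_lit 7740544807) (nat_lit 76) (nat_lit 11348504059) (nat_lit 76) (nat_lit 1709809735) (nat_lit 19) (nat_lit 4) (nat_lit 20) (nat_lit 5) (nat_lit 20) (nat_lit 4) (nat_lit 336) (nat_lit 291) (nat_lit 273)) (XT.nd (nat_lit 78) (nat_lit 0) (nat_lit 0) (XT.lf (nat_lit 0) (nat_lit 1647958961) (nat_lit 76) (nat_lit 3973973689) (nat_lit 152) (nat_lit 16420814153) (nat_lit 17) (nat_lit 5) (nat_lit 18) (nat_lit 5) (nat_lit 19) (nat_lit 4) (nat_lit 337) (nat_lit 291) (nat_lit 272)) (XT.lf (nat_lit 0) (nat_lit 13563835503) (nat_lit 152) (nat_lit 5869764132) (nat_lit 0) (nat_lit 3947017286) (nat_lit 17) (nat_lit 5) (nat_lit 19) (nat_lit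 4) (nat_lit 17) (nat_lit 4) (nat_lit 338) (nat_lit 291) (nat_lit 271))))) (XT.nd (nat_lit 234) (nat_lit 228) (nat_lit 0) (XT.nd (nat_lit 78) (nat_lit 152) (nat_lit 0) (XT.lf (nat_lit 0) (nat_lit 9692730486) (nat_lit 76) (nat_lit 12471536343) (nat_lit 76) (nat_lit 2660135978) (nat_lit 16) (nat_lit 4) (nat_lit 17) (nat_lit 5) (nat_lit 17) (nat_lit 4) (nat_lit 339) (nat_lit 291) (nat_lit 270)) (XT.nd (nat_lit 78) (nat_lit 76) (nat_lit 0) (XT.lf (nat_lit 0) (nat_lit 4821432600) (nat_lit 152) (nat_lit 107632190) (nat_lit 76) (nat_lit 21454977709) (nat_lit 15) (nat_lit 5) (nat_lit 17) (nat_lit 5) (nat_lit 16) (nat_lit 4) (nat_lit 340) (nat_lit 291) (nat_lit 269)) (XT.lf (nat_lit 0) (nat_lit 12940888036) (nat_lit 152) (nat_lit 11852564501) (nat_lit 0) (nat_lit 3266229131) (nat_lit 14) (nat_lit 5) (nat_lit 16) (nat_lit 4) (nat_lit 14) (nat_lit 4) (nat_lit 341) (nat_lit 291) (nat_lit 268)))) (XT.nd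 (nat_lit 78) (nat_lit 152) (nat_lit 0) (XT.lf (nat_lit 0) (nat_lit 3672830941) (nat_lit 76) (nat_lit 18009852419) (nat_lit 76) (nat_lit 8188083435) (nat_lit 13) (nat_lit 4) (nat_lit 14) (nat_lit 5) (nat_lit 14) (nat_lit 4) (nat_lit 342) (nat_lit 291) (nat_lit 267)) (XT.nd (nat_lit 78) (nat_lit 152) (nat_lit 0) (XT.lf (nat_lit 0) (nat_lit 20554364168) (nat_lit 76) (nat_lit 10614078523) (nat_lit 76) (nat_lit 656096503) (nat_lit 13) (nat_lit 4) (nat_lit 14) (nat_lit 5) (nat_lit 14) (nat_lit 4) (nat_lit 343) (nat_lit 291) (nat_lit 266)) (XT.lf (nat_lit 0) (nat_lit 4590666843) (nat_lit 76) (nat_lit 2567758544) (nat_lit 152) (nat_lit 26774411127) (nat_lit 11) (nat_lit 5) (nat_lit 12) (nat_lit 5) (nat_lit 13) (nat_lit 4) (nat_lit 344) (nat_lit 291) (nat_lit 265)))))) (XT.nd (nat_lit 468) (nat_lit 228) (nat_lit 0) (XT.nd (nat_lit 234) (nat_lit 152) (nat_lit 0) (XT.nd (nat_lit 78) (nat_lit 76) (nat_lit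 0) (XT.lf (nat_lit 0) (nat_lit 15723066718) (nat_lit 152) (nat_lit 14470884349) (nat_lit 0) (nat_lit 6007937266) (nat_lit 11) (nat_lit 5) (nat_lit 13) (nat_lit 4) (nat_lit 11) (nat_lit 4) (nat_lit 345) (nat_lit 291) (nat_lit 264)) (XT.nd (nat_lit 78) (nat_lit 0) (nat_lit 0) (XT.lf (nat_lit 0) (nat_lit 1326421598) (nat_lit 76) (nat_lit 23573902477) (nat_lit 76) (nat_lit 13755791788) (nat_lit 10) (nat_lit 4) (nat_lit 11) (nat_lit 5) (nat_lit 11) (nat_lit 4) (nat_lit 346) (nat_lit 291) (nat_lit 263)) (XT.lf (nat_lit 0) (nat_lit 18652846414) (nat_lit 76) (nat_lit 16280617895) (nat_lit 76) (nat_lit 6367154208) (nat_lit 10) (nat_lit 4) (nat_lit 11) (nat_lit 5) (nat_lit 11) (nat_lit 4) (nat_lit 347) (nat_lit 291) (nat_lit 262)))) (XT.nd (nat_lit 78) (nat_lit 76) (nat_lit 0) (XT.lf (nat_lit 0) (nat_lit 1438249199) (nat_lit 152) (nat_lit 7053342640) (nat_lit 76) (nat_lit 35669985773) (nat_lit 9)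 (nat_lit 5) (nat_lit 11) (nat_lit 5) (nat_lit 10) (nat_lit 4) (nat_lit 348) (nat_lit 291) (nat_lit 261)) (XT.nd (nat_lit 78) (nat_lit 0) (nat_lit 0) (XT.lf (nat_lit 0) (nat_lit 9688353621) (nat_lit 152) (nat_lit 37470674569) (nat_lit 0) (nat_lit 85017120) (nat_lit 8) (nat_lit 5) (nat_lit 10) (nat_lit 4) (nat_lit 8) (nat_lit 4) (nat_lit 349) (nat_lit 291) (nat_lit 260)) (XT.lf (nat_lit 0) (nat_lit 18756465431) (nat_lit 152) (nat_lit 22727722565) (nat_lit 0) (nat_lit 9081039136) (nat_lit 8) (nat_lit 5) (nat_lit 10) (nat_lit 4) (nat_lit 8) (nat_lit 4) (nat_lit 350) (nat_lit 291) (nat_lit 259))))) (XT.nd (nat_lit 234) (nat_lit 152) (nat_lit 0) (XT.nd (nat_lit 78) (nat_lit 76) (nat_lit 0) (XT.lf (nat_lit 0) (nat_lit 28448115475) (nat_lit 152) (nat_lit 7003159618) (nat_lit 0) (nat_lit 18705939370) (nat_lit 8) (nat_lit 5) (nat_lit 10) (nat_lit 4) (nat_lit 8) (nat_lit 4) (nat_lit 351) (nat_lit 291)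 (nat_lit 258)) (XT.nd (nat_lit 78) (nat_lit 0) (nat_lit 0) (XT.lf (nat_lit 0) (nat_lit 10120103377) (nat_lit 76) (nat_lit 28858635550) (nat_lit 76) (nat_lit 19054654066) (nat_lit 7) (nat_lit 4) (nat_lit 8) (nat_lit 5) (nat_lit 8) (nat_lit 4) (nat_lit 352) (nat_lit 291) (nat_lit 257)) (XT.lf (nat_lit 0) (nat_lit 28688096897) (nat_lit 76) (nat_lit 21695598337) (nat_lit 76) (nat_lit 11834389650) (nat_lit 7) (nat_lit 4) (nat_lit 8) (nat_lit 5) (nat_lit 8) (nat_lit 4) (nat_lit 353) (nat_lit 291) (nat_lit 256)))) (XT.nd (nat_lit 78) (nat_lit 152) (nat_lit 0) (XT.lf (nat_lit 0) (nat_lit 48579297410) (nat_lit 76) (nat_lit 14038317722) (nat_lit 76) (nat_lit 4124120884) (nat_lit 7) (nat_lit 4) (nat_lit 8) (nat_lit 5) (nat_lit 8) (nat_lit 4) (nat_lit 354) (nat_lit 291) (nat_lit 255)) (XT.nd (nat_lit 78) (nat_lit 76) (nat_lit 0) (XT.lf (nat_lit 0) (nat_lit 3989918003) (nat_lit 152) (nat_lit 1783928033)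 (nat_lit 76) (nat_lit 65854089502) (nat_lit 6) (nat_lit 5) (nat_lit 8) (nat_lit 5) (nat_lit 7) (nat_lit 4) (nat_lit 355) (nat_lit 291) (nat_lit 254)) (XT.lf (nat_lit 0) (nat_lit 12844359433) (nat_lit 152) (nat_lit 60733237814) (nat_lit 0) (nat_lit 3312274919) (nat_lit 5) (nat_lit 5) (nat_lit 7) (nat_lit 4) (nat_lit 5) (nat_lit 4) (nat_lit 356) (nat_lit 291) (nat_lit 253))))))) (XT.nd (nat_lit 936) (nat_lit 0) (nat_lit 0) (XT.nd (nat_lit 468) (nat_lit 152) (nat_lit 0) (XT.nd (nat_lit 234) (nat_lit 76) (nat_lit 0) (XT.nd (nat_lit 78) (nat_lit 0) (nat_lit 0) (XT.lf (nat_lit 0) (nat_lit 22465628836) (nat_lit 152) (nat_lit 47210736863) (nat_lit 0) (nat_lit 12893483653) (nat_lit 5) (nat_lit 5) (nat_lit 7) (nat_lit 4) (nat_lit 5) (nat_lit 4) (nat_lit 357) (nat_lit 291) (nat_lit 252)) (XT.nd (nat_lit 78) (nat_lit 0) (nat_lit 0) (XT.lf (nat_lit 0) (nat_lit 32791350500) (nat_lit 152) (nat_lit 32734033142)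 (nat_lit 0) (nat_lit 23182112105) (nat_lit 5) (nat_lit 5) (nat_lit 7) (nat_lit 4) (nat_lit 5) (nat_lit 4) (nat_lit 358) (nat_lit 291) (nat_lit 251)) (XT.lf (nat_lit 0) (nat_lit 43882713889) (nat_lit 152) (nat_lit 17217338778) (nat_lit 0) (nat_lit 34239129927) (nat_lit 5) (nat_lit 5) (nat_lit 7) (nat_lit 4) (nat_lit 5) (nat_lit 4) (nat_lit 359) (nat_lit 291) (nat_lit 250)))) (XT.nd (nat_lit 78) (nat_lit 76) (nat_lit 0) (XT.lf (nat_lit 0) (nat_lit 55805445599) (nat_lit 152) (nat_lit 568702989) (nat_lit 0) (nat_lit 46130060187) (nat_lit 5) (nat_lit 5) (nat_lit 7) (nat_lit 4) (nat_lit 5) (nat_lit 4) (nat_lit 360) (nat_lit 291) (nat_lit 249)) (XT.nd (nat_lit 78) (nat_lit 0) (nat_lit 0) (XT.lf (nat_lit 0) (nat_lit 17882897198) (nat_lit 76) (nat_lit 51026503800) (nat_lit 76) (nat_lit 41321672600) (nat_lit 4) (nat_lit 4) (nat_lit 5) (nat_lit 5) (nat_lit 5) (nat_lit 4) (nat_lit 361) (nat_lit 291)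 (nat_lit 248)) (XT.lf (nat_lit 0) (nat_lit 37734044722) (nat_lit 76) (nat_lit 45288061664) (nat_lit 76) (nat_lit 35555965845) (nat_lit 4) (nat_lit 4) (nat_lit 5) (nat_lit 5) (nat_lit 5) (nat_lit 4) (nat_lit 362) (nat_lit 291) (nat_lit 247))))) (XT.nd (nat_lit 234) (nat_lit 152) (nat_lit 0) (XT.nd (nat_lit 78) (nat_lit 0) (nat_lit 0) (XT.lf (nat_lit 0) (nat_lit 59083572123) (nat_lit 76) (nat_lit 39134447856) (nat_lit 76) (nat_lit 29377107021) (nat_lit 4) (nat_lit 4) (nat_lit 5) (nat_lit 5) (nat_lit 5) (nat_lit 4) (nat_lit 363) (nat_lit 291) (nat_lit 246)) (XT.nd (nat_lit 78) (nat_lit 0) (nat_lit 0) (XT.lf (nat_lit 0) (nat_lit 82057995119) (nat_lit 76) (nat_lit 32529196517) (nat_lit 76) (nat_lit 22748480667) (nat_lit 4) (nat_lit 4) (nat_lit 5) (nat_lit 5) (nat_lit 5) (nat_lit 4) (nat_lit 364) (nat_lit 291) (nat_lit 245)) (XT.lf (nat_lit 0) (nat_lit 106793458440) (nat_lit 76) (nat_lit 25433165418)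 (nat_lit 76) (nat_lit 15630806034) (nat_lit 4) (nat_lit 4) (nat_lit 5) (nat_lit 5) (nat_lit 5) (nat_lit 4) (nat_lit 365) (nat_lit 291) (nat_lit 244)))) (XT.nd (nat_lit 78) (nat_lit 152) (nat_lit 0) (XT.lf (nat_lit 0) (nat_lit 133436542608) (nat_lit 76) (nat_lit 17804304003) (nat_lit 76) (nat_lit 7981904311) (nat_lit 4) (nat_lit 4) (nat_lit 5) (nat_lit 5) (nat_lit 5) (nat_lit 4) (nat_lit 366) (nat_lit 291) (nat_lit 243)) (XT.nd (nat_lit 78) (nat_lit 76) (nat_lit 0) (XT.lf (nat_lit 0) (nat_lit 235756164) (nat_lit 152) (nat_lit 9357655395) (nat_lit 76) (nat_lit 161905383757) (nat_lit 3) (nat_lit 5) (nat_lit 5) (nat_lit 5) (nat_lit 4) (nat_lit 4) (nat_lit 367) (nat_lit 291) (nat_lit 242)) (XT.lf (nat_lit 0) (nat_lit 8459232471) (nat_lit 76) (nat_lit 476069644) (nat_lit 152) (nat_lit 175809876399) (nat_lit 2) (nat_lit 5) (nat_lit 3) (nat_lit 5) (nat_lit 4) (nat_lit 4) (nat_lit 368) (nat_lit 291)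 (nat_lit 241)))))) (XT.nd (nat_lit 468) (nat_lit 0) (nat_lit 0) (XT.nd (nat_lit 234) (nat_lit 0) (nat_lit 0) (XT.nd (nat_lit 78) (nat_lit 0) (nat_lit 0) (XT.lf (nat_lit 0) (nat_lit 18612064324) (nat_lit 152) (nat_lit 171216937461) (nat_lit 0) (nat_lit 9208211457) (nat_lit 2) (nat_lit 5) (nat_lit 4) (nat_lit 4) (nat_lit 2) (nat_lit 4) (nat_lit 369) (nat_lit 291) (nat_lit 240)) (XT.nd (nat_lit 78) (nat_lit 0) (nat_lit 0) (XT.lf (nat_lit 0) (nat_lit 29042544728) (nat_lit 152) (nat_lit 165806427327) (nat_lit 0) (nat_lit 19624663075) (nat_lit 2) (nat_lit 5) (nat_lit 4) (nat_lit 4) (nat_lit 2) (nat_lit 4) (nat_lit 370) (nat_lit 291) (nat_lit 239)) (XT.lf (nat_lit 0) (nat_lit 40281120800) (nat_lit 152) (nat_lit 160014920578) (nat_lit 0) (nat_lit 30850249531) (nat_lit 2) (nat_lit 5) (nat_lit 4) (nat_lit 4) (nat_lit 2) (nat_lit 4) (nat_lit 371) (nat_lit 291) (nat_lit 238)))) (XT.nd (nat_lit 78) (nat_lit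 0) (nat_lit 0) (XT.lf (nat_lit 0) (nat_lit 52394391509) (nat_lit 152) (nat_lit 153808097175) (nat_lit 0) (nat_lit 42951492818) (nat_lit 2) (nat_lit 5) (nat_lit 4) (nat_lit 4) (nat_lit 2) (nat_lit 4) (nat_lit 372) (nat_lit 291) (nat_lit 237)) (XT.nd (nat_lit 78) (nat_lit 0) (nat_lit 0) (XT.lf (nat_lit 0) (nat_lit 65454139202) (nat_lit 152) (nat_lit 147149175941) (nat_lit 0) (nat_lit 56000104008) (nat_lit 2) (nat_lit 5) (nat_lit 4) (nat_lit 4) (nat_lit 2) (nat_lit 4) (nat_lit 373) (nat_lit 291) (nat_lit 236)) (XT.lf (nat_lit 0) (nat_lit 79537754974) (nat_lit 152) (nat_lit 139998696602) (nat_lit 0) (nat_lit 70073408204) (nat_lit 2) (nat_lit 5) (nat_lit 4) (nat_lit 4) (nat_lit 2) (nat_lit 4) (nat_lit 374) (nat_lit 291) (nat_lit 235))))) (XT.nd (nat_lit 234) (nat_lit 0) (nat_lit 0) (XT.nd (nat_lit 78) (nat_lit 0) (nat_lit 0) (XT.lf (nat_lit 0) (nat_lit 94728697290) (nat_lit 152) (nat_lit 132314285948)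 (nat_lit 0) (nat_lit 85254802765) (nat_lit 2) (nat_lit 5) (nat_lit 4) (nat_lit 4) (nat_lit 2) (nat_lit 4) (nat_lit 375) (nat_lit 291) (nat_lit 234)) (XT.nd (nat_lit 78) (nat_lit 0) (nat_lit 0) (XT.lf (nat_lit 0) (nat_lit 111116986549) (nat_lit 152) (nat_lit 124050406730) (nat_lit 0) (nat_lit 101634251509) (nat_lit 2) (nat_lit 5) (nat_lit 4) (nat_lit 4) (nat_lit 2) (nat_lit 4) (nat_lit 376) (nat_lit 291) (nat_lit 233)) (XT.lf (nat_lit 0) (nat_lit 128799738539) (nat_lit 152) (nat_lit 115158087813) (nat_lit 0) (nat_lit 119308817837) (nat_lit 2) (nat_lit 5) (nat_lit 4) (nat_lit 4) (nat_lit 2) (nat_lit 4) (nat_lit 377) (nat_lit 291) (nat_lit 232)))) (XT.nd (nat_lit 78) (nat_lit 0) (nat_lit 0) (XT.lf (nat_lit 0) (nat_lit 147881739939) (nat_lit 152) (nat_lit 105584633972) (nat_lit 0) (nat_lit 138383239920) (nat_lit 2) (nat_lit 5) (nat_lit 4) (nat_lit 4) (nat_lit 2) (nat_lit 4) (nat_lit 378) (nat_lit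 291) (nat_lit 231)) (XT.nd (nat_lit 78) (nat_lit 0) (nat_lit 0) (XT.lf (nat_lit 0) (nat_lit 168476069274) (nat_lit 152) (nat_lit 95273313630) (nat_lit 0) (nat_lit 158970551371) (nat_lit 2) (nat_lit 5) (nat_lit 4) (nat_lit 4) (nat_lit 2) (nat_lit 4) (nat_lit 379) (nat_lit 291) (nat_lit 230)) (XT.lf (nat_lit 0) (nat_lit 190704767016) (nat_lit 152) (nat_lit 84163022667) (nat_lit 0) (nat_lit 181192751071) (nat_lit 2) (nat_lit 5) (nat_lit 4) (nat_lit 4) (nat_lit 2) (nat_lit 4) (nat_lit 380) (nat_lit 291) (nat_lit 229))))))))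
noncomputable def xc32 : XT := (XT.nd (nat_lit 42588) (nat_lit 0) (nat_lit 684) (XT.nd (nat_lit 858) (nat_lit 0) (nat_lit 0) (XT.nd (nat_lit 390) (nat_lit 76) (nat_lit 0) (XT.nd (nat_lit 156) (nat_lit 0) (nat_lit 0) (XT.nd (nat_lit 78) (nat_lit 0) (nat_lit 0) (XT.lf (nat_lit 0) (nat_lit 214699558781) (nat_lit 152) (nat_lit 72187922320) (nat_lit 0) (nat_lit 205181526130) (nat_lit 2) (nat_lit 5) (nat_lit 4) (nat_lit 4) (nat_lit 2) (nat_lit 4) (nat_lit 381) (nat_lit 291) (nat_lit 228)) (XT.lf (nat_lit 0) (nat_lit 240602635927) (nat_lit 152) (nat_lit 59277049032) (nat_lit 0) (nat_lit 231079032252) (nat_lit 2) (nat_lit 5) (nat_lit 4) (nat_lit 4) (nat_lit 2) (nat_lit 4) (nat_lit 382) (nat_lit 291) (nat_lit 227))) (XT.nd (nat_lit 78) (nat_lit 0) (nat_lit 0) (XT.lf (nat_lit 0) (nat_lit 268567498171) (nat_lit 152) (nat_lit 45353893925) (nat_lit 0) (nat_lit 259038736141) (nat_lit 2) (nat_lit 5) (nat_lit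 4) (nat_lit 4) (nat_lit 2) (nat_lit 4) (nat_lit 383) (nat_lit 291) (nat_lit 226)) (XT.nd (nat_lit 78) (nat_lit 0) (nat_lit 0) (XT.lf (nat_lit 0) (nat_lit 298759863215) (nat_lit 152) (nat_lit 30335949413) (nat_lit 0) (nat_lit 289226324929) (nat_lit 2) (nat_lit 5) (nat_lit 4) (nat_lit 4) (nat_lit 2) (nat_lit 4) (nat_lit 384) (nat_lit 291) (nat_lit 225)) (XT.lf (nat_lit 0) (nat_lit 331358648777) (nat_lit 152) (nat_lit 14134220268) (nat_lit 0) (nat_lit 321820688033) (nat_lit 2) (nat_lit 5) (nat_lit 4) (nat_lit 4) (nat_lit 2) (nat_lit 4) (nat_lit 385) (nat_lit 291) (nat_lit 224))))) (XT.nd (nat_lit 234) (nat_lit 0) (nat_lit 0) (XT.nd (nat_lit 78) (nat_lit 0) (nat_lit 0) (XT.lf (nat_lit 0) (nat_lit 3457980733) (nat_lit 76) (nat_lit 363153040883) (nat_lit 76) (nat_lit 353610985270) (nat_lit 1) (nat_lit 4) (nat_lit 2) (nat_lit 5) (nat_lit 2) (nat_lit 4) (nat_lit 386) (nat_lit 291) (nat_lit 223))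 (XT.nd (nat_lit 78) (nat_lit 0) (nat_lit 0) (XT.lf (nat_lit 0) (nat_lit 22946653076) (nat_lit 76) (nat_lit 381975206926) (nat_lit 76) (nat_lit 372429359768) (nat_lit 1) (nat_lit 4) (nat_lit 2) (nat_lit 5) (nat_lit 2) (nat_lit 4) (nat_lit 387) (nat_lit 291) (nat_lit 222)) (XT.lf (nat_lit 0) (nat_lit 43979944034) (nat_lit 76) (nat_lit 402310275795) (nat_lit 76) (nat_lit 392760917948) (nat_lit 1) (nat_lit 4) (nat_lit 2) (nat_lit 5) (nat_lit 2) (nat_lit 4) (nat_lit 388) (nat_lit 291) (nat_lit 221)))) (XT.nd (nat_lit 78) (nat_lit 0) (nat_lit 0) (XT.lf (nat_lit 0) (nat_lit 66682495331) (nat_lit 76) (nat_lit 424278751603) (nat_lit 76) (nat_lit 414726143117) (nat_lit 1) (nat_lit 4) (nat_lit 2) (nat_lit 5) (nat_lit 2) (nat_lit 4) (nat_lit 389) (nat_lit 291) (nat_lit 220)) (XT.nd (nat_lit 78) (nat_lit 0) (nat_lit 0) (XT.lf (nat_lit 0) (nat_lit 91188840604) (nat_lit 76) (nat_lit 448010817910) (nat_lit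 76) (nat_lit 438455199573) (nat_lit 1) (nat_lit 4) (nat_lit 2) (nat_lit 5) (nat_lit 2) (nat_lit 4) (nat_lit 390) (nat_lit 291) (nat_lit 219)) (XT.lf (nat_lit 0) (nat_lit 117644202641) (nat_lit 76) (nat_lit 473647109183) (nat_lit 76) (nat_lit 464088703946) (nat_lit 1) (nat_lit 4) (nat_lit 2) (nat_lit 5) (nat_lit 2) (nat_lit 4) (nat_lit 391) (nat_lit 291) (nat_lit 218)))))) (XT.nd (nat_lit 41262) (nat_lit 0) (nat_lit 2736) (XT.nd (nat_lit 41028) (nat_lit 0) (nat_lit 4180) (XT.nd (nat_lit 78) (nat_lit 0) (nat_lit 0) (XT.lf (nat_lit 0) (nat_lit 146205353957) (nat_lit 76) (nat_lit 501339544184) (nat_lit 76) (nat_lit 491778558486) (nat_lit 1) (nat_lit 4) (nat_lit 2) (nat_lit 5) (nat_lit 2) (nat_lit 4) (nat_lit 392) (nat_lit 291) (nat_lit 217)) (XT.nd (nat_lit 40872) (nat_lit 0) (nat_lit 5320) (XT.lf (nat_lit 0) (nat_lit 177041545819) (nat_lit 76) (nat_lit 531252226233) (nat_lit 76) (nat_lit 521688851218)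 (nat_lit 1) (nat_lit 4) (nat_lit 2) (nat_lit 5) (nat_lit 2) (nat_lit 4) (nat_lit 393) (nat_lit 291) (nat_lit 216)) (XT.lf (nat_lit 0) (nat_lit 1461511277) (nat_lit 304) (nat_lit 1285629263) (nat_lit 0) (nat_lit 1461511277) (nat_lit 71) (nat_lit 5) (nat_lit 75) (nat_lit 4) (nat_lit 71) (nat_lit 4) (nat_lit 316) (nat_lit 292) (nat_lit 292)))) (XT.nd (nat_lit 78) (nat_lit 760) (nat_lit 0) (XT.lf (nat_lit 0) (nat_lit 491927014) (nat_lit 380) (nat_lit 666817062) (nat_lit 76) (nat_lit 7531625418) (nat_lit 66) (nat_lit 5) (nat_lit 71) (nat_lit 5) (nat_lit 67) (nat_lit 4) (nat_lit 317) (nat_lit 292) (nat_lit 291)) (XT.nd (nat_lit 78) (nat_lit 304) (nat_lit 0) (XT.lf (nat_lit 0) (nat_lit 1257565447) (nat_lit 228) (nat_lit 5400830593) (nat_lit 228) (nat_lit 2328029641) (nat_lit 60) (nat_lit 4) (nat_lit 63) (nat_lit 5) (nat_lit 63) (nat_lit 4) (nat_lit 318) (nat_lit 292) (nat_lit 290)) (XT.lf (nat_lit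 0) (nat_lit 3233134066) (nat_lit 228) (nat_lit 510189317) (nat_lit 304) (nat_lit 5567026281) (nat_lit 56) (nat_lit 5) (nat_lit 59) (nat_lit 5) (nat_lit 60) (nat_lit 4) (nat_lit 319) (nat_lit 292) (nat_lit 289))))) (XT.nd (nat_lit 234) (nat_lit 684) (nat_lit 0) (XT.nd (nat_lit 78) (nat_lit 456) (nat_lit 0) (XT.lf (nat_lit 0) (nat_lit 463609808) (nat_lit 304) (nat_lit 4485059412) (nat_lit 76) (nat_lit 4713387632) (nat_lit 52) (nat_lit 5) (nat_lit 56) (nat_lit 5) (nat_lit 53) (nat_lit 4) (nat_lit 320) (nat_lit 292) (nat_lit 288)) (XT.nd (nat_lit 78) (nat_lit 304) (nat_lit 0) (XT.lf (nat_lit 0) (nat_lit 6660144558) (nat_lit 228) (nat_lit 2963702921) (nat_lit 0) (nat_lit 419811373) (nat_lit 50) (nat_lit 5) (nat_lit 53) (nat_lit 4) (nat_lit 50) (nat_lit 4) (nat_lit 321) (nat_lit 292) (nat_lit 287)) (XT.lf (nat_lit 0) (nat_lit 2763196313) (nat_lit 304) (nat_lit 1560692844) (nat_lit 76) (nat_lit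 6131890780) (nat_lit 46) (nat_lit 5) (nat_lit 50) (nat_lit 5) (nat_lit 47) (nat_lit 4) (nat_lit 322) (nat_lit 292) (nat_lit 286)))) (XT.nd (nat_lit 78) (nat_lit 532) (nat_lit 0) (XT.lf (nat_lit 0) (nat_lit 9196545869) (nat_lit 228) (nat_lit 259249304) (nat_lit 0) (nat_lit 1446830692) (nat_lit 44) (nat_lit 5) (nat_lit 47) (nat_lit 4) (nat_lit 44) (nat_lit 4) (nat_lit 323) (nat_lit 292) (nat_lit 285)) (XT.nd (nat_lit 78) (nat_lit 152) (nat_lit 0) (XT.lf (nat_lit 0) (nat_lit 867342983) (nat_lit 152) (nat_lit 3728389628) (nat_lit 228) (nat_lit 6786512657) (nat_lit 39) (nat_lit 5) (nat_lit 41) (nat_lit 5) (nat_lit 42) (nat_lit 4) (nat_lit 324) (nat_lit 292) (nat_lit 284)) (XT.lf (nat_lit 0) (nat_lit 1832126434) (nat_lit 152) (nat_lit 9462491809) (nat_lit 152) (nat_lit 606746415) (nat_lit 37) (nat_lit 4) (nat_lit 39) (nat_lit 5) (nat_lit 39) (nat_lit 4) (nat_lit 325) (nat_lit 292) (nat_lit 283)))))))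 (XT.nd (nat_lit 858) (nat_lit 760) (nat_lit 0) (XT.nd (nat_lit 390) (nat_lit 532) (nat_lit 0) (XT.nd (nat_lit 156) (nat_lit 456) (nat_lit 0) (XT.nd (nat_lit 78) (nat_lit 152) (nat_lit 0) (XT.lf (nat_lit 0) (nat_lit 2488412999) (nat_lit 76) (nat_lit 3365632429) (nat_lit 152) (nat_lit 6604334291) (nat_lit 35) (nat_lit 5) (nat_lit 36) (nat_lit 5) (nat_lit 37) (nat_lit 4) (nat_lit 326) (nat_lit 292) (nat_lit 282)) (XT.lf (nat_lit 0) (nat_lit 2878732734) (nat_lit 152) (nat_lit 9910194092) (nat_lit 152) (nat_lit 271741466) (nat_lit 33) (nat_lit 4) (nat_lit 35) (nat_lit 5) (nat_lit 35) (nat_lit 4) (nat_lit 327) (nat_lit 292) (nat_lit 281))) (XT.nd (nat_lit 78) (nat_lit 304) (nat_lit 0) (XT.lf (nat_lit 0) (nat_lit 2841154932) (nat_lit 76) (nat_lit 3507995537) (nat_lit 152) (nat_lit 7357386102) (nat_lit 31) (nat_lit 5) (nat_lit 32) (nat_lit 5) (nat_lit 33) (nat_lit 4) (nat_lit 328) (nat_lit 292)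 (nat_lit 280)) (XT.nd (nat_lit 78) (nat_lit 152) (nat_lit 0) (XT.lf (nat_lit 0) (nat_lit 2405289690) (nat_lit 152) (nat_lit 11080883485) (nat_lit 152) (nat_lit 917988671) (nat_lit 29) (nat_lit 4) (nat_lit 31) (nat_lit 5) (nat_lit 31) (nat_lit 4) (nat_lit 329) (nat_lit 292) (nat_lit 279)) (XT.lf (nat_lit 0) (nat_lit 1392230819) (nat_lit 76) (nat_lit 4457964255) (nat_lit 152) (nat_lit 9302443936) (nat_lit 27) (nat_lit 5) (nat_lit 28) (nat_lit 5) (nat_lit 29) (nat_lit 4) (nat_lit 330) (nat_lit 292) (nat_lit 278))))) (XT.nd (nat_lit 234) (nat_lit 228) (nat_lit 0) (XT.nd (nat_lit 78) (nat_lit 304) (nat_lit 0) (XT.lf (nat_lit 0) (nat_lit 13125756785) (nat_lit 152) (nat_lit 190832941) (nat_lit 0) (nat_lit 2643837136) (nat_lit 27) (nat_lit 5) (nat_lit 29) (nat_lit 4) (nat_lit 27) (nat_lit 4) (nat_lit 331) (nat_lit 292) (nat_lit 277)) (XT.nd (nat_lit 78) (nat_lit 76) (nat_lit 0) (XT.lf (nat_lit 0)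 (nat_lit 4081143744) (nat_lit 228) (nat_lit 2473023428) (nat_lit 76) (nat_lit 10272336139) (nat_lit 24) (nat_lit 5) (nat_lit 27) (nat_lit 5) (nat_lit 25) (nat_lit 4) (nat_lit 332) (nat_lit 292) (nat_lit 276)) (XT.lf (nat_lit 0) (nat_lit 11428959700) (nat_lit 152) (nat_lit 5541211316) (nat_lit 0) (nat_lit 790541704) (nat_lit 23) (nat_lit 5) (nat_lit 25) (nat_lit 4) (nat_lit 23) (nat_lit 4) (nat_lit 333) (nat_lit 292) (nat_lit 275)))) (XT.nd (nat_lit 78) (nat_lit 76) (nat_lit 0) (XT.lf (nat_lit 0) (nat_lit 652386510) (nat_lit 152) (nat_lit 9592887016) (nat_lit 76) (nat_lit 8520160846) (nat_lit 21) (nat_lit 5) (nat_lit 23) (nat_lit 5) (nat_lit 22) (nat_lit 4) (nat_lit 334) (nat_lit 292) (nat_lit 274)) (XT.nd (nat_lit 78) (nat_lit 0) (nat_lit 0) (XT.lf (nat_lit 0) (nat_lit 5072754938) (nat_lit 76) (nat_lit 2865428626) (nat_lit 152) (nat_lit 11908981705) (nat_lit 20) (nat_lit 5) (nat_lit 21)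 (nat_lit 5) (nat_lit 22) (nat_lit 4) (nat_lit 335) (nat_lit 292) (nat_lit 273)) (XT.lf (nat_lit 0) (nat_lit 15848192897) (nat_lit 152) (nat_lit 222508352) (nat_lit 0) (nat_lit 4942721039) (nat_lit 20) (nat_lit 5) (nat_lit 22) (nat_lit 4) (nat_lit 20) (nat_lit 4) (nat_lit 336) (nat_lit 292) (nat_lit 272)))))) (XT.nd (nat_lit 468) (nat_lit 304) (nat_lit 0) (XT.nd (nat_lit 234) (nat_lit 152) (nat_lit 0) (XT.nd (nat_lit 78) (nat_lit 152) (nat_lit 0) (XT.lf (nat_lit 0) (nat_lit 2150683856) (nat_lit 152) (nat_lit 6717226109) (nat_lit 76) (nat_lit 13398442522) (nat_lit 18) (nat_lit 5) (nat_lit 20) (nat_lit 5) (nat_lit 19) (nat_lit 4) (nat_lit 337) (nat_lit 292) (nat_lit 271)) (XT.nd (nat_lit 78) (nat_lit 76) (nat_lit 0) (XT.lf (nat_lit 0) (nat_lit 8816995075) (nat_lit 76) (nat_lit 1011021678) (nat_lit 152) (nat_lit 13789455970) (nat_lit 17) (nat_lit 5) (nat_lit 18) (nat_lit 5) (nat_lit 19) (nat_lit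 4) (nat_lit 338) (nat_lit 292) (nat_lit 270)) (XT.lf (nat_lit 0) (nat_lit 313914600) (nat_lit 76) (nat_lit 17865440927) (nat_lit 76) (nat_lit 6894377728) (nat_lit 16) (nat_lit 4) (nat_lit 17) (nat_lit 5) (nat_lit 17) (nat_lit 4) (nat_lit 339) (nat_lit 292) (nat_lit 269)))) (XT.nd (nat_lit 78) (nat_lit 76) (nat_lit 0) (XT.lf (nat_lit 0) (nat_lit 638448775) (nat_lit 152) (nat_lit 9829066036) (nat_lit 76) (nat_lit 16173394421) (nat_lit 15) (nat_lit 5) (nat_lit 17) (nat_lit 5) (nat_lit 16) (nat_lit 4) (nat_lit 340) (nat_lit 292) (nat_lit 268)) (XT.nd (nat_lit 78) (nat_lit 0) (nat_lit 0) (XT.lf (nat_lit 0) (nat_lit 6067095244) (nat_lit 76) (nat_lit 2400927611) (nat_lit 152) (nat_lit 19863035959) (nat_lit 14) (nat_lit 5) (nat_lit 15) (nat_lit 5) (nat_lit 16) (nat_lit 4) (nat_lit 341) (nat_lit 292) (nat_lit 267)) (XT.lf (nat_lit 0) (nat_lit 17039500833) (nat_lit 152) (nat_lit 6962506894) (nat_lit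 0) (nat_lit 6148667216) (nat_lit 14) (nat_lit 5) (nat_lit 16) (nat_lit 4) (nat_lit 14) (nat_lit 4) (nat_lit 342) (nat_lit 292) (nat_lit 266))))) (XT.nd (nat_lit 234) (nat_lit 76) (nat_lit 0) (XT.nd (nat_lit 78) (nat_lit 152) (nat_lit 0) (XT.lf (nat_lit 0) (nat_lit 9551196398) (nat_lit 76) (nat_lit 16789719486) (nat_lit 76) (nat_lit 5772762687) (nat_lit 13) (nat_lit 4) (nat_lit 14) (nat_lit 5) (nat_lit 14) (nat_lit 4) (nat_lit 343) (nat_lit 292) (nat_lit 265)) (XT.nd (nat_lit 78) (nat_lit 76) (nat_lit 0) (XT.lf (nat_lit 0) (nat_lit 2066036091) (nat_lit 152) (nat_lit 6898363534) (nat_lit 76) (nat_lit 25268557317) (nat_lit 12) (nat_lit 5) (nat_lit 14) (nat_lit 5) (nat_lit 13) (nat_lit 4) (nat_lit 344) (nat_lit 292) (nat_lit 264)) (XT.lf (nat_lit 0) (nat_lit 9991586837) (nat_lit 76) (nat_lit 366195922) (nat_lit 152) (nat_lit 26157882178) (nat_lit 11) (nat_lit 5) (nat_lit 12) (nat_lit 5) (nat_lit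 13) (nat_lit 4) (nat_lit 345) (nat_lit 292) (nat_lit 263)))) (XT.nd (nat_lit 78) (nat_lit 76) (nat_lit 0) (XT.lf (nat_lit 0) (nat_lit 19447822331) (nat_lit 152) (nat_lit 10880513069) (nat_lit 0) (nat_lit 8645928551) (nat_lit 11) (nat_lit 5) (nat_lit 13) (nat_lit 4) (nat_lit 11) (nat_lit 4) (nat_lit 346) (nat_lit 292) (nat_lit 262)) (XT.nd (nat_lit 78) (nat_lit 0) (nat_lit 0) (XT.lf (nat_lit 0) (nat_lit 5974233233) (nat_lit 76) (nat_lit 23273201581) (nat_lit 76) (nat_lit 12383017988) (nat_lit 10) (nat_lit 4) (nat_lit 11) (nat_lit 5) (nat_lit 11) (nat_lit 4) (nat_lit 347) (nat_lit 292) (nat_lit 261)) (XT.lf (nat_lit 0) (nat_lit 24350349967) (nat_lit 76) (nat_lit 15558425572) (nat_lit 76) (nat_lit 4586492153) (nat_lit 10) (nat_lit 4) (nat_lit 11) (nat_lit 5) (nat_lit 11) (nat_lit 4) (nat_lit 348) (nat_lit 292) (nat_lit 260))))))))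
noncomputable def xc33 : XT := (XT.nd (nat_lit 1794) (nat_lit 76) (nat_lit 0) (XT.nd (nat_lit 858) (nat_lit 228) (nat_lit 0) (XT.nd (nat_lit 390) (nat_lit 152) (nat_lit 0) (XT.nd (nat_lit 156) (nat_lit 76) (nat_lit 0) (XT.nd (nat_lit 78) (nat_lit 76) (nat_lit 0) (XT.lf (nat_lit 0) (nat_lit 3605845236) (nat_lit 152) (nat_lit 3655644967) (nat_lit 76) (nat_lit 40330061768) (nat_lit 9) (nat_lit 5) (nat_lit 11) (nat_lit 5) (nat_lit 10) (nat_lit 4) (nat_lit 349) (nat_lit 292) (nat_lit 259)) (XT.lf (nat_lit 0) (nat_lit 12451660694) (nat_lit 152) (nat_lit 36608834643) (nat_lit 0) (nat_lit 1863360691) (nat_lit 8) (nat_lit 5) (nat_lit 10) (nat_lit 4) (nat_lit 8) (nat_lit 4) (nat_lit 350) (nat_lit 292) (nat_lit 258))) (XT.nd (nat_lit 78) (nat_lit 76) (nat_lit 0) (XT.lf (nat_lit 0) (nat_lit 22097944502) (nat_lit 152) (nat_lit 20972334915) (nat_lit 0) (nat_lit 11447839120) (nat_lit 8) (nat_lit 5) (nat_lit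 10) (nat_lit 4) (nat_lit 8) (nat_lit 4) (nat_lit 351) (nat_lit 292) (nat_lit 257)) (XT.nd (nat_lit 78) (nat_lit 76) (nat_lit 0) (XT.lf (nat_lit 0) (nat_lit 32428559006) (nat_lit 152) (nat_lit 4254518447) (nat_lit 0) (nat_lit 21721226421) (nat_lit 8) (nat_lit 5) (nat_lit 10) (nat_lit 4) (nat_lit 8) (nat_lit 4) (nat_lit 352) (nat_lit 292) (nat_lit 256)) (XT.lf (nat_lit 0) (nat_lit 14094805089) (nat_lit 76) (nat_lit 29629976980) (nat_lit 76) (nat_lit 18869656244) (nat_lit 7) (nat_lit 4) (nat_lit 8) (nat_lit 5) (nat_lit 8) (nat_lit 4) (nat_lit 353) (nat_lit 292) (nat_lit 255))))) (XT.nd (nat_lit 234) (nat_lit 0) (nat_lit 0) (XT.nd (nat_lit 78) (nat_lit 152) (nat_lit 0) (XT.lf (nat_lit 0) (nat_lit 33913786724) (nat_lit 76) (nat_lit 22007774524) (nat_lit 76) (nat_lit 11198390686) (nat_lit 7) (nat_lit 4) (nat_lit 8) (nat_lit 5) (nat_lit 8) (nat_lit 4) (nat_lit 354) (nat_lit 292) (nat_lit 254))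 (XT.nd (nat_lit 78) (nat_lit 152) (nat_lit 0) (XT.lf (nat_lit 0) (nat_lit 55179198680) (nat_lit 76) (nat_lit 13843353807) (nat_lit 76) (nat_lit 2988541170) (nat_lit 7) (nat_lit 4) (nat_lit 8) (nat_lit 5) (nat_lit 8) (nat_lit 4) (nat_lit 355) (nat_lit 292) (nat_lit 253)) (XT.lf (nat_lit 0) (nat_lit 650337405) (nat_lit 76) (nat_lit 4982449787) (nat_lit 152) (nat_lit 71659018773) (nat_lit 5) (nat_lit 5) (nat_lit 6) (nat_lit 5) (nat_lit 7) (nat_lit 4) (nat_lit 356) (nat_lit 292) (nat_lit 252)))) (XT.nd (nat_lit 78) (nat_lit 0) (nat_lit 0) (XT.lf (nat_lit 0) (nat_lit 15144896739) (nat_lit 152) (nat_lit 63102522463) (nat_lit 0) (nat_lit 4729826061) (nat_lit 5) (nat_lit 5) (nat_lit 7) (nat_lit 4) (nat_lit 5) (nat_lit 4) (nat_lit 357) (nat_lit 292) (nat_lit 251)) (XT.nd (nat_lit 78) (nat_lit 0) (nat_lit 0) (XT.lf (nat_lit 0) (nat_lit 25441572246) (nat_lit 152) (nat_lit 48682619538) (nat_lit 0) (nat_lit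 14992156001) (nat_lit 5) (nat_lit 5) (nat_lit 7) (nat_lit 4) (nat_lit 5) (nat_lit 4) (nat_lit 358) (nat_lit 292) (nat_lit 250)) (XT.lf (nat_lit 0) (nat_lit 36506041043) (nat_lit 152) (nat_lit 33218518502) (nat_lit 0) (nat_lit 26024823347) (nat_lit 5) (nat_lit 5) (nat_lit 7) (nat_lit 4) (nat_lit 5) (nat_lit 4) (nat_lit 359) (nat_lit 292) (nat_lit 249)))))) (XT.nd (nat_lit 468) (nat_lit 152) (nat_lit 0) (XT.nd (nat_lit 234) (nat_lit 0) (nat_lit 0) (XT.nd (nat_lit 78) (nat_lit 76) (nat_lit 0) (XT.lf (nat_lit 0) (nat_lit 48403870355) (nat_lit 152) (nat_lit 16618580240) (nat_lit 0) (nat_lit 37893206871) (nat_lit 5) (nat_lit 5) (nat_lit 7) (nat_lit 4) (nat_lit 5) (nat_lit 4) (nat_lit 360) (nat_lit 292) (nat_lit 248)) (XT.nd (nat_lit 78) (nat_lit 0) (nat_lit 0) (XT.lf (nat_lit 0) (nat_lit 1255757329) (nat_lit 76) (nat_lit 59969414396) (nat_lit 76) (nat_lit 49431486294) (nat_lit 4) (nat_lit 4) (nat_lit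 5) (nat_lit 5) (nat_lit 5) (nat_lit 4) (nat_lit 361) (nat_lit 292) (nat_lit 247)) (XT.lf (nat_lit 0) (nat_lit 21063774120) (nat_lit 76) (nat_lit 54252079808) (nat_lit 76) (nat_lit 43688906689) (nat_lit 4) (nat_lit 4) (nat_lit 5) (nat_lit 5) (nat_lit 5) (nat_lit 4) (nat_lit 362) (nat_lit 292) (nat_lit 246)))) (XT.nd (nat_lit 78) (nat_lit 0) (nat_lit 0) (XT.lf (nat_lit 0) (nat_lit 42373365658) (nat_lit 76) (nat_lit 48118010026) (nat_lit 76) (nat_lit 37531461891) (nat_lit 4) (nat_lit 4) (nat_lit 5) (nat_lit 5) (nat_lit 5) (nat_lit 4) (nat_lit 363) (nat_lit 292) (nat_lit 245)) (XT.nd (nat_lit 78) (nat_lit 0) (nat_lit 0) (XT.lf (nat_lit 0) (nat_lit 65310811002) (nat_lit 76) (nat_lit 41530855007) (nat_lit 76) (nat_lit 30922663340) (nat_lit 4) (nat_lit 4) (nat_lit 5) (nat_lit 5) (nat_lit 5) (nat_lit 4) (nat_lit 364) (nat_lit 292) (nat_lit 244)) (XT.lf (nat_lit 0) (nat_lit 90012035756) (nat_lit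 76) (nat_lit 34451579760) (nat_lit 76) (nat_lit 23823347784) (nat_lit 4) (nat_lit 4) (nat_lit 5) (nat_lit 5) (nat_lit 5) (nat_lit 4) (nat_lit 365) (nat_lit 292) (nat_lit 243))))) (XT.nd (nat_lit 234) (nat_lit 76) (nat_lit 0) (XT.nd (nat_lit 78) (nat_lit 76) (nat_lit 0) (XT.lf (nat_lit 0) (nat_lit 116623417548) (nat_lit 76) (nat_lit 26838233023) (nat_lit 76) (nat_lit 16191445206) (nat_lit 4) (nat_lit 4) (nat_lit 5) (nat_lit 5) (nat_lit 5) (nat_lit 4) (nat_lit 366) (nat_lit 292) (nat_lit 242)) (XT.nd (nat_lit 78) (nat_lit 76) (nat_lit 0) (XT.lf (nat_lit 0) (nat_lit 145302653454) (nat_lit 76) (nat_lit 18645698667) (nat_lit 76) (nat_lit 7981729516) (nat_lit 4) (nat_lit 4) (nat_lit 5) (nat_lit 5) (nat_lit 5) (nat_lit 4) (nat_lit 367) (nat_lit 292) (nat_lit 241)) (XT.lf (nat_lit 0) (nat_lit 827101733) (nat_lit 152) (nat_lit 8984319239) (nat_lit 76) (nat_lit 175378585400) (nat_lit 3) (nat_lit 5)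 (nat_lit 5) (nat_lit 5) (nat_lit 4) (nat_lit 4) (nat_lit 368) (nat_lit 292) (nat_lit 240)))) (XT.nd (nat_lit 78) (nat_lit 0) (nat_lit 0) (XT.lf (nat_lit 0) (nat_lit 10197151049) (nat_lit 152) (nat_lit 189288417176) (nat_lit 0) (nat_lit 11810079) (nat_lit 2) (nat_lit 5) (nat_lit 4) (nat_lit 4) (nat_lit 2) (nat_lit 4) (nat_lit 369) (nat_lit 292) (nat_lit 239)) (XT.nd (nat_lit 78) (nat_lit 0) (nat_lit 0) (XT.lf (nat_lit 0) (nat_lit 20614966663) (nat_lit 152) (nat_lit 183902832136) (nat_lit 0) (nat_lit 10416636076) (nat_lit 2) (nat_lit 5) (nat_lit 4) (nat_lit 4) (nat_lit 2) (nat_lit 4) (nat_lit 370) (nat_lit 292) (nat_lit 238)) (XT.lf (nat_lit 0) (nat_lit 31841816077) (nat_lit 152) (nat_lit 178134404178) (nat_lit 0) (nat_lit 21631458068) (nat_lit 2) (nat_lit 5) (nat_lit 4) (nat_lit 4) (nat_lit 2) (nat_lit 4) (nat_lit 371) (nat_lit 292) (nat_lit 237))))))) (XT.nd (nat_lit 936) (nat_lit 76) (nat_lit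 0) (XT.nd (nat_lit 468) (nat_lit 0) (nat_lit 0) (XT.nd (nat_lit 234) (nat_lit 0) (nat_lit 0) (XT.nd (nat_lit 78) (nat_lit 0) (nat_lit 0) (XT.lf (nat_lit 0) (nat_lit 43944228770) (nat_lit 152) (nat_lit 171948950025) (nat_lit 0) (nat_lit 33722734259) (nat_lit 2) (nat_lit 5) (nat_lit 4) (nat_lit 4) (nat_lit 2) (nat_lit 4) (nat_lit 372) (nat_lit 292) (nat_lit 236)) (XT.nd (nat_lit 78) (nat_lit 0) (nat_lit 0) (XT.lf (nat_lit 0) (nat_lit 56993922743) (nat_lit 152) (nat_lit 165309815134) (nat_lit 0) (nat_lit 46762116656) (nat_lit 2) (nat_lit 5) (nat_lit 4) (nat_lit 4) (nat_lit 2) (nat_lit 4) (nat_lit 373) (nat_lit 292) (nat_lit 235)) (XT.lf (nat_lit 0) (nat_lit 71068229517) (nat_lit 152) (nat_lit 158177656484) (nat_lit 0) (nat_lit 60826875673) (nat_lit 2) (nat_lit 5) (nat_lit 4) (nat_lit 4) (nat_lit 2) (nat_lit 4) (nat_lit 374) (nat_lit 292) (nat_lit 234)))) (XT.nd (nat_lit 78) (nat_lit 0) (nat_lit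 0) (XT.lf (nat_lit 0) (nat_lit 86250552389) (nat_lit 152) (nat_lit 150510209430) (nat_lit 0) (nat_lit 76000358031) (nat_lit 2) (nat_lit 5) (nat_lit 4) (nat_lit 4) (nat_lit 2) (nat_lit 4) (nat_lit 375) (nat_lit 292) (nat_lit 233)) (XT.nd (nat_lit 78) (nat_lit 0) (nat_lit 0) (XT.lf (nat_lit 0) (nat_lit 102630860682) (nat_lit 152) (nat_lit 142262037250) (nat_lit 0) (nat_lit 92372480663) (nat_lit 2) (nat_lit 5) (nat_lit 4) (nat_lit 4) (nat_lit 2) (nat_lit 4) (nat_lit 376) (nat_lit 292) (nat_lit 232)) (XT.lf (nat_lit 0) (nat_lit 120306222889) (nat_lit 152) (nat_lit 133384261885) (nat_lit 0) (nat_lit 110040263553) (nat_lit 2) (nat_lit 5) (nat_lit 4) (nat_lit 4) (nat_lit 2) (nat_lit 4) (nat_lit 377) (nat_lit 292) (nat_lit 231))))) (XT.nd (nat_lit 234) (nat_lit 0) (nat_lit 0) (XT.nd (nat_lit 78) (nat_lit 0) (nat_lit 0) (XT.lf (nat_lit 0) (nat_lit 139381381896) (nat_lit 152) (nat_lit 123824274298)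 (nat_lit 0) (nat_lit 129108404674) (nat_lit 2) (nat_lit 5) (nat_lit 4) (nat_lit 4) (nat_lit 2) (nat_lit 4) (nat_lit 378) (nat_lit 292) (nat_lit 230)) (XT.nd (nat_lit 78) (nat_lit 0) (nat_lit 0) (XT.lf (nat_lit 0) (nat_lit 159969375683) (nat_lit 152) (nat_lit 113525422708) (nat_lit 0) (nat_lit 149689900420) (nat_lit 2) (nat_lit 5) (nat_lit 4) (nat_lit 4) (nat_lit 2) (nat_lit 4) (nat_lit 379) (nat_lit 292) (nat_lit 229)) (XT.lf (nat_lit 0) (nat_lit 182192207177) (nat_lit 152) (nat_lit 102426676886) (nat_lit 0) (nat_lit 171906715208) (nat_lit 2) (nat_lit 5) (nat_lit 4) (nat_lit 4) (nat_lit 2) (nat_lit 4) (nat_lit 380) (nat_lit 292) (nat_lit 228)))) (XT.nd (nat_lit 78) (nat_lit 0) (nat_lit 0) (XT.lf (nat_lit 0) (nat_lit 206181567230) (nat_lit 152) (nat_lit 90462266485) (nat_lit 0) (nat_lit 195890504237) (nat_lit 2) (nat_lit 5) (nat_lit 4) (nat_lit 4) (nat_lit 2) (nat_lit 4) (nat_lit 381) (nat_lit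 292) (nat_lit 227)) (XT.nd (nat_lit 78) (nat_lit 0) (nat_lit 0) (XT.lf (nat_lit 0) (nat_lit 232079615014) (nat_lit 152) (nat_lit 77561291295) (nat_lit 0) (nat_lit 221783393666) (nat_lit 2) (nat_lit 5) (nat_lit 4) (nat_lit 4) (nat_lit 2) (nat_lit 4) (nat_lit 382) (nat_lit 292) (nat_lit 226)) (XT.lf (nat_lit 0) (nat_lit 260039820441) (nat_lit 152) (nat_lit 63647301093) (nat_lit 0) (nat_lit 249738822837) (nat_lit 2) (nat_lit 5) (nat_lit 4) (nat_lit 4) (nat_lit 2) (nat_lit 4) (nat_lit 383) (nat_lit 292) (nat_lit 225)))))) (XT.nd (nat_lit 468) (nat_lit 0) (nat_lit 0) (XT.nd (nat_lit 234) (nat_lit 76) (nat_lit 0) (XT.nd (nat_lit 78) (nat_lit 0) (nat_lit 0) (XT.lf (nat_lit 0) (nat_lit 290227873617) (nat_lit 152) (nat_lit 48637842604) (nat_lit 0) (nat_lit 279922453555) (nat_lit 2) (nat_lit 5) (nat_lit 4) (nat_lit 4) (nat_lit 2) (nat_lit 4) (nat_lit 384) (nat_lit 292) (nat_lit 224)) (XT.nd (nat_lit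 78) (nat_lit 0) (nat_lit 0) (XT.lf (nat_lit 0) (nat_lit 322822666709) (nat_lit 152) (nat_lit 32443970889) (nat_lit 0) (nat_lit 312513151778) (nat_lit 2) (nat_lit 5) (nat_lit 4) (nat_lit 4) (nat_lit 2) (nat_lit 4) (nat_lit 385) (nat_lit 292) (nat_lit 223)) (XT.lf (nat_lit 0) (nat_lit 358017354047) (nat_lit 152) (nat_lit 14969722263) (nat_lit 0) (nat_lit 347704047571) (nat_lit 2) (nat_lit 5) (nat_lit 4) (nat_lit 4) (nat_lit 2) (nat_lit 4) (nat_lit 386) (nat_lit 292) (nat_lit 222)))) (XT.nd (nat_lit 78) (nat_lit 0) (nat_lit 0) (XT.lf (nat_lit 0) (nat_lit 4017024238) (nat_lit 76) (nat_lit 392066189508) (nat_lit 76) (nat_lit 381749372342) (nat_lit 1) (nat_lit 4) (nat_lit 2) (nat_lit 5) (nat_lit 2) (nat_lit 4) (nat_lit 387) (nat_lit 292) (nat_lit 221)) (XT.nd (nat_lit 78) (nat_lit 0) (nat_lit 0) (XT.lf (nat_lit 0) (nat_lit 25043871476) (nat_lit 76) (nat_lit 412404432141) (nat_lit 76) (nat_lit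 402084364337) (nat_lit 1) (nat_lit 4) (nat_lit 2) (nat_lit 5) (nat_lit 2) (nat_lit 4) (nat_lit 388) (nat_lit 292) (nat_lit 220)) (XT.lf (nat_lit 0) (nat_lit 47740456365) (nat_lit 76) (nat_lit 434375846620) (nat_lit 76) (nat_lit 424052768964) (nat_lit 1) (nat_lit 4) (nat_lit 2) (nat_lit 5) (nat_lit 2) (nat_lit 4) (nat_lit 389) (nat_lit 292) (nat_lit 219))))) (XT.nd (nat_lit 234) (nat_lit 0) (nat_lit 0) (XT.nd (nat_lit 78) (nat_lit 0) (nat_lit 0) (XT.lf (nat_lit 0) (nat_lit 72241277188) (nat_lit 76) (nat_lit 458110633917) (nat_lit 76) (nat_lit 447784769363) (nat_lit 1) (nat_lit 4) (nat_lit 2) (nat_lit 5) (nat_lit 2) (nat_lit 4) (nat_lit 390) (nat_lit 292) (nat_lit 218)) (XT.nd (nat_lit 78) (nat_lit 0) (nat_lit 0) (XT.lf (nat_lit 0) (nat_lit 98691523992) (nat_lit 76) (nat_lit 483749444626) (nat_lit 76) (nat_lit 473420999610) (nat_lit 1) (nat_lit 4) (nat_lit 2) (nat_lit 5) (nat_lit 2) (nat_lit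 4) (nat_lit 391) (nat_lit 292) (nat_lit 217)) (XT.lf (nat_lit 0) (nat_lit 127247938981) (nat_lit 76) (nat_lit 511444212439) (nat_lit 76) (nat_lit 501113378106) (nat_lit 1) (nat_lit 4) (nat_lit 2) (nat_lit 5) (nat_lit 2) (nat_lit 4) (nat_lit 392) (nat_lit 292) (nat_lit 216)))) (XT.nd (nat_lit 40716) (nat_lit 0) (nat_lit 5624) (XT.lf (nat_lit 0) (nat_lit 158079745356) (nat_lit 76) (nat_lit 541359054498) (nat_lit 76) (nat_lit 531026007835) (nat_lit 1) (nat_lit 4) (nat_lit 2) (nat_lit 5) (nat_lit 2) (nat_lit 4) (nat_lit 393) (nat_lit 292) (nat_lit 215)) (XT.nd (nat_lit 78) (nat_lit 304) (nat_lit 0) (XT.lf (nat_lit 0) (nat_lit 498670115) (nat_lit 380) (nat_lit 2971693601) (nat_lit 0) (nat_lit 498670115) (nat_lit 79) (nat_lit 5) (nat_lit 84) (nat_lit 4) (nat_lit 79) (nat_lit 4) (nat_lit 314) (nat_lit 293) (nat_lit 293)) (XT.lf (nat_lit 0) (nat_lit 3754857292) (nat_lit 304) (nat_lit 3157657604)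 (nat_lit 304) (nat_lit 1257904324) (nat_lit 75) (nat_lit 4) (nat_lit 79) (nat_lit 5) (nat_lit 79) (nat_lit 4) (nat_lit 315) (nat_lit 293) (nat_lit 292))))))))
noncomputable def xc34 : XT := (XT.nd (nat_lit 1794) (nat_lit 1064) (nat_lit 0) (XT.nd (nat_lit 858) (nat_lit 1368) (nat_lit 0) (XT.nd (nat_lit 390) (nat_lit 1216) (nat_lit 0) (XT.nd (nat_lit 156) (nat_lit 1064) (nat_lit 0) (XT.nd (nat_lit 78) (nat_lit 380) (nat_lit 0) (XT.lf (nat_lit 0) (nat_lit 4536716890) (nat_lit 304) (nat_lit 2838392000) (nat_lit 0) (nat_lit 1052160610) (nat_lit 71) (nat_lit 5) (nat_lit 75) (nat_lit 4) (nat_lit 71) (nat_lit 4) (nat_lit 316) (nat_lit 293) (nat_lit 291)) (XT.lf (nat_lit 0) (nat_lit 1851650263) (nat_lit 380) (nat_lit 1239846796) (nat_lit 76) (nat_lit 5617384306) (nat_lit 66) (nat_lit 5) (nat_lit 71) (nat_lit 5) (nat_lit 67) (nat_lit 4) (nat_lit 317) (nat_lit 293) (nat_lit 290))) (XT.nd (nat_lit 78)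 (nat_lit 608) (nat_lit 0) (XT.lf (nat_lit 0) (nat_lit 390729381) (nat_lit 228) (nat_lit 7394897926) (nat_lit 228) (nat_lit 1231086830) (nat_lit 60) (nat_lit 4) (nat_lit 63) (nat_lit 5) (nat_lit 63) (nat_lit 4) (nat_lit 318) (nat_lit 293) (nat_lit 289)) (XT.nd (nat_lit 78) (nat_lit 304) (nat_lit 0) (XT.lf (nat_lit 0) (nat_lit 2027199737) (nat_lit 228) (nat_lit 2586246340) (nat_lit 304) (nat_lit 4736055307) (nat_lit 56) (nat_lit 5) (nat_lit 59) (nat_lit 5) (nat_lit 60) (nat_lit 4) (nat_lit 319) (nat_lit 293) (nat_lit 288)) (XT.lf (nat_lit 0) (nat_lit 1043170934) (nat_lit 304) (nat_lit 6054927738) (nat_lit 76) (nat_lit 2613820081) (nat_lit 52) (nat_lit 5) (nat_lit 56) (nat_lit 5) (nat_lit 53) (nat_lit 4) (nat_lit 320) (nat_lit 293) (nat_lit 287))))) (XT.nd (nat_lit 234) (nat_lit 608) (nat_lit 0) (XT.nd (nat_lit 78) (nat_lit 456) (nat_lit 0) (XT.lf (nat_lit 0) (nat_lit 5213503111) (nat_lit 152)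 (nat_lit 1830930534) (nat_lit 228) (nat_lit 3058960145) (nat_lit 50) (nat_lit 5) (nat_lit 52) (nat_lit 5) (nat_lit 53) (nat_lit 4) (nat_lit 321) (nat_lit 293) (nat_lit 286)) (XT.nd (nat_lit 78) (nat_lit 152) (nat_lit 0) (XT.lf (nat_lit 0) (nat_lit 2858303544) (nat_lit 304) (nat_lit 3840610393) (nat_lit 76) (nat_lit 3827397037) (nat_lit 46) (nat_lit 5) (nat_lit 50) (nat_lit 5) (nat_lit 47) (nat_lit 4) (nat_lit 322) (nat_lit 293) (nat_lit 285)) (XT.lf (nat_lit 0) (nat_lit 8070781904) (nat_lit 152) (nat_lit 1009860995) (nat_lit 228) (nat_lit 1903153869) (nat_lit 44) (nat_lit 5) (nat_lit 46) (nat_lit 5) (nat_lit 47) (nat_lit 4) (nat_lit 323) (nat_lit 293) (nat_lit 284)))) (XT.nd (nat_lit 78) (nat_lit 380) (nat_lit 0) (XT.lf (nat_lit 0) (nat_lit 4184959330) (nat_lit 228) (nat_lit 2207872440) (nat_lit 76) (nat_lit 5081817392) (nat_lit 41) (nat_lit 5) (nat_lit 44) (nat_lit 5) (nat_lit 42) (nat_lit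 4) (nat_lit 324) (nat_lit 293) (nat_lit 283)) (XT.nd (nat_lit 78) (nat_lit 228) (nat_lit 0) (XT.lf (nat_lit 0) (nat_lit 10337229731) (nat_lit 152) (nat_lit 303616743) (nat_lit 228) (nat_lit 1365144962) (nat_lit 39) (nat_lit 5) (nat_lit 41) (nat_lit 5) (nat_lit 42) (nat_lit 4) (nat_lit 325) (nat_lit 293) (nat_lit 282)) (XT.lf (nat_lit 0) (nat_lit 4912289070) (nat_lit 228) (nat_lit 1467807808) (nat_lit 76) (nat_lit 6193947557) (nat_lit 36) (nat_lit 5) (nat_lit 39) (nat_lit 5) (nat_lit 37) (nat_lit 4) (nat_lit 326) (nat_lit 293) (nat_lit 281)))))) (XT.nd (nat_lit 468) (nat_lit 456) (nat_lit 0) (XT.nd (nat_lit 234) (nat_lit 532) (nat_lit 0) (XT.nd (nat_lit 78) (nat_lit 304) (nat_lit 0) (XT.lf (nat_lit 0) (nat_lit 11599653788) (nat_lit 152) (nat_lit 1514183559) (nat_lit 0) (nat_lit 74931069) (nat_lit 35) (nat_lit 5) (nat_lit 37) (nat_lit 4) (nat_lit 35) (nat_lit 4) (nat_lit 327) (nat_lit 293)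 (nat_lit 280)) (XT.nd (nat_lit 78) (nat_lit 76) (nat_lit 0) (XT.lf (nat_lit 0) (nat_lit 4877563483) (nat_lit 228) (nat_lit 2022153601) (nat_lit 76) (nat_lit 6945819437) (nat_lit 32) (nat_lit 5) (nat_lit 35) (nat_lit 5) (nat_lit 33) (nat_lit 4) (nat_lit 328) (nat_lit 293) (nat_lit 279)) (XT.lf (nat_lit 0) (nat_lit 11648387462) (nat_lit 76) (nat_lit 121958483) (nat_lit 152) (nat_lit 2785076505) (nat_lit 31) (nat_lit 5) (nat_lit 32) (nat_lit 5) (nat_lit 33) (nat_lit 4) (nat_lit 329) (nat_lit 293) (nat_lit 278)))) (XT.nd (nat_lit 78) (nat_lit 304) (nat_lit 0) (XT.lf (nat_lit 0) (nat_lit 3852971631) (nat_lit 228) (nat_lit 4393251584) (nat_lit 76) (nat_lit 7068671520) (nat_lit 28) (nat_lit 5) (nat_lit 31) (nat_lit 5) (nat_lit 29) (nat_lit 4) (nat_lit 330) (nat_lit 293) (nat_lit 277)) (XT.nd (nat_lit 78) (nat_lit 228) (nat_lit 0) (XT.lf (nat_lit 0) (nat_lit 9682085850) (nat_lit 76) (nat_lit 1219987396)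 (nat_lit 152) (nat_lit 5231972061) (nat_lit 27) (nat_lit 5) (nat_lit 28) (nat_lit 5) (nat_lit 29) (nat_lit 4) (nat_lit 331) (nat_lit 293) (nat_lit 276)) (XT.lf (nat_lit 0) (nat_lit 1528113911) (nat_lit 228) (nat_lit 9262303279) (nat_lit 76) (nat_lit 6223233844) (nat_lit 24) (nat_lit 5) (nat_lit 27) (nat_lit 5) (nat_lit 25) (nat_lit 4) (nat_lit 332) (nat_lit 293) (nat_lit 275))))) (XT.nd (nat_lit 234) (nat_lit 228) (nat_lit 0) (XT.nd (nat_lit 78) (nat_lit 152) (nat_lit 0) (XT.lf (nat_lit 0) (nat_lit 5027247159) (nat_lit 76) (nat_lit 3620869129) (nat_lit 152) (nat_lit 9311167264) (nat_lit 23) (nat_lit 5) (nat_lit 24) (nat_lit 5) (nat_lit 25) (nat_lit 4) (nat_lit 333) (nat_lit 293) (nat_lit 274)) (XT.nd (nat_lit 78) (nat_lit 76) (nat_lit 0) (XT.lf (nat_lit 0) (nat_lit 1419467832) (nat_lit 76) (nat_lit 14962867773) (nat_lit 76) (nat_lit 2596062686) (nat_lit 22) (nat_lit 4) (nat_lit 23) (nat_lit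 5) (nat_lit 23) (nat_lit 4) (nat_lit 334) (nat_lit 293) (nat_lit 273)) (XT.lf (nat_lit 0) (nat_lit 4597687984) (nat_lit 152) (nat_lit 3191768799) (nat_lit 76) (nat_lit 12281482304) (nat_lit 21) (nat_lit 5) (nat_lit 23) (nat_lit 5) (nat_lit 22) (nat_lit 4) (nat_lit 335) (nat_lit 293) (nat_lit 272)))) (XT.nd (nat_lit 78) (nat_lit 152) (nat_lit 0) (XT.lf (nat_lit 0) (nat_lit 12285816824) (nat_lit 152) (nat_lit 8913555411) (nat_lit 0) (nat_lit 48942413) (nat_lit 20) (nat_lit 5) (nat_lit 22) (nat_lit 4) (nat_lit 20) (nat_lit 4) (nat_lit 336) (nat_lit 293) (nat_lit 271)) (XT.nd (nat_lit 78) (nat_lit 76) (nat_lit 0) (XT.lf (nat_lit 0) (nat_lit 6442264591) (nat_lit 76) (nat_lit 14256675667) (nat_lit 76) (nat_lit 1815490000) (nat_lit 19) (nat_lit 4) (nat_lit 20) (nat_lit 5) (nat_lit 20) (nat_lit 4) (nat_lit 337) (nat_lit 293) (nat_lit 270)) (XT.lf (nat_lit 0) (nat_lit 5699089571) (nat_lit 152) (nat_lit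 947229134) (nat_lit 76) (nat_lit 17231712070) (nat_lit 18) (nat_lit 5) (nat_lit 20) (nat_lit 5) (nat_lit 19) (nat_lit 4) (nat_lit 338) (nat_lit 293) (nat_lit 269))))))) (XT.nd (nat_lit 936) (nat_lit 380) (nat_lit 0) (XT.nd (nat_lit 468) (nat_lit 304) (nat_lit 0) (XT.nd (nat_lit 234) (nat_lit 152) (nat_lit 0) (XT.nd (nat_lit 78) (nat_lit 152) (nat_lit 0) (XT.lf (nat_lit 0) (nat_lit 13861573474) (nat_lit 152) (nat_lit 9816345377) (nat_lit 0) (nat_lit 1665833735) (nat_lit 17) (nat_lit 5) (nat_lit 19) (nat_lit 4) (nat_lit 17) (nat_lit 4) (nat_lit 339) (nat_lit 293) (nat_lit 268)) (XT.nd (nat_lit 78) (nat_lit 76) (nat_lit 0) (XT.lf (nat_lit 0) (nat_lit 6222830278) (nat_lit 76) (nat_lit 16525294720) (nat_lit 76) (nat_lit 4175089398) (nat_lit 16) (nat_lit 4) (nat_lit 17) (nat_lit 5) (nat_lit 17) (nat_lit 4) (nat_lit 340) (nat_lit 293) (nat_lit 267)) (XT.lf (nat_lit 0) (nat_lit 3621146241) (nat_lit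 152) (nat_lit 5069879214) (nat_lit 76) (nat_lit 19933961269) (nat_lit 15) (nat_lit 5) (nat_lit 17) (nat_lit 5) (nat_lit 16) (nat_lit 4) (nat_lit 341) (nat_lit 293) (nat_lit 266)))) (XT.nd (nat_lit 78) (nat_lit 76) (nat_lit 0) (XT.lf (nat_lit 0) (nat_lit 11856973771) (nat_lit 76) (nat_lit 85773604) (nat_lit 152) (nat_lit 18514363334) (nat_lit 14) (nat_lit 5) (nat_lit 15) (nat_lit 5) (nat_lit 16) (nat_lit 4) (nat_lit 342) (nat_lit 293) (nat_lit 265)) (XT.nd (nat_lit 78) (nat_lit 76) (nat_lit 0) (XT.lf (nat_lit 0) (nat_lit 21028982706) (nat_lit 152) (nat_lit 2514138133) (nat_lit 0) (nat_lit 8887765459) (nat_lit 14) (nat_lit 5) (nat_lit 16) (nat_lit 4) (nat_lit 14) (nat_lit 4) (nat_lit 343) (nat_lit 293) (nat_lit 264)) (XT.lf (nat_lit 0) (nat_lit 15103134172) (nat_lit 76) (nat_lit 15851586065) (nat_lit 76) (nat_lit 3602238518) (nat_lit 13) (nat_lit 4) (nat_lit 14) (nat_lit 5) (nat_lit 14) (nat_lit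 4) (nat_lit 344) (nat_lit 293) (nat_lit 263))))) (XT.nd (nat_lit 234) (nat_lit 152) (nat_lit 0) (XT.nd (nat_lit 78) (nat_lit 76) (nat_lit 0) (XT.lf (nat_lit 0) (nat_lit 4590664995) (nat_lit 152) (nat_lit 2938604952) (nat_lit 76) (nat_lit 29323926313) (nat_lit 12) (nat_lit 5) (nat_lit 14) (nat_lit 5) (nat_lit 13) (nat_lit 4) (nat_lit 345) (nat_lit 293) (nat_lit 262)) (XT.nd (nat_lit 78) (nat_lit 0) (nat_lit 0) (XT.lf (nat_lit 0) (nat_lit 13464406829) (nat_lit 152) (nat_lit 24243494405) (nat_lit 0) (nat_lit 1614718736) (nat_lit 11) (nat_lit 5) (nat_lit 13) (nat_lit 4) (nat_lit 11) (nat_lit 4) (nat_lit 346) (nat_lit 293) (nat_lit 261)) (XT.lf (nat_lit 0) (nat_lit 23118626062) (nat_lit 152) (nat_lit 7680273363) (nat_lit 0) (nat_lit 11187188143) (nat_lit 11) (nat_lit 5) (nat_lit 13) (nat_lit 4) (nat_lit 11) (nat_lit 4) (nat_lit 347) (nat_lit 293) (nat_lit 260)))) (XT.nd (nat_lit 78) (nat_lit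 76) (nat_lit 0) (XT.lf (nat_lit 0) (nat_lit 10345945818) (nat_lit 76) (nat_lit 23260389416) (nat_lit 76) (nat_lit 11253257213) (nat_lit 10) (nat_lit 4) (nat_lit 11) (nat_lit 5) (nat_lit 11) (nat_lit 4) (nat_lit 348) (nat_lit 293) (nat_lit 259)) (XT.nd (nat_lit 78) (nat_lit 76) (nat_lit 0) (XT.lf (nat_lit 0) (nat_lit 29903724192) (nat_lit 76) (nat_lit 15067295645) (nat_lit 76) (nat_lit 2990076142) (nat_lit 10) (nat_lit 4) (nat_lit 11) (nat_lit 5) (nat_lit 11) (nat_lit 4) (nat_lit 349) (nat_lit 293) (nat_lit 258)) (XT.lf (nat_lit 0) (nat_lit 5654031735) (nat_lit 152) (nat_lit 551350093) (nat_lit 76) (nat_lit 45105229684) (nat_lit 9) (nat_lit 5) (nat_lit 11) (nat_lit 5) (nat_lit 10) (nat_lit 4) (nat_lit 350) (nat_lit 293) (nat_lit 257)))))) (XT.nd (nat_lit 468) (nat_lit 228) (nat_lit 0) (XT.nd (nat_lit 234) (nat_lit 76) (nat_lit 0) (XT.nd (nat_lit 78) (nat_lit 0) (nat_lit 0) (XT.lf (nat_lit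 0) (nat_lit 15152387843) (nat_lit 152) (nat_lit 36228647474) (nat_lit 0) (nat_lit 3531241448) (nat_lit 8) (nat_lit 5) (nat_lit 10) (nat_lit 4) (nat_lit 8) (nat_lit 4) (nat_lit 351) (nat_lit 293) (nat_lit 256)) (XT.nd (nat_lit 78) (nat_lit 0) (nat_lit 0) (XT.lf (nat_lit 0) (nat_lit 25444108112) (nat_lit 152) (nat_lit 19586331023) (nat_lit 0) (nat_lit 13769973566) (nat_lit 8) (nat_lit 5) (nat_lit 10) (nat_lit 4) (nat_lit 8) (nat_lit 4) (nat_lit 352) (nat_lit 293) (nat_lit 255)) (XT.lf (nat_lit 0) (nat_lit 36484258587) (nat_lit 152) (nat_lit 1758036695) (nat_lit 0) (nat_lit 24761060939) (nat_lit 8) (nat_lit 5) (nat_lit 10) (nat_lit 4) (nat_lit 8) (nat_lit 4) (nat_lit 353) (nat_lit 293) (nat_lit 254)))) (XT.nd (nat_lit 78) (nat_lit 0) (nat_lit 0) (XT.lf (nat_lit 0) (nat_lit 17935946974) (nat_lit 76) (nat_lit 30682345806) (nat_lit 76) (nat_lit 18913719359) (nat_lit 7) (nat_lit 4) (nat_lit 8)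 (nat_lit 5) (nat_lit 8) (nat_lit 4) (nat_lit 354) (nat_lit 293) (nat_lit 253)) (XT.nd (nat_lit 78) (nat_lit 0) (nat_lit 0) (XT.lf (nat_lit 0) (nat_lit 39139442882) (nat_lit 76) (nat_lit 22547998956) (nat_lit 76) (nat_lit 10737308806) (nat_lit 7) (nat_lit 4) (nat_lit 8) (nat_lit 5) (nat_lit 8) (nat_lit 4) (nat_lit 355) (nat_lit 293) (nat_lit 252)) (XT.lf (nat_lit 0) (nat_lit 61919972741) (nat_lit 76) (nat_lit 13820824398) (nat_lit 76) (nat_lit 1971186376) (nat_lit 7) (nat_lit 4) (nat_lit 8) (nat_lit 5) (nat_lit 8) (nat_lit 4) (nat_lit 356) (nat_lit 293) (nat_lit 251))))) (XT.nd (nat_lit 234) (nat_lit 76) (nat_lit 0) (XT.nd (nat_lit 78) (nat_lit 0) (nat_lit 0) (XT.lf (nat_lit 0) (nat_lit 2966324597) (nat_lit 76) (nat_lit 4278565872) (nat_lit 152) (nat_lit 76172031097) (nat_lit 5) (nat_lit 5) (nat_lit 6) (nat_lit 5) (nat_lit 7) (nat_lit 4) (nat_lit 357) (nat_lit 293) (nat_lit 250)) (XT.nd (nat_lit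 78) (nat_lit 0) (nat_lit 0) (XT.lf (nat_lit 0) (nat_lit 17447870982) (nat_lit 152) (nat_lit 66016486969) (nat_lit 0) (nat_lit 6096354419) (nat_lit 5) (nat_lit 5) (nat_lit 7) (nat_lit 4) (nat_lit 5) (nat_lit 4) (nat_lit 358) (nat_lit 293) (nat_lit 249)) (XT.lf (nat_lit 0) (nat_lit 28487437380) (nat_lit 152) (nat_lit 50601083461) (nat_lit 0) (nat_lit 17106475030) (nat_lit 5) (nat_lit 5) (nat_lit 7) (nat_lit 4) (nat_lit 5) (nat_lit 4) (nat_lit 359) (nat_lit 293) (nat_lit 248)))) (XT.nd (nat_lit 78) (nat_lit 76) (nat_lit 0) (XT.lf (nat_lit 0) (nat_lit 40362208915) (nat_lit 152) (nat_lit 34046235501) (nat_lit 0) (nat_lit 28953981946) (nat_lit 5) (nat_lit 5) (nat_lit 7) (nat_lit 4) (nat_lit 5) (nat_lit 4) (nat_lit 360) (nat_lit 293) (nat_lit 247)) (XT.nd (nat_lit 78) (nat_lit 76) (nat_lit 0) (XT.lf (nat_lit 0) (nat_lit 53142554601) (nat_lit 152) (nat_lit 16253840288) (nat_lit 0) (nat_lit 41709082616)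 (nat_lit 5) (nat_lit 5) (nat_lit 7) (nat_lit 4) (nat_lit 5) (nat_lit 4) (nat_lit 361) (nat_lit 293) (nat_lit 246)) (XT.lf (nat_lit 0) (nat_lit 2976815274) (nat_lit 76) (nat_lit 63973870977) (nat_lit 76) (nat_lit 52517023976) (nat_lit 4) (nat_lit 4) (nat_lit 5) (nat_lit 5) (nat_lit 5) (nat_lit 4) (nat_lit 362) (nat_lit 293) (nat_lit 245))))))))
noncomputable def xc35 : XT := (XT.nd (nat_lit 1794) (nat_lit 76) (nat_lit 0) (XT.nd (nat_lit 858) (nat_lit 0) (nat_lit 0) (XT.nd (nat_lit 390) (nat_lit 152) (nat_lit 0) (XT.nd (nat_lit 156) (nat_lit 0) (nat_lit 0) (XT.nd (nat_lit 78) (nat_lit 0) (nat_lit 0) (XT.lf (nat_lit 0) (nat_lit 24249429159) (nat_lit 76) (nat_lit 57857897515) (nat_lit 76) (nat_lit 46379406982) (nat_lit 4) (nat_lit 4) (nat_lit 5) (nat_lit 5) (nat_lit 5) (nat_lit 4) (nat_lit 363) (nat_lit 293) (nat_lit 244)) (XT.lf (nat_lit 0) (nat_lit 47152635937) (nat_lit 76) (nat_lit 51287498349)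 (nat_lit 76) (nat_lit 39788967507) (nat_lit 4) (nat_lit 4) (nat_lit 5) (nat_lit 5) (nat_lit 5) (nat_lit 4) (nat_lit 364) (nat_lit 293) (nat_lit 243))) (XT.nd (nat_lit 78) (nat_lit 0) (nat_lit 0) (XT.lf (nat_lit 0) (nat_lit 71822158315) (nat_lit 76) (nat_lit 44223737780) (nat_lit 76) (nat_lit 32706651097) (nat_lit 4) (nat_lit 4) (nat_lit 5) (nat_lit 5) (nat_lit 5) (nat_lit 4) (nat_lit 365) (nat_lit 293) (nat_lit 242)) (XT.nd (nat_lit 78) (nat_lit 0) (nat_lit 0) (XT.lf (nat_lit 0) (nat_lit 98404186054) (nat_lit 76) (nat_lit 36624756485) (nat_lit 76) (nat_lit 25090488468) (nat_lit 4) (nat_lit 4) (nat_lit 5) (nat_lit 5) (nat_lit 5) (nat_lit 4) (nat_lit 366) (nat_lit 293) (nat_lit 241)) (XT.lf (nat_lit 0) (nat_lit 127056242283) (nat_lit 76) (nat_lit 28445523465) (nat_lit 76) (nat_lit 16895346805) (nat_lit 4) (nat_lit 4) (nat_lit 5) (nat_lit 5) (nat_lit 5) (nat_lit 4) (nat_lit 367) (nat_lit 293)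 (nat_lit 240))))) (XT.nd (nat_lit 234) (nat_lit 0) (nat_lit 0) (XT.nd (nat_lit 78) (nat_lit 152) (nat_lit 0) (XT.lf (nat_lit 0) (nat_lit 157948116963) (nat_lit 76) (nat_lit 19637569190) (nat_lit 76) (nat_lit 8072662305) (nat_lit 4) (nat_lit 4) (nat_lit 5) (nat_lit 5) (nat_lit 5) (nat_lit 4) (nat_lit 368) (nat_lit 293) (nat_lit 239)) (XT.nd (nat_lit 78) (nat_lit 76) (nat_lit 0) (XT.lf (nat_lit 0) (nat_lit 1384083552) (nat_lit 152) (nat_lit 8741174699) (nat_lit 76) (nat_lit 189855349379) (nat_lit 3) (nat_lit 5) (nat_lit 5) (nat_lit 5) (nat_lit 4) (nat_lit 4) (nat_lit 369) (nat_lit 293) (nat_lit 238)) (XT.lf (nat_lit 0) (nat_lit 11488790904) (nat_lit 152) (nat_lit 203494953214) (nat_lit 0) (nat_lit 449576832) (nat_lit 2) (nat_lit 5) (nat_lit 4) (nat_lit 4) (nat_lit 2) (nat_lit 4) (nat_lit 370) (nat_lit 293) (nat_lit 237)))) (XT.nd (nat_lit 78) (nat_lit 0) (nat_lit 0) (XT.lf (nat_lit 0) (nat_lit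 22704782302) (nat_lit 152) (nat_lit 197747894507) (nat_lit 0) (nat_lit 11654431727) (nat_lit 2) (nat_lit 5) (nat_lit 4) (nat_lit 4) (nat_lit 2) (nat_lit 4) (nat_lit 371) (nat_lit 293) (nat_lit 236)) (XT.nd (nat_lit 78) (nat_lit 0) (nat_lit 0) (XT.lf (nat_lit 0) (nat_lit 34797141276) (nat_lit 152) (nat_lit 191582226697) (nat_lit 0) (nat_lit 23736479125) (nat_lit 2) (nat_lit 5) (nat_lit 4) (nat_lit 4) (nat_lit 2) (nat_lit 4) (nat_lit 372) (nat_lit 293) (nat_lit 235)) (XT.lf (nat_lit 0) (nat_lit 47837526250) (nat_lit 152) (nat_lit 184961412495) (nat_lit 0) (nat_lit 36767316344) (nat_lit 2) (nat_lit 5) (nat_lit 4) (nat_lit 4) (nat_lit 2) (nat_lit 4) (nat_lit 373) (nat_lit 293) (nat_lit 234)))))) (XT.nd (nat_lit 468) (nat_lit 0) (nat_lit 0) (XT.nd (nat_lit 234) (nat_lit 0) (nat_lit 0) (XT.nd (nat_lit 78) (nat_lit 0) (nat_lit 0) (XT.lf (nat_lit 0) (nat_lit 61903213580) (nat_lit 152) (nat_lit 177846217445)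 (nat_lit 0) (nat_lit 50824163159) (nat_lit 2) (nat_lit 5) (nat_lit 4) (nat_lit 4) (nat_lit 2) (nat_lit 4) (nat_lit 374) (nat_lit 293) (nat_lit 233)) (XT.nd (nat_lit 78) (nat_lit 0) (nat_lit 0) (XT.lf (nat_lit 0) (nat_lit 77077555487) (nat_lit 152) (nat_lit 170194477429) (nat_lit 0) (nat_lit 65990319404) (nat_lit 2) (nat_lit 5) (nat_lit 4) (nat_lit 4) (nat_lit 2) (nat_lit 4) (nat_lit 375) (nat_lit 293) (nat_lit 232)) (XT.lf (nat_lit 0) (nat_lit 93450473996) (nat_lit 152) (nat_lit 161960848801) (nat_lit 0) (nat_lit 82355658597) (nat_lit 2) (nat_lit 5) (nat_lit 4) (nat_lit 4) (nat_lit 2) (nat_lit 4) (nat_lit 376) (nat_lit 293) (nat_lit 231)))) (XT.nd (nat_lit 78) (nat_lit 0) (nat_lit 0) (XT.lf (nat_lit 0) (nat_lit 111118993810) (nat_lit 152) (nat_lit 153096539690) (nat_lit 0) (nat_lit 100017160526) (nat_lit 2) (nat_lit 5) (nat_lit 4) (nat_lit 4) (nat_lit 2) (nat_lit 4) (nat_lit 377) (nat_lit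 293) (nat_lit 230)) (XT.nd (nat_lit 78) (nat_lit 0) (nat_lit 0) (XT.lf (nat_lit 0) (nat_lit 130187817269) (nat_lit 152) (nat_lit 143549020855) (nat_lit 0) (nat_lit 119079485943) (nat_lit 2) (nat_lit 5) (nat_lit 4) (nat_lit 4) (nat_lit 2) (nat_lit 4) (nat_lit 378) (nat_lit 293) (nat_lit 229)) (XT.lf (nat_lit 0) (nat_lit 150769944808) (nat_lit 152) (nat_lit 133261714407) (nat_lit 0) (nat_lit 139655596776) (nat_lit 2) (nat_lit 5) (nat_lit 4) (nat_lit 4) (nat_lit 2) (nat_lit 4) (nat_lit 379) (nat_lit 293) (nat_lit 228))))) (XT.nd (nat_lit 234) (nat_lit 0) (nat_lit 0) (XT.nd (nat_lit 78) (nat_lit 0) (nat_lit 0) (XT.lf (nat_lit 0) (nat_lit 172987344591) (nat_lit 152) (nat_lit 122173658530) (nat_lit 0) (nat_lit 161867425534) (nat_lit 2) (nat_lit 5) (nat_lit 4) (nat_lit 4) (nat_lit 2) (nat_lit 4) (nat_lit 380) (nat_lit 293) (nat_lit 227)) (XT.nd (nat_lit 78) (nat_lit 0) (nat_lit 0) (XT.lf (nat_lit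 0) (nat_lit 196971675281) (nat_lit 152) (nat_lit 110219146227) (nat_lit 0) (nat_lit 185846597870) (nat_lit 2) (nat_lit 5) (nat_lit 4) (nat_lit 4) (nat_lit 2) (nat_lit 4) (nat_lit 381) (nat_lit 293) (nat_lit 226)) (XT.lf (nat_lit 0) (nat_lit 222865066248) (nat_lit 152) (nat_lit 97327335942) (nat_lit 0) (nat_lit 211735212581) (nat_lit 2) (nat_lit 5) (nat_lit 4) (nat_lit 4) (nat_lit 2) (nat_lit 4) (nat_lit 382) (nat_lit 293) (nat_lit 225)))) (XT.nd (nat_lit 78) (nat_lit 0) (nat_lit 0) (XT.lf (nat_lit 0) (nat_lit 250820959807) (nat_lit 152) (nat_lit 83421831764) (nat_lit 0) (nat_lit 239686683682) (nat_lit 2) (nat_lit 5) (nat_lit 4) (nat_lit 4) (nat_lit 2) (nat_lit 4) (nat_lit 383) (nat_lit 293) (nat_lit 224)) (XT.nd (nat_lit 78) (nat_lit 0) (nat_lit 0) (XT.lf (nat_lit 0) (nat_lit 281005020513) (nat_lit 152) (nat_lit 68420230704) (nat_lit 0) (nat_lit 269866649519) (nat_lit 2) (nat_lit 5) (nat_lit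 4) (nat_lit 4) (nat_lit 2) (nat_lit 4) (nat_lit 384) (nat_lit 293) (nat_lit 223)) (XT.lf (nat_lit 0) (nat_lit 313596116873) (nat_lit 152) (nat_lit 52233634386) (nat_lit 0) (nat_lit 302453954334) (nat_lit 2) (nat_lit 5) (nat_lit 4) (nat_lit 4) (nat_lit 2) (nat_lit 4) (nat_lit 385) (nat_lit 293) (nat_lit 222))))))) (XT.nd (nat_lit 41418) (nat_lit 0) (nat_lit 2584) (XT.nd (nat_lit 468) (nat_lit 0) (nat_lit 0) (XT.nd (nat_lit 234) (nat_lit 0) (nat_lit 0) (XT.nd (nat_lit 78) (nat_lit 76) (nat_lit 0) (XT.lf (nat_lit 0) (nat_lit 348787381312) (nat_lit 152) (nat_lit 34766122239) (nat_lit 0) (nat_lit 337641708083) (nat_lit 2) (nat_lit 5) (nat_lit 4) (nat_lit 4) (nat_lit 2) (nat_lit 4) (nat_lit 386) (nat_lit 293) (nat_lit 221)) (XT.nd (nat_lit 78) (nat_lit 76) (nat_lit 0) (XT.lf (nat_lit 0) (nat_lit 386787354654) (nat_lit 152) (nat_lit 15914183080) (nat_lit 0) (nat_lit 375638430786) (nat_lit 2) (nat_lit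 5) (nat_lit 4) (nat_lit 4) (nat_lit 2) (nat_lit 4) (nat_lit 387) (nat_lit 293) (nat_lit 220)) (XT.lf (nat_lit 0) (nat_lit 4580502986) (nat_lit 76) (nat_lit 423312233429) (nat_lit 76) (nat_lit 412160299711) (nat_lit 1) (nat_lit 4) (nat_lit 2) (nat_lit 5) (nat_lit 2) (nat_lit 4) (nat_lit 388) (nat_lit 293) (nat_lit 219)))) (XT.nd (nat_lit 78) (nat_lit 0) (nat_lit 0) (XT.lf (nat_lit 0) (nat_lit 27271563424) (nat_lit 76) (nat_lit 445286368898) (nat_lit 76) (nat_lit 434131648281) (nat_lit 1) (nat_lit 4) (nat_lit 2) (nat_lit 5) (nat_lit 2) (nat_lit 4) (nat_lit 389) (nat_lit 293) (nat_lit 218)) (XT.nd (nat_lit 78) (nat_lit 0) (nat_lit 0) (XT.lf (nat_lit 0) (nat_lit 51767269014) (nat_lit 76) (nat_lit 469023675632) (nat_lit 76) (nat_lit 457866374553) (nat_lit 1) (nat_lit 4) (nat_lit 2) (nat_lit 5) (nat_lit 2) (nat_lit 4) (nat_lit 390) (nat_lit 293) (nat_lit 217)) (XT.lf (nat_lit 0) (nat_lit 78212779492)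 (nat_lit 76) (nat_lit 494664819152) (nat_lit 76) (nat_lit 483505128756) (nat_lit 1) (nat_lit 4) (nat_lit 2) (nat_lit 5) (nat_lit 2) (nat_lit 4) (nat_lit 391) (nat_lit 293) (nat_lit 216))))) (XT.nd (nat_lit 40716) (nat_lit 0) (nat_lit 5548) (XT.nd (nat_lit 78) (nat_lit 0) (nat_lit 0) (XT.lf (nat_lit 0) (nat_lit 106764808994) (nat_lit 76) (nat_lit 522361746975) (nat_lit 76) (nat_lit 511199844249) (nat_lit 1) (nat_lit 4) (nat_lit 2) (nat_lit 5) (nat_lit 2) (nat_lit 4) (nat_lit 392) (nat_lit 293) (nat_lit 215)) (XT.nd (nat_lit 40560) (nat_lit 0) (nat_lit 7068) (XT.lf (nat_lit 0) (nat_lit 137592554732) (nat_lit 76) (nat_lit 552278589044) (nat_lit 76) (nat_lit 541114637864) (nat_lit 1) (nat_lit 4) (nat_lit 2) (nat_lit 5) (nat_lit 2) (nat_lit 4) (nat_lit 393) (nat_lit 293) (nat_lit 214)) (XT.lf (nat_lit 0) (nat_lit 3258384155) (nat_lit 380) (nat_lit 253658067) (nat_lit 380) (nat_lit 253658067)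 (nat_lit 94) (nat_lit 4) (nat_lit 99) (nat_lit 5) (nat_lit 99) (nat_lit 4) (nat_lit 312) (nat_lit 294) (nat_lit 294)))) (XT.nd (nat_lit 78) (nat_lit 760) (nat_lit 0) (XT.lf (nat_lit 0) (nat_lit 287324399) (nat_lit 380) (nat_lit 4797396740) (nat_lit 380) (nat_lit 2643076521) (nat_lit 84) (nat_lit 4) (nat_lit 89) (nat_lit 5) (nat_lit 89) (nat_lit 4) (nat_lit 313) (nat_lit 294) (nat_lit 293)) (XT.nd (nat_lit 78) (nat_lit 380) (nat_lit 0) (XT.lf (nat_lit 0) (nat_lit 1731641879) (nat_lit 304) (nat_lit 1136993750) (nat_lit 380) (nat_lit 5078665024) (nat_lit 79) (nat_lit 5) (nat_lit 83) (nat_lit 5) (nat_lit 84) (nat_lit 4) (nat_lit 314) (nat_lit 294) (nat_lit 292)) (XT.lf (nat_lit 0) (nat_lit 372036125) (nat_lit 380) (nat_lit 4947843579) (nat_lit 76) (nat_lit 2870126275) (nat_lit 74) (nat_lit 5) (nat_lit 79) (nat_lit 5) (nat_lit 75) (nat_lit 4) (nat_lit 315) (nat_lit 294) (nat_lit 291)))))) (XT.nd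 (nat_lit 468) (nat_lit 1140) (nat_lit 0) (XT.nd (nat_lit 234) (nat_lit 988) (nat_lit 0) (XT.nd (nat_lit 78) (nat_lit 608) (nat_lit 0) (XT.lf (nat_lit 0) (nat_lit 4797442601) (nat_lit 228) (nat_lit 1122895190) (nat_lit 304) (nat_lit 2536011786) (nat_lit 71) (nat_lit 5) (nat_lit 74) (nat_lit 5) (nat_lit 75) (nat_lit 4) (nat_lit 316) (nat_lit 294) (nat_lit 290)) (XT.nd (nat_lit 78) (nat_lit 228) (nat_lit 0) (XT.lf (nat_lit 0) (nat_lit 2957505959) (nat_lit 380) (nat_lit 2363146378) (nat_lit 76) (nat_lit 3426670252) (nat_lit 66) (nat_lit 5) (nat_lit 71) (nat_lit 5) (nat_lit 67) (nat_lit 4) (nat_lit 317) (nat_lit 294) (nat_lit 289)) (XT.lf (nat_lit 0) (nat_lit 8030190873) (nat_lit 228) (nat_lit 645958286) (nat_lit 304) (nat_lit 389913623) (nat_lit 63) (nat_lit 5) (nat_lit 66) (nat_lit 5) (nat_lit 67) (nat_lit 4) (nat_lit 318) (nat_lit 294) (nat_lit 288)))) (XT.nd (nat_lit 78) (nat_lit 456) (nat_lit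 0) (XT.lf (nat_lit 0) (nat_lit 221249255) (nat_lit 228) (nat_lit 4991107633) (nat_lit 304) (nat_lit 4196727565) (nat_lit 56) (nat_lit 5) (nat_lit 59) (nat_lit 5) (nat_lit 60) (nat_lit 4) (nat_lit 319) (nat_lit 294) (nat_lit 287)) (XT.nd (nat_lit 78) (nat_lit 152) (nat_lit 0) (XT.lf (nat_lit 0) (nat_lit 1337858352) (nat_lit 304) (nat_lit 8257340814) (nat_lit 76) (nat_lit 187359993) (nat_lit 52) (nat_lit 5) (nat_lit 56) (nat_lit 5) (nat_lit 53) (nat_lit 4) (nat_lit 320) (nat_lit 294) (nat_lit 286)) (XT.lf (nat_lit 0) (nat_lit 2705131953) (nat_lit 152) (nat_lit 4447373325) (nat_lit 228) (nat_lit 3030961034) (nat_lit 50) (nat_lit 5) (nat_lit 52) (nat_lit 5) (nat_lit 53) (nat_lit 4) (nat_lit 321) (nat_lit 294) (nat_lit 285))))) (XT.nd (nat_lit 234) (nat_lit 456) (nat_lit 0) (XT.nd (nat_lit 78) (nat_lit 380) (nat_lit 0) (XT.lf (nat_lit 0) (nat_lit 2654996748) (nat_lit 304) (nat_lit 6789758969)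 (nat_lit 76) (nat_lit 1173215768) (nat_lit 46) (nat_lit 5) (nat_lit 50) (nat_lit 5) (nat_lit 47) (nat_lit 4) (nat_lit 322) (nat_lit 294) (nat_lit 284)) (XT.nd (nat_lit 78) (nat_lit 228) (nat_lit 0) (XT.lf (nat_lit 0) (nat_lit 4800236422) (nat_lit 152) (nat_lit 3889809288) (nat_lit 228) (nat_lit 2394858824) (nat_lit 44) (nat_lit 5) (nat_lit 46) (nat_lit 5) (nat_lit 47) (nat_lit 4) (nat_lit 323) (nat_lit 294) (nat_lit 283)) (XT.lf (nat_lit 0) (nat_lit 3472463978) (nat_lit 228) (nat_lit 5965541303) (nat_lit 76) (nat_lit 2150034852) (nat_lit 41) (nat_lit 5) (nat_lit 44) (nat_lit 5) (nat_lit 42) (nat_lit 4) (nat_lit 324) (nat_lit 294) (nat_lit 282)))) (XT.nd (nat_lit 78) (nat_lit 304) (nat_lit 0) (XT.lf (nat_lit 0) (nat_lit 6240821377) (nat_lit 152) (nat_lit 3497377997) (nat_lit 228) (nat_lit 2390758174) (nat_lit 39) (nat_lit 5) (nat_lit 41) (nat_lit 5) (nat_lit 42) (nat_lit 4) (nat_lit 325)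 (nat_lit 294) (nat_lit 281)) (XT.nd (nat_lit 78) (nat_lit 76) (nat_lit 0) (XT.lf (nat_lit 0) (nat_lit 3673909783) (nat_lit 228) (nat_lit 6100478956) (nat_lit 76) (nat_lit 2935761621) (nat_lit 36) (nat_lit 5) (nat_lit 39) (nat_lit 5) (nat_lit 37) (nat_lit 4) (nat_lit 326) (nat_lit 294) (nat_lit 280)) (XT.lf (nat_lit 0) (nat_lit 6684915412) (nat_lit 76) (nat_lit 3480044222) (nat_lit 152) (nat_lit 3169785610) (nat_lit 35) (nat_lit 5) (nat_lit 36) (nat_lit 5) (nat_lit 37) (nat_lit 4) (nat_lit 327) (nat_lit 294) (nat_lit 279))))))))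
noncomputable def xc36 : XT := (XT.nd (nat_lit 1794) (nat_lit 608) (nat_lit 0) (XT.nd (nat_lit 858) (nat_lit 608) (nat_lit 0) (XT.nd (nat_lit 390) (nat_lit 532) (nat_lit 0) (XT.nd (nat_lit 156) (nat_lit 456) (nat_lit 0) (XT.nd (nat_lit 78) (nat_lit 76) (nat_lit 0) (XT.lf (nat_lit 0) (nat_lit 3091184751) (nat_lit 228) (nat_lit 7602021708) (nat_lit 76) (nat_lit 3312404422) (nat_lit 32) (nat_lit 5) (nat_lit 35) (nat_lit 5) (nat_lit 33) (nat_lit 4) (nat_lit 328) (nat_lit 294) (nat_lit 278)) (XT.lf (nat_lit 0) (nat_lit 5688252671) (nat_lit 76) (nat_lit 4093609277) (nat_lit 152) (nat_lit 4943785163) (nat_lit 31) (nat_lit 5) (nat_lit 32) (nat_lit 5) (nat_lit 33) (nat_lit 4) (nat_lit 329) (nat_lit 294) (nat_lit 277))) (XT.nd (nat_lit 78) (nat_lit 228) (nat_lit 0) (XT.lf (nat_lit 0) (nat_lit 1491036771) (nat_lit 228) (nat_lit 10999232947) (nat_lit 76) (nat_lit 3010190488) (nat_lit 28) (nat_lit 5)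 (nat_lit 31) (nat_lit 5) (nat_lit 29) (nat_lit 4) (nat_lit 330) (nat_lit 294) (nat_lit 276)) (XT.nd (nat_lit 78) (nat_lit 152) (nat_lit 0) (XT.lf (nat_lit 0) (nat_lit 2671070178) (nat_lit 76) (nat_lit 5657928766) (nat_lit 152) (nat_lit 8001205580) (nat_lit 27) (nat_lit 5) (nat_lit 28) (nat_lit 5) (nat_lit 29) (nat_lit 4) (nat_lit 331) (nat_lit 294) (nat_lit 275)) (XT.lf (nat_lit 0) (nat_lit 221016735) (nat_lit 152) (nat_lit 15514140740) (nat_lit 152) (nat_lit 1490183771) (nat_lit 25) (nat_lit 4) (nat_lit 27) (nat_lit 5) (nat_lit 27) (nat_lit 4) (nat_lit 332) (nat_lit 294) (nat_lit 274))))) (XT.nd (nat_lit 234) (nat_lit 228) (nat_lit 0) (XT.nd (nat_lit 78) (nat_lit 228) (nat_lit 0) (XT.lf (nat_lit 0) (nat_lit 5504058976) (nat_lit 228) (nat_lit 3024390174) (nat_lit 76) (nat_lit 9652390678) (nat_lit 24) (nat_lit 5) (nat_lit 27) (nat_lit 5) (nat_lit 25) (nat_lit 4) (nat_lit 333) (nat_lit 294)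 (nat_lit 273)) (XT.nd (nat_lit 78) (nat_lit 152) (nat_lit 0) (XT.lf (nat_lit 0) (nat_lit 12105029925) (nat_lit 76) (nat_lit 907397531) (nat_lit 152) (nat_lit 6198847455) (nat_lit 23) (nat_lit 5) (nat_lit 24) (nat_lit 5) (nat_lit 25) (nat_lit 4) (nat_lit 334) (nat_lit 294) (nat_lit 272)) (XT.lf (nat_lit 0) (nat_lit 890721729) (nat_lit 152) (nat_lit 12282325001) (nat_lit 76) (nat_lit 7144580629) (nat_lit 21) (nat_lit 5) (nat_lit 23) (nat_lit 5) (nat_lit 22) (nat_lit 4) (nat_lit 335) (nat_lit 294) (nat_lit 271)))) (XT.nd (nat_lit 78) (nat_lit 152) (nat_lit 0) (XT.lf (nat_lit 0) (nat_lit 2787998558) (nat_lit 76) (nat_lit 5558747745) (nat_lit 152) (nat_lit 13159884531) (nat_lit 20) (nat_lit 5) (nat_lit 21) (nat_lit 5) (nat_lit 22) (nat_lit 4) (nat_lit 336) (nat_lit 294) (nat_lit 270)) (XT.nd (nat_lit 78) (nat_lit 152) (nat_lit 0) (XT.lf (nat_lit 0) (nat_lit 16493043397) (nat_lit 152) (nat_lit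 3629990851) (nat_lit 0) (nat_lit 2663074533) (nat_lit 20) (nat_lit 5) (nat_lit 22) (nat_lit 4) (nat_lit 20) (nat_lit 4) (nat_lit 337) (nat_lit 294) (nat_lit 269)) (XT.lf (nat_lit 0) (nat_lit 1228277310) (nat_lit 152) (nat_lit 11487164347) (nat_lit 76) (nat_lit 11444608913) (nat_lit 18) (nat_lit 5) (nat_lit 20) (nat_lit 5) (nat_lit 19) (nat_lit 4) (nat_lit 338) (nat_lit 294) (nat_lit 268)))))) (XT.nd (nat_lit 468) (nat_lit 228) (nat_lit 0) (XT.nd (nat_lit 234) (nat_lit 228) (nat_lit 0) (XT.nd (nat_lit 78) (nat_lit 76) (nat_lit 0) (XT.lf (nat_lit 0) (nat_lit 4529523056) (nat_lit 76) (nat_lit 4590889018) (nat_lit 152) (nat_lit 16518894929) (nat_lit 17) (nat_lit 5) (nat_lit 18) (nat_lit 5) (nat_lit 19) (nat_lit 4) (nat_lit 339) (nat_lit 294) (nat_lit 267)) (XT.nd (nat_lit 78) (nat_lit 76) (nat_lit 0) (XT.lf (nat_lit 0) (nat_lit 17769164521) (nat_lit 152) (nat_lit 5328056632) (nat_lit 0) (nat_lit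 4133453504) (nat_lit 17) (nat_lit 5) (nat_lit 19) (nat_lit 4) (nat_lit 17) (nat_lit 4) (nat_lit 340) (nat_lit 294) (nat_lit 266)) (XT.lf (nat_lit 0) (nat_lit 11765069004) (nat_lit 76) (nat_lit 15473020045) (nat_lit 76) (nat_lit 1704879687) (nat_lit 16) (nat_lit 4) (nat_lit 17) (nat_lit 5) (nat_lit 17) (nat_lit 4) (nat_lit 341) (nat_lit 294) (nat_lit 265)))) (XT.nd (nat_lit 78) (nat_lit 152) (nat_lit 0) (XT.lf (nat_lit 0) (nat_lit 6424230912) (nat_lit 152) (nat_lit 721086746) (nat_lit 76) (nat_lit 23643471804) (nat_lit 15) (nat_lit 5) (nat_lit 17) (nat_lit 5) (nat_lit 16) (nat_lit 4) (nat_lit 342) (nat_lit 294) (nat_lit 264)) (XT.nd (nat_lit 78) (nat_lit 76) (nat_lit 0) (XT.lf (nat_lit 0) (nat_lit 15328500316) (nat_lit 152) (nat_lit 15452100379) (nat_lit 0) (nat_lit 1991074666) (nat_lit 14) (nat_lit 5) (nat_lit 16) (nat_lit 4) (nat_lit 14) (nat_lit 4) (nat_lit 343) (nat_lit 294) (nat_lit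 263)) (XT.lf (nat_lit 0) (nat_lit 1628138849) (nat_lit 76) (nat_lit 23360229923) (nat_lit 76) (nat_lit 9922683625) (nat_lit 13) (nat_lit 4) (nat_lit 14) (nat_lit 5) (nat_lit 14) (nat_lit 4) (nat_lit 344) (nat_lit 294) (nat_lit 262))))) (XT.nd (nat_lit 234) (nat_lit 76) (nat_lit 0) (XT.nd (nat_lit 78) (nat_lit 152) (nat_lit 0) (XT.lf (nat_lit 0) (nat_lit 20416187771) (nat_lit 76) (nat_lit 15163856486) (nat_lit 76) (nat_lit 1633605885) (nat_lit 13) (nat_lit 4) (nat_lit 14) (nat_lit 5) (nat_lit 14) (nat_lit 4) (nat_lit 345) (nat_lit 294) (nat_lit 261)) (XT.nd (nat_lit 78) (nat_lit 0) (nat_lit 0) (XT.lf (nat_lit 0) (nat_lit 717256891) (nat_lit 76) (nat_lit 6274618625) (nat_lit 152) (nat_lit 32707509979) (nat_lit 11) (nat_lit 5) (nat_lit 12) (nat_lit 5) (nat_lit 13) (nat_lit 4) (nat_lit 346) (nat_lit 294) (nat_lit 260)) (XT.lf (nat_lit 0) (nat_lit 16499872288) (nat_lit 152) (nat_lit 22413825114)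 (nat_lit 0) (nat_lit 3456475224) (nat_lit 11) (nat_lit 5) (nat_lit 13) (nat_lit 4) (nat_lit 11) (nat_lit 4) (nat_lit 347) (nat_lit 294) (nat_lit 259)))) (XT.nd (nat_lit 78) (nat_lit 76) (nat_lit 0) (XT.lf (nat_lit 0) (nat_lit 26781368843) (nat_lit 152) (nat_lit 4804742600) (nat_lit 0) (nat_lit 13667884480) (nat_lit 11) (nat_lit 5) (nat_lit 13) (nat_lit 4) (nat_lit 11) (nat_lit 4) (nat_lit 348) (nat_lit 294) (nat_lit 258)) (XT.nd (nat_lit 78) (nat_lit 0) (nat_lit 0) (XT.lf (nat_lit 0) (nat_lit 14511905028) (nat_lit 76) (nat_lit 23513994669) (nat_lit 76) (nat_lit 10335614657) (nat_lit 10) (nat_lit 4) (nat_lit 11) (nat_lit 5) (nat_lit 11) (nat_lit 4) (nat_lit 349) (nat_lit 294) (nat_lit 257)) (XT.lf (nat_lit 0) (nat_lit 35387025410) (nat_lit 76) (nat_lit 14784507166) (nat_lit 76) (nat_lit 1546038592) (nat_lit 10) (nat_lit 4) (nat_lit 11) (nat_lit 5) (nat_lit 11) (nat_lit 4) (nat_lit 350) (nat_lit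 294) (nat_lit 256))))))) (XT.nd (nat_lit 858) (nat_lit 228) (nat_lit 0) (XT.nd (nat_lit 390) (nat_lit 152) (nat_lit 0) (XT.nd (nat_lit 156) (nat_lit 76) (nat_lit 0) (XT.nd (nat_lit 78) (nat_lit 0) (nat_lit 0) (XT.lf (nat_lit 0) (nat_lit 2393305225) (nat_lit 76) (nat_lit 5259090559) (nat_lit 152) (nat_lit 47685523656) (nat_lit 8) (nat_lit 5) (nat_lit 9) (nat_lit 5) (nat_lit 10) (nat_lit 4) (nat_lit 351) (nat_lit 294) (nat_lit 255)) (XT.lf (nat_lit 0) (nat_lit 17825993730) (nat_lit 152) (nat_lit 36290096045) (nat_lit 0) (nat_lit 5115877168) (nat_lit 8) (nat_lit 5) (nat_lit 10) (nat_lit 4) (nat_lit 8) (nat_lit 4) (nat_lit 352) (nat_lit 294) (nat_lit 254))) (XT.nd (nat_lit 78) (nat_lit 76) (nat_lit 0) (XT.lf (nat_lit 0) (nat_lit 28832798668) (nat_lit 152) (nat_lit 18526530813) (nat_lit 0) (nat_lit 16077253307) (nat_lit 8) (nat_lit 5) (nat_lit 10) (nat_lit 4) (nat_lit 8) (nat_lit 4) (nat_lit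 353) (nat_lit 294) (nat_lit 253)) (XT.nd (nat_lit 78) (nat_lit 0) (nat_lit 0) (XT.lf (nat_lit 0) (nat_lit 551094665) (nat_lit 76) (nat_lit 40113436433) (nat_lit 76) (nat_lit 27315827369) (nat_lit 7) (nat_lit 4) (nat_lit 8) (nat_lit 5) (nat_lit 8) (nat_lit 4) (nat_lit 354) (nat_lit 294) (nat_lit 252)) (XT.lf (nat_lit 0) (nat_lit 21697260899) (nat_lit 76) (nat_lit 32006935756) (nat_lit 76) (nat_lit 19170378820) (nat_lit 7) (nat_lit 4) (nat_lit 8) (nat_lit 5) (nat_lit 8) (nat_lit 4) (nat_lit 355) (nat_lit 294) (nat_lit 251))))) (XT.nd (nat_lit 234) (nat_lit 0) (nat_lit 0) (XT.nd (nat_lit 78) (nat_lit 152) (nat_lit 0) (XT.lf (nat_lit 0) (nat_lit 44424707727) (nat_lit 76) (nat_lit 23305544693) (nat_lit 76) (nat_lit 10432924911) (nat_lit 7) (nat_lit 4) (nat_lit 8) (nat_lit 5) (nat_lit 8) (nat_lit 4) (nat_lit 356) (nat_lit 294) (nat_lit 250)) (XT.nd (nat_lit 78) (nat_lit 152) (nat_lit 0) (XT.lf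 (nat_lit 0) (nat_lit 68868116314) (nat_lit 76) (nat_lit 13957699443) (nat_lit 76) (nat_lit 1051688138) (nat_lit 7) (nat_lit 4) (nat_lit 8) (nat_lit 5) (nat_lit 8) (nat_lit 4) (nat_lit 357) (nat_lit 294) (nat_lit 249)) (XT.lf (nat_lit 0) (nat_lit 5144611532) (nat_lit 76) (nat_lit 3675652328) (nat_lit 152) (nat_lit 81220089557) (nat_lit 5) (nat_lit 5) (nat_lit 6) (nat_lit 5) (nat_lit 7) (nat_lit 4) (nat_lit 358) (nat_lit 294) (nat_lit 248)))) (XT.nd (nat_lit 78) (nat_lit 0) (nat_lit 0) (XT.lf (nat_lit 0) (nat_lit 19779385248) (nat_lit 152) (nat_lit 69468041445) (nat_lit 0) (nat_lit 7431235504) (nat_lit 5) (nat_lit 5) (nat_lit 7) (nat_lit 4) (nat_lit 5) (nat_lit 4) (nat_lit 359) (nat_lit 294) (nat_lit 247)) (XT.nd (nat_lit 78) (nat_lit 0) (nat_lit 0) (XT.lf (nat_lit 0) (nat_lit 31632806989) (nat_lit 152) (nat_lit 52954943766) (nat_lit 0) (nat_lit 19259412228) (nat_lit 5) (nat_lit 5) (nat_lit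 7) (nat_lit 4) (nat_lit 5) (nat_lit 4) (nat_lit 360) (nat_lit 294) (nat_lit 246)) (XT.lf (nat_lit 0) (nat_lit 44393384348) (nat_lit 152) (nat_lit 35201206220) (nat_lit 0) (nat_lit 31996614572) (nat_lit 5) (nat_lit 5) (nat_lit 7) (nat_lit 4) (nat_lit 5) (nat_lit 4) (nat_lit 361) (nat_lit 294) (nat_lit 245)))))) (XT.nd (nat_lit 468) (nat_lit 152) (nat_lit 0) (XT.nd (nat_lit 234) (nat_lit 0) (nat_lit 0) (XT.nd (nat_lit 78) (nat_lit 76) (nat_lit 0) (XT.lf (nat_lit 0) (nat_lit 58136735563) (nat_lit 152) (nat_lit 16101621472) (nat_lit 0) (nat_lit 45718322253) (nat_lit 5) (nat_lit 5) (nat_lit 7) (nat_lit 4) (nat_lit 5) (nat_lit 4) (nat_lit 362) (nat_lit 294) (nat_lit 244)) (XT.nd (nat_lit 78) (nat_lit 0) (nat_lit 0) (XT.lf (nat_lit 0) (nat_lit 4604361523) (nat_lit 76) (nat_lit 68411828177) (nat_lit 76) (nat_lit 55973374559) (nat_lit 4) (nat_lit 4) (nat_lit 5) (nat_lit 5) (nat_lit 5) (nat_lit 4)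 (nat_lit 363) (nat_lit 294) (nat_lit 243)) (XT.lf (nat_lit 0) (nat_lit 27475865925) (nat_lit 76) (nat_lit 61856943688) (nat_lit 76) (nat_lit 49399934230) (nat_lit 4) (nat_lit 4) (nat_lit 5) (nat_lit 5) (nat_lit 5) (nat_lit 4) (nat_lit 364) (nat_lit 294) (nat_lit 242)))) (XT.nd (nat_lit 78) (nat_lit 0) (nat_lit 0) (XT.lf (nat_lit 0) (nat_lit 52116034250) (nat_lit 76) (nat_lit 54807548561) (nat_lit 76) (nat_lit 42333357768) (nat_lit 4) (nat_lit 4) (nat_lit 5) (nat_lit 5) (nat_lit 5) (nat_lit 4) (nat_lit 365) (nat_lit 294) (nat_lit 241)) (XT.nd (nat_lit 78) (nat_lit 0) (nat_lit 0) (XT.lf (nat_lit 0) (nat_lit 78670882311) (nat_lit 76) (nat_lit 47221868602) (nat_lit 76) (nat_lit 34731769166) (nat_lit 4) (nat_lit 4) (nat_lit 5) (nat_lit 5) (nat_lit 5) (nat_lit 4) (nat_lit 366) (nat_lit 294) (nat_lit 240)) (XT.lf (nat_lit 0) (nat_lit 107297772171) (nat_lit 76) (nat_lit 39054951634) (nat_lit 76)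 (nat_lit 26550121973) (nat_lit 4) (nat_lit 4) (nat_lit 5) (nat_lit 5) (nat_lit 5) (nat_lit 4) (nat_lit 367) (nat_lit 294) (nat_lit 239))))) (XT.nd (nat_lit 234) (nat_lit 76) (nat_lit 0) (XT.nd (nat_lit 78) (nat_lit 76) (nat_lit 0) (XT.lf (nat_lit 0) (nat_lit 138166344658) (nat_lit 76) (nat_lit 30258401110) (nat_lit 76) (nat_lit 17739932352) (nat_lit 4) (nat_lit 4) (nat_lit 5) (nat_lit 5) (nat_lit 5) (nat_lit 4) (nat_lit 368) (nat_lit 294) (nat_lit 238)) (XT.nd (nat_lit 78) (nat_lit 76) (nat_lit 0) (XT.lf (nat_lit 0) (nat_lit 171459524647) (nat_lit 76) (nat_lit 20780089326) (nat_lit 76) (nat_lit 8248991774) (nat_lit 4) (nat_lit 4) (nat_lit 5) (nat_lit 5) (nat_lit 5) (nat_lit 4) (nat_lit 369) (nat_lit 294) (nat_lit 237)) (XT.lf (nat_lit 0) (nat_lit 1915603857) (nat_lit 152) (nat_lit 8615802970) (nat_lit 76) (nat_lit 205426559519) (nat_lit 3) (nat_lit 5) (nat_lit 5) (nat_lit 5) (nat_lit 4)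 (nat_lit 4) (nat_lit 370) (nat_lit 294) (nat_lit 236)))) (XT.nd (nat_lit 78) (nat_lit 0) (nat_lit 0) (XT.lf (nat_lit 0) (nat_lit 12815874090) (nat_lit 152) (nat_lit 218971619656) (nat_lit 0) (nat_lit 860047391) (nat_lit 2) (nat_lit 5) (nat_lit 4) (nat_lit 4) (nat_lit 2) (nat_lit 4) (nat_lit 371) (nat_lit 294) (nat_lit 235)) (XT.nd (nat_lit 78) (nat_lit 0) (nat_lit 0) (XT.lf (nat_lit 0) (nat_lit 24898924065) (nat_lit 152) (nat_lit 212824272535) (nat_lit 0) (nat_lit 12933549610) (nat_lit 2) (nat_lit 5) (nat_lit 4) (nat_lit 4) (nat_lit 2) (nat_lit 4) (nat_lit 372) (nat_lit 294) (nat_lit 234)) (XT.lf (nat_lit 0) (nat_lit 37930689596) (nat_lit 152) (nat_lit 206220421933) (nat_lit 0) (nat_lit 25956474626) (nat_lit 2) (nat_lit 5) (nat_lit 4) (nat_lit 4) (nat_lit 2) (nat_lit 4) (nat_lit 373) (nat_lit 294) (nat_lit 233))))))))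
noncomputable def xc37 : XT := (XT.nd (nat_lit 42120) (nat_lit 0) (nat_lit 1520) (XT.nd (nat_lit 858) (nat_lit 76) (nat_lit 0) (XT.nd (nat_lit 390) (nat_lit 0) (nat_lit 0) (XT.nd (nat_lit 156) (nat_lit 0) (nat_lit 0) (XT.nd (nat_lit 78) (nat_lit 0) (nat_lit 0) (XT.lf (nat_lit 0) (nat_lit 51988395959) (nat_lit 152) (nat_lit 199120933920) (nat_lit 0) (nat_lit 40005995328) (nat_lit 2) (nat_lit 5) (nat_lit 4) (nat_lit 4) (nat_lit 2) (nat_lit 4) (nat_lit 374) (nat_lit 294) (nat_lit 232)) (XT.lf (nat_lit 0) (nat_lit 67155348082) (nat_lit 152) (nat_lit 191483737457) (nat_lit 0) (nat_lit 55165368135) (nat_lit 2) (nat_lit 5) (nat_lit 4) (nat_lit 4) (nat_lit 2) (nat_lit 4) (nat_lit 375) (nat_lit 294) (nat_lit 231))) (XT.nd (nat_lit 78) (nat_lit 0) (nat_lit 0) (XT.lf (nat_lit 0) (nat_lit 83521424199) (nat_lit 152) (nat_lit 183263575083) (nat_lit 0) (nat_lit 71524426366) (nat_lit 2) (nat_lit 5) (nat_lit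 4) (nat_lit 4) (nat_lit 2) (nat_lit 4) (nat_lit 376) (nat_lit 294) (nat_lit 230)) (XT.nd (nat_lit 78) (nat_lit 0) (nat_lit 0) (XT.lf (nat_lit 0) (nat_lit 101183608465) (nat_lit 152) (nat_lit 174411734724) (nat_lit 0) (nat_lit 89180112590) (nat_lit 2) (nat_lit 5) (nat_lit 4) (nat_lit 4) (nat_lit 2) (nat_lit 4) (nat_lit 377) (nat_lit 294) (nat_lit 229)) (XT.lf (nat_lit 0) (nat_lit 120246565676) (nat_lit 152) (nat_lit 164875761030) (nat_lit 0) (nat_lit 108237053095) (nat_lit 2) (nat_lit 5) (nat_lit 4) (nat_lit 4) (nat_lit 2) (nat_lit 4) (nat_lit 378) (nat_lit 294) (nat_lit 228))))) (XT.nd (nat_lit 234) (nat_lit 0) (nat_lit 0) (XT.nd (nat_lit 78) (nat_lit 0) (nat_lit 0) (XT.lf (nat_lit 0) (nat_lit 140823261503) (nat_lit 152) (nat_lit 154599144528) (nat_lit 0) (nat_lit 128808177899) (nat_lit 2) (nat_lit 5) (nat_lit 4) (nat_lit 4) (nat_lit 2) (nat_lit 4) (nat_lit 379) (nat_lit 294) (nat_lit 227))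 (XT.nd (nat_lit 78) (nat_lit 0) (nat_lit 0) (XT.lf (nat_lit 0) (nat_lit 163035631923) (nat_lit 152) (nat_lit 143520986749) (nat_lit 0) (nat_lit 151015389963) (nat_lit 2) (nat_lit 5) (nat_lit 4) (nat_lit 4) (nat_lit 2) (nat_lit 4) (nat_lit 380) (nat_lit 294) (nat_lit 226)) (XT.lf (nat_lit 0) (nat_lit 187015305797) (nat_lit 152) (nat_lit 131575639351) (nat_lit 0) (nat_lit 174990287582) (nat_lit 2) (nat_lit 5) (nat_lit 4) (nat_lit 4) (nat_lit 2) (nat_lit 4) (nat_lit 381) (nat_lit 294) (nat_lit 225)))) (XT.nd (nat_lit 78) (nat_lit 0) (nat_lit 0) (XT.lf (nat_lit 0) (nat_lit 212904384896) (nat_lit 152) (nat_lit 118692315090) (nat_lit 0) (nat_lit 200874944223) (nat_lit 2) (nat_lit 5) (nat_lit 4) (nat_lit 4) (nat_lit 2) (nat_lit 4) (nat_lit 382) (nat_lit 294) (nat_lit 224)) (XT.nd (nat_lit 78) (nat_lit 0) (nat_lit 0) (XT.lf (nat_lit 0) (nat_lit 240856285984) (nat_lit 152) (nat_lit 104794668341)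 (nat_lit 0) (nat_lit 228822750443) (nat_lit 2) (nat_lit 5) (nat_lit 4) (nat_lit 4) (nat_lit 2) (nat_lit 4) (nat_lit 383) (nat_lit 294) (nat_lit 223)) (XT.lf (nat_lit 0) (nat_lit 271036649959) (nat_lit 152) (nat_lit 89800342679) (nat_lit 0) (nat_lit 258999322872) (nat_lit 2) (nat_lit 5) (nat_lit 4) (nat_lit 4) (nat_lit 2) (nat_lit 4) (nat_lit 384) (nat_lit 294) (nat_lit 222)))))) (XT.nd (nat_lit 468) (nat_lit 0) (nat_lit 0) (XT.nd (nat_lit 234) (nat_lit 76) (nat_lit 0) (XT.nd (nat_lit 78) (nat_lit 0) (nat_lit 0) (XT.lf (nat_lit 0) (nat_lit 303624323420) (nat_lit 152) (nat_lit 73620482840) (nat_lit 0) (nat_lit 291583485643) (nat_lit 2) (nat_lit 5) (nat_lit 4) (nat_lit 4) (nat_lit 2) (nat_lit 4) (nat_lit 385) (nat_lit 294) (nat_lit 221)) (XT.nd (nat_lit 78) (nat_lit 0) (nat_lit 0) (XT.lf (nat_lit 0) (nat_lit 338812418507) (nat_lit 152) (nat_lit 56159208173) (nat_lit 0) (nat_lit 326768330091)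 (nat_lit 2) (nat_lit 5) (nat_lit 4) (nat_lit 4) (nat_lit 2) (nat_lit 4) (nat_lit 386) (nat_lit 294) (nat_lit 220)) (XT.lf (nat_lit 0) (nat_lit 376809457264) (nat_lit 152) (nat_lit 37313044460) (nat_lit 0) (nat_lit 364762358997) (nat_lit 2) (nat_lit 5) (nat_lit 4) (nat_lit 4) (nat_lit 2) (nat_lit 4) (nat_lit 387) (nat_lit 294) (nat_lit 219)))) (XT.nd (nat_lit 78) (nat_lit 76) (nat_lit 0) (XT.lf (nat_lit 0) (nat_lit 417840607329) (nat_lit 152) (nat_lit 16970310728) (nat_lit 0) (nat_lit 405790722164) (nat_lit 2) (nat_lit 5) (nat_lit 4) (nat_lit 4) (nat_lit 2) (nat_lit 4) (nat_lit 388) (nat_lit 294) (nat_lit 218)) (XT.nd (nat_lit 78) (nat_lit 0) (nat_lit 0) (XT.lf (nat_lit 0) (nat_lit 5154519364) (nat_lit 76) (nat_lit 457074973387) (nat_lit 76) (nat_lit 445022507759) (nat_lit 1) (nat_lit 4) (nat_lit 2) (nat_lit 5) (nat_lit 2) (nat_lit 4) (nat_lit 389) (nat_lit 294) (nat_lit 217)) (XT.lf (nat_lit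 0) (nat_lit 29645488627) (nat_lit 76) (nat_lit 480814612932) (nat_lit 76) (nat_lit 468759757988) (nat_lit 1) (nat_lit 4) (nat_lit 2) (nat_lit 5) (nat_lit 2) (nat_lit 4) (nat_lit 390) (nat_lit 294) (nat_lit 216))))) (XT.nd (nat_lit 40560) (nat_lit 0) (nat_lit 6992) (XT.nd (nat_lit 78) (nat_lit 0) (nat_lit 0) (XT.lf (nat_lit 0) (nat_lit 56086613618) (nat_lit 76) (nat_lit 506457916462) (nat_lit 76) (nat_lit 494400849188) (nat_lit 1) (nat_lit 4) (nat_lit 2) (nat_lit 5) (nat_lit 2) (nat_lit 4) (nat_lit 391) (nat_lit 294) (nat_lit 215)) (XT.nd (nat_lit 78) (nat_lit 0) (nat_lit 0) (XT.lf (nat_lit 0) (nat_lit 84634582483) (nat_lit 76) (nat_lit 534156844295) (nat_lit 76) (nat_lit 522097728566) (nat_lit 1) (nat_lit 4) (nat_lit 2) (nat_lit 5) (nat_lit 2) (nat_lit 4) (nat_lit 392) (nat_lit 294) (nat_lit 214)) (XT.lf (nat_lit 0) (nat_lit 115458568373) (nat_lit 76) (nat_lit 564075538224) (nat_lit 76)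 (nat_lit 552014525779) (nat_lit 1) (nat_lit 4) (nat_lit 2) (nat_lit 5) (nat_lit 2) (nat_lit 4) (nat_lit 393) (nat_lit 294) (nat_lit 213)))) (XT.nd (nat_lit 78) (nat_lit 1292) (nat_lit 0) (XT.lf (nat_lit 0) (nat_lit 2024170558) (nat_lit 684) (nat_lit 785857182) (nat_lit 684) (nat_lit 785857182) (nat_lit 110) (nat_lit 4) (nat_lit 119) (nat_lit 5) (nat_lit 119) (nat_lit 4) (nat_lit 310) (nat_lit 295) (nat_lit 295)) (XT.nd (nat_lit 78) (nat_lit 456) (nat_lit 0) (XT.lf (nat_lit 0) (nat_lit 3772130192) (nat_lit 836) (nat_lit 2253768640) (nat_lit 0) (nat_lit 1329131063) (nat_lit 99) (nat_lit 5) (nat_lit 110) (nat_lit 4) (nat_lit 99) (nat_lit 4) (nat_lit 311) (nat_lit 295) (nat_lit 294)) (XT.lf (nat_lit 0) (nat_lit 1676198821) (nat_lit 456) (nat_lit 1268827774) (nat_lit 76) (nat_lit 4594978792) (nat_lit 93) (nat_lit 5) (nat_lit 99) (nat_lit 5) (nat_lit 94) (nat_lit 4) (nat_lit 312) (nat_lit 295)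 (nat_lit 293))))))) (XT.nd (nat_lit 936) (nat_lit 1520) (nat_lit 0) (XT.nd (nat_lit 468) (nat_lit 1596) (nat_lit 0) (XT.nd (nat_lit 234) (nat_lit 912) (nat_lit 0) (XT.nd (nat_lit 78) (nat_lit 1140) (nat_lit 0) (XT.lf (nat_lit 0) (nat_lit 7018605874) (nat_lit 380) (nat_lit 186412973) (nat_lit 0) (nat_lit 542878874) (nat_lit 89) (nat_lit 5) (nat_lit 94) (nat_lit 4) (nat_lit 89) (nat_lit 4) (nat_lit 313) (nat_lit 295) (nat_lit 292)) (XT.nd (nat_lit 78) (nat_lit 380) (nat_lit 0) (XT.lf (nat_lit 0) (nat_lit 957116318) (nat_lit 304) (nat_lit 3569627912) (nat_lit 380) (nat_lit 3449079107) (nat_lit 79) (nat_lit 5) (nat_lit 83) (nat_lit 5) (nat_lit 84) (nat_lit 4) (nat_lit 314) (nat_lit 295) (nat_lit 291)) (XT.lf (nat_lit 0) (nat_lit 1721866451) (nat_lit 380) (nat_lit 6025295872) (nat_lit 76) (nat_lit 481646505) (nat_lit 74) (nat_lit 5) (nat_lit 79) (nat_lit 5) (nat_lit 75) (nat_lit 4) (nat_lit 315)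 (nat_lit 295) (nat_lit 290)))) (XT.nd (nat_lit 78) (nat_lit 684) (nat_lit 0) (XT.lf (nat_lit 0) (nat_lit 3462991087) (nat_lit 228) (nat_lit 3622959443) (nat_lit 304) (nat_lit 1418572361) (nat_lit 71) (nat_lit 5) (nat_lit 74) (nat_lit 5) (nat_lit 75) (nat_lit 4) (nat_lit 316) (nat_lit 295) (nat_lit 289)) (XT.nd (nat_lit 78) (nat_lit 304) (nat_lit 0) (XT.lf (nat_lit 0) (nat_lit 3816047320) (nat_lit 380) (nat_lit 4043372396) (nat_lit 76) (nat_lit 946501248) (nat_lit 66) (nat_lit 5) (nat_lit 71) (nat_lit 5) (nat_lit 67) (nat_lit 4) (nat_lit 317) (nat_lit 295) (nat_lit 288)) (XT.lf (nat_lit 0) (nat_lit 213900198) (nat_lit 304) (nat_lit 3057619590) (nat_lit 76) (nat_lit 5862095665) (nat_lit 62) (nat_lit 5) (nat_lit 66) (nat_lit 5) (nat_lit 63) (nat_lit 5) (nat_lit 318) (nat_lit 295) (nat_lit 287))))) (XT.nd (nat_lit 234) (nat_lit 836) (nat_lit 0) (XT.nd (nat_lit 78) (nat_lit 532) (nat_lit 0) (XT.lf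 (nat_lit 0) (nat_lit 5577881564) (nat_lit 304) (nat_lit 2125152180) (nat_lit 76) (nat_lit 1784704379) (nat_lit 59) (nat_lit 5) (nat_lit 63) (nat_lit 5) (nat_lit 60) (nat_lit 4) (nat_lit 319) (nat_lit 295) (nat_lit 286)) (XT.nd (nat_lit 78) (nat_lit 228) (nat_lit 0) (XT.lf (nat_lit 0) (nat_lit 1410938163) (nat_lit 304) (nat_lit 1233856276) (nat_lit 76) (nat_lit 7226526252) (nat_lit 55) (nat_lit 5) (nat_lit 59) (nat_lit 5) (nat_lit 56) (nat_lit 5) (nat_lit 320) (nat_lit 295) (nat_lit 285)) (XT.lf (nat_lit 0) (nat_lit 6985299964) (nat_lit 304) (nat_lit 438416232) (nat_lit 76) (nat_lit 2860619728) (nat_lit 52) (nat_lit 5) (nat_lit 56) (nat_lit 5) (nat_lit 53) (nat_lit 4) (nat_lit 321) (nat_lit 295) (nat_lit 284)))) (XT.nd (nat_lit 78) (nat_lit 380) (nat_lit 0) (XT.lf (nat_lit 0) (nat_lit 274420270) (nat_lit 228) (nat_lit 1907431218) (nat_lit 304) (nat_lit 8547964134) (nat_lit 46) (nat_lit 5)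 (nat_lit 49) (nat_lit 5) (nat_lit 50) (nat_lit 5) (nat_lit 322) (nat_lit 295) (nat_lit 283)) (XT.nd (nat_lit 78) (nat_lit 228) (nat_lit 0) (XT.lf (nat_lit 0) (nat_lit 836861882) (nat_lit 152) (nat_lit 7162241789) (nat_lit 228) (nat_lit 3208611446) (nat_lit 44) (nat_lit 5) (nat_lit 46) (nat_lit 5) (nat_lit 47) (nat_lit 4) (nat_lit 323) (nat_lit 295) (nat_lit 282)) (XT.lf (nat_lit 0) (nat_lit 1248220265) (nat_lit 152) (nat_lit 1211172233) (nat_lit 228) (nat_lit 9263429222) (nat_lit 41) (nat_lit 5) (nat_lit 43) (nat_lit 5) (nat_lit 44) (nat_lit 5) (nat_lit 324) (nat_lit 295) (nat_lit 281)))))) (XT.nd (nat_lit 468) (nat_lit 760) (nat_lit 0) (XT.nd (nat_lit 234) (nat_lit 304) (nat_lit 0) (XT.nd (nat_lit 78) (nat_lit 304) (nat_lit 0) (XT.lf (nat_lit 0) (nat_lit 1403600824) (nat_lit 152) (nat_lit 7110247180) (nat_lit 228) (nat_lit 3760517678) (nat_lit 39) (nat_lit 5) (nat_lit 41) (nat_lit 5) (nat_lit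 42) (nat_lit 4) (nat_lit 325) (nat_lit 295) (nat_lit 280)) (XT.nd (nat_lit 78) (nat_lit 76) (nat_lit 0) (XT.lf (nat_lit 0) (nat_lit 1340216797) (nat_lit 152) (nat_lit 764436115) (nat_lit 228) (nat_lit 10764196942) (nat_lit 36) (nat_lit 5) (nat_lit 38) (nat_lit 5) (nat_lit 39) (nat_lit 5) (nat_lit 326) (nat_lit 295) (nat_lit 279)) (XT.lf (nat_lit 0) (nat_lit 899713247) (nat_lit 76) (nat_lit 7485227821) (nat_lit 152) (nat_lit 5119092827) (nat_lit 35) (nat_lit 5) (nat_lit 36) (nat_lit 5) (nat_lit 37) (nat_lit 4) (nat_lit 327) (nat_lit 295) (nat_lit 278)))) (XT.nd (nat_lit 78) (nat_lit 76) (nat_lit 0) (XT.lf (nat_lit 0) (nat_lit 154476614) (nat_lit 152) (nat_lit 792973866) (nat_lit 228) (nat_lit 13241856650) (nat_lit 32) (nat_lit 5) (nat_lit 34) (nat_lit 5) (nat_lit 35) (nat_lit 5) (nat_lit 328) (nat_lit 295) (nat_lit 277)) (XT.nd (nat_lit 78) (nat_lit 76) (nat_lit 0) (XT.lf (nat_lit 0) (nat_lit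 7435964552) (nat_lit 228) (nat_lit 1089702933) (nat_lit 76) (nat_lit 6393825735) (nat_lit 32) (nat_lit 5) (nat_lit 35) (nat_lit 5) (nat_lit 33) (nat_lit 4) (nat_lit 329) (nat_lit 295) (nat_lit 276)) (XT.lf (nat_lit 0) (nat_lit 12954345990) (nat_lit 76) (nat_lit 1510371840) (nat_lit 152) (nat_lit 1242398778) (nat_lit 31) (nat_lit 5) (nat_lit 32) (nat_lit 5) (nat_lit 33) (nat_lit 4) (nat_lit 330) (nat_lit 295) (nat_lit 275))))) (XT.nd (nat_lit 234) (nat_lit 228) (nat_lit 0) (XT.nd (nat_lit 78) (nat_lit 304) (nat_lit 0) (XT.lf (nat_lit 0) (nat_lit 5430770353) (nat_lit 228) (nat_lit 5091865136) (nat_lit 76) (nat_lit 6025457233) (nat_lit 28) (nat_lit 5) (nat_lit 31) (nat_lit 5) (nat_lit 29) (nat_lit 4) (nat_lit 331) (nat_lit 295) (nat_lit 274)) (XT.nd (nat_lit 78) (nat_lit 228) (nat_lit 0) (XT.lf (nat_lit 0) (nat_lit 9377094173) (nat_lit 76) (nat_lit 3257042581) (nat_lit 152) (nat_lit 4819263823)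 (nat_lit 27) (nat_lit 5) (nat_lit 28) (nat_lit 5) (nat_lit 29) (nat_lit 4) (nat_lit 332) (nat_lit 295) (nat_lit 273)) (XT.lf (nat_lit 0) (nat_lit 2010349322) (nat_lit 228) (nat_lit 11877601244) (nat_lit 76) (nat_lit 4537134258) (nat_lit 24) (nat_lit 5) (nat_lit 27) (nat_lit 5) (nat_lit 25) (nat_lit 4) (nat_lit 333) (nat_lit 295) (nat_lit 272)))) (XT.nd (nat_lit 78) (nat_lit 152) (nat_lit 0) (XT.lf (nat_lit 0) (nat_lit 2806772496) (nat_lit 76) (nat_lit 6485355924) (nat_lit 152) (nat_lit 10174746698) (nat_lit 23) (nat_lit 5) (nat_lit 24) (nat_lit 5) (nat_lit 25) (nat_lit 4) (nat_lit 334) (nat_lit 295) (nat_lit 271)) (XT.nd (nat_lit 78) (nat_lit 152) (nat_lit 0) (XT.lf (nat_lit 0) (nat_lit 17226863826) (nat_lit 152) (nat_lit 1817994557) (nat_lit 0) (nat_lit 1543679134) (nat_lit 23) (nat_lit 5) (nat_lit 25) (nat_lit 4) (nat_lit 23) (nat_lit 4) (nat_lit 335) (nat_lit 295) (nat_lit 270)) (XT.lf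 (nat_lit 0) (nat_lit 4052456142) (nat_lit 152) (nat_lit 7574285542) (nat_lit 76) (nat_lit 10160919051) (nat_lit 21) (nat_lit 5) (nat_lit 23) (nat_lit 5) (nat_lit 22) (nat_lit 4) (nat_lit 336) (nat_lit 295) (nat_lit 269))))))))
noncomputable def xc38 : XT := (XT.nd (nat_lit 1794) (nat_lit 228) (nat_lit 0) (XT.nd (nat_lit 858) (nat_lit 456) (nat_lit 0) (XT.nd (nat_lit 390) (nat_lit 456) (nat_lit 0) (XT.nd (nat_lit 156) (nat_lit 152) (nat_lit 0) (XT.nd (nat_lit 78) (nat_lit 76) (nat_lit 0) (XT.lf (nat_lit 0) (nat_lit 8454356254) (nat_lit 76) (nat_lit 3506667676) (nat_lit 152) (nat_lit 11118020679) (nat_lit 20) (nat_lit 5) (nat_lit 21) (nat_lit 5) (nat_lit 22) (nat_lit 4) (nat_lit 337) (nat_lit 295) (nat_lit 268)) (XT.lf (nat_lit 0) (nat_lit 1261134018) (nat_lit 76) (nat_lit 19335412736) (nat_lit 76) (nat_lit 3872516442) (nat_lit 19) (nat_lit 4) (nat_lit 20) (nat_lit 5) (nat_lit 20) (nat_lit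 4) (nat_lit 338) (nat_lit 295) (nat_lit 267))) (XT.nd (nat_lit 78) (nat_lit 76) (nat_lit 0) (XT.lf (nat_lit 0) (nat_lit 4006795781) (nat_lit 152) (nat_lit 7399139814) (nat_lit 76) (nat_lit 14552261330) (nat_lit 18) (nat_lit 5) (nat_lit 20) (nat_lit 5) (nat_lit 19) (nat_lit 4) (nat_lit 339) (nat_lit 295) (nat_lit 266)) (XT.nd (nat_lit 78) (nat_lit 0) (nat_lit 0) (XT.lf (nat_lit 0) (nat_lit 9681284564) (nat_lit 76) (nat_lit 2725255210) (nat_lit 152) (nat_lit 15155489943) (nat_lit 17) (nat_lit 5) (nat_lit 18) (nat_lit 5) (nat_lit 19) (nat_lit 4) (nat_lit 340) (nat_lit 295) (nat_lit 265)) (XT.lf (nat_lit 0) (nat_lit 21590101977) (nat_lit 152) (nat_lit 1233042268) (nat_lit 0) (nat_lit 6465461291) (nat_lit 17) (nat_lit 5) (nat_lit 19) (nat_lit 4) (nat_lit 17) (nat_lit 4) (nat_lit 341) (nat_lit 295) (nat_lit 264))))) (XT.nd (nat_lit 234) (nat_lit 228) (nat_lit 0) (XT.nd (nat_lit 78) (nat_lit 76)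 (nat_lit 0) (XT.lf (nat_lit 0) (nat_lit 544877793) (nat_lit 152) (nat_lit 14121178024) (nat_lit 76) (nat_lit 16476939454) (nat_lit 15) (nat_lit 5) (nat_lit 17) (nat_lit 5) (nat_lit 16) (nat_lit 4) (nat_lit 342) (nat_lit 295) (nat_lit 263)) (XT.nd (nat_lit 78) (nat_lit 0) (nat_lit 0) (XT.lf (nat_lit 0) (nat_lit 3406368319) (nat_lit 76) (nat_lit 5739813387) (nat_lit 152) (nat_lit 23994858863) (nat_lit 14) (nat_lit 5) (nat_lit 15) (nat_lit 5) (nat_lit 16) (nat_lit 4) (nat_lit 343) (nat_lit 295) (nat_lit 262)) (XT.lf (nat_lit 0) (nat_lit 18639639266) (nat_lit 152) (nat_lit 12714844870) (nat_lit 0) (nat_lit 3934264314) (nat_lit 14) (nat_lit 5) (nat_lit 16) (nat_lit 4) (nat_lit 14) (nat_lit 4) (nat_lit 344) (nat_lit 295) (nat_lit 261)))) (XT.nd (nat_lit 78) (nat_lit 152) (nat_lit 0) (XT.lf (nat_lit 0) (nat_lit 5559133350) (nat_lit 76) (nat_lit 23418070109) (nat_lit 76) (nat_lit 8626857839) (nat_lit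 13) (nat_lit 4) (nat_lit 14) (nat_lit 5) (nat_lit 14) (nat_lit 4) (nat_lit 345) (nat_lit 295) (nat_lit 260)) (XT.nd (nat_lit 78) (nat_lit 76) (nat_lit 0) (XT.lf (nat_lit 0) (nat_lit 165099017) (nat_lit 152) (nat_lit 14532238282) (nat_lit 76) (nat_lit 25400794590) (nat_lit 12) (nat_lit 5) (nat_lit 14) (nat_lit 5) (nat_lit 13) (nat_lit 4) (nat_lit 346) (nat_lit 295) (nat_lit 259)) (XT.lf (nat_lit 0) (nat_lit 4200466382) (nat_lit 76) (nat_lit 5138435722) (nat_lit 152) (nat_lit 33446734387) (nat_lit 11) (nat_lit 5) (nat_lit 12) (nat_lit 5) (nat_lit 13) (nat_lit 4) (nat_lit 347) (nat_lit 295) (nat_lit 258)))))) (XT.nd (nat_lit 468) (nat_lit 228) (nat_lit 0) (XT.nd (nat_lit 234) (nat_lit 152) (nat_lit 0) (XT.nd (nat_lit 78) (nat_lit 76) (nat_lit 0) (XT.lf (nat_lit 0) (nat_lit 19498799752) (nat_lit 152) (nat_lit 20975493500) (nat_lit 0) (nat_lit 5201253692) (nat_lit 11) (nat_lit 5) (nat_lit 13)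 (nat_lit 4) (nat_lit 11) (nat_lit 4) (nat_lit 348) (nat_lit 295) (nat_lit 257)) (XT.nd (nat_lit 78) (nat_lit 76) (nat_lit 0) (XT.lf (nat_lit 0) (nat_lit 30478450279) (nat_lit 152) (nat_lit 2197050135) (nat_lit 0) (nat_lit 16120815655) (nat_lit 11) (nat_lit 5) (nat_lit 13) (nat_lit 4) (nat_lit 11) (nat_lit 4) (nat_lit 349) (nat_lit 295) (nat_lit 256)) (XT.lf (nat_lit 0) (nat_lit 18534897506) (nat_lit 76) (nat_lit 24017177084) (nat_lit 76) (nat_lit 9603904902) (nat_lit 10) (nat_lit 4) (nat_lit 11) (nat_lit 5) (nat_lit 11) (nat_lit 4) (nat_lit 350) (nat_lit 295) (nat_lit 255)))) (XT.nd (nat_lit 78) (nat_lit 152) (nat_lit 0) (XT.lf (nat_lit 0) (nat_lit 40868024550) (nat_lit 76) (nat_lit 14691400001) (nat_lit 76) (nat_lit 226611561) (nat_lit 10) (nat_lit 4) (nat_lit 11) (nat_lit 5) (nat_lit 11) (nat_lit 4) (nat_lit 351) (nat_lit 295) (nat_lit 254)) (XT.nd (nat_lit 78) (nat_lit 0) (nat_lit 0)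 (XT.lf (nat_lit 0) (nat_lit 5164032212) (nat_lit 76) (nat_lit 4434270661) (nat_lit 152) (nat_lit 50099759518) (nat_lit 8) (nat_lit 5) (nat_lit 9) (nat_lit 5) (nat_lit 10) (nat_lit 4) (nat_lit 352) (nat_lit 295) (nat_lit 253)) (XT.lf (nat_lit 0) (nat_lit 20505000921) (nat_lit 152) (nat_lit 36761167902) (nat_lit 0) (nat_lit 6641519430) (nat_lit 8) (nat_lit 5) (nat_lit 10) (nat_lit 4) (nat_lit 8) (nat_lit 4) (nat_lit 353) (nat_lit 295) (nat_lit 252))))) (XT.nd (nat_lit 234) (nat_lit 152) (nat_lit 0) (XT.nd (nat_lit 78) (nat_lit 76) (nat_lit 0) (XT.lf (nat_lit 0) (nat_lit 32299540795) (nat_lit 152) (nat_lit 17756675661) (nat_lit 0) (nat_lit 18397111431) (nat_lit 8) (nat_lit 5) (nat_lit 10) (nat_lit 4) (nat_lit 8) (nat_lit 4) (nat_lit 354) (nat_lit 295) (nat_lit 251)) (XT.nd (nat_lit 78) (nat_lit 0) (nat_lit 0) (XT.lf (nat_lit 0) (nat_lit 2749291652) (nat_lit 76) (nat_lit 42276217169) (nat_lit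 76) (nat_lit 28337724959) (nat_lit 7) (nat_lit 4) (nat_lit 8) (nat_lit 5) (nat_lit 8) (nat_lit 4) (nat_lit 355) (nat_lit 295) (nat_lit 250)) (XT.lf (nat_lit 0) (nat_lit 25427587524) (nat_lit 76) (nat_lit 33598699710) (nat_lit 76) (nat_lit 19626815978) (nat_lit 7) (nat_lit 4) (nat_lit 8) (nat_lit 5) (nat_lit 8) (nat_lit 4) (nat_lit 356) (nat_lit 295) (nat_lit 249)))) (XT.nd (nat_lit 78) (nat_lit 152) (nat_lit 0) (XT.lf (nat_lit 0) (nat_lit 49825485968) (nat_lit 76) (nat_lit 24272959651) (nat_lit 76) (nat_lit 10270157841) (nat_lit 7) (nat_lit 4) (nat_lit 8) (nat_lit 5) (nat_lit 8) (nat_lit 4) (nat_lit 357) (nat_lit 295) (nat_lit 248)) (XT.nd (nat_lit 78) (nat_lit 152) (nat_lit 0) (XT.lf (nat_lit 0) (nat_lit 76087567122) (nat_lit 76) (nat_lit 14243733346) (nat_lit 76) (nat_lit 212303687) (nat_lit 7) (nat_lit 4) (nat_lit 8) (nat_lit 5) (nat_lit 8) (nat_lit 4) (nat_lit 358) (nat_lit 295) (nat_lit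 247)) (XT.lf (nat_lit 0) (nat_lit 7220258787) (nat_lit 76) (nat_lit 3159348877) (nat_lit 152) (nat_lit 86821174064) (nat_lit 5) (nat_lit 5) (nat_lit 6) (nat_lit 5) (nat_lit 7) (nat_lit 4) (nat_lit 359) (nat_lit 295) (nat_lit 246))))))) (XT.nd (nat_lit 936) (nat_lit 76) (nat_lit 0) (XT.nd (nat_lit 468) (nat_lit 76) (nat_lit 0) (XT.nd (nat_lit 234) (nat_lit 76) (nat_lit 0) (XT.nd (nat_lit 78) (nat_lit 0) (nat_lit 0) (XT.lf (nat_lit 0) (nat_lit 22163934788) (nat_lit 152) (nat_lit 73456756639) (nat_lit 0) (nat_lit 8752048414) (nat_lit 5) (nat_lit 5) (nat_lit 7) (nat_lit 4) (nat_lit 5) (nat_lit 4) (nat_lit 360) (nat_lit 295) (nat_lit 245)) (XT.nd (nat_lit 78) (nat_lit 0) (nat_lit 0) (XT.lf (nat_lit 0) (nat_lit 34906208141) (nat_lit 152) (nat_lit 55738813229) (nat_lit 0) (nat_lit 21472678234) (nat_lit 5) (nat_lit 5) (nat_lit 7) (nat_lit 4) (nat_lit 5) (nat_lit 4) (nat_lit 361) (nat_lit 295) (nat_lit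 244)) (XT.lf (nat_lit 0) (nat_lit 48632611201) (nat_lit 152) (nat_lit 36672371200) (nat_lit 0) (nat_lit 35179040986) (nat_lit 5) (nat_lit 5) (nat_lit 7) (nat_lit 4) (nat_lit 5) (nat_lit 4) (nat_lit 362) (nat_lit 295) (nat_lit 243)))) (XT.nd (nat_lit 78) (nat_lit 76) (nat_lit 0) (XT.lf (nat_lit 0) (nat_lit 63424485616) (nat_lit 152) (nat_lit 16144444230) (nat_lit 0) (nat_lit 49952359559) (nat_lit 5) (nat_lit 5) (nat_lit 7) (nat_lit 4) (nat_lit 5) (nat_lit 4) (nat_lit 363) (nat_lit 295) (nat_lit 242)) (XT.nd (nat_lit 78) (nat_lit 0) (nat_lit 0) (XT.lf (nat_lit 0) (nat_lit 6163897882) (nat_lit 76) (nat_lit 73301824775) (nat_lit 76) (nat_lit 59812517384) (nat_lit 4) (nat_lit 4) (nat_lit 5) (nat_lit 5) (nat_lit 5) (nat_lit 4) (nat_lit 364) (nat_lit 295) (nat_lit 241)) (XT.lf (nat_lit 0) (nat_lit 30776886530) (nat_lit 76) (nat_lit 66265730984) (nat_lit 76) (nat_lit 52760514950) (nat_lit 4) (nat_lit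 4) (nat_lit 5) (nat_lit 5) (nat_lit 5) (nat_lit 4) (nat_lit 365) (nat_lit 295) (nat_lit 240))))) (XT.nd (nat_lit 234) (nat_lit 76) (nat_lit 0) (XT.nd (nat_lit 78) (nat_lit 0) (nat_lit 0) (XT.lf (nat_lit 0) (nat_lit 57306568223) (nat_lit 76) (nat_lit 58692367076) (nat_lit 76) (nat_lit 45172420817) (nat_lit 4) (nat_lit 4) (nat_lit 5) (nat_lit 5) (nat_lit 5) (nat_lit 4) (nat_lit 366) (nat_lit 295) (nat_lit 239)) (XT.nd (nat_lit 78) (nat_lit 0) (nat_lit 0) (XT.lf (nat_lit 0) (nat_lit 85910155889) (nat_lit 76) (nat_lit 50536853859) (nat_lit 76) (nat_lit 37003268503) (nat_lit 4) (nat_lit 4) (nat_lit 5) (nat_lit 5) (nat_lit 5) (nat_lit 4) (nat_lit 367) (nat_lit 295) (nat_lit 238)) (XT.lf (nat_lit 0) (nat_lit 116757152272) (nat_lit 76) (nat_lit 41750862365) (nat_lit 76) (nat_lit 28204648215) (nat_lit 4) (nat_lit 4) (nat_lit 5) (nat_lit 5) (nat_lit 5) (nat_lit 4) (nat_lit 368) (nat_lit 295) (nat_lit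 237)))) (XT.nd (nat_lit 78) (nat_lit 76) (nat_lit 0) (XT.lf (nat_lit 0) (nat_lit 150030354385) (nat_lit 76) (nat_lit 32282327459) (nat_lit 76) (nat_lit 18724419982) (nat_lit 4) (nat_lit 4) (nat_lit 5) (nat_lit 5) (nat_lit 5) (nat_lit 4) (nat_lit 369) (nat_lit 295) (nat_lit 236)) (XT.nd (nat_lit 78) (nat_lit 76) (nat_lit 0) (XT.lf (nat_lit 0) (nat_lit 185926936761) (nat_lit 76) (nat_lit 22075139305) (nat_lit 76) (nat_lit 8506404673) (nat_lit 4) (nat_lit 4) (nat_lit 5) (nat_lit 5) (nat_lit 5) (nat_lit 4) (nat_lit 370) (nat_lit 295) (nat_lit 235)) (XT.lf (nat_lit 0) (nat_lit 2429614873) (nat_lit 152) (nat_lit 8598049285) (nat_lit 76) (nat_lit 222188858311) (nat_lit 3) (nat_lit 5) (nat_lit 5) (nat_lit 5) (nat_lit 4) (nat_lit 4) (nat_lit 371) (nat_lit 295) (nat_lit 234)))))) (XT.nd (nat_lit 468) (nat_lit 0) (nat_lit 0) (XT.nd (nat_lit 234) (nat_lit 0) (nat_lit 0) (XT.nd (nat_lit 78) (nat_lit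 0) (nat_lit 0) (XT.lf (nat_lit 0) (nat_lit 14190921034) (nat_lit 152) (nat_lit 235800966329) (nat_lit 0) (nat_lit 1249928353) (nat_lit 2) (nat_lit 5) (nat_lit 4) (nat_lit 4) (nat_lit 2) (nat_lit 4) (nat_lit 372) (nat_lit 295) (nat_lit 233)) (XT.nd (nat_lit 78) (nat_lit 0) (nat_lit 0) (XT.lf (nat_lit 0) (nat_lit 27214705599) (nat_lit 152) (nat_lit 229212822764) (nat_lit 0) (nat_lit 14265527256) (nat_lit 2) (nat_lit 5) (nat_lit 4) (nat_lit 4) (nat_lit 2) (nat_lit 4) (nat_lit 373) (nat_lit 295) (nat_lit 232)) (XT.lf (nat_lit 0) (nat_lit 41265022179) (nat_lit 152) (nat_lit 222127878304) (nat_lit 0) (nat_lit 28308264519) (nat_lit 2) (nat_lit 5) (nat_lit 4) (nat_lit 4) (nat_lit 2) (nat_lit 4) (nat_lit 374) (nat_lit 295) (nat_lit 231)))) (XT.nd (nat_lit 78) (nat_lit 0) (nat_lit 0) (XT.lf (nat_lit 0) (nat_lit 56425131910) (nat_lit 152) (nat_lit 214504148094) (nat_lit 0) (nat_lit 43461356365) (nat_lit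 2) (nat_lit 5) (nat_lit 4) (nat_lit 4) (nat_lit 2) (nat_lit 4) (nat_lit 375) (nat_lit 295) (nat_lit 230)) (XT.nd (nat_lit 78) (nat_lit 0) (nat_lit 0) (XT.lf (nat_lit 0) (nat_lit 72784872478) (nat_lit 152) (nat_lit 206296454472) (nat_lit 0) (nat_lit 59814598891) (nat_lit 2) (nat_lit 5) (nat_lit 4) (nat_lit 4) (nat_lit 2) (nat_lit 4) (nat_lit 376) (nat_lit 295) (nat_lit 229)) (XT.lf (nat_lit 0) (nat_lit 90441190496) (nat_lit 152) (nat_lit 197456159254) (nat_lit 0) (nat_lit 77464900203) (nat_lit 2) (nat_lit 5) (nat_lit 4) (nat_lit 4) (nat_lit 2) (nat_lit 4) (nat_lit 377) (nat_lit 295) (nat_lit 228))))) (XT.nd (nat_lit 234) (nat_lit 0) (nat_lit 0) (XT.nd (nat_lit 78) (nat_lit 0) (nat_lit 0) (XT.lf (nat_lit 0) (nat_lit 109498715995) (nat_lit 152) (nat_lit 187930875506) (nat_lit 0) (nat_lit 96516854679) (nat_lit 2) (nat_lit 5) (nat_lit 4) (nat_lit 4) (nat_lit 2) (nat_lit 4) (nat_lit 378) (nat_lit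 295) (nat_lit 227)) (XT.nd (nat_lit 78) (nat_lit 0) (nat_lit 0) (XT.lf (nat_lit 0) (nat_lit 130070382460) (nat_lit 152) (nat_lit 177664157102) (nat_lit 0) (nat_lit 117083362788) (nat_lit 2) (nat_lit 5) (nat_lit 4) (nat_lit 4) (nat_lit 2) (nat_lit 4) (nat_lit 379) (nat_lit 295) (nat_lit 226)) (XT.lf (nat_lit 0) (nat_lit 152278096063) (nat_lit 152) (nat_lit 166595164228) (nat_lit 0) (nat_lit 139286300136) (nat_lit 2) (nat_lit 5) (nat_lit 4) (nat_lit 4) (nat_lit 2) (nat_lit 4) (nat_lit 380) (nat_lit 295) (nat_lit 225)))) (XT.nd (nat_lit 78) (nat_lit 0) (nat_lit 0) (XT.lf (nat_lit 0) (nat_lit 176253458069) (nat_lit 152) (nat_lit 154658302854) (nat_lit 0) (nat_lit 163257239684) (nat_lit 2) (nat_lit 5) (nat_lit 4) (nat_lit 4) (nat_lit 2) (nat_lit 4) (nat_lit 381) (nat_lit 295) (nat_lit 224)) (XT.nd (nat_lit 78) (nat_lit 0) (nat_lit 0) (XT.lf (nat_lit 0) (nat_lit 202138544697) (nat_lit 152) (nat_lit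 141782836022) (nat_lit 0) (nat_lit 189138231443) (nat_lit 2) (nat_lit 5) (nat_lit 4) (nat_lit 4) (nat_lit 2) (nat_lit 4) (nat_lit 382) (nat_lit 295) (nat_lit 223)) (XT.lf (nat_lit 0) (nat_lit 230086749055) (nat_lit 152) (nat_lit 127892464671) (nat_lit 0) (nat_lit 217082644256) (nat_lit 2) (nat_lit 5) (nat_lit 4) (nat_lit 4) (nat_lit 2) (nat_lit 4) (nat_lit 383) (nat_lit 295) (nat_lit 222))))))))
noncomputable def xc39 : XT := (XT.nd (nat_lit 41964) (nat_lit 0) (nat_lit 988) (XT.nd (nat_lit 41028) (nat_lit 0) (nat_lit 4104) (XT.nd (nat_lit 390) (nat_lit 76) (nat_lit 0) (XT.nd (nat_lit 156) (nat_lit 0) (nat_lit 0) (XT.nd (nat_lit 78) (nat_lit 0) (nat_lit 0) (XT.lf (nat_lit 0) (nat_lit 260263690129) (nat_lit 152) (nat_lit 112904875487) (nat_lit 0) (nat_lit 247256074640) (nat_lit 2) (nat_lit 5) (nat_lit 4) (nat_lit 4) (nat_lit 2) (nat_lit 4) (nat_lit 384) (nat_lit 295) (nat_lit 221)) (XT.lf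 (nat_lit 0) (nat_lit 292848194239) (nat_lit 152) (nat_lit 96731253129) (nat_lit 0) (nat_lit 279837328111) (nat_lit 2) (nat_lit 5) (nat_lit 4) (nat_lit 4) (nat_lit 2) (nat_lit 4) (nat_lit 385) (nat_lit 295) (nat_lit 220))) (XT.nd (nat_lit 78) (nat_lit 0) (nat_lit 0) (XT.lf (nat_lit 0) (nat_lit 328033354741) (nat_lit 152) (nat_lit 79275753908) (nat_lit 0) (nat_lit 315019478762) (nat_lit 2) (nat_lit 5) (nat_lit 4) (nat_lit 4) (nat_lit 2) (nat_lit 4) (nat_lit 386) (nat_lit 295) (nat_lit 219)) (XT.nd (nat_lit 78) (nat_lit 0) (nat_lit 0) (XT.lf (nat_lit 0) (nat_lit 366027676290) (nat_lit 152) (nat_lit 60434937828) (nat_lit 0) (nat_lit 353011013413) (nat_lit 2) (nat_lit 5) (nat_lit 4) (nat_lit 4) (nat_lit 2) (nat_lit 4) (nat_lit 387) (nat_lit 295) (nat_lit 218)) (XT.lf (nat_lit 0) (nat_lit 407056310422) (nat_lit 152) (nat_lit 40097155610) (nat_lit 0) (nat_lit 394037067083) (nat_lit 2) (nat_lit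 5) (nat_lit 4) (nat_lit 4) (nat_lit 2) (nat_lit 4) (nat_lit 388) (nat_lit 295) (nat_lit 217))))) (XT.nd (nat_lit 234) (nat_lit 0) (nat_lit 0) (XT.nd (nat_lit 78) (nat_lit 76) (nat_lit 0) (XT.lf (nat_lit 0) (nat_lit 451362389784) (nat_lit 152) (nat_lit 18141887061) (nat_lit 0) (nat_lit 438340757127) (nat_lit 2) (nat_lit 5) (nat_lit 4) (nat_lit 4) (nat_lit 2) (nat_lit 4) (nat_lit 389) (nat_lit 295) (nat_lit 216)) (XT.nd (nat_lit 78) (nat_lit 0) (nat_lit 0) (XT.lf (nat_lit 0) (nat_lit 5744843996) (nat_lit 76) (nat_lit 493553318037) (nat_lit 76) (nat_lit 480529473050) (nat_lit 1) (nat_lit 4) (nat_lit 2) (nat_lit 5) (nat_lit 2) (nat_lit 4) (nat_lit 390) (nat_lit 295) (nat_lit 215)) (XT.lf (nat_lit 0) (nat_lit 32181908350) (nat_lit 76) (nat_lit 519198621577) (nat_lit 76) (nat_lit 506172728136) (nat_lit 1) (nat_lit 4) (nat_lit 2) (nat_lit 5) (nat_lit 2) (nat_lit 4) (nat_lit 391) (nat_lit 295) (nat_lit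 214)))) (XT.nd (nat_lit 78) (nat_lit 0) (nat_lit 0) (XT.lf (nat_lit 0) (nat_lit 60726117366) (nat_lit 76) (nat_lit 546899401270) (nat_lit 76) (nat_lit 533871611113) (nat_lit 1) (nat_lit 4) (nat_lit 2) (nat_lit 5) (nat_lit 2) (nat_lit 4) (nat_lit 392) (nat_lit 295) (nat_lit 213)) (XT.nd (nat_lit 40248) (nat_lit 0) (nat_lit 9652) (XT.lf (nat_lit 0) (nat_lit 91546621914) (nat_lit 76) (nat_lit 576819809885) (nat_lit 76) (nat_lit 563790263509) (nat_lit 1) (nat_lit 4) (nat_lit 2) (nat_lit 5) (nat_lit 2) (nat_lit 4) (nat_lit 393) (nat_lit 295) (nat_lit 212)) (XT.lf (nat_lit 0) (nat_lit 1262220143) (nat_lit 532) (nat_lit 1098455873) (nat_lit 532) (nat_lit 1098455873) (nat_lit 128) (nat_lit 4) (nat_lit 135) (nat_lit 5) (nat_lit 135) (nat_lit 4) (nat_lit 308) (nat_lit 296) (nat_lit 296)))))) (XT.nd (nat_lit 468) (nat_lit 2128) (nat_lit 0) (XT.nd (nat_lit 234) (nat_lit 1216) (nat_lit 0) (XT.nd (nat_lit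 78) (nat_lit 1520) (nat_lit 0) (XT.lf (nat_lit 0) (nat_lit 2945684011) (nat_lit 684) (nat_lit 3928691338) (nat_lit 0) (nat_lit 175323000) (nat_lit 119) (nat_lit 5) (nat_lit 128) (nat_lit 4) (nat_lit 119) (nat_lit 4) (nat_lit 309) (nat_lit 296) (nat_lit 295)) (XT.nd (nat_lit 78) (nat_lit 760) (nat_lit 0) (XT.lf (nat_lit 0) (nat_lit 957864472) (nat_lit 760) (nat_lit 3371887927) (nat_lit 76) (nat_lit 2871474079) (nat_lit 109) (nat_lit 5) (nat_lit 119) (nat_lit 5) (nat_lit 110) (nat_lit 4) (nat_lit 310) (nat_lit 296) (nat_lit 294)) (XT.lf (nat_lit 0) (nat_lit 4661777710) (nat_lit 760) (nat_lit 1373551971) (nat_lit 836) (nat_lit 1338984974) (nat_lit 99) (nat_lit 5) (nat_lit 109) (nat_lit 5) (nat_lit 110) (nat_lit 4) (nat_lit 311) (nat_lit 296) (nat_lit 293)))) (XT.nd (nat_lit 78) (nat_lit 760) (nat_lit 0) (XT.lf (nat_lit 0) (nat_lit 3636430120) (nat_lit 456) (nat_lit 1983270661) (nat_lit 76)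 (nat_lit 1948652521) (nat_lit 93) (nat_lit 5) (nat_lit 99) (nat_lit 5) (nat_lit 94) (nat_lit 4) (nat_lit 312) (nat_lit 296) (nat_lit 292)) (XT.nd (nat_lit 78) (nat_lit 380) (nat_lit 0) (XT.lf (nat_lit 0) (nat_lit 968016147) (nat_lit 380) (nat_lit 1167458061) (nat_lit 76) (nat_lit 5649832333) (nat_lit 88) (nat_lit 5) (nat_lit 93) (nat_lit 5) (nat_lit 89) (nat_lit 5) (nat_lit 313) (nat_lit 296) (nat_lit 291)) (XT.lf (nat_lit 0) (nat_lit 5970348672) (nat_lit 456) (nat_lit 306462527) (nat_lit 76) (nat_lit 1747550696) (nat_lit 83) (nat_lit 5) (nat_lit 89) (nat_lit 5) (nat_lit 84) (nat_lit 4) (nat_lit 314) (nat_lit 296) (nat_lit 290))))) (XT.nd (nat_lit 234) (nat_lit 836) (nat_lit 0) (XT.nd (nat_lit 78) (nat_lit 608) (nat_lit 0) (XT.lf (nat_lit 0) (nat_lit 616346436) (nat_lit 304) (nat_lit 2258765666) (nat_lit 380) (nat_lit 5411164295) (nat_lit 74) (nat_lit 5) (nat_lit 78) (nat_lit 5) (nat_lit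 79) (nat_lit 5) (nat_lit 315) (nat_lit 296) (nat_lit 289)) (XT.nd (nat_lit 78) (nat_lit 380) (nat_lit 0) (XT.lf (nat_lit 0) (nat_lit 1595433948) (nat_lit 228) (nat_lit 6428058162) (nat_lit 304) (nat_lit 549431320) (nat_lit 71) (nat_lit 5) (nat_lit 74) (nat_lit 5) (nat_lit 75) (nat_lit 4) (nat_lit 316) (nat_lit 296) (nat_lit 288)) (XT.lf (nat_lit 0) (nat_lit 2563417625) (nat_lit 304) (nat_lit 1898586632) (nat_lit 380) (nat_lit 4421537371) (nat_lit 66) (nat_lit 5) (nat_lit 70) (nat_lit 5) (nat_lit 71) (nat_lit 5) (nat_lit 317) (nat_lit 296) (nat_lit 287)))) (XT.nd (nat_lit 78) (nat_lit 532) (nat_lit 0) (XT.lf (nat_lit 0) (nat_lit 553134759) (nat_lit 304) (nat_lit 5671491310) (nat_lit 76) (nat_lit 2996826859) (nat_lit 62) (nat_lit 5) (nat_lit 66) (nat_lit 5) (nat_lit 63) (nat_lit 5) (nat_lit 318) (nat_lit 296) (nat_lit 286)) (XT.nd (nat_lit 78) (nat_lit 304) (nat_lit 0) (XT.lf (nat_lit 0) (nat_lit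 4497612979) (nat_lit 228) (nat_lit 1212232711) (nat_lit 304) (nat_lit 3876199824) (nat_lit 59) (nat_lit 5) (nat_lit 62) (nat_lit 5) (nat_lit 63) (nat_lit 5) (nat_lit 319) (nat_lit 296) (nat_lit 285)) (XT.lf (nat_lit 0) (nat_lit 1243710583) (nat_lit 304) (nat_lit 4573273773) (nat_lit 76) (nat_lit 4162701630) (nat_lit 55) (nat_lit 5) (nat_lit 59) (nat_lit 5) (nat_lit 56) (nat_lit 5) (nat_lit 320) (nat_lit 296) (nat_lit 284))))))) (XT.nd (nat_lit 936) (nat_lit 988) (nat_lit 0) (XT.nd (nat_lit 468) (nat_lit 836) (nat_lit 0) (XT.nd (nat_lit 234) (nat_lit 608) (nat_lit 0) (XT.nd (nat_lit 78) (nat_lit 456) (nat_lit 0) (XT.lf (nat_lit 0) (nat_lit 6256432929) (nat_lit 228) (nat_lit 336199904) (nat_lit 304) (nat_lit 3811427235) (nat_lit 52) (nat_lit 5) (nat_lit 55) (nat_lit 5) (nat_lit 56) (nat_lit 5) (nat_lit 321) (nat_lit 296) (nat_lit 283)) (XT.nd (nat_lit 78) (nat_lit 228) (nat_lit 0) (XT.lf (nat_lit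 0) (nat_lit 1493533084) (nat_lit 228) (nat_lit 3863884061) (nat_lit 76) (nat_lit 5502215565) (nat_lit 49) (nat_lit 5) (nat_lit 52) (nat_lit 5) (nat_lit 50) (nat_lit 5) (nat_lit 322) (nat_lit 296) (nat_lit 282)) (XT.lf (nat_lit 0) (nat_lit 7063719634) (nat_lit 304) (nat_lit 3719833870) (nat_lit 76) (nat_lit 566402915) (nat_lit 46) (nat_lit 5) (nat_lit 50) (nat_lit 5) (nat_lit 47) (nat_lit 4) (nat_lit 323) (nat_lit 296) (nat_lit 281)))) (XT.nd (nat_lit 78) (nat_lit 380) (nat_lit 0) (XT.lf (nat_lit 0) (nat_lit 1222989908) (nat_lit 228) (nat_lit 3780372806) (nat_lit 76) (nat_lit 6872267496) (nat_lit 43) (nat_lit 5) (nat_lit 46) (nat_lit 5) (nat_lit 44) (nat_lit 5) (nat_lit 324) (nat_lit 296) (nat_lit 280)) (XT.nd (nat_lit 78) (nat_lit 228) (nat_lit 0) (XT.lf (nat_lit 0) (nat_lit 7026159068) (nat_lit 228) (nat_lit 4068571589) (nat_lit 76) (nat_lit 1345065749) (nat_lit 41) (nat_lit 5) (nat_lit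 44) (nat_lit 5) (nat_lit 42) (nat_lit 4) (nat_lit 325) (nat_lit 296) (nat_lit 279)) (XT.lf (nat_lit 0) (nat_lit 312246867) (nat_lit 228) (nat_lit 4624983511) (nat_lit 76) (nat_lit 8108001593) (nat_lit 38) (nat_lit 5) (nat_lit 41) (nat_lit 5) (nat_lit 39) (nat_lit 5) (nat_lit 326) (nat_lit 296) (nat_lit 278))))) (XT.nd (nat_lit 234) (nat_lit 380) (nat_lit 0) (XT.nd (nat_lit 78) (nat_lit 304) (nat_lit 0) (XT.lf (nat_lit 0) (nat_lit 6337053372) (nat_lit 228) (nat_lit 5531150507) (nat_lit 76) (nat_lit 1825033506) (nat_lit 36) (nat_lit 5) (nat_lit 39) (nat_lit 5) (nat_lit 37) (nat_lit 4) (nat_lit 327) (nat_lit 296) (nat_lit 277)) (XT.nd (nat_lit 78) (nat_lit 228) (nat_lit 0) (XT.lf (nat_lit 0) (nat_lit 7578408976) (nat_lit 76) (nat_lit 5355400859) (nat_lit 152) (nat_lit 1454866203) (nat_lit 35) (nat_lit 5) (nat_lit 36) (nat_lit 5) (nat_lit 37) (nat_lit 4) (nat_lit 328) (nat_lit 296) (nat_lit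 276)) (XT.lf (nat_lit 0) (nat_lit 4803843143) (nat_lit 228) (nat_lit 8551208461) (nat_lit 76) (nat_lit 1778803341) (nat_lit 32) (nat_lit 5) (nat_lit 35) (nat_lit 5) (nat_lit 33) (nat_lit 4) (nat_lit 329) (nat_lit 296) (nat_lit 275)))) (XT.nd (nat_lit 78) (nat_lit 304) (nat_lit 0) (XT.lf (nat_lit 0) (nat_lit 5090720025) (nat_lit 76) (nat_lit 6532535070) (nat_lit 152) (nat_lit 4308726056) (nat_lit 31) (nat_lit 5) (nat_lit 32) (nat_lit 5) (nat_lit 33) (nat_lit 4) (nat_lit 330) (nat_lit 296) (nat_lit 274)) (XT.nd (nat_lit 78) (nat_lit 76) (nat_lit 0) (XT.lf (nat_lit 0) (nat_lit 2164404091) (nat_lit 228) (nat_lit 13705630493) (nat_lit 76) (nat_lit 920256938) (nat_lit 28) (nat_lit 5) (nat_lit 31) (nat_lit 5) (nat_lit 29) (nat_lit 4) (nat_lit 331) (nat_lit 296) (nat_lit 273)) (XT.lf (nat_lit 0) (nat_lit 330381217) (nat_lit 76) (nat_lit 8815429586) (nat_lit 152) (nat_lit 8560915751) (nat_lit 27)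 (nat_lit 5) (nat_lit 28) (nat_lit 5) (nat_lit 29) (nat_lit 4) (nat_lit 332) (nat_lit 296) (nat_lit 272)))))) (XT.nd (nat_lit 468) (nat_lit 456) (nat_lit 0) (XT.nd (nat_lit 234) (nat_lit 228) (nat_lit 0) (XT.nd (nat_lit 78) (nat_lit 304) (nat_lit 0) (XT.lf (nat_lit 0) (nat_lit 15693395435) (nat_lit 76) (nat_lit 1071172100) (nat_lit 152) (nat_lit 1928023203) (nat_lit 27) (nat_lit 5) (nat_lit 28) (nat_lit 5) (nat_lit 29) (nat_lit 4) (nat_lit 333) (nat_lit 296) (nat_lit 271)) (XT.nd (nat_lit 78) (nat_lit 76) (nat_lit 0) (XT.lf (nat_lit 0) (nat_lit 5230365362) (nat_lit 228) (nat_lit 7287735606) (nat_lit 76) (nat_lit 7227063959) (nat_lit 24) (nat_lit 5) (nat_lit 27) (nat_lit 5) (nat_lit 25) (nat_lit 4) (nat_lit 334) (nat_lit 296) (nat_lit 270)) (XT.lf (nat_lit 0) (nat_lit 8330623180) (nat_lit 76) (nat_lit 4620194146) (nat_lit 152) (nat_lit 7926746243) (nat_lit 23) (nat_lit 5) (nat_lit 24) (nat_lit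 5) (nat_lit 25) (nat_lit 4) (nat_lit 335) (nat_lit 296) (nat_lit 269)))) (XT.nd (nat_lit 78) (nat_lit 152) (nat_lit 0) (XT.lf (nat_lit 0) (nat_lit 3145337883) (nat_lit 76) (nat_lit 18242615366) (nat_lit 76) (nat_lit 707690969) (nat_lit 22) (nat_lit 4) (nat_lit 23) (nat_lit 5) (nat_lit 23) (nat_lit 4) (nat_lit 336) (nat_lit 296) (nat_lit 268)) (XT.nd (nat_lit 78) (nat_lit 76) (nat_lit 0) (XT.lf (nat_lit 0) (nat_lit 7026238260) (nat_lit 152) (nat_lit 3301434267) (nat_lit 76) (nat_lit 13069790493) (nat_lit 21) (nat_lit 5) (nat_lit 23) (nat_lit 5) (nat_lit 22) (nat_lit 4) (nat_lit 337) (nat_lit 296) (nat_lit 267)) (XT.lf (nat_lit 0) (nat_lit 13797472426) (nat_lit 76) (nat_lit 1646614766) (nat_lit 152) (nat_lit 9354294798) (nat_lit 20) (nat_lit 5) (nat_lit 21) (nat_lit 5) (nat_lit 22) (nat_lit 4) (nat_lit 338) (nat_lit 296) (nat_lit 266))))) (XT.nd (nat_lit 234) (nat_lit 228) (nat_lit 0) (XT.nd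 (nat_lit 78) (nat_lit 152) (nat_lit 0) (XT.lf (nat_lit 0) (nat_lit 5915479764) (nat_lit 76) (nat_lit 18769884682) (nat_lit 76) (nat_lit 1618542144) (nat_lit 19) (nat_lit 4) (nat_lit 20) (nat_lit 5) (nat_lit 20) (nat_lit 4) (nat_lit 339) (nat_lit 296) (nat_lit 265)) (XT.nd (nat_lit 78) (nat_lit 76) (nat_lit 0) (XT.lf (nat_lit 0) (nat_lit 6625227206) (nat_lit 152) (nat_lit 3698377513) (nat_lit 76) (nat_lit 17595800692) (nat_lit 18) (nat_lit 5) (nat_lit 20) (nat_lit 5) (nat_lit 19) (nat_lit 4) (nat_lit 340) (nat_lit 296) (nat_lit 264)) (XT.lf (nat_lit 0) (nat_lit 14561925587) (nat_lit 76) (nat_lit 1028919548) (nat_lit 152) (nat_lit 14066045925) (nat_lit 17) (nat_lit 5) (nat_lit 18) (nat_lit 5) (nat_lit 19) (nat_lit 4) (nat_lit 341) (nat_lit 296) (nat_lit 263)))) (XT.nd (nat_lit 78) (nat_lit 152) (nat_lit 0) (XT.lf (nat_lit 0) (nat_lit 2628699931) (nat_lit 76) (nat_lit 22786754024) (nat_lit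 76) (nat_lit 6110858829) (nat_lit 16) (nat_lit 4) (nat_lit 17) (nat_lit 5) (nat_lit 17) (nat_lit 4) (nat_lit 342) (nat_lit 296) (nat_lit 262)) (XT.nd (nat_lit 78) (nat_lit 76) (nat_lit 0) (XT.lf (nat_lit 0) (nat_lit 2583680392) (nat_lit 152) (nat_lit 11476689909) (nat_lit 76) (nat_lit 19473885980) (nat_lit 15) (nat_lit 5) (nat_lit 17) (nat_lit 5) (nat_lit 16) (nat_lit 4) (nat_lit 343) (nat_lit 296) (nat_lit 261)) (XT.lf (nat_lit 0) (nat_lit 7289038777) (nat_lit 76) (nat_lit 4492621064) (nat_lit 152) (nat_lit 23915087764) (nat_lit 14) (nat_lit 5) (nat_lit 15) (nat_lit 5) (nat_lit 16) (nat_lit 4) (nat_lit 344) (nat_lit 296) (nat_lit 260))))))))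
noncomputable def xc40 : XT := (XT.nd (nat_lit 1794) (nat_lit 152) (nat_lit 0) (XT.nd (nat_lit 858) (nat_lit 304) (nat_lit 0) (XT.nd (nat_lit 390) (nat_lit 228) (nat_lit 0) (XT.nd (nat_lit 156) (nat_lit 152) (nat_lit 0) (XT.nd (nat_lit 78) (nat_lit 76) (nat_lit 0) (XT.lf (nat_lit 0) (nat_lit 21918240899) (nat_lit 152) (nat_lit 10325462211) (nat_lit 0) (nat_lit 5778415331) (nat_lit 14) (nat_lit 5) (nat_lit 16) (nat_lit 4) (nat_lit 14) (nat_lit 4) (nat_lit 345) (nat_lit 296) (nat_lit 259)) (XT.lf (nat_lit 0) (nat_lit 9262388876) (nat_lit 76) (nat_lit 23738893798) (nat_lit 76) (nat_lit 7525476565) (nat_lit 13) (nat_lit 4) (nat_lit 14) (nat_lit 5) (nat_lit 14) (nat_lit 4) (nat_lit 346) (nat_lit 296) (nat_lit 258))) (XT.nd (nat_lit 78) (nat_lit 76) (nat_lit 0) (XT.lf (nat_lit 0) (nat_lit 1784038194) (nat_lit 152) (nat_lit 12624279364) (nat_lit 76) (nat_lit 28817085711) (nat_lit 12) (nat_lit 5)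 (nat_lit 14) (nat_lit 5) (nat_lit 13) (nat_lit 4) (nat_lit 347) (nat_lit 296) (nat_lit 257)) (XT.nd (nat_lit 78) (nat_lit 0) (nat_lit 0) (XT.lf (nat_lit 0) (nat_lit 7473599834) (nat_lit 76) (nat_lit 4145058940) (nat_lit 152) (nat_lit 34512925479) (nat_lit 11) (nat_lit 5) (nat_lit 12) (nat_lit 5) (nat_lit 13) (nat_lit 4) (nat_lit 348) (nat_lit 296) (nat_lit 256)) (XT.lf (nat_lit 0) (nat_lit 22498122184) (nat_lit 152) (nat_lit 19883096061) (nat_lit 0) (nat_lit 6876150669) (nat_lit 11) (nat_lit 5) (nat_lit 13) (nat_lit 4) (nat_lit 11) (nat_lit 4) (nat_lit 349) (nat_lit 296) (nat_lit 255))))) (XT.nd (nat_lit 234) (nat_lit 76) (nat_lit 0) (XT.nd (nat_lit 78) (nat_lit 76) (nat_lit 0) (XT.lf (nat_lit 0) (nat_lit 198767009) (nat_lit 76) (nat_lit 34053857464) (nat_lit 76) (nat_lit 18380369691) (nat_lit 10) (nat_lit 4) (nat_lit 11) (nat_lit 5) (nat_lit 11) (nat_lit 4) (nat_lit 350) (nat_lit 296) (nat_lit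 254)) (XT.nd (nat_lit 78) (nat_lit 76) (nat_lit 0) (XT.lf (nat_lit 0) (nat_lit 22471427368) (nat_lit 76) (nat_lit 24757192234) (nat_lit 76) (nat_lit 9036004222) (nat_lit 10) (nat_lit 4) (nat_lit 11) (nat_lit 5) (nat_lit 11) (nat_lit 4) (nat_lit 351) (nat_lit 296) (nat_lit 253)) (XT.lf (nat_lit 0) (nat_lit 960727838) (nat_lit 152) (nat_lit 13795862830) (nat_lit 76) (nat_lit 45432447972) (nat_lit 9) (nat_lit 5) (nat_lit 11) (nat_lit 5) (nat_lit 10) (nat_lit 4) (nat_lit 352) (nat_lit 296) (nat_lit 252)))) (XT.nd (nat_lit 78) (nat_lit 0) (nat_lit 0) (XT.lf (nat_lit 0) (nat_lit 7788456716) (nat_lit 76) (nat_lit 3721156396) (nat_lit 152) (nat_lit 52906946357) (nat_lit 8) (nat_lit 5) (nat_lit 9) (nat_lit 5) (nat_lit 10) (nat_lit 4) (nat_lit 353) (nat_lit 296) (nat_lit 251)) (XT.nd (nat_lit 78) (nat_lit 0) (nat_lit 0) (XT.lf (nat_lit 0) (nat_lit 23219584545) (nat_lit 152) (nat_lit 37616896875) (nat_lit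 0) (nat_lit 8129950113) (nat_lit 8) (nat_lit 5) (nat_lit 10) (nat_lit 4) (nat_lit 8) (nat_lit 4) (nat_lit 354) (nat_lit 296) (nat_lit 250)) (XT.lf (nat_lit 0) (nat_lit 35878118457) (nat_lit 152) (nat_lit 17246501881) (nat_lit 0) (nat_lit 20755092503) (nat_lit 8) (nat_lit 5) (nat_lit 10) (nat_lit 4) (nat_lit 8) (nat_lit 4) (nat_lit 355) (nat_lit 296) (nat_lit 249)))))) (XT.nd (nat_lit 468) (nat_lit 76) (nat_lit 0) (XT.nd (nat_lit 234) (nat_lit 152) (nat_lit 0) (XT.nd (nat_lit 78) (nat_lit 0) (nat_lit 0) (XT.lf (nat_lit 0) (nat_lit 4816036607) (nat_lit 76) (nat_lit 44761285925) (nat_lit 76) (nat_lit 29607341893) (nat_lit 7) (nat_lit 4) (nat_lit 8) (nat_lit 5) (nat_lit 8) (nat_lit 4) (nat_lit 356) (nat_lit 296) (nat_lit 248)) (XT.nd (nat_lit 78) (nat_lit 0) (nat_lit 0) (XT.lf (nat_lit 0) (nat_lit 29171796030) (nat_lit 76) (nat_lit 35456013634) (nat_lit 76) (nat_lit 20273441754) (nat_lit 7)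 (nat_lit 4) (nat_lit 8) (nat_lit 5) (nat_lit 8) (nat_lit 4) (nat_lit 357) (nat_lit 296) (nat_lit 247)) (XT.lf (nat_lit 0) (nat_lit 55394859571) (nat_lit 76) (nat_lit 25445738967) (nat_lit 76) (nat_lit 10236659818) (nat_lit 7) (nat_lit 4) (nat_lit 8) (nat_lit 5) (nat_lit 8) (nat_lit 4) (nat_lit 358) (nat_lit 296) (nat_lit 246)))) (XT.nd (nat_lit 78) (nat_lit 76) (nat_lit 0) (XT.lf (nat_lit 0) (nat_lit 544478229) (nat_lit 152) (nat_lit 14117442545) (nat_lit 76) (nat_lit 83086923933) (nat_lit 6) (nat_lit 5) (nat_lit 8) (nat_lit 5) (nat_lit 7) (nat_lit 4) (nat_lit 359) (nat_lit 296) (nat_lit 245)) (XT.nd (nat_lit 78) (nat_lit 0) (nat_lit 0) (XT.lf (nat_lit 0) (nat_lit 9224558444) (nat_lit 76) (nat_lit 2717347442) (nat_lit 152) (nat_lit 92998244311) (nat_lit 5) (nat_lit 5) (nat_lit 6) (nat_lit 5) (nat_lit 7) (nat_lit 4) (nat_lit 360) (nat_lit 296) (nat_lit 244)) (XT.lf (nat_lit 0) (nat_lit 24624805676)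 (nat_lit 152) (nat_lit 77988365653) (nat_lit 0) (nat_lit 10074909535) (nat_lit 5) (nat_lit 5) (nat_lit 7) (nat_lit 4) (nat_lit 5) (nat_lit 4) (nat_lit 361) (nat_lit 296) (nat_lit 243))))) (XT.nd (nat_lit 234) (nat_lit 76) (nat_lit 0) (XT.nd (nat_lit 78) (nat_lit 0) (nat_lit 0) (XT.lf (nat_lit 0) (nat_lit 38335516001) (nat_lit 152) (nat_lit 58952611327) (nat_lit 0) (nat_lit 23767064019) (nat_lit 5) (nat_lit 5) (nat_lit 7) (nat_lit 4) (nat_lit 5) (nat_lit 4) (nat_lit 362) (nat_lit 296) (nat_lit 242)) (XT.nd (nat_lit 78) (nat_lit 0) (nat_lit 0) (XT.lf (nat_lit 0) (nat_lit 53112860105) (nat_lit 152) (nat_lit 38453098896) (nat_lit 0) (nat_lit 38527226788) (nat_lit 5) (nat_lit 5) (nat_lit 7) (nat_lit 4) (nat_lit 5) (nat_lit 4) (nat_lit 363) (nat_lit 296) (nat_lit 241)) (XT.lf (nat_lit 0) (nat_lit 69044407435) (nat_lit 152) (nat_lit 16368349768) (nat_lit 0) (nat_lit 54442865476) (nat_lit 5) (nat_lit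 5) (nat_lit 7) (nat_lit 4) (nat_lit 5) (nat_lit 4) (nat_lit 364) (nat_lit 296) (nat_lit 240)))) (XT.nd (nat_lit 78) (nat_lit 0) (nat_lit 0) (XT.lf (nat_lit 0) (nat_lit 7678260945) (nat_lit 76) (nat_lit 78666185387) (nat_lit 76) (nat_lit 64049913203) (nat_lit 4) (nat_lit 4) (nat_lit 5) (nat_lit 5) (nat_lit 5) (nat_lit 4) (nat_lit 365) (nat_lit 296) (nat_lit 239)) (XT.nd (nat_lit 78) (nat_lit 0) (nat_lit 0) (XT.lf (nat_lit 0) (nat_lit 34184640445) (nat_lit 76) (nat_lit 71104225231) (nat_lit 76) (nat_lit 56474313949) (nat_lit 4) (nat_lit 4) (nat_lit 5) (nat_lit 5) (nat_lit 5) (nat_lit 4) (nat_lit 366) (nat_lit 296) (nat_lit 238)) (XT.lf (nat_lit 0) (nat_lit 62766652007) (nat_lit 76) (nat_lit 62959271042) (nat_lit 76) (nat_lit 48316730968) (nat_lit 4) (nat_lit 4) (nat_lit 5) (nat_lit 5) (nat_lit 5) (nat_lit 4) (nat_lit 367) (nat_lit 296) (nat_lit 237))))))) (XT.nd (nat_lit 858) (nat_lit 0) (nat_lit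 0) (XT.nd (nat_lit 390) (nat_lit 76) (nat_lit 0) (XT.nd (nat_lit 156) (nat_lit 76) (nat_lit 0) (XT.nd (nat_lit 78) (nat_lit 0) (nat_lit 0) (XT.lf (nat_lit 0) (nat_lit 93593670515) (nat_lit 76) (nat_lit 54183056427) (nat_lit 76) (nat_lit 39528823025) (nat_lit 4) (nat_lit 4) (nat_lit 5) (nat_lit 5) (nat_lit 5) (nat_lit 4) (nat_lit 368) (nat_lit 296) (nat_lit 236)) (XT.lf (nat_lit 0) (nat_lit 126848374597) (nat_lit 76) (nat_lit 44723574187) (nat_lit 76) (nat_lit 30058513629) (nat_lit 4) (nat_lit 4) (nat_lit 5) (nat_lit 5) (nat_lit 5) (nat_lit 4) (nat_lit 369) (nat_lit 296) (nat_lit 235))) (XT.nd (nat_lit 78) (nat_lit 76) (nat_lit 0) (XT.lf (nat_lit 0) (nat_lit 162727829165) (nat_lit 76) (nat_lit 34524768130) (nat_lit 76) (nat_lit 19849682429) (nat_lit 4) (nat_lit 4) (nat_lit 5) (nat_lit 5) (nat_lit 5) (nat_lit 4) (nat_lit 370) (nat_lit 296) (nat_lit 234)) (XT.nd (nat_lit 78) (nat_lit 76) (nat_lit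 0) (XT.lf (nat_lit 0) (nat_lit 201444653210) (nat_lit 76) (nat_lit 23526200889) (nat_lit 76) (nat_lit 8841832648) (nat_lit 4) (nat_lit 4) (nat_lit 5) (nat_lit 5) (nat_lit 5) (nat_lit 4) (nat_lit 371) (nat_lit 296) (nat_lit 233)) (XT.lf (nat_lit 0) (nat_lit 2933279936) (nat_lit 152) (nat_lit 8679739316) (nat_lit 76) (nat_lit 240245323313) (nat_lit 3) (nat_lit 5) (nat_lit 5) (nat_lit 5) (nat_lit 4) (nat_lit 4) (nat_lit 372) (nat_lit 296) (nat_lit 232))))) (XT.nd (nat_lit 234) (nat_lit 0) (nat_lit 0) (XT.nd (nat_lit 78) (nat_lit 0) (nat_lit 0) (XT.lf (nat_lit 0) (nat_lit 15626072132) (nat_lit 152) (nat_lit 254074866252) (nat_lit 0) (nat_lit 1625194544) (nat_lit 2) (nat_lit 5) (nat_lit 4) (nat_lit 4) (nat_lit 2) (nat_lit 4) (nat_lit 373) (nat_lit 296) (nat_lit 231)) (XT.nd (nat_lit 78) (nat_lit 0) (nat_lit 0) (XT.lf (nat_lit 0) (nat_lit 29669546320) (nat_lit 152) (nat_lit 247003388045) (nat_lit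 0) (nat_lit 15661650846) (nat_lit 2) (nat_lit 5) (nat_lit 4) (nat_lit 4) (nat_lit 2) (nat_lit 4) (nat_lit 374) (nat_lit 296) (nat_lit 230)) (XT.lf (nat_lit 0) (nat_lit 44823320503) (nat_lit 152) (nat_lit 239392126587) (nat_lit 0) (nat_lit 30808926987) (nat_lit 2) (nat_lit 5) (nat_lit 4) (nat_lit 4) (nat_lit 2) (nat_lit 4) (nat_lit 375) (nat_lit 296) (nat_lit 229)))) (XT.nd (nat_lit 78) (nat_lit 0) (nat_lit 0) (XT.lf (nat_lit 0) (nat_lit 61177194823) (nat_lit 152) (nat_lit 231195978106) (nat_lit 0) (nat_lit 47156784601) (nat_lit 2) (nat_lit 5) (nat_lit 4) (nat_lit 4) (nat_lit 2) (nat_lit 4) (nat_lit 376) (nat_lit 296) (nat_lit 228)) (XT.nd (nat_lit 78) (nat_lit 0) (nat_lit 0) (XT.lf (nat_lit 0) (nat_lit 78828081129) (nat_lit 152) (nat_lit 222366372834) (nat_lit 0) (nat_lit 64802099884) (nat_lit 2) (nat_lit 5) (nat_lit 4) (nat_lit 4) (nat_lit 2) (nat_lit 4) (nat_lit 377) (nat_lit 296) (nat_lit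 227)) (XT.lf (nat_lit 0) (nat_lit 97880577266) (nat_lit 152) (nat_lit 212850987184) (nat_lit 0) (nat_lit 83849437665) (nat_lit 2) (nat_lit 5) (nat_lit 4) (nat_lit 4) (nat_lit 2) (nat_lit 4) (nat_lit 378) (nat_lit 296) (nat_lit 226)))))) (XT.nd (nat_lit 468) (nat_lit 0) (nat_lit 0) (XT.nd (nat_lit 234) (nat_lit 0) (nat_lit 0) (XT.nd (nat_lit 78) (nat_lit 0) (nat_lit 0) (XT.lf (nat_lit 0) (nat_lit 118447586914) (nat_lit 152) (nat_lit 202593433685) (nat_lit 0) (nat_lit 104411671058) (nat_lit 2) (nat_lit 5) (nat_lit 4) (nat_lit 4) (nat_lit 2) (nat_lit 4) (nat_lit 379) (nat_lit 296) (nat_lit 225)) (XT.nd (nat_lit 78) (nat_lit 0) (nat_lit 0) (XT.lf (nat_lit 0) (nat_lit 140650988649) (nat_lit 152) (nat_lit 191532926835) (nat_lit 0) (nat_lit 126610650334) (nat_lit 2) (nat_lit 5) (nat_lit 4) (nat_lit 4) (nat_lit 2) (nat_lit 4) (nat_lit 380) (nat_lit 296) (nat_lit 224)) (XT.lf (nat_lit 0) (nat_lit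 164622358185) (nat_lit 152) (nat_lit 179603922890) (nat_lit 0) (nat_lit 150577925002) (nat_lit 2) (nat_lit 5) (nat_lit 4) (nat_lit 4) (nat_lit 2) (nat_lit 4) (nat_lit 381) (nat_lit 296) (nat_lit 223)))) (XT.nd (nat_lit 78) (nat_lit 0) (nat_lit 0) (XT.lf (nat_lit 0) (nat_lit 190503748082) (nat_lit 152) (nat_lit 166735731456) (nat_lit 0) (nat_lit 176455523353) (nat_lit 2) (nat_lit 5) (nat_lit 4) (nat_lit 4) (nat_lit 2) (nat_lit 4) (nat_lit 382) (nat_lit 296) (nat_lit 222)) (XT.nd (nat_lit 78) (nat_lit 0) (nat_lit 0) (XT.lf (nat_lit 0) (nat_lit 218448529539) (nat_lit 152) (nat_lit 152852096583) (nat_lit 0) (nat_lit 204396794121) (nat_lit 2) (nat_lit 5) (nat_lit 4) (nat_lit 4) (nat_lit 2) (nat_lit 4) (nat_lit 383) (nat_lit 296) (nat_lit 221)) (XT.lf (nat_lit 0) (nat_lit 248622301263) (nat_lit 152) (nat_lit 137870744881) (nat_lit 0) (nat_lit 234567315205) (nat_lit 2) (nat_lit 5) (nat_lit 4) (nat_lit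 4) (nat_lit 2) (nat_lit 4) (nat_lit 384) (nat_lit 296) (nat_lit 220))))) (XT.nd (nat_lit 234) (nat_lit 0) (nat_lit 0) (XT.nd (nat_lit 78) (nat_lit 0) (nat_lit 0) (XT.lf (nat_lit 0) (nat_lit 281203870787) (nat_lit 152) (nat_lit 121702897967) (nat_lit 0) (nat_lit 267145874879) (nat_lit 2) (nat_lit 5) (nat_lit 4) (nat_lit 4) (nat_lit 2) (nat_lit 4) (nat_lit 385) (nat_lit 296) (nat_lit 219)) (XT.nd (nat_lit 78) (nat_lit 0) (nat_lit 0) (XT.lf (nat_lit 0) (nat_lit 316386314081) (nat_lit 152) (nat_lit 104252746380) (nat_lit 0) (nat_lit 302325531275) (nat_lit 2) (nat_lit 5) (nat_lit 4) (nat_lit 4) (nat_lit 2) (nat_lit 4) (nat_lit 386) (nat_lit 296) (nat_lit 218)) (XT.lf (nat_lit 0) (nat_lit 354378119697) (nat_lit 152) (nat_lit 85416881814) (nat_lit 0) (nat_lit 340314756429) (nat_lit 2) (nat_lit 5) (nat_lit 4) (nat_lit 4) (nat_lit 2) (nat_lit 4) (nat_lit 387) (nat_lit 296) (nat_lit 217)))) (XT.nd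 (nat_lit 78) (nat_lit 0) (nat_lit 0) (XT.lf (nat_lit 0) (nat_lit 395404424261) (nat_lit 152) (nat_lit 65083684330) (nat_lit 0) (nat_lit 381338671676) (nat_lit 2) (nat_lit 5) (nat_lit 4) (nat_lit 4) (nat_lit 2) (nat_lit 4) (nat_lit 388) (nat_lit 296) (nat_lit 216)) (XT.nd (nat_lit 78) (nat_lit 0) (nat_lit 0) (XT.lf (nat_lit 0) (nat_lit 439708346615) (nat_lit 152) (nat_lit 43132660906) (nat_lit 0) (nat_lit 425640381700) (nat_lit 2) (nat_lit 5) (nat_lit 4) (nat_lit 4) (nat_lit 2) (nat_lit 4) (nat_lit 389) (nat_lit 296) (nat_lit 215)) (XT.lf (nat_lit 0) (nat_lit 487552428521) (nat_lit 152) (nat_lit 19433731404) (nat_lit 0) (nat_lit 473482415152) (nat_lit 2) (nat_lit 5) (nat_lit 4) (nat_lit 4) (nat_lit 2) (nat_lit 4) (nat_lit 390) (nat_lit 296) (nat_lit 214))))))))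
noncomputable def xc41 : XT := (XT.nd (nat_lit 41808) (nat_lit 0) (nat_lit 760) (XT.nd (nat_lit 40872) (nat_lit 0) (nat_lit 3040) (XT.nd (nat_lit 40404) (nat_lit 0) (nat_lit 6612) (XT.nd (nat_lit 156) (nat_lit 0) (nat_lit 0) (XT.nd (nat_lit 78) (nat_lit 0) (nat_lit 0) (XT.lf (nat_lit 0) (nat_lit 6357006175) (nat_lit 76) (nat_lit 532962434971) (nat_lit 76) (nat_lit 518890524885) (nat_lit 1) (nat_lit 4) (nat_lit 2) (nat_lit 5) (nat_lit 2) (nat_lit 4) (nat_lit 391) (nat_lit 296) (nat_lit 213)) (XT.lf (nat_lit 0) (nat_lit 34897733850) (nat_lit 76) (nat_lit 560664929350) (nat_lit 76) (nat_lit 546591263045) (nat_lit 1) (nat_lit 4) (nat_lit 2) (nat_lit 5) (nat_lit 2) (nat_lit 4) (nat_lit 392) (nat_lit 296) (nat_lit 212))) (XT.nd (nat_lit 40092) (nat_lit 0) (nat_lit 10184) (XT.lf (nat_lit 0) (nat_lit 65715014934) (nat_lit 76) (nat_lit 590586925637) (nat_lit 76) (nat_lit 576511633204) (nat_lit 1)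 (nat_lit 4) (nat_lit 2) (nat_lit 5) (nat_lit 2) (nat_lit 4) (nat_lit 393) (nat_lit 296) (nat_lit 211)) (XT.nd (nat_lit 78) (nat_lit 532) (nat_lit 0) (XT.lf (nat_lit 0) (nat_lit 985234473) (nat_lit 380) (nat_lit 1184374229) (nat_lit 380) (nat_lit 1184374229) (nat_lit 142) (nat_lit 4) (nat_lit 147) (nat_lit 5) (nat_lit 147) (nat_lit 4) (nat_lit 306) (nat_lit 297) (nat_lit 297)) (XT.lf (nat_lit 0) (nat_lit 2081522249) (nat_lit 456) (nat_lit 542961217) (nat_lit 532) (nat_lit 4183640232) (nat_lit 135) (nat_lit 5) (nat_lit 141) (nat_lit 5) (nat_lit 142) (nat_lit 4) (nat_lit 307) (nat_lit 297) (nat_lit 296))))) (XT.nd (nat_lit 234) (nat_lit 1596) (nat_lit 0) (XT.nd (nat_lit 78) (nat_lit 1368) (nat_lit 0) (XT.lf (nat_lit 0) (nat_lit 706040898) (nat_lit 608) (nat_lit 4603084607) (nat_lit 76) (nat_lit 1619128699) (nat_lit 127) (nat_lit 5) (nat_lit 135) (nat_lit 5) (nat_lit 128) (nat_lit 4) (nat_lit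 308) (nat_lit 297) (nat_lit 295)) (XT.nd (nat_lit 78) (nat_lit 760) (nat_lit 0) (XT.lf (nat_lit 0) (nat_lit 2686303111) (nat_lit 608) (nat_lit 2889393523) (nat_lit 684) (nat_lit 1492693414) (nat_lit 119) (nat_lit 5) (nat_lit 127) (nat_lit 5) (nat_lit 128) (nat_lit 4) (nat_lit 309) (nat_lit 297) (nat_lit 294)) (XT.lf (nat_lit 0) (nat_lit 3179956501) (nat_lit 684) (nat_lit 66723748) (nat_lit 760) (nat_lit 3983397092) (nat_lit 109) (nat_lit 5) (nat_lit 118) (nat_lit 5) (nat_lit 119) (nat_lit 5) (nat_lit 310) (nat_lit 297) (nat_lit 293)))) (XT.nd (nat_lit 78) (nat_lit 760) (nat_lit 0) (XT.lf (nat_lit 0) (nat_lit 699783596) (nat_lit 836) (nat_lit 3647678037) (nat_lit 76) (nat_lit 3064792530) (nat_lit 98) (nat_lit 5) (nat_lit 109) (nat_lit 5) (nat_lit 99) (nat_lit 5) (nat_lit 311) (nat_lit 297) (nat_lit 292)) (XT.nd (nat_lit 78) (nat_lit 380) (nat_lit 0) (XT.lf (nat_lit 0) (nat_lit 4446840405)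 (nat_lit 380) (nat_lit 969527873) (nat_lit 456) (nat_lit 2199883213) (nat_lit 93) (nat_lit 5) (nat_lit 98) (nat_lit 5) (nat_lit 99) (nat_lit 5) (nat_lit 312) (nat_lit 297) (nat_lit 291)) (XT.lf (nat_lit 0) (nat_lit 2447562941) (nat_lit 380) (nat_lit 2642493490) (nat_lit 76) (nat_lit 2751830023) (nat_lit 88) (nat_lit 5) (nat_lit 93) (nat_lit 5) (nat_lit 89) (nat_lit 5) (nat_lit 313) (nat_lit 297) (nat_lit 290)))))) (XT.nd (nat_lit 468) (nat_lit 1368) (nat_lit 0) (XT.nd (nat_lit 234) (nat_lit 1064) (nat_lit 0) (XT.nd (nat_lit 78) (nat_lit 760) (nat_lit 0) (XT.lf (nat_lit 0) (nat_lit 6042682151) (nat_lit 380) (nat_lit 1201970193) (nat_lit 456) (nat_lit 846719185) (nat_lit 83) (nat_lit 5) (nat_lit 88) (nat_lit 5) (nat_lit 89) (nat_lit 5) (nat_lit 314) (nat_lit 297) (nat_lit 289)) (XT.nd (nat_lit 78) (nat_lit 380) (nat_lit 0) (XT.lf (nat_lit 0) (nat_lit 3839158159) (nat_lit 380) (nat_lit 1456496352)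 (nat_lit 76) (nat_lit 3067067176) (nat_lit 78) (nat_lit 5) (nat_lit 83) (nat_lit 5) (nat_lit 79) (nat_lit 5) (nat_lit 315) (nat_lit 297) (nat_lit 288)) (XT.lf (nat_lit 0) (nat_lit 101493021) (nat_lit 380) (nat_lit 806001612) (nat_lit 76) (nat_lit 7753033045) (nat_lit 73) (nat_lit 5) (nat_lit 78) (nat_lit 5) (nat_lit 74) (nat_lit 5) (nat_lit 316) (nat_lit 297) (nat_lit 287)))) (XT.nd (nat_lit 78) (nat_lit 836) (nat_lit 0) (XT.lf (nat_lit 0) (nat_lit 4893203306) (nat_lit 304) (nat_lit 209473410) (nat_lit 76) (nat_lit 3878267907) (nat_lit 70) (nat_lit 5) (nat_lit 74) (nat_lit 5) (nat_lit 71) (nat_lit 5) (nat_lit 317) (nat_lit 297) (nat_lit 286)) (XT.nd (nat_lit 78) (nat_lit 228) (nat_lit 0) (XT.lf (nat_lit 0) (nat_lit 440144824) (nat_lit 228) (nat_lit 205341135) (nat_lit 304) (nat_lit 8684753849) (nat_lit 62) (nat_lit 5) (nat_lit 65) (nat_lit 5) (nat_lit 66) (nat_lit 5) (nat_lit 318) (nat_lit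 297) (nat_lit 285)) (XT.lf (nat_lit 0) (nat_lit 995437025) (nat_lit 228) (nat_lit 4625465200) (nat_lit 304) (nat_lit 4083093417) (nat_lit 59) (nat_lit 5) (nat_lit 62) (nat_lit 5) (nat_lit 63) (nat_lit 5) (nat_lit 319) (nat_lit 297) (nat_lit 284))))) (XT.nd (nat_lit 234) (nat_lit 608) (nat_lit 0) (XT.nd (nat_lit 78) (nat_lit 456) (nat_lit 0) (XT.lf (nat_lit 0) (nat_lit 808300226) (nat_lit 304) (nat_lit 8558568322) (nat_lit 76) (nat_lit 742772880) (nat_lit 55) (nat_lit 5) (nat_lit 59) (nat_lit 5) (nat_lit 56) (nat_lit 5) (nat_lit 320) (nat_lit 297) (nat_lit 283)) (XT.nd (nat_lit 78) (nat_lit 228) (nat_lit 0) (XT.lf (nat_lit 0) (nat_lit 1965200784) (nat_lit 228) (nat_lit 4011595573) (nat_lit 304) (nat_lit 4566320898) (nat_lit 52) (nat_lit 5) (nat_lit 55) (nat_lit 5) (nat_lit 56) (nat_lit 5) (nat_lit 321) (nat_lit 297) (nat_lit 282)) (XT.lf (nat_lit 0) (nat_lit 519839237) (nat_lit 228) (nat_lit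 8688115890) (nat_lit 76) (nat_lit 1803543076) (nat_lit 49) (nat_lit 5) (nat_lit 52) (nat_lit 5) (nat_lit 50) (nat_lit 5) (nat_lit 322) (nat_lit 297) (nat_lit 281)))) (XT.nd (nat_lit 78) (nat_lit 380) (nat_lit 0) (XT.lf (nat_lit 0) (nat_lit 2488416943) (nat_lit 228) (nat_lit 3407463249) (nat_lit 304) (nat_lit 5615714679) (nat_lit 46) (nat_lit 5) (nat_lit 49) (nat_lit 5) (nat_lit 50) (nat_lit 5) (nat_lit 323) (nat_lit 297) (nat_lit 280)) (XT.nd (nat_lit 78) (nat_lit 228) (nat_lit 0) (XT.lf (nat_lit 0) (nat_lit 2527669887) (nat_lit 152) (nat_lit 9203953921) (nat_lit 228) (nat_lit 318720986) (nat_lit 44) (nat_lit 5) (nat_lit 46) (nat_lit 5) (nat_lit 47) (nat_lit 4) (nat_lit 324) (nat_lit 297) (nat_lit 279)) (XT.lf (nat_lit 0) (nat_lit 2306207281) (nat_lit 152) (nat_lit 2974992905) (nat_lit 228) (nat_lit 7344285689) (nat_lit 41) (nat_lit 5) (nat_lit 43) (nat_lit 5) (nat_lit 44) (nat_lit 5) (nat_lit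 325) (nat_lit 297) (nat_lit 278))))))) (XT.nd (nat_lit 936) (nat_lit 760) (nat_lit 0) (XT.nd (nat_lit 468) (nat_lit 760) (nat_lit 0) (XT.nd (nat_lit 234) (nat_lit 380) (nat_lit 0) (XT.nd (nat_lit 78) (nat_lit 228) (nat_lit 0) (XT.lf (nat_lit 0) (nat_lit 1858477177) (nat_lit 152) (nat_lit 9522883371) (nat_lit 228) (nat_lit 1861949135) (nat_lit 39) (nat_lit 5) (nat_lit 41) (nat_lit 5) (nat_lit 42) (nat_lit 4) (nat_lit 326) (nat_lit 297) (nat_lit 277)) (XT.nd (nat_lit 78) (nat_lit 0) (nat_lit 0) (XT.lf (nat_lit 0) (nat_lit 1085750548) (nat_lit 152) (nat_lit 2906645359) (nat_lit 228) (nat_lit 9911919263) (nat_lit 36) (nat_lit 5) (nat_lit 38) (nat_lit 5) (nat_lit 39) (nat_lit 5) (nat_lit 327) (nat_lit 297) (nat_lit 276)) (XT.lf (nat_lit 0) (nat_lit 10339317724) (nat_lit 228) (nat_lit 52103277) (nat_lit 76) (nat_lit 4220865099) (nat_lit 36) (nat_lit 5) (nat_lit 39) (nat_lit 5) (nat_lit 37) (nat_lit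 4) (nat_lit 328) (nat_lit 297) (nat_lit 275)))) (XT.nd (nat_lit 78) (nat_lit 228) (nat_lit 0) (XT.lf (nat_lit 0) (nat_lit 1859837369) (nat_lit 152) (nat_lit 1553124867) (nat_lit 76) (nat_lit 11957543470) (nat_lit 34) (nat_lit 5) (nat_lit 36) (nat_lit 5) (nat_lit 35) (nat_lit 5) (nat_lit 329) (nat_lit 297) (nat_lit 274)) (XT.nd (nat_lit 78) (nat_lit 76) (nat_lit 0) (XT.lf (nat_lit 0) (nat_lit 8440866310) (nat_lit 228) (nat_lit 3582838137) (nat_lit 76) (nat_lit 4156879721) (nat_lit 32) (nat_lit 5) (nat_lit 35) (nat_lit 5) (nat_lit 33) (nat_lit 4) (nat_lit 330) (nat_lit 297) (nat_lit 273)) (XT.lf (nat_lit 0) (nat_lit 10904795300) (nat_lit 76) (nat_lit 4744509590) (nat_lit 152) (nat_lit 1401181408) (nat_lit 31) (nat_lit 5) (nat_lit 32) (nat_lit 5) (nat_lit 33) (nat_lit 4) (nat_lit 331) (nat_lit 297) (nat_lit 272))))) (XT.nd (nat_lit 234) (nat_lit 228) (nat_lit 0) (XT.nd (nat_lit 78) (nat_lit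 304) (nat_lit 0) (XT.lf (nat_lit 0) (nat_lit 5370353312) (nat_lit 228) (nat_lit 9414098245) (nat_lit 76) (nat_lit 3196326549) (nat_lit 28) (nat_lit 5) (nat_lit 31) (nat_lit 5) (nat_lit 29) (nat_lit 4) (nat_lit 332) (nat_lit 297) (nat_lit 271)) (XT.nd (nat_lit 78) (nat_lit 228) (nat_lit 0) (XT.lf (nat_lit 0) (nat_lit 5510639240) (nat_lit 76) (nat_lit 7255447390) (nat_lit 152) (nat_lit 6211731859) (nat_lit 27) (nat_lit 5) (nat_lit 28) (nat_lit 5) (nat_lit 29) (nat_lit 4) (nat_lit 333) (nat_lit 297) (nat_lit 270)) (XT.lf (nat_lit 0) (nat_lit 745799569) (nat_lit 228) (nat_lit 18355715149) (nat_lit 76) (nat_lit 949142194) (nat_lit 24) (nat_lit 5) (nat_lit 27) (nat_lit 5) (nat_lit 25) (nat_lit 4) (nat_lit 334) (nat_lit 297) (nat_lit 269)))) (XT.nd (nat_lit 78) (nat_lit 228) (nat_lit 0) (XT.lf (nat_lit 0) (nat_lit 8271555303) (nat_lit 228) (nat_lit 3121034172) (nat_lit 76) (nat_lit 9800221327)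 (nat_lit 24) (nat_lit 5) (nat_lit 27) (nat_lit 5) (nat_lit 25) (nat_lit 4) (nat_lit 335) (nat_lit 297) (nat_lit 268)) (XT.nd (nat_lit 78) (nat_lit 152) (nat_lit 0) (XT.lf (nat_lit 0) (nat_lit 13540376262) (nat_lit 76) (nat_lit 2945922287) (nat_lit 152) (nat_lit 5935731458) (nat_lit 23) (nat_lit 5) (nat_lit 24) (nat_lit 5) (nat_lit 25) (nat_lit 4) (nat_lit 336) (nat_lit 297) (nat_lit 267)) (XT.lf (nat_lit 0) (nat_lit 1713476350) (nat_lit 152) (nat_lit 15936995920) (nat_lit 76) (nat_lit 6090077012) (nat_lit 21) (nat_lit 5) (nat_lit 23) (nat_lit 5) (nat_lit 22) (nat_lit 4) (nat_lit 337) (nat_lit 297) (nat_lit 266)))))) (XT.nd (nat_lit 468) (nat_lit 380) (nat_lit 0) (XT.nd (nat_lit 234) (nat_lit 152) (nat_lit 0) (XT.nd (nat_lit 78) (nat_lit 152) (nat_lit 0) (XT.lf (nat_lit 0) (nat_lit 637639015) (nat_lit 76) (nat_lit 9232246253) (nat_lit 152) (nat_lit 15284670432) (nat_lit 20) (nat_lit 5) (nat_lit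 21) (nat_lit 5) (nat_lit 22) (nat_lit 4) (nat_lit 338) (nat_lit 297) (nat_lit 265)) (XT.nd (nat_lit 78) (nat_lit 152) (nat_lit 0) (XT.lf (nat_lit 0) (nat_lit 18846295306) (nat_lit 152) (nat_lit 7771998853) (nat_lit 0) (nat_lit 55043809) (nat_lit 20) (nat_lit 5) (nat_lit 22) (nat_lit 4) (nat_lit 20) (nat_lit 4) (nat_lit 339) (nat_lit 297) (nat_lit 264)) (XT.lf (nat_lit 0) (nat_lit 435596071) (nat_lit 152) (nat_lit 18017493206) (nat_lit 76) (nat_lit 9849598803) (nat_lit 18) (nat_lit 5) (nat_lit 20) (nat_lit 5) (nat_lit 19) (nat_lit 4) (nat_lit 340) (nat_lit 297) (nat_lit 263)))) (XT.nd (nat_lit 78) (nat_lit 152) (nat_lit 0) (XT.lf (nat_lit 0) (nat_lit 9125313765) (nat_lit 152) (nat_lit 313954945) (nat_lit 76) (nat_lit 20614711710) (nat_lit 18) (nat_lit 5) (nat_lit 20) (nat_lit 5) (nat_lit 19) (nat_lit 4) (nat_lit 341) (nat_lit 297) (nat_lit 262)) (XT.nd (nat_lit 78) (nat_lit 76) (nat_lit 0)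 (XT.lf (nat_lit 0) (nat_lit 18725487771) (nat_lit 152) (nat_lit 12696092168) (nat_lit 0) (nat_lit 513054761) (nat_lit 17) (nat_lit 5) (nat_lit 19) (nat_lit 4) (nat_lit 17) (nat_lit 4) (nat_lit 342) (nat_lit 297) (nat_lit 261)) (XT.lf (nat_lit 0) (nat_lit 6272138177) (nat_lit 76) (nat_lit 22993786851) (nat_lit 76) (nat_lit 4691224658) (nat_lit 16) (nat_lit 4) (nat_lit 17) (nat_lit 5) (nat_lit 17) (nat_lit 4) (nat_lit 343) (nat_lit 297) (nat_lit 260))))) (XT.nd (nat_lit 234) (nat_lit 228) (nat_lit 0) (XT.nd (nat_lit 78) (nat_lit 76) (nat_lit 0) (XT.lf (nat_lit 0) (nat_lit 4500947848) (nat_lit 152) (nat_lit 9159072051) (nat_lit 76) (nat_lit 22471089871) (nat_lit 15) (nat_lit 5) (nat_lit 17) (nat_lit 5) (nat_lit 16) (nat_lit 4) (nat_lit 344) (nat_lit 297) (nat_lit 259)) (XT.nd (nat_lit 78) (nat_lit 0) (nat_lit 0) (XT.lf (nat_lit 0) (nat_lit 10967293045) (nat_lit 76) (nat_lit 3389087167) (nat_lit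 152) (nat_lit 24114166006) (nat_lit 14) (nat_lit 5) (nat_lit 15) (nat_lit 5) (nat_lit 16) (nat_lit 4) (nat_lit 345) (nat_lit 297) (nat_lit 258)) (XT.lf (nat_lit 0) (nat_lit 25204133719) (nat_lit 152) (nat_lit 8230914269) (nat_lit 0) (nat_lit 7551911012) (nat_lit 14) (nat_lit 5) (nat_lit 16) (nat_lit 4) (nat_lit 14) (nat_lit 4) (nat_lit 346) (nat_lit 297) (nat_lit 257)))) (XT.nd (nat_lit 78) (nat_lit 152) (nat_lit 0) (XT.lf (nat_lit 0) (nat_lit 12797039844) (nat_lit 76) (nat_lit 24306882256) (nat_lit 76) (nat_lit 6591566558) (nat_lit 13) (nat_lit 4) (nat_lit 14) (nat_lit 5) (nat_lit 14) (nat_lit 4) (nat_lit 347) (nat_lit 297) (nat_lit 256)) (XT.nd (nat_lit 78) (nat_lit 76) (nat_lit 0) (XT.lf (nat_lit 0) (nat_lit 3303416990) (nat_lit 152) (nat_lit 11001730304) (nat_lit 76) (nat_lit 32309204587) (nat_lit 12) (nat_lit 5) (nat_lit 14) (nat_lit 5) (nat_lit 13) (nat_lit 4) (nat_lit 348) (nat_lit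 297) (nat_lit 255)) (XT.lf (nat_lit 0) (nat_lit 10589574361) (nat_lit 76) (nat_lit 3272572743) (nat_lit 152) (nat_lit 35894031826) (nat_lit 11) (nat_lit 5) (nat_lit 12) (nat_lit 5) (nat_lit 13) (nat_lit 4) (nat_lit 349) (nat_lit 297) (nat_lit 254))))))))
noncomputable def xc42 : XT := (XT.nd (nat_lit 1794) (nat_lit 228) (nat_lit 0) (XT.nd (nat_lit 858) (nat_lit 152) (nat_lit 0) (XT.nd (nat_lit 390) (nat_lit 152) (nat_lit 0) (XT.nd (nat_lit 156) (nat_lit 152) (nat_lit 0) (XT.nd (nat_lit 78) (nat_lit 76) (nat_lit 0) (XT.lf (nat_lit 0) (nat_lit 25532041276) (nat_lit 152) (nat_lit 19098540625) (nat_lit 0) (nat_lit 8505457985) (nat_lit 11) (nat_lit 5) (nat_lit 13) (nat_lit 4) (nat_lit 11) (nat_lit 4) (nat_lit 350) (nat_lit 297) (nat_lit 253)) (XT.lf (nat_lit 0) (nat_lit 2486648057) (nat_lit 76) (nat_lit 35684315119) (nat_lit 76) (nat_lit 18613564940) (nat_lit 10) (nat_lit 4) (nat_lit 11) (nat_lit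 5) (nat_lit 11) (nat_lit 4) (nat_lit 351) (nat_lit 297) (nat_lit 252))) (XT.nd (nat_lit 78) (nat_lit 152) (nat_lit 0) (XT.lf (nat_lit 0) (nat_lit 26372826454) (nat_lit 76) (nat_lit 25724942666) (nat_lit 76) (nat_lit 8613297221) (nat_lit 10) (nat_lit 4) (nat_lit 11) (nat_lit 5) (nat_lit 11) (nat_lit 4) (nat_lit 352) (nat_lit 297) (nat_lit 251)) (XT.nd (nat_lit 78) (nat_lit 76) (nat_lit 0) (XT.lf (nat_lit 0) (nat_lit 2064365129) (nat_lit 152) (nat_lit 12917562916) (nat_lit 76) (nat_lit 49970732129) (nat_lit 9) (nat_lit 5) (nat_lit 11) (nat_lit 5) (nat_lit 10) (nat_lit 4) (nat_lit 353) (nat_lit 297) (nat_lit 250)) (XT.lf (nat_lit 0) (nat_lit 10307368240) (nat_lit 76) (nat_lit 3103334575) (nat_lit 152) (nat_lit 56110014821) (nat_lit 8) (nat_lit 5) (nat_lit 9) (nat_lit 5) (nat_lit 10) (nat_lit 4) (nat_lit 354) (nat_lit 297) (nat_lit 249))))) (XT.nd (nat_lit 234) (nat_lit 76) (nat_lit 0) (XT.nd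 (nat_lit 78) (nat_lit 76) (nat_lit 0) (XT.lf (nat_lit 0) (nat_lit 25998090565) (nat_lit 152) (nat_lit 38838556187) (nat_lit 0) (nat_lit 9600912934) (nat_lit 8) (nat_lit 5) (nat_lit 10) (nat_lit 4) (nat_lit 8) (nat_lit 4) (nat_lit 355) (nat_lit 297) (nat_lit 248)) (XT.nd (nat_lit 78) (nat_lit 76) (nat_lit 0) (XT.lf (nat_lit 0) (nat_lit 39601089468) (nat_lit 152) (nat_lit 16970951256) (nat_lit 0) (nat_lit 23175283988) (nat_lit 8) (nat_lit 5) (nat_lit 10) (nat_lit 4) (nat_lit 8) (nat_lit 4) (nat_lit 356) (nat_lit 297) (nat_lit 247)) (XT.lf (nat_lit 0) (nat_lit 6784654261) (nat_lit 76) (nat_lit 47573131342) (nat_lit 76) (nat_lit 31120818594) (nat_lit 7) (nat_lit 4) (nat_lit 8) (nat_lit 5) (nat_lit 8) (nat_lit 4) (nat_lit 357) (nat_lit 297) (nat_lit 246)))) (XT.nd (nat_lit 78) (nat_lit 76) (nat_lit 0) (XT.lf (nat_lit 0) (nat_lit 32971590384) (nat_lit 76) (nat_lit 37580404487) (nat_lit 76) (nat_lit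 21103547973) (nat_lit 7) (nat_lit 4) (nat_lit 8) (nat_lit 5) (nat_lit 8) (nat_lit 4) (nat_lit 358) (nat_lit 297) (nat_lit 245)) (XT.nd (nat_lit 78) (nat_lit 76) (nat_lit 0) (XT.lf (nat_lit 0) (nat_lit 61183902662) (nat_lit 76) (nat_lit 26822055271) (nat_lit 76) (nat_lit 10322473048) (nat_lit 7) (nat_lit 4) (nat_lit 8) (nat_lit 5) (nat_lit 8) (nat_lit 4) (nat_lit 359) (nat_lit 297) (nat_lit 244)) (XT.lf (nat_lit 0) (nat_lit 1245124591) (nat_lit 152) (nat_lit 13968119135) (nat_lit 76) (nat_lit 90322563792) (nat_lit 6) (nat_lit 5) (nat_lit 8) (nat_lit 5) (nat_lit 7) (nat_lit 4) (nat_lit 360) (nat_lit 297) (nat_lit 243)))))) (XT.nd (nat_lit 468) (nat_lit 0) (nat_lit 0) (XT.nd (nat_lit 234) (nat_lit 76) (nat_lit 0) (XT.nd (nat_lit 78) (nat_lit 0) (nat_lit 0) (XT.lf (nat_lit 0) (nat_lit 11185670371) (nat_lit 76) (nat_lit 2339099653) (nat_lit 152) (nat_lit 99779132939) (nat_lit 5) (nat_lit 5) (nat_lit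 6) (nat_lit 5) (nat_lit 7) (nat_lit 4) (nat_lit 361) (nat_lit 297) (nat_lit 242)) (XT.nd (nat_lit 78) (nat_lit 0) (nat_lit 0) (XT.lf (nat_lit 0) (nat_lit 27184430138) (nat_lit 152) (nat_lit 83074372905) (nat_lit 0) (nat_lit 11414764822) (nat_lit 5) (nat_lit 5) (nat_lit 7) (nat_lit 4) (nat_lit 5) (nat_lit 4) (nat_lit 362) (nat_lit 297) (nat_lit 241)) (XT.lf (nat_lit 0) (nat_lit 41948320251) (nat_lit 152) (nat_lit 62601170232) (nat_lit 0) (nat_lit 26162746292) (nat_lit 5) (nat_lit 5) (nat_lit 7) (nat_lit 4) (nat_lit 5) (nat_lit 4) (nat_lit 363) (nat_lit 297) (nat_lit 240)))) (XT.nd (nat_lit 78) (nat_lit 76) (nat_lit 0) (XT.lf (nat_lit 0) (nat_lit 57867410182) (nat_lit 152) (nat_lit 40540781992) (nat_lit 0) (nat_lit 42067105998) (nat_lit 5) (nat_lit 5) (nat_lit 7) (nat_lit 4) (nat_lit 5) (nat_lit 4) (nat_lit 364) (nat_lit 297) (nat_lit 239)) (XT.nd (nat_lit 78) (nat_lit 76) (nat_lit 0) (XT.lf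 (nat_lit 0) (nat_lit 75036035278) (nat_lit 152) (nat_lit 16762479957) (nat_lit 0) (nat_lit 59222091998) (nat_lit 5) (nat_lit 5) (nat_lit 7) (nat_lit 4) (nat_lit 5) (nat_lit 4) (nat_lit 365) (nat_lit 297) (nat_lit 238)) (XT.lf (nat_lit 0) (nat_lit 9168080148) (nat_lit 76) (nat_lit 84530994818) (nat_lit 76) (nat_lit 68704422744) (nat_lit 4) (nat_lit 4) (nat_lit 5) (nat_lit 5) (nat_lit 5) (nat_lit 4) (nat_lit 366) (nat_lit 297) (nat_lit 237))))) (XT.nd (nat_lit 234) (nat_lit 0) (nat_lit 0) (XT.nd (nat_lit 78) (nat_lit 0) (nat_lit 0) (XT.lf (nat_lit 0) (nat_lit 37730113835) (nat_lit 76) (nat_lit 76395817509) (nat_lit 76) (nat_lit 60557552107) (nat_lit 4) (nat_lit 4) (nat_lit 5) (nat_lit 5) (nat_lit 5) (nat_lit 4) (nat_lit 367) (nat_lit 297) (nat_lit 236)) (XT.nd (nat_lit 78) (nat_lit 0) (nat_lit 0) (XT.lf (nat_lit 0) (nat_lit 68538634311) (nat_lit 76) (nat_lit 67628655559) (nat_lit 76) (nat_lit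 51779563002) (nat_lit 4) (nat_lit 4) (nat_lit 5) (nat_lit 5) (nat_lit 5) (nat_lit 4) (nat_lit 368) (nat_lit 297) (nat_lit 235)) (XT.lf (nat_lit 0) (nat_lit 101776210585) (nat_lit 76) (nat_lit 58177555416) (nat_lit 76) (nat_lit 42318437716) (nat_lit 4) (nat_lit 4) (nat_lit 5) (nat_lit 5) (nat_lit 5) (nat_lit 4) (nat_lit 369) (nat_lit 297) (nat_lit 234)))) (XT.nd (nat_lit 78) (nat_lit 0) (nat_lit 0) (XT.lf (nat_lit 0) (nat_lit 137639806073) (nat_lit 76) (nat_lit 47986510561) (nat_lit 76) (nat_lit 32118110321) (nat_lit 4) (nat_lit 4) (nat_lit 5) (nat_lit 5) (nat_lit 5) (nat_lit 4) (nat_lit 370) (nat_lit 297) (nat_lit 233)) (XT.nd (nat_lit 78) (nat_lit 0) (nat_lit 0) (XT.lf (nat_lit 0) (nat_lit 176341945784) (nat_lit 76) (nat_lit 36995129618) (nat_lit 76) (nat_lit 21118134432) (nat_lit 4) (nat_lit 4) (nat_lit 5) (nat_lit 5) (nat_lit 5) (nat_lit 4) (nat_lit 371) (nat_lit 297) (nat_lit 232)) (XT.lf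 (nat_lit 0) (nat_lit 218111975732) (nat_lit 76) (nat_lit 25138278475) (nat_lit 76) (nat_lit 9253325008) (nat_lit 4) (nat_lit 4) (nat_lit 5) (nat_lit 5) (nat_lit 5) (nat_lit 4) (nat_lit 372) (nat_lit 297) (nat_lit 231))))))) (XT.nd (nat_lit 936) (nat_lit 76) (nat_lit 0) (XT.nd (nat_lit 468) (nat_lit 0) (nat_lit 0) (XT.nd (nat_lit 234) (nat_lit 0) (nat_lit 0) (XT.nd (nat_lit 78) (nat_lit 76) (nat_lit 0) (XT.lf (nat_lit 0) (nat_lit 3433113690) (nat_lit 152) (nat_lit 8854439181) (nat_lit 76) (nat_lit 259706166888) (nat_lit 3) (nat_lit 5) (nat_lit 5) (nat_lit 5) (nat_lit 4) (nat_lit 4) (nat_lit 373) (nat_lit 297) (nat_lit 230)) (XT.nd (nat_lit 78) (nat_lit 0) (nat_lit 0) (XT.lf (nat_lit 0) (nat_lit 17133254453) (nat_lit 152) (nat_lit 273894873570) (nat_lit 0) (nat_lit 1991211413) (nat_lit 2) (nat_lit 5) (nat_lit 4) (nat_lit 4) (nat_lit 2) (nat_lit 4) (nat_lit 374) (nat_lit 297) (nat_lit 229))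 (XT.lf (nat_lit 0) (nat_lit 32281162387) (nat_lit 152) (nat_lit 266295157254) (nat_lit 0) (nat_lit 17133102641) (nat_lit 2) (nat_lit 5) (nat_lit 4) (nat_lit 4) (nat_lit 2) (nat_lit 4) (nat_lit 375) (nat_lit 297) (nat_lit 228)))) (XT.nd (nat_lit 78) (nat_lit 0) (nat_lit 0) (XT.lf (nat_lit 0) (nat_lit 48629604996) (nat_lit 152) (nat_lit 258109698719) (nat_lit 0) (nat_lit 33475974227) (nat_lit 2) (nat_lit 5) (nat_lit 4) (nat_lit 4) (nat_lit 2) (nat_lit 4) (nat_lit 376) (nat_lit 297) (nat_lit 227)) (XT.nd (nat_lit 78) (nat_lit 0) (nat_lit 0) (XT.lf (nat_lit 0) (nat_lit 66275461939) (nat_lit 152) (nat_lit 249289991545) (nat_lit 0) (nat_lit 51116672815) (nat_lit 2) (nat_lit 5) (nat_lit 4) (nat_lit 4) (nat_lit 2) (nat_lit 4) (nat_lit 377) (nat_lit 297) (nat_lit 226)) (XT.lf (nat_lit 0) (nat_lit 85323301259) (nat_lit 152) (nat_lit 239783770800) (nat_lit 0) (nat_lit 70159735879) (nat_lit 2) (nat_lit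 5) (nat_lit 4) (nat_lit 4) (nat_lit 2) (nat_lit 4) (nat_lit 378) (nat_lit 297) (nat_lit 225))))) (XT.nd (nat_lit 234) (nat_lit 0) (nat_lit 0) (XT.nd (nat_lit 78) (nat_lit 0) (nat_lit 0) (XT.lf (nat_lit 0) (nat_lit 105885999039) (nat_lit 152) (nat_lit 229534703324) (nat_lit 0) (nat_lit 90718011201) (nat_lit 2) (nat_lit 5) (nat_lit 4) (nat_lit 4) (nat_lit 2) (nat_lit 4) (nat_lit 379) (nat_lit 297) (nat_lit 224)) (XT.nd (nat_lit 78) (nat_lit 0) (nat_lit 0) (XT.lf (nat_lit 0) (nat_lit 128085408304) (nat_lit 152) (nat_lit 218482053904) (nat_lit 0) (nat_lit 112913325597) (nat_lit 2) (nat_lit 5) (nat_lit 4) (nat_lit 4) (nat_lit 2) (nat_lit 4) (nat_lit 380) (nat_lit 297) (nat_lit 223)) (XT.lf (nat_lit 0) (nat_lit 152053081108) (nat_lit 152) (nat_lit 206560325356) (nat_lit 0) (nat_lit 136877206856) (nat_lit 2) (nat_lit 5) (nat_lit 4) (nat_lit 4) (nat_lit 2) (nat_lit 4) (nat_lit 381) (nat_lit 297)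 (nat_lit 222)))) (XT.nd (nat_lit 78) (nat_lit 0) (nat_lit 0) (XT.lf (nat_lit 0) (nat_lit 177931048106) (nat_lit 152) (nat_lit 193698870400) (nat_lit 0) (nat_lit 162751663164) (nat_lit 2) (nat_lit 5) (nat_lit 4) (nat_lit 4) (nat_lit 2) (nat_lit 4) (nat_lit 382) (nat_lit 297) (nat_lit 221)) (XT.nd (nat_lit 78) (nat_lit 0) (nat_lit 0) (XT.lf (nat_lit 0) (nat_lit 205872660212) (nat_lit 152) (nat_lit 179821473009) (nat_lit 0) (nat_lit 190690024631) (nat_lit 2) (nat_lit 5) (nat_lit 4) (nat_lit 4) (nat_lit 2) (nat_lit 4) (nat_lit 383) (nat_lit 297) (nat_lit 220)) (XT.lf (nat_lit 0) (nat_lit 236043497350) (nat_lit 152) (nat_lit 164845896751) (nat_lit 0) (nat_lit 220857851919) (nat_lit 2) (nat_lit 5) (nat_lit 4) (nat_lit 4) (nat_lit 2) (nat_lit 4) (nat_lit 384) (nat_lit 297) (nat_lit 219)))))) (XT.nd (nat_lit 468) (nat_lit 76) (nat_lit 0) (XT.nd (nat_lit 234) (nat_lit 0) (nat_lit 0) (XT.nd (nat_lit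 78) (nat_lit 0) (nat_lit 0) (XT.lf (nat_lit 0) (nat_lit 268622349667) (nat_lit 152) (nat_lit 148683397472) (nat_lit 0) (nat_lit 253433917337) (nat_lit 2) (nat_lit 5) (nat_lit 4) (nat_lit 4) (nat_lit 2) (nat_lit 4) (nat_lit 385) (nat_lit 297) (nat_lit 218)) (XT.nd (nat_lit 78) (nat_lit 0) (nat_lit 0) (XT.lf (nat_lit 0) (nat_lit 303802277028) (nat_lit 152) (nat_lit 131238197398) (nat_lit 0) (nat_lit 288611264235) (nat_lit 2) (nat_lit 5) (nat_lit 4) (nat_lit 4) (nat_lit 2) (nat_lit 4) (nat_lit 386) (nat_lit 297) (nat_lit 217)) (XT.lf (nat_lit 0) (nat_lit 341791753076) (nat_lit 152) (nat_lit 112406917566) (nat_lit 0) (nat_lit 326598350967) (nat_lit 2) (nat_lit 5) (nat_lit 4) (nat_lit 4) (nat_lit 2) (nat_lit 4) (nat_lit 387) (nat_lit 297) (nat_lit 216)))) (XT.nd (nat_lit 78) (nat_lit 0) (nat_lit 0) (XT.lf (nat_lit 0) (nat_lit 382815900632) (nat_lit 152) (nat_lit 92077965207) (nat_lit 0) (nat_lit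 367620286193) (nat_lit 2) (nat_lit 5) (nat_lit 4) (nat_lit 4) (nat_lit 2) (nat_lit 4) (nat_lit 388) (nat_lit 297) (nat_lit 215)) (XT.nd (nat_lit 78) (nat_lit 0) (nat_lit 0) (XT.lf (nat_lit 0) (nat_lit 427117825757) (nat_lit 152) (nat_lit 70130872454) (nat_lit 0) (nat_lit 411920162864) (nat_lit 2) (nat_lit 5) (nat_lit 4) (nat_lit 4) (nat_lit 2) (nat_lit 4) (nat_lit 389) (nat_lit 297) (nat_lit 214)) (XT.lf (nat_lit 0) (nat_lit 474960058377) (nat_lit 152) (nat_lit 46435582462) (nat_lit 0) (nat_lit 459760498767) (nat_lit 2) (nat_lit 5) (nat_lit 4) (nat_lit 4) (nat_lit 2) (nat_lit 4) (nat_lit 390) (nat_lit 297) (nat_lit 213))))) (XT.nd (nat_lit 40170) (nat_lit 0) (nat_lit 10184) (XT.nd (nat_lit 78) (nat_lit 76) (nat_lit 0) (XT.lf (nat_lit 0) (nat_lit 526626108018) (nat_lit 152) (nat_lit 20851678697) (nat_lit 0) (nat_lit 511424792189) (nat_lit 2) (nat_lit 5) (nat_lit 4) (nat_lit 4) (nat_lit 2)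 (nat_lit 4) (nat_lit 391) (nat_lit 297) (nat_lit 212)) (XT.nd (nat_lit 40014) (nat_lit 0) (nat_lit 11476) (XT.lf (nat_lit 0) (nat_lit 6996374847) (nat_lit 76) (nat_lit 575535002034) (nat_lit 76) (nat_lit 560332060077) (nat_lit 1) (nat_lit 4) (nat_lit 2) (nat_lit 5) (nat_lit 2) (nat_lit 4) (nat_lit 392) (nat_lit 297) (nat_lit 211)) (XT.lf (nat_lit 0) (nat_lit 1207359150) (nat_lit 228) (nat_lit 1036071144) (nat_lit 228) (nat_lit 1036071144) (nat_lit 152) (nat_lit 4) (nat_lit 155) (nat_lit 5) (nat_lit 155) (nat_lit 4) (nat_lit 304) (nat_lit 298) (nat_lit 298)))) (XT.nd (nat_lit 78) (nat_lit 912) (nat_lit 0) (XT.lf (nat_lit 0) (nat_lit 2022846770) (nat_lit 304) (nat_lit 788634816) (nat_lit 380) (nat_lit 3817086067) (nat_lit 147) (nat_lit 5) (nat_lit 151) (nat_lit 5) (nat_lit 152) (nat_lit 4) (nat_lit 305) (nat_lit 298) (nat_lit 297)) (XT.nd (nat_lit 78) (nat_lit 456) (nat_lit 0) (XT.lf (nat_lit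 0) (nat_lit 939986896) (nat_lit 456) (nat_lit 4934258084) (nat_lit 76) (nat_lit 843918887) (nat_lit 141) (nat_lit 5) (nat_lit 147) (nat_lit 5) (nat_lit 142) (nat_lit 4) (nat_lit 306) (nat_lit 298) (nat_lit 296)) (XT.lf (nat_lit 0) (nat_lit 1669668247) (nat_lit 456) (nat_lit 3981659794) (nat_lit 532) (nat_lit 1175771530) (nat_lit 135) (nat_lit 5) (nat_lit 141) (nat_lit 5) (nat_lit 142) (nat_lit 4) (nat_lit 307) (nat_lit 298) (nat_lit 295))))))))
noncomputable def xc43 : XT := (XT.nd (nat_lit 1794) (nat_lit 1748) (nat_lit 0) (XT.nd (nat_lit 858) (nat_lit 2508) (nat_lit 0) (XT.nd (nat_lit 390) (nat_lit 2128) (nat_lit 0) (XT.nd (nat_lit 156) (nat_lit 1900) (nat_lit 0) (XT.nd (nat_lit 78) (nat_lit 684) (nat_lit 0) (XT.lf (nat_lit 0) (nat_lit 1689216748) (nat_lit 532) (nat_lit 1701269310) (nat_lit 608) (nat_lit 3566038620) (nat_lit 127) (nat_lit 5) (nat_lit 134) (nat_lit 5) (nat_lit 135) (nat_lit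 5) (nat_lit 308) (nat_lit 298) (nat_lit 294)) (XT.lf (nat_lit 0) (nat_lit 904203418) (nat_lit 684) (nat_lit 5267137946) (nat_lit 76) (nat_lit 935764194) (nat_lit 118) (nat_lit 5) (nat_lit 127) (nat_lit 5) (nat_lit 119) (nat_lit 5) (nat_lit 309) (nat_lit 298) (nat_lit 293))) (XT.nd (nat_lit 78) (nat_lit 1216) (nat_lit 0) (XT.lf (nat_lit 0) (nat_lit 2070697778) (nat_lit 684) (nat_lit 3336869695) (nat_lit 760) (nat_lit 1869704547) (nat_lit 109) (nat_lit 5) (nat_lit 118) (nat_lit 5) (nat_lit 119) (nat_lit 5) (nat_lit 310) (nat_lit 298) (nat_lit 292)) (XT.nd (nat_lit 78) (nat_lit 380) (nat_lit 0) (XT.lf (nat_lit 0) (nat_lit 2418455429) (nat_lit 760) (nat_lit 92541530) (nat_lit 836) (nat_lit 4958748461) (nat_lit 98) (nat_lit 5) (nat_lit 108) (nat_lit 5) (nat_lit 109) (nat_lit 5) (nat_lit 311) (nat_lit 298) (nat_lit 291)) (XT.lf (nat_lit 0) (nat_lit 2828324269) (nat_lit 380) (nat_lit 4218600137)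 (nat_lit 456) (nat_lit 636041223) (nat_lit 93) (nat_lit 5) (nat_lit 98) (nat_lit 5) (nat_lit 99) (nat_lit 5) (nat_lit 312) (nat_lit 298) (nat_lit 290))))) (XT.nd (nat_lit 234) (nat_lit 988) (nat_lit 0) (XT.nd (nat_lit 78) (nat_lit 760) (nat_lit 0) (XT.lf (nat_lit 0) (nat_lit 3312009183) (nat_lit 304) (nat_lit 427219367) (nat_lit 380) (nat_lit 4179424993) (nat_lit 88) (nat_lit 5) (nat_lit 92) (nat_lit 5) (nat_lit 93) (nat_lit 5) (nat_lit 313) (nat_lit 298) (nat_lit 289)) (XT.nd (nat_lit 78) (nat_lit 304) (nat_lit 0) (XT.lf (nat_lit 0) (nat_lit 173136488) (nat_lit 456) (nat_lit 4327214055) (nat_lit 76) (nat_lit 3676811364) (nat_lit 82) (nat_lit 5) (nat_lit 88) (nat_lit 5) (nat_lit 83) (nat_lit 5) (nat_lit 314) (nat_lit 298) (nat_lit 288)) (XT.lf (nat_lit 0) (nat_lit 4425625215) (nat_lit 304) (nat_lit 183585404) (nat_lit 380) (nat_lit 3849912426) (nat_lit 78) (nat_lit 5) (nat_lit 82) (nat_lit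 5) (nat_lit 83) (nat_lit 5) (nat_lit 315) (nat_lit 298) (nat_lit 287)))) (XT.nd (nat_lit 78) (nat_lit 608) (nat_lit 0) (XT.lf (nat_lit 0) (nat_lit 577077371) (nat_lit 380) (nat_lit 3742194860) (nat_lit 76) (nat_lit 4446076865) (nat_lit 73) (nat_lit 5) (nat_lit 78) (nat_lit 5) (nat_lit 74) (nat_lit 5) (nat_lit 316) (nat_lit 298) (nat_lit 286)) (XT.nd (nat_lit 78) (nat_lit 380) (nat_lit 0) (XT.lf (nat_lit 0) (nat_lit 5142630142) (nat_lit 304) (nat_lit 3462849054) (nat_lit 76) (nat_lit 491706435) (nat_lit 70) (nat_lit 5) (nat_lit 74) (nat_lit 5) (nat_lit 71) (nat_lit 5) (nat_lit 317) (nat_lit 298) (nat_lit 285)) (XT.lf (nat_lit 0) (nat_lit 594160460) (nat_lit 380) (nat_lit 3218738501) (nat_lit 76) (nat_lit 5642588827) (nat_lit 65) (nat_lit 5) (nat_lit 70) (nat_lit 5) (nat_lit 66) (nat_lit 5) (nat_lit 318) (nat_lit 298) (nat_lit 284)))))) (XT.nd (nat_lit 468) (nat_lit 1064) (nat_lit 0) (XT.nd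 (nat_lit 234) (nat_lit 684) (nat_lit 0) (XT.nd (nat_lit 78) (nat_lit 532) (nat_lit 0) (XT.lf (nat_lit 0) (nat_lit 5330676413) (nat_lit 304) (nat_lit 3034148084) (nat_lit 76) (nat_lit 1476455355) (nat_lit 62) (nat_lit 5) (nat_lit 66) (nat_lit 5) (nat_lit 63) (nat_lit 5) (nat_lit 319) (nat_lit 298) (nat_lit 283)) (XT.nd (nat_lit 78) (nat_lit 228) (nat_lit 0) (XT.lf (nat_lit 0) (nat_lit 198264306) (nat_lit 304) (nat_lit 2906993953) (nat_lit 76) (nat_lit 7151891993) (nat_lit 58) (nat_lit 5) (nat_lit 62) (nat_lit 5) (nat_lit 59) (nat_lit 5) (nat_lit 320) (nat_lit 298) (nat_lit 282)) (XT.lf (nat_lit 0) (nat_lit 5134914833) (nat_lit 304) (nat_lit 2908589193) (nat_lit 76) (nat_lit 2658788812) (nat_lit 55) (nat_lit 5) (nat_lit 59) (nat_lit 5) (nat_lit 56) (nat_lit 5) (nat_lit 321) (nat_lit 298) (nat_lit 281)))) (XT.nd (nat_lit 78) (nat_lit 456) (nat_lit 0) (XT.lf (nat_lit 0) (nat_lit 8181784637)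 (nat_lit 228) (nat_lit 2314009685) (nat_lit 304) (nat_lit 685931105) (nat_lit 52) (nat_lit 5) (nat_lit 55) (nat_lit 5) (nat_lit 56) (nat_lit 5) (nat_lit 322) (nat_lit 298) (nat_lit 280)) (XT.nd (nat_lit 78) (nat_lit 228) (nat_lit 0) (XT.lf (nat_lit 0) (nat_lit 4491068319) (nat_lit 228) (nat_lit 3288936599) (nat_lit 76) (nat_lit 3913463235) (nat_lit 49) (nat_lit 5) (nat_lit 52) (nat_lit 5) (nat_lit 50) (nat_lit 5) (nat_lit 323) (nat_lit 298) (nat_lit 279)) (XT.lf (nat_lit 0) (nat_lit 8516871113) (nat_lit 228) (nat_lit 1580249821) (nat_lit 304) (nat_lit 2146638002) (nat_lit 46) (nat_lit 5) (nat_lit 49) (nat_lit 5) (nat_lit 50) (nat_lit 5) (nat_lit 324) (nat_lit 298) (nat_lit 278))))) (XT.nd (nat_lit 234) (nat_lit 456) (nat_lit 0) (XT.nd (nat_lit 78) (nat_lit 380) (nat_lit 0) (XT.lf (nat_lit 0) (nat_lit 3300469525) (nat_lit 228) (nat_lit 4431710166) (nat_lit 76) (nat_lit 5098762848) (nat_lit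 43) (nat_lit 5) (nat_lit 46) (nat_lit 5) (nat_lit 44) (nat_lit 5) (nat_lit 325) (nat_lit 298) (nat_lit 277)) (XT.nd (nat_lit 78) (nat_lit 228) (nat_lit 0) (XT.lf (nat_lit 0) (nat_lit 8083987305) (nat_lit 152) (nat_lit 1071545952) (nat_lit 228) (nat_lit 4305533897) (nat_lit 41) (nat_lit 5) (nat_lit 43) (nat_lit 5) (nat_lit 44) (nat_lit 5) (nat_lit 326) (nat_lit 298) (nat_lit 276)) (XT.lf (nat_lit 0) (nat_lit 1422176530) (nat_lit 228) (nat_lit 6666091815) (nat_lit 76) (nat_lit 6045994630) (nat_lit 38) (nat_lit 5) (nat_lit 41) (nat_lit 5) (nat_lit 39) (nat_lit 5) (nat_lit 327) (nat_lit 298) (nat_lit 275)))) (XT.nd (nat_lit 78) (nat_lit 304) (nat_lit 0) (XT.lf (nat_lit 0) (nat_lit 6527454051) (nat_lit 152) (nat_lit 987122898) (nat_lit 228) (nat_lit 7340420566) (nat_lit 36) (nat_lit 5) (nat_lit 38) (nat_lit 5) (nat_lit 39) (nat_lit 5) (nat_lit 328) (nat_lit 298) (nat_lit 274)) (XT.nd (nat_lit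 78) (nat_lit 228) (nat_lit 0) (XT.lf (nat_lit 0) (nat_lit 5186494156) (nat_lit 76) (nat_lit 9057601143) (nat_lit 152) (nat_lit 1381881525) (nat_lit 35) (nat_lit 5) (nat_lit 36) (nat_lit 5) (nat_lit 37) (nat_lit 4) (nat_lit 329) (nat_lit 298) (nat_lit 273)) (XT.lf (nat_lit 0) (nat_lit 3384155880) (nat_lit 152) (nat_lit 1575798189) (nat_lit 228) (nat_lit 11491381731) (nat_lit 32) (nat_lit 5) (nat_lit 34) (nat_lit 5) (nat_lit 35) (nat_lit 5) (nat_lit 330) (nat_lit 298) (nat_lit 272))))))) (XT.nd (nat_lit 936) (nat_lit 608) (nat_lit 0) (XT.nd (nat_lit 468) (nat_lit 456) (nat_lit 0) (XT.nd (nat_lit 234) (nat_lit 380) (nat_lit 0) (XT.nd (nat_lit 78) (nat_lit 228) (nat_lit 0) (XT.lf (nat_lit 0) (nat_lit 1008905478) (nat_lit 76) (nat_lit 10911661434) (nat_lit 152) (nat_lit 5413090688) (nat_lit 31) (nat_lit 5) (nat_lit 32) (nat_lit 5) (nat_lit 33) (nat_lit 4) (nat_lit 331) (nat_lit 298) (nat_lit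 271)) (XT.nd (nat_lit 78) (nat_lit 152) (nat_lit 0) (XT.lf (nat_lit 0) (nat_lit 1234190128) (nat_lit 152) (nat_lit 1887987293) (nat_lit 76) (nat_lit 15157561875) (nat_lit 30) (nat_lit 5) (nat_lit 32) (nat_lit 5) (nat_lit 31) (nat_lit 5) (nat_lit 332) (nat_lit 298) (nat_lit 270)) (XT.lf (nat_lit 0) (nat_lit 8400116088) (nat_lit 228) (nat_lit 5547899383) (nat_lit 76) (nat_lit 5340277749) (nat_lit 28) (nat_lit 5) (nat_lit 31) (nat_lit 5) (nat_lit 29) (nat_lit 4) (nat_lit 333) (nat_lit 298) (nat_lit 269)))) (XT.nd (nat_lit 78) (nat_lit 304) (nat_lit 0) (XT.lf (nat_lit 0) (nat_lit 10370066791) (nat_lit 76) (nat_lit 5893825085) (nat_lit 152) (nat_lit 4107455427) (nat_lit 27) (nat_lit 5) (nat_lit 28) (nat_lit 5) (nat_lit 29) (nat_lit 4) (nat_lit 334) (nat_lit 298) (nat_lit 268)) (XT.nd (nat_lit 78) (nat_lit 76) (nat_lit 0) (XT.lf (nat_lit 0) (nat_lit 3233945675) (nat_lit 228) (nat_lit 15426283210)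 (nat_lit 76) (nat_lit 2872288616) (nat_lit 24) (nat_lit 5) (nat_lit 27) (nat_lit 5) (nat_lit 25) (nat_lit 4) (nat_lit 335) (nat_lit 298) (nat_lit 267)) (XT.lf (nat_lit 0) (nat_lit 724594217) (nat_lit 76) (nat_lit 10468593030) (nat_lit 152) (nat_lit 11581342064) (nat_lit 23) (nat_lit 5) (nat_lit 24) (nat_lit 5) (nat_lit 25) (nat_lit 4) (nat_lit 336) (nat_lit 298) (nat_lit 266))))) (XT.nd (nat_lit 234) (nat_lit 228) (nat_lit 0) (XT.nd (nat_lit 78) (nat_lit 228) (nat_lit 0) (XT.lf (nat_lit 0) (nat_lit 18518756592) (nat_lit 76) (nat_lit 1429292065) (nat_lit 152) (nat_lit 4159943126) (nat_lit 23) (nat_lit 5) (nat_lit 24) (nat_lit 5) (nat_lit 25) (nat_lit 4) (nat_lit 337) (nat_lit 298) (nat_lit 265)) (XT.nd (nat_lit 78) (nat_lit 76) (nat_lit 0) (XT.lf (nat_lit 0) (nat_lit 3953880954) (nat_lit 152) (nat_lit 13339011525) (nat_lit 76) (nat_lit 8241153897) (nat_lit 21) (nat_lit 5) (nat_lit 23) (nat_lit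 5) (nat_lit 22) (nat_lit 4) (nat_lit 338) (nat_lit 298) (nat_lit 264)) (XT.lf (nat_lit 0) (nat_lit 4393280775) (nat_lit 76) (nat_lit 8271559514) (nat_lit 152) (nat_lit 14401274136) (nat_lit 20) (nat_lit 5) (nat_lit 21) (nat_lit 5) (nat_lit 22) (nat_lit 4) (nat_lit 339) (nat_lit 298) (nat_lit 263)))) (XT.nd (nat_lit 78) (nat_lit 228) (nat_lit 0) (XT.lf (nat_lit 0) (nat_lit 22235382737) (nat_lit 152) (nat_lit 4894771670) (nat_lit 0) (nat_lit 1582483704) (nat_lit 20) (nat_lit 5) (nat_lit 22) (nat_lit 4) (nat_lit 20) (nat_lit 4) (nat_lit 340) (nat_lit 298) (nat_lit 262)) (XT.nd (nat_lit 78) (nat_lit 76) (nat_lit 0) (XT.lf (nat_lit 0) (nat_lit 2294581148) (nat_lit 152) (nat_lit 16051214173) (nat_lit 76) (nat_lit 12129462042) (nat_lit 18) (nat_lit 5) (nat_lit 20) (nat_lit 5) (nat_lit 19) (nat_lit 4) (nat_lit 341) (nat_lit 298) (nat_lit 261)) (XT.lf (nat_lit 0) (nat_lit 2909302363) (nat_lit 76)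 (nat_lit 8680474970) (nat_lit 152) (nat_lit 20781393215) (nat_lit 17) (nat_lit 5) (nat_lit 18) (nat_lit 5) (nat_lit 19) (nat_lit 4) (nat_lit 342) (nat_lit 298) (nat_lit 260)))))) (XT.nd (nat_lit 468) (nat_lit 304) (nat_lit 0) (XT.nd (nat_lit 234) (nat_lit 152) (nat_lit 0) (XT.nd (nat_lit 78) (nat_lit 152) (nat_lit 0) (XT.lf (nat_lit 0) (nat_lit 21856521039) (nat_lit 152) (nat_lit 10634686708) (nat_lit 0) (nat_lit 1916171738) (nat_lit 17) (nat_lit 5) (nat_lit 19) (nat_lit 4) (nat_lit 17) (nat_lit 4) (nat_lit 343) (nat_lit 298) (nat_lit 259)) (XT.nd (nat_lit 78) (nat_lit 76) (nat_lit 0) (XT.lf (nat_lit 0) (nat_lit 9717275360) (nat_lit 76) (nat_lit 23447909574) (nat_lit 76) (nat_lit 3430289025) (nat_lit 16) (nat_lit 4) (nat_lit 17) (nat_lit 5) (nat_lit 17) (nat_lit 4) (nat_lit 344) (nat_lit 298) (nat_lit 258)) (XT.lf (nat_lit 0) (nat_lit 6327564335) (nat_lit 152) (nat_lit 7117661113) (nat_lit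 76) (nat_lit 25502738834) (nat_lit 15) (nat_lit 5) (nat_lit 17) (nat_lit 5) (nat_lit 16) (nat_lit 4) (nat_lit 345) (nat_lit 298) (nat_lit 257)))) (XT.nd (nat_lit 78) (nat_lit 76) (nat_lit 0) (XT.lf (nat_lit 0) (nat_lit 14498252590) (nat_lit 76) (nat_lit 2405975815) (nat_lit 152) (nat_lit 24573710141) (nat_lit 14) (nat_lit 5) (nat_lit 15) (nat_lit 5) (nat_lit 16) (nat_lit 4) (nat_lit 346) (nat_lit 298) (nat_lit 256)) (XT.nd (nat_lit 78) (nat_lit 76) (nat_lit 0) (XT.lf (nat_lit 0) (nat_lit 28534279188) (nat_lit 152) (nat_lit 6385456581) (nat_lit 0) (nat_lit 9280225806) (nat_lit 14) (nat_lit 5) (nat_lit 16) (nat_lit 4) (nat_lit 14) (nat_lit 4) (nat_lit 347) (nat_lit 298) (nat_lit 255)) (XT.lf (nat_lit 0) (nat_lit 16215916078) (nat_lit 76) (nat_lit 25110209375) (nat_lit 76) (nat_lit 5802063923) (nat_lit 13) (nat_lit 4) (nat_lit 14) (nat_lit 5) (nat_lit 14) (nat_lit 4) (nat_lit 348) (nat_lit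 298) (nat_lit 254))))) (XT.nd (nat_lit 234) (nat_lit 152) (nat_lit 0) (XT.nd (nat_lit 78) (nat_lit 76) (nat_lit 0) (XT.lf (nat_lit 0) (nat_lit 4747950757) (nat_lit 152) (nat_lit 9624931648) (nat_lit 76) (nat_lit 35911389530) (nat_lit 12) (nat_lit 5) (nat_lit 14) (nat_lit 5) (nat_lit 13) (nat_lit 4) (nat_lit 349) (nat_lit 298) (nat_lit 253)) (XT.nd (nat_lit 78) (nat_lit 0) (nat_lit 0) (XT.lf (nat_lit 0) (nat_lit 13595593655) (nat_lit 76) (nat_lit 2502064681) (nat_lit 152) (nat_lit 37582488793) (nat_lit 11) (nat_lit 5) (nat_lit 12) (nat_lit 5) (nat_lit 13) (nat_lit 4) (nat_lit 350) (nat_lit 298) (nat_lit 252)) (XT.lf (nat_lit 0) (nat_lit 28632620111) (nat_lit 152) (nat_lit 18590070034) (nat_lit 0) (nat_lit 10111147764) (nat_lit 11) (nat_lit 5) (nat_lit 13) (nat_lit 4) (nat_lit 11) (nat_lit 4) (nat_lit 351) (nat_lit 298) (nat_lit 251)))) (XT.nd (nat_lit 78) (nat_lit 76) (nat_lit 0) (XT.lf (nat_lit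 0) (nat_lit 4633436287) (nat_lit 76) (nat_lit 37601259452) (nat_lit 76) (nat_lit 19041921118) (nat_lit 10) (nat_lit 4) (nat_lit 11) (nat_lit 5) (nat_lit 11) (nat_lit 4) (nat_lit 352) (nat_lit 298) (nat_lit 250)) (XT.nd (nat_lit 78) (nat_lit 76) (nat_lit 0) (XT.lf (nat_lit 0) (nat_lit 30286223297) (nat_lit 76) (nat_lit 26914603935) (nat_lit 76) (nat_lit 8320204501) (nat_lit 10) (nat_lit 4) (nat_lit 11) (nat_lit 5) (nat_lit 11) (nat_lit 4) (nat_lit 353) (nat_lit 298) (nat_lit 249)) (XT.lf (nat_lit 0) (nat_lit 3109811892) (nat_lit 152) (nat_lit 12251749035) (nat_lit 76) (nat_lit 54743157778) (nat_lit 9) (nat_lit 5) (nat_lit 11) (nat_lit 5) (nat_lit 10) (nat_lit 4) (nat_lit 354) (nat_lit 298) (nat_lit 248))))))))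
noncomputable def xc44 : XT := (XT.nd (nat_lit 1794) (nat_lit 0) (nat_lit 0) (XT.nd (nat_lit 858) (nat_lit 228) (nat_lit 0) (XT.nd (nat_lit 390) (nat_lit 152) (nat_lit 0) (XT.nd (nat_lit 156) (nat_lit 76) (nat_lit 0) (XT.nd (nat_lit 78) (nat_lit 0) (nat_lit 0) (XT.lf (nat_lit 0) (nat_lit 12757330630) (nat_lit 76) (nat_lit 2566695363) (nat_lit 152) (nat_lit 59716196627) (nat_lit 8) (nat_lit 5) (nat_lit 9) (nat_lit 5) (nat_lit 10) (nat_lit 4) (nat_lit 355) (nat_lit 298) (nat_lit 247)) (XT.lf (nat_lit 0) (nat_lit 28867494787) (nat_lit 152) (nat_lit 40412982556) (nat_lit 0) (nat_lit 11072489751) (nat_lit 8) (nat_lit 5) (nat_lit 10) (nat_lit 4) (nat_lit 8) (nat_lit 4) (nat_lit 356) (nat_lit 298) (nat_lit 246))) (XT.nd (nat_lit 78) (nat_lit 76) (nat_lit 0) (XT.lf (nat_lit 0) (nat_lit 43500247900) (nat_lit 152) (nat_lit 16909499462) (nat_lit 0) (nat_lit 25680699098) (nat_lit 8) (nat_lit 5) (nat_lit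 10) (nat_lit 4) (nat_lit 8) (nat_lit 4) (nat_lit 357) (nat_lit 298) (nat_lit 245)) (XT.nd (nat_lit 78) (nat_lit 0) (nat_lit 0) (XT.lf (nat_lit 0) (nat_lit 8684880928) (nat_lit 76) (nat_lit 50719639037) (nat_lit 76) (nat_lit 32877364526) (nat_lit 7) (nat_lit 4) (nat_lit 8) (nat_lit 5) (nat_lit 8) (nat_lit 4) (nat_lit 358) (nat_lit 298) (nat_lit 244)) (XT.lf (nat_lit 0) (nat_lit 36866219767) (nat_lit 76) (nat_lit 39976334242) (nat_lit 76) (nat_lit 22113017407) (nat_lit 7) (nat_lit 4) (nat_lit 8) (nat_lit 5) (nat_lit 8) (nat_lit 4) (nat_lit 359) (nat_lit 298) (nat_lit 243))))) (XT.nd (nat_lit 234) (nat_lit 0) (nat_lit 0) (XT.nd (nat_lit 78) (nat_lit 152) (nat_lit 0) (XT.lf (nat_lit 0) (nat_lit 67242413165) (nat_lit 76) (nat_lit 28402539504) (nat_lit 76) (nat_lit 10519739036) (nat_lit 7) (nat_lit 4) (nat_lit 8) (nat_lit 5) (nat_lit 8) (nat_lit 4) (nat_lit 360) (nat_lit 298) (nat_lit 242)) (XT.nd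 (nat_lit 78) (nat_lit 76) (nat_lit 0) (XT.lf (nat_lit 0) (nat_lit 1908081698) (nat_lit 152) (nat_lit 13989273388) (nat_lit 76) (nat_lit 98053072208) (nat_lit 6) (nat_lit 5) (nat_lit 8) (nat_lit 5) (nat_lit 7) (nat_lit 4) (nat_lit 361) (nat_lit 298) (nat_lit 241)) (XT.lf (nat_lit 0) (nat_lit 13129175623) (nat_lit 76) (nat_lit 2015566117) (nat_lit 152) (nat_lit 107196502226) (nat_lit 5) (nat_lit 5) (nat_lit 6) (nat_lit 5) (nat_lit 7) (nat_lit 4) (nat_lit 362) (nat_lit 298) (nat_lit 240)))) (XT.nd (nat_lit 78) (nat_lit 0) (nat_lit 0) (XT.lf (nat_lit 0) (nat_lit 29864705817) (nat_lit 152) (nat_lit 88731757922) (nat_lit 0) (nat_lit 12785647074) (nat_lit 5) (nat_lit 5) (nat_lit 7) (nat_lit 4) (nat_lit 5) (nat_lit 4) (nat_lit 363) (nat_lit 298) (nat_lit 239)) (XT.nd (nat_lit 78) (nat_lit 0) (nat_lit 0) (XT.lf (nat_lit 0) (nat_lit 45772261119) (nat_lit 152) (nat_lit 66693926059) (nat_lit 0) (nat_lit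 28679563279) (nat_lit 5) (nat_lit 5) (nat_lit 7) (nat_lit 4) (nat_lit 5) (nat_lit 4) (nat_lit 364) (nat_lit 298) (nat_lit 238)) (XT.lf (nat_lit 0) (nat_lit 62930206004) (nat_lit 152) (nat_lit 42936509559) (nat_lit 0) (nat_lit 45824879370) (nat_lit 5) (nat_lit 5) (nat_lit 7) (nat_lit 4) (nat_lit 5) (nat_lit 4) (nat_lit 365) (nat_lit 298) (nat_lit 237)))))) (XT.nd (nat_lit 468) (nat_lit 152) (nat_lit 0) (XT.nd (nat_lit 234) (nat_lit 0) (nat_lit 0) (XT.nd (nat_lit 78) (nat_lit 76) (nat_lit 0) (XT.lf (nat_lit 0) (nat_lit 81440217182) (nat_lit 152) (nat_lit 17318723731) (nat_lit 0) (nat_lit 64323197221) (nat_lit 5) (nat_lit 5) (nat_lit 7) (nat_lit 4) (nat_lit 5) (nat_lit 4) (nat_lit 366) (nat_lit 298) (nat_lit 236)) (XT.nd (nat_lit 78) (nat_lit 0) (nat_lit 0) (XT.lf (nat_lit 0) (nat_lit 10652176703) (nat_lit 76) (nat_lit 90926117236) (nat_lit 76) (nat_lit 73798270120) (nat_lit 4) (nat_lit 4)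 (nat_lit 5) (nat_lit 5) (nat_lit 5) (nat_lit 4) (nat_lit 367) (nat_lit 298) (nat_lit 235)) (XT.lf (nat_lit 0) (nat_lit 41443569371) (nat_lit 76) (nat_lit 82167337384) (nat_lit 76) (nat_lit 65029465124) (nat_lit 4) (nat_lit 4) (nat_lit 5) (nat_lit 5) (nat_lit 5) (nat_lit 4) (nat_lit 368) (nat_lit 298) (nat_lit 234)))) (XT.nd (nat_lit 78) (nat_lit 0) (nat_lit 0) (XT.lf (nat_lit 0) (nat_lit 74665286564) (nat_lit 76) (nat_lit 72723998443) (nat_lit 76) (nat_lit 55576843643) (nat_lit 4) (nat_lit 4) (nat_lit 5) (nat_lit 5) (nat_lit 5) (nat_lit 4) (nat_lit 369) (nat_lit 298) (nat_lit 233)) (XT.nd (nat_lit 78) (nat_lit 0) (nat_lit 0) (XT.lf (nat_lit 0) (nat_lit 110514197717) (nat_lit 76) (nat_lit 62540139886) (nat_lit 76) (nat_lit 45384390141) (nat_lit 4) (nat_lit 4) (nat_lit 5) (nat_lit 5) (nat_lit 5) (nat_lit 4) (nat_lit 370) (nat_lit 298) (nat_lit 232)) (XT.lf (nat_lit 0) (nat_lit 149202740823)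 (nat_lit 76) (nat_lit 51555412922) (nat_lit 76) (nat_lit 34391704895) (nat_lit 4) (nat_lit 4) (nat_lit 5) (nat_lit 5) (nat_lit 5) (nat_lit 4) (nat_lit 371) (nat_lit 298) (nat_lit 231))))) (XT.nd (nat_lit 234) (nat_lit 76) (nat_lit 0) (XT.nd (nat_lit 78) (nat_lit 76) (nat_lit 0) (XT.lf (nat_lit 0) (nat_lit 190960181321) (nat_lit 76) (nat_lit 39704722872) (nat_lit 76) (nat_lit 22533646065) (nat_lit 4) (nat_lit 4) (nat_lit 5) (nat_lit 5) (nat_lit 5) (nat_lit 4) (nat_lit 372) (nat_lit 298) (nat_lit 230)) (XT.nd (nat_lit 78) (nat_lit 76) (nat_lit 0) (XT.lf (nat_lit 0) (nat_lit 236033970711) (nat_lit 76) (nat_lit 26917843425) (nat_lit 76) (nat_lit 9739943673) (nat_lit 4) (nat_lit 4) (nat_lit 5) (nat_lit 5) (nat_lit 5) (nat_lit 4) (nat_lit 373) (nat_lit 298) (nat_lit 229)) (XT.lf (nat_lit 0) (nat_lit 3935104486) (nat_lit 152) (nat_lit 9117253095) (nat_lit 76) (nat_lit 280689465545) (nat_lit 3)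 (nat_lit 5) (nat_lit 5) (nat_lit 5) (nat_lit 4) (nat_lit 4) (nat_lit 374) (nat_lit 298) (nat_lit 228)))) (XT.nd (nat_lit 78) (nat_lit 0) (nat_lit 0) (XT.lf (nat_lit 0) (nat_lit 18724333662) (nat_lit 152) (nat_lit 295372665460) (nat_lit 0) (nat_lit 2352841407) (nat_lit 2) (nat_lit 5) (nat_lit 4) (nat_lit 4) (nat_lit 2) (nat_lit 4) (nat_lit 375) (nat_lit 298) (nat_lit 227)) (XT.nd (nat_lit 78) (nat_lit 0) (nat_lit 0) (XT.lf (nat_lit 0) (nat_lit 35067746908) (nat_lit 152) (nat_lit 287197105023) (nat_lit 0) (nat_lit 18691096298) (nat_lit 2) (nat_lit 5) (nat_lit 4) (nat_lit 4) (nat_lit 2) (nat_lit 4) (nat_lit 376) (nat_lit 298) (nat_lit 226)) (XT.lf (nat_lit 0) (nat_lit 52708947034) (nat_lit 152) (nat_lit 278386562755) (nat_lit 0) (nat_lit 36327520170) (nat_lit 2) (nat_lit 5) (nat_lit 4) (nat_lit 4) (nat_lit 2) (nat_lit 4) (nat_lit 377) (nat_lit 298) (nat_lit 225))))))) (XT.nd (nat_lit 936) (nat_lit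 0) (nat_lit 0) (XT.nd (nat_lit 468) (nat_lit 0) (nat_lit 0) (XT.nd (nat_lit 234) (nat_lit 0) (nat_lit 0) (XT.nd (nat_lit 78) (nat_lit 0) (nat_lit 0) (XT.lf (nat_lit 0) (nat_lit 71752474486) (nat_lit 152) (nat_lit 268888828033) (nat_lit 0) (nat_lit 55366625163) (nat_lit 2) (nat_lit 5) (nat_lit 4) (nat_lit 4) (nat_lit 2) (nat_lit 4) (nat_lit 378) (nat_lit 298) (nat_lit 224)) (XT.nd (nat_lit 78) (nat_lit 0) (nat_lit 0) (XT.lf (nat_lit 0) (nat_lit 92311179796) (nat_lit 152) (nat_lit 258647617987) (nat_lit 0) (nat_lit 75921235604) (nat_lit 2) (nat_lit 5) (nat_lit 4) (nat_lit 4) (nat_lit 2) (nat_lit 4) (nat_lit 379) (nat_lit 298) (nat_lit 223)) (XT.lf (nat_lit 0) (nat_lit 114506892330) (nat_lit 152) (nat_lit 247602243964) (nat_lit 0) (nat_lit 98113156592) (nat_lit 2) (nat_lit 5) (nat_lit 4) (nat_lit 4) (nat_lit 2) (nat_lit 4) (nat_lit 380) (nat_lit 298) (nat_lit 222)))) (XT.nd (nat_lit 78) (nat_lit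 0) (nat_lit 0) (XT.lf (nat_lit 0) (nat_lit 138471142234) (nat_lit 152) (nat_lit 235687251895) (nat_lit 0) (nat_lit 122073895807) (nat_lit 2) (nat_lit 5) (nat_lit 4) (nat_lit 4) (nat_lit 2) (nat_lit 4) (nat_lit 381) (nat_lit 298) (nat_lit 221)) (XT.nd (nat_lit 78) (nat_lit 0) (nat_lit 0) (XT.lf (nat_lit 0) (nat_lit 164345939880) (nat_lit 152) (nat_lit 222832034420) (nat_lit 0) (nat_lit 147945442814) (nat_lit 2) (nat_lit 5) (nat_lit 4) (nat_lit 4) (nat_lit 2) (nat_lit 4) (nat_lit 382) (nat_lit 298) (nat_lit 220)) (XT.lf (nat_lit 0) (nat_lit 192284617402) (nat_lit 152) (nat_lit 208960412474) (nat_lit 0) (nat_lit 175881110485) (nat_lit 2) (nat_lit 5) (nat_lit 4) (nat_lit 4) (nat_lit 2) (nat_lit 4) (nat_lit 383) (nat_lit 298) (nat_lit 219))))) (XT.nd (nat_lit 234) (nat_lit 0) (nat_lit 0) (XT.nd (nat_lit 78) (nat_lit 0) (nat_lit 0) (XT.lf (nat_lit 0) (nat_lit 222452737332) (nat_lit 152) (nat_lit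 193990183850) (nat_lit 0) (nat_lit 206046443516) (nat_lit 2) (nat_lit 5) (nat_lit 4) (nat_lit 4) (nat_lit 2) (nat_lit 4) (nat_lit 384) (nat_lit 298) (nat_lit 218)) (XT.nd (nat_lit 78) (nat_lit 0) (nat_lit 0) (XT.lf (nat_lit 0) (nat_lit 255029073715) (nat_lit 152) (nat_lit 177832636084) (nat_lit 0) (nat_lit 238620199438) (nat_lit 2) (nat_lit 5) (nat_lit 4) (nat_lit 4) (nat_lit 2) (nat_lit 4) (nat_lit 385) (nat_lit 298) (nat_lit 217)) (XT.lf (nat_lit 0) (nat_lit 290206671508) (nat_lit 152) (nat_lit 160392020745) (nat_lit 0) (nat_lit 273795407914) (nat_lit 2) (nat_lit 5) (nat_lit 4) (nat_lit 4) (nat_lit 2) (nat_lit 4) (nat_lit 386) (nat_lit 298) (nat_lit 216)))) (XT.nd (nat_lit 78) (nat_lit 0) (nat_lit 0) (XT.lf (nat_lit 0) (nat_lit 328193990549) (nat_lit 152) (nat_lit 141564986038) (nat_lit 0) (nat_lit 311780514624) (nat_lit 2) (nat_lit 5) (nat_lit 4) (nat_lit 4) (nat_lit 2) (nat_lit 4) (nat_lit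 387) (nat_lit 298) (nat_lit 215)) (XT.nd (nat_lit 78) (nat_lit 0) (nat_lit 0) (XT.lf (nat_lit 0) (nat_lit 369216140876) (nat_lit 152) (nat_lit 121239964349) (nat_lit 0) (nat_lit 352800616498) (nat_lit 2) (nat_lit 5) (nat_lit 4) (nat_lit 4) (nat_lit 2) (nat_lit 4) (nat_lit 388) (nat_lit 298) (nat_lit 214)) (XT.lf (nat_lit 0) (nat_lit 413516216715) (nat_lit 152) (nat_lit 99296511106) (nat_lit 0) (nat_lit 397098795620) (nat_lit 2) (nat_lit 5) (nat_lit 4) (nat_lit 4) (nat_lit 2) (nat_lit 4) (nat_lit 389) (nat_lit 298) (nat_lit 213)))))) (XT.nd (nat_lit 40248) (nat_lit 0) (nat_lit 8056) (XT.nd (nat_lit 40014) (nat_lit 0) (nat_lit 11324) (XT.nd (nat_lit 78) (nat_lit 0) (nat_lit 0) (XT.lf (nat_lit 0) (nat_lit 461356737033) (nat_lit 152) (nat_lit 75604591031) (nat_lit 0) (nat_lit 444937559719) (nat_lit 2) (nat_lit 5) (nat_lit 4) (nat_lit 4) (nat_lit 2) (nat_lit 4) (nat_lit 390) (nat_lit 298) (nat_lit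 212)) (XT.nd (nat_lit 78) (nat_lit 0) (nat_lit 0) (XT.lf (nat_lit 0) (nat_lit 513021201209) (nat_lit 152) (nat_lit 50023807559) (nat_lit 0) (nat_lit 496600397766) (nat_lit 2) (nat_lit 5) (nat_lit 4) (nat_lit 4) (nat_lit 2) (nat_lit 4) (nat_lit 391) (nat_lit 298) (nat_lit 211)) (XT.lf (nat_lit 0) (nat_lit 568815769031) (nat_lit 152) (nat_lit 22402570863) (nat_lit 0) (nat_lit 552393459914) (nat_lit 2) (nat_lit 5) (nat_lit 4) (nat_lit 4) (nat_lit 2) (nat_lit 4) (nat_lit 392) (nat_lit 298) (nat_lit 210)))) (XT.nd (nat_lit 78) (nat_lit 532) (nat_lit 0) (XT.lf (nat_lit 0) (nat_lit 1945631940) (nat_lit 76) (nat_lit 644804441) (nat_lit 76) (nat_lit 644804441) (nat_lit 158) (nat_lit 4) (nat_lit 159) (nat_lit 5) (nat_lit 159) (nat_lit 4) (nat_lit 302) (nat_lit 299) (nat_lit 299)) (XT.nd (nat_lit 78) (nat_lit 304) (nat_lit 0) (XT.lf (nat_lit 0) (nat_lit 2978789140) (nat_lit 152) (nat_lit 543519224)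 (nat_lit 228) (nat_lit 2987485711) (nat_lit 155) (nat_lit 5) (nat_lit 157) (nat_lit 5) (nat_lit 158) (nat_lit 4) (nat_lit 303) (nat_lit 299) (nat_lit 298)) (XT.lf (nat_lit 0) (nat_lit 1680597941) (nat_lit 304) (nat_lit 4335410426) (nat_lit 76) (nat_lit 553065380) (nat_lit 151) (nat_lit 5) (nat_lit 155) (nat_lit 5) (nat_lit 152) (nat_lit 4) (nat_lit 304) (nat_lit 299) (nat_lit 297))))) (XT.nd (nat_lit 234) (nat_lit 1976) (nat_lit 0) (XT.nd (nat_lit 78) (nat_lit 988) (nat_lit 0) (XT.lf (nat_lit 0) (nat_lit 1638547783) (nat_lit 304) (nat_lit 4645738211) (nat_lit 380) (nat_lit 363782166) (nat_lit 147) (nat_lit 5) (nat_lit 151) (nat_lit 5) (nat_lit 152) (nat_lit 4) (nat_lit 305) (nat_lit 299) (nat_lit 296)) (XT.nd (nat_lit 78) (nat_lit 532) (nat_lit 0) (XT.lf (nat_lit 0) (nat_lit 1171488435) (nat_lit 380) (nat_lit 2889908948) (nat_lit 456) (nat_lit 2684962717) (nat_lit 141) (nat_lit 5) (nat_lit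 146) (nat_lit 5) (nat_lit 147) (nat_lit 5) (nat_lit 306) (nat_lit 299) (nat_lit 295)) (XT.lf (nat_lit 0) (nat_lit 856924241) (nat_lit 456) (nat_lit 764786501) (nat_lit 532) (nat_lit 5244091337) (nat_lit 134) (nat_lit 5) (nat_lit 140) (nat_lit 5) (nat_lit 141) (nat_lit 5) (nat_lit 307) (nat_lit 299) (nat_lit 294)))) (XT.nd (nat_lit 78) (nat_lit 1444) (nat_lit 0) (XT.lf (nat_lit 0) (nat_lit 645780896) (nat_lit 532) (nat_lit 5299767634) (nat_lit 608) (nat_lit 1059264095) (nat_lit 127) (nat_lit 5) (nat_lit 134) (nat_lit 5) (nat_lit 135) (nat_lit 5) (nat_lit 308) (nat_lit 299) (nat_lit 293)) (XT.nd (nat_lit 78) (nat_lit 760) (nat_lit 0) (XT.lf (nat_lit 0) (nat_lit 531183463) (nat_lit 608) (nat_lit 2595083347) (nat_lit 684) (nat_lit 4037626462) (nat_lit 118) (nat_lit 5) (nat_lit 126) (nat_lit 5) (nat_lit 127) (nat_lit 5) (nat_lit 309) (nat_lit 299) (nat_lit 292)) (XT.lf (nat_lit 0) (nat_lit 59639459)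 (nat_lit 760) (nat_lit 6802749020) (nat_lit 76) (nat_lit 482969317) (nat_lit 108) (nat_lit 5) (nat_lit 118) (nat_lit 5) (nat_lit 109) (nat_lit 5) (nat_lit 310) (nat_lit 299) (nat_lit 291))))))))
noncomputable def xc45 : XT := (XT.nd (nat_lit 1794) (nat_lit 1520) (nat_lit 0) (XT.nd (nat_lit 858) (nat_lit 2052) (nat_lit 0) (XT.nd (nat_lit 390) (nat_lit 1748) (nat_lit 0) (XT.nd (nat_lit 156) (nat_lit 1064) (nat_lit 0) (XT.nd (nat_lit 78) (nat_lit 456) (nat_lit 0) (XT.lf (nat_lit 0) (nat_lit 582642147) (nat_lit 760) (nat_lit 3617741997) (nat_lit 836) (nat_lit 3345183235) (nat_lit 98) (nat_lit 5) (nat_lit 108) (nat_lit 5) (nat_lit 109) (nat_lit 5) (nat_lit 311) (nat_lit 299) (nat_lit 290)) (XT.lf (nat_lit 0) (nat_lit 712316234) (nat_lit 456) (nat_lit 7029007123) (nat_lit 76) (nat_lit 28564746) (nat_lit 92) (nat_lit 5) (nat_lit 98) (nat_lit 5) (nat_lit 93) (nat_lit 5) (nat_lit 312) (nat_lit 299)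 (nat_lit 289))) (XT.nd (nat_lit 78) (nat_lit 760) (nat_lit 0) (XT.lf (nat_lit 0) (nat_lit 900108394) (nat_lit 304) (nat_lit 3992848649) (nat_lit 380) (nat_lit 3120991191) (nat_lit 88) (nat_lit 5) (nat_lit 92) (nat_lit 5) (nat_lit 93) (nat_lit 5) (nat_lit 313) (nat_lit 299) (nat_lit 288)) (XT.nd (nat_lit 78) (nat_lit 304) (nat_lit 0) (XT.lf (nat_lit 0) (nat_lit 967228766) (nat_lit 456) (nat_lit 7134558966) (nat_lit 76) (nat_lit 181502682) (nat_lit 82) (nat_lit 5) (nat_lit 88) (nat_lit 5) (nat_lit 83) (nat_lit 5) (nat_lit 314) (nat_lit 299) (nat_lit 287)) (XT.lf (nat_lit 0) (nat_lit 1372658068) (nat_lit 304) (nat_lit 3859188713) (nat_lit 380) (nat_lit 3342104261) (nat_lit 78) (nat_lit 5) (nat_lit 82) (nat_lit 5) (nat_lit 83) (nat_lit 5) (nat_lit 315) (nat_lit 299) (nat_lit 286))))) (XT.nd (nat_lit 234) (nat_lit 760) (nat_lit 0) (XT.nd (nat_lit 78) (nat_lit 608) (nat_lit 0) (XT.lf (nat_lit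 0) (nat_lit 837654318) (nat_lit 380) (nat_lit 7237869418) (nat_lit 76) (nat_lit 815917563) (nat_lit 73) (nat_lit 5) (nat_lit 78) (nat_lit 5) (nat_lit 74) (nat_lit 5) (nat_lit 316) (nat_lit 299) (nat_lit 285)) (XT.nd (nat_lit 78) (nat_lit 380) (nat_lit 0) (XT.lf (nat_lit 0) (nat_lit 1882137409) (nat_lit 228) (nat_lit 3341777826) (nat_lit 304) (nat_lit 4008430633) (nat_lit 70) (nat_lit 5) (nat_lit 73) (nat_lit 5) (nat_lit 74) (nat_lit 5) (nat_lit 317) (nat_lit 299) (nat_lit 284)) (XT.lf (nat_lit 0) (nat_lit 314957354) (nat_lit 380) (nat_lit 7470517632) (nat_lit 76) (nat_lit 1816658926) (nat_lit 65) (nat_lit 5) (nat_lit 70) (nat_lit 5) (nat_lit 66) (nat_lit 5) (nat_lit 318) (nat_lit 299) (nat_lit 283)))) (XT.nd (nat_lit 78) (nat_lit 532) (nat_lit 0) (XT.lf (nat_lit 0) (nat_lit 2294729568) (nat_lit 228) (nat_lit 2559171102) (nat_lit 304) (nat_lit 5143988398) (nat_lit 62) (nat_lit 5) (nat_lit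 65) (nat_lit 5) (nat_lit 66) (nat_lit 5) (nat_lit 319) (nat_lit 299) (nat_lit 282)) (XT.nd (nat_lit 78) (nat_lit 304) (nat_lit 0) (XT.lf (nat_lit 0) (nat_lit 2428143855) (nat_lit 228) (nat_lit 7342388917) (nat_lit 304) (nat_lit 654205864) (nat_lit 59) (nat_lit 5) (nat_lit 62) (nat_lit 5) (nat_lit 63) (nat_lit 5) (nat_lit 320) (nat_lit 299) (nat_lit 281)) (XT.lf (nat_lit 0) (nat_lit 2451071130) (nat_lit 228) (nat_lit 1630939992) (nat_lit 304) (nat_lit 6799518372) (nat_lit 55) (nat_lit 5) (nat_lit 58) (nat_lit 5) (nat_lit 59) (nat_lit 5) (nat_lit 321) (nat_lit 299) (nat_lit 280)))))) (XT.nd (nat_lit 468) (nat_lit 988) (nat_lit 0) (XT.nd (nat_lit 234) (nat_lit 380) (nat_lit 0) (XT.nd (nat_lit 78) (nat_lit 456) (nat_lit 0) (XT.lf (nat_lit 0) (nat_lit 2365384620) (nat_lit 228) (nat_lit 6871189371) (nat_lit 304) (nat_lit 2134767777) (nat_lit 52) (nat_lit 5) (nat_lit 55) (nat_lit 5) (nat_lit 56)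 (nat_lit 5) (nat_lit 322) (nat_lit 299) (nat_lit 279)) (XT.nd (nat_lit 78) (nat_lit 228) (nat_lit 0) (XT.lf (nat_lit 0) (nat_lit 2154300009) (nat_lit 152) (nat_lit 685736286) (nat_lit 228) (nat_lit 9056663887) (nat_lit 49) (nat_lit 5) (nat_lit 51) (nat_lit 5) (nat_lit 52) (nat_lit 5) (nat_lit 323) (nat_lit 299) (nat_lit 278)) (XT.lf (nat_lit 0) (nat_lit 1728076436) (nat_lit 228) (nat_lit 6518292053) (nat_lit 304) (nat_lit 4210660634) (nat_lit 46) (nat_lit 5) (nat_lit 49) (nat_lit 5) (nat_lit 50) (nat_lit 5) (nat_lit 324) (nat_lit 299) (nat_lit 277)))) (XT.nd (nat_lit 78) (nat_lit 152) (nat_lit 0) (XT.lf (nat_lit 0) (nat_lit 1027713328) (nat_lit 228) (nat_lit 11906460624) (nat_lit 76) (nat_lit 125435768) (nat_lit 43) (nat_lit 5) (nat_lit 46) (nat_lit 5) (nat_lit 44) (nat_lit 5) (nat_lit 325) (nat_lit 299) (nat_lit 276)) (XT.nd (nat_lit 78) (nat_lit 0) (nat_lit 0) (XT.lf (nat_lit 0) (nat_lit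 234464229) (nat_lit 152) (nat_lit 6448990747) (nat_lit 228) (nat_lit 7016288035) (nat_lit 41) (nat_lit 5) (nat_lit 43) (nat_lit 5) (nat_lit 44) (nat_lit 5) (nat_lit 326) (nat_lit 299) (nat_lit 275)) (XT.lf (nat_lit 0) (nat_lit 12857965853) (nat_lit 228) (nat_lit 872933970) (nat_lit 76) (nat_lit 656953636) (nat_lit 41) (nat_lit 5) (nat_lit 44) (nat_lit 5) (nat_lit 42) (nat_lit 4) (nat_lit 327) (nat_lit 299) (nat_lit 274))))) (XT.nd (nat_lit 234) (nat_lit 456) (nat_lit 0) (XT.nd (nat_lit 78) (nat_lit 304) (nat_lit 0) (XT.lf (nat_lit 0) (nat_lit 4424085149) (nat_lit 228) (nat_lit 2399883765) (nat_lit 76) (nat_lit 8295217818) (nat_lit 38) (nat_lit 5) (nat_lit 41) (nat_lit 5) (nat_lit 39) (nat_lit 5) (nat_lit 328) (nat_lit 299) (nat_lit 273)) (XT.nd (nat_lit 78) (nat_lit 152) (nat_lit 0) (XT.lf (nat_lit 0) (nat_lit 10873780308) (nat_lit 228) (nat_lit 4276393456) (nat_lit 76) (nat_lit 754015622)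 (nat_lit 36) (nat_lit 5) (nat_lit 39) (nat_lit 5) (nat_lit 37) (nat_lit 4) (nat_lit 329) (nat_lit 299) (nat_lit 272)) (XT.lf (nat_lit 0) (nat_lit 1239125425) (nat_lit 152) (nat_lit 6665028555) (nat_lit 76) (nat_lit 8837724788) (nat_lit 34) (nat_lit 5) (nat_lit 36) (nat_lit 5) (nat_lit 35) (nat_lit 5) (nat_lit 330) (nat_lit 299) (nat_lit 271)))) (XT.nd (nat_lit 78) (nat_lit 304) (nat_lit 0) (XT.lf (nat_lit 0) (nat_lit 7912290165) (nat_lit 228) (nat_lit 9598872932) (nat_lit 76) (nat_lit 127436155) (nat_lit 32) (nat_lit 5) (nat_lit 35) (nat_lit 5) (nat_lit 33) (nat_lit 4) (nat_lit 331) (nat_lit 299) (nat_lit 270)) (XT.nd (nat_lit 78) (nat_lit 228) (nat_lit 0) (XT.lf (nat_lit 0) (nat_lit 5381724107) (nat_lit 76) (nat_lit 9950343118) (nat_lit 152) (nat_lit 3264402805) (nat_lit 31) (nat_lit 5) (nat_lit 32) (nat_lit 5) (nat_lit 33) (nat_lit 4) (nat_lit 332) (nat_lit 299) (nat_lit 269)) (XT.lf (nat_lit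 0) (nat_lit 2079070908) (nat_lit 152) (nat_lit 1600299266) (nat_lit 228) (nat_lit 15944555275) (nat_lit 28) (nat_lit 5) (nat_lit 30) (nat_lit 5) (nat_lit 31) (nat_lit 5) (nat_lit 333) (nat_lit 299) (nat_lit 268))))))) (XT.nd (nat_lit 936) (nat_lit 608) (nat_lit 0) (XT.nd (nat_lit 468) (nat_lit 380) (nat_lit 0) (XT.nd (nat_lit 234) (nat_lit 228) (nat_lit 0) (XT.nd (nat_lit 78) (nat_lit 304) (nat_lit 0) (XT.lf (nat_lit 0) (nat_lit 11301321629) (nat_lit 228) (nat_lit 2031403212) (nat_lit 76) (nat_lit 7386365775) (nat_lit 28) (nat_lit 5) (nat_lit 31) (nat_lit 5) (nat_lit 29) (nat_lit 4) (nat_lit 334) (nat_lit 299) (nat_lit 267)) (XT.nd (nat_lit 78) (nat_lit 228) (nat_lit 0) (XT.lf (nat_lit 0) (nat_lit 14987889222) (nat_lit 76) (nat_lit 4700329295) (nat_lit 152) (nat_lit 2205929279) (nat_lit 27) (nat_lit 5) (nat_lit 28) (nat_lit 5) (nat_lit 29) (nat_lit 4) (nat_lit 335) (nat_lit 299) (nat_lit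 266)) (XT.lf (nat_lit 0) (nat_lit 5574693342) (nat_lit 228) (nat_lit 12889904771) (nat_lit 76) (nat_lit 4685760875) (nat_lit 24) (nat_lit 5) (nat_lit 27) (nat_lit 5) (nat_lit 25) (nat_lit 4) (nat_lit 336) (nat_lit 299) (nat_lit 265)))) (XT.nd (nat_lit 78) (nat_lit 152) (nat_lit 0) (XT.lf (nat_lit 0) (nat_lit 4389182337) (nat_lit 76) (nat_lit 9683576765) (nat_lit 152) (nat_lit 10423917161) (nat_lit 23) (nat_lit 5) (nat_lit 24) (nat_lit 5) (nat_lit 25) (nat_lit 4) (nat_lit 337) (nat_lit 299) (nat_lit 264)) (XT.nd (nat_lit 78) (nat_lit 152) (nat_lit 0) (XT.lf (nat_lit 0) (nat_lit 23339720622) (nat_lit 76) (nat_lit 41317183) (nat_lit 152) (nat_lit 2563171662) (nat_lit 23) (nat_lit 5) (nat_lit 24) (nat_lit 5) (nat_lit 25) (nat_lit 4) (nat_lit 338) (nat_lit 299) (nat_lit 263)) (XT.lf (nat_lit 0) (nat_lit 6073454887) (nat_lit 152) (nat_lit 11085707148) (nat_lit 76) (nat_lit 10326947173) (nat_lit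 21) (nat_lit 5) (nat_lit 23) (nat_lit 5) (nat_lit 22) (nat_lit 4) (nat_lit 339) (nat_lit 299) (nat_lit 262))))) (XT.nd (nat_lit 234) (nat_lit 152) (nat_lit 0) (XT.nd (nat_lit 78) (nat_lit 152) (nat_lit 0) (XT.lf (nat_lit 0) (nat_lit 7920866899) (nat_lit 76) (nat_lit 7476437191) (nat_lit 152) (nat_lit 13747674823) (nat_lit 20) (nat_lit 5) (nat_lit 21) (nat_lit 5) (nat_lit 22) (nat_lit 4) (nat_lit 340) (nat_lit 299) (nat_lit 261)) (XT.nd (nat_lit 78) (nat_lit 152) (nat_lit 0) (XT.lf (nat_lit 0) (nat_lit 25627196729) (nat_lit 152) (nat_lit 2286535938) (nat_lit 0) (nat_lit 3014840622) (nat_lit 20) (nat_lit 5) (nat_lit 22) (nat_lit 4) (nat_lit 20) (nat_lit 4) (nat_lit 341) (nat_lit 299) (nat_lit 260)) (XT.lf (nat_lit 0) (nat_lit 4042051440) (nat_lit 152) (nat_lit 14413776250) (nat_lit 76) (nat_lit 14378878792) (nat_lit 18) (nat_lit 5) (nat_lit 20) (nat_lit 5) (nat_lit 19) (nat_lit 4) (nat_lit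 342) (nat_lit 299) (nat_lit 259)))) (XT.nd (nat_lit 78) (nat_lit 76) (nat_lit 0) (XT.lf (nat_lit 0) (nat_lit 5936615255) (nat_lit 76) (nat_lit 8072034387) (nat_lit 152) (nat_lit 20877281636) (nat_lit 17) (nat_lit 5) (nat_lit 18) (nat_lit 5) (nat_lit 19) (nat_lit 4) (nat_lit 343) (nat_lit 299) (nat_lit 258)) (XT.nd (nat_lit 78) (nat_lit 76) (nat_lit 0) (XT.lf (nat_lit 0) (nat_lit 25005072082) (nat_lit 152) (nat_lit 8847350505) (nat_lit 0) (nat_lit 3237223188) (nat_lit 17) (nat_lit 5) (nat_lit 19) (nat_lit 4) (nat_lit 17) (nat_lit 4) (nat_lit 344) (nat_lit 299) (nat_lit 257)) (XT.lf (nat_lit 0) (nat_lit 13018119433) (nat_lit 76) (nat_lit 24136002092) (nat_lit 76) (nat_lit 2301905557) (nat_lit 16) (nat_lit 4) (nat_lit 17) (nat_lit 5) (nat_lit 17) (nat_lit 4) (nat_lit 345) (nat_lit 299) (nat_lit 256)))))) (XT.nd (nat_lit 468) (nat_lit 228) (nat_lit 0) (XT.nd (nat_lit 234) (nat_lit 228) (nat_lit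 0) (XT.nd (nat_lit 78) (nat_lit 76) (nat_lit 0) (XT.lf (nat_lit 0) (nat_lit 8091091721) (nat_lit 152) (nat_lit 5308698914) (nat_lit 76) (nat_lit 28600881271) (nat_lit 15) (nat_lit 5) (nat_lit 17) (nat_lit 5) (nat_lit 16) (nat_lit 4) (nat_lit 346) (nat_lit 299) (nat_lit 255)) (XT.nd (nat_lit 78) (nat_lit 0) (nat_lit 0) (XT.lf (nat_lit 0) (nat_lit 17933126603) (nat_lit 76) (nat_lit 1523146674) (nat_lit 152) (nat_lit 25279671128) (nat_lit 14) (nat_lit 5) (nat_lit 15) (nat_lit 5) (nat_lit 16) (nat_lit 4) (nat_lit 347) (nat_lit 299) (nat_lit 254)) (XT.lf (nat_lit 0) (nat_lit 31943405928) (nat_lit 152) (nat_lit 4749576005) (nat_lit 0) (nat_lit 10986431519) (nat_lit 14) (nat_lit 5) (nat_lit 16) (nat_lit 4) (nat_lit 14) (nat_lit 4) (nat_lit 348) (nat_lit 299) (nat_lit 253)))) (XT.nd (nat_lit 78) (nat_lit 152) (nat_lit 0) (XT.lf (nat_lit 0) (nat_lit 19566612758) (nat_lit 76) (nat_lit 26140610949)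 (nat_lit 76) (nat_lit 5137261308) (nat_lit 13) (nat_lit 4) (nat_lit 14) (nat_lit 5) (nat_lit 14) (nat_lit 4) (nat_lit 349) (nat_lit 299) (nat_lit 252)) (XT.nd (nat_lit 78) (nat_lit 76) (nat_lit 0) (XT.lf (nat_lit 0) (nat_lit 6139669884) (nat_lit 152) (nat_lit 8459966407) (nat_lit 76) (nat_lit 39656598854) (nat_lit 12) (nat_lit 5) (nat_lit 14) (nat_lit 5) (nat_lit 13) (nat_lit 4) (nat_lit 350) (nat_lit 299) (nat_lit 251)) (XT.lf (nat_lit 0) (nat_lit 16534109927) (nat_lit 76) (nat_lit 1817187089) (nat_lit 152) (nat_lit 39574799848) (nat_lit 11) (nat_lit 5) (nat_lit 12) (nat_lit 5) (nat_lit 13) (nat_lit 4) (nat_lit 351) (nat_lit 299) (nat_lit 250))))) (XT.nd (nat_lit 234) (nat_lit 152) (nat_lit 0) (XT.nd (nat_lit 78) (nat_lit 76) (nat_lit 0) (XT.lf (nat_lit 0) (nat_lit 31830307508) (nat_lit 152) (nat_lit 18331430437) (nat_lit 0) (nat_lit 11713295020) (nat_lit 11) (nat_lit 5) (nat_lit 13) (nat_lit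 4) (nat_lit 11) (nat_lit 4) (nat_lit 352) (nat_lit 299) (nat_lit 249)) (XT.nd (nat_lit 78) (nat_lit 0) (nat_lit 0) (XT.lf (nat_lit 0) (nat_lit 6674084085) (nat_lit 76) (nat_lit 39805347111) (nat_lit 76) (nat_lit 19655870643) (nat_lit 10) (nat_lit 4) (nat_lit 11) (nat_lit 5) (nat_lit 11) (nat_lit 4) (nat_lit 353) (nat_lit 299) (nat_lit 248)) (XT.lf (nat_lit 0) (nat_lit 34255392359) (nat_lit 76) (nat_lit 28323315679) (nat_lit 76) (nat_lit 8143779968) (nat_lit 10) (nat_lit 4) (nat_lit 11) (nat_lit 5) (nat_lit 11) (nat_lit 4) (nat_lit 354) (nat_lit 299) (nat_lit 247)))) (XT.nd (nat_lit 78) (nat_lit 76) (nat_lit 0) (XT.lf (nat_lit 0) (nat_lit 4113310108) (nat_lit 152) (nat_lit 11775082619) (nat_lit 76) (nat_lit 59786848293) (nat_lit 9) (nat_lit 5) (nat_lit 11) (nat_lit 5) (nat_lit 10) (nat_lit 4) (nat_lit 355) (nat_lit 299) (nat_lit 246)) (XT.nd (nat_lit 78) (nat_lit 0) (nat_lit 0) (XT.lf (nat_lit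 0) (nat_lit 15171412391) (nat_lit 76) (nat_lit 2099100626) (nat_lit 152) (nat_lit 63736788499) (nat_lit 8) (nat_lit 5) (nat_lit 9) (nat_lit 5) (nat_lit 10) (nat_lit 4) (nat_lit 356) (nat_lit 299) (nat_lit 245)) (XT.lf (nat_lit 0) (nat_lit 31853812217) (nat_lit 152) (nat_lit 42332013851) (nat_lit 0) (nat_lit 12561430035) (nat_lit 8) (nat_lit 5) (nat_lit 10) (nat_lit 4) (nat_lit 8) (nat_lit 4) (nat_lit 357) (nat_lit 299) (nat_lit 244))))))))
noncomputable def xc46 : XT := (XT.nd (nat_lit 1794) (nat_lit 0) (nat_lit 0) (XT.nd (nat_lit 858) (nat_lit 152) (nat_lit 0) (XT.nd (nat_lit 390) (nat_lit 152) (nat_lit 0) (XT.nd (nat_lit 156) (nat_lit 76) (nat_lit 0) (XT.nd (nat_lit 78) (nat_lit 76) (nat_lit 0) (XT.lf (nat_lit 0) (nat_lit 47607043516) (nat_lit 152) (nat_lit 17045585984) (nat_lit 0) (nat_lit 28293619010) (nat_lit 8) (nat_lit 5) (nat_lit 10) (nat_lit 4) (nat_lit 8) (nat_lit 4) (nat_lit 358)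 (nat_lit 299) (nat_lit 243)) (XT.lf (nat_lit 0) (nat_lit 10543469692) (nat_lit 76) (nat_lit 54211929971) (nat_lit 76) (nat_lit 34879021832) (nat_lit 7) (nat_lit 4) (nat_lit 8) (nat_lit 5) (nat_lit 8) (nat_lit 4) (nat_lit 359) (nat_lit 299) (nat_lit 242))) (XT.nd (nat_lit 78) (nat_lit 76) (nat_lit 0) (XT.lf (nat_lit 0) (nat_lit 40893108358) (nat_lit 76) (nat_lit 42651033399) (nat_lit 76) (nat_lit 23300084859) (nat_lit 7) (nat_lit 4) (nat_lit 8) (nat_lit 5) (nat_lit 8) (nat_lit 4) (nat_lit 360) (nat_lit 299) (nat_lit 241)) (XT.nd (nat_lit 78) (nat_lit 76) (nat_lit 0) (XT.lf (nat_lit 0) (nat_lit 73619575672) (nat_lit 76) (nat_lit 30190106014) (nat_lit 76) (nat_lit 10822453399) (nat_lit 7) (nat_lit 4) (nat_lit 8) (nat_lit 5) (nat_lit 8) (nat_lit 4) (nat_lit 361) (nat_lit 299) (nat_lit 240)) (XT.lf (nat_lit 0) (nat_lit 2543707606) (nat_lit 152) (nat_lit 14168518758) (nat_lit 76) (nat_lit 106330019728)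 (nat_lit 6) (nat_lit 5) (nat_lit 8) (nat_lit 5) (nat_lit 7) (nat_lit 4) (nat_lit 362) (nat_lit 299) (nat_lit 239))))) (XT.nd (nat_lit 234) (nat_lit 76) (nat_lit 0) (XT.nd (nat_lit 78) (nat_lit 0) (nat_lit 0) (XT.lf (nat_lit 0) (nat_lit 15078559417) (nat_lit 76) (nat_lit 1739001470) (nat_lit 152) (nat_lit 115287859108) (nat_lit 5) (nat_lit 5) (nat_lit 6) (nat_lit 5) (nat_lit 7) (nat_lit 4) (nat_lit 363) (nat_lit 299) (nat_lit 238)) (XT.nd (nat_lit 78) (nat_lit 0) (nat_lit 0) (XT.lf (nat_lit 0) (nat_lit 32687285291) (nat_lit 152) (nat_lit 94982763564) (nat_lit 0) (nat_lit 14200903732) (nat_lit 5) (nat_lit 5) (nat_lit 7) (nat_lit 4) (nat_lit 5) (nat_lit 4) (nat_lit 364) (nat_lit 299) (nat_lit 237)) (XT.lf (nat_lit 0) (nat_lit 49835341090) (nat_lit 152) (nat_lit 71244685521) (nat_lit 0) (nat_lit 31337266204) (nat_lit 5) (nat_lit 5) (nat_lit 7) (nat_lit 4) (nat_lit 5) (nat_lit 4) (nat_lit 365)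 (nat_lit 299) (nat_lit 236)))) (XT.nd (nat_lit 78) (nat_lit 76) (nat_lit 0) (XT.lf (nat_lit 0) (nat_lit 68336195708) (nat_lit 152) (nat_lit 45644805673) (nat_lit 0) (nat_lit 49827293667) (nat_lit 5) (nat_lit 5) (nat_lit 7) (nat_lit 4) (nat_lit 5) (nat_lit 4) (nat_lit 366) (nat_lit 299) (nat_lit 235)) (XT.nd (nat_lit 78) (nat_lit 76) (nat_lit 0) (XT.lf (nat_lit 0) (nat_lit 88299483838) (nat_lit 152) (nat_lit 18031421027) (nat_lit 0) (nat_lit 69780556653) (nat_lit 5) (nat_lit 5) (nat_lit 7) (nat_lit 4) (nat_lit 5) (nat_lit 4) (nat_lit 367) (nat_lit 299) (nat_lit 234)) (XT.lf (nat_lit 0) (nat_lit 12147912347) (nat_lit 76) (nat_lit 97885257055) (nat_lit 76) (nat_lit 79357047330) (nat_lit 4) (nat_lit 4) (nat_lit 5) (nat_lit 5) (nat_lit 5) (nat_lit 4) (nat_lit 368) (nat_lit 299) (nat_lit 233)))))) (XT.nd (nat_lit 468) (nat_lit 152) (nat_lit 0) (XT.nd (nat_lit 234) (nat_lit 0) (nat_lit 0) (XT.nd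 (nat_lit 78) (nat_lit 0) (nat_lit 0) (XT.lf (nat_lit 0) (nat_lit 45354945206) (nat_lit 76) (nat_lit 88449104412) (nat_lit 76) (nat_lit 69912299742) (nat_lit 4) (nat_lit 4) (nat_lit 5) (nat_lit 5) (nat_lit 5) (nat_lit 4) (nat_lit 369) (nat_lit 299) (nat_lit 232)) (XT.nd (nat_lit 78) (nat_lit 0) (nat_lit 0) (XT.lf (nat_lit 0) (nat_lit 81190259753) (nat_lit 76) (nat_lit 78271899834) (nat_lit 76) (nat_lit 59727136883) (nat_lit 4) (nat_lit 4) (nat_lit 5) (nat_lit 5) (nat_lit 5) (nat_lit 4) (nat_lit 370) (nat_lit 299) (nat_lit 231)) (XT.lf (nat_lit 0) (nat_lit 119866213409) (nat_lit 76) (nat_lit 67293333962) (nat_lit 76) (nat_lit 48741202230) (nat_lit 4) (nat_lit 4) (nat_lit 5) (nat_lit 5) (nat_lit 5) (nat_lit 4) (nat_lit 371) (nat_lit 299) (nat_lit 230)))) (XT.nd (nat_lit 78) (nat_lit 0) (nat_lit 0) (XT.lf (nat_lit 0) (nat_lit 161611997009) (nat_lit 76) (nat_lit 55448348627) (nat_lit 76) (nat_lit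 36889393951) (nat_lit 4) (nat_lit 4) (nat_lit 5) (nat_lit 5) (nat_lit 5) (nat_lit 4) (nat_lit 372) (nat_lit 299) (nat_lit 229)) (XT.nd (nat_lit 78) (nat_lit 0) (nat_lit 0) (XT.lf (nat_lit 0) (nat_lit 206674992975) (nat_lit 76) (nat_lit 42666751323) (nat_lit 76) (nat_lit 24101479106) (nat_lit 4) (nat_lit 4) (nat_lit 5) (nat_lit 5) (nat_lit 5) (nat_lit 4) (nat_lit 373) (nat_lit 299) (nat_lit 228)) (XT.lf (nat_lit 0) (nat_lit 255322241283) (nat_lit 76) (nat_lit 28872799252) (nat_lit 76) (nat_lit 10301677460) (nat_lit 4) (nat_lit 4) (nat_lit 5) (nat_lit 5) (nat_lit 5) (nat_lit 4) (nat_lit 374) (nat_lit 299) (nat_lit 227))))) (XT.nd (nat_lit 234) (nat_lit 0) (nat_lit 0) (XT.nd (nat_lit 78) (nat_lit 76) (nat_lit 0) (XT.lf (nat_lit 0) (nat_lit 4444821710) (nat_lit 152) (nat_lit 9464653559) (nat_lit 76) (nat_lit 303321925007) (nat_lit 3) (nat_lit 5) (nat_lit 5) (nat_lit 5) (nat_lit 4) (nat_lit 4)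 (nat_lit 375) (nat_lit 299) (nat_lit 226)) (XT.nd (nat_lit 78) (nat_lit 0) (nat_lit 0) (XT.lf (nat_lit 0) (nat_lit 20411253994) (nat_lit 152) (nat_lit 318630566836) (nat_lit 0) (nat_lit 2714536725) (nat_lit 2) (nat_lit 5) (nat_lit 4) (nat_lit 4) (nat_lit 2) (nat_lit 4) (nat_lit 376) (nat_lit 299) (nat_lit 225)) (XT.lf (nat_lit 0) (nat_lit 38048142252) (nat_lit 152) (nat_lit 309828510591) (nat_lit 0) (nat_lit 20347002525) (nat_lit 2) (nat_lit 5) (nat_lit 4) (nat_lit 4) (nat_lit 2) (nat_lit 4) (nat_lit 377) (nat_lit 299) (nat_lit 224)))) (XT.nd (nat_lit 78) (nat_lit 0) (nat_lit 0) (XT.lf (nat_lit 0) (nat_lit 57087677234) (nat_lit 152) (nat_lit 300338633299) (nat_lit 0) (nat_lit 39382442638) (nat_lit 2) (nat_lit 5) (nat_lit 4) (nat_lit 4) (nat_lit 2) (nat_lit 4) (nat_lit 378) (nat_lit 299) (nat_lit 223)) (XT.nd (nat_lit 78) (nat_lit 0) (nat_lit 0) (XT.lf (nat_lit 0) (nat_lit 77642685813) (nat_lit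 152) (nat_lit 290104698650) (nat_lit 0) (nat_lit 59933659671) (nat_lit 2) (nat_lit 5) (nat_lit 4) (nat_lit 4) (nat_lit 2) (nat_lit 4) (nat_lit 379) (nat_lit 299) (nat_lit 222)) (XT.lf (nat_lit 0) (nat_lit 99834975446) (nat_lit 152) (nat_lit 279066061105) (nat_lit 0) (nat_lit 82122438615) (nat_lit 2) (nat_lit 5) (nat_lit 4) (nat_lit 4) (nat_lit 2) (nat_lit 4) (nat_lit 380) (nat_lit 299) (nat_lit 221))))))) (XT.nd (nat_lit 40560) (nat_lit 0) (nat_lit 8056) (XT.nd (nat_lit 468) (nat_lit 0) (nat_lit 0) (XT.nd (nat_lit 234) (nat_lit 0) (nat_lit 0) (XT.nd (nat_lit 78) (nat_lit 0) (nat_lit 0) (XT.lf (nat_lit 0) (nat_lit 123796055999) (nat_lit 152) (nat_lit 267157306517) (nat_lit 0) (nat_lit 106080268529) (nat_lit 2) (nat_lit 5) (nat_lit 4) (nat_lit 4) (nat_lit 2) (nat_lit 4) (nat_lit 381) (nat_lit 299) (nat_lit 220)) (XT.nd (nat_lit 78) (nat_lit 0) (nat_lit 0) (XT.lf (nat_lit 0) (nat_lit 149667919061)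 (nat_lit 152) (nat_lit 254307864488) (nat_lit 0) (nat_lit 131949121740) (nat_lit 2) (nat_lit 5) (nat_lit 4) (nat_lit 4) (nat_lit 2) (nat_lit 4) (nat_lit 382) (nat_lit 299) (nat_lit 219)) (XT.lf (nat_lit 0) (nat_lit 177603879374) (nat_lit 152) (nat_lit 240441590175) (nat_lit 0) (nat_lit 159882295154) (nat_lit 2) (nat_lit 5) (nat_lit 4) (nat_lit 4) (nat_lit 2) (nat_lit 4) (nat_lit 383) (nat_lit 299) (nat_lit 218)))) (XT.nd (nat_lit 78) (nat_lit 0) (nat_lit 0) (XT.lf (nat_lit 0) (nat_lit 207769483371) (nat_lit 152) (nat_lit 225476313065) (nat_lit 0) (nat_lit 190045318689) (nat_lit 2) (nat_lit 5) (nat_lit 4) (nat_lit 4) (nat_lit 2) (nat_lit 4) (nat_lit 384) (nat_lit 299) (nat_lit 217)) (XT.nd (nat_lit 78) (nat_lit 0) (nat_lit 0) (XT.lf (nat_lit 0) (nat_lit 240343490186) (nat_lit 152) (nat_lit 209323350034) (nat_lit 0) (nat_lit 222616936188) (nat_lit 2) (nat_lit 5) (nat_lit 4) (nat_lit 4) (nat_lit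 2) (nat_lit 4) (nat_lit 385) (nat_lit 299) (nat_lit 216)) (XT.lf (nat_lit 0) (nat_lit 275518930972) (nat_lit 152) (nat_lit 191886979819) (nat_lit 0) (nat_lit 257790164643) (nat_lit 2) (nat_lit 5) (nat_lit 4) (nat_lit 4) (nat_lit 2) (nat_lit 4) (nat_lit 386) (nat_lit 299) (nat_lit 215))))) (XT.nd (nat_lit 234) (nat_lit 0) (nat_lit 0) (XT.nd (nat_lit 78) (nat_lit 0) (nat_lit 0) (XT.lf (nat_lit 0) (nat_lit 313504252783) (nat_lit 152) (nat_lit 173063875782) (nat_lit 0) (nat_lit 295773438001) (nat_lit 2) (nat_lit 5) (nat_lit 4) (nat_lit 4) (nat_lit 2) (nat_lit 4) (nat_lit 387) (nat_lit 299) (nat_lit 214)) (XT.nd (nat_lit 78) (nat_lit 0) (nat_lit 0) (XT.lf (nat_lit 0) (nat_lit 354524553825) (nat_lit 152) (nat_lit 152742493604) (nat_lit 0) (nat_lit 336791842326) (nat_lit 2) (nat_lit 5) (nat_lit 4) (nat_lit 4) (nat_lit 2) (nat_lit 4) (nat_lit 388) (nat_lit 299) (nat_lit 213)) (XT.lf (nat_lit 0)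 (nat_lit 398822917361) (nat_lit 152) (nat_lit 130802410277) (nat_lit 0) (nat_lit 381088449643) (nat_lit 2) (nat_lit 5) (nat_lit 4) (nat_lit 4) (nat_lit 2) (nat_lit 4) (nat_lit 389) (nat_lit 299) (nat_lit 212)))) (XT.nd (nat_lit 78) (nat_lit 0) (nat_lit 0) (XT.lf (nat_lit 0) (nat_lit 446661852214) (nat_lit 152) (nat_lit 107113610495) (nat_lit 0) (nat_lit 428925758368) (nat_lit 2) (nat_lit 5) (nat_lit 4) (nat_lit 4) (nat_lit 2) (nat_lit 4) (nat_lit 390) (nat_lit 299) (nat_lit 211)) (XT.nd (nat_lit 78) (nat_lit 0) (nat_lit 0) (XT.lf (nat_lit 0) (nat_lit 498324848367) (nat_lit 152) (nat_lit 81535716184) (nat_lit 0) (nat_lit 480587248846) (nat_lit 2) (nat_lit 5) (nat_lit 4) (nat_lit 4) (nat_lit 2) (nat_lit 4) (nat_lit 391) (nat_lit 299) (nat_lit 210)) (XT.lf (nat_lit 0) (nat_lit 554118056909) (nat_lit 152) (nat_lit 53917154636) (nat_lit 0) (nat_lit 536379063245) (nat_lit 2) (nat_lit 5) (nat_lit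 4) (nat_lit 4) (nat_lit 2) (nat_lit 4) (nat_lit 392) (nat_lit 299) (nat_lit 209)))))) (XT.nd (nat_lit 468) (nat_lit 2888) (nat_lit 0) (XT.nd (nat_lit 234) (nat_lit 836) (nat_lit 0) (XT.nd (nat_lit 78) (nat_lit 228) (nat_lit 0) (XT.lf (nat_lit 0) (nat_lit 1073741823) (nat_lit 0) (nat_lit 0) (nat_lit 0) (nat_lit 0) (nat_lit 160) (nat_lit 0) (nat_lit 1) (nat_lit 0) (nat_lit 1) (nat_lit 0) (nat_lit 300) (nat_lit 300) (nat_lit 300)) (XT.nd (nat_lit 78) (nat_lit 152) (nat_lit 0) (XT.lf (nat_lit 0) (nat_lit 4782575167) (nat_lit 76) (nat_lit 1467369448) (nat_lit 0) (nat_lit 201276718) (nat_lit 159) (nat_lit 5) (nat_lit 160) (nat_lit 0) (nat_lit 159) (nat_lit 4) (nat_lit 301) (nat_lit 300) (nat_lit 299)) (XT.lf (nat_lit 0) (nat_lit 2951938248) (nat_lit 152) (nat_lit 2771768048) (nat_lit 76) (nat_lit 756374443) (nat_lit 157) (nat_lit 5) (nat_lit 159) (nat_lit 5) (nat_lit 158) (nat_lit 4) (nat_lit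 302) (nat_lit 300) (nat_lit 298)))) (XT.nd (nat_lit 78) (nat_lit 608) (nat_lit 0) (XT.lf (nat_lit 0) (nat_lit 939028273) (nat_lit 228) (nat_lit 3921027424) (nat_lit 76) (nat_lit 1669117724) (nat_lit 154) (nat_lit 5) (nat_lit 157) (nat_lit 5) (nat_lit 155) (nat_lit 5) (nat_lit 303) (nat_lit 300) (nat_lit 297)) (XT.nd (nat_lit 78) (nat_lit 380) (nat_lit 0) (XT.lf (nat_lit 0) (nat_lit 1655334896) (nat_lit 228) (nat_lit 3631454625) (nat_lit 304) (nat_lit 1310933150) (nat_lit 151) (nat_lit 5) (nat_lit 154) (nat_lit 5) (nat_lit 155) (nat_lit 5) (nat_lit 304) (nat_lit 300) (nat_lit 296)) (XT.lf (nat_lit 0) (nat_lit 846499740) (nat_lit 304) (nat_lit 2031500288) (nat_lit 380) (nat_lit 3808176476) (nat_lit 146) (nat_lit 5) (nat_lit 150) (nat_lit 5) (nat_lit 151) (nat_lit 5) (nat_lit 305) (nat_lit 300) (nat_lit 295))))) (XT.nd (nat_lit 234) (nat_lit 1900) (nat_lit 0) (XT.nd (nat_lit 78) (nat_lit 532)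 (nat_lit 0) (XT.lf (nat_lit 0) (nat_lit 192904696) (nat_lit 380) (nat_lit 64942169) (nat_lit 456) (nat_lit 6537889882) (nat_lit 140) (nat_lit 5) (nat_lit 145) (nat_lit 5) (nat_lit 146) (nat_lit 5) (nat_lit 306) (nat_lit 300) (nat_lit 294)) (XT.nd (nat_lit 78) (nat_lit 532) (nat_lit 0) (XT.lf (nat_lit 0) (nat_lit 4289320714) (nat_lit 456) (nat_lit 377325141) (nat_lit 76) (nat_lit 2256163987) (nat_lit 140) (nat_lit 5) (nat_lit 146) (nat_lit 5) (nat_lit 141) (nat_lit 5) (nat_lit 307) (nat_lit 300) (nat_lit 293)) (XT.lf (nat_lit 0) (nat_lit 1290563259) (nat_lit 532) (nat_lit 812807123) (nat_lit 76) (nat_lit 4968027807) (nat_lit 133) (nat_lit 5) (nat_lit 140) (nat_lit 5) (nat_lit 134) (nat_lit 5) (nat_lit 308) (nat_lit 300) (nat_lit 292)))) (XT.nd (nat_lit 78) (nat_lit 1368) (nat_lit 0) (XT.lf (nat_lit 0) (nat_lit 5231525746) (nat_lit 608) (nat_lit 1162166368) (nat_lit 76) (nat_lit 846708565)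 (nat_lit 126) (nat_lit 5) (nat_lit 134) (nat_lit 5) (nat_lit 127) (nat_lit 5) (nat_lit 309) (nat_lit 300) (nat_lit 291)) (XT.nd (nat_lit 78) (nat_lit 684) (nat_lit 0) (XT.lf (nat_lit 0) (nat_lit 1838688515) (nat_lit 684) (nat_lit 1446625827) (nat_lit 76) (nat_lit 4144395643) (nat_lit 117) (nat_lit 5) (nat_lit 126) (nat_lit 5) (nat_lit 118) (nat_lit 5) (nat_lit 310) (nat_lit 300) (nat_lit 290)) (XT.lf (nat_lit 0) (nat_lit 5755094670) (nat_lit 760) (nat_lit 1647369397) (nat_lit 76) (nat_lit 238848370) (nat_lit 108) (nat_lit 5) (nat_lit 118) (nat_lit 5) (nat_lit 109) (nat_lit 5) (nat_lit 311) (nat_lit 300) (nat_lit 289))))))))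
noncomputable def xc47 : XT := (XT.nd (nat_lit 1794) (nat_lit 1520) (nat_lit 0) (XT.nd (nat_lit 858) (nat_lit 2052) (nat_lit 0) (XT.nd (nat_lit 390) (nat_lit 1672) (nat_lit 0) (XT.nd (nat_lit 156) (nat_lit 1140) (nat_lit 0) (XT.nd (nat_lit 78) (nat_lit 380) (nat_lit 0) (XT.lf (nat_lit 0) (nat_lit 1951279828) (nat_lit 836) (nat_lit 1825205137) (nat_lit 76) (nat_lit 4096829716) (nat_lit 97) (nat_lit 5) (nat_lit 108) (nat_lit 5) (nat_lit 98) (nat_lit 5) (nat_lit 312) (nat_lit 300) (nat_lit 288)) (XT.lf (nat_lit 0) (nat_lit 5902489011) (nat_lit 456) (nat_lit 1939858102) (nat_lit 76) (nat_lit 286642941) (nat_lit 92) (nat_lit 5) (nat_lit 98) (nat_lit 5) (nat_lit 93) (nat_lit 5) (nat_lit 313) (nat_lit 300) (nat_lit 287))) (XT.nd (nat_lit 78) (nat_lit 760) (nat_lit 0) (XT.lf (nat_lit 0) (nat_lit 1659090048) (nat_lit 380) (nat_lit 2056577440) (nat_lit 76) (nat_lit 4690793134) (nat_lit 87) (nat_lit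 5) (nat_lit 92) (nat_lit 5) (nat_lit 88) (nat_lit 5) (nat_lit 314) (nat_lit 300) (nat_lit 286)) (XT.nd (nat_lit 78) (nat_lit 380) (nat_lit 0) (XT.lf (nat_lit 0) (nat_lit 5695929600) (nat_lit 456) (nat_lit 2147809222) (nat_lit 76) (nat_lit 864888652) (nat_lit 82) (nat_lit 5) (nat_lit 88) (nat_lit 5) (nat_lit 83) (nat_lit 5) (nat_lit 315) (nat_lit 300) (nat_lit 285)) (XT.lf (nat_lit 0) (nat_lit 972060665) (nat_lit 380) (nat_lit 2253186822) (nat_lit 76) (nat_lit 5809939385) (nat_lit 77) (nat_lit 5) (nat_lit 82) (nat_lit 5) (nat_lit 78) (nat_lit 5) (nat_lit 316) (nat_lit 300) (nat_lit 284))))) (XT.nd (nat_lit 234) (nat_lit 760) (nat_lit 0) (XT.nd (nat_lit 78) (nat_lit 608) (nat_lit 0) (XT.lf (nat_lit 0) (nat_lit 5137339104) (nat_lit 380) (nat_lit 2387762206) (nat_lit 76) (nat_lit 1862135032) (nat_lit 73) (nat_lit 5) (nat_lit 78) (nat_lit 5) (nat_lit 74) (nat_lit 5) (nat_lit 317) (nat_lit 300)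 (nat_lit 283)) (XT.nd (nat_lit 78) (nat_lit 380) (nat_lit 0) (XT.lf (nat_lit 0) (nat_lit 7225901499) (nat_lit 228) (nat_lit 2416148400) (nat_lit 304) (nat_lit 125273825) (nat_lit 70) (nat_lit 5) (nat_lit 73) (nat_lit 5) (nat_lit 74) (nat_lit 5) (nat_lit 318) (nat_lit 300) (nat_lit 282)) (XT.lf (nat_lit 0) (nat_lit 4207172660) (nat_lit 380) (nat_lit 2792676197) (nat_lit 76) (nat_lit 3173931339) (nat_lit 65) (nat_lit 5) (nat_lit 70) (nat_lit 5) (nat_lit 66) (nat_lit 5) (nat_lit 319) (nat_lit 300) (nat_lit 281)))) (XT.nd (nat_lit 78) (nat_lit 532) (nat_lit 0) (XT.lf (nat_lit 0) (nat_lit 7524524723) (nat_lit 228) (nat_lit 1377046474) (nat_lit 304) (nat_lit 1710242654) (nat_lit 62) (nat_lit 5) (nat_lit 65) (nat_lit 5) (nat_lit 66) (nat_lit 5) (nat_lit 320) (nat_lit 300) (nat_lit 280)) (XT.nd (nat_lit 78) (nat_lit 228) (nat_lit 0) (XT.lf (nat_lit 0) (nat_lit 2862013640) (nat_lit 304) (nat_lit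 3521425501) (nat_lit 76) (nat_lit 4695941831) (nat_lit 58) (nat_lit 5) (nat_lit 62) (nat_lit 5) (nat_lit 59) (nat_lit 5) (nat_lit 321) (nat_lit 300) (nat_lit 279)) (XT.lf (nat_lit 0) (nat_lit 7529214790) (nat_lit 228) (nat_lit 238859649) (nat_lit 304) (nat_lit 3813603034) (nat_lit 55) (nat_lit 5) (nat_lit 58) (nat_lit 5) (nat_lit 59) (nat_lit 5) (nat_lit 322) (nat_lit 300) (nat_lit 278)))))) (XT.nd (nat_lit 468) (nat_lit 760) (nat_lit 0) (XT.nd (nat_lit 234) (nat_lit 608) (nat_lit 0) (XT.nd (nat_lit 78) (nat_lit 380) (nat_lit 0) (XT.lf (nat_lit 0) (nat_lit 1030739832) (nat_lit 304) (nat_lit 4770327489) (nat_lit 76) (nat_lit 6316540992) (nat_lit 51) (nat_lit 5) (nat_lit 55) (nat_lit 5) (nat_lit 52) (nat_lit 5) (nat_lit 323) (nat_lit 300) (nat_lit 277)) (XT.nd (nat_lit 78) (nat_lit 228) (nat_lit 0) (XT.lf (nat_lit 0) (nat_lit 6175152903) (nat_lit 228) (nat_lit 5672434305) (nat_lit 76) (nat_lit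 843494278) (nat_lit 49) (nat_lit 5) (nat_lit 52) (nat_lit 5) (nat_lit 50) (nat_lit 5) (nat_lit 324) (nat_lit 300) (nat_lit 276)) (XT.lf (nat_lit 0) (nat_lit 6493872987) (nat_lit 228) (nat_lit 5372858152) (nat_lit 304) (nat_lit 1437013744) (nat_lit 46) (nat_lit 5) (nat_lit 49) (nat_lit 5) (nat_lit 50) (nat_lit 5) (nat_lit 325) (nat_lit 300) (nat_lit 275)))) (XT.nd (nat_lit 78) (nat_lit 380) (nat_lit 0) (XT.lf (nat_lit 0) (nat_lit 3994455622) (nat_lit 228) (nat_lit 8217119243) (nat_lit 76) (nat_lit 1746977801) (nat_lit 43) (nat_lit 5) (nat_lit 46) (nat_lit 5) (nat_lit 44) (nat_lit 5) (nat_lit 326) (nat_lit 300) (nat_lit 274)) (XT.nd (nat_lit 78) (nat_lit 228) (nat_lit 0) (XT.lf (nat_lit 0) (nat_lit 4693350096) (nat_lit 152) (nat_lit 5264960823) (nat_lit 228) (nat_lit 4698921472) (nat_lit 41) (nat_lit 5) (nat_lit 43) (nat_lit 5) (nat_lit 44) (nat_lit 5) (nat_lit 327) (nat_lit 300) (nat_lit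 273)) (XT.lf (nat_lit 0) (nat_lit 1059348002) (nat_lit 228) (nat_lit 12043559719) (nat_lit 76) (nat_lit 2303020612) (nat_lit 38) (nat_lit 5) (nat_lit 41) (nat_lit 5) (nat_lit 39) (nat_lit 5) (nat_lit 328) (nat_lit 300) (nat_lit 272))))) (XT.nd (nat_lit 234) (nat_lit 456) (nat_lit 0) (XT.nd (nat_lit 78) (nat_lit 152) (nat_lit 0) (XT.lf (nat_lit 0) (nat_lit 1573273841) (nat_lit 152) (nat_lit 5705411155) (nat_lit 228) (nat_lit 8923793699) (nat_lit 36) (nat_lit 5) (nat_lit 38) (nat_lit 5) (nat_lit 39) (nat_lit 5) (nat_lit 329) (nat_lit 300) (nat_lit 271)) (XT.nd (nat_lit 78) (nat_lit 152) (nat_lit 0) (XT.lf (nat_lit 0) (nat_lit 14122525237) (nat_lit 228) (nat_lit 588404805) (nat_lit 76) (nat_lit 2345532626) (nat_lit 36) (nat_lit 5) (nat_lit 39) (nat_lit 5) (nat_lit 37) (nat_lit 4) (nat_lit 330) (nat_lit 300) (nat_lit 270)) (XT.lf (nat_lit 0) (nat_lit 3639173092) (nat_lit 152) (nat_lit 3266207794)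 (nat_lit 76) (nat_lit 11059814873) (nat_lit 34) (nat_lit 5) (nat_lit 36) (nat_lit 5) (nat_lit 35) (nat_lit 5) (nat_lit 331) (nat_lit 300) (nat_lit 269)))) (XT.nd (nat_lit 78) (nat_lit 304) (nat_lit 0) (XT.lf (nat_lit 0) (nat_lit 10759017039) (nat_lit 228) (nat_lit 6519808704) (nat_lit 76) (nat_lit 1659259980) (nat_lit 32) (nat_lit 5) (nat_lit 35) (nat_lit 5) (nat_lit 33) (nat_lit 4) (nat_lit 332) (nat_lit 300) (nat_lit 268)) (XT.nd (nat_lit 78) (nat_lit 228) (nat_lit 0) (XT.lf (nat_lit 0) (nat_lit 9492051293) (nat_lit 76) (nat_lit 9173795781) (nat_lit 152) (nat_lit 1312133273) (nat_lit 31) (nat_lit 5) (nat_lit 32) (nat_lit 5) (nat_lit 33) (nat_lit 4) (nat_lit 333) (nat_lit 300) (nat_lit 267)) (XT.lf (nat_lit 0) (nat_lit 5833802447) (nat_lit 152) (nat_lit 179811336) (nat_lit 228) (nat_lit 15077484475) (nat_lit 28) (nat_lit 5) (nat_lit 30) (nat_lit 5) (nat_lit 31) (nat_lit 5) (nat_lit 334)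 (nat_lit 300) (nat_lit 266))))))) (XT.nd (nat_lit 936) (nat_lit 608) (nat_lit 0) (XT.nd (nat_lit 468) (nat_lit 380) (nat_lit 0) (XT.nd (nat_lit 234) (nat_lit 228) (nat_lit 0) (XT.nd (nat_lit 78) (nat_lit 228) (nat_lit 0) (XT.lf (nat_lit 0) (nat_lit 1241152191) (nat_lit 76) (nat_lit 12894829519) (nat_lit 152) (nat_lit 8143417210) (nat_lit 27) (nat_lit 5) (nat_lit 28) (nat_lit 5) (nat_lit 29) (nat_lit 4) (nat_lit 335) (nat_lit 300) (nat_lit 265)) (XT.nd (nat_lit 78) (nat_lit 228) (nat_lit 0) (XT.lf (nat_lit 0) (nat_lit 19434705929) (nat_lit 76) (nat_lit 3648884963) (nat_lit 152) (nat_lit 470432957) (nat_lit 27) (nat_lit 5) (nat_lit 28) (nat_lit 5) (nat_lit 29) (nat_lit 4) (nat_lit 336) (nat_lit 300) (nat_lit 264)) (XT.lf (nat_lit 0) (nat_lit 7805675680) (nat_lit 228) (nat_lit 10688517338) (nat_lit 76) (nat_lit 6418379949) (nat_lit 24) (nat_lit 5) (nat_lit 27) (nat_lit 5) (nat_lit 25) (nat_lit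 4) (nat_lit 337) (nat_lit 300) (nat_lit 263)))) (XT.nd (nat_lit 78) (nat_lit 152) (nat_lit 0) (XT.lf (nat_lit 0) (nat_lit 7832412760) (nat_lit 76) (nat_lit 9067227492) (nat_lit 152) (nat_lit 9471194502) (nat_lit 23) (nat_lit 5) (nat_lit 24) (nat_lit 5) (nat_lit 25) (nat_lit 4) (nat_lit 338) (nat_lit 300) (nat_lit 262)) (XT.nd (nat_lit 78) (nat_lit 76) (nat_lit 0) (XT.lf (nat_lit 0) (nat_lit 113665902) (nat_lit 76) (nat_lit 26734098056) (nat_lit 76) (nat_lit 1091686230) (nat_lit 22) (nat_lit 4) (nat_lit 23) (nat_lit 5) (nat_lit 23) (nat_lit 4) (nat_lit 339) (nat_lit 300) (nat_lit 261)) (XT.lf (nat_lit 0) (nat_lit 8105339043) (nat_lit 152) (nat_lit 9125834212) (nat_lit 76) (nat_lit 12376097601) (nat_lit 21) (nat_lit 5) (nat_lit 23) (nat_lit 5) (nat_lit 22) (nat_lit 4) (nat_lit 340) (nat_lit 300) (nat_lit 260))))) (XT.nd (nat_lit 234) (nat_lit 152) (nat_lit 0) (XT.nd (nat_lit 78) (nat_lit 152)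 (nat_lit 0) (XT.lf (nat_lit 0) (nat_lit 11277550364) (nat_lit 76) (nat_lit 6825540606) (nat_lit 152) (nat_lit 13299391034) (nat_lit 20) (nat_lit 5) (nat_lit 21) (nat_lit 5) (nat_lit 22) (nat_lit 4) (nat_lit 341) (nat_lit 300) (nat_lit 259)) (XT.nd (nat_lit 78) (nat_lit 76) (nat_lit 0) (XT.lf (nat_lit 0) (nat_lit 105786997) (nat_lit 76) (nat_lit 28956110365) (nat_lit 76) (nat_lit 4271369719) (nat_lit 19) (nat_lit 4) (nat_lit 20) (nat_lit 5) (nat_lit 20) (nat_lit 4) (nat_lit 342) (nat_lit 300) (nat_lit 258)) (XT.lf (nat_lit 0) (nat_lit 5706210994) (nat_lit 152) (nat_lit 13062132932) (nat_lit 76) (nat_lit 16625776704) (nat_lit 18) (nat_lit 5) (nat_lit 20) (nat_lit 5) (nat_lit 19) (nat_lit 4) (nat_lit 343) (nat_lit 300) (nat_lit 257)))) (XT.nd (nat_lit 78) (nat_lit 76) (nat_lit 0) (XT.lf (nat_lit 0) (nat_lit 8807436711) (nat_lit 76) (nat_lit 7600788754) (nat_lit 152) (nat_lit 21204337421) (nat_lit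 17) (nat_lit 5) (nat_lit 18) (nat_lit 5) (nat_lit 19) (nat_lit 4) (nat_lit 344) (nat_lit 300) (nat_lit 256)) (XT.nd (nat_lit 78) (nat_lit 76) (nat_lit 0) (XT.lf (nat_lit 0) (nat_lit 28205777369) (nat_lit 152) (nat_lit 7293383453) (nat_lit 0) (nat_lit 4497365063) (nat_lit 17) (nat_lit 5) (nat_lit 19) (nat_lit 4) (nat_lit 17) (nat_lit 4) (nat_lit 345) (nat_lit 300) (nat_lit 255)) (XT.lf (nat_lit 0) (nat_lit 16223030960) (nat_lit 76) (nat_lit 25048586436) (nat_lit 76) (nat_lit 1283377456) (nat_lit 16) (nat_lit 4) (nat_lit 17) (nat_lit 5) (nat_lit 17) (nat_lit 4) (nat_lit 346) (nat_lit 300) (nat_lit 254)))))) (XT.nd (nat_lit 468) (nat_lit 228) (nat_lit 0) (XT.nd (nat_lit 234) (nat_lit 228) (nat_lit 0) (XT.nd (nat_lit 78) (nat_lit 76) (nat_lit 0) (XT.lf (nat_lit 0) (nat_lit 9816330223) (nat_lit 152) (nat_lit 3694321535) (nat_lit 76) (nat_lit 31795950513) (nat_lit 15) (nat_lit 5) (nat_lit 17)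 (nat_lit 5) (nat_lit 16) (nat_lit 4) (nat_lit 347) (nat_lit 300) (nat_lit 253)) (XT.nd (nat_lit 78) (nat_lit 0) (nat_lit 0) (XT.lf (nat_lit 0) (nat_lit 21318234383) (nat_lit 76) (nat_lit 723095797) (nat_lit 152) (nat_lit 26221852926) (nat_lit 14) (nat_lit 5) (nat_lit 15) (nat_lit 5) (nat_lit 16) (nat_lit 4) (nat_lit 348) (nat_lit 300) (nat_lit 252)) (XT.lf (nat_lit 0) (nat_lit 35464571480) (nat_lit 152) (nat_lit 3289078177) (nat_lit 0) (nat_lit 12691638606) (nat_lit 14) (nat_lit 5) (nat_lit 16) (nat_lit 4) (nat_lit 14) (nat_lit 4) (nat_lit 349) (nat_lit 300) (nat_lit 251)))) (XT.nd (nat_lit 78) (nat_lit 152) (nat_lit 0) (XT.lf (nat_lit 0) (nat_lit 22892421368) (nat_lit 76) (nat_lit 27393026512) (nat_lit 76) (nat_lit 4580334351) (nat_lit 13) (nat_lit 4) (nat_lit 14) (nat_lit 5) (nat_lit 14) (nat_lit 4) (nat_lit 350) (nat_lit 300) (nat_lit 250)) (XT.nd (nat_lit 78) (nat_lit 76) (nat_lit 0)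 (XT.lf (nat_lit 0) (nat_lit 7498370109) (nat_lit 152) (nat_lit 7477847590) (nat_lit 76) (nat_lit 43576981839) (nat_lit 12) (nat_lit 5) (nat_lit 14) (nat_lit 5) (nat_lit 13) (nat_lit 4) (nat_lit 351) (nat_lit 300) (nat_lit 249)) (XT.lf (nat_lit 0) (nat_lit 19443660377) (nat_lit 76) (nat_lit 1203780536) (nat_lit 152) (nat_lit 41871195318) (nat_lit 11) (nat_lit 5) (nat_lit 12) (nat_lit 5) (nat_lit 13) (nat_lit 4) (nat_lit 352) (nat_lit 300) (nat_lit 248))))) (XT.nd (nat_lit 234) (nat_lit 152) (nat_lit 0) (XT.nd (nat_lit 78) (nat_lit 76) (nat_lit 0) (XT.lf (nat_lit 0) (nat_lit 35154405110) (nat_lit 152) (nat_lit 18301164008) (nat_lit 0) (nat_lit 13330447301) (nat_lit 11) (nat_lit 5) (nat_lit 13) (nat_lit 4) (nat_lit 11) (nat_lit 4) (nat_lit 353) (nat_lit 300) (nat_lit 247)) (XT.nd (nat_lit 78) (nat_lit 0) (nat_lit 0) (XT.lf (nat_lit 0) (nat_lit 8639743403) (nat_lit 76) (nat_lit 42300463240)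 (nat_lit 76) (nat_lit 20448672801) (nat_lit 10) (nat_lit 4) (nat_lit 11) (nat_lit 5) (nat_lit 11) (nat_lit 4) (nat_lit 354) (nat_lit 300) (nat_lit 246)) (XT.lf (nat_lit 0) (nat_lit 38321502074) (nat_lit 76) (nat_lit 29950929414) (nat_lit 76) (nat_lit 8073368020) (nat_lit 10) (nat_lit 4) (nat_lit 11) (nat_lit 5) (nat_lit 11) (nat_lit 4) (nat_lit 355) (nat_lit 300) (nat_lit 245)))) (XT.nd (nat_lit 78) (nat_lit 76) (nat_lit 0) (XT.lf (nat_lit 0) (nat_lit 5089419897) (nat_lit 152) (nat_lit 11468112600) (nat_lit 76) (nat_lit 65139273088) (nat_lit 9) (nat_lit 5) (nat_lit 11) (nat_lit 5) (nat_lit 10) (nat_lit 4) (nat_lit 356) (nat_lit 300) (nat_lit 244)) (XT.nd (nat_lit 78) (nat_lit 0) (nat_lit 0) (XT.lf (nat_lit 0) (nat_lit 17579823008) (nat_lit 76) (nat_lit 1690099351) (nat_lit 152) (nat_lit 68186979986) (nat_lit 8) (nat_lit 5) (nat_lit 9) (nat_lit 5) (nat_lit 10) (nat_lit 4) (nat_lit 357) (nat_lit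 300) (nat_lit 243)) (XT.lf (nat_lit 0) (nat_lit 34982465142) (nat_lit 152) (nat_lit 44592025482) (nat_lit 0) (nat_lit 14083440719) (nat_lit 8) (nat_lit 5) (nat_lit 10) (nat_lit 4) (nat_lit 8) (nat_lit 4) (nat_lit 358) (nat_lit 300) (nat_lit 242))))))))
noncomputable def xc48 : XT := (XT.nd (nat_lit 1794) (nat_lit 0) (nat_lit 0) (XT.nd (nat_lit 858) (nat_lit 152) (nat_lit 0) (XT.nd (nat_lit 390) (nat_lit 152) (nat_lit 0) (XT.nd (nat_lit 156) (nat_lit 76) (nat_lit 0) (XT.nd (nat_lit 78) (nat_lit 76) (nat_lit 0) (XT.lf (nat_lit 0) (nat_lit 51952966208) (nat_lit 152) (nat_lit 17366131495) (nat_lit 0) (nat_lit 31035901384) (nat_lit 8) (nat_lit 5) (nat_lit 10) (nat_lit 4) (nat_lit 8) (nat_lit 4) (nat_lit 359) (nat_lit 300) (nat_lit 241)) (XT.lf (nat_lit 0) (nat_lit 12384716720) (nat_lit 76) (nat_lit 58064247718) (nat_lit 76) (nat_lit 37130478819) (nat_lit 7) (nat_lit 4) (nat_lit 8) (nat_lit 5)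 (nat_lit 8) (nat_lit 4) (nat_lit 360) (nat_lit 300) (nat_lit 240))) (XT.nd (nat_lit 78) (nat_lit 76) (nat_lit 0) (XT.lf (nat_lit 0) (nat_lit 45088417632) (nat_lit 76) (nat_lit 45614378432) (nat_lit 76) (nat_lit 24665142797) (nat_lit 7) (nat_lit 4) (nat_lit 8) (nat_lit 5) (nat_lit 8) (nat_lit 4) (nat_lit 361) (nat_lit 300) (nat_lit 239)) (XT.nd (nat_lit 78) (nat_lit 76) (nat_lit 0) (XT.lf (nat_lit 0) (nat_lit 80364568211) (nat_lit 76) (nat_lit 32189816681) (nat_lit 76) (nat_lit 11226259994) (nat_lit 7) (nat_lit 4) (nat_lit 8) (nat_lit 5) (nat_lit 8) (nat_lit 4) (nat_lit 362) (nat_lit 300) (nat_lit 238)) (XT.lf (nat_lit 0) (nat_lit 3161281179) (nat_lit 152) (nat_lit 14496190501) (nat_lit 76) (nat_lit 115207393308) (nat_lit 6) (nat_lit 5) (nat_lit 8) (nat_lit 5) (nat_lit 7) (nat_lit 4) (nat_lit 363) (nat_lit 300) (nat_lit 237))))) (XT.nd (nat_lit 234) (nat_lit 76) (nat_lit 0) (XT.nd (nat_lit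 78) (nat_lit 0) (nat_lit 0) (XT.lf (nat_lit 0) (nat_lit 17055634418) (nat_lit 76) (nat_lit 1502770134) (nat_lit 152) (nat_lit 124095624380) (nat_lit 5) (nat_lit 5) (nat_lit 6) (nat_lit 5) (nat_lit 7) (nat_lit 4) (nat_lit 364) (nat_lit 300) (nat_lit 236)) (XT.nd (nat_lit 78) (nat_lit 0) (nat_lit 0) (XT.lf (nat_lit 0) (nat_lit 35673841338) (nat_lit 152) (nat_lit 101854759998) (nat_lit 0) (nat_lit 15673399978) (nat_lit 5) (nat_lit 5) (nat_lit 7) (nat_lit 4) (nat_lit 5) (nat_lit 4) (nat_lit 365) (nat_lit 300) (nat_lit 235)) (XT.lf (nat_lit 0) (nat_lit 54166217659) (nat_lit 152) (nat_lit 76271459761) (nat_lit 0) (nat_lit 34155751156) (nat_lit 5) (nat_lit 5) (nat_lit 7) (nat_lit 4) (nat_lit 5) (nat_lit 4) (nat_lit 366) (nat_lit 300) (nat_lit 234)))) (XT.nd (nat_lit 78) (nat_lit 76) (nat_lit 0) (XT.lf (nat_lit 0) (nat_lit 74121655514) (nat_lit 152) (nat_lit 48673426606) (nat_lit 0) (nat_lit 54101906471)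 (nat_lit 5) (nat_lit 5) (nat_lit 7) (nat_lit 4) (nat_lit 5) (nat_lit 4) (nat_lit 367) (nat_lit 300) (nat_lit 233)) (XT.nd (nat_lit 78) (nat_lit 76) (nat_lit 0) (XT.lf (nat_lit 0) (nat_lit 95658409350) (nat_lit 152) (nat_lit 18897116635) (nat_lit 0) (nat_lit 75630065362) (nat_lit 5) (nat_lit 5) (nat_lit 7) (nat_lit 4) (nat_lit 5) (nat_lit 4) (nat_lit 368) (nat_lit 300) (nat_lit 232)) (XT.lf (nat_lit 0) (nat_lit 13671495599) (nat_lit 76) (nat_lit 105446059135) (nat_lit 76) (nat_lit 85409756865) (nat_lit 4) (nat_lit 4) (nat_lit 5) (nat_lit 5) (nat_lit 5) (nat_lit 4) (nat_lit 369) (nat_lit 300) (nat_lit 231)))))) (XT.nd (nat_lit 468) (nat_lit 152) (nat_lit 0) (XT.nd (nat_lit 234) (nat_lit 0) (nat_lit 0) (XT.nd (nat_lit 78) (nat_lit 0) (nat_lit 0) (XT.lf (nat_lit 0) (nat_lit 49494220697) (nat_lit 76) (nat_lit 95275015649) (nat_lit 76) (nat_lit 75231344600) (nat_lit 4) (nat_lit 4) (nat_lit 5)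 (nat_lit 5) (nat_lit 5) (nat_lit 4) (nat_lit 370) (nat_lit 300) (nat_lit 230)) (XT.nd (nat_lit 78) (nat_lit 0) (nat_lit 0) (XT.lf (nat_lit 0) (nat_lit 88158517454) (nat_lit 76) (nat_lit 84302154492) (nat_lit 76) (nat_lit 64251660498) (nat_lit 4) (nat_lit 4) (nat_lit 5) (nat_lit 5) (nat_lit 5) (nat_lit 4) (nat_lit 371) (nat_lit 300) (nat_lit 229)) (XT.lf (nat_lit 0) (nat_lit 129893507630) (nat_lit 76) (nat_lit 72462451300) (nat_lit 76) (nat_lit 52405639765) (nat_lit 4) (nat_lit 4) (nat_lit 5) (nat_lit 5) (nat_lit 5) (nat_lit 4) (nat_lit 372) (nat_lit 300) (nat_lit 228)))) (XT.nd (nat_lit 78) (nat_lit 0) (nat_lit 0) (XT.lf (nat_lit 0) (nat_lit 174946509685) (nat_lit 76) (nat_lit 59685744870) (nat_lit 76) (nat_lit 39623083760) (nat_lit 4) (nat_lit 4) (nat_lit 5) (nat_lit 5) (nat_lit 5) (nat_lit 4) (nat_lit 373) (nat_lit 300) (nat_lit 227)) (XT.nd (nat_lit 78) (nat_lit 0) (nat_lit 0) (XT.lf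 (nat_lit 0) (nat_lit 223584504372) (nat_lit 76) (nat_lit 45896321385) (nat_lit 76) (nat_lit 25828244002) (nat_lit 4) (nat_lit 4) (nat_lit 5) (nat_lit 5) (nat_lit 5) (nat_lit 4) (nat_lit 374) (nat_lit 300) (nat_lit 226)) (XT.lf (nat_lit 0) (nat_lit 276095716844) (nat_lit 76) (nat_lit 31012465744) (nat_lit 76) (nat_lit 10939373294) (nat_lit 4) (nat_lit 4) (nat_lit 5) (nat_lit 5) (nat_lit 5) (nat_lit 4) (nat_lit 375) (nat_lit 300) (nat_lit 225))))) (XT.nd (nat_lit 234) (nat_lit 0) (nat_lit 0) (XT.nd (nat_lit 78) (nat_lit 76) (nat_lit 0) (XT.lf (nat_lit 0) (nat_lit 4967510383) (nat_lit 152) (nat_lit 9894339745) (nat_lit 76) (nat_lit 327739687081) (nat_lit 3) (nat_lit 5) (nat_lit 5) (nat_lit 5) (nat_lit 4) (nat_lit 4) (nat_lit 376) (nat_lit 300) (nat_lit 224)) (XT.nd (nat_lit 78) (nat_lit 0) (nat_lit 0) (XT.lf (nat_lit 0) (nat_lit 22206168750) (nat_lit 152) (nat_lit 343802157706) (nat_lit 0)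 (nat_lit 3080420517) (nat_lit 2) (nat_lit 5) (nat_lit 4) (nat_lit 4) (nat_lit 2) (nat_lit 4) (nat_lit 377) (nat_lit 300) (nat_lit 223)) (XT.lf (nat_lit 0) (nat_lit 41242007000) (nat_lit 152) (nat_lit 334319555811) (nat_lit 0) (nat_lit 22112467222) (nat_lit 2) (nat_lit 5) (nat_lit 4) (nat_lit 4) (nat_lit 2) (nat_lit 4) (nat_lit 378) (nat_lit 300) (nat_lit 222)))) (XT.nd (nat_lit 78) (nat_lit 0) (nat_lit 0) (XT.lf (nat_lit 0) (nat_lit 61793592679) (nat_lit 152) (nat_lit 324092357642) (nat_lit 0) (nat_lit 42660542211) (nat_lit 2) (nat_lit 5) (nat_lit 4) (nat_lit 4) (nat_lit 2) (nat_lit 4) (nat_lit 379) (nat_lit 300) (nat_lit 221)) (XT.nd (nat_lit 78) (nat_lit 0) (nat_lit 0) (XT.lf (nat_lit 0) (nat_lit 83982712961) (nat_lit 152) (nat_lit 313059957578) (nat_lit 0) (nat_lit 64846411854) (nat_lit 2) (nat_lit 5) (nat_lit 4) (nat_lit 4) (nat_lit 2) (nat_lit 4) (nat_lit 380) (nat_lit 300) (nat_lit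 220)) (XT.lf (nat_lit 0) (nat_lit 107940858929) (nat_lit 152) (nat_lit 301156978435) (nat_lit 0) (nat_lit 88801547972) (nat_lit 2) (nat_lit 5) (nat_lit 4) (nat_lit 4) (nat_lit 2) (nat_lit 4) (nat_lit 381) (nat_lit 300) (nat_lit 219))))))) (XT.nd (nat_lit 40560) (nat_lit 0) (nat_lit 7220) (XT.nd (nat_lit 390) (nat_lit 0) (nat_lit 0) (XT.nd (nat_lit 156) (nat_lit 0) (nat_lit 0) (XT.nd (nat_lit 78) (nat_lit 0) (nat_lit 0) (XT.lf (nat_lit 0) (nat_lit 133810004783) (nat_lit 152) (nat_lit 288312884040) (nat_lit 0) (nat_lit 114667906926) (nat_lit 2) (nat_lit 5) (nat_lit 4) (nat_lit 4) (nat_lit 2) (nat_lit 4) (nat_lit 382) (nat_lit 300) (nat_lit 218)) (XT.lf (nat_lit 0) (nat_lit 161743449163) (nat_lit 152) (nat_lit 274451561240) (nat_lit 0) (nat_lit 142598770844) (nat_lit 2) (nat_lit 5) (nat_lit 4) (nat_lit 4) (nat_lit 2) (nat_lit 4) (nat_lit 383) (nat_lit 300) (nat_lit 217))) (XT.nd (nat_lit 78)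 (nat_lit 0) (nat_lit 0) (XT.lf (nat_lit 0) (nat_lit 191906723592) (nat_lit 152) (nat_lit 259490868864) (nat_lit 0) (nat_lit 172759655957) (nat_lit 2) (nat_lit 5) (nat_lit 4) (nat_lit 4) (nat_lit 2) (nat_lit 4) (nat_lit 384) (nat_lit 300) (nat_lit 216)) (XT.nd (nat_lit 78) (nat_lit 0) (nat_lit 0) (XT.lf (nat_lit 0) (nat_lit 224478573400) (nat_lit 152) (nat_lit 243342150958) (nat_lit 0) (nat_lit 205329293435) (nat_lit 2) (nat_lit 5) (nat_lit 4) (nat_lit 4) (nat_lit 2) (nat_lit 4) (nat_lit 385) (nat_lit 300) (nat_lit 215)) (XT.lf (nat_lit 0) (nat_lit 259652016956) (nat_lit 152) (nat_lit 225909711414) (nat_lit 0) (nat_lit 240500688537) (nat_lit 2) (nat_lit 5) (nat_lit 4) (nat_lit 4) (nat_lit 2) (nat_lit 4) (nat_lit 386) (nat_lit 300) (nat_lit 214))))) (XT.nd (nat_lit 234) (nat_lit 0) (nat_lit 0) (XT.nd (nat_lit 78) (nat_lit 0) (nat_lit 0) (XT.lf (nat_lit 0) (nat_lit 297635489481) (nat_lit 152)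 (nat_lit 207090246887) (nat_lit 0) (nat_lit 278482264346) (nat_lit 2) (nat_lit 5) (nat_lit 4) (nat_lit 4) (nat_lit 2) (nat_lit 4) (nat_lit 387) (nat_lit 300) (nat_lit 213)) (XT.nd (nat_lit 78) (nat_lit 0) (nat_lit 0) (XT.lf (nat_lit 0) (nat_lit 338654078221) (nat_lit 152) (nat_lit 186772234625) (nat_lit 0) (nat_lit 319499096867) (nat_lit 2) (nat_lit 5) (nat_lit 4) (nat_lit 4) (nat_lit 2) (nat_lit 4) (nat_lit 388) (nat_lit 300) (nat_lit 212)) (XT.lf (nat_lit 0) (nat_lit 382950856293) (nat_lit 152) (nat_lit 164835271592) (nat_lit 0) (nat_lit 363794248810) (nat_lit 2) (nat_lit 5) (nat_lit 4) (nat_lit 4) (nat_lit 2) (nat_lit 4) (nat_lit 389) (nat_lit 300) (nat_lit 211)))) (XT.nd (nat_lit 78) (nat_lit 0) (nat_lit 0) (XT.lf (nat_lit 0) (nat_lit 430788323123) (nat_lit 152) (nat_lit 141149360970) (nat_lit 0) (nat_lit 411630209965) (nat_lit 2) (nat_lit 5) (nat_lit 4) (nat_lit 4) (nat_lit 2) (nat_lit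 4) (nat_lit 390) (nat_lit 300) (nat_lit 210)) (XT.nd (nat_lit 78) (nat_lit 0) (nat_lit 0) (XT.lf (nat_lit 0) (nat_lit 482449959995) (nat_lit 152) (nat_lit 115574141808) (nat_lit 0) (nat_lit 463290452694) (nat_lit 2) (nat_lit 5) (nat_lit 4) (nat_lit 4) (nat_lit 2) (nat_lit 4) (nat_lit 391) (nat_lit 300) (nat_lit 209)) (XT.lf (nat_lit 0) (nat_lit 538241909944) (nat_lit 152) (nat_lit 87958057250) (nat_lit 0) (nat_lit 519081111769) (nat_lit 2) (nat_lit 5) (nat_lit 4) (nat_lit 4) (nat_lit 2) (nat_lit 4) (nat_lit 392) (nat_lit 300) (nat_lit 208)))))) (XT.nd (nat_lit 468) (nat_lit 3648) (nat_lit 0) (XT.nd (nat_lit 234) (nat_lit 608) (nat_lit 0) (XT.nd (nat_lit 78) (nat_lit 228) (nat_lit 0) (XT.lf (nat_lit 0) (nat_lit 1382532048) (nat_lit 228) (nat_lit 926247000) (nat_lit 228) (nat_lit 926247000) (nat_lit 156) (nat_lit 3) (nat_lit 159) (nat_lit 3) (nat_lit 159) (nat_lit 5) (nat_lit 301) (nat_lit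 301) (nat_lit 298)) (XT.nd (nat_lit 78) (nat_lit 0) (nat_lit 0) (XT.lf (nat_lit 0) (nat_lit 569484269) (nat_lit 228) (nat_lit 3343759455) (nat_lit 304) (nat_lit 2596031199) (nat_lit 153) (nat_lit 5) (nat_lit 156) (nat_lit 3) (nat_lit 157) (nat_lit 5) (nat_lit 302) (nat_lit 301) (nat_lit 297)) (XT.lf (nat_lit 76) (nat_lit 1855712659) (nat_lit 0) (nat_lit 2835203412) (nat_lit 304) (nat_lit 1876704663) (nat_lit 154) (nat_lit 5) (nat_lit 153) (nat_lit 5) (nat_lit 157) (nat_lit 5) (nat_lit 303) (nat_lit 301) (nat_lit 296)))) (XT.nd (nat_lit 78) (nat_lit 304) (nat_lit 0) (XT.lf (nat_lit 76) (nat_lit 699628096) (nat_lit 0) (nat_lit 1393737898) (nat_lit 380) (nat_lit 4552864011) (nat_lit 150) (nat_lit 5) (nat_lit 149) (nat_lit 5) (nat_lit 154) (nat_lit 5) (nat_lit 304) (nat_lit 301) (nat_lit 295)) (XT.nd (nat_lit 78) (nat_lit 380) (nat_lit 0) (XT.lf (nat_lit 0) (nat_lit 6023165176) (nat_lit 304)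 (nat_lit 306943409) (nat_lit 76) (nat_lit 414709952) (nat_lit 150) (nat_lit 5) (nat_lit 154) (nat_lit 5) (nat_lit 151) (nat_lit 5) (nat_lit 305) (nat_lit 301) (nat_lit 294)) (XT.lf (nat_lit 0) (nat_lit 3063927629) (nat_lit 380) (nat_lit 1207927982) (nat_lit 76) (nat_lit 2589460324) (nat_lit 145) (nat_lit 5) (nat_lit 150) (nat_lit 5) (nat_lit 146) (nat_lit 5) (nat_lit 306) (nat_lit 301) (nat_lit 293))))) (XT.nd (nat_lit 234) (nat_lit 2204) (nat_lit 0) (XT.nd (nat_lit 78) (nat_lit 1064) (nat_lit 0) (XT.lf (nat_lit 0) (nat_lit 5024244819) (nat_lit 380) (nat_lit 1852680686) (nat_lit 456) (nat_lit 122631680) (nat_lit 140) (nat_lit 5) (nat_lit 145) (nat_lit 5) (nat_lit 146) (nat_lit 5) (nat_lit 307) (nat_lit 301) (nat_lit 292)) (XT.nd (nat_lit 78) (nat_lit 532) (nat_lit 0) (XT.lf (nat_lit 0) (nat_lit 3511396021) (nat_lit 532) (nat_lit 2679031704) (nat_lit 76) (nat_lit 966456289) (nat_lit 133)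 (nat_lit 5) (nat_lit 140) (nat_lit 5) (nat_lit 134) (nat_lit 5) (nat_lit 308) (nat_lit 301) (nat_lit 291)) (XT.lf (nat_lit 0) (nat_lit 4042673637) (nat_lit 532) (nat_lit 3220931450) (nat_lit 608) (nat_lit 71918610) (nat_lit 126) (nat_lit 5) (nat_lit 133) (nat_lit 5) (nat_lit 134) (nat_lit 5) (nat_lit 309) (nat_lit 301) (nat_lit 290)))) (XT.nd (nat_lit 78) (nat_lit 1520) (nat_lit 0) (XT.lf (nat_lit 0) (nat_lit 3490165844) (nat_lit 684) (nat_lit 3852877249) (nat_lit 76) (nat_lit 191628001) (nat_lit 117) (nat_lit 5) (nat_lit 126) (nat_lit 5) (nat_lit 118) (nat_lit 5) (nat_lit 310) (nat_lit 301) (nat_lit 289)) (XT.nd (nat_lit 78) (nat_lit 836) (nat_lit 0) (XT.lf (nat_lit 0) (nat_lit 3388890112) (nat_lit 684) (nat_lit 3845068896) (nat_lit 760) (nat_lit 521108099) (nat_lit 108) (nat_lit 5) (nat_lit 117) (nat_lit 5) (nat_lit 118) (nat_lit 5) (nat_lit 311) (nat_lit 301) (nat_lit 288)) (XT.lf (nat_lit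 0) (nat_lit 3043775740) (nat_lit 836) (nat_lit 4839069923) (nat_lit 76) (nat_lit 114747774) (nat_lit 97) (nat_lit 5) (nat_lit 108) (nat_lit 5) (nat_lit 98) (nat_lit 5) (nat_lit 312) (nat_lit 301) (nat_lit 287))))))))
noncomputable def xc49 : XT := (XT.nd (nat_lit 1794) (nat_lit 1520) (nat_lit 0) (XT.nd (nat_lit 858) (nat_lit 2052) (nat_lit 0) (XT.nd (nat_lit 390) (nat_lit 1368) (nat_lit 0) (XT.nd (nat_lit 156) (nat_lit 1064) (nat_lit 0) (XT.nd (nat_lit 78) (nat_lit 380) (nat_lit 0) (XT.lf (nat_lit 0) (nat_lit 2957408808) (nat_lit 380) (nat_lit 3867310791) (nat_lit 456) (nat_lit 1437195495) (nat_lit 92) (nat_lit 5) (nat_lit 97) (nat_lit 5) (nat_lit 98) (nat_lit 5) (nat_lit 313) (nat_lit 301) (nat_lit 286)) (XT.lf (nat_lit 0) (nat_lit 2195291208) (nat_lit 380) (nat_lit 5746346393) (nat_lit 76) (nat_lit 608641282) (nat_lit 87) (nat_lit 5) (nat_lit 92) (nat_lit 5) (nat_lit 88) (nat_lit 5) (nat_lit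 314) (nat_lit 301) (nat_lit 285))) (XT.nd (nat_lit 78) (nat_lit 684) (nat_lit 0) (XT.lf (nat_lit 0) (nat_lit 2642045400) (nat_lit 380) (nat_lit 3410738688) (nat_lit 456) (nat_lit 2808737593) (nat_lit 82) (nat_lit 5) (nat_lit 87) (nat_lit 5) (nat_lit 88) (nat_lit 5) (nat_lit 315) (nat_lit 301) (nat_lit 284)) (XT.nd (nat_lit 78) (nat_lit 304) (nat_lit 0) (XT.lf (nat_lit 0) (nat_lit 947590891) (nat_lit 380) (nat_lit 6689277690) (nat_lit 76) (nat_lit 1562244159) (nat_lit 77) (nat_lit 5) (nat_lit 82) (nat_lit 5) (nat_lit 78) (nat_lit 5) (nat_lit 316) (nat_lit 301) (nat_lit 283)) (XT.lf (nat_lit 0) (nat_lit 2328902532) (nat_lit 304) (nat_lit 2586165371) (nat_lit 380) (nat_lit 4646073060) (nat_lit 73) (nat_lit 5) (nat_lit 77) (nat_lit 5) (nat_lit 78) (nat_lit 5) (nat_lit 317) (nat_lit 301) (nat_lit 282))))) (XT.nd (nat_lit 234) (nat_lit 532) (nat_lit 0) (XT.nd (nat_lit 78) (nat_lit 608) (nat_lit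 0) (XT.lf (nat_lit 0) (nat_lit 2144462726) (nat_lit 228) (nat_lit 7066178975) (nat_lit 304) (nat_lit 741125607) (nat_lit 70) (nat_lit 5) (nat_lit 73) (nat_lit 5) (nat_lit 74) (nat_lit 5) (nat_lit 318) (nat_lit 301) (nat_lit 281)) (XT.nd (nat_lit 78) (nat_lit 228) (nat_lit 0) (XT.lf (nat_lit 0) (nat_lit 1888436522) (nat_lit 304) (nat_lit 1498835617) (nat_lit 380) (nat_lit 6982692802) (nat_lit 65) (nat_lit 5) (nat_lit 69) (nat_lit 5) (nat_lit 70) (nat_lit 5) (nat_lit 319) (nat_lit 301) (nat_lit 280)) (XT.lf (nat_lit 0) (nat_lit 1556607093) (nat_lit 228) (nat_lit 6326787644) (nat_lit 304) (nat_lit 2934584703) (nat_lit 62) (nat_lit 5) (nat_lit 65) (nat_lit 5) (nat_lit 66) (nat_lit 5) (nat_lit 320) (nat_lit 301) (nat_lit 279)))) (XT.nd (nat_lit 78) (nat_lit 228) (nat_lit 0) (XT.lf (nat_lit 0) (nat_lit 1166120318) (nat_lit 228) (nat_lit 255321521) (nat_lit 304) (nat_lit 9877890435) (nat_lit 58)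 (nat_lit 5) (nat_lit 61) (nat_lit 5) (nat_lit 62) (nat_lit 5) (nat_lit 321) (nat_lit 301) (nat_lit 278)) (XT.nd (nat_lit 78) (nat_lit 0) (nat_lit 0) (XT.lf (nat_lit 0) (nat_lit 591535536) (nat_lit 228) (nat_lit 5548748630) (nat_lit 304) (nat_lit 5670760277) (nat_lit 55) (nat_lit 5) (nat_lit 58) (nat_lit 5) (nat_lit 59) (nat_lit 5) (nat_lit 322) (nat_lit 301) (nat_lit 277)) (XT.lf (nat_lit 0) (nat_lit 11286104743) (nat_lit 304) (nat_lit 61365807) (nat_lit 76) (nat_lit 1013854928) (nat_lit 55) (nat_lit 5) (nat_lit 59) (nat_lit 5) (nat_lit 56) (nat_lit 5) (nat_lit 323) (nat_lit 301) (nat_lit 276)))))) (XT.nd (nat_lit 468) (nat_lit 760) (nat_lit 0) (XT.nd (nat_lit 234) (nat_lit 532) (nat_lit 0) (XT.nd (nat_lit 78) (nat_lit 456) (nat_lit 0) (XT.lf (nat_lit 0) (nat_lit 3910264398) (nat_lit 304) (nat_lit 933752259) (nat_lit 76) (nat_lit 8101333139) (nat_lit 51) (nat_lit 5) (nat_lit 55) (nat_lit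 5) (nat_lit 52) (nat_lit 5) (nat_lit 324) (nat_lit 301) (nat_lit 275)) (XT.nd (nat_lit 78) (nat_lit 304) (nat_lit 0) (XT.lf (nat_lit 0) (nat_lit 9343613412) (nat_lit 228) (nat_lit 1978599491) (nat_lit 76) (nat_lit 2248753139) (nat_lit 49) (nat_lit 5) (nat_lit 52) (nat_lit 5) (nat_lit 50) (nat_lit 5) (nat_lit 325) (nat_lit 301) (nat_lit 274)) (XT.lf (nat_lit 0) (nat_lit 1079097498) (nat_lit 304) (nat_lit 3276218531) (nat_lit 76) (nat_lit 9883388920) (nat_lit 45) (nat_lit 5) (nat_lit 49) (nat_lit 5) (nat_lit 46) (nat_lit 5) (nat_lit 326) (nat_lit 301) (nat_lit 273)))) (XT.nd (nat_lit 78) (nat_lit 380) (nat_lit 0) (XT.lf (nat_lit 0) (nat_lit 6787027527) (nat_lit 228) (nat_lit 4894843522) (nat_lit 76) (nat_lit 3268343683) (nat_lit 43) (nat_lit 5) (nat_lit 46) (nat_lit 5) (nat_lit 44) (nat_lit 5) (nat_lit 327) (nat_lit 301) (nat_lit 272)) (XT.nd (nat_lit 78) (nat_lit 228) (nat_lit 0) (XT.lf (nat_lit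 0) (nat_lit 8875512831) (nat_lit 152) (nat_lit 4228725261) (nat_lit 228) (nat_lit 2606839985) (nat_lit 41) (nat_lit 5) (nat_lit 43) (nat_lit 5) (nat_lit 44) (nat_lit 5) (nat_lit 328) (nat_lit 301) (nat_lit 271)) (XT.lf (nat_lit 0) (nat_lit 3436790121) (nat_lit 228) (nat_lit 9197050311) (nat_lit 76) (nat_lit 3888807707) (nat_lit 38) (nat_lit 5) (nat_lit 41) (nat_lit 5) (nat_lit 39) (nat_lit 5) (nat_lit 329) (nat_lit 301) (nat_lit 270))))) (XT.nd (nat_lit 234) (nat_lit 456) (nat_lit 0) (XT.nd (nat_lit 78) (nat_lit 152) (nat_lit 0) (XT.lf (nat_lit 0) (nat_lit 5343552229) (nat_lit 152) (nat_lit 4697192195) (nat_lit 228) (nat_lit 7347907534) (nat_lit 36) (nat_lit 5) (nat_lit 38) (nat_lit 5) (nat_lit 39) (nat_lit 5) (nat_lit 330) (nat_lit 301) (nat_lit 269)) (XT.nd (nat_lit 78) (nat_lit 76) (nat_lit 0) (XT.lf (nat_lit 0) (nat_lit 2912915590) (nat_lit 76) (nat_lit 14424364468) (nat_lit 152) (nat_lit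 978491982) (nat_lit 35) (nat_lit 5) (nat_lit 36) (nat_lit 5) (nat_lit 37) (nat_lit 4) (nat_lit 331) (nat_lit 301) (nat_lit 268)) (XT.lf (nat_lit 0) (nat_lit 5902972949) (nat_lit 152) (nat_lit 156428419) (nat_lit 76) (nat_lit 13243530191) (nat_lit 34) (nat_lit 5) (nat_lit 36) (nat_lit 5) (nat_lit 35) (nat_lit 5) (nat_lit 332) (nat_lit 301) (nat_lit 267)))) (XT.nd (nat_lit 78) (nat_lit 304) (nat_lit 0) (XT.lf (nat_lit 0) (nat_lit 13517666781) (nat_lit 228) (nat_lit 3743233195) (nat_lit 76) (nat_lit 3096552332) (nat_lit 32) (nat_lit 5) (nat_lit 35) (nat_lit 5) (nat_lit 33) (nat_lit 4) (nat_lit 333) (nat_lit 301) (nat_lit 266)) (XT.nd (nat_lit 78) (nat_lit 152) (nat_lit 0) (XT.lf (nat_lit 0) (nat_lit 465167911) (nat_lit 152) (nat_lit 8086424278) (nat_lit 76) (nat_lit 12933195823) (nat_lit 30) (nat_lit 5) (nat_lit 32) (nat_lit 5) (nat_lit 31) (nat_lit 5) (nat_lit 334) (nat_lit 301) (nat_lit 265))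 (XT.lf (nat_lit 0) (nat_lit 8261278797) (nat_lit 228) (nat_lit 13331011381) (nat_lit 76) (nat_lit 1097127119) (nat_lit 28) (nat_lit 5) (nat_lit 31) (nat_lit 5) (nat_lit 29) (nat_lit 4) (nat_lit 335) (nat_lit 301) (nat_lit 264))))))) (XT.nd (nat_lit 936) (nat_lit 608) (nat_lit 0) (XT.nd (nat_lit 468) (nat_lit 380) (nat_lit 0) (XT.nd (nat_lit 234) (nat_lit 228) (nat_lit 0) (XT.nd (nat_lit 78) (nat_lit 228) (nat_lit 0) (XT.lf (nat_lit 0) (nat_lit 4347653226) (nat_lit 76) (nat_lit 12604683773) (nat_lit 152) (nat_lit 7024547379) (nat_lit 27) (nat_lit 5) (nat_lit 28) (nat_lit 5) (nat_lit 29) (nat_lit 4) (nat_lit 336) (nat_lit 301) (nat_lit 263)) (XT.nd (nat_lit 78) (nat_lit 152) (nat_lit 0) (XT.lf (nat_lit 0) (nat_lit 1094935564) (nat_lit 152) (nat_lit 1603490907) (nat_lit 76) (nat_lit 22660456223) (nat_lit 26) (nat_lit 5) (nat_lit 28) (nat_lit 5) (nat_lit 27) (nat_lit 5) (nat_lit 337) (nat_lit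 301) (nat_lit 262)) (XT.lf (nat_lit 0) (nat_lit 9960485419) (nat_lit 228) (nat_lit 8772182560) (nat_lit 76) (nat_lit 8095909161) (nat_lit 24) (nat_lit 5) (nat_lit 27) (nat_lit 5) (nat_lit 25) (nat_lit 4) (nat_lit 338) (nat_lit 301) (nat_lit 261)))) (XT.nd (nat_lit 78) (nat_lit 152) (nat_lit 0) (XT.lf (nat_lit 0) (nat_lit 11109979576) (nat_lit 76) (nat_lit 8600017030) (nat_lit 152) (nat_lit 8697137635) (nat_lit 23) (nat_lit 5) (nat_lit 24) (nat_lit 5) (nat_lit 25) (nat_lit 4) (nat_lit 339) (nat_lit 301) (nat_lit 260)) (XT.nd (nat_lit 78) (nat_lit 0) (nat_lit 0) (XT.lf (nat_lit 0) (nat_lit 290203581) (nat_lit 152) (nat_lit 27397578549) (nat_lit 76) (nat_lit 2415774936) (nat_lit 21) (nat_lit 5) (nat_lit 23) (nat_lit 5) (nat_lit 22) (nat_lit 4) (nat_lit 340) (nat_lit 301) (nat_lit 259)) (XT.lf (nat_lit 0) (nat_lit 10079218640) (nat_lit 152) (nat_lit 7415289230) (nat_lit 76) (nat_lit 14414706203)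 (nat_lit 21) (nat_lit 5) (nat_lit 23) (nat_lit 5) (nat_lit 22) (nat_lit 4) (nat_lit 341) (nat_lit 301) (nat_lit 258))))) (XT.nd (nat_lit 234) (nat_lit 152) (nat_lit 0) (XT.nd (nat_lit 78) (nat_lit 152) (nat_lit 0) (XT.lf (nat_lit 0) (nat_lit 14514300100) (nat_lit 76) (nat_lit 6300757757) (nat_lit 152) (nat_lit 13036097997) (nat_lit 20) (nat_lit 5) (nat_lit 21) (nat_lit 5) (nat_lit 22) (nat_lit 4) (nat_lit 342) (nat_lit 301) (nat_lit 257)) (XT.nd (nat_lit 78) (nat_lit 76) (nat_lit 0) (XT.lf (nat_lit 0) (nat_lit 2392111129) (nat_lit 76) (nat_lit 30215892749) (nat_lit 76) (nat_lit 3330553194) (nat_lit 19) (nat_lit 4) (nat_lit 20) (nat_lit 5) (nat_lit 20) (nat_lit 4) (nat_lit 343) (nat_lit 301) (nat_lit 256)) (XT.lf (nat_lit 0) (nat_lit 7312223853) (nat_lit 152) (nat_lit 11959688084) (nat_lit 76) (nat_lit 18895985967) (nat_lit 18) (nat_lit 5) (nat_lit 20) (nat_lit 5) (nat_lit 19) (nat_lit 4)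 (nat_lit 344) (nat_lit 301) (nat_lit 255)))) (XT.nd (nat_lit 78) (nat_lit 76) (nat_lit 0) (XT.lf (nat_lit 0) (nat_lit 11566123070) (nat_lit 76) (nat_lit 7251197203) (nat_lit 152) (nat_lit 21749169715) (nat_lit 17) (nat_lit 5) (nat_lit 18) (nat_lit 5) (nat_lit 19) (nat_lit 4) (nat_lit 345) (nat_lit 301) (nat_lit 254)) (XT.nd (nat_lit 78) (nat_lit 76) (nat_lit 0) (XT.lf (nat_lit 0) (nat_lit 31491302933) (nat_lit 152) (nat_lit 5937763687) (nat_lit 0) (nat_lit 5715491047) (nat_lit 17) (nat_lit 5) (nat_lit 19) (nat_lit 4) (nat_lit 17) (nat_lit 4) (nat_lit 346) (nat_lit 301) (nat_lit 253)) (XT.lf (nat_lit 0) (nat_lit 19375693372) (nat_lit 76) (nat_lit 26179448811) (nat_lit 76) (nat_lit 354942932) (nat_lit 16) (nat_lit 4) (nat_lit 17) (nat_lit 5) (nat_lit 17) (nat_lit 4) (nat_lit 347) (nat_lit 301) (nat_lit 252)))))) (XT.nd (nat_lit 468) (nat_lit 228) (nat_lit 0) (XT.nd (nat_lit 234) (nat_lit 228)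 (nat_lit 0) (XT.nd (nat_lit 78) (nat_lit 76) (nat_lit 0) (XT.lf (nat_lit 0) (nat_lit 11525806021) (nat_lit 152) (nat_lit 2241690567) (nat_lit 76) (nat_lit 35117231785) (nat_lit 15) (nat_lit 5) (nat_lit 17) (nat_lit 5) (nat_lit 16) (nat_lit 4) (nat_lit 348) (nat_lit 301) (nat_lit 251)) (XT.nd (nat_lit 78) (nat_lit 0) (nat_lit 0) (XT.lf (nat_lit 0) (nat_lit 24686604136) (nat_lit 152) (nat_lit 27384218656) (nat_lit 0) (nat_lit 9137315) (nat_lit 14) (nat_lit 5) (nat_lit 16) (nat_lit 4) (nat_lit 14) (nat_lit 4) (nat_lit 349) (nat_lit 301) (nat_lit 250)) (XT.lf (nat_lit 0) (nat_lit 39129663363) (nat_lit 152) (nat_lit 1974303275) (nat_lit 0) (nat_lit 14415382387) (nat_lit 14) (nat_lit 5) (nat_lit 16) (nat_lit 4) (nat_lit 14) (nat_lit 4) (nat_lit 350) (nat_lit 301) (nat_lit 249)))) (XT.nd (nat_lit 78) (nat_lit 152) (nat_lit 0) (XT.lf (nat_lit 0) (nat_lit 26233142572) (nat_lit 76) (nat_lit 28865304271)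 (nat_lit 76) (nat_lit 4116936116) (nat_lit 13) (nat_lit 4) (nat_lit 14) (nat_lit 5) (nat_lit 14) (nat_lit 4) (nat_lit 351) (nat_lit 301) (nat_lit 248)) (XT.nd (nat_lit 78) (nat_lit 76) (nat_lit 0) (XT.lf (nat_lit 0) (nat_lit 8842003979) (nat_lit 152) (nat_lit 6653822200) (nat_lit 76) (nat_lit 47704305576) (nat_lit 12) (nat_lit 5) (nat_lit 14) (nat_lit 5) (nat_lit 13) (nat_lit 4) (nat_lit 352) (nat_lit 301) (nat_lit 247)) (XT.lf (nat_lit 0) (nat_lit 22359597014) (nat_lit 76) (nat_lit 649550124) (nat_lit 152) (nat_lit 44475358949) (nat_lit 11) (nat_lit 5) (nat_lit 12) (nat_lit 5) (nat_lit 13) (nat_lit 4) (nat_lit 353) (nat_lit 301) (nat_lit 246))))) (XT.nd (nat_lit 234) (nat_lit 152) (nat_lit 0) (XT.nd (nat_lit 78) (nat_lit 76) (nat_lit 0) (XT.lf (nat_lit 0) (nat_lit 38633486772) (nat_lit 152) (nat_lit 18482008788) (nat_lit 0) (nat_lit 14979949511) (nat_lit 11) (nat_lit 5) (nat_lit 13) (nat_lit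 4) (nat_lit 11) (nat_lit 4) (nat_lit 354) (nat_lit 301) (nat_lit 245)) (XT.nd (nat_lit 78) (nat_lit 0) (nat_lit 0) (XT.lf (nat_lit 0) (nat_lit 10558402807) (nat_lit 76) (nat_lit 45093526671) (nat_lit 76) (nat_lit 21416127415) (nat_lit 10) (nat_lit 4) (nat_lit 11) (nat_lit 5) (nat_lit 11) (nat_lit 4) (nat_lit 355) (nat_lit 301) (nat_lit 244)) (XT.lf (nat_lit 0) (nat_lit 42523777732) (nat_lit 76) (nat_lit 31799805964) (nat_lit 76) (nat_lit 8100312268) (nat_lit 10) (nat_lit 4) (nat_lit 11) (nat_lit 5) (nat_lit 11) (nat_lit 4) (nat_lit 356) (nat_lit 301) (nat_lit 243)))) (XT.nd (nat_lit 78) (nat_lit 76) (nat_lit 0) (XT.lf (nat_lit 0) (nat_lit 6051310268) (nat_lit 152) (nat_lit 11314765459) (nat_lit 76) (nat_lit 70838649615) (nat_lit 9) (nat_lit 5) (nat_lit 11) (nat_lit 5) (nat_lit 10) (nat_lit 4) (nat_lit 357) (nat_lit 301) (nat_lit 242)) (XT.nd (nat_lit 78) (nat_lit 0) (nat_lit 0) (XT.lf (nat_lit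 0) (nat_lit 20010469502) (nat_lit 76) (nat_lit 1330683392) (nat_lit 152) (nat_lit 73085738460) (nat_lit 8) (nat_lit 5) (nat_lit 9) (nat_lit 5) (nat_lit 10) (nat_lit 4) (nat_lit 358) (nat_lit 301) (nat_lit 241)) (XT.lf (nat_lit 0) (nat_lit 38278617179) (nat_lit 152) (nat_lit 47193552922) (nat_lit 0) (nat_lit 15653442693) (nat_lit 8) (nat_lit 5) (nat_lit 10) (nat_lit 4) (nat_lit 8) (nat_lit 4) (nat_lit 359) (nat_lit 301) (nat_lit 240))))))))
noncomputable def xc50 : XT := (XT.nd (nat_lit 1794) (nat_lit 0) (nat_lit 0) (XT.nd (nat_lit 858) (nat_lit 152) (nat_lit 0) (XT.nd (nat_lit 390) (nat_lit 152) (nat_lit 0) (XT.nd (nat_lit 156) (nat_lit 76) (nat_lit 0) (XT.nd (nat_lit 78) (nat_lit 76) (nat_lit 0) (XT.lf (nat_lit 0) (nat_lit 56569902417) (nat_lit 152) (nat_lit 17861130719) (nat_lit 0) (nat_lit 33929261195) (nat_lit 8) (nat_lit 5) (nat_lit 10) (nat_lit 4) (nat_lit 8) (nat_lit 4) (nat_lit 360)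 (nat_lit 301) (nat_lit 239)) (XT.lf (nat_lit 0) (nat_lit 14230920544) (nat_lit 76) (nat_lit 62293889722) (nat_lit 76) (nat_lit 39638927448) (nat_lit 7) (nat_lit 4) (nat_lit 8) (nat_lit 5) (nat_lit 8) (nat_lit 4) (nat_lit 361) (nat_lit 301) (nat_lit 238))) (XT.nd (nat_lit 78) (nat_lit 76) (nat_lit 0) (XT.lf (nat_lit 0) (nat_lit 49487552603) (nat_lit 76) (nat_lit 48878808508) (nat_lit 76) (nat_lit 26210586001) (nat_lit 7) (nat_lit 4) (nat_lit 8) (nat_lit 5) (nat_lit 8) (nat_lit 4) (nat_lit 362) (nat_lit 301) (nat_lit 237)) (XT.nd (nat_lit 78) (nat_lit 76) (nat_lit 0) (XT.lf (nat_lit 0) (nat_lit 87527124002) (nat_lit 76) (nat_lit 34408779610) (nat_lit 76) (nat_lit 11728279109) (nat_lit 7) (nat_lit 4) (nat_lit 8) (nat_lit 5) (nat_lit 8) (nat_lit 4) (nat_lit 363) (nat_lit 301) (nat_lit 236)) (XT.lf (nat_lit 0) (nat_lit 3769187931) (nat_lit 152) (nat_lit 14965033755) (nat_lit 76) (nat_lit 124742033471)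 (nat_lit 6) (nat_lit 5) (nat_lit 8) (nat_lit 5) (nat_lit 7) (nat_lit 4) (nat_lit 364) (nat_lit 301) (nat_lit 235))))) (XT.nd (nat_lit 234) (nat_lit 76) (nat_lit 0) (XT.nd (nat_lit 78) (nat_lit 0) (nat_lit 0) (XT.lf (nat_lit 0) (nat_lit 19080913572) (nat_lit 76) (nat_lit 1301188372) (nat_lit 152) (nat_lit 133667252848) (nat_lit 5) (nat_lit 5) (nat_lit 6) (nat_lit 5) (nat_lit 7) (nat_lit 4) (nat_lit 365) (nat_lit 301) (nat_lit 234)) (XT.nd (nat_lit 78) (nat_lit 0) (nat_lit 0) (XT.lf (nat_lit 0) (nat_lit 38846312794) (nat_lit 152) (nat_lit 109380177277) (nat_lit 0) (nat_lit 17215701287) (nat_lit 5) (nat_lit 5) (nat_lit 7) (nat_lit 4) (nat_lit 5) (nat_lit 4) (nat_lit 366) (nat_lit 301) (nat_lit 233)) (XT.lf (nat_lit 0) (nat_lit 58794481876) (nat_lit 152) (nat_lit 81796358467) (nat_lit 0) (nat_lit 37155275425) (nat_lit 5) (nat_lit 5) (nat_lit 7) (nat_lit 4) (nat_lit 5) (nat_lit 4) (nat_lit 367)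 (nat_lit 301) (nat_lit 232)))) (XT.nd (nat_lit 78) (nat_lit 76) (nat_lit 0) (XT.lf (nat_lit 0) (nat_lit 80324505367) (nat_lit 152) (nat_lit 52033209925) (nat_lit 0) (nat_lit 58677340633) (nat_lit 5) (nat_lit 5) (nat_lit 7) (nat_lit 4) (nat_lit 5) (nat_lit 4) (nat_lit 368) (nat_lit 301) (nat_lit 231)) (XT.nd (nat_lit 78) (nat_lit 76) (nat_lit 0) (XT.lf (nat_lit 0) (nat_lit 103563968590) (nat_lit 152) (nat_lit 19914357438) (nat_lit 0) (nat_lit 81909435077) (nat_lit 5) (nat_lit 5) (nat_lit 7) (nat_lit 4) (nat_lit 5) (nat_lit 4) (nat_lit 369) (nat_lit 301) (nat_lit 230)) (XT.lf (nat_lit 0) (nat_lit 15238252168) (nat_lit 76) (nat_lit 113650246537) (nat_lit 76) (nat_lit 91988890079) (nat_lit 4) (nat_lit 4) (nat_lit 5) (nat_lit 5) (nat_lit 5) (nat_lit 4) (nat_lit 370) (nat_lit 301) (nat_lit 229)))))) (XT.nd (nat_lit 468) (nat_lit 152) (nat_lit 0) (XT.nd (nat_lit 234) (nat_lit 0) (nat_lit 0) (XT.nd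 (nat_lit 78) (nat_lit 0) (nat_lit 0) (XT.lf (nat_lit 0) (nat_lit 53891755501) (nat_lit 76) (nat_lit 102682667523) (nat_lit 76) (nat_lit 81014993524) (nat_lit 4) (nat_lit 4) (nat_lit 5) (nat_lit 5) (nat_lit 5) (nat_lit 4) (nat_lit 371) (nat_lit 301) (nat_lit 228)) (XT.nd (nat_lit 78) (nat_lit 0) (nat_lit 0) (XT.lf (nat_lit 0) (nat_lit 95616751766) (nat_lit 76) (nat_lit 90847855205) (nat_lit 76) (nat_lit 69174331631) (nat_lit 4) (nat_lit 4) (nat_lit 5) (nat_lit 5) (nat_lit 5) (nat_lit 4) (nat_lit 372) (nat_lit 301) (nat_lit 227)) (XT.lf (nat_lit 0) (nat_lit 140660500200) (nat_lit 76) (nat_lit 78075677361) (nat_lit 76) (nat_lit 56396737514) (nat_lit 4) (nat_lit 4) (nat_lit 5) (nat_lit 5) (nat_lit 5) (nat_lit 4) (nat_lit 373) (nat_lit 301) (nat_lit 226)))) (XT.nd (nat_lit 78) (nat_lit 0) (nat_lit 0) (XT.lf (nat_lit 0) (nat_lit 189289926718) (nat_lit 76) (nat_lit 64290447012) (nat_lit 76) (nat_lit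 42606492098) (nat_lit 4) (nat_lit 4) (nat_lit 5) (nat_lit 5) (nat_lit 5) (nat_lit 4) (nat_lit 374) (nat_lit 301) (nat_lit 225)) (XT.nd (nat_lit 78) (nat_lit 0) (nat_lit 0) (XT.lf (nat_lit 0) (nat_lit 241793205701) (nat_lit 76) (nat_lit 49410473904) (nat_lit 76) (nat_lit 27721875408) (nat_lit 4) (nat_lit 4) (nat_lit 5) (nat_lit 5) (nat_lit 5) (nat_lit 4) (nat_lit 375) (nat_lit 301) (nat_lit 224)) (XT.lf (nat_lit 0) (nat_lit 298481467691) (nat_lit 76) (nat_lit 33347580419) (nat_lit 76) (nat_lit 11654682311) (nat_lit 4) (nat_lit 4) (nat_lit 5) (nat_lit 5) (nat_lit 5) (nat_lit 4) (nat_lit 376) (nat_lit 301) (nat_lit 223))))) (XT.nd (nat_lit 234) (nat_lit 0) (nat_lit 0) (XT.nd (nat_lit 78) (nat_lit 76) (nat_lit 0) (XT.lf (nat_lit 0) (nat_lit 5508175048) (nat_lit 152) (nat_lit 10405120380) (nat_lit 76) (nat_lit 354089184471) (nat_lit 3) (nat_lit 5) (nat_lit 5) (nat_lit 5) (nat_lit 4) (nat_lit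 4) (nat_lit 377) (nat_lit 301) (nat_lit 222)) (XT.nd (nat_lit 78) (nat_lit 0) (nat_lit 0) (XT.lf (nat_lit 0) (nat_lit 24121563516) (nat_lit 152) (nat_lit 371032964002) (nat_lit 0) (nat_lit 3454358321) (nat_lit 2) (nat_lit 5) (nat_lit 4) (nat_lit 4) (nat_lit 2) (nat_lit 4) (nat_lit 378) (nat_lit 301) (nat_lit 221)) (XT.lf (nat_lit 0) (nat_lit 44669979843) (nat_lit 152) (nat_lit 360812003313) (nat_lit 0) (nat_lit 23999524009) (nat_lit 2) (nat_lit 5) (nat_lit 4) (nat_lit 4) (nat_lit 2) (nat_lit 4) (nat_lit 379) (nat_lit 301) (nat_lit 220)))) (XT.nd (nat_lit 78) (nat_lit 0) (nat_lit 0) (XT.lf (nat_lit 0) (nat_lit 66856165541) (nat_lit 152) (nat_lit 349785378694) (nat_lit 0) (nat_lit 46182699856) (nat_lit 2) (nat_lit 5) (nat_lit 4) (nat_lit 4) (nat_lit 2) (nat_lit 4) (nat_lit 380) (nat_lit 301) (nat_lit 219)) (XT.nd (nat_lit 78) (nat_lit 0) (nat_lit 0) (XT.lf (nat_lit 0) (nat_lit 90811594301)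 (nat_lit 152) (nat_lit 337887747185) (nat_lit 0) (nat_lit 70135341718) (nat_lit 2) (nat_lit 5) (nat_lit 4) (nat_lit 4) (nat_lit 2) (nat_lit 4) (nat_lit 381) (nat_lit 301) (nat_lit 218)) (XT.lf (nat_lit 0) (nat_lit 116678224221) (nat_lit 152) (nat_lit 325048604303) (nat_lit 0) (nat_lit 95999391175) (nat_lit 2) (nat_lit 5) (nat_lit 4) (nat_lit 4) (nat_lit 2) (nat_lit 4) (nat_lit 382) (nat_lit 301) (nat_lit 217))))))) (XT.nd (nat_lit 40716) (nat_lit 0) (nat_lit 6460) (XT.nd (nat_lit 468) (nat_lit 0) (nat_lit 0) (XT.nd (nat_lit 234) (nat_lit 0) (nat_lit 0) (XT.nd (nat_lit 78) (nat_lit 0) (nat_lit 0) (XT.lf (nat_lit 0) (nat_lit 144609339033) (nat_lit 152) (nat_lit 311191866238) (nat_lit 0) (nat_lit 123928116671) (nat_lit 2) (nat_lit 5) (nat_lit 4) (nat_lit 4) (nat_lit 2) (nat_lit 4) (nat_lit 383) (nat_lit 301) (nat_lit 216)) (XT.nd (nat_lit 78) (nat_lit 0) (nat_lit 0) (XT.lf (nat_lit 0) (nat_lit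 174770456455) (nat_lit 152) (nat_lit 296235418987) (nat_lit 0) (nat_lit 154087021762) (nat_lit 2) (nat_lit 5) (nat_lit 4) (nat_lit 4) (nat_lit 2) (nat_lit 4) (nat_lit 384) (nat_lit 301) (nat_lit 215)) (XT.lf (nat_lit 0) (nat_lit 207340309034) (nat_lit 152) (nat_lit 280090631751) (nat_lit 0) (nat_lit 186654825887) (nat_lit 2) (nat_lit 5) (nat_lit 4) (nat_lit 4) (nat_lit 2) (nat_lit 4) (nat_lit 385) (nat_lit 301) (nat_lit 214)))) (XT.nd (nat_lit 78) (nat_lit 0) (nat_lit 0) (XT.lf (nat_lit 0) (nat_lit 242511903304) (nat_lit 152) (nat_lit 262661831717) (nat_lit 0) (nat_lit 221824523441) (nat_lit 2) (nat_lit 5) (nat_lit 4) (nat_lit 4) (nat_lit 2) (nat_lit 4) (nat_lit 386) (nat_lit 301) (nat_lit 213)) (XT.nd (nat_lit 78) (nat_lit 0) (nat_lit 0) (XT.lf (nat_lit 0) (nat_lit 280493663527) (nat_lit 152) (nat_lit 243845737107) (nat_lit 0) (nat_lit 259804527446) (nat_lit 2) (nat_lit 5) (nat_lit 4) (nat_lit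 4) (nat_lit 2) (nat_lit 4) (nat_lit 387) (nat_lit 301) (nat_lit 212)) (XT.lf (nat_lit 0) (nat_lit 321510666802) (nat_lit 152) (nat_lit 223530845139) (nat_lit 0) (nat_lit 300819904591) (nat_lit 2) (nat_lit 5) (nat_lit 4) (nat_lit 4) (nat_lit 2) (nat_lit 4) (nat_lit 388) (nat_lit 301) (nat_lit 211))))) (XT.nd (nat_lit 234) (nat_lit 0) (nat_lit 0) (XT.nd (nat_lit 78) (nat_lit 0) (nat_lit 0) (XT.lf (nat_lit 0) (nat_lit 365805976851) (nat_lit 152) (nat_lit 201596771266) (nat_lit 0) (nat_lit 345113708966) (nat_lit 2) (nat_lit 5) (nat_lit 4) (nat_lit 4) (nat_lit 2) (nat_lit 4) (nat_lit 389) (nat_lit 301) (nat_lit 210)) (XT.nd (nat_lit 78) (nat_lit 0) (nat_lit 0) (XT.lf (nat_lit 0) (nat_lit 413642084400) (nat_lit 152) (nat_lit 177913535793) (nat_lit 0) (nat_lit 392948422372) (nat_lit 2) (nat_lit 5) (nat_lit 4) (nat_lit 4) (nat_lit 2) (nat_lit 4) (nat_lit 390) (nat_lit 301) (nat_lit 209)) (XT.lf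 (nat_lit 0) (nat_lit 465302462680) (nat_lit 152) (nat_lit 152340793619) (nat_lit 0) (nat_lit 444607509778) (nat_lit 2) (nat_lit 5) (nat_lit 4) (nat_lit 4) (nat_lit 2) (nat_lit 4) (nat_lit 391) (nat_lit 301) (nat_lit 208)))) (XT.nd (nat_lit 39858) (nat_lit 0) (nat_lit 11096) (XT.lf (nat_lit 0) (nat_lit 521093247265) (nat_lit 152) (nat_lit 124727002570) (nat_lit 0) (nat_lit 500397099109) (nat_lit 2) (nat_lit 5) (nat_lit 4) (nat_lit 4) (nat_lit 2) (nat_lit 4) (nat_lit 392) (nat_lit 301) (nat_lit 207)) (XT.nd (nat_lit 78) (nat_lit 380) (nat_lit 0) (XT.lf (nat_lit 0) (nat_lit 1123182088) (nat_lit 0) (nat_lit 1123182088) (nat_lit 228) (nat_lit 1032437962) (nat_lit 153) (nat_lit 5) (nat_lit 153) (nat_lit 3) (nat_lit 156) (nat_lit 3) (nat_lit 302) (nat_lit 302) (nat_lit 296)) (XT.lf (nat_lit 76) (nat_lit 736886156) (nat_lit 0) (nat_lit 965449622) (nat_lit 380) (nat_lit 4923973590) (nat_lit 149)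 (nat_lit 5) (nat_lit 148) (nat_lit 3) (nat_lit 153) (nat_lit 5) (nat_lit 303) (nat_lit 302) (nat_lit 295)))))) (XT.nd (nat_lit 468) (nat_lit 2888) (nat_lit 0) (XT.nd (nat_lit 234) (nat_lit 1444) (nat_lit 0) (XT.nd (nat_lit 78) (nat_lit 380) (nat_lit 0) (XT.lf (nat_lit 0) (nat_lit 5404806527) (nat_lit 304) (nat_lit 623759020) (nat_lit 380) (nat_lit 685564009) (nat_lit 149) (nat_lit 5) (nat_lit 153) (nat_lit 5) (nat_lit 154) (nat_lit 5) (nat_lit 304) (nat_lit 302) (nat_lit 294)) (XT.nd (nat_lit 78) (nat_lit 0) (nat_lit 0) (XT.lf (nat_lit 0) (nat_lit 2251375310) (nat_lit 380) (nat_lit 1862248508) (nat_lit 456) (nat_lit 2706879296) (nat_lit 144) (nat_lit 5) (nat_lit 149) (nat_lit 5) (nat_lit 150) (nat_lit 5) (nat_lit 305) (nat_lit 302) (nat_lit 293)) (XT.lf (nat_lit 76) (nat_lit 3966168859) (nat_lit 0) (nat_lit 1825722021) (nat_lit 456) (nat_lit 1155889037) (nat_lit 145) (nat_lit 5) (nat_lit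 144) (nat_lit 5) (nat_lit 150) (nat_lit 5) (nat_lit 306) (nat_lit 302) (nat_lit 292)))) (XT.nd (nat_lit 78) (nat_lit 1064) (nat_lit 0) (XT.lf (nat_lit 0) (nat_lit 2227420679) (nat_lit 456) (nat_lit 4021057238) (nat_lit 76) (nat_lit 846333774) (nat_lit 139) (nat_lit 5) (nat_lit 145) (nat_lit 5) (nat_lit 140) (nat_lit 5) (nat_lit 307) (nat_lit 302) (nat_lit 291)) (XT.nd (nat_lit 78) (nat_lit 608) (nat_lit 0) (XT.lf (nat_lit 0) (nat_lit 2268691947) (nat_lit 456) (nat_lit 3396602273) (nat_lit 532) (nat_lit 1596559547) (nat_lit 133) (nat_lit 5) (nat_lit 139) (nat_lit 5) (nat_lit 140) (nat_lit 5) (nat_lit 308) (nat_lit 302) (nat_lit 290)) (XT.lf (nat_lit 0) (nat_lit 1563275536) (nat_lit 532) (nat_lit 124803426) (nat_lit 608) (nat_lit 5762329807) (nat_lit 125) (nat_lit 5) (nat_lit 132) (nat_lit 5) (nat_lit 133) (nat_lit 5) (nat_lit 309) (nat_lit 302) (nat_lit 289))))) (XT.nd (nat_lit 234) (nat_lit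 1520) (nat_lit 0) (XT.nd (nat_lit 78) (nat_lit 760) (nat_lit 0) (XT.lf (nat_lit 0) (nat_lit 893313602) (nat_lit 608) (nat_lit 4179407465) (nat_lit 684) (nat_lit 2585698894) (nat_lit 117) (nat_lit 5) (nat_lit 125) (nat_lit 5) (nat_lit 126) (nat_lit 5) (nat_lit 310) (nat_lit 302) (nat_lit 288)) (XT.nd (nat_lit 78) (nat_lit 0) (nat_lit 0) (XT.lf (nat_lit 0) (nat_lit 316314166) (nat_lit 684) (nat_lit 361580754) (nat_lit 760) (nat_lit 7211822266) (nat_lit 107) (nat_lit 5) (nat_lit 116) (nat_lit 5) (nat_lit 117) (nat_lit 5) (nat_lit 311) (nat_lit 302) (nat_lit 287)) (XT.lf (nat_lit 0) (nat_lit 4055887372) (nat_lit 760) (nat_lit 259983182) (nat_lit 76) (nat_lit 3824609816) (nat_lit 107) (nat_lit 5) (nat_lit 117) (nat_lit 5) (nat_lit 108) (nat_lit 5) (nat_lit 312) (nat_lit 302) (nat_lit 286)))) (XT.nd (nat_lit 78) (nat_lit 760) (nat_lit 0) (XT.lf (nat_lit 0) (nat_lit 7612429602) (nat_lit 836) (nat_lit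 750292918) (nat_lit 76) (nat_lit 53422754) (nat_lit 97) (nat_lit 5) (nat_lit 108) (nat_lit 5) (nat_lit 98) (nat_lit 5) (nat_lit 313) (nat_lit 302) (nat_lit 285)) (XT.nd (nat_lit 78) (nat_lit 304) (nat_lit 0) (XT.lf (nat_lit 0) (nat_lit 2640350129) (nat_lit 456) (nat_lit 1281859203) (nat_lit 76) (nat_lit 4790321102) (nat_lit 91) (nat_lit 5) (nat_lit 97) (nat_lit 5) (nat_lit 92) (nat_lit 5) (nat_lit 314) (nat_lit 302) (nat_lit 284)) (XT.lf (nat_lit 0) (nat_lit 6278059971) (nat_lit 380) (nat_lit 1781436435) (nat_lit 76) (nat_lit 975366543) (nat_lit 87) (nat_lit 5) (nat_lit 92) (nat_lit 5) (nat_lit 88) (nat_lit 5) (nat_lit 315) (nat_lit 302) (nat_lit 283))))))))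
noncomputable def xc51 : XT := (XT.nd (nat_lit 1794) (nat_lit 1292) (nat_lit 0) (XT.nd (nat_lit 858) (nat_lit 1672) (nat_lit 0) (XT.nd (nat_lit 390) (nat_lit 1444) (nat_lit 0) (XT.nd (nat_lit 156) (nat_lit 912) (nat_lit 0) (XT.nd (nat_lit 78) (nat_lit 304) (nat_lit 0) (XT.lf (nat_lit 0) (nat_lit 811506112) (nat_lit 456) (nat_lit 2309825046) (nat_lit 76) (nat_lit 6260488848) (nat_lit 81) (nat_lit 5) (nat_lit 87) (nat_lit 5) (nat_lit 82) (nat_lit 5) (nat_lit 316) (nat_lit 302) (nat_lit 282)) (XT.lf (nat_lit 0) (nat_lit 4568658986) (nat_lit 380) (nat_lit 2883859835) (nat_lit 76) (nat_lit 2301927729) (nat_lit 77) (nat_lit 5) (nat_lit 82) (nat_lit 5) (nat_lit 78) (nat_lit 5) (nat_lit 317) (nat_lit 302) (nat_lit 281))) (XT.nd (nat_lit 78) (nat_lit 608) (nat_lit 0) (XT.lf (nat_lit 0) (nat_lit 6667139354) (nat_lit 304) (nat_lit 1988606071) (nat_lit 380) (nat_lit 1499827870) (nat_lit 73) (nat_lit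 5) (nat_lit 77) (nat_lit 5) (nat_lit 78) (nat_lit 5) (nat_lit 318) (nat_lit 302) (nat_lit 280)) (XT.nd (nat_lit 78) (nat_lit 304) (nat_lit 0) (XT.lf (nat_lit 0) (nat_lit 2455530214) (nat_lit 304) (nat_lit 4187338127) (nat_lit 76) (nat_lit 3941428052) (nat_lit 69) (nat_lit 5) (nat_lit 73) (nat_lit 5) (nat_lit 70) (nat_lit 5) (nat_lit 319) (nat_lit 302) (nat_lit 279)) (XT.lf (nat_lit 0) (nat_lit 6087645622) (nat_lit 304) (nat_lit 624855056) (nat_lit 380) (nat_lit 4331829900) (nat_lit 65) (nat_lit 5) (nat_lit 69) (nat_lit 5) (nat_lit 70) (nat_lit 5) (nat_lit 320) (nat_lit 302) (nat_lit 278))))) (XT.nd (nat_lit 234) (nat_lit 684) (nat_lit 0) (XT.nd (nat_lit 78) (nat_lit 532) (nat_lit 0) (XT.lf (nat_lit 0) (nat_lit 5686985244) (nat_lit 228) (nat_lit 5731997810) (nat_lit 304) (nat_lit 116856294) (nat_lit 62) (nat_lit 5) (nat_lit 65) (nat_lit 5) (nat_lit 66) (nat_lit 5) (nat_lit 321) (nat_lit 302)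 (nat_lit 277)) (XT.nd (nat_lit 78) (nat_lit 228) (nat_lit 0) (XT.lf (nat_lit 0) (nat_lit 4345735247) (nat_lit 304) (nat_lit 6887950534) (nat_lit 76) (nat_lit 827007194) (nat_lit 58) (nat_lit 5) (nat_lit 62) (nat_lit 5) (nat_lit 59) (nat_lit 5) (nat_lit 322) (nat_lit 302) (nat_lit 276)) (XT.lf (nat_lit 0) (nat_lit 4514393398) (nat_lit 228) (nat_lit 4783994842) (nat_lit 304) (nat_lit 3322291082) (nat_lit 55) (nat_lit 5) (nat_lit 58) (nat_lit 5) (nat_lit 59) (nat_lit 5) (nat_lit 323) (nat_lit 302) (nat_lit 275)))) (XT.nd (nat_lit 78) (nat_lit 380) (nat_lit 0) (XT.lf (nat_lit 0) (nat_lit 1464717360) (nat_lit 304) (nat_lit 9494861617) (nat_lit 76) (nat_lit 2260440056) (nat_lit 51) (nat_lit 5) (nat_lit 55) (nat_lit 5) (nat_lit 52) (nat_lit 5) (nat_lit 324) (nat_lit 302) (nat_lit 274)) (XT.nd (nat_lit 78) (nat_lit 228) (nat_lit 0) (XT.lf (nat_lit 0) (nat_lit 2694206841) (nat_lit 152) (nat_lit 3968975561)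 (nat_lit 228) (nat_lit 7194235398) (nat_lit 49) (nat_lit 5) (nat_lit 51) (nat_lit 5) (nat_lit 52) (nat_lit 5) (nat_lit 325) (nat_lit 302) (nat_lit 273)) (XT.lf (nat_lit 0) (nat_lit 1465956132) (nat_lit 228) (nat_lit 10940942367) (nat_lit 304) (nat_lit 2132515083) (nat_lit 46) (nat_lit 5) (nat_lit 49) (nat_lit 5) (nat_lit 50) (nat_lit 5) (nat_lit 326) (nat_lit 302) (nat_lit 272)))))) (XT.nd (nat_lit 468) (nat_lit 760) (nat_lit 0) (XT.nd (nat_lit 234) (nat_lit 532) (nat_lit 0) (XT.nd (nat_lit 78) (nat_lit 304) (nat_lit 0) (XT.lf (nat_lit 0) (nat_lit 3378559262) (nat_lit 304) (nat_lit 62482304) (nat_lit 76) (nat_lit 11824833292) (nat_lit 45) (nat_lit 5) (nat_lit 49) (nat_lit 5) (nat_lit 46) (nat_lit 5) (nat_lit 327) (nat_lit 302) (nat_lit 271)) (XT.nd (nat_lit 78) (nat_lit 152) (nat_lit 0) (XT.lf (nat_lit 0) (nat_lit 9450201883) (nat_lit 228) (nat_lit 1874526632) (nat_lit 76) (nat_lit 4714317057)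 (nat_lit 43) (nat_lit 5) (nat_lit 46) (nat_lit 5) (nat_lit 44) (nat_lit 5) (nat_lit 328) (nat_lit 302) (nat_lit 270)) (XT.lf (nat_lit 0) (nat_lit 12849181023) (nat_lit 152) (nat_lit 3317509884) (nat_lit 228) (nat_lit 699479087) (nat_lit 41) (nat_lit 5) (nat_lit 43) (nat_lit 5) (nat_lit 44) (nat_lit 5) (nat_lit 329) (nat_lit 302) (nat_lit 269)))) (XT.nd (nat_lit 78) (nat_lit 304) (nat_lit 0) (XT.lf (nat_lit 0) (nat_lit 5677349140) (nat_lit 228) (nat_lit 6666358416) (nat_lit 76) (nat_lit 5401511644) (nat_lit 38) (nat_lit 5) (nat_lit 41) (nat_lit 5) (nat_lit 39) (nat_lit 5) (nat_lit 330) (nat_lit 302) (nat_lit 268)) (XT.nd (nat_lit 78) (nat_lit 152) (nat_lit 0) (XT.lf (nat_lit 0) (nat_lit 8895536134) (nat_lit 152) (nat_lit 3817264680) (nat_lit 228) (nat_lit 5972614571) (nat_lit 36) (nat_lit 5) (nat_lit 38) (nat_lit 5) (nat_lit 39) (nat_lit 5) (nat_lit 331) (nat_lit 302) (nat_lit 267)) (XT.lf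 (nat_lit 0) (nat_lit 803594542) (nat_lit 152) (nat_lit 13497219138) (nat_lit 76) (nat_lit 5388934098) (nat_lit 34) (nat_lit 5) (nat_lit 36) (nat_lit 5) (nat_lit 35) (nat_lit 5) (nat_lit 332) (nat_lit 302) (nat_lit 266))))) (XT.nd (nat_lit 234) (nat_lit 456) (nat_lit 0) (XT.nd (nat_lit 78) (nat_lit 152) (nat_lit 0) (XT.lf (nat_lit 0) (nat_lit 2811187173) (nat_lit 152) (nat_lit 5299157271) (nat_lit 228) (nat_lit 12649339167) (nat_lit 32) (nat_lit 5) (nat_lit 34) (nat_lit 5) (nat_lit 35) (nat_lit 5) (nat_lit 333) (nat_lit 302) (nat_lit 265)) (XT.nd (nat_lit 78) (nat_lit 152) (nat_lit 0) (XT.lf (nat_lit 0) (nat_lit 16226247801) (nat_lit 228) (nat_lit 1215051072) (nat_lit 76) (nat_lit 4462719209) (nat_lit 32) (nat_lit 5) (nat_lit 35) (nat_lit 5) (nat_lit 33) (nat_lit 4) (nat_lit 334) (nat_lit 302) (nat_lit 264)) (XT.lf (nat_lit 0) (nat_lit 2077240457) (nat_lit 152) (nat_lit 5975918692) (nat_lit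 76) (nat_lit 15071076331) (nat_lit 30) (nat_lit 5) (nat_lit 32) (nat_lit 5) (nat_lit 31) (nat_lit 5) (nat_lit 335) (nat_lit 302) (nat_lit 263)))) (XT.nd (nat_lit 78) (nat_lit 304) (nat_lit 0) (XT.lf (nat_lit 0) (nat_lit 10439334615) (nat_lit 228) (nat_lit 11702159517) (nat_lit 76) (nat_lit 2286670154) (nat_lit 28) (nat_lit 5) (nat_lit 31) (nat_lit 5) (nat_lit 29) (nat_lit 4) (nat_lit 336) (nat_lit 302) (nat_lit 262)) (XT.nd (nat_lit 78) (nat_lit 228) (nat_lit 0) (XT.lf (nat_lit 0) (nat_lit 7273662381) (nat_lit 76) (nat_lit 12479886229) (nat_lit 152) (nat_lit 6068727213) (nat_lit 27) (nat_lit 5) (nat_lit 28) (nat_lit 5) (nat_lit 29) (nat_lit 4) (nat_lit 337) (nat_lit 302) (nat_lit 261)) (XT.lf (nat_lit 0) (nat_lit 724051529) (nat_lit 152) (nat_lit 1830158716) (nat_lit 228) (nat_lit 24764351037) (nat_lit 24) (nat_lit 5) (nat_lit 26) (nat_lit 5) (nat_lit 27) (nat_lit 5) (nat_lit 338) (nat_lit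 302) (nat_lit 260))))))) (XT.nd (nat_lit 936) (nat_lit 532) (nat_lit 0) (XT.nd (nat_lit 468) (nat_lit 380) (nat_lit 0) (XT.nd (nat_lit 234) (nat_lit 152) (nat_lit 0) (XT.nd (nat_lit 78) (nat_lit 228) (nat_lit 0) (XT.lf (nat_lit 0) (nat_lit 12069357590) (nat_lit 228) (nat_lit 7097914500) (nat_lit 76) (nat_lit 9741574707) (nat_lit 24) (nat_lit 5) (nat_lit 27) (nat_lit 5) (nat_lit 25) (nat_lit 4) (nat_lit 339) (nat_lit 302) (nat_lit 259)) (XT.nd (nat_lit 78) (nat_lit 152) (nat_lit 0) (XT.lf (nat_lit 0) (nat_lit 14271560689) (nat_lit 76) (nat_lit 8265565836) (nat_lit 152) (nat_lit 8079677826) (nat_lit 23) (nat_lit 5) (nat_lit 24) (nat_lit 5) (nat_lit 25) (nat_lit 4) (nat_lit 340) (nat_lit 302) (nat_lit 258)) (XT.lf (nat_lit 0) (nat_lit 1540690676) (nat_lit 152) (nat_lit 27329559168) (nat_lit 76) (nat_lit 3579889518) (nat_lit 21) (nat_lit 5) (nat_lit 23) (nat_lit 5) (nat_lit 22) (nat_lit 4) (nat_lit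 341) (nat_lit 302) (nat_lit 257)))) (XT.nd (nat_lit 78) (nat_lit 152) (nat_lit 0) (XT.lf (nat_lit 0) (nat_lit 12021917991) (nat_lit 152) (nat_lit 5916081197) (nat_lit 76) (nat_lit 16466820280) (nat_lit 21) (nat_lit 5) (nat_lit 23) (nat_lit 5) (nat_lit 22) (nat_lit 4) (nat_lit 342) (nat_lit 302) (nat_lit 256)) (XT.nd (nat_lit 78) (nat_lit 76) (nat_lit 0) (XT.lf (nat_lit 0) (nat_lit 17676940771) (nat_lit 76) (nat_lit 5886757594) (nat_lit 152) (nat_lit 12941087758) (nat_lit 20) (nat_lit 5) (nat_lit 21) (nat_lit 5) (nat_lit 22) (nat_lit 4) (nat_lit 343) (nat_lit 302) (nat_lit 255)) (XT.lf (nat_lit 0) (nat_lit 4536378830) (nat_lit 76) (nat_lit 31727208712) (nat_lit 76) (nat_lit 2497438033) (nat_lit 19) (nat_lit 4) (nat_lit 20) (nat_lit 5) (nat_lit 20) (nat_lit 4) (nat_lit 344) (nat_lit 302) (nat_lit 254))))) (XT.nd (nat_lit 234) (nat_lit 228) (nat_lit 0) (XT.nd (nat_lit 78) (nat_lit 76) (nat_lit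 0) (XT.lf (nat_lit 0) (nat_lit 8882726435) (nat_lit 152) (nat_lit 11075400474) (nat_lit 76) (nat_lit 21213689473) (nat_lit 18) (nat_lit 5) (nat_lit 20) (nat_lit 5) (nat_lit 19) (nat_lit 4) (nat_lit 345) (nat_lit 302) (nat_lit 253)) (XT.nd (nat_lit 78) (nat_lit 0) (nat_lit 0) (XT.lf (nat_lit 0) (nat_lit 14252465233) (nat_lit 76) (nat_lit 7010258471) (nat_lit 152) (nat_lit 22501865037) (nat_lit 17) (nat_lit 5) (nat_lit 18) (nat_lit 5) (nat_lit 19) (nat_lit 4) (nat_lit 346) (nat_lit 302) (nat_lit 252)) (XT.lf (nat_lit 0) (nat_lit 34892863147) (nat_lit 152) (nat_lit 4750327270) (nat_lit 0) (nat_lit 6908615772) (nat_lit 17) (nat_lit 5) (nat_lit 19) (nat_lit 4) (nat_lit 17) (nat_lit 4) (nat_lit 347) (nat_lit 302) (nat_lit 251)))) (XT.nd (nat_lit 78) (nat_lit 76) (nat_lit 0) (XT.lf (nat_lit 0) (nat_lit 484643243) (nat_lit 152) (nat_lit 27032475975) (nat_lit 76) (nat_lit 22023107065) (nat_lit 15)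 (nat_lit 5) (nat_lit 17) (nat_lit 5) (nat_lit 16) (nat_lit 4) (nat_lit 348) (nat_lit 302) (nat_lit 250)) (XT.nd (nat_lit 78) (nat_lit 76) (nat_lit 0) (XT.lf (nat_lit 0) (nat_lit 13240196788) (nat_lit 152) (nat_lit 922246070) (nat_lit 76) (nat_lit 38593281478) (nat_lit 15) (nat_lit 5) (nat_lit 17) (nat_lit 5) (nat_lit 16) (nat_lit 4) (nat_lit 349) (nat_lit 302) (nat_lit 249)) (XT.lf (nat_lit 0) (nat_lit 27428130766) (nat_lit 152) (nat_lit 28113936559) (nat_lit 0) (nat_lit 665805979) (nat_lit 14) (nat_lit 5) (nat_lit 16) (nat_lit 4) (nat_lit 14) (nat_lit 4) (nat_lit 350) (nat_lit 302) (nat_lit 248)))))) (XT.nd (nat_lit 468) (nat_lit 228) (nat_lit 0) (XT.nd (nat_lit 234) (nat_lit 152) (nat_lit 0) (XT.nd (nat_lit 78) (nat_lit 152) (nat_lit 0) (XT.lf (nat_lit 0) (nat_lit 42969849672) (nat_lit 152) (nat_lit 779451621) (nat_lit 0) (nat_lit 16175962681) (nat_lit 14) (nat_lit 5) (nat_lit 16) (nat_lit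 4) (nat_lit 14) (nat_lit 4) (nat_lit 351) (nat_lit 302) (nat_lit 247)) (XT.nd (nat_lit 78) (nat_lit 76) (nat_lit 0) (XT.lf (nat_lit 0) (nat_lit 29625799032) (nat_lit 76) (nat_lit 30557961086) (nat_lit 76) (nat_lit 3734849832) (nat_lit 13) (nat_lit 4) (nat_lit 14) (nat_lit 5) (nat_lit 14) (nat_lit 4) (nat_lit 352) (nat_lit 302) (nat_lit 246)) (XT.lf (nat_lit 0) (nat_lit 10187022272) (nat_lit 152) (nat_lit 5966775098) (nat_lit 76) (nat_lit 52070345829) (nat_lit 12) (nat_lit 5) (nat_lit 14) (nat_lit 5) (nat_lit 13) (nat_lit 4) (nat_lit 353) (nat_lit 302) (nat_lit 245)))) (XT.nd (nat_lit 78) (nat_lit 76) (nat_lit 0) (XT.lf (nat_lit 0) (nat_lit 25314726063) (nat_lit 76) (nat_lit 143787065) (nat_lit 152) (nat_lit 47394214144) (nat_lit 11) (nat_lit 5) (nat_lit 12) (nat_lit 5) (nat_lit 13) (nat_lit 4) (nat_lit 354) (nat_lit 302) (nat_lit 244)) (XT.nd (nat_lit 78) (nat_lit 76) (nat_lit 0) (XT.lf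 (nat_lit 0) (nat_lit 42295778585) (nat_lit 152) (nat_lit 18860390873) (nat_lit 0) (nat_lit 16678230954) (nat_lit 11) (nat_lit 5) (nat_lit 13) (nat_lit 4) (nat_lit 11) (nat_lit 4) (nat_lit 355) (nat_lit 302) (nat_lit 243)) (XT.lf (nat_lit 0) (nat_lit 12455441228) (nat_lit 76) (nat_lit 48194344172) (nat_lit 76) (nat_lit 22556338726) (nat_lit 10) (nat_lit 4) (nat_lit 11) (nat_lit 5) (nat_lit 11) (nat_lit 4) (nat_lit 356) (nat_lit 302) (nat_lit 242))))) (XT.nd (nat_lit 234) (nat_lit 76) (nat_lit 0) (XT.nd (nat_lit 78) (nat_lit 152) (nat_lit 0) (XT.lf (nat_lit 0) (nat_lit 46900093095) (nat_lit 76) (nat_lit 33874656521) (nat_lit 76) (nat_lit 8217708654) (nat_lit 10) (nat_lit 4) (nat_lit 11) (nat_lit 5) (nat_lit 11) (nat_lit 4) (nat_lit 357) (nat_lit 302) (nat_lit 241)) (XT.nd (nat_lit 78) (nat_lit 76) (nat_lit 0) (XT.lf (nat_lit 0) (nat_lit 7011012466) (nat_lit 152) (nat_lit 11301911589) (nat_lit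 76) (nat_lit 76924324130) (nat_lit 9) (nat_lit 5) (nat_lit 11) (nat_lit 5) (nat_lit 10) (nat_lit 4) (nat_lit 358) (nat_lit 302) (nat_lit 240)) (XT.lf (nat_lit 0) (nat_lit 22489445483) (nat_lit 76) (nat_lit 1013077786) (nat_lit 152) (nat_lit 78455745749) (nat_lit 8) (nat_lit 5) (nat_lit 9) (nat_lit 5) (nat_lit 10) (nat_lit 4) (nat_lit 359) (nat_lit 302) (nat_lit 239)))) (XT.nd (nat_lit 78) (nat_lit 76) (nat_lit 0) (XT.lf (nat_lit 0) (nat_lit 41767479620) (nat_lit 152) (nat_lit 50140989659) (nat_lit 0) (nat_lit 17285799312) (nat_lit 8) (nat_lit 5) (nat_lit 10) (nat_lit 4) (nat_lit 8) (nat_lit 4) (nat_lit 360) (nat_lit 302) (nat_lit 238)) (XT.nd (nat_lit 78) (nat_lit 76) (nat_lit 0) (XT.lf (nat_lit 0) (nat_lit 61490469673) (nat_lit 152) (nat_lit 18523310532) (nat_lit 0) (nat_lit 36995529131) (nat_lit 8) (nat_lit 5) (nat_lit 10) (nat_lit 4) (nat_lit 8) (nat_lit 4) (nat_lit 361) (nat_lit 302)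 (nat_lit 237)) (XT.lf (nat_lit 0) (nat_lit 16102784522) (nat_lit 76) (nat_lit 66921178494) (nat_lit 76) (nat_lit 42413959959) (nat_lit 7) (nat_lit 4) (nat_lit 8) (nat_lit 5) (nat_lit 8) (nat_lit 4) (nat_lit 362) (nat_lit 302) (nat_lit 236))))))))
noncomputable def xc52 : XT := (XT.nd (nat_lit 1794) (nat_lit 0) (nat_lit 0) (XT.nd (nat_lit 858) (nat_lit 152) (nat_lit 0) (XT.nd (nat_lit 390) (nat_lit 76) (nat_lit 0) (XT.nd (nat_lit 156) (nat_lit 152) (nat_lit 0) (XT.nd (nat_lit 78) (nat_lit 0) (nat_lit 0) (XT.lf (nat_lit 0) (nat_lit 54125621936) (nat_lit 76) (nat_lit 52459277628) (nat_lit 76) (nat_lit 27940690580) (nat_lit 7) (nat_lit 4) (nat_lit 8) (nat_lit 5) (nat_lit 8) (nat_lit 4) (nat_lit 363) (nat_lit 302) (nat_lit 235)) (XT.lf (nat_lit 0) (nat_lit 95158057926) (nat_lit 76) (nat_lit 36856078681) (nat_lit 76) (nat_lit 12326965233) (nat_lit 7) (nat_lit 4) (nat_lit 8) (nat_lit 5) (nat_lit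 8) (nat_lit 4) (nat_lit 364) (nat_lit 302) (nat_lit 234))) (XT.nd (nat_lit 78) (nat_lit 76) (nat_lit 0) (XT.lf (nat_lit 0) (nat_lit 4375081896) (nat_lit 152) (nat_lit 15569942228) (nat_lit 76) (nat_lit 134994071645) (nat_lit 6) (nat_lit 5) (nat_lit 8) (nat_lit 5) (nat_lit 7) (nat_lit 4) (nat_lit 365) (nat_lit 302) (nat_lit 233)) (XT.nd (nat_lit 78) (nat_lit 0) (nat_lit 0) (XT.lf (nat_lit 0) (nat_lit 21173940500) (nat_lit 76) (nat_lit 1129388918) (nat_lit 152) (nat_lit 144055402038) (nat_lit 5) (nat_lit 5) (nat_lit 6) (nat_lit 5) (nat_lit 7) (nat_lit 4) (nat_lit 366) (nat_lit 302) (nat_lit 232)) (XT.lf (nat_lit 0) (nat_lit 42227135229) (nat_lit 152) (nat_lit 117596500650) (nat_lit 0) (nat_lit 18840239035) (nat_lit 5) (nat_lit 5) (nat_lit 7) (nat_lit 4) (nat_lit 5) (nat_lit 4) (nat_lit 367) (nat_lit 302) (nat_lit 231))))) (XT.nd (nat_lit 234) (nat_lit 76) (nat_lit 0) (XT.nd (nat_lit 78) (nat_lit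 0) (nat_lit 0) (XT.lf (nat_lit 0) (nat_lit 63750926919) (nat_lit 152) (nat_lit 87845538616) (nat_lit 0) (nat_lit 40356661944) (nat_lit 5) (nat_lit 5) (nat_lit 7) (nat_lit 4) (nat_lit 5) (nat_lit 4) (nat_lit 368) (nat_lit 302) (nat_lit 230)) (XT.nd (nat_lit 78) (nat_lit 0) (nat_lit 0) (XT.lf (nat_lit 0) (nat_lit 86984619956) (nat_lit 152) (nat_lit 55737969934) (nat_lit 0) (nat_lit 63583532037) (nat_lit 5) (nat_lit 5) (nat_lit 7) (nat_lit 4) (nat_lit 5) (nat_lit 4) (nat_lit 369) (nat_lit 302) (nat_lit 229)) (XT.lf (nat_lit 0) (nat_lit 112065895484) (nat_lit 152) (nat_lit 21083527528) (nat_lit 0) (nat_lit 88658490025) (nat_lit 5) (nat_lit 5) (nat_lit 7) (nat_lit 4) (nat_lit 5) (nat_lit 4) (nat_lit 370) (nat_lit 302) (nat_lit 228)))) (XT.nd (nat_lit 78) (nat_lit 0) (nat_lit 0) (XT.lf (nat_lit 0) (nat_lit 16862865257) (nat_lit 76) (nat_lit 122543794613) (nat_lit 76) (nat_lit 99130539579) (nat_lit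 4) (nat_lit 4) (nat_lit 5) (nat_lit 5) (nat_lit 5) (nat_lit 4) (nat_lit 371) (nat_lit 302) (nat_lit 227)) (XT.nd (nat_lit 78) (nat_lit 0) (nat_lit 0) (XT.lf (nat_lit 0) (nat_lit 58578607900) (nat_lit 76) (nat_lit 110713510881) (nat_lit 76) (nat_lit 87294839574) (nat_lit 4) (nat_lit 4) (nat_lit 5) (nat_lit 5) (nat_lit 5) (nat_lit 4) (nat_lit 372) (nat_lit 302) (nat_lit 226)) (XT.lf (nat_lit 0) (nat_lit 103613788166) (nat_lit 76) (nat_lit 97945526173) (nat_lit 76) (nat_lit 74521839798) (nat_lit 4) (nat_lit 4) (nat_lit 5) (nat_lit 5) (nat_lit 5) (nat_lit 4) (nat_lit 373) (nat_lit 302) (nat_lit 225)))))) (XT.nd (nat_lit 468) (nat_lit 0) (nat_lit 0) (XT.nd (nat_lit 234) (nat_lit 152) (nat_lit 0) (XT.nd (nat_lit 78) (nat_lit 0) (nat_lit 0) (XT.lf (nat_lit 0) (nat_lit 152235281195) (nat_lit 76) (nat_lit 84164178358) (nat_lit 76) (nat_lit 60735848401) (nat_lit 4) (nat_lit 4) (nat_lit 5) (nat_lit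 5) (nat_lit 5) (nat_lit 4) (nat_lit 374) (nat_lit 302) (nat_lit 224)) (XT.nd (nat_lit 78) (nat_lit 0) (nat_lit 0) (XT.lf (nat_lit 0) (nat_lit 204731214355) (nat_lit 76) (nat_lit 69287800188) (nat_lit 76) (nat_lit 45855170619) (nat_lit 4) (nat_lit 4) (nat_lit 5) (nat_lit 5) (nat_lit 5) (nat_lit 4) (nat_lit 375) (nat_lit 302) (nat_lit 223)) (XT.lf (nat_lit 0) (nat_lit 261412674657) (nat_lit 76) (nat_lit 53228235348) (nat_lit 76) (nat_lit 29791624657) (nat_lit 4) (nat_lit 4) (nat_lit 5) (nat_lit 5) (nat_lit 5) (nat_lit 4) (nat_lit 376) (nat_lit 302) (nat_lit 222)))) (XT.nd (nat_lit 78) (nat_lit 152) (nat_lit 0) (XT.lf (nat_lit 0) (nat_lit 322615552236) (nat_lit 76) (nat_lit 35890316048) (nat_lit 76) (nat_lit 12450019133) (nat_lit 4) (nat_lit 4) (nat_lit 5) (nat_lit 5) (nat_lit 5) (nat_lit 4) (nat_lit 377) (nat_lit 302) (nat_lit 221)) (XT.nd (nat_lit 78) (nat_lit 76) (nat_lit 0) (XT.lf (nat_lit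 0) (nat_lit 6071654699) (nat_lit 152) (nat_lit 10996817952) (nat_lit 76) (nat_lit 382528049701) (nat_lit 3) (nat_lit 5) (nat_lit 5) (nat_lit 5) (nat_lit 4) (nat_lit 4) (nat_lit 378) (nat_lit 302) (nat_lit 220)) (XT.lf (nat_lit 0) (nat_lit 26170374045) (nat_lit 152) (nat_lit 400481233563) (nat_lit 0) (nat_lit 3840021255) (nat_lit 2) (nat_lit 5) (nat_lit 4) (nat_lit 4) (nat_lit 2) (nat_lit 4) (nat_lit 379) (nat_lit 302) (nat_lit 219))))) (XT.nd (nat_lit 234) (nat_lit 0) (nat_lit 0) (XT.nd (nat_lit 78) (nat_lit 0) (nat_lit 0) (XT.lf (nat_lit 0) (nat_lit 48353842534) (nat_lit 152) (nat_lit 389459956579) (nat_lit 0) (nat_lit 26020702845) (nat_lit 2) (nat_lit 5) (nat_lit 4) (nat_lit 4) (nat_lit 2) (nat_lit 4) (nat_lit 380) (nat_lit 302) (nat_lit 218)) (XT.nd (nat_lit 78) (nat_lit 0) (nat_lit 0) (XT.lf (nat_lit 0) (nat_lit 72306755361) (nat_lit 152) (nat_lit 377567276583) (nat_lit 0) (nat_lit 49971035210)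 (nat_lit 2) (nat_lit 5) (nat_lit 4) (nat_lit 4) (nat_lit 2) (nat_lit 4) (nat_lit 381) (nat_lit 302) (nat_lit 217)) (XT.lf (nat_lit 0) (nat_lit 98171055713) (nat_lit 152) (nat_lit 364732718435) (nat_lit 0) (nat_lit 75832946245) (nat_lit 2) (nat_lit 5) (nat_lit 4) (nat_lit 4) (nat_lit 2) (nat_lit 4) (nat_lit 382) (nat_lit 302) (nat_lit 216)))) (XT.nd (nat_lit 78) (nat_lit 0) (nat_lit 0) (XT.lf (nat_lit 0) (nat_lit 126100013518) (nat_lit 152) (nat_lit 350880225495) (nat_lit 0) (nat_lit 103759691720) (nat_lit 2) (nat_lit 5) (nat_lit 4) (nat_lit 4) (nat_lit 2) (nat_lit 4) (nat_lit 383) (nat_lit 302) (nat_lit 215)) (XT.nd (nat_lit 78) (nat_lit 0) (nat_lit 0) (XT.lf (nat_lit 0) (nat_lit 156259133710) (nat_lit 152) (nat_lit 335927708915) (nat_lit 0) (nat_lit 133916763459) (nat_lit 2) (nat_lit 5) (nat_lit 4) (nat_lit 4) (nat_lit 2) (nat_lit 4) (nat_lit 384) (nat_lit 302) (nat_lit 214)) (XT.lf (nat_lit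 0) (nat_lit 188827137003) (nat_lit 152) (nat_lit 319786561189) (nat_lit 0) (nat_lit 166482870035) (nat_lit 2) (nat_lit 5) (nat_lit 4) (nat_lit 4) (nat_lit 2) (nat_lit 4) (nat_lit 385) (nat_lit 302) (nat_lit 213))))))) (XT.nd (nat_lit 40716) (nat_lit 0) (nat_lit 5396) (XT.nd (nat_lit 390) (nat_lit 0) (nat_lit 0) (XT.nd (nat_lit 156) (nat_lit 0) (nat_lit 0) (XT.nd (nat_lit 78) (nat_lit 0) (nat_lit 0) (XT.lf (nat_lit 0) (nat_lit 223997018971) (nat_lit 152) (nat_lit 302361131072) (nat_lit 0) (nat_lit 201650995784) (nat_lit 2) (nat_lit 5) (nat_lit 4) (nat_lit 4) (nat_lit 2) (nat_lit 4) (nat_lit 386) (nat_lit 302) (nat_lit 212)) (XT.lf (nat_lit 0) (nat_lit 261977193730) (nat_lit 152) (nat_lit 283548156755) (nat_lit 0) (nat_lit 239629544414) (nat_lit 2) (nat_lit 5) (nat_lit 4) (nat_lit 4) (nat_lit 2) (nat_lit 4) (nat_lit 387) (nat_lit 302) (nat_lit 211))) (XT.nd (nat_lit 78) (nat_lit 0) (nat_lit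 0) (XT.lf (nat_lit 0) (nat_lit 302992728982) (nat_lit 152) (nat_lit 263236153947) (nat_lit 0) (nat_lit 280643573991) (nat_lit 2) (nat_lit 5) (nat_lit 4) (nat_lit 4) (nat_lit 2) (nat_lit 4) (nat_lit 388) (nat_lit 302) (nat_lit 210)) (XT.nd (nat_lit 78) (nat_lit 0) (nat_lit 0) (XT.lf (nat_lit 0) (nat_lit 347286679750) (nat_lit 152) (nat_lit 241304755223) (nat_lit 0) (nat_lit 324936130616) (nat_lit 2) (nat_lit 5) (nat_lit 4) (nat_lit 4) (nat_lit 2) (nat_lit 4) (nat_lit 389) (nat_lit 302) (nat_lit 209)) (XT.lf (nat_lit 0) (nat_lit 395121528706) (nat_lit 152) (nat_lit 217623996738) (nat_lit 0) (nat_lit 372769688699) (nat_lit 2) (nat_lit 5) (nat_lit 4) (nat_lit 4) (nat_lit 2) (nat_lit 4) (nat_lit 390) (nat_lit 302) (nat_lit 208))))) (XT.nd (nat_lit 40092) (nat_lit 0) (nat_lit 10336) (XT.nd (nat_lit 78) (nat_lit 0) (nat_lit 0) (XT.lf (nat_lit 0) (nat_lit 446780741622) (nat_lit 152) (nat_lit 192053548074)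 (nat_lit 0) (nat_lit 424427706361) (nat_lit 2) (nat_lit 5) (nat_lit 4) (nat_lit 4) (nat_lit 2) (nat_lit 4) (nat_lit 391) (nat_lit 302) (nat_lit 207)) (XT.nd (nat_lit 39936) (nat_lit 0) (nat_lit 11096) (XT.lf (nat_lit 0) (nat_lit 502570447166) (nat_lit 152) (nat_lit 164441880644) (nat_lit 0) (nat_lit 480216305189) (nat_lit 2) (nat_lit 5) (nat_lit 4) (nat_lit 4) (nat_lit 2) (nat_lit 4) (nat_lit 392) (nat_lit 302) (nat_lit 206)) (XT.lf (nat_lit 0) (nat_lit 2599566186) (nat_lit 380) (nat_lit 376196434) (nat_lit 380) (nat_lit 376196434) (nat_lit 148) (nat_lit 3) (nat_lit 153) (nat_lit 3) (nat_lit 153) (nat_lit 5) (nat_lit 303) (nat_lit 303) (nat_lit 294)))) (XT.nd (nat_lit 78) (nat_lit 380) (nat_lit 0) (XT.lf (nat_lit 0) (nat_lit 1846409644) (nat_lit 380) (nat_lit 2334794339) (nat_lit 456) (nat_lit 2618947491) (nat_lit 143) (nat_lit 5) (nat_lit 148) (nat_lit 3) (nat_lit 149) (nat_lit 5) (nat_lit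 304) (nat_lit 303) (nat_lit 293)) (XT.nd (nat_lit 78) (nat_lit 380) (nat_lit 0) (XT.lf (nat_lit 76) (nat_lit 3110820963) (nat_lit 0) (nat_lit 2032814221) (nat_lit 456) (nat_lit 1773190408) (nat_lit 144) (nat_lit 5) (nat_lit 143) (nat_lit 5) (nat_lit 149) (nat_lit 5) (nat_lit 305) (nat_lit 303) (nat_lit 292)) (XT.lf (nat_lit 0) (nat_lit 1371629523) (nat_lit 456) (nat_lit 5183983800) (nat_lit 532) (nat_lit 498220618) (nat_lit 138) (nat_lit 5) (nat_lit 144) (nat_lit 5) (nat_lit 145) (nat_lit 5) (nat_lit 306) (nat_lit 303) (nat_lit 291)))))) (XT.nd (nat_lit 468) (nat_lit 2584) (nat_lit 0) (XT.nd (nat_lit 234) (nat_lit 1824) (nat_lit 0) (XT.nd (nat_lit 78) (nat_lit 532) (nat_lit 0) (XT.lf (nat_lit 76) (nat_lit 695628404) (nat_lit 0) (nat_lit 3830270646) (nat_lit 532) (nat_lit 2683866077) (nat_lit 139) (nat_lit 5) (nat_lit 138) (nat_lit 5) (nat_lit 145) (nat_lit 5) (nat_lit 307) (nat_lit 303)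 (nat_lit 290)) (XT.nd (nat_lit 78) (nat_lit 0) (nat_lit 76) (XT.lf (nat_lit 0) (nat_lit 348905435) (nat_lit 532) (nat_lit 352609376) (nat_lit 608) (nat_lit 6685973797) (nat_lit 131) (nat_lit 5) (nat_lit 138) (nat_lit 5) (nat_lit 139) (nat_lit 5) (nat_lit 308) (nat_lit 303) (nat_lit 289)) (XT.lf (nat_lit 0) (nat_lit 3415993611) (nat_lit 532) (nat_lit 1358272947) (nat_lit 76) (nat_lit 2809016147) (nat_lit 132) (nat_lit 5) (nat_lit 139) (nat_lit 5) (nat_lit 133) (nat_lit 5) (nat_lit 309) (nat_lit 303) (nat_lit 288)))) (XT.nd (nat_lit 78) (nat_lit 1368) (nat_lit 0) (XT.lf (nat_lit 0) (nat_lit 5521600858) (nat_lit 532) (nat_lit 1069789122) (nat_lit 608) (nat_lit 1210517046) (nat_lit 125) (nat_lit 5) (nat_lit 132) (nat_lit 5) (nat_lit 133) (nat_lit 5) (nat_lit 310) (nat_lit 303) (nat_lit 287)) (XT.nd (nat_lit 78) (nat_lit 684) (nat_lit 0) (XT.lf (nat_lit 0) (nat_lit 1838129404) (nat_lit 684) (nat_lit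 3192616130) (nat_lit 76) (nat_lit 3010064861) (nat_lit 116) (nat_lit 5) (nat_lit 125) (nat_lit 5) (nat_lit 117) (nat_lit 5) (nat_lit 311) (nat_lit 303) (nat_lit 286)) (XT.lf (nat_lit 0) (nat_lit 4234836882) (nat_lit 684) (nat_lit 762985721) (nat_lit 760) (nat_lit 3304789104) (nat_lit 107) (nat_lit 5) (nat_lit 116) (nat_lit 5) (nat_lit 117) (nat_lit 5) (nat_lit 312) (nat_lit 303) (nat_lit 285))))) (XT.nd (nat_lit 234) (nat_lit 1064) (nat_lit 0) (XT.nd (nat_lit 78) (nat_lit 760) (nat_lit 0) (XT.lf (nat_lit 0) (nat_lit 3648316586) (nat_lit 760) (nat_lit 4733336163) (nat_lit 836) (nat_lit 205373509) (nat_lit 97) (nat_lit 5) (nat_lit 107) (nat_lit 5) (nat_lit 108) (nat_lit 5) (nat_lit 313) (nat_lit 303) (nat_lit 284)) (XT.nd (nat_lit 78) (nat_lit 304) (nat_lit 0) (XT.lf (nat_lit 0) (nat_lit 2982449935) (nat_lit 456) (nat_lit 5818272110) (nat_lit 76) (nat_lit 94177433) (nat_lit 91) (nat_lit 5)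 (nat_lit 97) (nat_lit 5) (nat_lit 92) (nat_lit 5) (nat_lit 314) (nat_lit 303) (nat_lit 283)) (XT.lf (nat_lit 0) (nat_lit 2487007544) (nat_lit 304) (nat_lit 3955219107) (nat_lit 380) (nat_lit 2783995115) (nat_lit 87) (nat_lit 5) (nat_lit 91) (nat_lit 5) (nat_lit 92) (nat_lit 5) (nat_lit 315) (nat_lit 303) (nat_lit 282)))) (XT.nd (nat_lit 78) (nat_lit 608) (nat_lit 0) (XT.lf (nat_lit 0) (nat_lit 556641299) (nat_lit 456) (nat_lit 7662878862) (nat_lit 76) (nat_lit 1365189152) (nat_lit 81) (nat_lit 5) (nat_lit 87) (nat_lit 5) (nat_lit 82) (nat_lit 5) (nat_lit 316) (nat_lit 303) (nat_lit 281)) (XT.nd (nat_lit 78) (nat_lit 304) (nat_lit 0) (XT.lf (nat_lit 0) (nat_lit 1284364335) (nat_lit 304) (nat_lit 2825295347) (nat_lit 380) (nat_lit 5857958931) (nat_lit 77) (nat_lit 5) (nat_lit 81) (nat_lit 5) (nat_lit 82) (nat_lit 5) (nat_lit 317) (nat_lit 303) (nat_lit 280)) (XT.lf (nat_lit 0) (nat_lit 626824320)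 (nat_lit 304) (nat_lit 7356603601) (nat_lit 380) (nat_lit 2396053746) (nat_lit 73) (nat_lit 5) (nat_lit 77) (nat_lit 5) (nat_lit 78) (nat_lit 5) (nat_lit 318) (nat_lit 303) (nat_lit 279))))))))
noncomputable def xc53 : XT := (XT.nd (nat_lit 1794) (nat_lit 1216) (nat_lit 0) (XT.nd (nat_lit 858) (nat_lit 1368) (nat_lit 0) (XT.nd (nat_lit 390) (nat_lit 1292) (nat_lit 0) (XT.nd (nat_lit 156) (nat_lit 836) (nat_lit 0) (XT.nd (nat_lit 78) (nat_lit 228) (nat_lit 0) (XT.lf (nat_lit 0) (nat_lit 1351556191) (nat_lit 380) (nat_lit 83560725) (nat_lit 76) (nat_lit 9385671207) (nat_lit 72) (nat_lit 5) (nat_lit 77) (nat_lit 5) (nat_lit 73) (nat_lit 5) (nat_lit 319) (nat_lit 303) (nat_lit 278)) (XT.lf (nat_lit 0) (nat_lit 5421457860) (nat_lit 304) (nat_lit 894020914) (nat_lit 76) (nat_lit 4974754456) (nat_lit 69) (nat_lit 5) (nat_lit 73) (nat_lit 5) (nat_lit 70) (nat_lit 5) (nat_lit 320) (nat_lit 303) (nat_lit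 277))) (XT.nd (nat_lit 78) (nat_lit 532) (nat_lit 0) (XT.lf (nat_lit 0) (nat_lit 9870792497) (nat_lit 380) (nat_lit 1752278575) (nat_lit 76) (nat_lit 171581539) (nat_lit 65) (nat_lit 5) (nat_lit 70) (nat_lit 5) (nat_lit 66) (nat_lit 5) (nat_lit 321) (nat_lit 303) (nat_lit 276)) (XT.nd (nat_lit 78) (nat_lit 228) (nat_lit 0) (XT.lf (nat_lit 0) (nat_lit 2411096098) (nat_lit 304) (nat_lit 2794755990) (nat_lit 76) (nat_lit 7124385241) (nat_lit 61) (nat_lit 5) (nat_lit 65) (nat_lit 5) (nat_lit 62) (nat_lit 5) (nat_lit 322) (nat_lit 303) (nat_lit 275)) (XT.lf (nat_lit 0) (nat_lit 7106702751) (nat_lit 304) (nat_lit 3965381303) (nat_lit 76) (nat_lit 1831035399) (nat_lit 58) (nat_lit 5) (nat_lit 62) (nat_lit 5) (nat_lit 59) (nat_lit 5) (nat_lit 323) (nat_lit 303) (nat_lit 274))))) (XT.nd (nat_lit 234) (nat_lit 608) (nat_lit 0) (XT.nd (nat_lit 78) (nat_lit 456) (nat_lit 0) (XT.lf (nat_lit 0) (nat_lit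 8198191492) (nat_lit 228) (nat_lit 4130488711) (nat_lit 304) (nat_lit 1185699527) (nat_lit 55) (nat_lit 5) (nat_lit 58) (nat_lit 5) (nat_lit 59) (nat_lit 5) (nat_lit 324) (nat_lit 303) (nat_lit 273)) (XT.nd (nat_lit 78) (nat_lit 152) (nat_lit 0) (XT.lf (nat_lit 0) (nat_lit 3802295428) (nat_lit 304) (nat_lit 6905906252) (nat_lit 76) (nat_lit 3456958899) (nat_lit 51) (nat_lit 5) (nat_lit 55) (nat_lit 5) (nat_lit 52) (nat_lit 5) (nat_lit 325) (nat_lit 303) (nat_lit 272)) (XT.lf (nat_lit 0) (nat_lit 6112764027) (nat_lit 152) (nat_lit 3189407650) (nat_lit 228) (nat_lit 5557209532) (nat_lit 49) (nat_lit 5) (nat_lit 51) (nat_lit 5) (nat_lit 52) (nat_lit 5) (nat_lit 326) (nat_lit 303) (nat_lit 271)))) (XT.nd (nat_lit 78) (nat_lit 380) (nat_lit 0) (XT.lf (nat_lit 0) (nat_lit 4732665693) (nat_lit 228) (nat_lit 10681755486) (nat_lit 304) (nat_lit 186162431) (nat_lit 46) (nat_lit 5) (nat_lit 49) (nat_lit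 5) (nat_lit 50) (nat_lit 5) (nat_lit 327) (nat_lit 303) (nat_lit 270)) (XT.nd (nat_lit 78) (nat_lit 152) (nat_lit 0) (XT.lf (nat_lit 0) (nat_lit 3008786233) (nat_lit 152) (nat_lit 2584439016) (nat_lit 228) (nat_lit 10795611894) (nat_lit 43) (nat_lit 5) (nat_lit 45) (nat_lit 5) (nat_lit 46) (nat_lit 5) (nat_lit 328) (nat_lit 303) (nat_lit 269)) (XT.lf (nat_lit 0) (nat_lit 930449501) (nat_lit 152) (nat_lit 11108035644) (nat_lit 228) (nat_lit 5191062717) (nat_lit 41) (nat_lit 5) (nat_lit 43) (nat_lit 5) (nat_lit 44) (nat_lit 5) (nat_lit 329) (nat_lit 303) (nat_lit 268)))))) (XT.nd (nat_lit 468) (nat_lit 608) (nat_lit 0) (XT.nd (nat_lit 234) (nat_lit 380) (nat_lit 0) (XT.nd (nat_lit 78) (nat_lit 304) (nat_lit 0) (XT.lf (nat_lit 0) (nat_lit 1024730518) (nat_lit 228) (nat_lit 1469569507) (nat_lit 76) (nat_lit 15633064944) (nat_lit 40) (nat_lit 5) (nat_lit 43) (nat_lit 5) (nat_lit 41) (nat_lit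 5) (nat_lit 330) (nat_lit 303) (nat_lit 267)) (XT.nd (nat_lit 78) (nat_lit 152) (nat_lit 0) (XT.lf (nat_lit 0) (nat_lit 7816735810) (nat_lit 228) (nat_lit 4399207624) (nat_lit 76) (nat_lit 6863810319) (nat_lit 38) (nat_lit 5) (nat_lit 41) (nat_lit 5) (nat_lit 39) (nat_lit 5) (nat_lit 331) (nat_lit 303) (nat_lit 266)) (XT.lf (nat_lit 0) (nat_lit 12285933934) (nat_lit 152) (nat_lit 3046083019) (nat_lit 228) (nat_lit 4767359979) (nat_lit 36) (nat_lit 5) (nat_lit 38) (nat_lit 5) (nat_lit 39) (nat_lit 5) (nat_lit 332) (nat_lit 303) (nat_lit 265)))) (XT.nd (nat_lit 78) (nat_lit 228) (nat_lit 0) (XT.lf (nat_lit 0) (nat_lit 2433847984) (nat_lit 152) (nat_lit 11900927854) (nat_lit 76) (nat_lit 6851181440) (nat_lit 34) (nat_lit 5) (nat_lit 36) (nat_lit 5) (nat_lit 35) (nat_lit 5) (nat_lit 333) (nat_lit 303) (nat_lit 264)) (XT.nd (nat_lit 78) (nat_lit 76) (nat_lit 0) (XT.lf (nat_lit 0) (nat_lit 5595852272)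 (nat_lit 152) (nat_lit 4653253319) (nat_lit 228) (nat_lit 12096233781) (nat_lit 32) (nat_lit 5) (nat_lit 34) (nat_lit 5) (nat_lit 35) (nat_lit 5) (nat_lit 334) (nat_lit 303) (nat_lit 263)) (XT.lf (nat_lit 0) (nat_lit 1148758497) (nat_lit 76) (nat_lit 17788558485) (nat_lit 152) (nat_lit 4647797924) (nat_lit 31) (nat_lit 5) (nat_lit 32) (nat_lit 5) (nat_lit 33) (nat_lit 4) (nat_lit 335) (nat_lit 303) (nat_lit 262))))) (XT.nd (nat_lit 234) (nat_lit 304) (nat_lit 0) (XT.nd (nat_lit 78) (nat_lit 228) (nat_lit 0) (XT.lf (nat_lit 0) (nat_lit 3593607548) (nat_lit 152) (nat_lit 4089949382) (nat_lit 76) (nat_lit 17222599922) (nat_lit 30) (nat_lit 5) (nat_lit 32) (nat_lit 5) (nat_lit 31) (nat_lit 5) (nat_lit 336) (nat_lit 303) (nat_lit 261)) (XT.nd (nat_lit 78) (nat_lit 76) (nat_lit 0) (XT.lf (nat_lit 0) (nat_lit 12575195988) (nat_lit 228) (nat_lit 10327518857) (nat_lit 76) (nat_lit 3414196415) (nat_lit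 28) (nat_lit 5) (nat_lit 31) (nat_lit 5) (nat_lit 29) (nat_lit 4) (nat_lit 337) (nat_lit 303) (nat_lit 260)) (XT.lf (nat_lit 0) (nat_lit 10065943657) (nat_lit 76) (nat_lit 12506764571) (nat_lit 152) (nat_lit 5252970282) (nat_lit 27) (nat_lit 5) (nat_lit 28) (nat_lit 5) (nat_lit 29) (nat_lit 4) (nat_lit 338) (nat_lit 303) (nat_lit 259)))) (XT.nd (nat_lit 78) (nat_lit 76) (nat_lit 0) (XT.lf (nat_lit 0) (nat_lit 2936538282) (nat_lit 152) (nat_lit 1021950152) (nat_lit 228) (nat_lit 25485176562) (nat_lit 24) (nat_lit 5) (nat_lit 26) (nat_lit 5) (nat_lit 27) (nat_lit 5) (nat_lit 339) (nat_lit 303) (nat_lit 258)) (XT.nd (nat_lit 78) (nat_lit 76) (nat_lit 0) (XT.lf (nat_lit 0) (nat_lit 14159763310) (nat_lit 228) (nat_lit 5628674044) (nat_lit 76) (nat_lit 11376518664) (nat_lit 24) (nat_lit 5) (nat_lit 27) (nat_lit 5) (nat_lit 25) (nat_lit 4) (nat_lit 340) (nat_lit 303) (nat_lit 257)) (XT.lf (nat_lit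 0) (nat_lit 17361830423) (nat_lit 76) (nat_lit 8050222835) (nat_lit 152) (nat_lit 7600168291) (nat_lit 23) (nat_lit 5) (nat_lit 24) (nat_lit 5) (nat_lit 25) (nat_lit 4) (nat_lit 341) (nat_lit 303) (nat_lit 256))))))) (XT.nd (nat_lit 936) (nat_lit 456) (nat_lit 0) (XT.nd (nat_lit 468) (nat_lit 304) (nat_lit 0) (XT.nd (nat_lit 234) (nat_lit 228) (nat_lit 0) (XT.nd (nat_lit 78) (nat_lit 76) (nat_lit 0) (XT.lf (nat_lit 0) (nat_lit 2716132837) (nat_lit 152) (nat_lit 27578487632) (nat_lit 76) (nat_lit 4698630291) (nat_lit 21) (nat_lit 5) (nat_lit 23) (nat_lit 5) (nat_lit 22) (nat_lit 4) (nat_lit 342) (nat_lit 303) (nat_lit 255)) (XT.nd (nat_lit 78) (nat_lit 76) (nat_lit 0) (XT.lf (nat_lit 0) (nat_lit 13957918566) (nat_lit 152) (nat_lit 4595445221) (nat_lit 76) (nat_lit 18554859987) (nat_lit 21) (nat_lit 5) (nat_lit 23) (nat_lit 5) (nat_lit 22) (nat_lit 4) (nat_lit 343) (nat_lit 303) (nat_lit 254))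 (XT.lf (nat_lit 0) (nat_lit 20807056821) (nat_lit 76) (nat_lit 5570609053) (nat_lit 152) (nat_lit 13000810582) (nat_lit 20) (nat_lit 5) (nat_lit 21) (nat_lit 5) (nat_lit 22) (nat_lit 4) (nat_lit 344) (nat_lit 303) (nat_lit 253)))) (XT.nd (nat_lit 78) (nat_lit 152) (nat_lit 0) (XT.lf (nat_lit 0) (nat_lit 6573585099) (nat_lit 76) (nat_lit 33488674626) (nat_lit 76) (nat_lit 1754538104) (nat_lit 19) (nat_lit 4) (nat_lit 20) (nat_lit 5) (nat_lit 20) (nat_lit 4) (nat_lit 345) (nat_lit 303) (nat_lit 252)) (XT.nd (nat_lit 78) (nat_lit 76) (nat_lit 0) (XT.lf (nat_lit 0) (nat_lit 10438273111) (nat_lit 152) (nat_lit 10383018026) (nat_lit 76) (nat_lit 23601820835) (nat_lit 18) (nat_lit 5) (nat_lit 20) (nat_lit 5) (nat_lit 19) (nat_lit 4) (nat_lit 346) (nat_lit 303) (nat_lit 251)) (XT.lf (nat_lit 0) (nat_lit 16902480967) (nat_lit 76) (nat_lit 6867174391) (nat_lit 152) (nat_lit 23455616560) (nat_lit 17)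 (nat_lit 5) (nat_lit 18) (nat_lit 5) (nat_lit 19) (nat_lit 4) (nat_lit 347) (nat_lit 303) (nat_lit 250))))) (XT.nd (nat_lit 234) (nat_lit 76) (nat_lit 0) (XT.nd (nat_lit 78) (nat_lit 228) (nat_lit 0) (XT.lf (nat_lit 0) (nat_lit 38440684499) (nat_lit 152) (nat_lit 3705064089) (nat_lit 0) (nat_lit 8092208190) (nat_lit 17) (nat_lit 5) (nat_lit 19) (nat_lit 4) (nat_lit 17) (nat_lit 4) (nat_lit 348) (nat_lit 303) (nat_lit 249)) (XT.nd (nat_lit 78) (nat_lit 76) (nat_lit 0) (XT.lf (nat_lit 0) (nat_lit 1257050153) (nat_lit 152) (nat_lit 27807315033) (nat_lit 76) (nat_lit 24402243732) (nat_lit 15) (nat_lit 5) (nat_lit 17) (nat_lit 5) (nat_lit 16) (nat_lit 4) (nat_lit 349) (nat_lit 303) (nat_lit 248)) (XT.lf (nat_lit 0) (nat_lit 298489838) (nat_lit 76) (nat_lit 14684875039) (nat_lit 152) (nat_lit 41958477479) (nat_lit 14) (nat_lit 5) (nat_lit 15) (nat_lit 5) (nat_lit 16) (nat_lit 4) (nat_lit 350)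 (nat_lit 303) (nat_lit 247)))) (XT.nd (nat_lit 78) (nat_lit 76) (nat_lit 0) (XT.lf (nat_lit 0) (nat_lit 30279615710) (nat_lit 152) (nat_lit 29110462673) (nat_lit 0) (nat_lit 1281431293) (nat_lit 14) (nat_lit 5) (nat_lit 16) (nat_lit 4) (nat_lit 14) (nat_lit 4) (nat_lit 351) (nat_lit 303) (nat_lit 246)) (XT.nd (nat_lit 78) (nat_lit 0) (nat_lit 0) (XT.lf (nat_lit 0) (nat_lit 328511110) (nat_lit 76) (nat_lit 46692605961) (nat_lit 76) (nat_lit 17667362042) (nat_lit 13) (nat_lit 4) (nat_lit 14) (nat_lit 5) (nat_lit 14) (nat_lit 4) (nat_lit 352) (nat_lit 303) (nat_lit 245)) (XT.lf (nat_lit 0) (nat_lit 33105263721) (nat_lit 76) (nat_lit 32473990697) (nat_lit 76) (nat_lit 3423691683) (nat_lit 13) (nat_lit 4) (nat_lit 14) (nat_lit 5) (nat_lit 14) (nat_lit 4) (nat_lit 353) (nat_lit 303) (nat_lit 244)))))) (XT.nd (nat_lit 468) (nat_lit 152) (nat_lit 0) (XT.nd (nat_lit 234) (nat_lit 152) (nat_lit 0)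 (XT.nd (nat_lit 78) (nat_lit 76) (nat_lit 0) (XT.lf (nat_lit 0) (nat_lit 11548672989) (nat_lit 152) (nat_lit 5398718547) (nat_lit 76) (nat_lit 56707249050) (nat_lit 12) (nat_lit 5) (nat_lit 14) (nat_lit 5) (nat_lit 13) (nat_lit 4) (nat_lit 354) (nat_lit 303) (nat_lit 243)) (XT.nd (nat_lit 78) (nat_lit 0) (nat_lit 0) (XT.lf (nat_lit 0) (nat_lit 28022040844) (nat_lit 152) (nat_lit 50319932888) (nat_lit 0) (nat_lit 312537147) (nat_lit 11) (nat_lit 5) (nat_lit 13) (nat_lit 4) (nat_lit 11) (nat_lit 4) (nat_lit 355) (nat_lit 303) (nat_lit 242)) (XT.lf (nat_lit 0) (nat_lit 46169506777) (nat_lit 152) (nat_lit 19425996305) (nat_lit 0) (nat_lit 18441060659) (nat_lit 11) (nat_lit 5) (nat_lit 13) (nat_lit 4) (nat_lit 11) (nat_lit 4) (nat_lit 356) (nat_lit 303) (nat_lit 241)))) (XT.nd (nat_lit 78) (nat_lit 76) (nat_lit 0) (XT.lf (nat_lit 0) (nat_lit 14354110919) (nat_lit 76) (nat_lit 51615508447) (nat_lit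 76) (nat_lit 23869523050) (nat_lit 10) (nat_lit 4) (nat_lit 11) (nat_lit 5) (nat_lit 11) (nat_lit 4) (nat_lit 357) (nat_lit 303) (nat_lit 240)) (XT.nd (nat_lit 78) (nat_lit 76) (nat_lit 0) (XT.lf (nat_lit 0) (nat_lit 51487502759) (nat_lit 76) (nat_lit 36182422322) (nat_lit 76) (nat_lit 8420196852) (nat_lit 10) (nat_lit 4) (nat_lit 11) (nat_lit 5) (nat_lit 11) (nat_lit 4) (nat_lit 358) (nat_lit 303) (nat_lit 239)) (XT.lf (nat_lit 0) (nat_lit 7979641557) (nat_lit 152) (nat_lit 11418997380) (nat_lit 76) (nat_lit 83437137126) (nat_lit 9) (nat_lit 5) (nat_lit 11) (nat_lit 5) (nat_lit 10) (nat_lit 4) (nat_lit 359) (nat_lit 303) (nat_lit 238))))) (XT.nd (nat_lit 234) (nat_lit 76) (nat_lit 0) (XT.nd (nat_lit 78) (nat_lit 0) (nat_lit 0) (XT.lf (nat_lit 0) (nat_lit 25041463278) (nat_lit 76) (nat_lit 730560671) (nat_lit 152) (nat_lit 84323381859) (nat_lit 8) (nat_lit 5) (nat_lit 9) (nat_lit 5) (nat_lit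 10) (nat_lit 4) (nat_lit 360) (nat_lit 303) (nat_lit 237)) (XT.nd (nat_lit 78) (nat_lit 0) (nat_lit 0) (XT.lf (nat_lit 0) (nat_lit 45474595639) (nat_lit 152) (nat_lit 53442351569) (nat_lit 0) (nat_lit 18994521628) (nat_lit 8) (nat_lit 5) (nat_lit 10) (nat_lit 4) (nat_lit 8) (nat_lit 4) (nat_lit 361) (nat_lit 303) (nat_lit 236)) (XT.lf (nat_lit 0) (nat_lit 66748334700) (nat_lit 152) (nat_lit 19347844576) (nat_lit 0) (nat_lit 40256892176) (nat_lit 8) (nat_lit 5) (nat_lit 10) (nat_lit 4) (nat_lit 8) (nat_lit 4) (nat_lit 362) (nat_lit 303) (nat_lit 235)))) (XT.nd (nat_lit 78) (nat_lit 0) (nat_lit 0) (XT.lf (nat_lit 0) (nat_lit 18019771287) (nat_lit 76) (nat_lit 71969469476) (nat_lit 76) (nat_lit 45467500551) (nat_lit 7) (nat_lit 4) (nat_lit 8) (nat_lit 5) (nat_lit 8) (nat_lit 4) (nat_lit 363) (nat_lit 303) (nat_lit 234)) (XT.nd (nat_lit 78) (nat_lit 0) (nat_lit 0) (XT.lf (nat_lit 0) (nat_lit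 59037860583) (nat_lit 76) (nat_lit 56373239008) (nat_lit 76) (nat_lit 29861523415) (nat_lit 7) (nat_lit 4) (nat_lit 8) (nat_lit 5) (nat_lit 8) (nat_lit 4) (nat_lit 364) (nat_lit 303) (nat_lit 233)) (XT.lf (nat_lit 0) (nat_lit 103309766350) (nat_lit 76) (nat_lit 39542730874) (nat_lit 76) (nat_lit 13021990589) (nat_lit 7) (nat_lit 4) (nat_lit 8) (nat_lit 5) (nat_lit 8) (nat_lit 4) (nat_lit 365) (nat_lit 303) (nat_lit 232))))))))
noncomputable def xc54 : XT := (XT.nd (nat_lit 1794) (nat_lit 0) (nat_lit 0) (XT.nd (nat_lit 858) (nat_lit 152) (nat_lit 0) (XT.nd (nat_lit 390) (nat_lit 76) (nat_lit 0) (XT.nd (nat_lit 156) (nat_lit 0) (nat_lit 0) (XT.nd (nat_lit 78) (nat_lit 76) (nat_lit 0) (XT.lf (nat_lit 0) (nat_lit 4986027174) (nat_lit 152) (nat_lit 16307740772) (nat_lit 76) (nat_lit 146027372665) (nat_lit 6) (nat_lit 5) (nat_lit 8) (nat_lit 5) (nat_lit 7) (nat_lit 4) (nat_lit 366) (nat_lit 303)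 (nat_lit 231)) (XT.lf (nat_lit 0) (nat_lit 23353584343) (nat_lit 76) (nat_lit 983204946) (nat_lit 152) (nat_lit 155318147784) (nat_lit 5) (nat_lit 5) (nat_lit 6) (nat_lit 5) (nat_lit 7) (nat_lit 4) (nat_lit 367) (nat_lit 303) (nat_lit 230))) (XT.nd (nat_lit 78) (nat_lit 0) (nat_lit 0) (XT.lf (nat_lit 0) (nat_lit 45839460207) (nat_lit 152) (nat_lit 126546323917) (nat_lit 0) (nat_lit 20559462311) (nat_lit 5) (nat_lit 5) (nat_lit 7) (nat_lit 4) (nat_lit 5) (nat_lit 4) (nat_lit 368) (nat_lit 303) (nat_lit 229)) (XT.nd (nat_lit 78) (nat_lit 0) (nat_lit 0) (XT.lf (nat_lit 0) (nat_lit 69067810479) (nat_lit 152) (nat_lit 94449203201) (nat_lit 0) (nat_lit 43781495042) (nat_lit 5) (nat_lit 5) (nat_lit 7) (nat_lit 4) (nat_lit 5) (nat_lit 4) (nat_lit 369) (nat_lit 303) (nat_lit 228)) (XT.lf (nat_lit 0) (nat_lit 94144139003) (nat_lit 152) (nat_lit 59804434839) (nat_lit 0) (nat_lit 68851973991) (nat_lit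 5) (nat_lit 5) (nat_lit 7) (nat_lit 4) (nat_lit 5) (nat_lit 4) (nat_lit 370) (nat_lit 303) (nat_lit 227))))) (XT.nd (nat_lit 234) (nat_lit 0) (nat_lit 0) (XT.nd (nat_lit 78) (nat_lit 76) (nat_lit 0) (XT.lf (nat_lit 0) (nat_lit 121217046244) (nat_lit 152) (nat_lit 22406716500) (nat_lit 0) (nat_lit 95919464959) (nat_lit 5) (nat_lit 5) (nat_lit 7) (nat_lit 4) (nat_lit 5) (nat_lit 4) (nat_lit 371) (nat_lit 303) (nat_lit 226)) (XT.nd (nat_lit 78) (nat_lit 0) (nat_lit 0) (XT.lf (nat_lit 0) (nat_lit 18559590736) (nat_lit 76) (nat_lit 132177140734) (nat_lit 76) (nat_lit 106874544381) (nat_lit 4) (nat_lit 4) (nat_lit 5) (nat_lit 5) (nat_lit 5) (nat_lit 4) (nat_lit 372) (nat_lit 303) (nat_lit 225)) (XT.lf (nat_lit 0) (nat_lit 63586837512) (nat_lit 76) (nat_lit 119413038560) (nat_lit 76) (nat_lit 94105798625) (nat_lit 4) (nat_lit 4) (nat_lit 5) (nat_lit 5) (nat_lit 5) (nat_lit 4) (nat_lit 373) (nat_lit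 303) (nat_lit 224)))) (XT.nd (nat_lit 78) (nat_lit 0) (nat_lit 0) (XT.lf (nat_lit 0) (nat_lit 112200984719) (nat_lit 76) (nat_lit 105635285682) (nat_lit 76) (nat_lit 80323746135) (nat_lit 4) (nat_lit 4) (nat_lit 5) (nat_lit 5) (nat_lit 5) (nat_lit 4) (nat_lit 374) (nat_lit 303) (nat_lit 223)) (XT.nd (nat_lit 78) (nat_lit 0) (nat_lit 0) (XT.lf (nat_lit 0) (nat_lit 164690116191) (nat_lit 76) (nat_lit 90762236158) (nat_lit 76) (nat_lit 65446715489) (nat_lit 4) (nat_lit 4) (nat_lit 5) (nat_lit 5) (nat_lit 5) (nat_lit 4) (nat_lit 375) (nat_lit 303) (nat_lit 222)) (XT.lf (nat_lit 0) (nat_lit 221365278633) (nat_lit 76) (nat_lit 74705753399) (nat_lit 76) (nat_lit 49386546506) (nat_lit 4) (nat_lit 4) (nat_lit 5) (nat_lit 5) (nat_lit 5) (nat_lit 4) (nat_lit 376) (nat_lit 303) (nat_lit 221)))))) (XT.nd (nat_lit 468) (nat_lit 0) (nat_lit 0) (XT.nd (nat_lit 234) (nat_lit 76) (nat_lit 0) (XT.nd (nat_lit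 78) (nat_lit 76) (nat_lit 0) (XT.lf (nat_lit 0) (nat_lit 282562324861) (nat_lit 76) (nat_lit 57370687877) (nat_lit 76) (nat_lit 32048067812) (nat_lit 4) (nat_lit 4) (nat_lit 5) (nat_lit 5) (nat_lit 5) (nat_lit 4) (nat_lit 377) (nat_lit 303) (nat_lit 220)) (XT.nd (nat_lit 78) (nat_lit 76) (nat_lit 0) (XT.lf (nat_lit 0) (nat_lit 348643904036) (nat_lit 76) (nat_lit 38654313277) (nat_lit 76) (nat_lit 13328532869) (nat_lit 4) (nat_lit 4) (nat_lit 5) (nat_lit 5) (nat_lit 5) (nat_lit 4) (nat_lit 378) (nat_lit 303) (nat_lit 219)) (XT.lf (nat_lit 0) (nat_lit 6662690270) (nat_lit 152) (nat_lit 11670191597) (nat_lit 76) (nat_lit 413226084548) (nat_lit 3) (nat_lit 5) (nat_lit 5) (nat_lit 5) (nat_lit 4) (nat_lit 4) (nat_lit 379) (nat_lit 303) (nat_lit 218)))) (XT.nd (nat_lit 78) (nat_lit 0) (nat_lit 0) (XT.lf (nat_lit 0) (nat_lit 28366100546) (nat_lit 152) (nat_lit 432318799841) (nat_lit 0) (nat_lit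 4240942321) (nat_lit 2) (nat_lit 5) (nat_lit 4) (nat_lit 4) (nat_lit 2) (nat_lit 4) (nat_lit 380) (nat_lit 303) (nat_lit 217)) (XT.nd (nat_lit 78) (nat_lit 0) (nat_lit 0) (XT.lf (nat_lit 0) (nat_lit 52316683805) (nat_lit 152) (nat_lit 420430704580) (nat_lit 0) (nat_lit 28189136263) (nat_lit 2) (nat_lit 5) (nat_lit 4) (nat_lit 4) (nat_lit 2) (nat_lit 4) (nat_lit 381) (nat_lit 303) (nat_lit 216)) (XT.lf (nat_lit 0) (nat_lit 78178827149) (nat_lit 152) (nat_lit 407600391557) (nat_lit 0) (nat_lit 54049067277) (nat_lit 2) (nat_lit 5) (nat_lit 4) (nat_lit 4) (nat_lit 2) (nat_lit 4) (nat_lit 382) (nat_lit 303) (nat_lit 215))))) (XT.nd (nat_lit 234) (nat_lit 0) (nat_lit 0) (XT.nd (nat_lit 78) (nat_lit 0) (nat_lit 0) (XT.lf (nat_lit 0) (nat_lit 106105787725) (nat_lit 152) (nat_lit 393751829288) (nat_lit 0) (nat_lit 81973979399) (nat_lit 2) (nat_lit 5) (nat_lit 4) (nat_lit 4) (nat_lit 2) (nat_lit 4)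 (nat_lit 383) (nat_lit 303) (nat_lit 214)) (XT.nd (nat_lit 78) (nat_lit 0) (nat_lit 0) (XT.lf (nat_lit 0) (nat_lit 136263058631) (nat_lit 152) (nat_lit 378802952217) (nat_lit 0) (nat_lit 112129353589) (nat_lit 2) (nat_lit 5) (nat_lit 4) (nat_lit 4) (nat_lit 2) (nat_lit 4) (nat_lit 384) (nat_lit 303) (nat_lit 213)) (XT.lf (nat_lit 0) (nat_lit 168829349622) (nat_lit 152) (nat_lit 362665174408) (nat_lit 0) (nat_lit 144693888361) (nat_lit 2) (nat_lit 5) (nat_lit 4) (nat_lit 4) (nat_lit 2) (nat_lit 4) (nat_lit 385) (nat_lit 303) (nat_lit 212)))) (XT.nd (nat_lit 78) (nat_lit 0) (nat_lit 0) (XT.lf (nat_lit 0) (nat_lit 203997646125) (nat_lit 152) (nat_lit 345242864584) (nat_lit 0) (nat_lit 179860558735) (nat_lit 2) (nat_lit 5) (nat_lit 4) (nat_lit 4) (nat_lit 2) (nat_lit 4) (nat_lit 386) (nat_lit 303) (nat_lit 211)) (XT.nd (nat_lit 78) (nat_lit 0) (nat_lit 0) (XT.lf (nat_lit 0) (nat_lit 241976352861)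 (nat_lit 152) (nat_lit 326432779428) (nat_lit 0) (nat_lit 217837759796) (nat_lit 2) (nat_lit 5) (nat_lit 4) (nat_lit 4) (nat_lit 2) (nat_lit 4) (nat_lit 387) (nat_lit 303) (nat_lit 210)) (XT.lf (nat_lit 0) (nat_lit 282990528832) (nat_lit 152) (nat_lit 306123451768) (nat_lit 0) (nat_lit 258850541624) (nat_lit 2) (nat_lit 5) (nat_lit 4) (nat_lit 4) (nat_lit 2) (nat_lit 4) (nat_lit 388) (nat_lit 303) (nat_lit 209))))))) (XT.nd (nat_lit 40872) (nat_lit 0) (nat_lit 4484) (XT.nd (nat_lit 40404) (nat_lit 0) (nat_lit 8664) (XT.nd (nat_lit 234) (nat_lit 0) (nat_lit 0) (XT.nd (nat_lit 78) (nat_lit 0) (nat_lit 0) (XT.lf (nat_lit 0) (nat_lit 327283221008) (nat_lit 152) (nat_lit 284194530034) (nat_lit 0) (nat_lit 303141942926) (nat_lit 2) (nat_lit 5) (nat_lit 4) (nat_lit 4) (nat_lit 2) (nat_lit 4) (nat_lit 389) (nat_lit 303) (nat_lit 208)) (XT.nd (nat_lit 78) (nat_lit 0) (nat_lit 0) (XT.lf (nat_lit 0)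 (nat_lit 375116904600) (nat_lit 152) (nat_lit 260516065058) (nat_lit 0) (nat_lit 350974431265) (nat_lit 2) (nat_lit 5) (nat_lit 4) (nat_lit 4) (nat_lit 2) (nat_lit 4) (nat_lit 390) (nat_lit 303) (nat_lit 207)) (XT.lf (nat_lit 0) (nat_lit 426775038475) (nat_lit 152) (nat_lit 234947740013) (nat_lit 0) (nat_lit 402631458424) (nat_lit 2) (nat_lit 5) (nat_lit 4) (nat_lit 4) (nat_lit 2) (nat_lit 4) (nat_lit 391) (nat_lit 303) (nat_lit 206)))) (XT.nd (nat_lit 40014) (nat_lit 0) (nat_lit 10184) (XT.lf (nat_lit 0) (nat_lit 482563744907) (nat_lit 152) (nat_lit 207338038896) (nat_lit 0) (nat_lit 458419140120) (nat_lit 2) (nat_lit 5) (nat_lit 4) (nat_lit 4) (nat_lit 2) (nat_lit 4) (nat_lit 392) (nat_lit 303) (nat_lit 205)) (XT.nd (nat_lit 78) (nat_lit 532) (nat_lit 0) (XT.lf (nat_lit 0) (nat_lit 1232002540) (nat_lit 0) (nat_lit 1232002540) (nat_lit 380) (nat_lit 989257976) (nat_lit 143) (nat_lit 5)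 (nat_lit 143) (nat_lit 3) (nat_lit 148) (nat_lit 3) (nat_lit 304) (nat_lit 304) (nat_lit 292)) (XT.lf (nat_lit 76) (nat_lit 870049089) (nat_lit 0) (nat_lit 69808630) (nat_lit 532) (nat_lit 6093804892) (nat_lit 137) (nat_lit 5) (nat_lit 136) (nat_lit 3) (nat_lit 143) (nat_lit 5) (nat_lit 305) (nat_lit 304) (nat_lit 291))))) (XT.nd (nat_lit 234) (nat_lit 1140) (nat_lit 0) (XT.nd (nat_lit 78) (nat_lit 456) (nat_lit 0) (XT.lf (nat_lit 0) (nat_lit 3848943707) (nat_lit 456) (nat_lit 650557732) (nat_lit 532) (nat_lit 2678933856) (nat_lit 137) (nat_lit 5) (nat_lit 143) (nat_lit 5) (nat_lit 144) (nat_lit 5) (nat_lit 306) (nat_lit 304) (nat_lit 290)) (XT.nd (nat_lit 78) (nat_lit 456) (nat_lit 0) (XT.lf (nat_lit 76) (nat_lit 5309513969) (nat_lit 0) (nat_lit 1494666272) (nat_lit 532) (nat_lit 540322630) (nat_lit 138) (nat_lit 5) (nat_lit 137) (nat_lit 5) (nat_lit 144) (nat_lit 5) (nat_lit 307) (nat_lit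 304) (nat_lit 289)) (XT.lf (nat_lit 0) (nat_lit 2242736165) (nat_lit 532) (nat_lit 3385313640) (nat_lit 608) (nat_lit 1901721419) (nat_lit 131) (nat_lit 5) (nat_lit 138) (nat_lit 5) (nat_lit 139) (nat_lit 5) (nat_lit 308) (nat_lit 304) (nat_lit 288)))) (XT.nd (nat_lit 78) (nat_lit 1140) (nat_lit 0) (XT.lf (nat_lit 76) (nat_lit 3054633611) (nat_lit 0) (nat_lit 2044448812) (nat_lit 608) (nat_lit 2637170837) (nat_lit 132) (nat_lit 5) (nat_lit 131) (nat_lit 5) (nat_lit 139) (nat_lit 5) (nat_lit 309) (nat_lit 304) (nat_lit 287)) (XT.nd (nat_lit 78) (nat_lit 608) (nat_lit 0) (XT.lf (nat_lit 0) (nat_lit 112253606) (nat_lit 608) (nat_lit 5932638515) (nat_lit 76) (nat_lit 1919724903) (nat_lit 124) (nat_lit 5) (nat_lit 132) (nat_lit 5) (nat_lit 125) (nat_lit 5) (nat_lit 310) (nat_lit 304) (nat_lit 286)) (XT.lf (nat_lit 0) (nat_lit 1019259185) (nat_lit 608) (nat_lit 1891254643) (nat_lit 684) (nat_lit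 5302766858) (nat_lit 116) (nat_lit 5) (nat_lit 124) (nat_lit 5) (nat_lit 125) (nat_lit 5) (nat_lit 311) (nat_lit 304) (nat_lit 285)))))) (XT.nd (nat_lit 468) (nat_lit 1520) (nat_lit 0) (XT.nd (nat_lit 234) (nat_lit 1140) (nat_lit 0) (XT.nd (nat_lit 78) (nat_lit 836) (nat_lit 0) (XT.lf (nat_lit 0) (nat_lit 42798382) (nat_lit 684) (nat_lit 5836486663) (nat_lit 760) (nat_lit 2605457095) (nat_lit 107) (nat_lit 5) (nat_lit 116) (nat_lit 5) (nat_lit 117) (nat_lit 5) (nat_lit 312) (nat_lit 304) (nat_lit 284)) (XT.nd (nat_lit 78) (nat_lit 760) (nat_lit 0) (XT.lf (nat_lit 0) (nat_lit 266311522) (nat_lit 760) (nat_lit 872543226) (nat_lit 76) (nat_lit 7640608765) (nat_lit 106) (nat_lit 5) (nat_lit 116) (nat_lit 5) (nat_lit 107) (nat_lit 5) (nat_lit 313) (nat_lit 304) (nat_lit 283)) (XT.lf (nat_lit 0) (nat_lit 3279784782) (nat_lit 836) (nat_lit 1834493137) (nat_lit 76) (nat_lit 3981380456) (nat_lit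 96) (nat_lit 5) (nat_lit 107) (nat_lit 5) (nat_lit 97) (nat_lit 5) (nat_lit 314) (nat_lit 304) (nat_lit 282)))) (XT.nd (nat_lit 78) (nat_lit 760) (nat_lit 0) (XT.lf (nat_lit 0) (nat_lit 6509767554) (nat_lit 456) (nat_lit 2772793406) (nat_lit 76) (nat_lit 155995619) (nat_lit 91) (nat_lit 5) (nat_lit 97) (nat_lit 5) (nat_lit 92) (nat_lit 5) (nat_lit 315) (nat_lit 304) (nat_lit 281)) (XT.nd (nat_lit 78) (nat_lit 380) (nat_lit 0) (XT.lf (nat_lit 0) (nat_lit 240980301) (nat_lit 380) (nat_lit 3765761953) (nat_lit 76) (nat_lit 5799266006) (nat_lit 86) (nat_lit 5) (nat_lit 91) (nat_lit 5) (nat_lit 87) (nat_lit 5) (nat_lit 316) (nat_lit 304) (nat_lit 280)) (XT.lf (nat_lit 0) (nat_lit 3576339783) (nat_lit 456) (nat_lit 4814920555) (nat_lit 76) (nat_lit 1808610565) (nat_lit 81) (nat_lit 5) (nat_lit 87) (nat_lit 5) (nat_lit 82) (nat_lit 5) (nat_lit 317) (nat_lit 304) (nat_lit 279))))) (XT.nd (nat_lit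 234) (nat_lit 608) (nat_lit 0) (XT.nd (nat_lit 78) (nat_lit 608) (nat_lit 0) (XT.lf (nat_lit 0) (nat_lit 4697691750) (nat_lit 304) (nat_lit 2547212537) (nat_lit 380) (nat_lit 3377155041) (nat_lit 77) (nat_lit 5) (nat_lit 81) (nat_lit 5) (nat_lit 82) (nat_lit 5) (nat_lit 318) (nat_lit 304) (nat_lit 278)) (XT.nd (nat_lit 78) (nat_lit 228) (nat_lit 0) (XT.lf (nat_lit 0) (nat_lit 198350662) (nat_lit 380) (nat_lit 7104821708) (nat_lit 76) (nat_lit 3771192063) (nat_lit 72) (nat_lit 5) (nat_lit 77) (nat_lit 5) (nat_lit 73) (nat_lit 5) (nat_lit 319) (nat_lit 304) (nat_lit 277)) (XT.lf (nat_lit 0) (nat_lit 3147193890) (nat_lit 228) (nat_lit 864646397) (nat_lit 304) (nat_lit 7544843081) (nat_lit 69) (nat_lit 5) (nat_lit 72) (nat_lit 5) (nat_lit 73) (nat_lit 5) (nat_lit 320) (nat_lit 304) (nat_lit 276)))) (XT.nd (nat_lit 78) (nat_lit 304) (nat_lit 0) (XT.lf (nat_lit 0) (nat_lit 2216071640) (nat_lit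 304) (nat_lit 6048089137) (nat_lit 380) (nat_lit 3806841959) (nat_lit 65) (nat_lit 5) (nat_lit 69) (nat_lit 5) (nat_lit 70) (nat_lit 5) (nat_lit 321) (nat_lit 304) (nat_lit 275)) (XT.nd (nat_lit 78) (nat_lit 0) (nat_lit 0) (XT.lf (nat_lit 0) (nat_lit 303321259) (nat_lit 304) (nat_lit 11402552358) (nat_lit 76) (nat_lit 916480235) (nat_lit 61) (nat_lit 5) (nat_lit 65) (nat_lit 5) (nat_lit 62) (nat_lit 5) (nat_lit 322) (nat_lit 304) (nat_lit 274)) (XT.lf (nat_lit 0) (nat_lit 4775847258) (nat_lit 304) (nat_lit 472930) (nat_lit 76) (nat_lit 8430110059) (nat_lit 61) (nat_lit 5) (nat_lit 65) (nat_lit 5) (nat_lit 62) (nat_lit 5) (nat_lit 323) (nat_lit 304) (nat_lit 273))))))))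
noncomputable def xc55 : XT := (XT.nd (nat_lit 1794) (nat_lit 1064) (nat_lit 0) (XT.nd (nat_lit 858) (nat_lit 1140) (nat_lit 0) (XT.nd (nat_lit 390) (nat_lit 836) (nat_lit 0) (XT.nd (nat_lit 156) (nat_lit 684) (nat_lit 0) (XT.nd (nat_lit 78) (nat_lit 304) (nat_lit 0) (XT.lf (nat_lit 0) (nat_lit 9744262190) (nat_lit 304) (nat_lit 1304555160) (nat_lit 76) (nat_lit 2781588558) (nat_lit 58) (nat_lit 5) (nat_lit 62) (nat_lit 5) (nat_lit 59) (nat_lit 5) (nat_lit 324) (nat_lit 304) (nat_lit 272)) (XT.lf (nat_lit 0) (nat_lit 754157859) (nat_lit 304) (nat_lit 2805601385) (nat_lit 76) (nat_lit 10935750858) (nat_lit 54) (nat_lit 5) (nat_lit 58) (nat_lit 5) (nat_lit 55) (nat_lit 5) (nat_lit 325) (nat_lit 304) (nat_lit 271))) (XT.nd (nat_lit 78) (nat_lit 456) (nat_lit 0) (XT.lf (nat_lit 0) (nat_lit 6010114761) (nat_lit 304) (nat_lit 4587541738) (nat_lit 76) (nat_lit 4604300623) (nat_lit 51) (nat_lit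 5) (nat_lit 55) (nat_lit 5) (nat_lit 52) (nat_lit 5) (nat_lit 326) (nat_lit 304) (nat_lit 270)) (XT.nd (nat_lit 78) (nat_lit 304) (nat_lit 0) (XT.lf (nat_lit 0) (nat_lit 9347859085) (nat_lit 152) (nat_lit 2503985883) (nat_lit 228) (nat_lit 4104868688) (nat_lit 49) (nat_lit 5) (nat_lit 51) (nat_lit 5) (nat_lit 52) (nat_lit 5) (nat_lit 327) (nat_lit 304) (nat_lit 269)) (XT.lf (nat_lit 0) (nat_lit 1562236696) (nat_lit 304) (nat_lit 8974983449) (nat_lit 76) (nat_lit 6222716250) (nat_lit 45) (nat_lit 5) (nat_lit 49) (nat_lit 5) (nat_lit 46) (nat_lit 5) (nat_lit 328) (nat_lit 304) (nat_lit 268))))) (XT.nd (nat_lit 234) (nat_lit 304) (nat_lit 0) (XT.nd (nat_lit 78) (nat_lit 380) (nat_lit 0) (XT.lf (nat_lit 0) (nat_lit 5888805272) (nat_lit 152) (nat_lit 1819804650) (nat_lit 228) (nat_lit 9907004526) (nat_lit 43) (nat_lit 5) (nat_lit 45) (nat_lit 5) (nat_lit 46) (nat_lit 5) (nat_lit 329) (nat_lit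 304) (nat_lit 267)) (XT.nd (nat_lit 78) (nat_lit 228) (nat_lit 0) (XT.lf (nat_lit 0) (nat_lit 3595657928) (nat_lit 152) (nat_lit 11004774474) (nat_lit 228) (nat_lit 3926671669) (nat_lit 41) (nat_lit 5) (nat_lit 43) (nat_lit 5) (nat_lit 44) (nat_lit 5) (nat_lit 330) (nat_lit 304) (nat_lit 266)) (XT.lf (nat_lit 0) (nat_lit 890778783) (nat_lit 152) (nat_lit 1735315453) (nat_lit 228) (nat_lit 16874728586) (nat_lit 38) (nat_lit 5) (nat_lit 40) (nat_lit 5) (nat_lit 41) (nat_lit 5) (nat_lit 331) (nat_lit 304) (nat_lit 265)))) (XT.nd (nat_lit 78) (nat_lit 304) (nat_lit 0) (XT.lf (nat_lit 0) (nat_lit 9886860974) (nat_lit 228) (nat_lit 2350201620) (nat_lit 76) (nat_lit 8296126516) (nat_lit 38) (nat_lit 5) (nat_lit 41) (nat_lit 5) (nat_lit 39) (nat_lit 5) (nat_lit 332) (nat_lit 304) (nat_lit 264)) (XT.nd (nat_lit 78) (nat_lit 152) (nat_lit 0) (XT.lf (nat_lit 0) (nat_lit 15565409223) (nat_lit 152) (nat_lit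 2366790549) (nat_lit 228) (nat_lit 3705792882) (nat_lit 36) (nat_lit 5) (nat_lit 38) (nat_lit 5) (nat_lit 39) (nat_lit 5) (nat_lit 333) (nat_lit 304) (nat_lit 263)) (XT.lf (nat_lit 0) (nat_lit 3971119162) (nat_lit 152) (nat_lit 10558704402) (nat_lit 76) (nat_lit 8283305975) (nat_lit 34) (nat_lit 5) (nat_lit 36) (nat_lit 5) (nat_lit 35) (nat_lit 5) (nat_lit 334) (nat_lit 304) (nat_lit 262)))))) (XT.nd (nat_lit 468) (nat_lit 380) (nat_lit 0) (XT.nd (nat_lit 234) (nat_lit 456) (nat_lit 0) (XT.nd (nat_lit 78) (nat_lit 152) (nat_lit 0) (XT.lf (nat_lit 0) (nat_lit 8238110754) (nat_lit 152) (nat_lit 4108301193) (nat_lit 228) (nat_lit 11722152203) (nat_lit 32) (nat_lit 5) (nat_lit 34) (nat_lit 5) (nat_lit 35) (nat_lit 5) (nat_lit 335) (nat_lit 304) (nat_lit 261)) (XT.nd (nat_lit 78) (nat_lit 76) (nat_lit 0) (XT.lf (nat_lit 0) (nat_lit 3387780865) (nat_lit 76) (nat_lit 18294060880) (nat_lit 152)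 (nat_lit 3728111422) (nat_lit 31) (nat_lit 5) (nat_lit 32) (nat_lit 5) (nat_lit 33) (nat_lit 4) (nat_lit 336) (nat_lit 304) (nat_lit 260)) (XT.lf (nat_lit 0) (nat_lit 5038664615) (nat_lit 152) (nat_lit 2390359662) (nat_lit 76) (nat_lit 19411311109) (nat_lit 30) (nat_lit 5) (nat_lit 32) (nat_lit 5) (nat_lit 31) (nat_lit 5) (nat_lit 337) (nat_lit 304) (nat_lit 259)))) (XT.nd (nat_lit 78) (nat_lit 304) (nat_lit 0) (XT.lf (nat_lit 0) (nat_lit 14696364791) (nat_lit 228) (nat_lit 9172570313) (nat_lit 76) (nat_lit 4497168076) (nat_lit 28) (nat_lit 5) (nat_lit 31) (nat_lit 5) (nat_lit 29) (nat_lit 4) (nat_lit 338) (nat_lit 304) (nat_lit 258)) (XT.nd (nat_lit 78) (nat_lit 228) (nat_lit 0) (XT.lf (nat_lit 0) (nat_lit 12766270836) (nat_lit 76) (nat_lit 12674390308) (nat_lit 152) (nat_lit 4557591387) (nat_lit 27) (nat_lit 5) (nat_lit 28) (nat_lit 5) (nat_lit 29) (nat_lit 4) (nat_lit 339) (nat_lit 304)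 (nat_lit 257)) (XT.lf (nat_lit 0) (nat_lit 5018651529) (nat_lit 152) (nat_lit 285272298) (nat_lit 228) (nat_lit 26443467233) (nat_lit 24) (nat_lit 5) (nat_lit 26) (nat_lit 5) (nat_lit 27) (nat_lit 5) (nat_lit 340) (nat_lit 304) (nat_lit 256))))) (XT.nd (nat_lit 234) (nat_lit 152) (nat_lit 0) (XT.nd (nat_lit 78) (nat_lit 228) (nat_lit 0) (XT.lf (nat_lit 0) (nat_lit 16256928046) (nat_lit 228) (nat_lit 4332505677) (nat_lit 76) (nat_lit 13020194668) (nat_lit 24) (nat_lit 5) (nat_lit 27) (nat_lit 5) (nat_lit 25) (nat_lit 4) (nat_lit 341) (nat_lit 304) (nat_lit 255)) (XT.nd (nat_lit 78) (nat_lit 152) (nat_lit 0) (XT.lf (nat_lit 0) (nat_lit 20421340025) (nat_lit 76) (nat_lit 7942707510) (nat_lit 152) (nat_lit 7242917898) (nat_lit 23) (nat_lit 5) (nat_lit 24) (nat_lit 5) (nat_lit 25) (nat_lit 4) (nat_lit 342) (nat_lit 304) (nat_lit 254)) (XT.lf (nat_lit 0) (nat_lit 3835504146) (nat_lit 152) (nat_lit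 28123727316) (nat_lit 76) (nat_lit 5788126348) (nat_lit 21) (nat_lit 5) (nat_lit 23) (nat_lit 5) (nat_lit 22) (nat_lit 4) (nat_lit 343) (nat_lit 304) (nat_lit 253)))) (XT.nd (nat_lit 78) (nat_lit 152) (nat_lit 0) (XT.lf (nat_lit 0) (nat_lit 15909811942) (nat_lit 152) (nat_lit 3425081463) (nat_lit 76) (nat_lit 20699994743) (nat_lit 21) (nat_lit 5) (nat_lit 23) (nat_lit 5) (nat_lit 22) (nat_lit 4) (nat_lit 344) (nat_lit 304) (nat_lit 252)) (XT.nd (nat_lit 78) (nat_lit 76) (nat_lit 0) (XT.lf (nat_lit 0) (nat_lit 23942781164) (nat_lit 76) (nat_lit 5341455694) (nat_lit 152) (nat_lit 13204486371) (nat_lit 20) (nat_lit 5) (nat_lit 21) (nat_lit 5) (nat_lit 22) (nat_lit 4) (nat_lit 345) (nat_lit 304) (nat_lit 251)) (XT.lf (nat_lit 0) (nat_lit 8534910833) (nat_lit 76) (nat_lit 35501864291) (nat_lit 76) (nat_lit 1086692156) (nat_lit 19) (nat_lit 4) (nat_lit 20) (nat_lit 5) (nat_lit 20) (nat_lit 4)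 (nat_lit 346) (nat_lit 304) (nat_lit 250))))))) (XT.nd (nat_lit 936) (nat_lit 380) (nat_lit 0) (XT.nd (nat_lit 468) (nat_lit 304) (nat_lit 0) (XT.nd (nat_lit 234) (nat_lit 228) (nat_lit 0) (XT.nd (nat_lit 78) (nat_lit 76) (nat_lit 0) (XT.lf (nat_lit 0) (nat_lit 11997725016) (nat_lit 152) (nat_lit 9860423455) (nat_lit 76) (nat_lit 26082418666) (nat_lit 18) (nat_lit 5) (nat_lit 20) (nat_lit 5) (nat_lit 19) (nat_lit 4) (nat_lit 347) (nat_lit 304) (nat_lit 249)) (XT.nd (nat_lit 78) (nat_lit 0) (nat_lit 0) (XT.lf (nat_lit 0) (nat_lit 19549105470) (nat_lit 76) (nat_lit 6813063469) (nat_lit 152) (nat_lit 24606416296) (nat_lit 17) (nat_lit 5) (nat_lit 18) (nat_lit 5) (nat_lit 19) (nat_lit 4) (nat_lit 348) (nat_lit 304) (nat_lit 248)) (XT.lf (nat_lit 0) (nat_lit 42164423742) (nat_lit 152) (nat_lit 2779513315) (nat_lit 0) (nat_lit 9280482613) (nat_lit 17) (nat_lit 5) (nat_lit 19) (nat_lit 4) (nat_lit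 17) (nat_lit 4) (nat_lit 349) (nat_lit 304) (nat_lit 247)))) (XT.nd (nat_lit 78) (nat_lit 76) (nat_lit 0) (XT.lf (nat_lit 0) (nat_lit 1986588316) (nat_lit 152) (nat_lit 28842120555) (nat_lit 76) (nat_lit 26883648285) (nat_lit 15) (nat_lit 5) (nat_lit 17) (nat_lit 5) (nat_lit 16) (nat_lit 4) (nat_lit 350) (nat_lit 304) (nat_lit 246)) (XT.nd (nat_lit 78) (nat_lit 0) (nat_lit 0) (XT.lf (nat_lit 0) (nat_lit 1460442331) (nat_lit 76) (nat_lit 15321743723) (nat_lit 152) (nat_lit 44684874083) (nat_lit 14) (nat_lit 5) (nat_lit 15) (nat_lit 5) (nat_lit 16) (nat_lit 4) (nat_lit 351) (nat_lit 304) (nat_lit 245)) (XT.lf (nat_lit 0) (nat_lit 33265457602) (nat_lit 152) (nat_lit 30365406674) (nat_lit 0) (nat_lit 1866079572) (nat_lit 14) (nat_lit 5) (nat_lit 16) (nat_lit 4) (nat_lit 14) (nat_lit 4) (nat_lit 352) (nat_lit 304) (nat_lit 244))))) (XT.nd (nat_lit 234) (nat_lit 152) (nat_lit 0) (XT.nd (nat_lit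 78) (nat_lit 76) (nat_lit 0) (XT.lf (nat_lit 0) (nat_lit 1382014931) (nat_lit 76) (nat_lit 49938563257) (nat_lit 76) (nat_lit 18515986065) (nat_lit 13) (nat_lit 4) (nat_lit 14) (nat_lit 5) (nat_lit 14) (nat_lit 4) (nat_lit 353) (nat_lit 304) (nat_lit 243)) (XT.nd (nat_lit 78) (nat_lit 76) (nat_lit 0) (XT.lf (nat_lit 0) (nat_lit 36704817163) (nat_lit 76) (nat_lit 34618714415) (nat_lit 76) (nat_lit 3174656517) (nat_lit 13) (nat_lit 4) (nat_lit 14) (nat_lit 5) (nat_lit 14) (nat_lit 4) (nat_lit 354) (nat_lit 304) (nat_lit 242)) (XT.lf (nat_lit 0) (nat_lit 12941264475) (nat_lit 152) (nat_lit 4934355264) (nat_lit 76) (nat_lit 61647871802) (nat_lit 12) (nat_lit 5) (nat_lit 14) (nat_lit 5) (nat_lit 13) (nat_lit 4) (nat_lit 355) (nat_lit 304) (nat_lit 241)))) (XT.nd (nat_lit 78) (nat_lit 76) (nat_lit 0) (XT.lf (nat_lit 0) (nat_lit 30717568838) (nat_lit 152) (nat_lit 53472170261) (nat_lit 0) (nat_lit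 734365331) (nat_lit 11) (nat_lit 5) (nat_lit 13) (nat_lit 4) (nat_lit 11) (nat_lit 4) (nat_lit 356) (nat_lit 304) (nat_lit 240)) (XT.nd (nat_lit 78) (nat_lit 76) (nat_lit 0) (XT.lf (nat_lit 0) (nat_lit 50283219844) (nat_lit 152) (nat_lit 20171411881) (nat_lit 0) (nat_lit 20283776264) (nat_lit 11) (nat_lit 5) (nat_lit 13) (nat_lit 4) (nat_lit 11) (nat_lit 4) (nat_lit 357) (nat_lit 304) (nat_lit 239)) (XT.lf (nat_lit 0) (nat_lit 16275960363) (nat_lit 76) (nat_lit 55372335492) (nat_lit 76) (nat_lit 25357854807) (nat_lit 10) (nat_lit 4) (nat_lit 11) (nat_lit 5) (nat_lit 11) (nat_lit 4) (nat_lit 358) (nat_lit 304) (nat_lit 238)))))) (XT.nd (nat_lit 468) (nat_lit 152) (nat_lit 0) (XT.nd (nat_lit 234) (nat_lit 76) (nat_lit 0) (XT.nd (nat_lit 78) (nat_lit 152) (nat_lit 0) (XT.lf (nat_lit 0) (nat_lit 56322725730) (nat_lit 76) (nat_lit 38732188671) (nat_lit 76) (nat_lit 8703784742) (nat_lit 10) (nat_lit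 4) (nat_lit 11) (nat_lit 5) (nat_lit 11) (nat_lit 4) (nat_lit 359) (nat_lit 304) (nat_lit 237)) (XT.nd (nat_lit 78) (nat_lit 76) (nat_lit 0) (XT.lf (nat_lit 0) (nat_lit 8967591151) (nat_lit 152) (nat_lit 11657733961) (nat_lit 76) (nat_lit 90419778762) (nat_lit 9) (nat_lit 5) (nat_lit 11) (nat_lit 5) (nat_lit 10) (nat_lit 4) (nat_lit 360) (nat_lit 304) (nat_lit 236)) (XT.lf (nat_lit 0) (nat_lit 27690238294) (nat_lit 76) (nat_lit 477308561) (nat_lit 152) (nat_lit 90718752109) (nat_lit 8) (nat_lit 5) (nat_lit 9) (nat_lit 5) (nat_lit 10) (nat_lit 4) (nat_lit 361) (nat_lit 304) (nat_lit 235)))) (XT.nd (nat_lit 78) (nat_lit 76) (nat_lit 0) (XT.lf (nat_lit 0) (nat_lit 49426107229) (nat_lit 152) (nat_lit 57109100065) (nat_lit 0) (nat_lit 20793454389) (nat_lit 8) (nat_lit 5) (nat_lit 10) (nat_lit 4) (nat_lit 8) (nat_lit 4) (nat_lit 362) (nat_lit 304) (nat_lit 234)) (XT.nd (nat_lit 78) (nat_lit 76)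 (nat_lit 0) (XT.lf (nat_lit 0) (nat_lit 72378519938) (nat_lit 152) (nat_lit 20332116930) (nat_lit 0) (nat_lit 43736120430) (nat_lit 8) (nat_lit 5) (nat_lit 10) (nat_lit 4) (nat_lit 8) (nat_lit 4) (nat_lit 363) (nat_lit 304) (nat_lit 233)) (XT.lf (nat_lit 0) (nat_lit 20000416780) (nat_lit 76) (nat_lit 77465192932) (nat_lit 76) (nat_lit 48813768732) (nat_lit 7) (nat_lit 4) (nat_lit 8) (nat_lit 5) (nat_lit 8) (nat_lit 4) (nat_lit 364) (nat_lit 304) (nat_lit 232))))) (XT.nd (nat_lit 234) (nat_lit 76) (nat_lit 0) (XT.nd (nat_lit 78) (nat_lit 76) (nat_lit 0) (XT.lf (nat_lit 0) (nat_lit 64260022568) (nat_lit 76) (nat_lit 60640659144) (nat_lit 76) (nat_lit 31980878749) (nat_lit 7) (nat_lit 4) (nat_lit 8) (nat_lit 5) (nat_lit 8) (nat_lit 4) (nat_lit 365) (nat_lit 304) (nat_lit 231)) (XT.nd (nat_lit 78) (nat_lit 76) (nat_lit 0) (XT.lf (nat_lit 0) (nat_lit 112036707971) (nat_lit 76) (nat_lit 42481668803)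 (nat_lit 76) (nat_lit 13814151189) (nat_lit 7) (nat_lit 4) (nat_lit 8) (nat_lit 5) (nat_lit 8) (nat_lit 4) (nat_lit 366) (nat_lit 304) (nat_lit 230)) (XT.lf (nat_lit 0) (nat_lit 5608622248) (nat_lit 152) (nat_lit 17177006095) (nat_lit 76) (nat_lit 157909987108) (nat_lit 6) (nat_lit 5) (nat_lit 8) (nat_lit 5) (nat_lit 7) (nat_lit 4) (nat_lit 367) (nat_lit 304) (nat_lit 229)))) (XT.nd (nat_lit 78) (nat_lit 0) (nat_lit 0) (XT.lf (nat_lit 0) (nat_lit 25638305077) (nat_lit 76) (nat_lit 859070630) (nat_lit 152) (nat_lit 167519245682) (nat_lit 5) (nat_lit 5) (nat_lit 6) (nat_lit 5) (nat_lit 7) (nat_lit 4) (nat_lit 368) (nat_lit 304) (nat_lit 228)) (XT.nd (nat_lit 78) (nat_lit 0) (nat_lit 0) (XT.lf (nat_lit 0) (nat_lit 49707366475) (nat_lit 152) (nat_lit 136277457141) (nat_lit 0) (nat_lit 22385978687) (nat_lit 5) (nat_lit 5) (nat_lit 7) (nat_lit 4) (nat_lit 5) (nat_lit 4) (nat_lit 369) (nat_lit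 304) (nat_lit 227)) (XT.lf (nat_lit 0) (nat_lit 74779114439) (nat_lit 152) (nat_lit 101641646226) (nat_lit 0) (nat_lit 47452310378) (nat_lit 5) (nat_lit 5) (nat_lit 7) (nat_lit 4) (nat_lit 5) (nat_lit 4) (nat_lit 370) (nat_lit 304) (nat_lit 226))))))))
noncomputable def xc56 : XT := (XT.nd (nat_lit 41808) (nat_lit 0) (nat_lit 3572) (XT.nd (nat_lit 858) (nat_lit 0) (nat_lit 0) (XT.nd (nat_lit 390) (nat_lit 152) (nat_lit 0) (XT.nd (nat_lit 156) (nat_lit 76) (nat_lit 0) (XT.nd (nat_lit 78) (nat_lit 0) (nat_lit 0) (XT.lf (nat_lit 0) (nat_lit 101847780421) (nat_lit 152) (nat_lit 64252221820) (nat_lit 0) (nat_lit 74515961292) (nat_lit 5) (nat_lit 5) (nat_lit 7) (nat_lit 4) (nat_lit 5) (nat_lit 4) (nat_lit 371) (nat_lit 304) (nat_lit 225)) (XT.lf (nat_lit 0) (nat_lit 131073771331) (nat_lit 152) (nat_lit 23887616962) (nat_lit 0) (nat_lit 103737308620) (nat_lit 5) (nat_lit 5) (nat_lit 7) (nat_lit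 4) (nat_lit 5) (nat_lit 4) (nat_lit 372) (nat_lit 304) (nat_lit 224))) (XT.nd (nat_lit 78) (nat_lit 0) (nat_lit 0) (XT.lf (nat_lit 0) (nat_lit 20342451494) (nat_lit 76) (nat_lit 142605429408) (nat_lit 76) (nat_lit 115264667085) (nat_lit 4) (nat_lit 4) (nat_lit 5) (nat_lit 5) (nat_lit 5) (nat_lit 4) (nat_lit 373) (nat_lit 304) (nat_lit 223)) (XT.nd (nat_lit 78) (nat_lit 0) (nat_lit 0) (XT.lf (nat_lit 0) (nat_lit 68949797013) (nat_lit 76) (nat_lit 128831005176) (nat_lit 76) (nat_lit 101486261732) (nat_lit 4) (nat_lit 4) (nat_lit 5) (nat_lit 5) (nat_lit 5) (nat_lit 4) (nat_lit 374) (nat_lit 304) (nat_lit 222)) (XT.lf (nat_lit 0) (nat_lit 121432630626) (nat_lit 76) (nat_lit 113961037733) (nat_lit 76) (nat_lit 86612608063) (nat_lit 4) (nat_lit 4) (nat_lit 5) (nat_lit 5) (nat_lit 5) (nat_lit 4) (nat_lit 375) (nat_lit 304) (nat_lit 221))))) (XT.nd (nat_lit 234) (nat_lit 152) (nat_lit 0) (XT.nd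 (nat_lit 78) (nat_lit 0) (nat_lit 0) (XT.lf (nat_lit 0) (nat_lit 178101961717) (nat_lit 76) (nat_lit 97907408751) (nat_lit 76) (nat_lit 70555565911) (nat_lit 4) (nat_lit 4) (nat_lit 5) (nat_lit 5) (nat_lit 5) (nat_lit 4) (nat_lit 376) (nat_lit 304) (nat_lit 220)) (XT.nd (nat_lit 78) (nat_lit 0) (nat_lit 0) (XT.lf (nat_lit 0) (nat_lit 239293608545) (nat_lit 76) (nat_lit 80574985616) (nat_lit 76) (nat_lit 53219982432) (nat_lit 4) (nat_lit 4) (nat_lit 5) (nat_lit 5) (nat_lit 5) (nat_lit 4) (nat_lit 377) (nat_lit 304) (nat_lit 219)) (XT.lf (nat_lit 0) (nat_lit 305370188277) (nat_lit 76) (nat_lit 61861057670) (nat_lit 76) (nat_lit 34503128243) (nat_lit 4) (nat_lit 4) (nat_lit 5) (nat_lit 5) (nat_lit 5) (nat_lit 4) (nat_lit 378) (nat_lit 304) (nat_lit 218)))) (XT.nd (nat_lit 78) (nat_lit 152) (nat_lit 0) (XT.lf (nat_lit 0) (nat_lit 376723265828) (nat_lit 76) (nat_lit 41654727565) (nat_lit 76)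 (nat_lit 14294088652) (nat_lit 4) (nat_lit 4) (nat_lit 5) (nat_lit 5) (nat_lit 5) (nat_lit 4) (nat_lit 379) (nat_lit 304) (nat_lit 217)) (XT.nd (nat_lit 78) (nat_lit 76) (nat_lit 0) (XT.lf (nat_lit 0) (nat_lit 7285986009) (nat_lit 152) (nat_lit 12426876376) (nat_lit 76) (nat_lit 446366296545) (nat_lit 3) (nat_lit 5) (nat_lit 5) (nat_lit 5) (nat_lit 4) (nat_lit 4) (nat_lit 380) (nat_lit 304) (nat_lit 216)) (XT.lf (nat_lit 0) (nat_lit 30722919948) (nat_lit 152) (nat_lit 466732036676) (nat_lit 0) (nat_lit 4660566956) (nat_lit 2) (nat_lit 5) (nat_lit 4) (nat_lit 4) (nat_lit 2) (nat_lit 4) (nat_lit 381) (nat_lit 304) (nat_lit 215)))))) (XT.nd (nat_lit 468) (nat_lit 0) (nat_lit 0) (XT.nd (nat_lit 234) (nat_lit 0) (nat_lit 0) (XT.nd (nat_lit 78) (nat_lit 0) (nat_lit 0) (XT.lf (nat_lit 0) (nat_lit 56583066064) (nat_lit 152) (nat_lit 453905654324) (nat_lit 0) (nat_lit 30518664618) (nat_lit 2) (nat_lit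 5) (nat_lit 4) (nat_lit 4) (nat_lit 2) (nat_lit 4) (nat_lit 382) (nat_lit 304) (nat_lit 214)) (XT.nd (nat_lit 78) (nat_lit 0) (nat_lit 0) (XT.lf (nat_lit 0) (nat_lit 84508177353) (nat_lit 152) (nat_lit 440060731565) (nat_lit 0) (nat_lit 58441879191) (nat_lit 2) (nat_lit 5) (nat_lit 4) (nat_lit 4) (nat_lit 2) (nat_lit 4) (nat_lit 383) (nat_lit 304) (nat_lit 213)) (XT.lf (nat_lit 0) (nat_lit 114663735958) (nat_lit 152) (nat_lit 425115224411) (nat_lit 0) (nat_lit 88595681576) (nat_lit 2) (nat_lit 5) (nat_lit 4) (nat_lit 4) (nat_lit 2) (nat_lit 4) (nat_lit 384) (nat_lit 304) (nat_lit 212)))) (XT.nd (nat_lit 78) (nat_lit 0) (nat_lit 0) (XT.lf (nat_lit 0) (nat_lit 147228441484) (nat_lit 152) (nat_lit 408980566895) (nat_lit 0) (nat_lit 121158760974) (nat_lit 2) (nat_lit 5) (nat_lit 4) (nat_lit 4) (nat_lit 2) (nat_lit 4) (nat_lit 385) (nat_lit 304) (nat_lit 211)) (XT.nd (nat_lit 78) (nat_lit 0)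 (nat_lit 0) (XT.lf (nat_lit 0) (nat_lit 182395269964) (nat_lit 152) (nat_lit 391561146232) (nat_lit 0) (nat_lit 156324083779) (nat_lit 2) (nat_lit 5) (nat_lit 4) (nat_lit 4) (nat_lit 2) (nat_lit 4) (nat_lit 386) (nat_lit 304) (nat_lit 210)) (XT.lf (nat_lit 0) (nat_lit 220372617419) (nat_lit 152) (nat_lit 372753736224) (nat_lit 0) (nat_lit 194300037091) (nat_lit 2) (nat_lit 5) (nat_lit 4) (nat_lit 4) (nat_lit 2) (nat_lit 4) (nat_lit 387) (nat_lit 304) (nat_lit 209))))) (XT.nd (nat_lit 234) (nat_lit 0) (nat_lit 0) (XT.nd (nat_lit 78) (nat_lit 0) (nat_lit 0) (XT.lf (nat_lit 0) (nat_lit 261385534797) (nat_lit 152) (nat_lit 352446885553) (nat_lit 0) (nat_lit 235311663596) (nat_lit 2) (nat_lit 5) (nat_lit 4) (nat_lit 4) (nat_lit 2) (nat_lit 4) (nat_lit 388) (nat_lit 304) (nat_lit 208)) (XT.nd (nat_lit 78) (nat_lit 0) (nat_lit 0) (XT.lf (nat_lit 0) (nat_lit 305677061609) (nat_lit 152) (nat_lit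 330520257327) (nat_lit 0) (nat_lit 279601995154) (nat_lit 2) (nat_lit 5) (nat_lit 4) (nat_lit 4) (nat_lit 2) (nat_lit 4) (nat_lit 389) (nat_lit 304) (nat_lit 207)) (XT.lf (nat_lit 0) (nat_lit 353509666160) (nat_lit 152) (nat_lit 306843915971) (nat_lit 0) (nat_lit 327433492990) (nat_lit 2) (nat_lit 5) (nat_lit 4) (nat_lit 4) (nat_lit 2) (nat_lit 4) (nat_lit 390) (nat_lit 304) (nat_lit 206)))) (XT.nd (nat_lit 78) (nat_lit 0) (nat_lit 0) (XT.lf (nat_lit 0) (nat_lit 405166800923) (nat_lit 152) (nat_lit 281277557240) (nat_lit 0) (nat_lit 379089603016) (nat_lit 2) (nat_lit 5) (nat_lit 4) (nat_lit 4) (nat_lit 2) (nat_lit 4) (nat_lit 391) (nat_lit 304) (nat_lit 205)) (XT.nd (nat_lit 40092) (nat_lit 0) (nat_lit 10184) (XT.lf (nat_lit 0) (nat_lit 460954582252) (nat_lit 152) (nat_lit 253669676785) (nat_lit 0) (nat_lit 434876435514) (nat_lit 2) (nat_lit 5) (nat_lit 4) (nat_lit 4) (nat_lit 2) (nat_lit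 4) (nat_lit 392) (nat_lit 304) (nat_lit 204)) (XT.lf (nat_lit 0) (nat_lit 1813689643) (nat_lit 532) (nat_lit 885112798) (nat_lit 532) (nat_lit 885112798) (nat_lit 136) (nat_lit 3) (nat_lit 143) (nat_lit 3) (nat_lit 143) (nat_lit 5) (nat_lit 305) (nat_lit 305) (nat_lit 290))))))) (XT.nd (nat_lit 858) (nat_lit 2888) (nat_lit 0) (XT.nd (nat_lit 390) (nat_lit 2736) (nat_lit 0) (XT.nd (nat_lit 156) (nat_lit 532) (nat_lit 0) (XT.nd (nat_lit 78) (nat_lit 456) (nat_lit 0) (XT.lf (nat_lit 76) (nat_lit 3803858562) (nat_lit 0) (nat_lit 2529781663) (nat_lit 532) (nat_lit 989288933) (nat_lit 137) (nat_lit 5) (nat_lit 136) (nat_lit 3) (nat_lit 143) (nat_lit 5) (nat_lit 306) (nat_lit 305) (nat_lit 289)) (XT.lf (nat_lit 0) (nat_lit 1531940593) (nat_lit 532) (nat_lit 5212120011) (nat_lit 608) (nat_lit 754210583) (nat_lit 130) (nat_lit 5) (nat_lit 137) (nat_lit 5) (nat_lit 138) (nat_lit 5) (nat_lit 307) (nat_lit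 305) (nat_lit 288))) (XT.nd (nat_lit 78) (nat_lit 532) (nat_lit 0) (XT.lf (nat_lit 76) (nat_lit 810086945) (nat_lit 0) (nat_lit 3289744993) (nat_lit 608) (nat_lit 3593330334) (nat_lit 131) (nat_lit 5) (nat_lit 130) (nat_lit 5) (nat_lit 138) (nat_lit 5) (nat_lit 308) (nat_lit 305) (nat_lit 287)) (XT.nd (nat_lit 78) (nat_lit 608) (nat_lit 0) (XT.lf (nat_lit 0) (nat_lit 6750463541) (nat_lit 532) (nat_lit 565690227) (nat_lit 608) (nat_lit 593915943) (nat_lit 131) (nat_lit 5) (nat_lit 138) (nat_lit 5) (nat_lit 139) (nat_lit 5) (nat_lit 309) (nat_lit 305) (nat_lit 286)) (XT.lf (nat_lit 0) (nat_lit 1368397084) (nat_lit 608) (nat_lit 1914138478) (nat_lit 684) (nat_lit 4863574127) (nat_lit 123) (nat_lit 5) (nat_lit 131) (nat_lit 5) (nat_lit 132) (nat_lit 5) (nat_lit 310) (nat_lit 305) (nat_lit 285))))) (XT.nd (nat_lit 234) (nat_lit 1444) (nat_lit 0) (XT.nd (nat_lit 78) (nat_lit 1368) (nat_lit 0)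 (XT.lf (nat_lit 0) (nat_lit 3973192333) (nat_lit 608) (nat_lit 3232290652) (nat_lit 76) (nat_lit 1199077657) (nat_lit 124) (nat_lit 5) (nat_lit 132) (nat_lit 5) (nat_lit 125) (nat_lit 5) (nat_lit 311) (nat_lit 305) (nat_lit 284)) (XT.nd (nat_lit 78) (nat_lit 760) (nat_lit 0) (XT.lf (nat_lit 0) (nat_lit 4137779017) (nat_lit 608) (nat_lit 2619619856) (nat_lit 684) (nat_lit 1927957051) (nat_lit 116) (nat_lit 5) (nat_lit 124) (nat_lit 5) (nat_lit 125) (nat_lit 5) (nat_lit 312) (nat_lit 305) (nat_lit 283)) (XT.lf (nat_lit 0) (nat_lit 721768464) (nat_lit 760) (nat_lit 5865099081) (nat_lit 76) (nat_lit 2402791928) (nat_lit 106) (nat_lit 5) (nat_lit 116) (nat_lit 5) (nat_lit 107) (nat_lit 5) (nat_lit 313) (nat_lit 305) (nat_lit 282)))) (XT.nd (nat_lit 78) (nat_lit 684) (nat_lit 0) (XT.lf (nat_lit 0) (nat_lit 2095335098) (nat_lit 760) (nat_lit 1415365729) (nat_lit 836) (nat_lit 5806466772) (nat_lit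 96) (nat_lit 5) (nat_lit 106) (nat_lit 5) (nat_lit 107) (nat_lit 5) (nat_lit 314) (nat_lit 305) (nat_lit 281)) (XT.nd (nat_lit 78) (nat_lit 304) (nat_lit 0) (XT.lf (nat_lit 0) (nat_lit 1049465051) (nat_lit 380) (nat_lit 5505048749) (nat_lit 456) (nat_lit 3114940326) (nat_lit 91) (nat_lit 5) (nat_lit 96) (nat_lit 5) (nat_lit 97) (nat_lit 5) (nat_lit 315) (nat_lit 305) (nat_lit 280)) (XT.lf (nat_lit 0) (nat_lit 15959487) (nat_lit 304) (nat_lit 9834387361) (nat_lit 380) (nat_lit 199304727) (nat_lit 87) (nat_lit 5) (nat_lit 91) (nat_lit 5) (nat_lit 92) (nat_lit 5) (nat_lit 316) (nat_lit 305) (nat_lit 279)))))) (XT.nd (nat_lit 468) (nat_lit 1216) (nat_lit 0) (XT.nd (nat_lit 234) (nat_lit 912) (nat_lit 0) (XT.nd (nat_lit 78) (nat_lit 684) (nat_lit 0) (XT.lf (nat_lit 0) (nat_lit 2962128905) (nat_lit 380) (nat_lit 1095789915) (nat_lit 76) (nat_lit 6394831410) (nat_lit 86) (nat_lit 5) (nat_lit 91)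 (nat_lit 5) (nat_lit 87) (nat_lit 5) (nat_lit 317) (nat_lit 305) (nat_lit 278)) (XT.nd (nat_lit 78) (nat_lit 304) (nat_lit 0) (XT.lf (nat_lit 0) (nat_lit 6413173286) (nat_lit 456) (nat_lit 2232874302) (nat_lit 76) (nat_lit 2239827429) (nat_lit 81) (nat_lit 5) (nat_lit 87) (nat_lit 5) (nat_lit 82) (nat_lit 5) (nat_lit 318) (nat_lit 305) (nat_lit 277)) (XT.lf (nat_lit 0) (nat_lit 7911794357) (nat_lit 304) (nat_lit 2318799521) (nat_lit 380) (nat_lit 1118657517) (nat_lit 77) (nat_lit 5) (nat_lit 81) (nat_lit 5) (nat_lit 82) (nat_lit 5) (nat_lit 319) (nat_lit 305) (nat_lit 276)))) (XT.nd (nat_lit 78) (nat_lit 532) (nat_lit 0) (XT.lf (nat_lit 0) (nat_lit 2531832681) (nat_lit 380) (nat_lit 4768846691) (nat_lit 76) (nat_lit 4541753679) (nat_lit 72) (nat_lit 5) (nat_lit 77) (nat_lit 5) (nat_lit 73) (nat_lit 5) (nat_lit 320) (nat_lit 305) (nat_lit 275)) (XT.nd (nat_lit 78) (nat_lit 304) (nat_lit 0)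 (XT.lf (nat_lit 0) (nat_lit 6177110176) (nat_lit 228) (nat_lit 344990754) (nat_lit 304) (nat_lit 5847799733) (nat_lit 69) (nat_lit 5) (nat_lit 72) (nat_lit 5) (nat_lit 73) (nat_lit 5) (nat_lit 321) (nat_lit 305) (nat_lit 274)) (XT.lf (nat_lit 0) (nat_lit 5148449472) (nat_lit 304) (nat_lit 5855513197) (nat_lit 380) (nat_lit 1927072295) (nat_lit 65) (nat_lit 5) (nat_lit 69) (nat_lit 5) (nat_lit 70) (nat_lit 5) (nat_lit 322) (nat_lit 305) (nat_lit 273))))) (XT.nd (nat_lit 234) (nat_lit 456) (nat_lit 0) (XT.nd (nat_lit 78) (nat_lit 456) (nat_lit 0) (XT.lf (nat_lit 0) (nat_lit 2338571657) (nat_lit 304) (nat_lit 9520438455) (nat_lit 76) (nat_lit 1671070874) (nat_lit 61) (nat_lit 5) (nat_lit 65) (nat_lit 5) (nat_lit 62) (nat_lit 5) (nat_lit 323) (nat_lit 305) (nat_lit 272)) (XT.nd (nat_lit 78) (nat_lit 228) (nat_lit 0) (XT.lf (nat_lit 0) (nat_lit 2672352778) (nat_lit 228) (nat_lit 4389308044) (nat_lit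 304) (nat_lit 7104696612) (nat_lit 58) (nat_lit 5) (nat_lit 61) (nat_lit 5) (nat_lit 62) (nat_lit 5) (nat_lit 324) (nat_lit 305) (nat_lit 271)) (XT.lf (nat_lit 0) (nat_lit 1182119196) (nat_lit 228) (nat_lit 11133994089) (nat_lit 304) (nat_lit 2529813346) (nat_lit 55) (nat_lit 5) (nat_lit 58) (nat_lit 5) (nat_lit 59) (nat_lit 5) (nat_lit 325) (nat_lit 305) (nat_lit 270)))) (XT.nd (nat_lit 78) (nat_lit 380) (nat_lit 0) (XT.lf (nat_lit 0) (nat_lit 2523790536) (nat_lit 304) (nat_lit 530144787) (nat_lit 76) (nat_lit 12514607513) (nat_lit 54) (nat_lit 5) (nat_lit 58) (nat_lit 5) (nat_lit 55) (nat_lit 5) (nat_lit 326) (nat_lit 305) (nat_lit 269)) (XT.nd (nat_lit 78) (nat_lit 152) (nat_lit 0) (XT.lf (nat_lit 0) (nat_lit 8122984726) (nat_lit 304) (nat_lit 2493265058) (nat_lit 76) (nat_lit 5719202468) (nat_lit 51) (nat_lit 5) (nat_lit 55) (nat_lit 5) (nat_lit 52) (nat_lit 5) (nat_lit 327) (nat_lit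 305) (nat_lit 268)) (XT.lf (nat_lit 0) (nat_lit 12450003601) (nat_lit 152) (nat_lit 1897913825) (nat_lit 228) (nat_lit 2806957079) (nat_lit 49) (nat_lit 5) (nat_lit 51) (nat_lit 5) (nat_lit 52) (nat_lit 5) (nat_lit 328) (nat_lit 305) (nat_lit 267))))))))
noncomputable def xc57 : XT := (XT.nd (nat_lit 1794) (nat_lit 836) (nat_lit 0) (XT.nd (nat_lit 858) (nat_lit 988) (nat_lit 0) (XT.nd (nat_lit 390) (nat_lit 760) (nat_lit 0) (XT.nd (nat_lit 156) (nat_lit 380) (nat_lit 0) (XT.nd (nat_lit 78) (nat_lit 152) (nat_lit 0) (XT.lf (nat_lit 0) (nat_lit 3193437421) (nat_lit 304) (nat_lit 7327388107) (nat_lit 76) (nat_lit 7503730493) (nat_lit 45) (nat_lit 5) (nat_lit 49) (nat_lit 5) (nat_lit 46) (nat_lit 5) (nat_lit 329) (nat_lit 305) (nat_lit 266)) (XT.lf (nat_lit 0) (nat_lit 8622697879) (nat_lit 152) (nat_lit 1132579106) (nat_lit 228) (nat_lit 9197287522) (nat_lit 43) (nat_lit 5) (nat_lit 45) (nat_lit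 5) (nat_lit 46) (nat_lit 5) (nat_lit 330) (nat_lit 305) (nat_lit 265))) (XT.nd (nat_lit 78) (nat_lit 228) (nat_lit 0) (XT.lf (nat_lit 0) (nat_lit 6104480373) (nat_lit 152) (nat_lit 11034758609) (nat_lit 228) (nat_lit 2800753905) (nat_lit 41) (nat_lit 5) (nat_lit 43) (nat_lit 5) (nat_lit 44) (nat_lit 5) (nat_lit 331) (nat_lit 305) (nat_lit 264)) (XT.nd (nat_lit 78) (nat_lit 0) (nat_lit 0) (XT.lf (nat_lit 0) (nat_lit 3131444125) (nat_lit 152) (nat_lit 1029312608) (nat_lit 228) (nat_lit 16833249808) (nat_lit 38) (nat_lit 5) (nat_lit 40) (nat_lit 5) (nat_lit 41) (nat_lit 5) (nat_lit 332) (nat_lit 305) (nat_lit 263)) (XT.lf (nat_lit 0) (nat_lit 11916481233) (nat_lit 228) (nat_lit 479796441) (nat_lit 76) (nat_lit 9717028032) (nat_lit 38) (nat_lit 5) (nat_lit 41) (nat_lit 5) (nat_lit 39) (nat_lit 5) (nat_lit 333) (nat_lit 305) (nat_lit 262))))) (XT.nd (nat_lit 234) (nat_lit 304) (nat_lit 0) (XT.nd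 (nat_lit 78) (nat_lit 304) (nat_lit 0) (XT.lf (nat_lit 0) (nat_lit 18779606787) (nat_lit 152) (nat_lit 1764827970) (nat_lit 228) (nat_lit 2765154206) (nat_lit 36) (nat_lit 5) (nat_lit 38) (nat_lit 5) (nat_lit 39) (nat_lit 5) (nat_lit 334) (nat_lit 305) (nat_lit 261)) (XT.nd (nat_lit 78) (nat_lit 152) (nat_lit 0) (XT.lf (nat_lit 0) (nat_lit 5439840364) (nat_lit 152) (nat_lit 9436410287) (nat_lit 76) (nat_lit 9703883707) (nat_lit 34) (nat_lit 5) (nat_lit 36) (nat_lit 5) (nat_lit 35) (nat_lit 5) (nat_lit 335) (nat_lit 305) (nat_lit 260)) (XT.lf (nat_lit 0) (nat_lit 10778667072) (nat_lit 152) (nat_lit 3650603498) (nat_lit 228) (nat_lit 11509564056) (nat_lit 32) (nat_lit 5) (nat_lit 34) (nat_lit 5) (nat_lit 35) (nat_lit 5) (nat_lit 336) (nat_lit 305) (nat_lit 259)))) (XT.nd (nat_lit 78) (nat_lit 228) (nat_lit 0) (XT.lf (nat_lit 0) (nat_lit 5499614110) (nat_lit 76) (nat_lit 18970906838) (nat_lit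 152) (nat_lit 2919098389) (nat_lit 31) (nat_lit 5) (nat_lit 32) (nat_lit 5) (nat_lit 33) (nat_lit 4) (nat_lit 337) (nat_lit 305) (nat_lit 258)) (XT.nd (nat_lit 78) (nat_lit 152) (nat_lit 0) (XT.lf (nat_lit 0) (nat_lit 6434186164) (nat_lit 152) (nat_lit 843946400) (nat_lit 76) (nat_lit 21659434784) (nat_lit 30) (nat_lit 5) (nat_lit 32) (nat_lit 5) (nat_lit 31) (nat_lit 5) (nat_lit 338) (nat_lit 305) (nat_lit 257)) (XT.lf (nat_lit 0) (nat_lit 16828138037) (nat_lit 228) (nat_lit 8207859090) (nat_lit 76) (nat_lit 5551245317) (nat_lit 28) (nat_lit 5) (nat_lit 31) (nat_lit 5) (nat_lit 29) (nat_lit 4) (nat_lit 339) (nat_lit 305) (nat_lit 256)))))) (XT.nd (nat_lit 468) (nat_lit 456) (nat_lit 0) (XT.nd (nat_lit 234) (nat_lit 228) (nat_lit 0) (XT.nd (nat_lit 78) (nat_lit 228) (nat_lit 0) (XT.lf (nat_lit 0) (nat_lit 15412273879) (nat_lit 76) (nat_lit 12974250801) (nat_lit 152) (nat_lit 3965737348)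 (nat_lit 27) (nat_lit 5) (nat_lit 28) (nat_lit 5) (nat_lit 29) (nat_lit 4) (nat_lit 340) (nat_lit 305) (nat_lit 255)) (XT.nd (nat_lit 78) (nat_lit 0) (nat_lit 0) (XT.lf (nat_lit 0) (nat_lit 6616375364) (nat_lit 228) (nat_lit 27245133768) (nat_lit 76) (nat_lit 380983991) (nat_lit 24) (nat_lit 5) (nat_lit 27) (nat_lit 5) (nat_lit 25) (nat_lit 4) (nat_lit 341) (nat_lit 305) (nat_lit 254)) (XT.lf (nat_lit 0) (nat_lit 18384285848) (nat_lit 228) (nat_lit 3181796211) (nat_lit 76) (nat_lit 14690715000) (nat_lit 24) (nat_lit 5) (nat_lit 27) (nat_lit 5) (nat_lit 25) (nat_lit 4) (nat_lit 342) (nat_lit 305) (nat_lit 253)))) (XT.nd (nat_lit 78) (nat_lit 152) (nat_lit 0) (XT.lf (nat_lit 0) (nat_lit 23487285883) (nat_lit 76) (nat_lit 7933805565) (nat_lit 152) (nat_lit 6994793155) (nat_lit 23) (nat_lit 5) (nat_lit 24) (nat_lit 5) (nat_lit 25) (nat_lit 4) (nat_lit 343) (nat_lit 305) (nat_lit 252)) (XT.nd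 (nat_lit 78) (nat_lit 0) (nat_lit 0) (XT.lf (nat_lit 0) (nat_lit 4915733265) (nat_lit 152) (nat_lit 28949552005) (nat_lit 76) (nat_lit 6862978268) (nat_lit 21) (nat_lit 5) (nat_lit 23) (nat_lit 5) (nat_lit 22) (nat_lit 4) (nat_lit 344) (nat_lit 305) (nat_lit 251)) (XT.lf (nat_lit 0) (nat_lit 17898697626) (nat_lit 152) (nat_lit 2380501409) (nat_lit 76) (nat_lit 22922477482) (nat_lit 21) (nat_lit 5) (nat_lit 23) (nat_lit 5) (nat_lit 22) (nat_lit 4) (nat_lit 345) (nat_lit 305) (nat_lit 250))))) (XT.nd (nat_lit 234) (nat_lit 228) (nat_lit 0) (XT.nd (nat_lit 78) (nat_lit 152) (nat_lit 0) (XT.lf (nat_lit 0) (nat_lit 27119486062) (nat_lit 76) (nat_lit 5190238129) (nat_lit 152) (nat_lit 13543776473) (nat_lit 20) (nat_lit 5) (nat_lit 21) (nat_lit 5) (nat_lit 22) (nat_lit 4) (nat_lit 346) (nat_lit 305) (nat_lit 249)) (XT.nd (nat_lit 78) (nat_lit 76) (nat_lit 0) (XT.lf (nat_lit 0) (nat_lit 10448361214)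 (nat_lit 76) (nat_lit 37771107822) (nat_lit 76) (nat_lit 480718582) (nat_lit 19) (nat_lit 4) (nat_lit 20) (nat_lit 5) (nat_lit 20) (nat_lit 4) (nat_lit 347) (nat_lit 305) (nat_lit 248)) (XT.lf (nat_lit 0) (nat_lit 13578590733) (nat_lit 152) (nat_lit 9489075565) (nat_lit 76) (nat_lit 28676944398) (nat_lit 18) (nat_lit 5) (nat_lit 20) (nat_lit 5) (nat_lit 19) (nat_lit 4) (nat_lit 348) (nat_lit 305) (nat_lit 247)))) (XT.nd (nat_lit 78) (nat_lit 152) (nat_lit 0) (XT.lf (nat_lit 0) (nat_lit 22222795589) (nat_lit 76) (nat_lit 6840717536) (nat_lit 152) (nat_lit 25952802037) (nat_lit 17) (nat_lit 5) (nat_lit 18) (nat_lit 5) (nat_lit 19) (nat_lit 4) (nat_lit 349) (nat_lit 305) (nat_lit 246)) (XT.nd (nat_lit 78) (nat_lit 152) (nat_lit 0) (XT.lf (nat_lit 0) (nat_lit 46093548563) (nat_lit 152) (nat_lit 1954244150) (nat_lit 0) (nat_lit 10486653877) (nat_lit 17) (nat_lit 5) (nat_lit 19) (nat_lit 4) (nat_lit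 17) (nat_lit 4) (nat_lit 350) (nat_lit 305) (nat_lit 245)) (XT.lf (nat_lit 0) (nat_lit 2684759338) (nat_lit 152) (nat_lit 30129445891) (nat_lit 76) (nat_lit 29488065330) (nat_lit 15) (nat_lit 5) (nat_lit 17) (nat_lit 5) (nat_lit 16) (nat_lit 4) (nat_lit 351) (nat_lit 305) (nat_lit 244))))))) (XT.nd (nat_lit 936) (nat_lit 304) (nat_lit 0) (XT.nd (nat_lit 468) (nat_lit 228) (nat_lit 0) (XT.nd (nat_lit 234) (nat_lit 152) (nat_lit 0) (XT.nd (nat_lit 78) (nat_lit 76) (nat_lit 0) (XT.lf (nat_lit 0) (nat_lit 2552992144) (nat_lit 76) (nat_lit 16086302392) (nat_lit 152) (nat_lit 47719299130) (nat_lit 14) (nat_lit 5) (nat_lit 15) (nat_lit 5) (nat_lit 16) (nat_lit 4) (nat_lit 352) (nat_lit 305) (nat_lit 243)) (XT.nd (nat_lit 78) (nat_lit 76) (nat_lit 0) (XT.lf (nat_lit 0) (nat_lit 36409781175) (nat_lit 152) (nat_lit 31873949038) (nat_lit 0) (nat_lit 2428717940) (nat_lit 14) (nat_lit 5) (nat_lit 16)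 (nat_lit 4) (nat_lit 14) (nat_lit 4) (nat_lit 353) (nat_lit 305) (nat_lit 242)) (XT.lf (nat_lit 0) (nat_lit 2373254222) (nat_lit 76) (nat_lit 53514022819) (nat_lit 76) (nat_lit 19513070042) (nat_lit 13) (nat_lit 4) (nat_lit 14) (nat_lit 5) (nat_lit 14) (nat_lit 4) (nat_lit 354) (nat_lit 305) (nat_lit 241)))) (XT.nd (nat_lit 78) (nat_lit 152) (nat_lit 0) (XT.lf (nat_lit 0) (nat_lit 40456645218) (nat_lit 76) (nat_lit 36999669440) (nat_lit 76) (nat_lit 2980300420) (nat_lit 13) (nat_lit 4) (nat_lit 14) (nat_lit 5) (nat_lit 14) (nat_lit 4) (nat_lit 355) (nat_lit 305) (nat_lit 240)) (XT.nd (nat_lit 78) (nat_lit 76) (nat_lit 0) (XT.lf (nat_lit 0) (nat_lit 14378398321) (nat_lit 152) (nat_lit 4560704537) (nat_lit 76) (nat_lit 66926103148) (nat_lit 12) (nat_lit 5) (nat_lit 14) (nat_lit 5) (nat_lit 13) (nat_lit 4) (nat_lit 356) (nat_lit 305) (nat_lit 239)) (XT.lf (nat_lit 0) (nat_lit 33564004461) (nat_lit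 152) (nat_lit 57001180801) (nat_lit 0) (nat_lit 1133328217) (nat_lit 11) (nat_lit 5) (nat_lit 13) (nat_lit 4) (nat_lit 11) (nat_lit 4) (nat_lit 357) (nat_lit 305) (nat_lit 238))))) (XT.nd (nat_lit 234) (nat_lit 152) (nat_lit 0) (XT.nd (nat_lit 78) (nat_lit 76) (nat_lit 0) (XT.lf (nat_lit 0) (nat_lit 54666090502) (nat_lit 152) (nat_lit 21091825682) (nat_lit 0) (nat_lit 22221491013) (nat_lit 11) (nat_lit 5) (nat_lit 13) (nat_lit 4) (nat_lit 11) (nat_lit 4) (nat_lit 358) (nat_lit 305) (nat_lit 237)) (XT.nd (nat_lit 78) (nat_lit 0) (nat_lit 0) (XT.lf (nat_lit 0) (nat_lit 18241206405) (nat_lit 76) (nat_lit 59482837668) (nat_lit 76) (nat_lit 27025346286) (nat_lit 10) (nat_lit 4) (nat_lit 11) (nat_lit 5) (nat_lit 11) (nat_lit 4) (nat_lit 359) (nat_lit 305) (nat_lit 236)) (XT.lf (nat_lit 0) (nat_lit 61442589356) (nat_lit 76) (nat_lit 41535129818) (nat_lit 76) (nat_lit 9065701497) (nat_lit 10) (nat_lit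 4) (nat_lit 11) (nat_lit 5) (nat_lit 11) (nat_lit 4) (nat_lit 360) (nat_lit 305) (nat_lit 235)))) (XT.nd (nat_lit 78) (nat_lit 76) (nat_lit 0) (XT.lf (nat_lit 0) (nat_lit 9984705465) (nat_lit 152) (nat_lit 12011834837) (nat_lit 76) (nat_lit 97917139069) (nat_lit 9) (nat_lit 5) (nat_lit 11) (nat_lit 5) (nat_lit 10) (nat_lit 4) (nat_lit 361) (nat_lit 305) (nat_lit 234)) (XT.nd (nat_lit 78) (nat_lit 0) (nat_lit 0) (XT.lf (nat_lit 0) (nat_lit 30458833519) (nat_lit 76) (nat_lit 248263339) (nat_lit 152) (nat_lit 97675754764) (nat_lit 8) (nat_lit 5) (nat_lit 9) (nat_lit 5) (nat_lit 10) (nat_lit 4) (nat_lit 362) (nat_lit 305) (nat_lit 233)) (XT.lf (nat_lit 0) (nat_lit 53649009198) (nat_lit 152) (nat_lit 61156017689) (nat_lit 0) (nat_lit 22696446371) (nat_lit 8) (nat_lit 5) (nat_lit 10) (nat_lit 4) (nat_lit 8) (nat_lit 4) (nat_lit 363) (nat_lit 305) (nat_lit 232)))))) (XT.nd (nat_lit 468) (nat_lit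 76) (nat_lit 0) (XT.nd (nat_lit 234) (nat_lit 152) (nat_lit 0) (XT.nd (nat_lit 78) (nat_lit 76) (nat_lit 0) (XT.lf (nat_lit 0) (nat_lit 78417702820) (nat_lit 152) (nat_lit 21475528523) (nat_lit 0) (nat_lit 47456783797) (nat_lit 8) (nat_lit 5) (nat_lit 10) (nat_lit 4) (nat_lit 8) (nat_lit 4) (nat_lit 364) (nat_lit 305) (nat_lit 231)) (XT.nd (nat_lit 78) (nat_lit 0) (nat_lit 0) (XT.lf (nat_lit 0) (nat_lit 22062610436) (nat_lit 76) (nat_lit 83437927826) (nat_lit 76) (nat_lit 52469271583) (nat_lit 7) (nat_lit 4) (nat_lit 8) (nat_lit 5) (nat_lit 8) (nat_lit 4) (nat_lit 365) (nat_lit 305) (nat_lit 230)) (XT.lf (nat_lit 0) (nat_lit 69828750589) (nat_lit 76) (nat_lit 65284059524) (nat_lit 76) (nat_lit 34308239190) (nat_lit 7) (nat_lit 4) (nat_lit 8) (nat_lit 5) (nat_lit 8) (nat_lit 4) (nat_lit 366) (nat_lit 305) (nat_lit 229)))) (XT.nd (nat_lit 78) (nat_lit 152) (nat_lit 0) (XT.lf (nat_lit 0) (nat_lit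 121395872587) (nat_lit 76) (nat_lit 45687746425) (nat_lit 76) (nat_lit 14705292674) (nat_lit 7) (nat_lit 4) (nat_lit 8) (nat_lit 5) (nat_lit 8) (nat_lit 4) (nat_lit 367) (nat_lit 305) (nat_lit 228)) (XT.nd (nat_lit 78) (nat_lit 76) (nat_lit 0) (XT.lf (nat_lit 0) (nat_lit 6249109782) (nat_lit 152) (nat_lit 18177920751) (nat_lit 76) (nat_lit 170714617892) (nat_lit 6) (nat_lit 5) (nat_lit 8) (nat_lit 5) (nat_lit 7) (nat_lit 4) (nat_lit 368) (nat_lit 305) (nat_lit 227)) (XT.lf (nat_lit 0) (nat_lit 28046394506) (nat_lit 76) (nat_lit 753935931) (nat_lit 152) (nat_lit 180728438007) (nat_lit 5) (nat_lit 5) (nat_lit 6) (nat_lit 5) (nat_lit 7) (nat_lit 4) (nat_lit 369) (nat_lit 305) (nat_lit 226))))) (XT.nd (nat_lit 234) (nat_lit 76) (nat_lit 0) (XT.nd (nat_lit 78) (nat_lit 0) (nat_lit 0) (XT.lf (nat_lit 0) (nat_lit 53856066090) (nat_lit 152) (nat_lit 146843085905) (nat_lit 0) (nat_lit 24332686363)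 (nat_lit 5) (nat_lit 5) (nat_lit 7) (nat_lit 4) (nat_lit 5) (nat_lit 4) (nat_lit 370) (nat_lit 305) (nat_lit 225)) (XT.nd (nat_lit 78) (nat_lit 0) (nat_lit 0) (XT.lf (nat_lit 0) (nat_lit 80920804980) (nat_lit 152) (nat_lit 109461341067) (nat_lit 0) (nat_lit 51392781672) (nat_lit 5) (nat_lit 5) (nat_lit 7) (nat_lit 4) (nat_lit 5) (nat_lit 4) (nat_lit 371) (nat_lit 305) (nat_lit 224)) (XT.lf (nat_lit 0) (nat_lit 110143159694) (nat_lit 152) (nat_lit 69103846919) (nat_lit 0) (nat_lit 80610836774) (nat_lit 5) (nat_lit 5) (nat_lit 7) (nat_lit 4) (nat_lit 5) (nat_lit 4) (nat_lit 372) (nat_lit 305) (nat_lit 223)))) (XT.nd (nat_lit 78) (nat_lit 76) (nat_lit 0) (XT.lf (nat_lit 0) (nat_lit 141696299740) (nat_lit 152) (nat_lit 25531447943) (nat_lit 0) (nat_lit 112159995697) (nat_lit 5) (nat_lit 5) (nat_lit 7) (nat_lit 4) (nat_lit 5) (nat_lit 4) (nat_lit 373) (nat_lit 305) (nat_lit 222)) (XT.nd (nat_lit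 78) (nat_lit 0) (nat_lit 0) (XT.lf (nat_lit 0) (nat_lit 22225414743) (nat_lit 76) (nat_lit 153888792957) (nat_lit 76) (nat_lit 124348802690) (nat_lit 4) (nat_lit 4) (nat_lit 5) (nat_lit 5) (nat_lit 5) (nat_lit 4) (nat_lit 374) (nat_lit 305) (nat_lit 221)) (XT.lf (nat_lit 0) (nat_lit 74702417005) (nat_lit 76) (nat_lit 139021679291) (nat_lit 76) (nat_lit 109478275853) (nat_lit 4) (nat_lit 4) (nat_lit 5) (nat_lit 5) (nat_lit 5) (nat_lit 4) (nat_lit 375) (nat_lit 305) (nat_lit 220))))))))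
noncomputable def xc58 : XT := (XT.nd (nat_lit 41886) (nat_lit 0) (nat_lit 2584) (XT.nd (nat_lit 858) (nat_lit 0) (nat_lit 0) (XT.nd (nat_lit 390) (nat_lit 152) (nat_lit 0) (XT.nd (nat_lit 156) (nat_lit 0) (nat_lit 0) (XT.nd (nat_lit 78) (nat_lit 0) (nat_lit 0) (XT.lf (nat_lit 0) (nat_lit 131366348697) (nat_lit 76) (nat_lit 122970692696) (nat_lit 76) (nat_lit 93424128915) (nat_lit 4) (nat_lit 4) (nat_lit 5) (nat_lit 5) (nat_lit 5) (nat_lit 4) (nat_lit 376) (nat_lit 305) (nat_lit 219)) (XT.lf (nat_lit 0) (nat_lit 192552996081) (nat_lit 76) (nat_lit 105640716215) (nat_lit 76) (nat_lit 76091226190) (nat_lit 4) (nat_lit 4) (nat_lit 5) (nat_lit 5) (nat_lit 5) (nat_lit 4) (nat_lit 377) (nat_lit 305) (nat_lit 218))) (XT.nd (nat_lit 78) (nat_lit 0) (nat_lit 0) (XT.lf (nat_lit 0) (nat_lit 258624946698) (nat_lit 76) (nat_lit 86929053691) (nat_lit 76) (nat_lit 57376854180) (nat_lit 4) (nat_lit 4) (nat_lit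 5) (nat_lit 5) (nat_lit 5) (nat_lit 4) (nat_lit 378) (nat_lit 305) (nat_lit 217)) (XT.nd (nat_lit 78) (nat_lit 0) (nat_lit 0) (XT.lf (nat_lit 0) (nat_lit 329973738033) (nat_lit 76) (nat_lit 66724821197) (nat_lit 76) (nat_lit 37170112904) (nat_lit 4) (nat_lit 4) (nat_lit 5) (nat_lit 5) (nat_lit 5) (nat_lit 4) (nat_lit 379) (nat_lit 305) (nat_lit 216)) (XT.lf (nat_lit 0) (nat_lit 407022177737) (nat_lit 76) (nat_lit 44908289948) (nat_lit 76) (nat_lit 15351258709) (nat_lit 4) (nat_lit 4) (nat_lit 5) (nat_lit 5) (nat_lit 5) (nat_lit 4) (nat_lit 380) (nat_lit 305) (nat_lit 215))))) (XT.nd (nat_lit 234) (nat_lit 0) (nat_lit 0) (XT.nd (nat_lit 78) (nat_lit 76) (nat_lit 0) (XT.lf (nat_lit 0) (nat_lit 7946265881) (nat_lit 152) (nat_lit 13269337058) (nat_lit 76) (nat_lit 482146009419) (nat_lit 3) (nat_lit 5) (nat_lit 5) (nat_lit 5) (nat_lit 4) (nat_lit 4) (nat_lit 381) (nat_lit 305) (nat_lit 214))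 (XT.nd (nat_lit 78) (nat_lit 0) (nat_lit 0) (XT.lf (nat_lit 0) (nat_lit 33255797576) (nat_lit 152) (nat_lit 503922908293) (nat_lit 0) (nat_lit 5102298845) (nat_lit 2) (nat_lit 5) (nat_lit 4) (nat_lit 4) (nat_lit 2) (nat_lit 4) (nat_lit 382) (nat_lit 305) (nat_lit 213)) (XT.lf (nat_lit 0) (nat_lit 61179196564) (nat_lit 152) (nat_lit 490081355450) (nat_lit 0) (nat_lit 33023941613) (nat_lit 2) (nat_lit 5) (nat_lit 4) (nat_lit 4) (nat_lit 2) (nat_lit 4) (nat_lit 383) (nat_lit 305) (nat_lit 212)))) (XT.nd (nat_lit 78) (nat_lit 0) (nat_lit 0) (XT.lf (nat_lit 0) (nat_lit 91333169703) (nat_lit 152) (nat_lit 475138968590) (nat_lit 0) (nat_lit 63176288624) (nat_lit 2) (nat_lit 5) (nat_lit 4) (nat_lit 4) (nat_lit 2) (nat_lit 4) (nat_lit 384) (nat_lit 305) (nat_lit 211)) (XT.nd (nat_lit 78) (nat_lit 0) (nat_lit 0) (XT.lf (nat_lit 0) (nat_lit 123896407207) (nat_lit 152) (nat_lit 459007200235) (nat_lit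 0) (nat_lit 95738020452) (nat_lit 2) (nat_lit 5) (nat_lit 4) (nat_lit 4) (nat_lit 2) (nat_lit 4) (nat_lit 385) (nat_lit 305) (nat_lit 210)) (XT.lf (nat_lit 0) (nat_lit 159061876406) (nat_lit 152) (nat_lit 441590454720) (nat_lit 0) (nat_lit 130902095509) (nat_lit 2) (nat_lit 5) (nat_lit 4) (nat_lit 4) (nat_lit 2) (nat_lit 4) (nat_lit 386) (nat_lit 305) (nat_lit 209)))))) (XT.nd (nat_lit 40560) (nat_lit 0) (nat_lit 9120) (XT.nd (nat_lit 234) (nat_lit 0) (nat_lit 0) (XT.nd (nat_lit 78) (nat_lit 0) (nat_lit 0) (XT.lf (nat_lit 0) (nat_lit 197037965269) (nat_lit 152) (nat_lit 422785521701) (nat_lit 0) (nat_lit 168876893497) (nat_lit 2) (nat_lit 5) (nat_lit 4) (nat_lit 4) (nat_lit 2) (nat_lit 4) (nat_lit 387) (nat_lit 305) (nat_lit 208)) (XT.nd (nat_lit 78) (nat_lit 0) (nat_lit 0) (XT.lf (nat_lit 0) (nat_lit 238049717283) (nat_lit 152) (nat_lit 402480964540) (nat_lit 0) (nat_lit 209887450258) (nat_lit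 2) (nat_lit 5) (nat_lit 4) (nat_lit 4) (nat_lit 2) (nat_lit 4) (nat_lit 388) (nat_lit 305) (nat_lit 207)) (XT.lf (nat_lit 0) (nat_lit 282340165053) (nat_lit 152) (nat_lit 380556459933) (nat_lit 0) (nat_lit 254176791313) (nat_lit 2) (nat_lit 5) (nat_lit 4) (nat_lit 4) (nat_lit 2) (nat_lit 4) (nat_lit 389) (nat_lit 305) (nat_lit 206)))) (XT.nd (nat_lit 78) (nat_lit 0) (nat_lit 0) (XT.lf (nat_lit 0) (nat_lit 330171770493) (nat_lit 152) (nat_lit 356882084890) (nat_lit 0) (nat_lit 302007372016) (nat_lit 2) (nat_lit 5) (nat_lit 4) (nat_lit 4) (nat_lit 2) (nat_lit 4) (nat_lit 390) (nat_lit 305) (nat_lit 205)) (XT.nd (nat_lit 78) (nat_lit 0) (nat_lit 0) (XT.lf (nat_lit 0) (nat_lit 381827980153) (nat_lit 152) (nat_lit 331317546820) (nat_lit 0) (nat_lit 353662632845) (nat_lit 2) (nat_lit 5) (nat_lit 4) (nat_lit 4) (nat_lit 2) (nat_lit 4) (nat_lit 391) (nat_lit 305) (nat_lit 204)) (XT.lf (nat_lit 0)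 (nat_lit 437614904904) (nat_lit 152) (nat_lit 303711352162) (nat_lit 0) (nat_lit 409448679050) (nat_lit 2) (nat_lit 5) (nat_lit 4) (nat_lit 4) (nat_lit 2) (nat_lit 4) (nat_lit 392) (nat_lit 305) (nat_lit 203))))) (XT.nd (nat_lit 234) (nat_lit 532) (nat_lit 0) (XT.nd (nat_lit 78) (nat_lit 0) (nat_lit 0) (XT.lf (nat_lit 0) (nat_lit 322373496) (nat_lit 0) (nat_lit 322373496) (nat_lit 532) (nat_lit 3099298491) (nat_lit 129) (nat_lit 5) (nat_lit 129) (nat_lit 3) (nat_lit 136) (nat_lit 3) (nat_lit 306) (nat_lit 306) (nat_lit 288)) (XT.nd (nat_lit 78) (nat_lit 0) (nat_lit 0) (XT.lf (nat_lit 0) (nat_lit 3606574443) (nat_lit 532) (nat_lit 1168753076) (nat_lit 608) (nat_lit 2896108323) (nat_lit 129) (nat_lit 5) (nat_lit 136) (nat_lit 3) (nat_lit 137) (nat_lit 5) (nat_lit 307) (nat_lit 306) (nat_lit 287)) (XT.lf (nat_lit 76) (nat_lit 4984348224) (nat_lit 0) (nat_lit 993111629) (nat_lit 608) (nat_lit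 1898857041) (nat_lit 130) (nat_lit 5) (nat_lit 129) (nat_lit 5) (nat_lit 137) (nat_lit 5) (nat_lit 308) (nat_lit 306) (nat_lit 286)))) (XT.nd (nat_lit 78) (nat_lit 0) (nat_lit 0) (XT.lf (nat_lit 0) (nat_lit 344046523) (nat_lit 608) (nat_lit 4599547312) (nat_lit 684) (nat_lit 3158021199) (nat_lit 122) (nat_lit 5) (nat_lit 130) (nat_lit 5) (nat_lit 131) (nat_lit 5) (nat_lit 309) (nat_lit 306) (nat_lit 285)) (XT.nd (nat_lit 78) (nat_lit 0) (nat_lit 76) (XT.lf (nat_lit 76) (nat_lit 2052963796) (nat_lit 0) (nat_lit 553165554) (nat_lit 684) (nat_lit 5742174759) (nat_lit 123) (nat_lit 5) (nat_lit 122) (nat_lit 5) (nat_lit 131) (nat_lit 5) (nat_lit 310) (nat_lit 306) (nat_lit 284)) (XT.lf (nat_lit 76) (nat_lit 607828817) (nat_lit 0) (nat_lit 4416381093) (nat_lit 684) (nat_lit 3591986481) (nat_lit 124) (nat_lit 5) (nat_lit 123) (nat_lit 5) (nat_lit 132) (nat_lit 5) (nat_lit 311) (nat_lit 306) (nat_lit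 283))))))) (XT.nd (nat_lit 936) (nat_lit 2204) (nat_lit 0) (XT.nd (nat_lit 468) (nat_lit 1596) (nat_lit 0) (XT.nd (nat_lit 234) (nat_lit 1520) (nat_lit 0) (XT.nd (nat_lit 78) (nat_lit 1368) (nat_lit 0) (XT.lf (nat_lit 0) (nat_lit 7593481222) (nat_lit 608) (nat_lit 768858349) (nat_lit 76) (nat_lit 545496635) (nat_lit 124) (nat_lit 5) (nat_lit 132) (nat_lit 5) (nat_lit 125) (nat_lit 5) (nat_lit 312) (nat_lit 306) (nat_lit 282)) (XT.nd (nat_lit 78) (nat_lit 684) (nat_lit 0) (XT.lf (nat_lit 0) (nat_lit 1137260312) (nat_lit 684) (nat_lit 2167409168) (nat_lit 76) (nat_lit 5916001049) (nat_lit 115) (nat_lit 5) (nat_lit 124) (nat_lit 5) (nat_lit 116) (nat_lit 5) (nat_lit 313) (nat_lit 306) (nat_lit 281)) (XT.lf (nat_lit 0) (nat_lit 3733556544) (nat_lit 760) (nat_lit 3583734809) (nat_lit 76) (nat_lit 2240598940) (nat_lit 106) (nat_lit 5) (nat_lit 116) (nat_lit 5) (nat_lit 107) (nat_lit 5) (nat_lit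 314) (nat_lit 306) (nat_lit 280)))) (XT.nd (nat_lit 78) (nat_lit 760) (nat_lit 0) (XT.lf (nat_lit 0) (nat_lit 4893997588) (nat_lit 760) (nat_lit 1673865482) (nat_lit 836) (nat_lit 3352862992) (nat_lit 96) (nat_lit 5) (nat_lit 106) (nat_lit 5) (nat_lit 107) (nat_lit 5) (nat_lit 315) (nat_lit 306) (nat_lit 279)) (XT.nd (nat_lit 78) (nat_lit 380) (nat_lit 0) (XT.lf (nat_lit 0) (nat_lit 3787937685) (nat_lit 380) (nat_lit 5900935437) (nat_lit 456) (nat_lit 620859982) (nat_lit 91) (nat_lit 5) (nat_lit 96) (nat_lit 5) (nat_lit 97) (nat_lit 5) (nat_lit 316) (nat_lit 306) (nat_lit 278)) (XT.lf (nat_lit 0) (nat_lit 2293371857) (nat_lit 380) (nat_lit 8081885152) (nat_lit 76) (nat_lit 350998898) (nat_lit 86) (nat_lit 5) (nat_lit 91) (nat_lit 5) (nat_lit 87) (nat_lit 5) (nat_lit 317) (nat_lit 306) (nat_lit 277))))) (XT.nd (nat_lit 234) (nat_lit 836) (nat_lit 0) (XT.nd (nat_lit 78) (nat_lit 380) (nat_lit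 0) (XT.lf (nat_lit 0) (nat_lit 1408996984) (nat_lit 380) (nat_lit 4128518817) (nat_lit 456) (nat_lit 5632265801) (nat_lit 81) (nat_lit 5) (nat_lit 86) (nat_lit 5) (nat_lit 87) (nat_lit 5) (nat_lit 318) (nat_lit 306) (nat_lit 276)) (XT.nd (nat_lit 78) (nat_lit 76) (nat_lit 0) (XT.lf (nat_lit 0) (nat_lit 136804297) (nat_lit 304) (nat_lit 8978395444) (nat_lit 380) (nat_lit 2529996817) (nat_lit 77) (nat_lit 5) (nat_lit 81) (nat_lit 5) (nat_lit 82) (nat_lit 5) (nat_lit 319) (nat_lit 306) (nat_lit 275)) (XT.lf (nat_lit 0) (nat_lit 929057923) (nat_lit 380) (nat_lit 1188978233) (nat_lit 76) (nat_lit 10033319794) (nat_lit 76) (nat_lit 5) (nat_lit 81) (nat_lit 5) (nat_lit 77) (nat_lit 5) (nat_lit 320) (nat_lit 306) (nat_lit 274)))) (XT.nd (nat_lit 78) (nat_lit 532) (nat_lit 0) (XT.lf (nat_lit 0) (nat_lit 4721359719) (nat_lit 380) (nat_lit 2660333203) (nat_lit 76) (nat_lit 5307071212) (nat_lit 72)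 (nat_lit 5) (nat_lit 77) (nat_lit 5) (nat_lit 73) (nat_lit 5) (nat_lit 321) (nat_lit 306) (nat_lit 273)) (XT.nd (nat_lit 78) (nat_lit 304) (nat_lit 0) (XT.lf (nat_lit 0) (nat_lit 8922916942) (nat_lit 304) (nat_lit 4213033637) (nat_lit 76) (nat_lit 128002203) (nat_lit 69) (nat_lit 5) (nat_lit 73) (nat_lit 5) (nat_lit 70) (nat_lit 5) (nat_lit 322) (nat_lit 306) (nat_lit 272)) (XT.lf (nat_lit 0) (nat_lit 7922372841) (nat_lit 304) (nat_lit 5744030494) (nat_lit 380) (nat_lit 208538302) (nat_lit 65) (nat_lit 5) (nat_lit 69) (nat_lit 5) (nat_lit 70) (nat_lit 5) (nat_lit 323) (nat_lit 306) (nat_lit 271)))))) (XT.nd (nat_lit 468) (nat_lit 988) (nat_lit 0) (XT.nd (nat_lit 234) (nat_lit 456) (nat_lit 0) (XT.nd (nat_lit 78) (nat_lit 456) (nat_lit 0) (XT.lf (nat_lit 0) (nat_lit 4249752637) (nat_lit 304) (nat_lit 7886396156) (nat_lit 76) (nat_lit 2388837666) (nat_lit 61) (nat_lit 5) (nat_lit 65) (nat_lit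 5) (nat_lit 62) (nat_lit 5) (nat_lit 324) (nat_lit 306) (nat_lit 270)) (XT.nd (nat_lit 78) (nat_lit 228) (nat_lit 0) (XT.lf (nat_lit 0) (nat_lit 5177705157) (nat_lit 228) (nat_lit 4081050758) (nat_lit 304) (nat_lit 5958101776) (nat_lit 58) (nat_lit 5) (nat_lit 61) (nat_lit 5) (nat_lit 62) (nat_lit 5) (nat_lit 325) (nat_lit 306) (nat_lit 269)) (XT.lf (nat_lit 0) (nat_lit 3538026192) (nat_lit 228) (nat_lit 11319475803) (nat_lit 304) (nat_lit 1097182463) (nat_lit 55) (nat_lit 5) (nat_lit 58) (nat_lit 5) (nat_lit 59) (nat_lit 5) (nat_lit 326) (nat_lit 306) (nat_lit 268)))) (XT.nd (nat_lit 78) (nat_lit 152) (nat_lit 0) (XT.lf (nat_lit 0) (nat_lit 1622643716) (nat_lit 228) (nat_lit 2593833365) (nat_lit 304) (nat_lit 12522030016) (nat_lit 51) (nat_lit 5) (nat_lit 54) (nat_lit 5) (nat_lit 55) (nat_lit 5) (nat_lit 327) (nat_lit 306) (nat_lit 267)) (XT.nd (nat_lit 78) (nat_lit 152) (nat_lit 0) (XT.lf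 (nat_lit 0) (nat_lit 10172052571) (nat_lit 304) (nat_lit 582575355) (nat_lit 76) (nat_lit 6816791645) (nat_lit 51) (nat_lit 5) (nat_lit 55) (nat_lit 5) (nat_lit 52) (nat_lit 5) (nat_lit 328) (nat_lit 306) (nat_lit 266)) (XT.lf (nat_lit 0) (nat_lit 15464450210) (nat_lit 152) (nat_lit 1358396683) (nat_lit 228) (nat_lit 1637222576) (nat_lit 49) (nat_lit 5) (nat_lit 51) (nat_lit 5) (nat_lit 52) (nat_lit 5) (nat_lit 329) (nat_lit 306) (nat_lit 265))))) (XT.nd (nat_lit 234) (nat_lit 380) (nat_lit 0) (XT.nd (nat_lit 78) (nat_lit 304) (nat_lit 0) (XT.lf (nat_lit 0) (nat_lit 4740254825) (nat_lit 304) (nat_lit 5885463570) (nat_lit 76) (nat_lit 8775494076) (nat_lit 45) (nat_lit 5) (nat_lit 49) (nat_lit 5) (nat_lit 46) (nat_lit 5) (nat_lit 330) (nat_lit 306) (nat_lit 264)) (XT.nd (nat_lit 78) (nat_lit 152) (nat_lit 0) (XT.lf (nat_lit 0) (nat_lit 11252489863) (nat_lit 152) (nat_lit 509185163) (nat_lit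 228) (nat_lit 8645109819) (nat_lit 43) (nat_lit 5) (nat_lit 45) (nat_lit 5) (nat_lit 46) (nat_lit 5) (nat_lit 331) (nat_lit 306) (nat_lit 263)) (XT.lf (nat_lit 0) (nat_lit 8497133908) (nat_lit 152) (nat_lit 11188460231) (nat_lit 228) (nat_lit 1790202165) (nat_lit 41) (nat_lit 5) (nat_lit 43) (nat_lit 5) (nat_lit 44) (nat_lit 5) (nat_lit 332) (nat_lit 306) (nat_lit 262)))) (XT.nd (nat_lit 78) (nat_lit 152) (nat_lit 0) (XT.lf (nat_lit 0) (nat_lit 5241873097) (nat_lit 152) (nat_lit 387353706) (nat_lit 228) (nat_lit 16986959633) (nat_lit 38) (nat_lit 5) (nat_lit 40) (nat_lit 5) (nat_lit 41) (nat_lit 5) (nat_lit 333) (nat_lit 306) (nat_lit 261)) (XT.nd (nat_lit 78) (nat_lit 0) (nat_lit 0) (XT.lf (nat_lit 0) (nat_lit 1287802047) (nat_lit 152) (nat_lit 12664064944) (nat_lit 228) (nat_lit 9875881151) (nat_lit 36) (nat_lit 5) (nat_lit 38) (nat_lit 5) (nat_lit 39) (nat_lit 5) (nat_lit 334) (nat_lit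 306) (nat_lit 260)) (XT.lf (nat_lit 0) (nat_lit 21970045312) (nat_lit 152) (nat_lit 1227597008) (nat_lit 228) (nat_lit 1925750883) (nat_lit 36) (nat_lit 5) (nat_lit 38) (nat_lit 5) (nat_lit 39) (nat_lit 5) (nat_lit 335) (nat_lit 306) (nat_lit 259))))))))
noncomputable def xc59 : XT := (XT.nd (nat_lit 1794) (nat_lit 608) (nat_lit 0) (XT.nd (nat_lit 858) (nat_lit 760) (nat_lit 0) (XT.nd (nat_lit 390) (nat_lit 532) (nat_lit 0) (XT.nd (nat_lit 156) (nat_lit 304) (nat_lit 0) (XT.nd (nat_lit 78) (nat_lit 152) (nat_lit 0) (XT.lf (nat_lit 0) (nat_lit 6861851727) (nat_lit 152) (nat_lit 8504945823) (nat_lit 76) (nat_lit 11129982859) (nat_lit 34) (nat_lit 5) (nat_lit 36) (nat_lit 5) (nat_lit 35) (nat_lit 5) (nat_lit 336) (nat_lit 306) (nat_lit 258)) (XT.lf (nat_lit 0) (nat_lit 13254049823) (nat_lit 152) (nat_lit 3268473289) (nat_lit 228) (nat_lit 11444080619) (nat_lit 32) (nat_lit 5) (nat_lit 34) (nat_lit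 5) (nat_lit 35) (nat_lit 5) (nat_lit 337) (nat_lit 306) (nat_lit 257))) (XT.nd (nat_lit 78) (nat_lit 228) (nat_lit 0) (XT.lf (nat_lit 0) (nat_lit 7517781778) (nat_lit 76) (nat_lit 19814129014) (nat_lit 152) (nat_lit 2203327608) (nat_lit 31) (nat_lit 5) (nat_lit 32) (nat_lit 5) (nat_lit 33) (nat_lit 4) (nat_lit 338) (nat_lit 306) (nat_lit 256)) (XT.nd (nat_lit 78) (nat_lit 0) (nat_lit 0) (XT.lf (nat_lit 0) (nat_lit 597406602) (nat_lit 152) (nat_lit 7211689023) (nat_lit 228) (nat_lit 23400148211) (nat_lit 28) (nat_lit 5) (nat_lit 30) (nat_lit 5) (nat_lit 31) (nat_lit 5) (nat_lit 339) (nat_lit 306) (nat_lit 255)) (XT.lf (nat_lit 0) (nat_lit 18994059917) (nat_lit 228) (nat_lit 7408283385) (nat_lit 76) (nat_lit 6590598540) (nat_lit 28) (nat_lit 5) (nat_lit 31) (nat_lit 5) (nat_lit 29) (nat_lit 4) (nat_lit 340) (nat_lit 306) (nat_lit 254))))) (XT.nd (nat_lit 234) (nat_lit 228) (nat_lit 0) (XT.nd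 (nat_lit 78) (nat_lit 228) (nat_lit 0) (XT.lf (nat_lit 0) (nat_lit 18038175351) (nat_lit 76) (nat_lit 13399973160) (nat_lit 152) (nat_lit 3462984890) (nat_lit 27) (nat_lit 5) (nat_lit 28) (nat_lit 5) (nat_lit 29) (nat_lit 4) (nat_lit 341) (nat_lit 306) (nat_lit 253)) (XT.nd (nat_lit 78) (nat_lit 0) (nat_lit 0) (XT.lf (nat_lit 0) (nat_lit 7911244244) (nat_lit 228) (nat_lit 28038346396) (nat_lit 76) (nat_lit 993781931) (nat_lit 24) (nat_lit 5) (nat_lit 27) (nat_lit 5) (nat_lit 25) (nat_lit 4) (nat_lit 342) (nat_lit 306) (nat_lit 252)) (XT.lf (nat_lit 0) (nat_lit 20563879504) (nat_lit 228) (nat_lit 2152637987) (nat_lit 76) (nat_lit 16405156663) (nat_lit 24) (nat_lit 5) (nat_lit 27) (nat_lit 5) (nat_lit 25) (nat_lit 4) (nat_lit 343) (nat_lit 306) (nat_lit 251)))) (XT.nd (nat_lit 78) (nat_lit 152) (nat_lit 0) (XT.lf (nat_lit 0) (nat_lit 26594182553) (nat_lit 76) (nat_lit 8016110708) (nat_lit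 152) (nat_lit 6844878857) (nat_lit 23) (nat_lit 5) (nat_lit 24) (nat_lit 5) (nat_lit 25) (nat_lit 4) (nat_lit 344) (nat_lit 306) (nat_lit 250)) (XT.nd (nat_lit 78) (nat_lit 0) (nat_lit 0) (XT.lf (nat_lit 0) (nat_lit 5972048157) (nat_lit 152) (nat_lit 30044602674) (nat_lit 76) (nat_lit 7936537974) (nat_lit 21) (nat_lit 5) (nat_lit 23) (nat_lit 5) (nat_lit 22) (nat_lit 4) (nat_lit 345) (nat_lit 306) (nat_lit 249)) (XT.lf (nat_lit 0) (nat_lit 19944534391) (nat_lit 152) (nat_lit 1440466067) (nat_lit 76) (nat_lit 25241943685) (nat_lit 21) (nat_lit 5) (nat_lit 23) (nat_lit 5) (nat_lit 22) (nat_lit 4) (nat_lit 346) (nat_lit 306) (nat_lit 248)))))) (XT.nd (nat_lit 468) (nat_lit 304) (nat_lit 0) (XT.nd (nat_lit 234) (nat_lit 228) (nat_lit 0) (XT.nd (nat_lit 78) (nat_lit 152) (nat_lit 0) (XT.lf (nat_lit 0) (nat_lit 30370391316) (nat_lit 76) (nat_lit 5109457503) (nat_lit 152) (nat_lit 14012507665)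 (nat_lit 20) (nat_lit 5) (nat_lit 21) (nat_lit 5) (nat_lit 22) (nat_lit 4) (nat_lit 347) (nat_lit 306) (nat_lit 247)) (XT.nd (nat_lit 78) (nat_lit 0) (nat_lit 0) (XT.lf (nat_lit 0) (nat_lit 72484989) (nat_lit 152) (nat_lit 40229624346) (nat_lit 76) (nat_lit 12265608016) (nat_lit 18) (nat_lit 5) (nat_lit 20) (nat_lit 5) (nat_lit 19) (nat_lit 4) (nat_lit 348) (nat_lit 306) (nat_lit 246)) (XT.lf (nat_lit 0) (nat_lit 15197326308) (nat_lit 152) (nat_lit 9253532742) (nat_lit 76) (nat_lit 31406569977) (nat_lit 18) (nat_lit 5) (nat_lit 20) (nat_lit 5) (nat_lit 19) (nat_lit 4) (nat_lit 349) (nat_lit 306) (nat_lit 245)))) (XT.nd (nat_lit 78) (nat_lit 152) (nat_lit 0) (XT.lf (nat_lit 0) (nat_lit 24952061007) (nat_lit 76) (nat_lit 6944395541) (nat_lit 152) (nat_lit 27495652090) (nat_lit 17) (nat_lit 5) (nat_lit 18) (nat_lit 5) (nat_lit 19) (nat_lit 4) (nat_lit 350) (nat_lit 306) (nat_lit 244)) (XT.nd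 (nat_lit 78) (nat_lit 152) (nat_lit 0) (XT.lf (nat_lit 0) (nat_lit 50257687902) (nat_lit 152) (nat_lit 1212409616) (nat_lit 0) (nat_lit 11723162193) (nat_lit 17) (nat_lit 5) (nat_lit 19) (nat_lit 4) (nat_lit 17) (nat_lit 4) (nat_lit 351) (nat_lit 306) (nat_lit 243)) (XT.lf (nat_lit 0) (nat_lit 3361854863) (nat_lit 152) (nat_lit 31665277978) (nat_lit 76) (nat_lit 32236106770) (nat_lit 15) (nat_lit 5) (nat_lit 17) (nat_lit 5) (nat_lit 16) (nat_lit 4) (nat_lit 352) (nat_lit 306) (nat_lit 242))))) (XT.nd (nat_lit 234) (nat_lit 152) (nat_lit 0) (XT.nd (nat_lit 78) (nat_lit 76) (nat_lit 0) (XT.lf (nat_lit 0) (nat_lit 3593749370) (nat_lit 76) (nat_lit 16977818355) (nat_lit 152) (nat_lit 51073567273) (nat_lit 14) (nat_lit 5) (nat_lit 15) (nat_lit 5) (nat_lit 16) (nat_lit 4) (nat_lit 353) (nat_lit 306) (nat_lit 241)) (XT.nd (nat_lit 78) (nat_lit 76) (nat_lit 0) (XT.lf (nat_lit 0) (nat_lit 39736732878)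 (nat_lit 152) (nat_lit 33634521538) (nat_lit 0) (nat_lit 2977398094) (nat_lit 14) (nat_lit 5) (nat_lit 16) (nat_lit 4) (nat_lit 14) (nat_lit 4) (nat_lit 354) (nat_lit 306) (nat_lit 240)) (XT.lf (nat_lit 0) (nat_lit 3318154080) (nat_lit 76) (nat_lit 57435383415) (nat_lit 76) (nat_lit 20658996554) (nat_lit 13) (nat_lit 4) (nat_lit 14) (nat_lit 5) (nat_lit 14) (nat_lit 4) (nat_lit 355) (nat_lit 306) (nat_lit 239)))) (XT.nd (nat_lit 78) (nat_lit 152) (nat_lit 0) (XT.lf (nat_lit 0) (nat_lit 44392287503) (nat_lit 76) (nat_lit 39626530745) (nat_lit 76) (nat_lit 2834354925) (nat_lit 13) (nat_lit 4) (nat_lit 14) (nat_lit 5) (nat_lit 14) (nat_lit 4) (nat_lit 356) (nat_lit 306) (nat_lit 238)) (XT.nd (nat_lit 78) (nat_lit 76) (nat_lit 0) (XT.lf (nat_lit 0) (nat_lit 15873176949) (nat_lit 152) (nat_lit 4266782481) (nat_lit 76) (nat_lit 72577174940) (nat_lit 12) (nat_lit 5) (nat_lit 14) (nat_lit 5) (nat_lit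 13) (nat_lit 4) (nat_lit 357) (nat_lit 306) (nat_lit 237)) (XT.lf (nat_lit 0) (nat_lit 36582655438) (nat_lit 152) (nat_lit 60919331608) (nat_lit 0) (nat_lit 1515672852) (nat_lit 11) (nat_lit 5) (nat_lit 13) (nat_lit 4) (nat_lit 11) (nat_lit 4) (nat_lit 358) (nat_lit 306) (nat_lit 236))))))) (XT.nd (nat_lit 936) (nat_lit 152) (nat_lit 0) (XT.nd (nat_lit 468) (nat_lit 228) (nat_lit 0) (XT.nd (nat_lit 234) (nat_lit 152) (nat_lit 0) (XT.nd (nat_lit 78) (nat_lit 76) (nat_lit 0) (XT.lf (nat_lit 0) (nat_lit 59348202390) (nat_lit 152) (nat_lit 22184779462) (nat_lit 0) (nat_lit 24269282865) (nat_lit 11) (nat_lit 5) (nat_lit 13) (nat_lit 4) (nat_lit 11) (nat_lit 4) (nat_lit 359) (nat_lit 306) (nat_lit 235)) (XT.nd (nat_lit 78) (nat_lit 0) (nat_lit 0) (XT.lf (nat_lit 0) (nat_lit 20269063629) (nat_lit 76) (nat_lit 63967729545) (nat_lit 76) (nat_lit 28877757300) (nat_lit 10) (nat_lit 4) (nat_lit 11)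 (nat_lit 5) (nat_lit 11) (nat_lit 4) (nat_lit 360) (nat_lit 306) (nat_lit 234)) (XT.lf (nat_lit 0) (nat_lit 66884441607) (nat_lit 76) (nat_lit 44604481744) (nat_lit 76) (nat_lit 9504275498) (nat_lit 10) (nat_lit 4) (nat_lit 11) (nat_lit 5) (nat_lit 11) (nat_lit 4) (nat_lit 361) (nat_lit 306) (nat_lit 233)))) (XT.nd (nat_lit 78) (nat_lit 76) (nat_lit 0) (XT.lf (nat_lit 0) (nat_lit 11040432366) (nat_lit 152) (nat_lit 12476795821) (nat_lit 76) (nat_lit 105976657320) (nat_lit 9) (nat_lit 5) (nat_lit 11) (nat_lit 5) (nat_lit 10) (nat_lit 4) (nat_lit 362) (nat_lit 306) (nat_lit 232)) (XT.nd (nat_lit 78) (nat_lit 0) (nat_lit 0) (XT.lf (nat_lit 0) (nat_lit 33369971065) (nat_lit 76) (nat_lit 39017834) (nat_lit 152) (nat_lit 105232186962) (nat_lit 8) (nat_lit 5) (nat_lit 9) (nat_lit 5) (nat_lit 10) (nat_lit 4) (nat_lit 363) (nat_lit 306) (nat_lit 231)) (XT.lf (nat_lit 0) (nat_lit 58171394089) (nat_lit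 152) (nat_lit 65601130807) (nat_lit 0) (nat_lit 24717508128) (nat_lit 8) (nat_lit 5) (nat_lit 10) (nat_lit 4) (nat_lit 8) (nat_lit 4) (nat_lit 364) (nat_lit 306) (nat_lit 230))))) (XT.nd (nat_lit 234) (nat_lit 152) (nat_lit 0) (XT.nd (nat_lit 78) (nat_lit 76) (nat_lit 0) (XT.lf (nat_lit 0) (nat_lit 84904511782) (nat_lit 152) (nat_lit 22779340900) (nat_lit 0) (nat_lit 51443461730) (nat_lit 8) (nat_lit 5) (nat_lit 10) (nat_lit 4) (nat_lit 8) (nat_lit 4) (nat_lit 365) (nat_lit 306) (nat_lit 229)) (XT.nd (nat_lit 78) (nat_lit 0) (nat_lit 0) (XT.lf (nat_lit 0) (nat_lit 24223847248) (nat_lit 76) (nat_lit 89920506170) (nat_lit 76) (nat_lit 56452822700) (nat_lit 7) (nat_lit 4) (nat_lit 8) (nat_lit 5) (nat_lit 8) (nat_lit 4) (nat_lit 366) (nat_lit 306) (nat_lit 228)) (XT.lf (nat_lit 0) (nat_lit 75781928394) (nat_lit 76) (nat_lit 70328584395) (nat_lit 76) (nat_lit 36854758871) (nat_lit 7) (nat_lit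 4) (nat_lit 8) (nat_lit 5) (nat_lit 8) (nat_lit 4) (nat_lit 367) (nat_lit 306) (nat_lit 227)))) (XT.nd (nat_lit 78) (nat_lit 152) (nat_lit 0) (XT.lf (nat_lit 0) (nat_lit 131447244021) (nat_lit 76) (nat_lit 49177766241) (nat_lit 76) (nat_lit 15698253630) (nat_lit 7) (nat_lit 4) (nat_lit 8) (nat_lit 5) (nat_lit 8) (nat_lit 4) (nat_lit 368) (nat_lit 306) (nat_lit 226)) (XT.nd (nat_lit 78) (nat_lit 76) (nat_lit 0) (XT.lf (nat_lit 0) (nat_lit 6913474225) (nat_lit 152) (nat_lit 19312156269) (nat_lit 76) (nat_lit 184519105409) (nat_lit 6) (nat_lit 5) (nat_lit 8) (nat_lit 5) (nat_lit 7) (nat_lit 4) (nat_lit 369) (nat_lit 306) (nat_lit 225)) (XT.lf (nat_lit 0) (nat_lit 30596197479) (nat_lit 76) (nat_lit 665193579) (nat_lit 152) (nat_lit 195021806216) (nat_lit 5) (nat_lit 5) (nat_lit 6) (nat_lit 5) (nat_lit 7) (nat_lit 4) (nat_lit 370) (nat_lit 306) (nat_lit 224)))))) (XT.nd (nat_lit 468) (nat_lit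 76) (nat_lit 0) (XT.nd (nat_lit 234) (nat_lit 76) (nat_lit 0) (XT.nd (nat_lit 78) (nat_lit 0) (nat_lit 0) (XT.lf (nat_lit 0) (nat_lit 58312108217) (nat_lit 152) (nat_lit 158301980132) (nat_lit 0) (nat_lit 26412899851) (nat_lit 5) (nat_lit 5) (nat_lit 7) (nat_lit 4) (nat_lit 5) (nat_lit 4) (nat_lit 371) (nat_lit 306) (nat_lit 223)) (XT.nd (nat_lit 78) (nat_lit 0) (nat_lit 0) (XT.lf (nat_lit 0) (nat_lit 87531096082) (nat_lit 152) (nat_lit 117951069976) (nat_lit 0) (nat_lit 55627906593) (nat_lit 5) (nat_lit 5) (nat_lit 7) (nat_lit 4) (nat_lit 5) (nat_lit 4) (nat_lit 372) (nat_lit 306) (nat_lit 222)) (XT.lf (nat_lit 0) (nat_lit 119081118676) (nat_lit 152) (nat_lit 74384767288) (nat_lit 0) (nat_lit 87174242963) (nat_lit 5) (nat_lit 5) (nat_lit 7) (nat_lit 4) (nat_lit 5) (nat_lit 4) (nat_lit 373) (nat_lit 306) (nat_lit 221)))) (XT.nd (nat_lit 78) (nat_lit 76) (nat_lit 0) (XT.lf (nat_lit 0) (nat_lit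 153149139096) (nat_lit 152) (nat_lit 27344901385) (nat_lit 0) (nat_lit 121238850212) (nat_lit 5) (nat_lit 5) (nat_lit 7) (nat_lit 4) (nat_lit 5) (nat_lit 4) (nat_lit 374) (nat_lit 306) (nat_lit 220)) (XT.nd (nat_lit 78) (nat_lit 0) (nat_lit 0) (XT.lf (nat_lit 0) (nat_lit 24222555544) (nat_lit 76) (nat_lit 166092668338) (nat_lit 76) (nat_lit 134179219111) (nat_lit 4) (nat_lit 4) (nat_lit 5) (nat_lit 5) (nat_lit 5) (nat_lit 4) (nat_lit 375) (nat_lit 306) (nat_lit 219)) (XT.lf (nat_lit 0) (nat_lit 80881487792) (nat_lit 76) (nat_lit 150044128398) (nat_lit 76) (nat_lit 118127752927) (nat_lit 4) (nat_lit 4) (nat_lit 5) (nat_lit 5) (nat_lit 5) (nat_lit 4) (nat_lit 376) (nat_lit 306) (nat_lit 218))))) (XT.nd (nat_lit 234) (nat_lit 76) (nat_lit 0) (XT.nd (nat_lit 78) (nat_lit 0) (nat_lit 0) (XT.lf (nat_lit 0) (nat_lit 142063506062) (nat_lit 76) (nat_lit 132716417337) (nat_lit 76) (nat_lit 100797332381)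 (nat_lit 4) (nat_lit 4) (nat_lit 5) (nat_lit 5) (nat_lit 5) (nat_lit 4) (nat_lit 377) (nat_lit 306) (nat_lit 217)) (XT.nd (nat_lit 78) (nat_lit 0) (nat_lit 0) (XT.lf (nat_lit 0) (nat_lit 208131170462) (nat_lit 76) (nat_lit 114006852425) (nat_lit 76) (nat_lit 82085258686) (nat_lit 4) (nat_lit 4) (nat_lit 5) (nat_lit 5) (nat_lit 5) (nat_lit 4) (nat_lit 378) (nat_lit 306) (nat_lit 216)) (XT.lf (nat_lit 0) (nat_lit 279475993077) (nat_lit 76) (nat_lit 93804562164) (nat_lit 76) (nat_lit 61880645479) (nat_lit 4) (nat_lit 4) (nat_lit 5) (nat_lit 5) (nat_lit 5) (nat_lit 4) (nat_lit 379) (nat_lit 306) (nat_lit 215)))) (XT.nd (nat_lit 78) (nat_lit 76) (nat_lit 0) (XT.lf (nat_lit 0) (nat_lit 356520758041) (nat_lit 76) (nat_lit 71989829280) (nat_lit 76) (nat_lit 40063761718) (nat_lit 4) (nat_lit 4) (nat_lit 5) (nat_lit 5) (nat_lit 5) (nat_lit 4) (nat_lit 380) (nat_lit 306) (nat_lit 214)) (XT.nd (nat_lit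 78) (nat_lit 76) (nat_lit 0) (XT.lf (nat_lit 0) (nat_lit 439722026924) (nat_lit 76) (nat_lit 48433381281) (nat_lit 76) (nat_lit 16505322166) (nat_lit 4) (nat_lit 4) (nat_lit 5) (nat_lit 5) (nat_lit 5) (nat_lit 4) (nat_lit 381) (nat_lit 306) (nat_lit 213)) (XT.lf (nat_lit 0) (nat_lit 8648326027) (nat_lit 152) (nat_lit 14200834787) (nat_lit 76) (nat_lit 520778054670) (nat_lit 3) (nat_lit 5) (nat_lit 5) (nat_lit 5) (nat_lit 4) (nat_lit 4) (nat_lit 382) (nat_lit 306) (nat_lit 212))))))))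
noncomputable def xc60 : XT := (XT.nd (nat_lit 41964) (nat_lit 0) (nat_lit 1672) (XT.nd (nat_lit 41028) (nat_lit 0) (nat_lit 6004) (XT.nd (nat_lit 390) (nat_lit 0) (nat_lit 0) (XT.nd (nat_lit 156) (nat_lit 0) (nat_lit 0) (XT.nd (nat_lit 78) (nat_lit 0) (nat_lit 0) (XT.lf (nat_lit 0) (nat_lit 35980599544) (nat_lit 152) (nat_lit 544110119457) (nat_lit 0) (nat_lit 5569541850) (nat_lit 2) (nat_lit 5) (nat_lit 4) (nat_lit 4) (nat_lit 2) (nat_lit 4) (nat_lit 383) (nat_lit 306) (nat_lit 211)) (XT.lf (nat_lit 0) (nat_lit 66133104661) (nat_lit 152) (nat_lit 529170621757) (nat_lit 0) (nat_lit 35720541292) (nat_lit 2) (nat_lit 5) (nat_lit 4) (nat_lit 4) (nat_lit 2) (nat_lit 4) (nat_lit 384) (nat_lit 306) (nat_lit 210))) (XT.nd (nat_lit 78) (nat_lit 0) (nat_lit 0) (XT.lf (nat_lit 0) (nat_lit 98694982884) (nat_lit 152) (nat_lit 513041528550) (nat_lit 0) (nat_lit 68281025371) (nat_lit 2) (nat_lit 5) (nat_lit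 4) (nat_lit 4) (nat_lit 2) (nat_lit 4) (nat_lit 385) (nat_lit 306) (nat_lit 209)) (XT.nd (nat_lit 78) (nat_lit 0) (nat_lit 0) (XT.lf (nat_lit 0) (nat_lit 133859193490) (nat_lit 152) (nat_lit 495627260025) (nat_lit 0) (nat_lit 103443945104) (nat_lit 2) (nat_lit 5) (nat_lit 4) (nat_lit 4) (nat_lit 2) (nat_lit 4) (nat_lit 386) (nat_lit 306) (nat_lit 208)) (XT.lf (nat_lit 0) (nat_lit 171834116989) (nat_lit 152) (nat_lit 476824620515) (nat_lit 0) (nat_lit 141417673349) (nat_lit 2) (nat_lit 5) (nat_lit 4) (nat_lit 4) (nat_lit 2) (nat_lit 4) (nat_lit 387) (nat_lit 306) (nat_lit 207))))) (XT.nd (nat_lit 234) (nat_lit 0) (nat_lit 0) (XT.nd (nat_lit 78) (nat_lit 0) (nat_lit 0) (XT.lf (nat_lit 0) (nat_lit 212844789962) (nat_lit 152) (nat_lit 456522186972) (nat_lit 0) (nat_lit 182427239607) (nat_lit 2) (nat_lit 5) (nat_lit 4) (nat_lit 4) (nat_lit 2) (nat_lit 4) (nat_lit 388) (nat_lit 306) (nat_lit 206))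 (XT.nd (nat_lit 78) (nat_lit 0) (nat_lit 0) (XT.lf (nat_lit 0) (nat_lit 257134238621) (nat_lit 152) (nat_lit 434599648680) (nat_lit 0) (nat_lit 226715663529) (nat_lit 2) (nat_lit 5) (nat_lit 4) (nat_lit 4) (nat_lit 2) (nat_lit 4) (nat_lit 389) (nat_lit 306) (nat_lit 205)) (XT.lf (nat_lit 0) (nat_lit 304964918957) (nat_lit 152) (nat_lit 410927094298) (nat_lit 0) (nat_lit 274545395034) (nat_lit 2) (nat_lit 5) (nat_lit 4) (nat_lit 4) (nat_lit 2) (nat_lit 4) (nat_lit 390) (nat_lit 306) (nat_lit 204)))) (XT.nd (nat_lit 78) (nat_lit 0) (nat_lit 0) (XT.lf (nat_lit 0) (nat_lit 356620272039) (nat_lit 152) (nat_lit 385364242025) (nat_lit 0) (nat_lit 326199869570) (nat_lit 2) (nat_lit 5) (nat_lit 4) (nat_lit 4) (nat_lit 2) (nat_lit 4) (nat_lit 391) (nat_lit 306) (nat_lit 203)) (XT.nd (nat_lit 40248) (nat_lit 0) (nat_lit 9652) (XT.lf (nat_lit 0) (nat_lit 412406403664) (nat_lit 152) (nat_lit 357759608291)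 (nat_lit 0) (nat_lit 381985187725) (nat_lit 2) (nat_lit 5) (nat_lit 4) (nat_lit 4) (nat_lit 2) (nat_lit 4) (nat_lit 392) (nat_lit 306) (nat_lit 202)) (XT.lf (nat_lit 0) (nat_lit 1430877045) (nat_lit 0) (nat_lit 1430877045) (nat_lit 532) (nat_lit 1070709770) (nat_lit 129) (nat_lit 5) (nat_lit 129) (nat_lit 3) (nat_lit 136) (nat_lit 3) (nat_lit 307) (nat_lit 307) (nat_lit 286)))))) (XT.nd (nat_lit 468) (nat_lit 2508) (nat_lit 0) (XT.nd (nat_lit 234) (nat_lit 532) (nat_lit 0) (XT.nd (nat_lit 78) (nat_lit 608) (nat_lit 0) (XT.lf (nat_lit 76) (nat_lit 1012224029) (nat_lit 0) (nat_lit 6877426588) (nat_lit 608) (nat_lit 190524631) (nat_lit 130) (nat_lit 5) (nat_lit 129) (nat_lit 5) (nat_lit 137) (nat_lit 5) (nat_lit 308) (nat_lit 307) (nat_lit 285)) (XT.nd (nat_lit 78) (nat_lit 0) (nat_lit 76) (XT.lf (nat_lit 0) (nat_lit 1798026617) (nat_lit 608) (nat_lit 816950154) (nat_lit 684) (nat_lit 5699260816)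 (nat_lit 121) (nat_lit 5) (nat_lit 129) (nat_lit 5) (nat_lit 130) (nat_lit 5) (nat_lit 309) (nat_lit 307) (nat_lit 284)) (XT.lf (nat_lit 0) (nat_lit 3887202578) (nat_lit 608) (nat_lit 2589609923) (nat_lit 684) (nat_lit 2092865098) (nat_lit 122) (nat_lit 5) (nat_lit 130) (nat_lit 5) (nat_lit 131) (nat_lit 5) (nat_lit 310) (nat_lit 307) (nat_lit 283)))) (XT.nd (nat_lit 78) (nat_lit 608) (nat_lit 0) (XT.lf (nat_lit 76) (nat_lit 4491761386) (nat_lit 0) (nat_lit 1613585699) (nat_lit 684) (nat_lit 2742317372) (nat_lit 123) (nat_lit 5) (nat_lit 122) (nat_lit 5) (nat_lit 131) (nat_lit 5) (nat_lit 311) (nat_lit 307) (nat_lit 282)) (XT.nd (nat_lit 78) (nat_lit 684) (nat_lit 0) (XT.lf (nat_lit 76) (nat_lit 3008522715) (nat_lit 0) (nat_lit 5486626144) (nat_lit 684) (nat_lit 653219420) (nat_lit 124) (nat_lit 5) (nat_lit 123) (nat_lit 5) (nat_lit 132) (nat_lit 5) (nat_lit 312) (nat_lit 307) (nat_lit 281))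 (XT.lf (nat_lit 76) (nat_lit 1527014940) (nat_lit 0) (nat_lit 4643770) (nat_lit 760) (nat_lit 7941386451) (nat_lit 115) (nat_lit 5) (nat_lit 114) (nat_lit 5) (nat_lit 124) (nat_lit 5) (nat_lit 313) (nat_lit 307) (nat_lit 280))))) (XT.nd (nat_lit 234) (nat_lit 1140) (nat_lit 0) (XT.nd (nat_lit 78) (nat_lit 1444) (nat_lit 0) (XT.lf (nat_lit 0) (nat_lit 3931268167) (nat_lit 684) (nat_lit 16157685) (nat_lit 76) (nat_lit 5872747331) (nat_lit 115) (nat_lit 5) (nat_lit 124) (nat_lit 5) (nat_lit 116) (nat_lit 5) (nat_lit 314) (nat_lit 307) (nat_lit 279)) (XT.nd (nat_lit 78) (nat_lit 760) (nat_lit 0) (XT.lf (nat_lit 0) (nat_lit 6564859897) (nat_lit 760) (nat_lit 1512261271) (nat_lit 76) (nat_lit 2115991967) (nat_lit 106) (nat_lit 5) (nat_lit 116) (nat_lit 5) (nat_lit 107) (nat_lit 5) (nat_lit 315) (nat_lit 307) (nat_lit 278)) (XT.lf (nat_lit 0) (nat_lit 7541206424) (nat_lit 760) (nat_lit 1932320754)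 (nat_lit 836) (nat_lit 1119273511) (nat_lit 96) (nat_lit 5) (nat_lit 106) (nat_lit 5) (nat_lit 107) (nat_lit 5) (nat_lit 316) (nat_lit 307) (nat_lit 277)))) (XT.nd (nat_lit 78) (nat_lit 684) (nat_lit 0) (XT.lf (nat_lit 0) (nat_lit 1627572948) (nat_lit 456) (nat_lit 4679707255) (nat_lit 76) (nat_lit 4711655143) (nat_lit 90) (nat_lit 5) (nat_lit 96) (nat_lit 5) (nat_lit 91) (nat_lit 5) (nat_lit 317) (nat_lit 307) (nat_lit 276)) (XT.nd (nat_lit 78) (nat_lit 380) (nat_lit 0) (XT.lf (nat_lit 0) (nat_lit 4621673265) (nat_lit 380) (nat_lit 6369775418) (nat_lit 76) (nat_lit 483566283) (nat_lit 86) (nat_lit 5) (nat_lit 91) (nat_lit 5) (nat_lit 87) (nat_lit 5) (nat_lit 318) (nat_lit 307) (nat_lit 275)) (XT.lf (nat_lit 0) (nat_lit 3777872776) (nat_lit 380) (nat_lit 4223824448) (nat_lit 456) (nat_lit 3958663610) (nat_lit 81) (nat_lit 5) (nat_lit 86) (nat_lit 5) (nat_lit 87) (nat_lit 5) (nat_lit 319)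 (nat_lit 307) (nat_lit 274))))))) (XT.nd (nat_lit 936) (nat_lit 1596) (nat_lit 0) (XT.nd (nat_lit 468) (nat_lit 1216) (nat_lit 0) (XT.nd (nat_lit 234) (nat_lit 836) (nat_lit 0) (XT.nd (nat_lit 78) (nat_lit 380) (nat_lit 0) (XT.lf (nat_lit 0) (nat_lit 2400872583) (nat_lit 304) (nat_lit 9353580708) (nat_lit 380) (nat_lit 725056847) (nat_lit 77) (nat_lit 5) (nat_lit 81) (nat_lit 5) (nat_lit 82) (nat_lit 5) (nat_lit 320) (nat_lit 307) (nat_lit 273)) (XT.nd (nat_lit 78) (nat_lit 0) (nat_lit 0) (XT.lf (nat_lit 0) (nat_lit 891746720) (nat_lit 304) (nat_lit 1924718047) (nat_lit 380) (nat_lit 10214758012) (nat_lit 72) (nat_lit 5) (nat_lit 76) (nat_lit 5) (nat_lit 77) (nat_lit 5) (nat_lit 321) (nat_lit 307) (nat_lit 272)) (XT.lf (nat_lit 0) (nat_lit 6802583949) (nat_lit 380) (nat_lit 738368002) (nat_lit 76) (nat_lit 6076267601) (nat_lit 72) (nat_lit 5) (nat_lit 77) (nat_lit 5) (nat_lit 73) (nat_lit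 5) (nat_lit 322) (nat_lit 307) (nat_lit 271)))) (XT.nd (nat_lit 78) (nat_lit 608) (nat_lit 0) (XT.lf (nat_lit 0) (nat_lit 11252718329) (nat_lit 304) (nat_lit 2432995640) (nat_lit 76) (nat_lit 557195578) (nat_lit 69) (nat_lit 5) (nat_lit 73) (nat_lit 5) (nat_lit 70) (nat_lit 5) (nat_lit 323) (nat_lit 307) (nat_lit 270)) (XT.nd (nat_lit 78) (nat_lit 228) (nat_lit 0) (XT.lf (nat_lit 0) (nat_lit 1336138091) (nat_lit 380) (nat_lit 4347595546) (nat_lit 76) (nat_lit 9222471373) (nat_lit 64) (nat_lit 5) (nat_lit 69) (nat_lit 5) (nat_lit 65) (nat_lit 5) (nat_lit 324) (nat_lit 307) (nat_lit 269)) (XT.lf (nat_lit 0) (nat_lit 6067866633) (nat_lit 304) (nat_lit 6463400633) (nat_lit 76) (nat_lit 3080700099) (nat_lit 61) (nat_lit 5) (nat_lit 65) (nat_lit 5) (nat_lit 62) (nat_lit 5) (nat_lit 325) (nat_lit 307) (nat_lit 268))))) (XT.nd (nat_lit 234) (nat_lit 456) (nat_lit 0) (XT.nd (nat_lit 78) (nat_lit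 532) (nat_lit 0) (XT.lf (nat_lit 0) (nat_lit 7556568481) (nat_lit 228) (nat_lit 3842203946) (nat_lit 304) (nat_lit 4964439077) (nat_lit 58) (nat_lit 5) (nat_lit 61) (nat_lit 5) (nat_lit 62) (nat_lit 5) (nat_lit 326) (nat_lit 307) (nat_lit 267)) (XT.nd (nat_lit 78) (nat_lit 228) (nat_lit 0) (XT.lf (nat_lit 0) (nat_lit 209866453) (nat_lit 304) (nat_lit 11406985470) (nat_lit 76) (nat_lit 5546380035) (nat_lit 54) (nat_lit 5) (nat_lit 58) (nat_lit 5) (nat_lit 55) (nat_lit 5) (nat_lit 327) (nat_lit 307) (nat_lit 266)) (XT.lf (nat_lit 0) (nat_lit 3650716004) (nat_lit 228) (nat_lit 2189102977) (nat_lit 304) (nat_lit 12172627304) (nat_lit 51) (nat_lit 5) (nat_lit 54) (nat_lit 5) (nat_lit 55) (nat_lit 5) (nat_lit 328) (nat_lit 307) (nat_lit 265)))) (XT.nd (nat_lit 78) (nat_lit 304) (nat_lit 0) (XT.lf (nat_lit 0) (nat_lit 1218946816) (nat_lit 152) (nat_lit 10985514534) (nat_lit 228) (nat_lit 6710961602)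 (nat_lit 49) (nat_lit 5) (nat_lit 51) (nat_lit 5) (nat_lit 52) (nat_lit 5) (nat_lit 329) (nat_lit 307) (nat_lit 264)) (XT.nd (nat_lit 78) (nat_lit 304) (nat_lit 0) (XT.lf (nat_lit 0) (nat_lit 18432098615) (nat_lit 152) (nat_lit 874347012) (nat_lit 228) (nat_lit 572820521) (nat_lit 49) (nat_lit 5) (nat_lit 51) (nat_lit 5) (nat_lit 52) (nat_lit 5) (nat_lit 330) (nat_lit 307) (nat_lit 263)) (XT.lf (nat_lit 0) (nat_lit 6226593191) (nat_lit 304) (nat_lit 4617518432) (nat_lit 76) (nat_lit 10053206736) (nat_lit 45) (nat_lit 5) (nat_lit 49) (nat_lit 5) (nat_lit 46) (nat_lit 5) (nat_lit 331) (nat_lit 307) (nat_lit 262)))))) (XT.nd (nat_lit 468) (nat_lit 760) (nat_lit 0) (XT.nd (nat_lit 234) (nat_lit 304) (nat_lit 0) (XT.nd (nat_lit 78) (nat_lit 380) (nat_lit 0) (XT.lf (nat_lit 0) (nat_lit 13754657177) (nat_lit 228) (nat_lit 8171251152) (nat_lit 76) (nat_lit 60228739) (nat_lit 43) (nat_lit 5) (nat_lit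 46) (nat_lit 5) (nat_lit 44) (nat_lit 5) (nat_lit 332) (nat_lit 307) (nat_lit 261)) (XT.nd (nat_lit 78) (nat_lit 228) (nat_lit 0) (XT.lf (nat_lit 0) (nat_lit 10809530739) (nat_lit 152) (nat_lit 11458469262) (nat_lit 228) (nat_lit 874937499) (nat_lit 41) (nat_lit 5) (nat_lit 43) (nat_lit 5) (nat_lit 44) (nat_lit 5) (nat_lit 333) (nat_lit 307) (nat_lit 260)) (XT.lf (nat_lit 0) (nat_lit 7056330735) (nat_lit 228) (nat_lit 17123685715) (nat_lit 76) (nat_lit 196146372) (nat_lit 38) (nat_lit 5) (nat_lit 41) (nat_lit 5) (nat_lit 39) (nat_lit 5) (nat_lit 334) (nat_lit 307) (nat_lit 259)))) (XT.nd (nat_lit 78) (nat_lit 152) (nat_lit 0) (XT.lf (nat_lit 0) (nat_lit 2953853972) (nat_lit 152) (nat_lit 13049026065) (nat_lit 228) (nat_lit 9683900106) (nat_lit 36) (nat_lit 5) (nat_lit 38) (nat_lit 5) (nat_lit 39) (nat_lit 5) (nat_lit 335) (nat_lit 307) (nat_lit 258)) (XT.nd (nat_lit 78) (nat_lit 152) (nat_lit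 0) (XT.lf (nat_lit 0) (nat_lit 25174896864) (nat_lit 152) (nat_lit 744171366) (nat_lit 228) (nat_lit 1170503975) (nat_lit 36) (nat_lit 5) (nat_lit 38) (nat_lit 5) (nat_lit 39) (nat_lit 5) (nat_lit 336) (nat_lit 307) (nat_lit 257)) (XT.lf (nat_lit 0) (nat_lit 8256842504) (nat_lit 152) (nat_lit 7739544775) (nat_lit 76) (nat_lit 12577470355) (nat_lit 34) (nat_lit 5) (nat_lit 36) (nat_lit 5) (nat_lit 35) (nat_lit 5) (nat_lit 337) (nat_lit 307) (nat_lit 256))))) (XT.nd (nat_lit 234) (nat_lit 304) (nat_lit 0) (XT.nd (nat_lit 78) (nat_lit 304) (nat_lit 0) (XT.lf (nat_lit 0) (nat_lit 15697337959) (nat_lit 152) (nat_lit 2951951761) (nat_lit 228) (nat_lit 11514057890) (nat_lit 32) (nat_lit 5) (nat_lit 34) (nat_lit 5) (nat_lit 35) (nat_lit 5) (nat_lit 338) (nat_lit 307) (nat_lit 255)) (XT.nd (nat_lit 78) (nat_lit 228) (nat_lit 0) (XT.lf (nat_lit 0) (nat_lit 9472255193) (nat_lit 76) (nat_lit 20821026850)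 (nat_lit 152) (nat_lit 1565723230) (nat_lit 31) (nat_lit 5) (nat_lit 32) (nat_lit 5) (nat_lit 33) (nat_lit 4) (nat_lit 339) (nat_lit 307) (nat_lit 254)) (XT.lf (nat_lit 0) (nat_lit 1964648520) (nat_lit 152) (nat_lit 7219239543) (nat_lit 228) (nat_lit 24484317543) (nat_lit 28) (nat_lit 5) (nat_lit 30) (nat_lit 5) (nat_lit 31) (nat_lit 5) (nat_lit 340) (nat_lit 307) (nat_lit 253)))) (XT.nd (nat_lit 78) (nat_lit 304) (nat_lit 0) (XT.lf (nat_lit 0) (nat_lit 21216320338) (nat_lit 228) (nat_lit 6752485467) (nat_lit 76) (nat_lit 7628180440) (nat_lit 28) (nat_lit 5) (nat_lit 31) (nat_lit 5) (nat_lit 29) (nat_lit 4) (nat_lit 341) (nat_lit 307) (nat_lit 252)) (XT.nd (nat_lit 78) (nat_lit 228) (nat_lit 0) (XT.lf (nat_lit 0) (nat_lit 20675433392) (nat_lit 76) (nat_lit 13947093008) (nat_lit 152) (nat_lit 3036996036) (nat_lit 27) (nat_lit 5) (nat_lit 28) (nat_lit 5) (nat_lit 29) (nat_lit 4) (nat_lit 342)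 (nat_lit 307) (nat_lit 251)) (XT.lf (nat_lit 0) (nat_lit 9200487105) (nat_lit 228) (nat_lit 29092801218) (nat_lit 76) (nat_lit 1572529360) (nat_lit 24) (nat_lit 5) (nat_lit 27) (nat_lit 5) (nat_lit 25) (nat_lit 4) (nat_lit 343) (nat_lit 307) (nat_lit 250))))))))
noncomputable def xc61 : XT := (XT.nd (nat_lit 1794) (nat_lit 456) (nat_lit 0) (XT.nd (nat_lit 858) (nat_lit 456) (nat_lit 0) (XT.nd (nat_lit 390) (nat_lit 456) (nat_lit 0) (XT.nd (nat_lit 156) (nat_lit 228) (nat_lit 0) (XT.nd (nat_lit 78) (nat_lit 76) (nat_lit 0) (XT.lf (nat_lit 0) (nat_lit 22816715162) (nat_lit 228) (nat_lit 1224281536) (nat_lit 76) (nat_lit 18179832968) (nat_lit 24) (nat_lit 5) (nat_lit 27) (nat_lit 5) (nat_lit 25) (nat_lit 4) (nat_lit 344) (nat_lit 307) (nat_lit 249)) (XT.lf (nat_lit 0) (nat_lit 29774455325) (nat_lit 76) (nat_lit 8183806199) (nat_lit 152) (nat_lit 6784189202) (nat_lit 23) (nat_lit 5) (nat_lit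 24) (nat_lit 5) (nat_lit 25) (nat_lit 4) (nat_lit 345) (nat_lit 307) (nat_lit 248))) (XT.nd (nat_lit 78) (nat_lit 76) (nat_lit 0) (XT.lf (nat_lit 0) (nat_lit 7018275856) (nat_lit 152) (nat_lit 31401434356) (nat_lit 76) (nat_lit 9021153608) (nat_lit 21) (nat_lit 5) (nat_lit 23) (nat_lit 5) (nat_lit 22) (nat_lit 4) (nat_lit 346) (nat_lit 307) (nat_lit 247)) (XT.nd (nat_lit 78) (nat_lit 76) (nat_lit 0) (XT.lf (nat_lit 0) (nat_lit 22066452556) (nat_lit 152) (nat_lit 586502859) (nat_lit 76) (nat_lit 27677681213) (nat_lit 21) (nat_lit 5) (nat_lit 23) (nat_lit 5) (nat_lit 22) (nat_lit 4) (nat_lit 347) (nat_lit 307) (nat_lit 246)) (XT.lf (nat_lit 0) (nat_lit 33727102842) (nat_lit 76) (nat_lit 5092974327) (nat_lit 152) (nat_lit 14606441298) (nat_lit 20) (nat_lit 5) (nat_lit 21) (nat_lit 5) (nat_lit 22) (nat_lit 4) (nat_lit 348) (nat_lit 307) (nat_lit 245))))) (XT.nd (nat_lit 234) (nat_lit 228) (nat_lit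 0) (XT.nd (nat_lit 78) (nat_lit 76) (nat_lit 0) (XT.lf (nat_lit 0) (nat_lit 571291488) (nat_lit 152) (nat_lit 42527004601) (nat_lit 76) (nat_lit 13650069645) (nat_lit 18) (nat_lit 5) (nat_lit 20) (nat_lit 5) (nat_lit 19) (nat_lit 4) (nat_lit 349) (nat_lit 307) (nat_lit 244)) (XT.nd (nat_lit 78) (nat_lit 76) (nat_lit 0) (XT.lf (nat_lit 0) (nat_lit 16869601024) (nat_lit 152) (nat_lit 9141047128) (nat_lit 76) (nat_lit 34292440934) (nat_lit 18) (nat_lit 5) (nat_lit 20) (nat_lit 5) (nat_lit 19) (nat_lit 4) (nat_lit 350) (nat_lit 307) (nat_lit 243)) (XT.lf (nat_lit 0) (nat_lit 27763933853) (nat_lit 76) (nat_lit 7119649346) (nat_lit 152) (nat_lit 29238021927) (nat_lit 17) (nat_lit 5) (nat_lit 18) (nat_lit 5) (nat_lit 19) (nat_lit 4) (nat_lit 351) (nat_lit 307) (nat_lit 242)))) (XT.nd (nat_lit 78) (nat_lit 228) (nat_lit 0) (XT.lf (nat_lit 0) (nat_lit 54686958158) (nat_lit 152) (nat_lit 539362892)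 (nat_lit 0) (nat_lit 13001872514) (nat_lit 17) (nat_lit 5) (nat_lit 19) (nat_lit 4) (nat_lit 17) (nat_lit 4) (nat_lit 352) (nat_lit 307) (nat_lit 241)) (XT.nd (nat_lit 78) (nat_lit 76) (nat_lit 0) (XT.lf (nat_lit 0) (nat_lit 4027163658) (nat_lit 152) (nat_lit 33448737198) (nat_lit 76) (nat_lit 35148496866) (nat_lit 15) (nat_lit 5) (nat_lit 17) (nat_lit 5) (nat_lit 16) (nat_lit 4) (nat_lit 353) (nat_lit 307) (nat_lit 240)) (XT.lf (nat_lit 0) (nat_lit 4598428550) (nat_lit 76) (nat_lit 17997062147) (nat_lit 152) (nat_lit 54762268337) (nat_lit 14) (nat_lit 5) (nat_lit 15) (nat_lit 5) (nat_lit 16) (nat_lit 4) (nat_lit 354) (nat_lit 307) (nat_lit 239)))))) (XT.nd (nat_lit 468) (nat_lit 228) (nat_lit 0) (XT.nd (nat_lit 234) (nat_lit 152) (nat_lit 0) (XT.nd (nat_lit 78) (nat_lit 76) (nat_lit 0) (XT.lf (nat_lit 0) (nat_lit 43270754848) (nat_lit 152) (nat_lit 35648548501) (nat_lit 0) (nat_lit 3519416003)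 (nat_lit 14) (nat_lit 5) (nat_lit 16) (nat_lit 4) (nat_lit 14) (nat_lit 4) (nat_lit 355) (nat_lit 307) (nat_lit 238)) (XT.nd (nat_lit 78) (nat_lit 0) (nat_lit 0) (XT.lf (nat_lit 0) (nat_lit 4230931098) (nat_lit 76) (nat_lit 61721776820) (nat_lit 76) (nat_lit 21955818567) (nat_lit 13) (nat_lit 4) (nat_lit 14) (nat_lit 5) (nat_lit 14) (nat_lit 4) (nat_lit 356) (nat_lit 307) (nat_lit 237)) (XT.lf (nat_lit 0) (nat_lit 48543045217) (nat_lit 76) (nat_lit 42511063142) (nat_lit 76) (nat_lit 2731568401) (nat_lit 13) (nat_lit 4) (nat_lit 14) (nat_lit 5) (nat_lit 14) (nat_lit 4) (nat_lit 357) (nat_lit 307) (nat_lit 236)))) (XT.nd (nat_lit 78) (nat_lit 76) (nat_lit 0) (XT.lf (nat_lit 0) (nat_lit 17438390126) (nat_lit 152) (nat_lit 4043328766) (nat_lit 76) (nat_lit 78637964454) (nat_lit 12) (nat_lit 5) (nat_lit 14) (nat_lit 5) (nat_lit 13) (nat_lit 4) (nat_lit 358) (nat_lit 307) (nat_lit 235)) (XT.nd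 (nat_lit 78) (nat_lit 0) (nat_lit 0) (XT.lf (nat_lit 0) (nat_lit 39795216622) (nat_lit 152) (nat_lit 65242514919) (nat_lit 0) (nat_lit 1886993876) (nat_lit 11) (nat_lit 5) (nat_lit 13) (nat_lit 4) (nat_lit 11) (nat_lit 4) (nat_lit 359) (nat_lit 307) (nat_lit 234)) (XT.lf (nat_lit 0) (nat_lit 64360825941) (nat_lit 152) (nat_lit 23449966248) (nat_lit 0) (nat_lit 26442369195) (nat_lit 11) (nat_lit 5) (nat_lit 13) (nat_lit 4) (nat_lit 11) (nat_lit 4) (nat_lit 360) (nat_lit 307) (nat_lit 233))))) (XT.nd (nat_lit 234) (nat_lit 76) (nat_lit 0) (XT.nd (nat_lit 78) (nat_lit 76) (nat_lit 0) (XT.lf (nat_lit 0) (nat_lit 22378037888) (nat_lit 76) (nat_lit 68850464150) (nat_lit 76) (nat_lit 30922531477) (nat_lit 10) (nat_lit 4) (nat_lit 11) (nat_lit 5) (nat_lit 11) (nat_lit 4) (nat_lit 361) (nat_lit 307) (nat_lit 232)) (XT.nd (nat_lit 78) (nat_lit 76) (nat_lit 0) (XT.lf (nat_lit 0) (nat_lit 72686538759)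 (nat_lit 76) (nat_lit 47955540507) (nat_lit 76) (nat_lit 10018833828) (nat_lit 10) (nat_lit 4) (nat_lit 11) (nat_lit 5) (nat_lit 11) (nat_lit 4) (nat_lit 362) (nat_lit 307) (nat_lit 231)) (XT.lf (nat_lit 0) (nat_lit 12143960563) (nat_lit 152) (nat_lit 13049711603) (nat_lit 76) (nat_lit 114648674614) (nat_lit 9) (nat_lit 5) (nat_lit 11) (nat_lit 5) (nat_lit 10) (nat_lit 4) (nat_lit 363) (nat_lit 307) (nat_lit 230)))) (XT.nd (nat_lit 78) (nat_lit 0) (nat_lit 0) (XT.lf (nat_lit 0) (nat_lit 36294442835) (nat_lit 152) (nat_lit 113278013363) (nat_lit 0) (nat_lit 149344688) (nat_lit 8) (nat_lit 5) (nat_lit 10) (nat_lit 4) (nat_lit 8) (nat_lit 4) (nat_lit 364) (nat_lit 307) (nat_lit 229)) (XT.nd (nat_lit 78) (nat_lit 0) (nat_lit 0) (XT.lf (nat_lit 0) (nat_lit 63022691483) (nat_lit 152) (nat_lit 70465675064) (nat_lit 0) (nat_lit 26870959917) (nat_lit 8) (nat_lit 5) (nat_lit 10) (nat_lit 4) (nat_lit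 8) (nat_lit 4) (nat_lit 365) (nat_lit 307) (nat_lit 228)) (XT.lf (nat_lit 0) (nat_lit 91879822601) (nat_lit 152) (nat_lit 24246552795) (nat_lit 0) (nat_lit 55721948982) (nat_lit 8) (nat_lit 5) (nat_lit 10) (nat_lit 4) (nat_lit 8) (nat_lit 4) (nat_lit 366) (nat_lit 307) (nat_lit 227))))))) (XT.nd (nat_lit 936) (nat_lit 152) (nat_lit 0) (XT.nd (nat_lit 468) (nat_lit 76) (nat_lit 0) (XT.nd (nat_lit 234) (nat_lit 152) (nat_lit 0) (XT.nd (nat_lit 78) (nat_lit 0) (nat_lit 0) (XT.lf (nat_lit 0) (nat_lit 26501456655) (nat_lit 76) (nat_lit 96949146765) (nat_lit 76) (nat_lit 60785586059) (nat_lit 7) (nat_lit 4) (nat_lit 8) (nat_lit 5) (nat_lit 8) (nat_lit 4) (nat_lit 367) (nat_lit 307) (nat_lit 226)) (XT.nd (nat_lit 78) (nat_lit 0) (nat_lit 0) (XT.lf (nat_lit 0) (nat_lit 82159021209) (nat_lit 76) (nat_lit 75802093463) (nat_lit 76) (nat_lit 39633266935) (nat_lit 7) (nat_lit 4) (nat_lit 8) (nat_lit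 5) (nat_lit 8) (nat_lit 4) (nat_lit 368) (nat_lit 307) (nat_lit 225)) (XT.lf (nat_lit 0) (nat_lit 142254262935) (nat_lit 76) (nat_lit 52970526721) (nat_lit 76) (nat_lit 16796824434) (nat_lit 7) (nat_lit 4) (nat_lit 8) (nat_lit 5) (nat_lit 8) (nat_lit 4) (nat_lit 369) (nat_lit 307) (nat_lit 224)))) (XT.nd (nat_lit 78) (nat_lit 76) (nat_lit 0) (XT.lf (nat_lit 0) (nat_lit 7607529237) (nat_lit 152) (nat_lit 20582781942) (nat_lit 76) (nat_lit 199406935356) (nat_lit 6) (nat_lit 5) (nat_lit 8) (nat_lit 5) (nat_lit 7) (nat_lit 4) (nat_lit 370) (nat_lit 307) (nat_lit 223)) (XT.nd (nat_lit 78) (nat_lit 0) (nat_lit 0) (XT.lf (nat_lit 0) (nat_lit 33306317328) (nat_lit 76) (nat_lit 590616519) (nat_lit 152) (nat_lit 210482169684) (nat_lit 5) (nat_lit 5) (nat_lit 6) (nat_lit 5) (nat_lit 7) (nat_lit 4) (nat_lit 371) (nat_lit 307) (nat_lit 222)) (XT.lf (nat_lit 0) (nat_lit 63103583081) (nat_lit 152) (nat_lit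 170718751157) (nat_lit 0) (nat_lit 28640471086) (nat_lit 5) (nat_lit 5) (nat_lit 7) (nat_lit 4) (nat_lit 5) (nat_lit 4) (nat_lit 372) (nat_lit 307) (nat_lit 221))))) (XT.nd (nat_lit 234) (nat_lit 76) (nat_lit 0) (XT.nd (nat_lit 78) (nat_lit 0) (nat_lit 0) (XT.lf (nat_lit 0) (nat_lit 94650719145) (nat_lit 152) (nat_lit 127158093180) (nat_lit 0) (nat_lit 60184193980) (nat_lit 5) (nat_lit 5) (nat_lit 7) (nat_lit 4) (nat_lit 5) (nat_lit 4) (nat_lit 373) (nat_lit 307) (nat_lit 220)) (XT.nd (nat_lit 78) (nat_lit 0) (nat_lit 0) (XT.lf (nat_lit 0) (nat_lit 128716066852) (nat_lit 152) (nat_lit 80123453862) (nat_lit 0) (nat_lit 94246381343) (nat_lit 5) (nat_lit 5) (nat_lit 7) (nat_lit 4) (nat_lit 5) (nat_lit 4) (nat_lit 374) (nat_lit 307) (nat_lit 219)) (XT.lf (nat_lit 0) (nat_lit 165501494929) (nat_lit 152) (nat_lit 29336109413) (nat_lit 0) (nat_lit 131028883177) (nat_lit 5) (nat_lit 5) (nat_lit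 7) (nat_lit 4) (nat_lit 5) (nat_lit 4) (nat_lit 375) (nat_lit 307) (nat_lit 218)))) (XT.nd (nat_lit 78) (nat_lit 0) (nat_lit 0) (XT.lf (nat_lit 0) (nat_lit 26348209457) (nat_lit 76) (nat_lit 179288151031) (nat_lit 76) (nat_lit 144812829793) (nat_lit 4) (nat_lit 4) (nat_lit 5) (nat_lit 5) (nat_lit 5) (nat_lit 4) (nat_lit 376) (nat_lit 307) (nat_lit 217)) (XT.nd (nat_lit 78) (nat_lit 0) (nat_lit 0) (XT.lf (nat_lit 0) (nat_lit 87525941510) (nat_lit 76) (nat_lit 161962537582) (nat_lit 76) (nat_lit 127484707562) (nat_lit 4) (nat_lit 4) (nat_lit 5) (nat_lit 5) (nat_lit 5) (nat_lit 4) (nat_lit 377) (nat_lit 307) (nat_lit 216)) (XT.lf (nat_lit 0) (nat_lit 153589637190) (nat_lit 76) (nat_lit 143254914903) (nat_lit 76) (nat_lit 108774761936) (nat_lit 4) (nat_lit 4) (nat_lit 5) (nat_lit 5) (nat_lit 5) (nat_lit 4) (nat_lit 378) (nat_lit 307) (nat_lit 215)))))) (XT.nd (nat_lit 468) (nat_lit 0) (nat_lit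 0) (XT.nd (nat_lit 234) (nat_lit 152) (nat_lit 0) (XT.nd (nat_lit 78) (nat_lit 0) (nat_lit 0) (XT.lf (nat_lit 0) (nat_lit 224930785064) (nat_lit 76) (nat_lit 123054423006) (nat_lit 76) (nat_lit 88572119163) (nat_lit 4) (nat_lit 4) (nat_lit 5) (nat_lit 5) (nat_lit 5) (nat_lit 4) (nat_lit 379) (nat_lit 307) (nat_lit 214)) (XT.nd (nat_lit 78) (nat_lit 0) (nat_lit 0) (XT.lf (nat_lit 0) (nat_lit 301972147491) (nat_lit 76) (nat_lit 101241355274) (nat_lit 76) (nat_lit 66757059878) (nat_lit 4) (nat_lit 4) (nat_lit 5) (nat_lit 5) (nat_lit 5) (nat_lit 4) (nat_lit 380) (nat_lit 307) (nat_lit 213)) (XT.lf (nat_lit 0) (nat_lit 385170265877) (nat_lit 76) (nat_lit 77686449082) (nat_lit 76) (nat_lit 43200309656) (nat_lit 4) (nat_lit 4) (nat_lit 5) (nat_lit 5) (nat_lit 5) (nat_lit 4) (nat_lit 381) (nat_lit 307) (nat_lit 212)))) (XT.nd (nat_lit 78) (nat_lit 152) (nat_lit 0) (XT.lf (nat_lit 0) (nat_lit 475018166108)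 (nat_lit 76) (nat_lit 52250119801) (nat_lit 76) (nat_lit 17762272940) (nat_lit 4) (nat_lit 4) (nat_lit 5) (nat_lit 5) (nat_lit 5) (nat_lit 4) (nat_lit 382) (nat_lit 307) (nat_lit 211)) (XT.nd (nat_lit 78) (nat_lit 76) (nat_lit 0) (XT.lf (nat_lit 0) (nat_lit 9397084149) (nat_lit 152) (nat_lit 15225405312) (nat_lit 76) (nat_lit 562492051871) (nat_lit 3) (nat_lit 5) (nat_lit 5) (nat_lit 5) (nat_lit 4) (nat_lit 4) (nat_lit 383) (nat_lit 307) (nat_lit 210)) (XT.lf (nat_lit 0) (nat_lit 38914207112) (nat_lit 152) (nat_lit 587530371487) (nat_lit 0) (nat_lit 6065738855) (nat_lit 2) (nat_lit 5) (nat_lit 4) (nat_lit 4) (nat_lit 2) (nat_lit 4) (nat_lit 384) (nat_lit 307) (nat_lit 209))))) (XT.nd (nat_lit 234) (nat_lit 0) (nat_lit 0) (XT.nd (nat_lit 78) (nat_lit 0) (nat_lit 0) (XT.lf (nat_lit 0) (nat_lit 71474826741) (nat_lit 152) (nat_lit 571403755269) (nat_lit 0) (nat_lit 38625067611) (nat_lit 2) (nat_lit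 5) (nat_lit 4) (nat_lit 4) (nat_lit 2) (nat_lit 4) (nat_lit 385) (nat_lit 307) (nat_lit 208)) (XT.nd (nat_lit 78) (nat_lit 0) (nat_lit 0) (XT.lf (nat_lit 0) (nat_lit 106637871984) (nat_lit 152) (nat_lit 553991780252) (nat_lit 0) (nat_lit 73786917600) (nat_lit 2) (nat_lit 5) (nat_lit 4) (nat_lit 4) (nat_lit 2) (nat_lit 4) (nat_lit 386) (nat_lit 307) (nat_lit 207)) (XT.lf (nat_lit 0) (nat_lit 144611716442) (nat_lit 152) (nat_lit 535191264362) (nat_lit 0) (nat_lit 111759655342) (nat_lit 2) (nat_lit 5) (nat_lit 4) (nat_lit 4) (nat_lit 2) (nat_lit 4) (nat_lit 387) (nat_lit 307) (nat_lit 206)))) (XT.nd (nat_lit 78) (nat_lit 0) (nat_lit 0) (XT.lf (nat_lit 0) (nat_lit 185621390303) (nat_lit 152) (nat_lit 514890797133) (nat_lit 0) (nat_lit 152768304467) (nat_lit 2) (nat_lit 5) (nat_lit 4) (nat_lit 4) (nat_lit 2) (nat_lit 4) (nat_lit 388) (nat_lit 307) (nat_lit 205)) (XT.nd (nat_lit 78) (nat_lit 0)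 (nat_lit 0) (XT.lf (nat_lit 0) (nat_lit 229909913859) (nat_lit 152) (nat_lit 492970079501) (nat_lit 0) (nat_lit 197055879192) (nat_lit 2) (nat_lit 5) (nat_lit 4) (nat_lit 4) (nat_lit 2) (nat_lit 4) (nat_lit 389) (nat_lit 307) (nat_lit 204)) (XT.lf (nat_lit 0) (nat_lit 277739737617) (nat_lit 152) (nat_lit 469299210918) (nat_lit 0) (nat_lit 244884824404) (nat_lit 2) (nat_lit 5) (nat_lit 4) (nat_lit 4) (nat_lit 2) (nat_lit 4) (nat_lit 390) (nat_lit 307) (nat_lit 203))))))))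
noncomputable def xc62 : XT := (XT.nd (nat_lit 42042) (nat_lit 0) (nat_lit 1140) (XT.nd (nat_lit 41106) (nat_lit 0) (nat_lit 3952) (XT.nd (nat_lit 40638) (nat_lit 0) (nat_lit 7144) (XT.nd (nat_lit 40404) (nat_lit 0) (nat_lit 8968) (XT.nd (nat_lit 78) (nat_lit 0) (nat_lit 0) (XT.lf (nat_lit 0) (nat_lit 329394297573) (nat_lit 152) (nat_lit 443737919568) (nat_lit 0) (nat_lit 296538570890) (nat_lit 2) (nat_lit 5) (nat_lit 4) (nat_lit 4) (nat_lit 2) (nat_lit 4) (nat_lit 391) (nat_lit 307) (nat_lit 202)) (XT.lf (nat_lit 0) (nat_lit 385179694820) (nat_lit 152) (nat_lit 416134731133) (nat_lit 0) (nat_lit 352323214925) (nat_lit 2) (nat_lit 5) (nat_lit 4) (nat_lit 4) (nat_lit 2) (nat_lit 4) (nat_lit 392) (nat_lit 307) (nat_lit 201))) (XT.nd (nat_lit 78) (nat_lit 0) (nat_lit 0) (XT.lf (nat_lit 0) (nat_lit 769935670) (nat_lit 684) (nat_lit 1690624765) (nat_lit 684) (nat_lit 1690624765) (nat_lit 120)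 (nat_lit 3) (nat_lit 129) (nat_lit 3) (nat_lit 129) (nat_lit 5) (nat_lit 308) (nat_lit 308) (nat_lit 284)) (XT.nd (nat_lit 78) (nat_lit 0) (nat_lit 76) (XT.lf (nat_lit 76) (nat_lit 3018277004) (nat_lit 0) (nat_lit 289991000) (nat_lit 684) (nat_lit 5238824432) (nat_lit 121) (nat_lit 5) (nat_lit 120) (nat_lit 3) (nat_lit 129) (nat_lit 5) (nat_lit 309) (nat_lit 308) (nat_lit 283)) (XT.lf (nat_lit 76) (nat_lit 1102888392) (nat_lit 0) (nat_lit 4099645106) (nat_lit 684) (nat_lit 3609842247) (nat_lit 122) (nat_lit 5) (nat_lit 121) (nat_lit 5) (nat_lit 130) (nat_lit 5) (nat_lit 310) (nat_lit 308) (nat_lit 282))))) (XT.nd (nat_lit 234) (nat_lit 1292) (nat_lit 0) (XT.nd (nat_lit 78) (nat_lit 684) (nat_lit 0) (XT.lf (nat_lit 0) (nat_lit 7212266861) (nat_lit 608) (nat_lit 758111730) (nat_lit 684) (nat_lit 1130495098) (nat_lit 122) (nat_lit 5) (nat_lit 130) (nat_lit 5) (nat_lit 131) (nat_lit 5) (nat_lit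 311) (nat_lit 308) (nat_lit 281)) (XT.nd (nat_lit 78) (nat_lit 0) (nat_lit 76) (XT.lf (nat_lit 0) (nat_lit 3901574) (nat_lit 684) (nat_lit 2609904237) (nat_lit 760) (nat_lit 6797203652) (nat_lit 113) (nat_lit 5) (nat_lit 122) (nat_lit 5) (nat_lit 123) (nat_lit 5) (nat_lit 312) (nat_lit 308) (nat_lit 280)) (XT.lf (nat_lit 0) (nat_lit 1994460205) (nat_lit 684) (nat_lit 4511974714) (nat_lit 760) (nat_lit 3237486034) (nat_lit 114) (nat_lit 5) (nat_lit 123) (nat_lit 5) (nat_lit 124) (nat_lit 5) (nat_lit 313) (nat_lit 308) (nat_lit 279)))) (XT.nd (nat_lit 78) (nat_lit 1368) (nat_lit 0) (XT.lf (nat_lit 76) (nat_lit 3665607134) (nat_lit 0) (nat_lit 499101144) (nat_lit 760) (nat_lit 5937877211) (nat_lit 115) (nat_lit 5) (nat_lit 114) (nat_lit 5) (nat_lit 124) (nat_lit 5) (nat_lit 314) (nat_lit 308) (nat_lit 278)) (XT.nd (nat_lit 78) (nat_lit 760) (nat_lit 0) (XT.lf (nat_lit 0) (nat_lit 2040878279)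 (nat_lit 684) (nat_lit 4554165176) (nat_lit 760) (nat_lit 3890708186) (nat_lit 106) (nat_lit 5) (nat_lit 115) (nat_lit 5) (nat_lit 116) (nat_lit 5) (nat_lit 315) (nat_lit 308) (nat_lit 277)) (XT.lf (nat_lit 0) (nat_lit 401356417) (nat_lit 760) (nat_lit 8866271010) (nat_lit 836) (nat_lit 1629674614) (nat_lit 96) (nat_lit 5) (nat_lit 106) (nat_lit 5) (nat_lit 107) (nat_lit 5) (nat_lit 316) (nat_lit 308) (nat_lit 276)))))) (XT.nd (nat_lit 468) (nat_lit 1368) (nat_lit 0) (XT.nd (nat_lit 234) (nat_lit 1064) (nat_lit 0) (XT.nd (nat_lit 78) (nat_lit 684) (nat_lit 0) (XT.lf (nat_lit 0) (nat_lit 906129995) (nat_lit 836) (nat_lit 1272208819) (nat_lit 76) (nat_lit 9156916962) (nat_lit 95) (nat_lit 5) (nat_lit 106) (nat_lit 5) (nat_lit 96) (nat_lit 5) (nat_lit 317) (nat_lit 308) (nat_lit 275)) (XT.nd (nat_lit 78) (nat_lit 304) (nat_lit 0) (XT.lf (nat_lit 0) (nat_lit 3709631168) (nat_lit 456) (nat_lit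 3036454407) (nat_lit 76) (nat_lit 5054827692) (nat_lit 90) (nat_lit 5) (nat_lit 96) (nat_lit 5) (nat_lit 91) (nat_lit 5) (nat_lit 318) (nat_lit 308) (nat_lit 274)) (XT.lf (nat_lit 0) (nat_lit 6830254572) (nat_lit 380) (nat_lit 4857186201) (nat_lit 76) (nat_lit 611832753) (nat_lit 86) (nat_lit 5) (nat_lit 91) (nat_lit 5) (nat_lit 87) (nat_lit 5) (nat_lit 319) (nat_lit 308) (nat_lit 273)))) (XT.nd (nat_lit 78) (nat_lit 684) (nat_lit 0) (XT.lf (nat_lit 0) (nat_lit 6014392750) (nat_lit 380) (nat_lit 4360276465) (nat_lit 456) (nat_lit 2454211762) (nat_lit 81) (nat_lit 5) (nat_lit 86) (nat_lit 5) (nat_lit 87) (nat_lit 5) (nat_lit 320) (nat_lit 308) (nat_lit 272)) (XT.nd (nat_lit 78) (nat_lit 304) (nat_lit 0) (XT.lf (nat_lit 0) (nat_lit 907889927) (nat_lit 380) (nat_lit 8884460417) (nat_lit 76) (nat_lit 3601367529) (nat_lit 76) (nat_lit 5) (nat_lit 81) (nat_lit 5) (nat_lit 77) (nat_lit 5) (nat_lit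 321) (nat_lit 308) (nat_lit 271)) (XT.lf (nat_lit 0) (nat_lit 2864922227) (nat_lit 304) (nat_lit 1749042029) (nat_lit 380) (nat_lit 9379786173) (nat_lit 72) (nat_lit 5) (nat_lit 76) (nat_lit 5) (nat_lit 77) (nat_lit 5) (nat_lit 322) (nat_lit 308) (nat_lit 270))))) (XT.nd (nat_lit 234) (nat_lit 760) (nat_lit 0) (XT.nd (nat_lit 78) (nat_lit 380) (nat_lit 0) (XT.lf (nat_lit 0) (nat_lit 1066951604) (nat_lit 228) (nat_lit 7756987094) (nat_lit 304) (nat_lit 5807540779) (nat_lit 69) (nat_lit 5) (nat_lit 72) (nat_lit 5) (nat_lit 73) (nat_lit 5) (nat_lit 323) (nat_lit 308) (nat_lit 269)) (XT.nd (nat_lit 78) (nat_lit 380) (nat_lit 0) (XT.lf (nat_lit 0) (nat_lit 13538367920) (nat_lit 304) (nat_lit 812579832) (nat_lit 76) (nat_lit 960956066) (nat_lit 69) (nat_lit 5) (nat_lit 73) (nat_lit 5) (nat_lit 70) (nat_lit 5) (nat_lit 324) (nat_lit 308) (nat_lit 268)) (XT.lf (nat_lit 0) (nat_lit 2775463096) (nat_lit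 380) (nat_lit 2914142544) (nat_lit 76) (nat_lit 10341445073) (nat_lit 64) (nat_lit 5) (nat_lit 69) (nat_lit 5) (nat_lit 65) (nat_lit 5) (nat_lit 325) (nat_lit 308) (nat_lit 267)))) (XT.nd (nat_lit 78) (nat_lit 532) (nat_lit 0) (XT.lf (nat_lit 0) (nat_lit 7820557440) (nat_lit 304) (nat_lit 5219578294) (nat_lit 76) (nat_lit 3756473168) (nat_lit 61) (nat_lit 5) (nat_lit 65) (nat_lit 5) (nat_lit 62) (nat_lit 5) (nat_lit 326) (nat_lit 308) (nat_lit 266)) (XT.nd (nat_lit 78) (nat_lit 304) (nat_lit 0) (XT.lf (nat_lit 0) (nat_lit 9845462024) (nat_lit 228) (nat_lit 3664900158) (nat_lit 304) (nat_lit 4101039642) (nat_lit 58) (nat_lit 5) (nat_lit 61) (nat_lit 5) (nat_lit 62) (nat_lit 5) (nat_lit 327) (nat_lit 308) (nat_lit 265)) (XT.lf (nat_lit 0) (nat_lit 1389976661) (nat_lit 304) (nat_lit 10618151169) (nat_lit 76) (nat_lit 6469218684) (nat_lit 54) (nat_lit 5) (nat_lit 58) (nat_lit 5) (nat_lit 55)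 (nat_lit 5) (nat_lit 328) (nat_lit 308) (nat_lit 264))))))) (XT.nd (nat_lit 936) (nat_lit 1064) (nat_lit 0) (XT.nd (nat_lit 468) (nat_lit 760) (nat_lit 0) (XT.nd (nat_lit 234) (nat_lit 532) (nat_lit 0) (XT.nd (nat_lit 78) (nat_lit 228) (nat_lit 0) (XT.lf (nat_lit 0) (nat_lit 5570225951) (nat_lit 228) (nat_lit 1839336619) (nat_lit 304) (nat_lit 11988031185) (nat_lit 51) (nat_lit 5) (nat_lit 54) (nat_lit 5) (nat_lit 55) (nat_lit 5) (nat_lit 329) (nat_lit 308) (nat_lit 263)) (XT.nd (nat_lit 78) (nat_lit 76) (nat_lit 0) (XT.lf (nat_lit 0) (nat_lit 2918770328) (nat_lit 152) (nat_lit 11315539580) (nat_lit 228) (nat_lit 6141005326) (nat_lit 49) (nat_lit 5) (nat_lit 51) (nat_lit 5) (nat_lit 52) (nat_lit 5) (nat_lit 330) (nat_lit 308) (nat_lit 262)) (XT.lf (nat_lit 0) (nat_lit 393198479) (nat_lit 228) (nat_lit 36274217) (nat_lit 76) (nat_lit 20990427321) (nat_lit 48) (nat_lit 5) (nat_lit 51) (nat_lit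 5) (nat_lit 49) (nat_lit 5) (nat_lit 331) (nat_lit 308) (nat_lit 261)))) (XT.nd (nat_lit 78) (nat_lit 304) (nat_lit 0) (XT.lf (nat_lit 0) (nat_lit 7673895869) (nat_lit 304) (nat_lit 3496194406) (nat_lit 76) (nat_lit 11351010200) (nat_lit 45) (nat_lit 5) (nat_lit 49) (nat_lit 5) (nat_lit 46) (nat_lit 5) (nat_lit 332) (nat_lit 308) (nat_lit 260)) (XT.nd (nat_lit 78) (nat_lit 152) (nat_lit 0) (XT.lf (nat_lit 0) (nat_lit 15764352402) (nat_lit 228) (nat_lit 7361643941) (nat_lit 76) (nat_lit 573061306) (nat_lit 43) (nat_lit 5) (nat_lit 46) (nat_lit 5) (nat_lit 44) (nat_lit 5) (nat_lit 333) (nat_lit 308) (nat_lit 259)) (XT.lf (nat_lit 0) (nat_lit 13074006949) (nat_lit 152) (nat_lit 11839251924) (nat_lit 228) (nat_lit 37455784) (nat_lit 41) (nat_lit 5) (nat_lit 43) (nat_lit 5) (nat_lit 44) (nat_lit 5) (nat_lit 334) (nat_lit 308) (nat_lit 258))))) (XT.nd (nat_lit 234) (nat_lit 380) (nat_lit 0) (XT.nd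 (nat_lit 78) (nat_lit 152) (nat_lit 0) (XT.lf (nat_lit 0) (nat_lit 8463856122) (nat_lit 228) (nat_lit 17092653618) (nat_lit 76) (nat_lit 727183434) (nat_lit 38) (nat_lit 5) (nat_lit 41) (nat_lit 5) (nat_lit 39) (nat_lit 5) (nat_lit 335) (nat_lit 308) (nat_lit 257)) (XT.nd (nat_lit 78) (nat_lit 0) (nat_lit 0) (XT.lf (nat_lit 0) (nat_lit 4530206666) (nat_lit 152) (nat_lit 13554398704) (nat_lit 228) (nat_lit 9616661209) (nat_lit 36) (nat_lit 5) (nat_lit 38) (nat_lit 5) (nat_lit 39) (nat_lit 5) (nat_lit 336) (nat_lit 308) (nat_lit 256)) (XT.lf (nat_lit 0) (nat_lit 28429670443) (nat_lit 152) (nat_lit 305048180) (nat_lit 228) (nat_lit 484560121) (nat_lit 36) (nat_lit 5) (nat_lit 38) (nat_lit 5) (nat_lit 39) (nat_lit 5) (nat_lit 337) (nat_lit 308) (nat_lit 255)))) (XT.nd (nat_lit 78) (nat_lit 228) (nat_lit 0) (XT.lf (nat_lit 0) (nat_lit 9642735102) (nat_lit 152) (nat_lit 7119170708) (nat_lit 76)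 (nat_lit 14061281896) (nat_lit 34) (nat_lit 5) (nat_lit 36) (nat_lit 5) (nat_lit 35) (nat_lit 5) (nat_lit 338) (nat_lit 308) (nat_lit 254)) (XT.nd (nat_lit 78) (nat_lit 76) (nat_lit 0) (XT.lf (nat_lit 0) (nat_lit 18138793849) (nat_lit 152) (nat_lit 2692566586) (nat_lit 228) (nat_lit 11710260385) (nat_lit 32) (nat_lit 5) (nat_lit 34) (nat_lit 5) (nat_lit 35) (nat_lit 5) (nat_lit 339) (nat_lit 308) (nat_lit 253)) (XT.lf (nat_lit 0) (nat_lit 11390058648) (nat_lit 76) (nat_lit 21990967842) (nat_lit 152) (nat_lit 993218240) (nat_lit 31) (nat_lit 5) (nat_lit 32) (nat_lit 5) (nat_lit 33) (nat_lit 4) (nat_lit 340) (nat_lit 308) (nat_lit 252)))))) (XT.nd (nat_lit 468) (nat_lit 456) (nat_lit 0) (XT.nd (nat_lit 234) (nat_lit 304) (nat_lit 0) (XT.nd (nat_lit 78) (nat_lit 76) (nat_lit 0) (XT.lf (nat_lit 0) (nat_lit 3253035585) (nat_lit 152) (nat_lit 7308623185) (nat_lit 228) (nat_lit 25767614966) (nat_lit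 28) (nat_lit 5) (nat_lit 30) (nat_lit 5) (nat_lit 31) (nat_lit 5) (nat_lit 341) (nat_lit 308) (nat_lit 251)) (XT.nd (nat_lit 78) (nat_lit 76) (nat_lit 0) (XT.lf (nat_lit 0) (nat_lit 23516108499) (nat_lit 228) (nat_lit 6222330576) (nat_lit 76) (nat_lit 8675964039) (nat_lit 28) (nat_lit 5) (nat_lit 31) (nat_lit 5) (nat_lit 29) (nat_lit 4) (nat_lit 342) (nat_lit 308) (nat_lit 250)) (XT.lf (nat_lit 0) (nat_lit 23353305524) (nat_lit 76) (nat_lit 14612862159) (nat_lit 152) (nat_lit 2677222827) (nat_lit 27) (nat_lit 5) (nat_lit 28) (nat_lit 5) (nat_lit 29) (nat_lit 4) (nat_lit 343) (nat_lit 308) (nat_lit 249)))) (XT.nd (nat_lit 78) (nat_lit 76) (nat_lit 0) (XT.lf (nat_lit 0) (nat_lit 10499234683) (nat_lit 228) (nat_lit 30401181344) (nat_lit 76) (nat_lit 2126353720) (nat_lit 24) (nat_lit 5) (nat_lit 27) (nat_lit 5) (nat_lit 25) (nat_lit 4) (nat_lit 344) (nat_lit 308) (nat_lit 248)) (XT.nd (nat_lit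 78) (nat_lit 76) (nat_lit 0) (XT.lf (nat_lit 0) (nat_lit 25163078865) (nat_lit 228) (nat_lit 378664826) (nat_lit 76) (nat_lit 20030536283) (nat_lit 24) (nat_lit 5) (nat_lit 27) (nat_lit 5) (nat_lit 25) (nat_lit 4) (nat_lit 345) (nat_lit 308) (nat_lit 247)) (XT.lf (nat_lit 0) (nat_lit 33058965050) (nat_lit 76) (nat_lit 8432480717) (nat_lit 152) (nat_lit 6805422311) (nat_lit 23) (nat_lit 5) (nat_lit 24) (nat_lit 5) (nat_lit 25) (nat_lit 4) (nat_lit 346) (nat_lit 308) (nat_lit 246))))) (XT.nd (nat_lit 234) (nat_lit 228) (nat_lit 0) (XT.nd (nat_lit 78) (nat_lit 76) (nat_lit 0) (XT.lf (nat_lit 0) (nat_lit 8067104049) (nat_lit 152) (nat_lit 33016141241) (nat_lit 76) (nat_lit 10128384816) (nat_lit 21) (nat_lit 5) (nat_lit 23) (nat_lit 5) (nat_lit 22) (nat_lit 4) (nat_lit 347) (nat_lit 308) (nat_lit 245)) (XT.nd (nat_lit 78) (nat_lit 0) (nat_lit 0) (XT.lf (nat_lit 0) (nat_lit 204040695) (nat_lit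 76) (nat_lit 24082178641) (nat_lit 152) (nat_lit 30048021144) (nat_lit 20) (nat_lit 5) (nat_lit 21) (nat_lit 5) (nat_lit 22) (nat_lit 4) (nat_lit 348) (nat_lit 308) (nat_lit 244)) (XT.lf (nat_lit 0) (nat_lit 37220092932) (nat_lit 76) (nat_lit 5135837705) (nat_lit 152) (nat_lit 15323081618) (nat_lit 20) (nat_lit 5) (nat_lit 21) (nat_lit 5) (nat_lit 22) (nat_lit 4) (nat_lit 349) (nat_lit 308) (nat_lit 243)))) (XT.nd (nat_lit 78) (nat_lit 76) (nat_lit 0) (XT.lf (nat_lit 0) (nat_lit 1039669447) (nat_lit 152) (nat_lit 45139564753) (nat_lit 76) (nat_lit 15087765364) (nat_lit 18) (nat_lit 5) (nat_lit 20) (nat_lit 5) (nat_lit 19) (nat_lit 4) (nat_lit 350) (nat_lit 308) (nat_lit 242)) (XT.nd (nat_lit 78) (nat_lit 76) (nat_lit 0) (XT.lf (nat_lit 0) (nat_lit 18610534514) (nat_lit 152) (nat_lit 9141219587) (nat_lit 76) (nat_lit 37355919679) (nat_lit 18) (nat_lit 5) (nat_lit 20) (nat_lit 5) (nat_lit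 19) (nat_lit 4) (nat_lit 351) (nat_lit 308) (nat_lit 241)) (XT.lf (nat_lit 0) (nat_lit 30684386666) (nat_lit 76) (nat_lit 7363177194) (nat_lit 152) (nat_lit 31185017787) (nat_lit 17) (nat_lit 5) (nat_lit 18) (nat_lit 5) (nat_lit 19) (nat_lit 4) (nat_lit 352) (nat_lit 308) (nat_lit 240))))))))
noncomputable def xc63 : XT := (XT.nd (nat_lit 1794) (nat_lit 228) (nat_lit 0) (XT.nd (nat_lit 858) (nat_lit 380) (nat_lit 0) (XT.nd (nat_lit 390) (nat_lit 228) (nat_lit 0) (XT.nd (nat_lit 156) (nat_lit 152) (nat_lit 0) (XT.nd (nat_lit 78) (nat_lit 76) (nat_lit 0) (XT.lf (nat_lit 0) (nat_lit 80241042) (nat_lit 76) (nat_lit 59333282545) (nat_lit 76) (nat_lit 14255264294) (nat_lit 16) (nat_lit 4) (nat_lit 17) (nat_lit 5) (nat_lit 17) (nat_lit 4) (nat_lit 353) (nat_lit 308) (nat_lit 239)) (XT.lf (nat_lit 0) (nat_lit 4689151914) (nat_lit 152) (nat_lit 35481835233) (nat_lit 76) (nat_lit 38246300445) (nat_lit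 15) (nat_lit 5) (nat_lit 17) (nat_lit 5) (nat_lit 16) (nat_lit 4) (nat_lit 354) (nat_lit 308) (nat_lit 238))) (XT.nd (nat_lit 78) (nat_lit 76) (nat_lit 0) (XT.lf (nat_lit 0) (nat_lit 5581168430) (nat_lit 76) (nat_lit 19146204967) (nat_lit 152) (nat_lit 58802728270) (nat_lit 14) (nat_lit 5) (nat_lit 15) (nat_lit 5) (nat_lit 16) (nat_lit 4) (nat_lit 355) (nat_lit 308) (nat_lit 237)) (XT.nd (nat_lit 78) (nat_lit 76) (nat_lit 0) (XT.lf (nat_lit 0) (nat_lit 47036841968) (nat_lit 152) (nat_lit 37920241401) (nat_lit 0) (nat_lit 4061451160) (nat_lit 14) (nat_lit 5) (nat_lit 16) (nat_lit 4) (nat_lit 14) (nat_lit 4) (nat_lit 356) (nat_lit 308) (nat_lit 236)) (XT.lf (nat_lit 0) (nat_lit 5124382173) (nat_lit 76) (nat_lit 66395083722) (nat_lit 76) (nat_lit 23407159128) (nat_lit 13) (nat_lit 4) (nat_lit 14) (nat_lit 5) (nat_lit 14) (nat_lit 4) (nat_lit 357) (nat_lit 308) (nat_lit 235))))) (XT.nd (nat_lit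 234) (nat_lit 76) (nat_lit 0) (XT.nd (nat_lit 78) (nat_lit 152) (nat_lit 0) (XT.lf (nat_lit 0) (nat_lit 52940356045) (nat_lit 76) (nat_lit 45667100745) (nat_lit 76) (nat_lit 2667570795) (nat_lit 13) (nat_lit 4) (nat_lit 14) (nat_lit 5) (nat_lit 14) (nat_lit 4) (nat_lit 358) (nat_lit 308) (nat_lit 234)) (XT.nd (nat_lit 78) (nat_lit 76) (nat_lit 0) (XT.lf (nat_lit 0) (nat_lit 19086684091) (nat_lit 152) (nat_lit 3882573263) (nat_lit 76) (nat_lit 85147293378) (nat_lit 12) (nat_lit 5) (nat_lit 14) (nat_lit 5) (nat_lit 13) (nat_lit 4) (nat_lit 359) (nat_lit 308) (nat_lit 233)) (XT.lf (nat_lit 0) (nat_lit 43223988914) (nat_lit 152) (nat_lit 69990068361) (nat_lit 0) (nat_lit 2252345701) (nat_lit 11) (nat_lit 5) (nat_lit 13) (nat_lit 4) (nat_lit 11) (nat_lit 4) (nat_lit 360) (nat_lit 308) (nat_lit 232)))) (XT.nd (nat_lit 78) (nat_lit 76) (nat_lit 0) (XT.lf (nat_lit 0) (nat_lit 69736687352) (nat_lit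 152) (nat_lit 24889067481) (nat_lit 0) (nat_lit 28756270133) (nat_lit 11) (nat_lit 5) (nat_lit 13) (nat_lit 4) (nat_lit 11) (nat_lit 4) (nat_lit 361) (nat_lit 308) (nat_lit 231)) (XT.nd (nat_lit 78) (nat_lit 0) (nat_lit 0) (XT.lf (nat_lit 0) (nat_lit 24586190015) (nat_lit 76) (nat_lit 74157297785) (nat_lit 76) (nat_lit 33168756486) (nat_lit 10) (nat_lit 4) (nat_lit 11) (nat_lit 5) (nat_lit 11) (nat_lit 4) (nat_lit 362) (nat_lit 308) (nat_lit 230)) (XT.lf (nat_lit 0) (nat_lit 78888414726) (nat_lit 76) (nat_lit 51605684213) (nat_lit 76) (nat_lit 10609620618) (nat_lit 10) (nat_lit 4) (nat_lit 11) (nat_lit 5) (nat_lit 11) (nat_lit 4) (nat_lit 363) (nat_lit 308) (nat_lit 229)))))) (XT.nd (nat_lit 468) (nat_lit 152) (nat_lit 0) (XT.nd (nat_lit 234) (nat_lit 76) (nat_lit 0) (XT.nd (nat_lit 78) (nat_lit 76) (nat_lit 0) (XT.lf (nat_lit 0) (nat_lit 13304343670) (nat_lit 152) (nat_lit 13729124160)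 (nat_lit 76) (nat_lit 123986793471) (nat_lit 9) (nat_lit 5) (nat_lit 11) (nat_lit 5) (nat_lit 10) (nat_lit 4) (nat_lit 364) (nat_lit 308) (nat_lit 228)) (XT.nd (nat_lit 78) (nat_lit 0) (nat_lit 0) (XT.lf (nat_lit 0) (nat_lit 39380948139) (nat_lit 152) (nat_lit 121985119055) (nat_lit 0) (nat_lit 324302576) (nat_lit 8) (nat_lit 5) (nat_lit 10) (nat_lit 4) (nat_lit 8) (nat_lit 4) (nat_lit 365) (nat_lit 308) (nat_lit 227)) (XT.lf (nat_lit 0) (nat_lit 68233904835) (nat_lit 152) (nat_lit 75774100015) (nat_lit 0) (nat_lit 29171572186) (nat_lit 8) (nat_lit 5) (nat_lit 10) (nat_lit 4) (nat_lit 8) (nat_lit 4) (nat_lit 366) (nat_lit 308) (nat_lit 226)))) (XT.nd (nat_lit 78) (nat_lit 76) (nat_lit 0) (XT.lf (nat_lit 0) (nat_lit 99387058441) (nat_lit 152) (nat_lit 25881805673) (nat_lit 0) (nat_lit 60319459970) (nat_lit 8) (nat_lit 5) (nat_lit 10) (nat_lit 4) (nat_lit 8) (nat_lit 4) (nat_lit 367) (nat_lit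 308) (nat_lit 225)) (XT.nd (nat_lit 78) (nat_lit 0) (nat_lit 0) (XT.lf (nat_lit 0) (nat_lit 28912812580) (nat_lit 76) (nat_lit 104563617688) (nat_lit 76) (nat_lit 65491143457) (nat_lit 7) (nat_lit 4) (nat_lit 8) (nat_lit 5) (nat_lit 8) (nat_lit 4) (nat_lit 368) (nat_lit 308) (nat_lit 224)) (XT.lf (nat_lit 0) (nat_lit 89001409010) (nat_lit 76) (nat_lit 81735278700) (nat_lit 76) (nat_lit 42658289877) (nat_lit 7) (nat_lit 4) (nat_lit 8) (nat_lit 5) (nat_lit 8) (nat_lit 4) (nat_lit 369) (nat_lit 308) (nat_lit 223))))) (XT.nd (nat_lit 234) (nat_lit 0) (nat_lit 0) (XT.nd (nat_lit 78) (nat_lit 152) (nat_lit 0) (XT.lf (nat_lit 0) (nat_lit 153884294806) (nat_lit 76) (nat_lit 57086889008) (nat_lit 76) (nat_lit 18005720006) (nat_lit 7) (nat_lit 4) (nat_lit 8) (nat_lit 5) (nat_lit 8) (nat_lit 4) (nat_lit 370) (nat_lit 308) (nat_lit 222)) (XT.nd (nat_lit 78) (nat_lit 76) (nat_lit 0) (XT.lf (nat_lit 0)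 (nat_lit 8336996695) (nat_lit 152) (nat_lit 21994196310) (nat_lit 76) (nat_lit 215467773376) (nat_lit 6) (nat_lit 5) (nat_lit 8) (nat_lit 5) (nat_lit 7) (nat_lit 4) (nat_lit 371) (nat_lit 308) (nat_lit 221)) (XT.lf (nat_lit 0) (nat_lit 36195809040) (nat_lit 76) (nat_lit 528304329) (nat_lit 152) (nat_lit 227199531814) (nat_lit 5) (nat_lit 5) (nat_lit 6) (nat_lit 5) (nat_lit 7) (nat_lit 4) (nat_lit 372) (nat_lit 308) (nat_lit 220)))) (XT.nd (nat_lit 78) (nat_lit 0) (nat_lit 0) (XT.lf (nat_lit 0) (nat_lit 68260328409) (nat_lit 152) (nat_lit 184164156441) (nat_lit 0) (nat_lit 31029907716) (nat_lit 5) (nat_lit 5) (nat_lit 7) (nat_lit 4) (nat_lit 5) (nat_lit 4) (nat_lit 373) (nat_lit 308) (nat_lit 219)) (XT.nd (nat_lit 78) (nat_lit 0) (nat_lit 0) (XT.lf (nat_lit 0) (nat_lit 102323201382) (nat_lit 152) (nat_lit 137134356552) (nat_lit 0) (nat_lit 65089854446) (nat_lit 5) (nat_lit 5) (nat_lit 7)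 (nat_lit 4) (nat_lit 5) (nat_lit 4) (nat_lit 374) (nat_lit 308) (nat_lit 218)) (XT.lf (nat_lit 0) (nat_lit 139106338039) (nat_lit 152) (nat_lit 86351493058) (nat_lit 0) (nat_lit 101870281617) (nat_lit 5) (nat_lit 5) (nat_lit 7) (nat_lit 4) (nat_lit 5) (nat_lit 4) (nat_lit 375) (nat_lit 308) (nat_lit 217))))))) (XT.nd (nat_lit 936) (nat_lit 0) (nat_lit 0) (XT.nd (nat_lit 468) (nat_lit 152) (nat_lit 0) (XT.nd (nat_lit 234) (nat_lit 0) (nat_lit 0) (XT.nd (nat_lit 78) (nat_lit 76) (nat_lit 0) (XT.lf (nat_lit 0) (nat_lit 178827712522) (nat_lit 152) (nat_lit 31514630468) (nat_lit 0) (nat_lit 141589147318) (nat_lit 5) (nat_lit 5) (nat_lit 7) (nat_lit 4) (nat_lit 5) (nat_lit 4) (nat_lit 376) (nat_lit 308) (nat_lit 216)) (XT.nd (nat_lit 78) (nat_lit 0) (nat_lit 0) (XT.lf (nat_lit 0) (nat_lit 28617116856) (nat_lit 76) (nat_lit 193552387292) (nat_lit 76) (nat_lit 156311499141) (nat_lit 4) (nat_lit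 4) (nat_lit 5) (nat_lit 5) (nat_lit 5) (nat_lit 4) (nat_lit 377) (nat_lit 308) (nat_lit 215)) (XT.lf (nat_lit 0) (nat_lit 94677137796) (nat_lit 76) (nat_lit 174846562976) (nat_lit 76) (nat_lit 137603523949) (nat_lit 4) (nat_lit 4) (nat_lit 5) (nat_lit 5) (nat_lit 5) (nat_lit 4) (nat_lit 378) (nat_lit 308) (nat_lit 214)))) (XT.nd (nat_lit 78) (nat_lit 0) (nat_lit 0) (XT.lf (nat_lit 0) (nat_lit 166014883133) (nat_lit 76) (nat_lit 154647736232) (nat_lit 76) (nat_lit 117402705652) (nat_lit 4) (nat_lit 4) (nat_lit 5) (nat_lit 5) (nat_lit 5) (nat_lit 4) (nat_lit 379) (nat_lit 308) (nat_lit 213)) (XT.nd (nat_lit 78) (nat_lit 0) (nat_lit 0) (XT.lf (nat_lit 0) (nat_lit 243053095062) (nat_lit 76) (nat_lit 132836210306) (nat_lit 76) (nat_lit 95589335696) (nat_lit 4) (nat_lit 4) (nat_lit 5) (nat_lit 5) (nat_lit 5) (nat_lit 4) (nat_lit 380) (nat_lit 308) (nat_lit 212)) (XT.lf (nat_lit 0) (nat_lit 326248296320)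 (nat_lit 76) (nat_lit 109282731714) (nat_lit 76) (nat_lit 72034149669) (nat_lit 4) (nat_lit 4) (nat_lit 5) (nat_lit 5) (nat_lit 5) (nat_lit 4) (nat_lit 381) (nat_lit 308) (nat_lit 211))))) (XT.nd (nat_lit 234) (nat_lit 76) (nat_lit 0) (XT.nd (nat_lit 78) (nat_lit 76) (nat_lit 0) (XT.lf (nat_lit 0) (nat_lit 416093495508) (nat_lit 76) (nat_lit 83847724285) (nat_lit 76) (nat_lit 46597561281) (nat_lit 4) (nat_lit 4) (nat_lit 5) (nat_lit 5) (nat_lit 5) (nat_lit 4) (nat_lit 382) (nat_lit 308) (nat_lit 210)) (XT.nd (nat_lit 78) (nat_lit 76) (nat_lit 0) (XT.lf (nat_lit 0) (nat_lit 513121108620) (nat_lit 76) (nat_lit 56380462049) (nat_lit 76) (nat_lit 19128835195) (nat_lit 4) (nat_lit 4) (nat_lit 5) (nat_lit 5) (nat_lit 5) (nat_lit 4) (nat_lit 383) (nat_lit 308) (nat_lit 209)) (XT.lf (nat_lit 0) (nat_lit 10197626635) (nat_lit 152) (nat_lit 16347847667) (nat_lit 76) (nat_lit 607535785728) (nat_lit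 3) (nat_lit 5) (nat_lit 5) (nat_lit 5) (nat_lit 4) (nat_lit 4) (nat_lit 384) (nat_lit 308) (nat_lit 208)))) (XT.nd (nat_lit 78) (nat_lit 0) (nat_lit 0) (XT.lf (nat_lit 0) (nat_lit 42074634151) (nat_lit 152) (nat_lit 634439730623) (nat_lit 0) (nat_lit 6594408163) (nat_lit 2) (nat_lit 5) (nat_lit 4) (nat_lit 4) (nat_lit 2) (nat_lit 4) (nat_lit 385) (nat_lit 308) (nat_lit 207)) (XT.nd (nat_lit 78) (nat_lit 0) (nat_lit 0) (XT.lf (nat_lit 0) (nat_lit 77236600353) (nat_lit 152) (nat_lit 617029879225) (nat_lit 0) (nat_lit 41755267649) (nat_lit 2) (nat_lit 5) (nat_lit 4) (nat_lit 4) (nat_lit 2) (nat_lit 4) (nat_lit 386) (nat_lit 308) (nat_lit 206)) (XT.lf (nat_lit 0) (nat_lit 115209445698) (nat_lit 152) (nat_lit 598231329649) (nat_lit 0) (nat_lit 79727088258) (nat_lit 2) (nat_lit 5) (nat_lit 4) (nat_lit 4) (nat_lit 2) (nat_lit 4) (nat_lit 387) (nat_lit 308) (nat_lit 205)))))) (XT.nd (nat_lit 40872)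 (nat_lit 0) (nat_lit 7904) (XT.nd (nat_lit 234) (nat_lit 0) (nat_lit 0) (XT.nd (nat_lit 78) (nat_lit 0) (nat_lit 0) (XT.lf (nat_lit 0) (nat_lit 156218194456) (nat_lit 152) (nat_lit 577932683082) (nat_lit 0) (nat_lit 120734888186) (nat_lit 2) (nat_lit 5) (nat_lit 4) (nat_lit 4) (nat_lit 2) (nat_lit 4) (nat_lit 388) (nat_lit 308) (nat_lit 204)) (XT.nd (nat_lit 78) (nat_lit 0) (nat_lit 0) (XT.lf (nat_lit 0) (nat_lit 200505861434) (nat_lit 152) (nat_lit 556013651247) (nat_lit 0) (nat_lit 165021676617) (nat_lit 2) (nat_lit 5) (nat_lit 4) (nat_lit 4) (nat_lit 2) (nat_lit 4) (nat_lit 389) (nat_lit 308) (nat_lit 203)) (XT.lf (nat_lit 0) (nat_lit 248334892066) (nat_lit 152) (nat_lit 532344343587) (nat_lit 0) (nat_lit 212849893779) (nat_lit 2) (nat_lit 5) (nat_lit 4) (nat_lit 4) (nat_lit 2) (nat_lit 4) (nat_lit 390) (nat_lit 308) (nat_lit 202)))) (XT.nd (nat_lit 40482) (nat_lit 0) (nat_lit 8968) (XT.lf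 (nat_lit 0) (nat_lit 299988717645) (nat_lit 152) (nat_lit 506784497537) (nat_lit 0) (nat_lit 264502966145) (nat_lit 2) (nat_lit 5) (nat_lit 4) (nat_lit 4) (nat_lit 2) (nat_lit 4) (nat_lit 391) (nat_lit 308) (nat_lit 201)) (XT.nd (nat_lit 78) (nat_lit 0) (nat_lit 0) (XT.lf (nat_lit 0) (nat_lit 2451293275) (nat_lit 684) (nat_lit 974507400) (nat_lit 684) (nat_lit 974507400) (nat_lit 120) (nat_lit 3) (nat_lit 129) (nat_lit 3) (nat_lit 129) (nat_lit 5) (nat_lit 309) (nat_lit 309) (nat_lit 282)) (XT.lf (nat_lit 76) (nat_lit 4888475084) (nat_lit 0) (nat_lit 1709444143) (nat_lit 684) (nat_lit 2478017402) (nat_lit 121) (nat_lit 5) (nat_lit 120) (nat_lit 3) (nat_lit 129) (nat_lit 5) (nat_lit 310) (nat_lit 309) (nat_lit 281))))) (XT.nd (nat_lit 234) (nat_lit 532) (nat_lit 0) (XT.nd (nat_lit 78) (nat_lit 608) (nat_lit 0) (XT.lf (nat_lit 76) (nat_lit 2918114993) (nat_lit 0) (nat_lit 5508316226) (nat_lit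 684) (nat_lit 947148246) (nat_lit 122) (nat_lit 5) (nat_lit 121) (nat_lit 5) (nat_lit 130) (nat_lit 5) (nat_lit 311) (nat_lit 309) (nat_lit 280)) (XT.nd (nat_lit 78) (nat_lit 0) (nat_lit 0) (XT.lf (nat_lit 0) (nat_lit 670323967) (nat_lit 684) (nat_lit 8746864806) (nat_lit 760) (nat_lit 278110625) (nat_lit 113) (nat_lit 5) (nat_lit 122) (nat_lit 5) (nat_lit 123) (nat_lit 5) (nat_lit 312) (nat_lit 309) (nat_lit 279)) (XT.lf (nat_lit 0) (nat_lit 2465471717) (nat_lit 684) (nat_lit 1062668970) (nat_lit 760) (nat_lit 6509909191) (nat_lit 113) (nat_lit 5) (nat_lit 122) (nat_lit 5) (nat_lit 123) (nat_lit 5) (nat_lit 313) (nat_lit 309) (nat_lit 278)))) (XT.nd (nat_lit 78) (nat_lit 608) (nat_lit 0) (XT.lf (nat_lit 0) (nat_lit 4449419551) (nat_lit 684) (nat_lit 3065624716) (nat_lit 760) (nat_lit 2891048532) (nat_lit 114) (nat_lit 5) (nat_lit 123) (nat_lit 5) (nat_lit 124) (nat_lit 5) (nat_lit 314)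 (nat_lit 309) (nat_lit 277)) (XT.nd (nat_lit 78) (nat_lit 608) (nat_lit 0) (XT.lf (nat_lit 76) (nat_lit 5687620278) (nat_lit 0) (nat_lit 962628235) (nat_lit 760) (nat_lit 4150544429) (nat_lit 115) (nat_lit 5) (nat_lit 114) (nat_lit 5) (nat_lit 124) (nat_lit 5) (nat_lit 315) (nat_lit 309) (nat_lit 276)) (XT.lf (nat_lit 0) (nat_lit 3969328211) (nat_lit 684) (nat_lit 5167683683) (nat_lit 760) (nat_lit 2084676809) (nat_lit 106) (nat_lit 5) (nat_lit 115) (nat_lit 5) (nat_lit 116) (nat_lit 5) (nat_lit 316) (nat_lit 309) (nat_lit 275))))))))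
noncomputable def xc64 : XT := (XT.nd (nat_lit 1794) (nat_lit 1748) (nat_lit 0) (XT.nd (nat_lit 858) (nat_lit 2052) (nat_lit 0) (XT.nd (nat_lit 390) (nat_lit 1520) (nat_lit 0) (XT.nd (nat_lit 156) (nat_lit 684) (nat_lit 0) (XT.nd (nat_lit 78) (nat_lit 380) (nat_lit 0) (XT.lf (nat_lit 0) (nat_lit 218742987) (nat_lit 836) (nat_lit 9451993842) (nat_lit 76) (nat_lit 2001656100) (nat_lit 95) (nat_lit 5) (nat_lit 106) (nat_lit 5) (nat_lit 96) (nat_lit 5) (nat_lit 317) (nat_lit 309) (nat_lit 274)) (XT.lf (nat_lit 0) (nat_lit 356066514) (nat_lit 380) (nat_lit 2408167730) (nat_lit 456) (nat_lit 9386761036) (nat_lit 90) (nat_lit 5) (nat_lit 95) (nat_lit 5) (nat_lit 96) (nat_lit 5) (nat_lit 318) (nat_lit 309) (nat_lit 273))) (XT.nd (nat_lit 78) (nat_lit 684) (nat_lit 0) (XT.lf (nat_lit 0) (nat_lit 5679800482) (nat_lit 456) (nat_lit 1549578726) (nat_lit 76) (nat_lit 5430270266) (nat_lit 90) (nat_lit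 5) (nat_lit 96) (nat_lit 5) (nat_lit 91) (nat_lit 5) (nat_lit 319) (nat_lit 309) (nat_lit 272)) (XT.nd (nat_lit 78) (nat_lit 380) (nat_lit 0) (XT.lf (nat_lit 0) (nat_lit 8953190236) (nat_lit 380) (nat_lit 3512075183) (nat_lit 76) (nat_lit 737580785) (nat_lit 86) (nat_lit 5) (nat_lit 91) (nat_lit 5) (nat_lit 87) (nat_lit 5) (nat_lit 320) (nat_lit 309) (nat_lit 271)) (XT.lf (nat_lit 0) (nat_lit 8153886207) (nat_lit 380) (nat_lit 4536384300) (nat_lit 456) (nat_lit 1089210451) (nat_lit 81) (nat_lit 5) (nat_lit 86) (nat_lit 5) (nat_lit 87) (nat_lit 5) (nat_lit 321) (nat_lit 309) (nat_lit 270))))) (XT.nd (nat_lit 234) (nat_lit 608) (nat_lit 0) (XT.nd (nat_lit 78) (nat_lit 532) (nat_lit 0) (XT.lf (nat_lit 0) (nat_lit 2408751975) (nat_lit 380) (nat_lit 7890619891) (nat_lit 76) (nat_lit 4093171657) (nat_lit 76) (nat_lit 5) (nat_lit 81) (nat_lit 5) (nat_lit 77) (nat_lit 5) (nat_lit 322) (nat_lit 309)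 (nat_lit 269)) (XT.nd (nat_lit 78) (nat_lit 228) (nat_lit 0) (XT.lf (nat_lit 0) (nat_lit 4724633641) (nat_lit 304) (nat_lit 1606340682) (nat_lit 380) (nat_lit 8713714608) (nat_lit 72) (nat_lit 5) (nat_lit 76) (nat_lit 5) (nat_lit 77) (nat_lit 5) (nat_lit 323) (nat_lit 309) (nat_lit 268)) (XT.lf (nat_lit 0) (nat_lit 2773326192) (nat_lit 228) (nat_lit 8033970955) (nat_lit 304) (nat_lit 4929748070) (nat_lit 69) (nat_lit 5) (nat_lit 72) (nat_lit 5) (nat_lit 73) (nat_lit 5) (nat_lit 324) (nat_lit 309) (nat_lit 267)))) (XT.nd (nat_lit 78) (nat_lit 304) (nat_lit 0) (XT.lf (nat_lit 0) (nat_lit 700966596) (nat_lit 304) (nat_lit 15119199555) (nat_lit 380) (nat_lit 655753116) (nat_lit 65) (nat_lit 5) (nat_lit 69) (nat_lit 5) (nat_lit 70) (nat_lit 5) (nat_lit 325) (nat_lit 309) (nat_lit 266)) (XT.nd (nat_lit 78) (nat_lit 228) (nat_lit 0) (XT.lf (nat_lit 0) (nat_lit 4139847501) (nat_lit 380) (nat_lit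 1620130046) (nat_lit 76) (nat_lit 11495557652) (nat_lit 64) (nat_lit 5) (nat_lit 69) (nat_lit 5) (nat_lit 65) (nat_lit 5) (nat_lit 326) (nat_lit 309) (nat_lit 265)) (XT.lf (nat_lit 0) (nat_lit 9532674494) (nat_lit 304) (nat_lit 4127461440) (nat_lit 76) (nat_lit 4425061204) (nat_lit 61) (nat_lit 5) (nat_lit 65) (nat_lit 5) (nat_lit 62) (nat_lit 5) (nat_lit 327) (nat_lit 309) (nat_lit 264)))))) (XT.nd (nat_lit 468) (nat_lit 836) (nat_lit 0) (XT.nd (nat_lit 234) (nat_lit 456) (nat_lit 0) (XT.nd (nat_lit 78) (nat_lit 532) (nat_lit 0) (XT.lf (nat_lit 0) (nat_lit 12077173116) (nat_lit 228) (nat_lit 3542557103) (nat_lit 304) (nat_lit 3348400452) (nat_lit 58) (nat_lit 5) (nat_lit 61) (nat_lit 5) (nat_lit 62) (nat_lit 5) (nat_lit 328) (nat_lit 309) (nat_lit 263)) (XT.nd (nat_lit 78) (nat_lit 228) (nat_lit 0) (XT.lf (nat_lit 0) (nat_lit 2498534954) (nat_lit 304) (nat_lit 10008932876) (nat_lit 76)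 (nat_lit 7397531425) (nat_lit 54) (nat_lit 5) (nat_lit 58) (nat_lit 5) (nat_lit 55) (nat_lit 5) (nat_lit 329) (nat_lit 309) (nat_lit 262)) (XT.lf (nat_lit 0) (nat_lit 7411122376) (nat_lit 228) (nat_lit 1536471035) (nat_lit 304) (nat_lit 11953926986) (nat_lit 51) (nat_lit 5) (nat_lit 54) (nat_lit 5) (nat_lit 55) (nat_lit 5) (nat_lit 330) (nat_lit 309) (nat_lit 261)))) (XT.nd (nat_lit 78) (nat_lit 304) (nat_lit 0) (XT.lf (nat_lit 0) (nat_lit 4525992604) (nat_lit 152) (nat_lit 11750261385) (nat_lit 228) (nat_lit 5683354678) (nat_lit 49) (nat_lit 5) (nat_lit 51) (nat_lit 5) (nat_lit 52) (nat_lit 5) (nat_lit 331) (nat_lit 309) (nat_lit 260)) (XT.nd (nat_lit 78) (nat_lit 0) (nat_lit 0) (XT.lf (nat_lit 0) (nat_lit 1295636377) (nat_lit 304) (nat_lit 21786441666) (nat_lit 76) (nat_lit 7360622) (nat_lit 45) (nat_lit 5) (nat_lit 49) (nat_lit 5) (nat_lit 46) (nat_lit 5) (nat_lit 332) (nat_lit 309) (nat_lit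 259)) (XT.lf (nat_lit 0) (nat_lit 9101572303) (nat_lit 304) (nat_lit 2497833117) (nat_lit 76) (nat_lit 12682227954) (nat_lit 45) (nat_lit 5) (nat_lit 49) (nat_lit 5) (nat_lit 46) (nat_lit 5) (nat_lit 333) (nat_lit 309) (nat_lit 258))))) (XT.nd (nat_lit 234) (nat_lit 304) (nat_lit 0) (XT.nd (nat_lit 78) (nat_lit 380) (nat_lit 0) (XT.lf (nat_lit 0) (nat_lit 17805098202) (nat_lit 228) (nat_lit 6696025299) (nat_lit 76) (nat_lit 1054446564) (nat_lit 43) (nat_lit 5) (nat_lit 46) (nat_lit 5) (nat_lit 44) (nat_lit 5) (nat_lit 334) (nat_lit 309) (nat_lit 257)) (XT.nd (nat_lit 78) (nat_lit 152) (nat_lit 0) (XT.lf (nat_lit 0) (nat_lit 713956153) (nat_lit 228) (nat_lit 11600901248) (nat_lit 76) (nat_lit 14593909094) (nat_lit 40) (nat_lit 5) (nat_lit 43) (nat_lit 5) (nat_lit 41) (nat_lit 5) (nat_lit 335) (nat_lit 309) (nat_lit 256)) (XT.lf (nat_lit 0) (nat_lit 9863717466) (nat_lit 228) (nat_lit 17258996844)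 (nat_lit 76) (nat_lit 1227183685) (nat_lit 38) (nat_lit 5) (nat_lit 41) (nat_lit 5) (nat_lit 39) (nat_lit 5) (nat_lit 336) (nat_lit 309) (nat_lit 255)))) (XT.nd (nat_lit 78) (nat_lit 152) (nat_lit 0) (XT.lf (nat_lit 0) (nat_lit 6041495264) (nat_lit 152) (nat_lit 14177031253) (nat_lit 228) (nat_lit 9664156909) (nat_lit 36) (nat_lit 5) (nat_lit 38) (nat_lit 5) (nat_lit 39) (nat_lit 5) (nat_lit 337) (nat_lit 309) (nat_lit 254)) (XT.nd (nat_lit 78) (nat_lit 0) (nat_lit 0) (XT.lf (nat_lit 0) (nat_lit 145917038) (nat_lit 152) (nat_lit 31277222626) (nat_lit 76) (nat_lit 101177072) (nat_lit 34) (nat_lit 5) (nat_lit 36) (nat_lit 5) (nat_lit 35) (nat_lit 5) (nat_lit 338) (nat_lit 309) (nat_lit 253)) (XT.lf (nat_lit 0) (nat_lit 11036020506) (nat_lit 152) (nat_lit 6626000620) (nat_lit 76) (nat_lit 15595661395) (nat_lit 34) (nat_lit 5) (nat_lit 36) (nat_lit 5) (nat_lit 35) (nat_lit 5) (nat_lit 339) (nat_lit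 309) (nat_lit 252))))))) (XT.nd (nat_lit 858) (nat_lit 684) (nat_lit 0) (XT.nd (nat_lit 390) (nat_lit 532) (nat_lit 0) (XT.nd (nat_lit 156) (nat_lit 304) (nat_lit 0) (XT.nd (nat_lit 78) (nat_lit 76) (nat_lit 0) (XT.lf (nat_lit 0) (nat_lit 20606417293) (nat_lit 152) (nat_lit 2483125106) (nat_lit 228) (nat_lit 12025577328) (nat_lit 32) (nat_lit 5) (nat_lit 34) (nat_lit 5) (nat_lit 35) (nat_lit 5) (nat_lit 340) (nat_lit 309) (nat_lit 251)) (XT.lf (nat_lit 0) (nat_lit 13295796125) (nat_lit 76) (nat_lit 23325227131) (nat_lit 152) (nat_lit 474456522) (nat_lit 31) (nat_lit 5) (nat_lit 32) (nat_lit 5) (nat_lit 33) (nat_lit 4) (nat_lit 341) (nat_lit 309) (nat_lit 250))) (XT.nd (nat_lit 78) (nat_lit 76) (nat_lit 0) (XT.lf (nat_lit 0) (nat_lit 4483113123) (nat_lit 152) (nat_lit 7474798360) (nat_lit 228) (nat_lit 27249936389) (nat_lit 28) (nat_lit 5) (nat_lit 30) (nat_lit 5) (nat_lit 31) (nat_lit 5)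 (nat_lit 342) (nat_lit 309) (nat_lit 249)) (XT.nd (nat_lit 78) (nat_lit 76) (nat_lit 0) (XT.lf (nat_lit 0) (nat_lit 25913928845) (nat_lit 228) (nat_lit 5802461218) (nat_lit 76) (nat_lit 9745151899) (nat_lit 28) (nat_lit 5) (nat_lit 31) (nat_lit 5) (nat_lit 29) (nat_lit 4) (nat_lit 343) (nat_lit 309) (nat_lit 248)) (XT.lf (nat_lit 0) (nat_lit 26099345566) (nat_lit 76) (nat_lit 15396090129) (nat_lit 152) (nat_lit 2374654347) (nat_lit 27) (nat_lit 5) (nat_lit 28) (nat_lit 5) (nat_lit 29) (nat_lit 4) (nat_lit 344) (nat_lit 309) (nat_lit 247))))) (XT.nd (nat_lit 234) (nat_lit 228) (nat_lit 0) (XT.nd (nat_lit 78) (nat_lit 76) (nat_lit 0) (XT.lf (nat_lit 0) (nat_lit 11821605392) (nat_lit 228) (nat_lit 31959609894) (nat_lit 76) (nat_lit 2663421903) (nat_lit 24) (nat_lit 5) (nat_lit 27) (nat_lit 5) (nat_lit 25) (nat_lit 4) (nat_lit 345) (nat_lit 309) (nat_lit 246)) (XT.nd (nat_lit 78) (nat_lit 0)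 (nat_lit 0) (XT.lf (nat_lit 0) (nat_lit 413217487) (nat_lit 76) (nat_lit 27216055405) (nat_lit 152) (nat_lit 21565990853) (nat_lit 23) (nat_lit 5) (nat_lit 24) (nat_lit 5) (nat_lit 25) (nat_lit 4) (nat_lit 346) (nat_lit 309) (nat_lit 245)) (XT.lf (nat_lit 0) (nat_lit 36477476235) (nat_lit 76) (nat_lit 8758973912) (nat_lit 152) (nat_lit 6902752164) (nat_lit 23) (nat_lit 5) (nat_lit 24) (nat_lit 5) (nat_lit 25) (nat_lit 4) (nat_lit 347) (nat_lit 309) (nat_lit 244)))) (XT.nd (nat_lit 78) (nat_lit 76) (nat_lit 0) (XT.lf (nat_lit 0) (nat_lit 9130310270) (nat_lit 152) (nat_lit 34888049941) (nat_lit 76) (nat_lit 11269193084) (nat_lit 21) (nat_lit 5) (nat_lit 23) (nat_lit 5) (nat_lit 22) (nat_lit 4) (nat_lit 348) (nat_lit 309) (nat_lit 243)) (XT.nd (nat_lit 78) (nat_lit 0) (nat_lit 0) (XT.lf (nat_lit 0) (nat_lit 956310119) (nat_lit 76) (nat_lit 25671183888) (nat_lit 152) (nat_lit 32033460073) (nat_lit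 20) (nat_lit 5) (nat_lit 21) (nat_lit 5) (nat_lit 22) (nat_lit 4) (nat_lit 349) (nat_lit 309) (nat_lit 242)) (XT.lf (nat_lit 0) (nat_lit 40879132005) (nat_lit 76) (nat_lit 5234140791) (nat_lit 152) (nat_lit 16161518183) (nat_lit 20) (nat_lit 5) (nat_lit 21) (nat_lit 5) (nat_lit 22) (nat_lit 4) (nat_lit 350) (nat_lit 309) (nat_lit 241)))))) (XT.nd (nat_lit 468) (nat_lit 228) (nat_lit 0) (XT.nd (nat_lit 234) (nat_lit 228) (nat_lit 0) (XT.nd (nat_lit 78) (nat_lit 76) (nat_lit 0) (XT.lf (nat_lit 0) (nat_lit 1485218380) (nat_lit 152) (nat_lit 48073775016) (nat_lit 76) (nat_lit 16591160177) (nat_lit 18) (nat_lit 5) (nat_lit 20) (nat_lit 5) (nat_lit 19) (nat_lit 4) (nat_lit 351) (nat_lit 309) (nat_lit 240)) (XT.nd (nat_lit 78) (nat_lit 76) (nat_lit 0) (XT.lf (nat_lit 0) (nat_lit 20434910032) (nat_lit 152) (nat_lit 9245707045) (nat_lit 76) (nat_lit 40618813238) (nat_lit 18) (nat_lit 5) (nat_lit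 20) (nat_lit 5) (nat_lit 19) (nat_lit 4) (nat_lit 352) (nat_lit 309) (nat_lit 239)) (XT.lf (nat_lit 0) (nat_lit 33738707305) (nat_lit 76) (nat_lit 7672701106) (nat_lit 152) (nat_lit 33343703046) (nat_lit 17) (nat_lit 5) (nat_lit 18) (nat_lit 5) (nat_lit 19) (nat_lit 4) (nat_lit 353) (nat_lit 309) (nat_lit 238)))) (XT.nd (nat_lit 78) (nat_lit 152) (nat_lit 0) (XT.lf (nat_lit 0) (nat_lit 671376924) (nat_lit 76) (nat_lit 63804731404) (nat_lit 76) (nat_lit 15070638227) (nat_lit 16) (nat_lit 4) (nat_lit 17) (nat_lit 5) (nat_lit 17) (nat_lit 4) (nat_lit 354) (nat_lit 309) (nat_lit 237)) (XT.nd (nat_lit 78) (nat_lit 76) (nat_lit 0) (XT.lf (nat_lit 0) (nat_lit 5355620798) (nat_lit 152) (nat_lit 37769283851) (nat_lit 76) (nat_lit 41551138079) (nat_lit 15) (nat_lit 5) (nat_lit 17) (nat_lit 5) (nat_lit 16) (nat_lit 4) (nat_lit 355) (nat_lit 309) (nat_lit 236)) (XT.lf (nat_lit 0) (nat_lit 6554810049)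 (nat_lit 76) (nat_lit 20428739713) (nat_lit 152) (nat_lit 63215004202) (nat_lit 14) (nat_lit 5) (nat_lit 15) (nat_lit 5) (nat_lit 16) (nat_lit 4) (nat_lit 356) (nat_lit 309) (nat_lit 235))))) (XT.nd (nat_lit 234) (nat_lit 152) (nat_lit 0) (XT.nd (nat_lit 78) (nat_lit 76) (nat_lit 0) (XT.lf (nat_lit 0) (nat_lit 51060786181) (nat_lit 152) (nat_lit 40456440462) (nat_lit 0) (nat_lit 4609688478) (nat_lit 14) (nat_lit 5) (nat_lit 16) (nat_lit 4) (nat_lit 14) (nat_lit 4) (nat_lit 357) (nat_lit 309) (nat_lit 234)) (XT.nd (nat_lit 78) (nat_lit 0) (nat_lit 0) (XT.lf (nat_lit 0) (nat_lit 6010135720) (nat_lit 76) (nat_lit 71479979820) (nat_lit 76) (nat_lit 25018136415) (nat_lit 13) (nat_lit 4) (nat_lit 14) (nat_lit 5) (nat_lit 14) (nat_lit 4) (nat_lit 358) (nat_lit 309) (nat_lit 233)) (XT.lf (nat_lit 0) (nat_lit 57616142837) (nat_lit 76) (nat_lit 49110551583) (nat_lit 76) (nat_lit 2638758456) (nat_lit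 13) (nat_lit 4) (nat_lit 14) (nat_lit 5) (nat_lit 14) (nat_lit 4) (nat_lit 359) (nat_lit 309) (nat_lit 232)))) (XT.nd (nat_lit 78) (nat_lit 76) (nat_lit 0) (XT.lf (nat_lit 0) (nat_lit 20830716516) (nat_lit 152) (nat_lit 3778036973) (nat_lit 76) (nat_lit 92146226856) (nat_lit 12) (nat_lit 5) (nat_lit 14) (nat_lit 5) (nat_lit 13) (nat_lit 4) (nat_lit 360) (nat_lit 309) (nat_lit 231)) (XT.nd (nat_lit 78) (nat_lit 0) (nat_lit 0) (XT.lf (nat_lit 0) (nat_lit 46892088894) (nat_lit 152) (nat_lit 75184740436) (nat_lit 0) (nat_lit 2616340211) (nat_lit 11) (nat_lit 5) (nat_lit 13) (nat_lit 4) (nat_lit 11) (nat_lit 4) (nat_lit 361) (nat_lit 309) (nat_lit 230)) (XT.lf (nat_lit 0) (nat_lit 75510234254) (nat_lit 152) (nat_lit 26505624922) (nat_lit 0) (nat_lit 31226963275) (nat_lit 11) (nat_lit 5) (nat_lit 13) (nat_lit 4) (nat_lit 11) (nat_lit 4) (nat_lit 362) (nat_lit 309) (nat_lit 229))))))))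
noncomputable def xc65 : XT := (XT.nd (nat_lit 1794) (nat_lit 76) (nat_lit 0) (XT.nd (nat_lit 858) (nat_lit 152) (nat_lit 0) (XT.nd (nat_lit 390) (nat_lit 228) (nat_lit 0) (XT.nd (nat_lit 156) (nat_lit 152) (nat_lit 0) (XT.nd (nat_lit 78) (nat_lit 0) (nat_lit 0) (XT.lf (nat_lit 0) (nat_lit 26911374907) (nat_lit 76) (nat_lit 79917382040) (nat_lit 76) (nat_lit 35627145972) (nat_lit 10) (nat_lit 4) (nat_lit 11) (nat_lit 5) (nat_lit 11) (nat_lit 4) (nat_lit 363) (nat_lit 309) (nat_lit 228)) (XT.lf (nat_lit 0) (nat_lit 85531237618) (nat_lit 76) (nat_lit 55574417128) (nat_lit 76) (nat_lit 11277731903) (nat_lit 10) (nat_lit 4) (nat_lit 11) (nat_lit 5) (nat_lit 11) (nat_lit 4) (nat_lit 364) (nat_lit 309) (nat_lit 227))) (XT.nd (nat_lit 78) (nat_lit 76) (nat_lit 0) (XT.lf (nat_lit 0) (nat_lit 14530613541) (nat_lit 152) (nat_lit 14514898904) (nat_lit 76) (nat_lit 134048247998) (nat_lit 9) (nat_lit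 5) (nat_lit 11) (nat_lit 5) (nat_lit 10) (nat_lit 4) (nat_lit 365) (nat_lit 309) (nat_lit 226)) (XT.nd (nat_lit 78) (nat_lit 0) (nat_lit 0) (XT.lf (nat_lit 0) (nat_lit 42688274021) (nat_lit 152) (nat_lit 131439457233) (nat_lit 0) (nat_lit 490001852) (nat_lit 8) (nat_lit 5) (nat_lit 10) (nat_lit 4) (nat_lit 8) (nat_lit 4) (nat_lit 366) (nat_lit 309) (nat_lit 225)) (XT.lf (nat_lit 0) (nat_lit 73837848733) (nat_lit 152) (nat_lit 81554110104) (nat_lit 0) (nat_lit 31634700803) (nat_lit 8) (nat_lit 5) (nat_lit 10) (nat_lit 4) (nat_lit 8) (nat_lit 4) (nat_lit 367) (nat_lit 309) (nat_lit 224))))) (XT.nd (nat_lit 234) (nat_lit 152) (nat_lit 0) (XT.nd (nat_lit 78) (nat_lit 76) (nat_lit 0) (XT.lf (nat_lit 0) (nat_lit 107472496737) (nat_lit 152) (nat_lit 27691315022) (nat_lit 0) (nat_lit 65264834215) (nat_lit 8) (nat_lit 5) (nat_lit 10) (nat_lit 4) (nat_lit 8) (nat_lit 4) (nat_lit 368) (nat_lit 309)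 (nat_lit 223)) (XT.nd (nat_lit 78) (nat_lit 0) (nat_lit 0) (XT.lf (nat_lit 0) (nat_lit 31475528423) (nat_lit 76) (nat_lit 112807427252) (nat_lit 76) (nat_lit 70595584551) (nat_lit 7) (nat_lit 4) (nat_lit 8) (nat_lit 5) (nat_lit 8) (nat_lit 4) (nat_lit 369) (nat_lit 309) (nat_lit 222)) (XT.lf (nat_lit 0) (nat_lit 96352716950) (nat_lit 76) (nat_lit 88161804838) (nat_lit 76) (nat_lit 45946091601) (nat_lit 7) (nat_lit 4) (nat_lit 8) (nat_lit 5) (nat_lit 8) (nat_lit 4) (nat_lit 370) (nat_lit 309) (nat_lit 221)))) (XT.nd (nat_lit 78) (nat_lit 152) (nat_lit 0) (XT.lf (nat_lit 0) (nat_lit 166409108038) (nat_lit 76) (nat_lit 61549862204) (nat_lit 76) (nat_lit 19330565138) (nat_lit 7) (nat_lit 4) (nat_lit 8) (nat_lit 5) (nat_lit 8) (nat_lit 4) (nat_lit 371) (nat_lit 309) (nat_lit 220)) (XT.nd (nat_lit 78) (nat_lit 76) (nat_lit 0) (XT.lf (nat_lit 0) (nat_lit 9107578790) (nat_lit 152) (nat_lit 23552078906)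 (nat_lit 76) (nat_lit 232798030630) (nat_lit 6) (nat_lit 5) (nat_lit 8) (nat_lit 5) (nat_lit 7) (nat_lit 4) (nat_lit 372) (nat_lit 309) (nat_lit 219)) (XT.lf (nat_lit 0) (nat_lit 39284363274) (nat_lit 76) (nat_lit 476637338) (nat_lit 152) (nat_lit 245271575083) (nat_lit 5) (nat_lit 5) (nat_lit 6) (nat_lit 5) (nat_lit 7) (nat_lit 4) (nat_lit 373) (nat_lit 309) (nat_lit 218)))))) (XT.nd (nat_lit 468) (nat_lit 76) (nat_lit 0) (XT.nd (nat_lit 234) (nat_lit 76) (nat_lit 0) (XT.nd (nat_lit 78) (nat_lit 0) (nat_lit 0) (XT.lf (nat_lit 0) (nat_lit 73814140521) (nat_lit 152) (nat_lit 198715451843) (nat_lit 0) (nat_lit 33596490100) (nat_lit 5) (nat_lit 5) (nat_lit 7) (nat_lit 4) (nat_lit 5) (nat_lit 4) (nat_lit 374) (nat_lit 309) (nat_lit 217)) (XT.nd (nat_lit 78) (nat_lit 0) (nat_lit 0) (XT.lf (nat_lit 0) (nat_lit 110595155492) (nat_lit 152) (nat_lit 147936737379) (nat_lit 0) (nat_lit 70374996289)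 (nat_lit 5) (nat_lit 5) (nat_lit 7) (nat_lit 4) (nat_lit 5) (nat_lit 4) (nat_lit 375) (nat_lit 309) (nat_lit 216)) (XT.lf (nat_lit 0) (nat_lit 150314565451) (nat_lit 152) (nat_lit 93103716486) (nat_lit 0) (nat_lit 110092083301) (nat_lit 5) (nat_lit 5) (nat_lit 7) (nat_lit 4) (nat_lit 5) (nat_lit 4) (nat_lit 376) (nat_lit 309) (nat_lit 215)))) (XT.nd (nat_lit 78) (nat_lit 76) (nat_lit 0) (XT.lf (nat_lit 0) (nat_lit 193207744680) (nat_lit 152) (nat_lit 33891452743) (nat_lit 0) (nat_lit 152983111654) (nat_lit 5) (nat_lit 5) (nat_lit 7) (nat_lit 4) (nat_lit 5) (nat_lit 4) (nat_lit 377) (nat_lit 309) (nat_lit 214)) (XT.nd (nat_lit 78) (nat_lit 0) (nat_lit 0) (XT.lf (nat_lit 0) (nat_lit 31044561173) (nat_lit 76) (nat_lit 208969006412) (nat_lit 76) (nat_lit 168742381833) (nat_lit 4) (nat_lit 4) (nat_lit 5) (nat_lit 5) (nat_lit 5) (nat_lit 4) (nat_lit 378) (nat_lit 309) (nat_lit 213)) (XT.lf (nat_lit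 0) (nat_lit 102379156012) (nat_lit 76) (nat_lit 188771721474) (nat_lit 76) (nat_lit 148543252865) (nat_lit 4) (nat_lit 4) (nat_lit 5) (nat_lit 5) (nat_lit 5) (nat_lit 4) (nat_lit 379) (nat_lit 309) (nat_lit 212))))) (XT.nd (nat_lit 234) (nat_lit 76) (nat_lit 0) (XT.nd (nat_lit 78) (nat_lit 0) (nat_lit 0) (XT.lf (nat_lit 0) (nat_lit 179414450814) (nat_lit 76) (nat_lit 166961623148) (nat_lit 76) (nat_lit 126731447104) (nat_lit 4) (nat_lit 4) (nat_lit 5) (nat_lit 5) (nat_lit 5) (nat_lit 4) (nat_lit 380) (nat_lit 309) (nat_lit 211)) (XT.nd (nat_lit 78) (nat_lit 0) (nat_lit 0) (XT.lf (nat_lit 0) (nat_lit 262606951028) (nat_lit 76) (nat_lit 143409466407) (nat_lit 76) (nat_lit 103177709405) (nat_lit 4) (nat_lit 4) (nat_lit 5) (nat_lit 5) (nat_lit 5) (nat_lit 4) (nat_lit 381) (nat_lit 309) (nat_lit 210)) (XT.lf (nat_lit 0) (nat_lit 352449649249) (nat_lit 76) (nat_lit 117975682914) (nat_lit 76) (nat_lit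 77742462061) (nat_lit 4) (nat_lit 4) (nat_lit 5) (nat_lit 5) (nat_lit 5) (nat_lit 4) (nat_lit 382) (nat_lit 309) (nat_lit 209)))) (XT.nd (nat_lit 78) (nat_lit 76) (nat_lit 0) (XT.lf (nat_lit 0) (nat_lit 449474946652) (nat_lit 76) (nat_lit 90509553952) (nat_lit 76) (nat_lit 50274977683) (nat_lit 4) (nat_lit 4) (nat_lit 5) (nat_lit 5) (nat_lit 5) (nat_lit 4) (nat_lit 383) (nat_lit 309) (nat_lit 208)) (XT.nd (nat_lit 78) (nat_lit 76) (nat_lit 0) (XT.lf (nat_lit 0) (nat_lit 554257807961) (nat_lit 76) (nat_lit 60848317276) (nat_lit 76) (nat_lit 20612485991) (nat_lit 4) (nat_lit 4) (nat_lit 5) (nat_lit 5) (nat_lit 5) (nat_lit 4) (nat_lit 384) (nat_lit 309) (nat_lit 207)) (XT.lf (nat_lit 0) (nat_lit 11055254114) (nat_lit 152) (nat_lit 17573722402) (nat_lit 76) (nat_lit 656176688459) (nat_lit 3) (nat_lit 5) (nat_lit 5) (nat_lit 5) (nat_lit 4) (nat_lit 4) (nat_lit 385) (nat_lit 309) (nat_lit 206)))))))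 (XT.nd (nat_lit 41418) (nat_lit 0) (nat_lit 4712) (XT.nd (nat_lit 40950) (nat_lit 0) (nat_lit 8284) (XT.nd (nat_lit 234) (nat_lit 0) (nat_lit 0) (XT.nd (nat_lit 78) (nat_lit 0) (nat_lit 0) (XT.lf (nat_lit 0) (nat_lit 45481148838) (nat_lit 152) (nat_lit 685115116050) (nat_lit 0) (nat_lit 7159178066) (nat_lit 2) (nat_lit 5) (nat_lit 4) (nat_lit 4) (nat_lit 2) (nat_lit 4) (nat_lit 386) (nat_lit 309) (nat_lit 205)) (XT.nd (nat_lit 78) (nat_lit 0) (nat_lit 0) (XT.lf (nat_lit 0) (nat_lit 83453069080) (nat_lit 152) (nat_lit 666318387135) (nat_lit 0) (nat_lit 45130149477) (nat_lit 2) (nat_lit 5) (nat_lit 4) (nat_lit 4) (nat_lit 2) (nat_lit 4) (nat_lit 387) (nat_lit 309) (nat_lit 204)) (XT.lf (nat_lit 0) (nat_lit 124460961261) (nat_lit 152) (nat_lit 646021426365) (nat_lit 0) (nat_lit 86137163111) (nat_lit 2) (nat_lit 5) (nat_lit 4) (nat_lit 4) (nat_lit 2) (nat_lit 4) (nat_lit 388) (nat_lit 309) (nat_lit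 203)))) (XT.nd (nat_lit 78) (nat_lit 0) (nat_lit 0) (XT.lf (nat_lit 0) (nat_lit 168747835112) (nat_lit 152) (nat_lit 624103955454) (nat_lit 0) (nat_lit 130423223493) (nat_lit 2) (nat_lit 5) (nat_lit 4) (nat_lit 4) (nat_lit 2) (nat_lit 4) (nat_lit 389) (nat_lit 309) (nat_lit 202)) (XT.nd (nat_lit 78) (nat_lit 0) (nat_lit 0) (XT.lf (nat_lit 0) (nat_lit 216576131367) (nat_lit 152) (nat_lit 600436093093) (nat_lit 0) (nat_lit 178250766536) (nat_lit 2) (nat_lit 5) (nat_lit 4) (nat_lit 4) (nat_lit 2) (nat_lit 4) (nat_lit 390) (nat_lit 309) (nat_lit 201)) (XT.lf (nat_lit 0) (nat_lit 268229276966) (nat_lit 152) (nat_lit 574877585283) (nat_lit 0) (nat_lit 229903214717) (nat_lit 2) (nat_lit 5) (nat_lit 4) (nat_lit 4) (nat_lit 2) (nat_lit 4) (nat_lit 391) (nat_lit 309) (nat_lit 200))))) (XT.nd (nat_lit 234) (nat_lit 0) (nat_lit 76) (XT.nd (nat_lit 78) (nat_lit 684) (nat_lit 0) (XT.lf (nat_lit 0) (nat_lit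 4036082222) (nat_lit 684) (nat_lit 322557715) (nat_lit 684) (nat_lit 322557715) (nat_lit 120) (nat_lit 3) (nat_lit 129) (nat_lit 3) (nat_lit 129) (nat_lit 5) (nat_lit 310) (nat_lit 310) (nat_lit 280)) (XT.nd (nat_lit 78) (nat_lit 0) (nat_lit 76) (XT.lf (nat_lit 0) (nat_lit 48403610) (nat_lit 684) (nat_lit 2994038964) (nat_lit 760) (nat_lit 6626708272) (nat_lit 111) (nat_lit 5) (nat_lit 120) (nat_lit 3) (nat_lit 121) (nat_lit 5) (nat_lit 311) (nat_lit 310) (nat_lit 279)) (XT.lf (nat_lit 0) (nat_lit 1459250061) (nat_lit 684) (nat_lit 5391544000) (nat_lit 760) (nat_lit 3148221335) (nat_lit 112) (nat_lit 5) (nat_lit 121) (nat_lit 5) (nat_lit 122) (nat_lit 5) (nat_lit 312) (nat_lit 310) (nat_lit 278)))) (XT.nd (nat_lit 78) (nat_lit 0) (nat_lit 76) (XT.lf (nat_lit 76) (nat_lit 2525796721) (nat_lit 0) (nat_lit 484662715) (nat_lit 760) (nat_lit 7343566732) (nat_lit 113) (nat_lit 5) (nat_lit 112)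 (nat_lit 5) (nat_lit 122) (nat_lit 5) (nat_lit 313) (nat_lit 310) (nat_lit 277)) (XT.nd (nat_lit 78) (nat_lit 0) (nat_lit 76) (XT.lf (nat_lit 76) (nat_lit 369659563) (nat_lit 0) (nat_lit 4408953358) (nat_lit 760) (nat_lit 5954304565) (nat_lit 114) (nat_lit 5) (nat_lit 113) (nat_lit 5) (nat_lit 123) (nat_lit 5) (nat_lit 314) (nat_lit 310) (nat_lit 276)) (XT.lf (nat_lit 0) (nat_lit 6773310812) (nat_lit 684) (nat_lit 1761399405) (nat_lit 760) (nat_lit 2603268298) (nat_lit 114) (nat_lit 5) (nat_lit 123) (nat_lit 5) (nat_lit 124) (nat_lit 5) (nat_lit 315) (nat_lit 310) (nat_lit 275)))))) (XT.nd (nat_lit 468) (nat_lit 1672) (nat_lit 0) (XT.nd (nat_lit 234) (nat_lit 684) (nat_lit 0) (XT.nd (nat_lit 78) (nat_lit 1444) (nat_lit 0) (XT.lf (nat_lit 76) (nat_lit 7624766881) (nat_lit 0) (nat_lit 1402806360) (nat_lit 760) (nat_lit 2542976392) (nat_lit 115) (nat_lit 5) (nat_lit 114) (nat_lit 5) (nat_lit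 124) (nat_lit 5) (nat_lit 316) (nat_lit 310) (nat_lit 274)) (XT.nd (nat_lit 78) (nat_lit 836) (nat_lit 0) (XT.lf (nat_lit 0) (nat_lit 5800231523) (nat_lit 684) (nat_lit 5794734603) (nat_lit 760) (nat_lit 436217730) (nat_lit 106) (nat_lit 5) (nat_lit 115) (nat_lit 5) (nat_lit 116) (nat_lit 5) (nat_lit 317) (nat_lit 310) (nat_lit 273)) (XT.lf (nat_lit 0) (nat_lit 1884441179) (nat_lit 836) (nat_lit 8616805492) (nat_lit 76) (nat_lit 2020860843) (nat_lit 95) (nat_lit 5) (nat_lit 106) (nat_lit 5) (nat_lit 96) (nat_lit 5) (nat_lit 318) (nat_lit 310) (nat_lit 272)))) (XT.nd (nat_lit 78) (nat_lit 304) (nat_lit 0) (XT.lf (nat_lit 0) (nat_lit 1906741654) (nat_lit 380) (nat_lit 2628506934) (nat_lit 456) (nat_lit 8508789096) (nat_lit 90) (nat_lit 5) (nat_lit 95) (nat_lit 5) (nat_lit 96) (nat_lit 5) (nat_lit 319) (nat_lit 310) (nat_lit 271)) (XT.nd (nat_lit 78) (nat_lit 304) (nat_lit 0) (XT.lf (nat_lit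 0) (nat_lit 7568854291) (nat_lit 456) (nat_lit 190527163) (nat_lit 76) (nat_lit 5839877380) (nat_lit 90) (nat_lit 5) (nat_lit 96) (nat_lit 5) (nat_lit 91) (nat_lit 5) (nat_lit 320) (nat_lit 310) (nat_lit 270)) (XT.lf (nat_lit 0) (nat_lit 11021053222) (nat_lit 380) (nat_lit 2306684962) (nat_lit 76) (nat_lit 862432079) (nat_lit 86) (nat_lit 5) (nat_lit 91) (nat_lit 5) (nat_lit 87) (nat_lit 5) (nat_lit 321) (nat_lit 310) (nat_lit 269))))) (XT.nd (nat_lit 234) (nat_lit 608) (nat_lit 0) (XT.nd (nat_lit 78) (nat_lit 608) (nat_lit 0) (XT.lf (nat_lit 0) (nat_lit 157055638) (nat_lit 456) (nat_lit 4591504933) (nat_lit 76) (nat_lit 10068242658) (nat_lit 80) (nat_lit 5) (nat_lit 86) (nat_lit 5) (nat_lit 81) (nat_lit 5) (nat_lit 322) (nat_lit 310) (nat_lit 268)) (XT.nd (nat_lit 78) (nat_lit 304) (nat_lit 0) (XT.lf (nat_lit 0) (nat_lit 3825929888) (nat_lit 380) (nat_lit 7060451994) (nat_lit 76) (nat_lit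 4595260784) (nat_lit 76) (nat_lit 5) (nat_lit 81) (nat_lit 5) (nat_lit 77) (nat_lit 5) (nat_lit 323) (nat_lit 310) (nat_lit 267)) (XT.lf (nat_lit 0) (nat_lit 6500510398) (nat_lit 304) (nat_lit 1492542801) (nat_lit 380) (nat_lit 8196430382) (nat_lit 72) (nat_lit 5) (nat_lit 76) (nat_lit 5) (nat_lit 77) (nat_lit 5) (nat_lit 324) (nat_lit 310) (nat_lit 266)))) (XT.nd (nat_lit 78) (nat_lit 380) (nat_lit 0) (XT.lf (nat_lit 0) (nat_lit 4384954340) (nat_lit 228) (nat_lit 8382128356) (nat_lit 304) (nat_lit 4173239737) (nat_lit 69) (nat_lit 5) (nat_lit 72) (nat_lit 5) (nat_lit 73) (nat_lit 5) (nat_lit 325) (nat_lit 310) (nat_lit 265)) (XT.nd (nat_lit 78) (nat_lit 0) (nat_lit 0) (XT.lf (nat_lit 0) (nat_lit 372182919) (nat_lit 380) (nat_lit 15611869559) (nat_lit 76) (nat_lit 1756789884) (nat_lit 64) (nat_lit 5) (nat_lit 69) (nat_lit 5) (nat_lit 65) (nat_lit 5) (nat_lit 326) (nat_lit 310) (nat_lit 264))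 (XT.lf (nat_lit 0) (nat_lit 5450414037) (nat_lit 380) (nat_lit 440460700) (nat_lit 76) (nat_lit 12695377997) (nat_lit 64) (nat_lit 5) (nat_lit 69) (nat_lit 5) (nat_lit 65) (nat_lit 5) (nat_lit 327) (nat_lit 310) (nat_lit 263))))))))
noncomputable def xc66 : XT := (XT.nd (nat_lit 1794) (nat_lit 1140) (nat_lit 0) (XT.nd (nat_lit 858) (nat_lit 1216) (nat_lit 0) (XT.nd (nat_lit 390) (nat_lit 988) (nat_lit 0) (XT.nd (nat_lit 156) (nat_lit 684) (nat_lit 0) (XT.nd (nat_lit 78) (nat_lit 228) (nat_lit 0) (XT.lf (nat_lit 0) (nat_lit 11226763470) (nat_lit 304) (nat_lit 3163348411) (nat_lit 76) (nat_lit 5094626956) (nat_lit 61) (nat_lit 5) (nat_lit 65) (nat_lit 5) (nat_lit 62) (nat_lit 5) (nat_lit 328) (nat_lit 310) (nat_lit 262)) (XT.lf (nat_lit 0) (nat_lit 14281407776) (nat_lit 228) (nat_lit 3469707326) (nat_lit 304) (nat_lit 2689727255) (nat_lit 58) (nat_lit 5) (nat_lit 61) (nat_lit 5) (nat_lit 62)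 (nat_lit 5) (nat_lit 329) (nat_lit 310) (nat_lit 261))) (XT.nd (nat_lit 78) (nat_lit 380) (nat_lit 0) (XT.lf (nat_lit 0) (nat_lit 3553493334) (nat_lit 304) (nat_lit 9559072757) (nat_lit 76) (nat_lit 8341507504) (nat_lit 54) (nat_lit 5) (nat_lit 58) (nat_lit 5) (nat_lit 55) (nat_lit 5) (nat_lit 330) (nat_lit 310) (nat_lit 260)) (XT.nd (nat_lit 78) (nat_lit 152) (nat_lit 0) (XT.lf (nat_lit 0) (nat_lit 9200238460) (nat_lit 228) (nat_lit 1273575520) (nat_lit 304) (nat_lit 12058777930) (nat_lit 51) (nat_lit 5) (nat_lit 54) (nat_lit 5) (nat_lit 55) (nat_lit 5) (nat_lit 331) (nat_lit 310) (nat_lit 259)) (XT.lf (nat_lit 0) (nat_lit 6065816054) (nat_lit 152) (nat_lit 12286886066) (nat_lit 228) (nat_lit 5324467605) (nat_lit 49) (nat_lit 5) (nat_lit 51) (nat_lit 5) (nat_lit 52) (nat_lit 5) (nat_lit 332) (nat_lit 310) (nat_lit 258))))) (XT.nd (nat_lit 234) (nat_lit 532) (nat_lit 0) (XT.nd (nat_lit 78)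 (nat_lit 152) (nat_lit 0) (XT.lf (nat_lit 0) (nat_lit 2152773181) (nat_lit 304) (nat_lit 22345971034) (nat_lit 76) (nat_lit 399742934) (nat_lit 45) (nat_lit 5) (nat_lit 49) (nat_lit 5) (nat_lit 46) (nat_lit 5) (nat_lit 333) (nat_lit 310) (nat_lit 257)) (XT.nd (nat_lit 78) (nat_lit 152) (nat_lit 0) (XT.lf (nat_lit 0) (nat_lit 10527370212) (nat_lit 304) (nat_lit 1601932022) (nat_lit 76) (nat_lit 14059577915) (nat_lit 45) (nat_lit 5) (nat_lit 49) (nat_lit 5) (nat_lit 46) (nat_lit 5) (nat_lit 334) (nat_lit 310) (nat_lit 256)) (XT.lf (nat_lit 0) (nat_lit 19897885353) (nat_lit 228) (nat_lit 6156132772) (nat_lit 76) (nat_lit 1512207942) (nat_lit 43) (nat_lit 5) (nat_lit 46) (nat_lit 5) (nat_lit 44) (nat_lit 5) (nat_lit 335) (nat_lit 310) (nat_lit 255)))) (XT.nd (nat_lit 78) (nat_lit 304) (nat_lit 0) (XT.lf (nat_lit 0) (nat_lit 1416746237) (nat_lit 228) (nat_lit 11478466228) (nat_lit 76) (nat_lit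 16133644828) (nat_lit 40) (nat_lit 5) (nat_lit 43) (nat_lit 5) (nat_lit 41) (nat_lit 5) (nat_lit 336) (nat_lit 310) (nat_lit 254)) (XT.nd (nat_lit 78) (nat_lit 152) (nat_lit 0) (XT.lf (nat_lit 0) (nat_lit 11272458942) (nat_lit 228) (nat_lit 17609993458) (nat_lit 76) (nat_lit 1704152598) (nat_lit 38) (nat_lit 5) (nat_lit 41) (nat_lit 5) (nat_lit 39) (nat_lit 5) (nat_lit 337) (nat_lit 310) (nat_lit 253)) (XT.lf (nat_lit 0) (nat_lit 7509787507) (nat_lit 152) (nat_lit 14915343833) (nat_lit 228) (nat_lit 9818430411) (nat_lit 36) (nat_lit 5) (nat_lit 38) (nat_lit 5) (nat_lit 39) (nat_lit 5) (nat_lit 338) (nat_lit 310) (nat_lit 252)))))) (XT.nd (nat_lit 468) (nat_lit 608) (nat_lit 0) (XT.nd (nat_lit 234) (nat_lit 304) (nat_lit 0) (XT.nd (nat_lit 78) (nat_lit 152) (nat_lit 0) (XT.lf (nat_lit 0) (nat_lit 733392805) (nat_lit 152) (nat_lit 32795415487) (nat_lit 76) (nat_lit 488416560) (nat_lit 34)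 (nat_lit 5) (nat_lit 36) (nat_lit 5) (nat_lit 35) (nat_lit 5) (nat_lit 339) (nat_lit 310) (nat_lit 251)) (XT.nd (nat_lit 78) (nat_lit 152) (nat_lit 0) (XT.lf (nat_lit 0) (nat_lit 12452052521) (nat_lit 152) (nat_lit 6244983494) (nat_lit 76) (nat_lit 17194374791) (nat_lit 34) (nat_lit 5) (nat_lit 36) (nat_lit 5) (nat_lit 35) (nat_lit 5) (nat_lit 340) (nat_lit 310) (nat_lit 250)) (XT.lf (nat_lit 0) (nat_lit 23126432679) (nat_lit 152) (nat_lit 2317537454) (nat_lit 228) (nat_lit 12454784104) (nat_lit 32) (nat_lit 5) (nat_lit 34) (nat_lit 5) (nat_lit 35) (nat_lit 5) (nat_lit 341) (nat_lit 310) (nat_lit 249)))) (XT.nd (nat_lit 78) (nat_lit 152) (nat_lit 0) (XT.lf (nat_lit 0) (nat_lit 448645) (nat_lit 152) (nat_lit 24826404508) (nat_lit 76) (nat_lit 15211655135) (nat_lit 30) (nat_lit 5) (nat_lit 32) (nat_lit 5) (nat_lit 31) (nat_lit 5) (nat_lit 342) (nat_lit 310) (nat_lit 248)) (XT.nd (nat_lit 78)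 (nat_lit 0) (nat_lit 0) (XT.lf (nat_lit 0) (nat_lit 5673239102) (nat_lit 152) (nat_lit 7713973347) (nat_lit 228) (nat_lit 28933456870) (nat_lit 28) (nat_lit 5) (nat_lit 30) (nat_lit 5) (nat_lit 31) (nat_lit 5) (nat_lit 343) (nat_lit 310) (nat_lit 247)) (XT.lf (nat_lit 0) (nat_lit 28429885801) (nat_lit 228) (nat_lit 5479916172) (nat_lit 76) (nat_lit 10846361048) (nat_lit 28) (nat_lit 5) (nat_lit 31) (nat_lit 5) (nat_lit 29) (nat_lit 4) (nat_lit 344) (nat_lit 310) (nat_lit 246))))) (XT.nd (nat_lit 234) (nat_lit 228) (nat_lit 0) (XT.nd (nat_lit 78) (nat_lit 304) (nat_lit 0) (XT.lf (nat_lit 0) (nat_lit 28939844309) (nat_lit 76) (nat_lit 16297015163) (nat_lit 152) (nat_lit 2121600026) (nat_lit 27) (nat_lit 5) (nat_lit 28) (nat_lit 5) (nat_lit 29) (nat_lit 4) (nat_lit 345) (nat_lit 310) (nat_lit 245)) (XT.nd (nat_lit 78) (nat_lit 76) (nat_lit 0) (XT.lf (nat_lit 0) (nat_lit 13180941450) (nat_lit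 228) (nat_lit 33767350945) (nat_lit 76) (nat_lit 3191104611) (nat_lit 24) (nat_lit 5) (nat_lit 27) (nat_lit 5) (nat_lit 25) (nat_lit 4) (nat_lit 346) (nat_lit 310) (nat_lit 244)) (XT.lf (nat_lit 0) (nat_lit 1162750795) (nat_lit 76) (nat_lit 29071020151) (nat_lit 152) (nat_lit 22877284998) (nat_lit 23) (nat_lit 5) (nat_lit 24) (nat_lit 5) (nat_lit 25) (nat_lit 4) (nat_lit 347) (nat_lit 310) (nat_lit 243)))) (XT.nd (nat_lit 78) (nat_lit 228) (nat_lit 0) (XT.lf (nat_lit 0) (nat_lit 40059077953) (nat_lit 76) (nat_lit 9161247671) (nat_lit 152) (nat_lit 7071652779) (nat_lit 23) (nat_lit 5) (nat_lit 24) (nat_lit 5) (nat_lit 25) (nat_lit 4) (nat_lit 348) (nat_lit 310) (nat_lit 242)) (XT.nd (nat_lit 78) (nat_lit 76) (nat_lit 0) (XT.lf (nat_lit 0) (nat_lit 10218963742) (nat_lit 152) (nat_lit 37019472366) (nat_lit 76) (nat_lit 12454111147) (nat_lit 21) (nat_lit 5) (nat_lit 23) (nat_lit 5) (nat_lit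 22) (nat_lit 4) (nat_lit 349) (nat_lit 310) (nat_lit 241)) (XT.lf (nat_lit 0) (nat_lit 1663770149) (nat_lit 76) (nat_lit 27435467552) (nat_lit 152) (nat_lit 34237423948) (nat_lit 20) (nat_lit 5) (nat_lit 21) (nat_lit 5) (nat_lit 22) (nat_lit 4) (nat_lit 350) (nat_lit 310) (nat_lit 240))))))) (XT.nd (nat_lit 936) (nat_lit 456) (nat_lit 0) (XT.nd (nat_lit 468) (nat_lit 304) (nat_lit 0) (XT.nd (nat_lit 234) (nat_lit 228) (nat_lit 0) (XT.nd (nat_lit 78) (nat_lit 152) (nat_lit 0) (XT.lf (nat_lit 0) (nat_lit 44733680362) (nat_lit 76) (nat_lit 5384898863) (nat_lit 152) (nat_lit 17122298035) (nat_lit 20) (nat_lit 5) (nat_lit 21) (nat_lit 5) (nat_lit 22) (nat_lit 4) (nat_lit 351) (nat_lit 310) (nat_lit 239)) (XT.nd (nat_lit 78) (nat_lit 0) (nat_lit 0) (XT.lf (nat_lit 0) (nat_lit 1914714329) (nat_lit 152) (nat_lit 51339297286) (nat_lit 76) (nat_lit 18172545569) (nat_lit 18) (nat_lit 5) (nat_lit 20)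 (nat_lit 5) (nat_lit 19) (nat_lit 4) (nat_lit 352) (nat_lit 310) (nat_lit 238)) (XT.lf (nat_lit 0) (nat_lit 22357368092) (nat_lit 152) (nat_lit 9447974969) (nat_lit 76) (nat_lit 44103589202) (nat_lit 18) (nat_lit 5) (nat_lit 20) (nat_lit 5) (nat_lit 19) (nat_lit 4) (nat_lit 353) (nat_lit 310) (nat_lit 237)))) (XT.nd (nat_lit 78) (nat_lit 152) (nat_lit 0) (XT.lf (nat_lit 0) (nat_lit 36951838273) (nat_lit 76) (nat_lit 8046865048) (nat_lit 152) (nat_lit 35723033854) (nat_lit 17) (nat_lit 5) (nat_lit 18) (nat_lit 5) (nat_lit 19) (nat_lit 4) (nat_lit 354) (nat_lit 310) (nat_lit 236)) (XT.nd (nat_lit 78) (nat_lit 76) (nat_lit 0) (XT.lf (nat_lit 0) (nat_lit 1226387317) (nat_lit 76) (nat_lit 68673158489) (nat_lit 76) (nat_lit 15997613694) (nat_lit 16) (nat_lit 4) (nat_lit 17) (nat_lit 5) (nat_lit 17) (nat_lit 4) (nat_lit 355) (nat_lit 310) (nat_lit 235)) (XT.lf (nat_lit 0) (nat_lit 6033844751) (nat_lit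 152) (nat_lit 40318348678) (nat_lit 76) (nat_lit 45085391676) (nat_lit 15) (nat_lit 5) (nat_lit 17) (nat_lit 5) (nat_lit 16) (nat_lit 4) (nat_lit 356) (nat_lit 310) (nat_lit 234))))) (XT.nd (nat_lit 234) (nat_lit 152) (nat_lit 0) (XT.nd (nat_lit 78) (nat_lit 76) (nat_lit 0) (XT.lf (nat_lit 0) (nat_lit 7531139421) (nat_lit 76) (nat_lit 21849422933) (nat_lit 152) (nat_lit 68021911045) (nat_lit 14) (nat_lit 5) (nat_lit 15) (nat_lit 5) (nat_lit 16) (nat_lit 4) (nat_lit 357) (nat_lit 310) (nat_lit 233)) (XT.nd (nat_lit 78) (nat_lit 76) (nat_lit 0) (XT.lf (nat_lit 0) (nat_lit 55369411812) (nat_lit 152) (nat_lit 43266498008) (nat_lit 0) (nat_lit 5169925512) (nat_lit 14) (nat_lit 5) (nat_lit 16) (nat_lit 4) (nat_lit 14) (nat_lit 4) (nat_lit 358) (nat_lit 310) (nat_lit 232)) (XT.lf (nat_lit 0) (nat_lit 6898870937) (nat_lit 76) (nat_lit 77004010407) (nat_lit 76) (nat_lit 26795311400) (nat_lit 13)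 (nat_lit 4) (nat_lit 14) (nat_lit 5) (nat_lit 14) (nat_lit 4) (nat_lit 359) (nat_lit 310) (nat_lit 231)))) (XT.nd (nat_lit 78) (nat_lit 152) (nat_lit 0) (XT.lf (nat_lit 0) (nat_lit 62603142004) (nat_lit 76) (nat_lit 52859425526) (nat_lit 76) (nat_lit 2642196236) (nat_lit 13) (nat_lit 4) (nat_lit 14) (nat_lit 5) (nat_lit 14) (nat_lit 4) (nat_lit 360) (nat_lit 310) (nat_lit 230)) (XT.nd (nat_lit 78) (nat_lit 76) (nat_lit 0) (XT.lf (nat_lit 0) (nat_lit 22683300122) (nat_lit 152) (nat_lit 3724362449) (nat_lit 76) (nat_lit 99678375970) (nat_lit 12) (nat_lit 5) (nat_lit 14) (nat_lit 5) (nat_lit 13) (nat_lit 4) (nat_lit 361) (nat_lit 310) (nat_lit 229)) (XT.lf (nat_lit 0) (nat_lit 50823652222) (nat_lit 152) (nat_lit 80852697487) (nat_lit 0) (nat_lit 2983232180) (nat_lit 11) (nat_lit 5) (nat_lit 13) (nat_lit 4) (nat_lit 11) (nat_lit 4) (nat_lit 362) (nat_lit 310) (nat_lit 228)))))) (XT.nd (nat_lit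 468) (nat_lit 228) (nat_lit 0) (XT.nd (nat_lit 234) (nat_lit 152) (nat_lit 0) (XT.nd (nat_lit 78) (nat_lit 76) (nat_lit 0) (XT.lf (nat_lit 0) (nat_lit 81717901343) (nat_lit 152) (nat_lit 28304943264) (nat_lit 0) (nat_lit 33871032144) (nat_lit 11) (nat_lit 5) (nat_lit 13) (nat_lit 4) (nat_lit 11) (nat_lit 4) (nat_lit 363) (nat_lit 310) (nat_lit 227)) (XT.nd (nat_lit 78) (nat_lit 0) (nat_lit 0) (XT.lf (nat_lit 0) (nat_lit 29371460561) (nat_lit 76) (nat_lit 86162882026) (nat_lit 76) (nat_lit 38310041386) (nat_lit 10) (nat_lit 4) (nat_lit 11) (nat_lit 5) (nat_lit 11) (nat_lit 4) (nat_lit 364) (nat_lit 310) (nat_lit 226)) (XT.lf (nat_lit 0) (nat_lit 92658158536) (nat_lit 76) (nat_lit 59883434779) (nat_lit 76) (nat_lit 12025065027) (nat_lit 10) (nat_lit 4) (nat_lit 11) (nat_lit 5) (nat_lit 11) (nat_lit 4) (nat_lit 365) (nat_lit 310) (nat_lit 225)))) (XT.nd (nat_lit 78) (nat_lit 76) (nat_lit 0)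 (XT.lf (nat_lit 0) (nat_lit 15831884965) (nat_lit 152) (nat_lit 15408125120) (nat_lit 76) (nat_lit 144894288093) (nat_lit 9) (nat_lit 5) (nat_lit 11) (nat_lit 5) (nat_lit 10) (nat_lit 4) (nat_lit 366) (nat_lit 310) (nat_lit 224)) (XT.nd (nat_lit 78) (nat_lit 0) (nat_lit 0) (XT.lf (nat_lit 0) (nat_lit 46237809564) (nat_lit 152) (nat_lit 141693578708) (nat_lit 0) (nat_lit 649019447) (nat_lit 8) (nat_lit 5) (nat_lit 10) (nat_lit 4) (nat_lit 8) (nat_lit 4) (nat_lit 367) (nat_lit 310) (nat_lit 223)) (XT.lf (nat_lit 0) (nat_lit 79869389243) (nat_lit 152) (nat_lit 87836739741) (nat_lit 0) (nat_lit 34276418948) (nat_lit 8) (nat_lit 5) (nat_lit 10) (nat_lit 4) (nat_lit 8) (nat_lit 4) (nat_lit 368) (nat_lit 310) (nat_lit 222))))) (XT.nd (nat_lit 234) (nat_lit 152) (nat_lit 0) (XT.nd (nat_lit 78) (nat_lit 76) (nat_lit 0) (XT.lf (nat_lit 0) (nat_lit 116185585931) (nat_lit 152) (nat_lit 29682824695)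 (nat_lit 0) (nat_lit 70588745100) (nat_lit 8) (nat_lit 5) (nat_lit 10) (nat_lit 4) (nat_lit 8) (nat_lit 4) (nat_lit 369) (nat_lit 310) (nat_lit 221)) (XT.nd (nat_lit 78) (nat_lit 0) (nat_lit 0) (XT.lf (nat_lit 0) (nat_lit 34207640344) (nat_lit 76) (nat_lit 121728043507) (nat_lit 76) (nat_lit 76127618847) (nat_lit 7) (nat_lit 4) (nat_lit 8) (nat_lit 5) (nat_lit 8) (nat_lit 4) (nat_lit 370) (nat_lit 310) (nat_lit 220)) (XT.lf (nat_lit 0) (nat_lit 104259146942) (nat_lit 76) (nat_lit 95118473369) (nat_lit 76) (nat_lit 49514730348) (nat_lit 7) (nat_lit 4) (nat_lit 8) (nat_lit 5) (nat_lit 8) (nat_lit 4) (nat_lit 371) (nat_lit 310) (nat_lit 219)))) (XT.nd (nat_lit 78) (nat_lit 152) (nat_lit 0) (XT.lf (nat_lit 0) (nat_lit 179905366901) (nat_lit 76) (nat_lit 66384706869) (nat_lit 76) (nat_lit 20777891292) (nat_lit 7) (nat_lit 4) (nat_lit 8) (nat_lit 5) (nat_lit 8) (nat_lit 4) (nat_lit 372) (nat_lit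 310) (nat_lit 218)) (XT.nd (nat_lit 78) (nat_lit 76) (nat_lit 0) (XT.lf (nat_lit 0) (nat_lit 9925024563) (nat_lit 152) (nat_lit 25263360180) (nat_lit 76) (nat_lit 251501464458) (nat_lit 6) (nat_lit 5) (nat_lit 8) (nat_lit 5) (nat_lit 7) (nat_lit 4) (nat_lit 373) (nat_lit 310) (nat_lit 217)) (XT.lf (nat_lit 0) (nat_lit 42592484002) (nat_lit 76) (nat_lit 434237344) (nat_lit 152) (nat_lit 264804207059) (nat_lit 5) (nat_lit 5) (nat_lit 6) (nat_lit 5) (nat_lit 7) (nat_lit 4) (nat_lit 374) (nat_lit 310) (nat_lit 216))))))))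
noncomputable def xc67 : XT := (XT.nd (nat_lit 42354) (nat_lit 0) (nat_lit 2432) (XT.nd (nat_lit 858) (nat_lit 152) (nat_lit 0) (XT.nd (nat_lit 390) (nat_lit 0) (nat_lit 0) (XT.nd (nat_lit 156) (nat_lit 76) (nat_lit 0) (XT.nd (nat_lit 78) (nat_lit 0) (nat_lit 0) (XT.lf (nat_lit 0) (nat_lit 79798992131) (nat_lit 152) (nat_lit 214456791974) (nat_lit 0) (nat_lit 36356388463) (nat_lit 5) (nat_lit 5) (nat_lit 7) (nat_lit 4) (nat_lit 5) (nat_lit 4) (nat_lit 375) (nat_lit 310) (nat_lit 215)) (XT.lf (nat_lit 0) (nat_lit 119516583087) (nat_lit 152) (nat_lit 159627328206) (nat_lit 0) (nat_lit 76071828543) (nat_lit 5) (nat_lit 5) (nat_lit 7) (nat_lit 4) (nat_lit 5) (nat_lit 4) (nat_lit 376) (nat_lit 310) (nat_lit 214))) (XT.nd (nat_lit 78) (nat_lit 76) (nat_lit 0) (XT.lf (nat_lit 0) (nat_lit 162408078054) (nat_lit 152) (nat_lit 100418358098) (nat_lit 0) (nat_lit 118961331957) (nat_lit 5) (nat_lit 5)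 (nat_lit 7) (nat_lit 4) (nat_lit 5) (nat_lit 4) (nat_lit 377) (nat_lit 310) (nat_lit 213)) (XT.nd (nat_lit 78) (nat_lit 76) (nat_lit 0) (XT.lf (nat_lit 0) (nat_lit 208727648854) (nat_lit 152) (nat_lit 36479013678) (nat_lit 0) (nat_lit 165279058727) (nat_lit 5) (nat_lit 5) (nat_lit 7) (nat_lit 4) (nat_lit 5) (nat_lit 4) (nat_lit 378) (nat_lit 310) (nat_lit 212)) (XT.lf (nat_lit 0) (nat_lit 33646503097) (nat_lit 76) (nat_lit 225628594943) (nat_lit 76) (nat_lit 182178297380) (nat_lit 4) (nat_lit 4) (nat_lit 5) (nat_lit 5) (nat_lit 5) (nat_lit 4) (nat_lit 379) (nat_lit 310) (nat_lit 211))))) (XT.nd (nat_lit 234) (nat_lit 0) (nat_lit 0) (XT.nd (nat_lit 78) (nat_lit 0) (nat_lit 0) (XT.lf (nat_lit 0) (nat_lit 110679096854) (nat_lit 76) (nat_lit 203819818468) (nat_lit 76) (nat_lit 160367939947) (nat_lit 4) (nat_lit 4) (nat_lit 5) (nat_lit 5) (nat_lit 5) (nat_lit 4) (nat_lit 380) (nat_lit 310) (nat_lit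 210)) (XT.nd (nat_lit 78) (nat_lit 0) (nat_lit 0) (XT.lf (nat_lit 0) (nat_lit 193869096102) (nat_lit 76) (nat_lit 180268885663) (nat_lit 76) (nat_lit 136815543292) (nat_lit 4) (nat_lit 4) (nat_lit 5) (nat_lit 5) (nat_lit 5) (nat_lit 4) (nat_lit 381) (nat_lit 310) (nat_lit 209)) (XT.lf (nat_lit 0) (nat_lit 283709478614) (nat_lit 76) (nat_lit 154836235445) (nat_lit 76) (nat_lit 111381537656) (nat_lit 4) (nat_lit 4) (nat_lit 5) (nat_lit 5) (nat_lit 5) (nat_lit 4) (nat_lit 382) (nat_lit 310) (nat_lit 208)))) (XT.nd (nat_lit 78) (nat_lit 0) (nat_lit 0) (XT.lf (nat_lit 0) (nat_lit 380732631840) (nat_lit 76) (nat_lit 127371155811) (nat_lit 76) (nat_lit 83915203007) (nat_lit 4) (nat_lit 4) (nat_lit 5) (nat_lit 5) (nat_lit 5) (nat_lit 4) (nat_lit 383) (nat_lit 310) (nat_lit 207)) (XT.nd (nat_lit 78) (nat_lit 0) (nat_lit 0) (XT.lf (nat_lit 0) (nat_lit 485513507802) (nat_lit 76) (nat_lit 97710890735)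 (nat_lit 76) (nat_lit 54253775879) (nat_lit 4) (nat_lit 4) (nat_lit 5) (nat_lit 5) (nat_lit 5) (nat_lit 4) (nat_lit 384) (nat_lit 310) (nat_lit 206)) (XT.lf (nat_lit 0) (nat_lit 598673030207) (nat_lit 76) (nat_lit 65679675683) (nat_lit 76) (nat_lit 22221484853) (nat_lit 4) (nat_lit 4) (nat_lit 5) (nat_lit 5) (nat_lit 5) (nat_lit 4) (nat_lit 385) (nat_lit 310) (nat_lit 205)))))) (XT.nd (nat_lit 41028) (nat_lit 0) (nat_lit 8284) (XT.nd (nat_lit 234) (nat_lit 0) (nat_lit 0) (XT.nd (nat_lit 78) (nat_lit 76) (nat_lit 0) (XT.lf (nat_lit 0) (nat_lit 11975526078) (nat_lit 152) (nat_lit 18909358639) (nat_lit 76) (nat_lit 708703436596) (nat_lit 3) (nat_lit 5) (nat_lit 5) (nat_lit 5) (nat_lit 4) (nat_lit 4) (nat_lit 386) (nat_lit 310) (nat_lit 204)) (XT.nd (nat_lit 78) (nat_lit 0) (nat_lit 0) (XT.lf (nat_lit 0) (nat_lit 49154400652) (nat_lit 152) (nat_lit 739855915678) (nat_lit 0) (nat_lit 7763820104)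 (nat_lit 2) (nat_lit 5) (nat_lit 4) (nat_lit 4) (nat_lit 2) (nat_lit 4) (nat_lit 387) (nat_lit 310) (nat_lit 203)) (XT.lf (nat_lit 0) (nat_lit 90161499706) (nat_lit 152) (nat_lit 719560515831) (nat_lit 0) (nat_lit 48770105688) (nat_lit 2) (nat_lit 5) (nat_lit 4) (nat_lit 4) (nat_lit 2) (nat_lit 4) (nat_lit 388) (nat_lit 310) (nat_lit 202)))) (XT.nd (nat_lit 78) (nat_lit 0) (nat_lit 0) (XT.lf (nat_lit 0) (nat_lit 134447639180) (nat_lit 152) (nat_lit 697644490220) (nat_lit 0) (nat_lit 93055491950) (nat_lit 2) (nat_lit 5) (nat_lit 4) (nat_lit 4) (nat_lit 2) (nat_lit 4) (nat_lit 389) (nat_lit 310) (nat_lit 201)) (XT.nd (nat_lit 78) (nat_lit 0) (nat_lit 0) (XT.lf (nat_lit 0) (nat_lit 182275255456) (nat_lit 152) (nat_lit 673977966099) (nat_lit 0) (nat_lit 140882410807) (nat_lit 2) (nat_lit 5) (nat_lit 4) (nat_lit 4) (nat_lit 2) (nat_lit 4) (nat_lit 390) (nat_lit 310) (nat_lit 200)) (XT.lf (nat_lit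 0) (nat_lit 233927771446) (nat_lit 152) (nat_lit 648420697401) (nat_lit 0) (nat_lit 192534281039) (nat_lit 2) (nat_lit 5) (nat_lit 4) (nat_lit 4) (nat_lit 2) (nat_lit 4) (nat_lit 391) (nat_lit 310) (nat_lit 199))))) (XT.nd (nat_lit 234) (nat_lit 0) (nat_lit 76) (XT.nd (nat_lit 78) (nat_lit 0) (nat_lit 0) (XT.lf (nat_lit 0) (nat_lit 272943598) (nat_lit 0) (nat_lit 272943598) (nat_lit 684) (nat_lit 4447945823) (nat_lit 111) (nat_lit 5) (nat_lit 111) (nat_lit 3) (nat_lit 120) (nat_lit 3) (nat_lit 311) (nat_lit 311) (nat_lit 278)) (XT.nd (nat_lit 78) (nat_lit 0) (nat_lit 76) (XT.lf (nat_lit 0) (nat_lit 2314797684) (nat_lit 684) (nat_lit 1959011665) (nat_lit 760) (nat_lit 6053175771) (nat_lit 111) (nat_lit 5) (nat_lit 120) (nat_lit 3) (nat_lit 121) (nat_lit 5) (nat_lit 312) (nat_lit 311) (nat_lit 277)) (XT.lf (nat_lit 0) (nat_lit 3675981781) (nat_lit 684) (nat_lit 4481657832) (nat_lit 760) (nat_lit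 2533916221) (nat_lit 112) (nat_lit 5) (nat_lit 121) (nat_lit 5) (nat_lit 122) (nat_lit 5) (nat_lit 313) (nat_lit 311) (nat_lit 276)))) (XT.nd (nat_lit 78) (nat_lit 0) (nat_lit 76) (XT.lf (nat_lit 76) (nat_lit 4010782809) (nat_lit 0) (nat_lit 1204980169) (nat_lit 760) (nat_lit 5866157122) (nat_lit 113) (nat_lit 5) (nat_lit 112) (nat_lit 5) (nat_lit 122) (nat_lit 5) (nat_lit 314) (nat_lit 311) (nat_lit 275)) (XT.nd (nat_lit 78) (nat_lit 0) (nat_lit 76) (XT.lf (nat_lit 76) (nat_lit 1732642493) (nat_lit 0) (nat_lit 5258175850) (nat_lit 760) (nat_lit 4507195221) (nat_lit 114) (nat_lit 5) (nat_lit 113) (nat_lit 5) (nat_lit 123) (nat_lit 5) (nat_lit 315) (nat_lit 311) (nat_lit 274)) (XT.lf (nat_lit 0) (nat_lit 9002365061) (nat_lit 684) (nat_lit 573886042) (nat_lit 760) (nat_lit 2366515944) (nat_lit 114) (nat_lit 5) (nat_lit 123) (nat_lit 5) (nat_lit 124) (nat_lit 5) (nat_lit 316) (nat_lit 311)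 (nat_lit 273))))))) (XT.nd (nat_lit 936) (nat_lit 2052) (nat_lit 0) (XT.nd (nat_lit 468) (nat_lit 1900) (nat_lit 0) (XT.nd (nat_lit 234) (nat_lit 684) (nat_lit 0) (XT.nd (nat_lit 78) (nat_lit 1444) (nat_lit 0) (XT.lf (nat_lit 76) (nat_lit 9505441801) (nat_lit 0) (nat_lit 1826388778) (nat_lit 760) (nat_lit 1083510191) (nat_lit 115) (nat_lit 5) (nat_lit 114) (nat_lit 5) (nat_lit 124) (nat_lit 5) (nat_lit 317) (nat_lit 311) (nat_lit 272)) (XT.nd (nat_lit 78) (nat_lit 760) (nat_lit 0) (XT.lf (nat_lit 0) (nat_lit 1050423032) (nat_lit 760) (nat_lit 5373259545) (nat_lit 76) (nat_lit 6493497342) (nat_lit 105) (nat_lit 5) (nat_lit 115) (nat_lit 5) (nat_lit 106) (nat_lit 5) (nat_lit 318) (nat_lit 311) (nat_lit 271)) (XT.lf (nat_lit 0) (nat_lit 3448261247) (nat_lit 836) (nat_lit 7941825636) (nat_lit 76) (nat_lit 2061706883) (nat_lit 95) (nat_lit 5) (nat_lit 106) (nat_lit 5) (nat_lit 96) (nat_lit 5)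 (nat_lit 319) (nat_lit 311) (nat_lit 270)))) (XT.nd (nat_lit 78) (nat_lit 304) (nat_lit 0) (XT.lf (nat_lit 0) (nat_lit 3364313410) (nat_lit 380) (nat_lit 2862523588) (nat_lit 456) (nat_lit 7792962025) (nat_lit 90) (nat_lit 5) (nat_lit 95) (nat_lit 5) (nat_lit 96) (nat_lit 5) (nat_lit 320) (nat_lit 311) (nat_lit 269)) (XT.nd (nat_lit 78) (nat_lit 0) (nat_lit 0) (XT.lf (nat_lit 0) (nat_lit 1100915623) (nat_lit 304) (nat_lit 8320633478) (nat_lit 380) (nat_lit 5202065885) (nat_lit 86) (nat_lit 5) (nat_lit 90) (nat_lit 5) (nat_lit 91) (nat_lit 5) (nat_lit 321) (nat_lit 311) (nat_lit 268)) (XT.lf (nat_lit 0) (nat_lit 13061523288) (nat_lit 380) (nat_lit 1216908856) (nat_lit 76) (nat_lit 987877976) (nat_lit 86) (nat_lit 5) (nat_lit 91) (nat_lit 5) (nat_lit 87) (nat_lit 5) (nat_lit 322) (nat_lit 311) (nat_lit 267))))) (XT.nd (nat_lit 234) (nat_lit 836) (nat_lit 0) (XT.nd (nat_lit 78) (nat_lit 608)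 (nat_lit 0) (XT.lf (nat_lit 0) (nat_lit 1280518981) (nat_lit 456) (nat_lit 3702162673) (nat_lit 76) (nat_lit 10962920472) (nat_lit 80) (nat_lit 5) (nat_lit 86) (nat_lit 5) (nat_lit 81) (nat_lit 5) (nat_lit 323) (nat_lit 311) (nat_lit 266)) (XT.nd (nat_lit 78) (nat_lit 304) (nat_lit 0) (XT.lf (nat_lit 0) (nat_lit 5181796594) (nat_lit 380) (nat_lit 6372358207) (nat_lit 76) (nat_lit 5112603351) (nat_lit 76) (nat_lit 5) (nat_lit 81) (nat_lit 5) (nat_lit 77) (nat_lit 5) (nat_lit 324) (nat_lit 311) (nat_lit 265)) (XT.lf (nat_lit 0) (nat_lit 8219030367) (nat_lit 304) (nat_lit 1404208627) (nat_lit 380) (nat_lit 7811008501) (nat_lit 72) (nat_lit 5) (nat_lit 76) (nat_lit 5) (nat_lit 77) (nat_lit 5) (nat_lit 325) (nat_lit 311) (nat_lit 264)))) (XT.nd (nat_lit 78) (nat_lit 608) (nat_lit 0) (XT.lf (nat_lit 0) (nat_lit 5927247647) (nat_lit 228) (nat_lit 8800160665) (nat_lit 304) (nat_lit 3520397802) (nat_lit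 69) (nat_lit 5) (nat_lit 72) (nat_lit 5) (nat_lit 73) (nat_lit 5) (nat_lit 326) (nat_lit 311) (nat_lit 263)) (XT.nd (nat_lit 78) (nat_lit 228) (nat_lit 0) (XT.lf (nat_lit 0) (nat_lit 1308789715) (nat_lit 380) (nat_lit 15648523059) (nat_lit 76) (nat_lit 2156755049) (nat_lit 64) (nat_lit 5) (nat_lit 69) (nat_lit 5) (nat_lit 65) (nat_lit 5) (nat_lit 327) (nat_lit 311) (nat_lit 262)) (XT.lf (nat_lit 0) (nat_lit 668184890) (nat_lit 228) (nat_lit 6068353918) (nat_lit 304) (nat_lit 13293461116) (nat_lit 61) (nat_lit 5) (nat_lit 64) (nat_lit 5) (nat_lit 65) (nat_lit 5) (nat_lit 328) (nat_lit 311) (nat_lit 261)))))) (XT.nd (nat_lit 468) (nat_lit 836) (nat_lit 0) (XT.nd (nat_lit 234) (nat_lit 684) (nat_lit 0) (XT.nd (nat_lit 78) (nat_lit 532) (nat_lit 0) (XT.lf (nat_lit 0) (nat_lit 12923494239) (nat_lit 304) (nat_lit 2306754124) (nat_lit 76) (nat_lit 5772739685) (nat_lit 61) (nat_lit 5) (nat_lit 65)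 (nat_lit 5) (nat_lit 62) (nat_lit 5) (nat_lit 329) (nat_lit 311) (nat_lit 260)) (XT.nd (nat_lit 78) (nat_lit 304) (nat_lit 0) (XT.lf (nat_lit 0) (nat_lit 16485357993) (nat_lit 228) (nat_lit 3441853232) (nat_lit 304) (nat_lit 2110542237) (nat_lit 58) (nat_lit 5) (nat_lit 61) (nat_lit 5) (nat_lit 62) (nat_lit 5) (nat_lit 330) (nat_lit 311) (nat_lit 259)) (XT.lf (nat_lit 0) (nat_lit 4570862293) (nat_lit 304) (nat_lit 9251632298) (nat_lit 76) (nat_lit 9310760174) (nat_lit 54) (nat_lit 5) (nat_lit 58) (nat_lit 5) (nat_lit 55) (nat_lit 5) (nat_lit 331) (nat_lit 311) (nat_lit 258)))) (XT.nd (nat_lit 78) (nat_lit 456) (nat_lit 0) (XT.lf (nat_lit 0) (nat_lit 10961828777) (nat_lit 228) (nat_lit 1044688930) (nat_lit 304) (nat_lit 12293487696) (nat_lit 51) (nat_lit 5) (nat_lit 54) (nat_lit 5) (nat_lit 55) (nat_lit 5) (nat_lit 332) (nat_lit 311) (nat_lit 257)) (XT.nd (nat_lit 78) (nat_lit 304) (nat_lit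 0) (XT.lf (nat_lit 0) (nat_lit 7560807026) (nat_lit 152) (nat_lit 12923989704) (nat_lit 228) (nat_lit 5052932346) (nat_lit 49) (nat_lit 5) (nat_lit 51) (nat_lit 5) (nat_lit 52) (nat_lit 5) (nat_lit 333) (nat_lit 311) (nat_lit 256)) (XT.lf (nat_lit 0) (nat_lit 2970987743) (nat_lit 304) (nat_lit 23119085990) (nat_lit 76) (nat_lit 767622113) (nat_lit 45) (nat_lit 5) (nat_lit 49) (nat_lit 5) (nat_lit 46) (nat_lit 5) (nat_lit 334) (nat_lit 311) (nat_lit 255))))) (XT.nd (nat_lit 234) (nat_lit 456) (nat_lit 0) (XT.nd (nat_lit 78) (nat_lit 380) (nat_lit 0) (XT.lf (nat_lit 0) (nat_lit 11967701225) (nat_lit 304) (nat_lit 790676651) (nat_lit 76) (nat_lit 15495362430) (nat_lit 45) (nat_lit 5) (nat_lit 49) (nat_lit 5) (nat_lit 46) (nat_lit 5) (nat_lit 335) (nat_lit 311) (nat_lit 254)) (XT.nd (nat_lit 78) (nat_lit 228) (nat_lit 0) (XT.lf (nat_lit 0) (nat_lit 22062743697) (nat_lit 228) (nat_lit 5726491577)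 (nat_lit 76) (nat_lit 1953319740) (nat_lit 43) (nat_lit 5) (nat_lit 46) (nat_lit 5) (nat_lit 44) (nat_lit 5) (nat_lit 336) (nat_lit 311) (nat_lit 253)) (XT.lf (nat_lit 0) (nat_lit 2083646971) (nat_lit 228) (nat_lit 11496102991) (nat_lit 76) (nat_lit 17743457648) (nat_lit 40) (nat_lit 5) (nat_lit 43) (nat_lit 5) (nat_lit 41) (nat_lit 5) (nat_lit 337) (nat_lit 311) (nat_lit 252)))) (XT.nd (nat_lit 78) (nat_lit 304) (nat_lit 0) (XT.lf (nat_lit 0) (nat_lit 12705500581) (nat_lit 228) (nat_lit 18135971319) (nat_lit 76) (nat_lit 2165239794) (nat_lit 38) (nat_lit 5) (nat_lit 41) (nat_lit 5) (nat_lit 39) (nat_lit 5) (nat_lit 338) (nat_lit 311) (nat_lit 251)) (XT.nd (nat_lit 78) (nat_lit 152) (nat_lit 0) (XT.lf (nat_lit 0) (nat_lit 8955025772) (nat_lit 152) (nat_lit 15769193836) (nat_lit 228) (nat_lit 10073332955) (nat_lit 36) (nat_lit 5) (nat_lit 38) (nat_lit 5) (nat_lit 39) (nat_lit 5) (nat_lit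 339) (nat_lit 311) (nat_lit 250)) (XT.lf (nat_lit 0) (nat_lit 1285721983) (nat_lit 152) (nat_lit 34575440230) (nat_lit 76) (nat_lit 852545888) (nat_lit 34) (nat_lit 5) (nat_lit 36) (nat_lit 5) (nat_lit 35) (nat_lit 5) (nat_lit 340) (nat_lit 311) (nat_lit 249))))))))
noncomputable def xc68 : XT := (XT.nd (nat_lit 1794) (nat_lit 532) (nat_lit 0) (XT.nd (nat_lit 858) (nat_lit 684) (nat_lit 0) (XT.nd (nat_lit 390) (nat_lit 608) (nat_lit 0) (XT.nd (nat_lit 156) (nat_lit 304) (nat_lit 0) (XT.nd (nat_lit 78) (nat_lit 152) (nat_lit 0) (XT.lf (nat_lit 0) (nat_lit 13905307235) (nat_lit 152) (nat_lit 5963463196) (nat_lit 76) (nat_lit 18870902555) (nat_lit 34) (nat_lit 5) (nat_lit 36) (nat_lit 5) (nat_lit 35) (nat_lit 5) (nat_lit 341) (nat_lit 311) (nat_lit 248)) (XT.lf (nat_lit 0) (nat_lit 25723719792) (nat_lit 152) (nat_lit 2190665365) (nat_lit 228) (nat_lit 12994342920) (nat_lit 32) (nat_lit 5) (nat_lit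 34) (nat_lit 5) (nat_lit 35) (nat_lit 5) (nat_lit 342) (nat_lit 311) (nat_lit 247))) (XT.nd (nat_lit 78) (nat_lit 152) (nat_lit 0) (XT.lf (nat_lit 0) (nat_lit 426120058) (nat_lit 152) (nat_lit 26067271984) (nat_lit 76) (nat_lit 16726754967) (nat_lit 30) (nat_lit 5) (nat_lit 32) (nat_lit 5) (nat_lit 31) (nat_lit 5) (nat_lit 343) (nat_lit 311) (nat_lit 246)) (XT.nd (nat_lit 78) (nat_lit 0) (nat_lit 0) (XT.lf (nat_lit 0) (nat_lit 6839955681) (nat_lit 152) (nat_lit 8023470432) (nat_lit 228) (nat_lit 30822486618) (nat_lit 28) (nat_lit 5) (nat_lit 30) (nat_lit 5) (nat_lit 31) (nat_lit 5) (nat_lit 344) (nat_lit 311) (nat_lit 245)) (XT.lf (nat_lit 0) (nat_lit 31083942859) (nat_lit 228) (nat_lit 5243805056) (nat_lit 76) (nat_lit 11989787522) (nat_lit 28) (nat_lit 5) (nat_lit 31) (nat_lit 5) (nat_lit 29) (nat_lit 4) (nat_lit 345) (nat_lit 311) (nat_lit 244))))) (XT.nd (nat_lit 234) (nat_lit 228) (nat_lit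 0) (XT.nd (nat_lit 78) (nat_lit 304) (nat_lit 0) (XT.lf (nat_lit 0) (nat_lit 31900223124) (nat_lit 76) (nat_lit 17317201121) (nat_lit 152) (nat_lit 1911504067) (nat_lit 27) (nat_lit 5) (nat_lit 28) (nat_lit 5) (nat_lit 29) (nat_lit 4) (nat_lit 346) (nat_lit 311) (nat_lit 243)) (XT.nd (nat_lit 78) (nat_lit 76) (nat_lit 0) (XT.lf (nat_lit 0) (nat_lit 14590018640) (nat_lit 228) (nat_lit 35826568461) (nat_lit 76) (nat_lit 3716119451) (nat_lit 24) (nat_lit 5) (nat_lit 27) (nat_lit 5) (nat_lit 25) (nat_lit 4) (nat_lit 347) (nat_lit 311) (nat_lit 242)) (XT.lf (nat_lit 0) (nat_lit 1870033468) (nat_lit 76) (nat_lit 31120364583) (nat_lit 152) (nat_lit 24352542282) (nat_lit 23) (nat_lit 5) (nat_lit 24) (nat_lit 5) (nat_lit 25) (nat_lit 4) (nat_lit 348) (nat_lit 311) (nat_lit 241)))) (XT.nd (nat_lit 78) (nat_lit 228) (nat_lit 0) (XT.lf (nat_lit 0) (nat_lit 43832565865) (nat_lit 76) (nat_lit 9638279725)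 (nat_lit 152) (nat_lit 7308750264) (nat_lit 23) (nat_lit 5) (nat_lit 24) (nat_lit 5) (nat_lit 25) (nat_lit 4) (nat_lit 349) (nat_lit 311) (nat_lit 240)) (XT.nd (nat_lit 78) (nat_lit 76) (nat_lit 0) (XT.lf (nat_lit 0) (nat_lit 11343604169) (nat_lit 152) (nat_lit 39415510976) (nat_lit 76) (nat_lit 13693394956) (nat_lit 21) (nat_lit 5) (nat_lit 23) (nat_lit 5) (nat_lit 22) (nat_lit 4) (nat_lit 350) (nat_lit 311) (nat_lit 239)) (XT.lf (nat_lit 0) (nat_lit 2337814166) (nat_lit 76) (nat_lit 29382181631) (nat_lit 152) (nat_lit 36668879343) (nat_lit 20) (nat_lit 5) (nat_lit 21) (nat_lit 5) (nat_lit 22) (nat_lit 4) (nat_lit 351) (nat_lit 311) (nat_lit 238)))))) (XT.nd (nat_lit 468) (nat_lit 304) (nat_lit 0) (XT.nd (nat_lit 234) (nat_lit 228) (nat_lit 0) (XT.nd (nat_lit 78) (nat_lit 152) (nat_lit 0) (XT.lf (nat_lit 0) (nat_lit 48813247388) (nat_lit 76) (nat_lit 5585946952) (nat_lit 152) (nat_lit 18207323989)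 (nat_lit 20) (nat_lit 5) (nat_lit 21) (nat_lit 5) (nat_lit 22) (nat_lit 4) (nat_lit 352) (nat_lit 311) (nat_lit 237)) (XT.nd (nat_lit 78) (nat_lit 0) (nat_lit 0) (XT.lf (nat_lit 0) (nat_lit 2334248196) (nat_lit 152) (nat_lit 54948858996) (nat_lit 76) (nat_lit 19844192646) (nat_lit 18) (nat_lit 5) (nat_lit 20) (nat_lit 5) (nat_lit 19) (nat_lit 4) (nat_lit 353) (nat_lit 311) (nat_lit 236)) (XT.lf (nat_lit 0) (nat_lit 24392584132) (nat_lit 152) (nat_lit 9743088824) (nat_lit 76) (nat_lit 47833583219) (nat_lit 18) (nat_lit 5) (nat_lit 20) (nat_lit 5) (nat_lit 19) (nat_lit 4) (nat_lit 354) (nat_lit 311) (nat_lit 235)))) (XT.nd (nat_lit 78) (nat_lit 152) (nat_lit 0) (XT.lf (nat_lit 0) (nat_lit 40348686968) (nat_lit 76) (nat_lit 8485151163) (nat_lit 152) (nat_lit 38333821147) (nat_lit 17) (nat_lit 5) (nat_lit 18) (nat_lit 5) (nat_lit 19) (nat_lit 4) (nat_lit 355) (nat_lit 311) (nat_lit 234)) (XT.nd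 (nat_lit 78) (nat_lit 76) (nat_lit 0) (XT.lf (nat_lit 0) (nat_lit 1754282457) (nat_lit 76) (nat_lit 73964720850) (nat_lit 76) (nat_lit 17038503386) (nat_lit 16) (nat_lit 4) (nat_lit 17) (nat_lit 5) (nat_lit 17) (nat_lit 4) (nat_lit 356) (nat_lit 311) (nat_lit 233)) (XT.lf (nat_lit 0) (nat_lit 6730693526) (nat_lit 152) (nat_lit 43138742943) (nat_lit 76) (nat_lit 48872403523) (nat_lit 15) (nat_lit 5) (nat_lit 17) (nat_lit 5) (nat_lit 16) (nat_lit 4) (nat_lit 357) (nat_lit 311) (nat_lit 232))))) (XT.nd (nat_lit 234) (nat_lit 152) (nat_lit 0) (XT.nd (nat_lit 78) (nat_lit 76) (nat_lit 0) (XT.lf (nat_lit 0) (nat_lit 8521100198) (nat_lit 76) (nat_lit 23414235515) (nat_lit 152) (nat_lit 73249077600) (nat_lit 14) (nat_lit 5) (nat_lit 15) (nat_lit 5) (nat_lit 16) (nat_lit 4) (nat_lit 358) (nat_lit 311) (nat_lit 231)) (XT.nd (nat_lit 78) (nat_lit 76) (nat_lit 0) (XT.lf (nat_lit 0) (nat_lit 59990805237)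 (nat_lit 152) (nat_lit 46362199115) (nat_lit 0) (nat_lit 5747667320) (nat_lit 14) (nat_lit 5) (nat_lit 16) (nat_lit 4) (nat_lit 14) (nat_lit 4) (nat_lit 359) (nat_lit 311) (nat_lit 230)) (XT.lf (nat_lit 0) (nat_lit 7800510001) (nat_lit 76) (nat_lit 82997692181) (nat_lit 76) (nat_lit 28746655853) (nat_lit 13) (nat_lit 4) (nat_lit 14) (nat_lit 5) (nat_lit 14) (nat_lit 4) (nat_lit 360) (nat_lit 311) (nat_lit 229)))) (XT.nd (nat_lit 78) (nat_lit 152) (nat_lit 0) (XT.lf (nat_lit 0) (nat_lit 67935216873) (nat_lit 76) (nat_lit 56933884143) (nat_lit 76) (nat_lit 2675534472) (nat_lit 13) (nat_lit 4) (nat_lit 14) (nat_lit 5) (nat_lit 14) (nat_lit 4) (nat_lit 361) (nat_lit 311) (nat_lit 228)) (XT.nd (nat_lit 78) (nat_lit 76) (nat_lit 0) (XT.lf (nat_lit 0) (nat_lit 24657537421) (nat_lit 152) (nat_lit 3717169571) (nat_lit 76) (nat_lit 107790206890) (nat_lit 12) (nat_lit 5) (nat_lit 14) (nat_lit 5) (nat_lit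 13) (nat_lit 4) (nat_lit 362) (nat_lit 311) (nat_lit 227)) (XT.lf (nat_lit 0) (nat_lit 55044033611) (nat_lit 152) (nat_lit 87023569165) (nat_lit 0) (nat_lit 3356994279) (nat_lit 11) (nat_lit 5) (nat_lit 13) (nat_lit 4) (nat_lit 11) (nat_lit 4) (nat_lit 363) (nat_lit 311) (nat_lit 226))))))) (XT.nd (nat_lit 858) (nat_lit 152) (nat_lit 0) (XT.nd (nat_lit 390) (nat_lit 152) (nat_lit 0) (XT.nd (nat_lit 156) (nat_lit 152) (nat_lit 0) (XT.nd (nat_lit 78) (nat_lit 76) (nat_lit 0) (XT.lf (nat_lit 0) (nat_lit 88398379016) (nat_lit 152) (nat_lit 30294020094) (nat_lit 0) (nat_lit 36705810572) (nat_lit 11) (nat_lit 5) (nat_lit 13) (nat_lit 4) (nat_lit 11) (nat_lit 4) (nat_lit 364) (nat_lit 311) (nat_lit 225)) (XT.lf (nat_lit 0) (nat_lit 31984531025) (nat_lit 76) (nat_lit 92929120256) (nat_lit 76) (nat_lit 41231432263) (nat_lit 10) (nat_lit 4) (nat_lit 11) (nat_lit 5) (nat_lit 11) (nat_lit 4) (nat_lit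 365) (nat_lit 311) (nat_lit 224))) (XT.nd (nat_lit 78) (nat_lit 152) (nat_lit 0) (XT.lf (nat_lit 0) (nat_lit 100314657162) (nat_lit 76) (nat_lit 64556709253) (nat_lit 76) (nat_lit 12854280938) (nat_lit 10) (nat_lit 4) (nat_lit 11) (nat_lit 5) (nat_lit 11) (nat_lit 4) (nat_lit 366) (nat_lit 311) (nat_lit 223)) (XT.nd (nat_lit 78) (nat_lit 76) (nat_lit 0) (XT.lf (nat_lit 0) (nat_lit 17217453544) (nat_lit 152) (nat_lit 16411037735) (nat_lit 76) (nat_lit 156590581016) (nat_lit 9) (nat_lit 5) (nat_lit 11) (nat_lit 5) (nat_lit 10) (nat_lit 4) (nat_lit 367) (nat_lit 311) (nat_lit 222)) (XT.lf (nat_lit 0) (nat_lit 50052123784) (nat_lit 152) (nat_lit 152805269476) (nat_lit 0) (nat_lit 803665151) (nat_lit 8) (nat_lit 5) (nat_lit 10) (nat_lit 4) (nat_lit 8) (nat_lit 4) (nat_lit 368) (nat_lit 311) (nat_lit 221))))) (XT.nd (nat_lit 234) (nat_lit 76) (nat_lit 0) (XT.nd (nat_lit 78) (nat_lit 76) (nat_lit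 0) (XT.lf (nat_lit 0) (nat_lit 86365689879) (nat_lit 152) (nat_lit 94656460839) (nat_lit 0) (nat_lit 37113647416) (nat_lit 8) (nat_lit 5) (nat_lit 10) (nat_lit 4) (nat_lit 8) (nat_lit 4) (nat_lit 369) (nat_lit 311) (nat_lit 220)) (XT.nd (nat_lit 78) (nat_lit 76) (nat_lit 0) (XT.lf (nat_lit 0) (nat_lit 125579274932) (nat_lit 152) (nat_lit 31865582077) (nat_lit 0) (nat_lit 76323914109) (nat_lit 8) (nat_lit 5) (nat_lit 10) (nat_lit 4) (nat_lit 8) (nat_lit 4) (nat_lit 370) (nat_lit 311) (nat_lit 219)) (XT.lf (nat_lit 0) (nat_lit 37127781791) (nat_lit 76) (nat_lit 131377142677) (nat_lit 76) (nat_lit 82118709297) (nat_lit 7) (nat_lit 4) (nat_lit 8) (nat_lit 5) (nat_lit 8) (nat_lit 4) (nat_lit 371) (nat_lit 311) (nat_lit 218)))) (XT.nd (nat_lit 78) (nat_lit 76) (nat_lit 0) (XT.lf (nat_lit 0) (nat_lit 112769814086) (nat_lit 76) (nat_lit 102645410209) (nat_lit 76) (nat_lit 53384131871) (nat_lit 7)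 (nat_lit 4) (nat_lit 8) (nat_lit 5) (nat_lit 8) (nat_lit 4) (nat_lit 372) (nat_lit 311) (nat_lit 217)) (XT.nd (nat_lit 78) (nat_lit 76) (nat_lit 0) (XT.lf (nat_lit 0) (nat_lit 194455143834) (nat_lit 76) (nat_lit 71619056540) (nat_lit 76) (nat_lit 22355143980) (nat_lit 7) (nat_lit 4) (nat_lit 8) (nat_lit 5) (nat_lit 8) (nat_lit 4) (nat_lit 373) (nat_lit 311) (nat_lit 216)) (XT.lf (nat_lit 0) (nat_lit 10795192056) (nat_lit 152) (nat_lit 27136207939) (nat_lit 76) (nat_lit 271689818393) (nat_lit 6) (nat_lit 5) (nat_lit 8) (nat_lit 5) (nat_lit 7) (nat_lit 4) (nat_lit 374) (nat_lit 311) (nat_lit 215)))))) (XT.nd (nat_lit 468) (nat_lit 0) (nat_lit 0) (XT.nd (nat_lit 234) (nat_lit 76) (nat_lit 0) (XT.nd (nat_lit 78) (nat_lit 0) (nat_lit 0) (XT.lf (nat_lit 0) (nat_lit 46141662271) (nat_lit 76) (nat_lit 399933994) (nat_lit 152) (nat_lit 285912159853) (nat_lit 5) (nat_lit 5) (nat_lit 6) (nat_lit 5)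 (nat_lit 7) (nat_lit 4) (nat_lit 375) (nat_lit 311) (nat_lit 214)) (XT.nd (nat_lit 78) (nat_lit 0) (nat_lit 0) (XT.lf (nat_lit 0) (nat_lit 86251258869) (nat_lit 152) (nat_lit 231479679625) (nat_lit 0) (nat_lit 39326781531) (nat_lit 5) (nat_lit 5) (nat_lit 7) (nat_lit 4) (nat_lit 5) (nat_lit 4) (nat_lit 376) (nat_lit 311) (nat_lit 213)) (XT.lf (nat_lit 0) (nat_lit 129141194334) (nat_lit 152) (nat_lit 172273759179) (nat_lit 0) (nat_lit 82214872966) (nat_lit 5) (nat_lit 5) (nat_lit 7) (nat_lit 4) (nat_lit 5) (nat_lit 4) (nat_lit 377) (nat_lit 311) (nat_lit 212)))) (XT.nd (nat_lit 78) (nat_lit 76) (nat_lit 0) (XT.lf (nat_lit 0) (nat_lit 175459321150) (nat_lit 152) (nat_lit 108337238520) (nat_lit 0) (nat_lit 128531292347) (nat_lit 5) (nat_lit 5) (nat_lit 7) (nat_lit 4) (nat_lit 5) (nat_lit 4) (nat_lit 378) (nat_lit 311) (nat_lit 211)) (XT.nd (nat_lit 78) (nat_lit 76) (nat_lit 0) (XT.lf (nat_lit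 0) (nat_lit 225480117106) (nat_lit 152) (nat_lit 39291234563) (nat_lit 0) (nat_lit 178550507345) (nat_lit 5) (nat_lit 5) (nat_lit 7) (nat_lit 4) (nat_lit 5) (nat_lit 4) (nat_lit 379) (nat_lit 311) (nat_lit 210)) (XT.lf (nat_lit 0) (nat_lit 36439712568) (nat_lit 76) (nat_lit 243629215201) (nat_lit 76) (nat_lit 196698141590) (nat_lit 4) (nat_lit 4) (nat_lit 5) (nat_lit 5) (nat_lit 5) (nat_lit 4) (nat_lit 380) (nat_lit 311) (nat_lit 209))))) (XT.nd (nat_lit 234) (nat_lit 0) (nat_lit 0) (XT.nd (nat_lit 78) (nat_lit 0) (nat_lit 0) (XT.lf (nat_lit 0) (nat_lit 119627396106) (nat_lit 76) (nat_lit 220079415671) (nat_lit 76) (nat_lit 173146986642) (nat_lit 4) (nat_lit 4) (nat_lit 5) (nat_lit 5) (nat_lit 5) (nat_lit 4) (nat_lit 381) (nat_lit 311) (nat_lit 208)) (XT.nd (nat_lit 78) (nat_lit 0) (nat_lit 0) (XT.lf (nat_lit 0) (nat_lit 209465634442) (nat_lit 76) (nat_lit 194647814780) (nat_lit 76) (nat_lit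 147714130736) (nat_lit 4) (nat_lit 4) (nat_lit 5) (nat_lit 5) (nat_lit 5) (nat_lit 4) (nat_lit 382) (nat_lit 311) (nat_lit 207)) (XT.lf (nat_lit 0) (nat_lit 306486802320) (nat_lit 76) (nat_lit 167183706747) (nat_lit 76) (nat_lit 120248860651) (nat_lit 4) (nat_lit 4) (nat_lit 5) (nat_lit 5) (nat_lit 5) (nat_lit 4) (nat_lit 383) (nat_lit 311) (nat_lit 206)))) (XT.nd (nat_lit 78) (nat_lit 0) (nat_lit 0) (XT.lf (nat_lit 0) (nat_lit 411265839997) (nat_lit 76) (nat_lit 137524341301) (nat_lit 76) (nat_lit 90588419231) (nat_lit 4) (nat_lit 4) (nat_lit 5) (nat_lit 5) (nat_lit 5) (nat_lit 4) (nat_lit 384) (nat_lit 311) (nat_lit 205)) (XT.nd (nat_lit 78) (nat_lit 0) (nat_lit 0) (XT.lf (nat_lit 0) (nat_lit 524423660286) (nat_lit 76) (nat_lit 105493959239) (nat_lit 76) (nat_lit 58557040897) (nat_lit 4) (nat_lit 4) (nat_lit 5) (nat_lit 5) (nat_lit 5) (nat_lit 4) (nat_lit 385) (nat_lit 311) (nat_lit 204))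 (XT.lf (nat_lit 0) (nat_lit 646630828050) (nat_lit 76) (nat_lit 70902750891) (nat_lit 76) (nat_lit 23964910075) (nat_lit 4) (nat_lit 4) (nat_lit 5) (nat_lit 5) (nat_lit 5) (nat_lit 4) (nat_lit 386) (nat_lit 311) (nat_lit 203))))))))
noncomputable def xc69 : XT := (XT.nd (nat_lit 42432) (nat_lit 0) (nat_lit 1368) (XT.nd (nat_lit 41496) (nat_lit 0) (nat_lit 4484) (XT.nd (nat_lit 41028) (nat_lit 0) (nat_lit 8284) (XT.nd (nat_lit 156) (nat_lit 0) (nat_lit 0) (XT.nd (nat_lit 78) (nat_lit 76) (nat_lit 0) (XT.lf (nat_lit 0) (nat_lit 12964305164) (nat_lit 152) (nat_lit 20361869372) (nat_lit 76) (nat_lit 765427671966) (nat_lit 3) (nat_lit 5) (nat_lit 5) (nat_lit 5) (nat_lit 4) (nat_lit 4) (nat_lit 387) (nat_lit 311) (nat_lit 202)) (XT.lf (nat_lit 0) (nat_lit 53116553722) (nat_lit 152) (nat_lit 798985738678) (nat_lit 0) (nat_lit 8412281501) (nat_lit 2) (nat_lit 5) (nat_lit 4) (nat_lit 4) (nat_lit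 2) (nat_lit 4) (nat_lit 388) (nat_lit 311) (nat_lit 201))) (XT.nd (nat_lit 78) (nat_lit 0) (nat_lit 0) (XT.lf (nat_lit 0) (nat_lit 97402013217) (nat_lit 152) (nat_lit 777071051307) (nat_lit 0) (nat_lit 52697043578) (nat_lit 2) (nat_lit 5) (nat_lit 4) (nat_lit 4) (nat_lit 2) (nat_lit 4) (nat_lit 389) (nat_lit 311) (nat_lit 200)) (XT.nd (nat_lit 78) (nat_lit 0) (nat_lit 0) (XT.lf (nat_lit 0) (nat_lit 145228999884) (nat_lit 152) (nat_lit 753405766298) (nat_lit 0) (nat_lit 100523384486) (nat_lit 2) (nat_lit 5) (nat_lit 4) (nat_lit 4) (nat_lit 2) (nat_lit 4) (nat_lit 390) (nat_lit 311) (nat_lit 199)) (XT.lf (nat_lit 0) (nat_lit 196880932901) (nat_lit 152) (nat_lit 727849644925) (nat_lit 0) (nat_lit 152174719579) (nat_lit 2) (nat_lit 5) (nat_lit 4) (nat_lit 4) (nat_lit 2) (nat_lit 4) (nat_lit 391) (nat_lit 311) (nat_lit 198))))) (XT.nd (nat_lit 234) (nat_lit 0) (nat_lit 76) (XT.nd (nat_lit 78)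 (nat_lit 0) (nat_lit 0) (XT.lf (nat_lit 0) (nat_lit 822631609) (nat_lit 0) (nat_lit 822631609) (nat_lit 684) (nat_lit 3694100586) (nat_lit 111) (nat_lit 5) (nat_lit 111) (nat_lit 3) (nat_lit 120) (nat_lit 3) (nat_lit 312) (nat_lit 312) (nat_lit 276)) (XT.nd (nat_lit 78) (nat_lit 0) (nat_lit 76) (XT.lf (nat_lit 0) (nat_lit 4439729257) (nat_lit 684) (nat_lit 1023011049) (nat_lit 760) (nat_lit 5591211414) (nat_lit 111) (nat_lit 5) (nat_lit 120) (nat_lit 3) (nat_lit 121) (nat_lit 5) (nat_lit 313) (nat_lit 312) (nat_lit 275)) (XT.lf (nat_lit 0) (nat_lit 5770464744) (nat_lit 684) (nat_lit 3690319327) (nat_lit 760) (nat_lit 1994034508) (nat_lit 112) (nat_lit 5) (nat_lit 121) (nat_lit 5) (nat_lit 122) (nat_lit 5) (nat_lit 314) (nat_lit 312) (nat_lit 274)))) (XT.nd (nat_lit 78) (nat_lit 0) (nat_lit 76) (XT.lf (nat_lit 76) (nat_lit 5431544567) (nat_lit 0) (nat_lit 1885693086) (nat_lit 760) (nat_lit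 4565135093) (nat_lit 113) (nat_lit 5) (nat_lit 112) (nat_lit 5) (nat_lit 122) (nat_lit 5) (nat_lit 315) (nat_lit 312) (nat_lit 273)) (XT.nd (nat_lit 78) (nat_lit 0) (nat_lit 76) (XT.lf (nat_lit 76) (nat_lit 3014438191) (nat_lit 0) (nat_lit 6104503977) (nat_lit 760) (nat_lit 3218719304) (nat_lit 114) (nat_lit 5) (nat_lit 113) (nat_lit 5) (nat_lit 123) (nat_lit 5) (nat_lit 316) (nat_lit 312) (nat_lit 272)) (XT.lf (nat_lit 76) (nat_lit 536277908) (nat_lit 0) (nat_lit 10641142114) (nat_lit 760) (nat_lit 1646404491) (nat_lit 115) (nat_lit 5) (nat_lit 114) (nat_lit 5) (nat_lit 124) (nat_lit 5) (nat_lit 317) (nat_lit 312) (nat_lit 271)))))) (XT.nd (nat_lit 468) (nat_lit 1900) (nat_lit 0) (XT.nd (nat_lit 234) (nat_lit 684) (nat_lit 0) (XT.nd (nat_lit 78) (nat_lit 684) (nat_lit 0) (XT.lf (nat_lit 0) (nat_lit 247304414) (nat_lit 760) (nat_lit 1987946469) (nat_lit 836) (nat_lit 11103799437) (nat_lit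 104) (nat_lit 5) (nat_lit 114) (nat_lit 5) (nat_lit 115) (nat_lit 5) (nat_lit 318) (nat_lit 312) (nat_lit 270)) (XT.nd (nat_lit 78) (nat_lit 760) (nat_lit 0) (XT.lf (nat_lit 0) (nat_lit 2426003132) (nat_lit 760) (nat_lit 4646730093) (nat_lit 76) (nat_lit 6811920525) (nat_lit 105) (nat_lit 5) (nat_lit 115) (nat_lit 5) (nat_lit 106) (nat_lit 5) (nat_lit 319) (nat_lit 312) (nat_lit 269)) (XT.lf (nat_lit 0) (nat_lit 4935597433) (nat_lit 836) (nat_lit 7407483505) (nat_lit 76) (nat_lit 2123057334) (nat_lit 95) (nat_lit 5) (nat_lit 106) (nat_lit 5) (nat_lit 96) (nat_lit 5) (nat_lit 320) (nat_lit 312) (nat_lit 268)))) (XT.nd (nat_lit 78) (nat_lit 304) (nat_lit 0) (XT.lf (nat_lit 0) (nat_lit 4752313442) (nat_lit 380) (nat_lit 3111875354) (nat_lit 456) (nat_lit 7219099434) (nat_lit 90) (nat_lit 5) (nat_lit 95) (nat_lit 5) (nat_lit 96) (nat_lit 5) (nat_lit 321) (nat_lit 312) (nat_lit 267)) (XT.nd (nat_lit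 78) (nat_lit 0) (nat_lit 0) (XT.lf (nat_lit 0) (nat_lit 2315093659) (nat_lit 304) (nat_lit 8932286132) (nat_lit 380) (nat_lit 4491468618) (nat_lit 86) (nat_lit 5) (nat_lit 90) (nat_lit 5) (nat_lit 91) (nat_lit 5) (nat_lit 322) (nat_lit 312) (nat_lit 266)) (XT.lf (nat_lit 0) (nat_lit 15099917209) (nat_lit 380) (nat_lit 221745359) (nat_lit 76) (nat_lit 1115306131) (nat_lit 86) (nat_lit 5) (nat_lit 91) (nat_lit 5) (nat_lit 87) (nat_lit 5) (nat_lit 323) (nat_lit 312) (nat_lit 265))))) (XT.nd (nat_lit 234) (nat_lit 836) (nat_lit 0) (XT.nd (nat_lit 78) (nat_lit 608) (nat_lit 0) (XT.lf (nat_lit 0) (nat_lit 2335377244) (nat_lit 456) (nat_lit 2920950009) (nat_lit 76) (nat_lit 11916444509) (nat_lit 80) (nat_lit 5) (nat_lit 86) (nat_lit 5) (nat_lit 81) (nat_lit 5) (nat_lit 324) (nat_lit 312) (nat_lit 264)) (XT.nd (nat_lit 78) (nat_lit 304) (nat_lit 0) (XT.lf (nat_lit 0) (nat_lit 6496368025) (nat_lit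 380) (nat_lit 5807961382) (nat_lit 76) (nat_lit 5649973848) (nat_lit 76) (nat_lit 5) (nat_lit 81) (nat_lit 5) (nat_lit 77) (nat_lit 5) (nat_lit 325) (nat_lit 312) (nat_lit 263)) (XT.lf (nat_lit 0) (nat_lit 9904055486) (nat_lit 304) (nat_lit 1338443809) (nat_lit 380) (nat_lit 7543282603) (nat_lit 72) (nat_lit 5) (nat_lit 76) (nat_lit 5) (nat_lit 77) (nat_lit 5) (nat_lit 326) (nat_lit 312) (nat_lit 262)))) (XT.nd (nat_lit 78) (nat_lit 608) (nat_lit 0) (XT.lf (nat_lit 0) (nat_lit 7422944056) (nat_lit 228) (nat_lit 9287662922) (nat_lit 304) (nat_lit 2956092458) (nat_lit 69) (nat_lit 5) (nat_lit 72) (nat_lit 5) (nat_lit 73) (nat_lit 5) (nat_lit 327) (nat_lit 312) (nat_lit 261)) (XT.nd (nat_lit 78) (nat_lit 228) (nat_lit 0) (XT.lf (nat_lit 0) (nat_lit 2190955309) (nat_lit 380) (nat_lit 15861056425) (nat_lit 76) (nat_lit 2551707982) (nat_lit 64) (nat_lit 5) (nat_lit 69) (nat_lit 5) (nat_lit 65)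 (nat_lit 5) (nat_lit 328) (nat_lit 312) (nat_lit 260)) (XT.lf (nat_lit 0) (nat_lit 1715819341) (nat_lit 228) (nat_lit 6295037110) (nat_lit 304) (nat_lit 13584217803) (nat_lit 61) (nat_lit 5) (nat_lit 64) (nat_lit 5) (nat_lit 65) (nat_lit 5) (nat_lit 329) (nat_lit 312) (nat_lit 259))))))) (XT.nd (nat_lit 936) (nat_lit 1064) (nat_lit 0) (XT.nd (nat_lit 468) (nat_lit 836) (nat_lit 0) (XT.nd (nat_lit 234) (nat_lit 684) (nat_lit 0) (XT.nd (nat_lit 78) (nat_lit 532) (nat_lit 0) (XT.lf (nat_lit 0) (nat_lit 14642035723) (nat_lit 304) (nat_lit 1539938007) (nat_lit 76) (nat_lit 6466505509) (nat_lit 61) (nat_lit 5) (nat_lit 65) (nat_lit 5) (nat_lit 62) (nat_lit 5) (nat_lit 330) (nat_lit 312) (nat_lit 258)) (XT.nd (nat_lit 78) (nat_lit 304) (nat_lit 0) (XT.lf (nat_lit 0) (nat_lit 18714198288) (nat_lit 228) (nat_lit 3455343912) (nat_lit 304) (nat_lit 1598347209) (nat_lit 58) (nat_lit 5) (nat_lit 61)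 (nat_lit 5) (nat_lit 62) (nat_lit 5) (nat_lit 331) (nat_lit 312) (nat_lit 257)) (XT.lf (nat_lit 0) (nat_lit 5565037356) (nat_lit 304) (nat_lit 9072553109) (nat_lit 76) (nat_lit 10314479071) (nat_lit 54) (nat_lit 5) (nat_lit 58) (nat_lit 5) (nat_lit 55) (nat_lit 5) (nat_lit 332) (nat_lit 312) (nat_lit 256)))) (XT.nd (nat_lit 78) (nat_lit 456) (nat_lit 0) (XT.lf (nat_lit 0) (nat_lit 12718037115) (nat_lit 228) (nat_lit 844679826) (nat_lit 304) (nat_lit 12651115831) (nat_lit 51) (nat_lit 5) (nat_lit 54) (nat_lit 5) (nat_lit 55) (nat_lit 5) (nat_lit 333) (nat_lit 312) (nat_lit 255)) (XT.nd (nat_lit 78) (nat_lit 304) (nat_lit 0) (XT.lf (nat_lit 0) (nat_lit 9031348618) (nat_lit 152) (nat_lit 13661400610) (nat_lit 228) (nat_lit 4859179393) (nat_lit 49) (nat_lit 5) (nat_lit 51) (nat_lit 5) (nat_lit 52) (nat_lit 5) (nat_lit 334) (nat_lit 312) (nat_lit 254)) (XT.lf (nat_lit 0) (nat_lit 3762501389)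 (nat_lit 304) (nat_lit 24098788858) (nat_lit 76) (nat_lit 1117011772) (nat_lit 45) (nat_lit 5) (nat_lit 49) (nat_lit 5) (nat_lit 46) (nat_lit 5) (nat_lit 335) (nat_lit 312) (nat_lit 253))))) (XT.nd (nat_lit 234) (nat_lit 456) (nat_lit 0) (XT.nd (nat_lit 78) (nat_lit 380) (nat_lit 0) (XT.lf (nat_lit 0) (nat_lit 13437927161) (nat_lit 304) (nat_lit 48538180) (nat_lit 76) (nat_lit 17001639471) (nat_lit 45) (nat_lit 5) (nat_lit 49) (nat_lit 5) (nat_lit 46) (nat_lit 5) (nat_lit 336) (nat_lit 312) (nat_lit 252)) (XT.nd (nat_lit 78) (nat_lit 228) (nat_lit 0) (XT.lf (nat_lit 0) (nat_lit 24319041927) (nat_lit 228) (nat_lit 5394031499) (nat_lit 76) (nat_lit 2384049621) (nat_lit 43) (nat_lit 5) (nat_lit 46) (nat_lit 5) (nat_lit 44) (nat_lit 5) (nat_lit 337) (nat_lit 312) (nat_lit 251)) (XT.lf (nat_lit 0) (nat_lit 2724928093) (nat_lit 228) (nat_lit 11643637137) (nat_lit 76) (nat_lit 19436529281) (nat_lit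 40) (nat_lit 5) (nat_lit 43) (nat_lit 5) (nat_lit 41) (nat_lit 5) (nat_lit 338) (nat_lit 312) (nat_lit 250)))) (XT.nd (nat_lit 78) (nat_lit 304) (nat_lit 0) (XT.lf (nat_lit 0) (nat_lit 14177397524) (nat_lit 228) (nat_lit 18829971781) (nat_lit 76) (nat_lit 2616884037) (nat_lit 38) (nat_lit 5) (nat_lit 41) (nat_lit 5) (nat_lit 39) (nat_lit 5) (nat_lit 339) (nat_lit 312) (nat_lit 249)) (XT.nd (nat_lit 78) (nat_lit 152) (nat_lit 0) (XT.lf (nat_lit 0) (nat_lit 10395412114) (nat_lit 152) (nat_lit 16739767834) (nat_lit 228) (nat_lit 10424319715) (nat_lit 36) (nat_lit 5) (nat_lit 38) (nat_lit 5) (nat_lit 39) (nat_lit 5) (nat_lit 340) (nat_lit 312) (nat_lit 248)) (XT.lf (nat_lit 0) (nat_lit 1811811698) (nat_lit 152) (nat_lit 36618217136) (nat_lit 76) (nat_lit 1199432690) (nat_lit 34) (nat_lit 5) (nat_lit 36) (nat_lit 5) (nat_lit 35) (nat_lit 5) (nat_lit 341) (nat_lit 312) (nat_lit 247)))))) (XT.nd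 (nat_lit 468) (nat_lit 532) (nat_lit 0) (XT.nd (nat_lit 234) (nat_lit 228) (nat_lit 0) (XT.nd (nat_lit 78) (nat_lit 304) (nat_lit 0) (XT.lf (nat_lit 0) (nat_lit 15409613254) (nat_lit 152) (nat_lit 5770856628) (nat_lit 76) (nat_lit 20638614695) (nat_lit 34) (nat_lit 5) (nat_lit 36) (nat_lit 5) (nat_lit 35) (nat_lit 5) (nat_lit 342) (nat_lit 312) (nat_lit 246)) (XT.nd (nat_lit 78) (nat_lit 152) (nat_lit 0) (XT.lf (nat_lit 0) (nat_lit 28422197364) (nat_lit 152) (nat_lit 2098193040) (nat_lit 228) (nat_lit 13642237481) (nat_lit 32) (nat_lit 5) (nat_lit 34) (nat_lit 5) (nat_lit 35) (nat_lit 5) (nat_lit 343) (nat_lit 312) (nat_lit 245)) (XT.lf (nat_lit 0) (nat_lit 825123519) (nat_lit 152) (nat_lit 27513726372) (nat_lit 76) (nat_lit 18320525869) (nat_lit 30) (nat_lit 5) (nat_lit 32) (nat_lit 5) (nat_lit 31) (nat_lit 5) (nat_lit 344) (nat_lit 312) (nat_lit 244)))) (XT.nd (nat_lit 78) (nat_lit 76)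 (nat_lit 0) (XT.lf (nat_lit 0) (nat_lit 7998312501) (nat_lit 152) (nat_lit 8401612827) (nat_lit 228) (nat_lit 32923362020) (nat_lit 28) (nat_lit 5) (nat_lit 30) (nat_lit 5) (nat_lit 31) (nat_lit 5) (nat_lit 345) (nat_lit 312) (nat_lit 243)) (XT.nd (nat_lit 78) (nat_lit 76) (nat_lit 0) (XT.lf (nat_lit 0) (nat_lit 33896160854) (nat_lit 228) (nat_lit 5085030646) (nat_lit 76) (nat_lit 13185353917) (nat_lit 28) (nat_lit 5) (nat_lit 31) (nat_lit 5) (nat_lit 29) (nat_lit 4) (nat_lit 346) (nat_lit 312) (nat_lit 242)) (XT.lf (nat_lit 0) (nat_lit 35005388496) (nat_lit 76) (nat_lit 18459457137) (nat_lit 152) (nat_lit 1738786565) (nat_lit 27) (nat_lit 5) (nat_lit 28) (nat_lit 5) (nat_lit 29) (nat_lit 4) (nat_lit 347) (nat_lit 312) (nat_lit 241))))) (XT.nd (nat_lit 234) (nat_lit 228) (nat_lit 0) (XT.nd (nat_lit 78) (nat_lit 76) (nat_lit 0) (XT.lf (nat_lit 0) (nat_lit 16061234084) (nat_lit 228) (nat_lit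 38142136187) (nat_lit 76) (nat_lit 4244655982) (nat_lit 24) (nat_lit 5) (nat_lit 27) (nat_lit 5) (nat_lit 25) (nat_lit 4) (nat_lit 348) (nat_lit 312) (nat_lit 240)) (XT.nd (nat_lit 78) (nat_lit 0) (nat_lit 0) (XT.lf (nat_lit 0) (nat_lit 2546267327) (nat_lit 76) (nat_lit 33373079157) (nat_lit 152) (nat_lit 25996454241) (nat_lit 23) (nat_lit 5) (nat_lit 24) (nat_lit 5) (nat_lit 25) (nat_lit 4) (nat_lit 349) (nat_lit 312) (nat_lit 239)) (XT.lf (nat_lit 0) (nat_lit 47826792598) (nat_lit 76) (nat_lit 10189976740) (nat_lit 152) (nat_lit 7611698967) (nat_lit 23) (nat_lit 5) (nat_lit 24) (nat_lit 5) (nat_lit 25) (nat_lit 4) (nat_lit 350) (nat_lit 312) (nat_lit 238)))) (XT.nd (nat_lit 78) (nat_lit 76) (nat_lit 0) (XT.lf (nat_lit 0) (nat_lit 12514401255) (nat_lit 152) (nat_lit 42083910309) (nat_lit 76) (nat_lit 14997161234) (nat_lit 21) (nat_lit 5) (nat_lit 23) (nat_lit 5) (nat_lit 22) (nat_lit 4)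 (nat_lit 351) (nat_lit 312) (nat_lit 237)) (XT.nd (nat_lit 78) (nat_lit 0) (nat_lit 0) (XT.lf (nat_lit 0) (nat_lit 2988610222) (nat_lit 76) (nat_lit 31520030403) (nat_lit 152) (nat_lit 39338724978) (nat_lit 20) (nat_lit 5) (nat_lit 21) (nat_lit 5) (nat_lit 22) (nat_lit 4) (nat_lit 352) (nat_lit 312) (nat_lit 236)) (XT.lf (nat_lit 0) (nat_lit 53147724700) (nat_lit 76) (nat_lit 5835854413) (nat_lit 152) (nat_lit 19419775915) (nat_lit 20) (nat_lit 5) (nat_lit 21) (nat_lit 5) (nat_lit 22) (nat_lit 4) (nat_lit 353) (nat_lit 312) (nat_lit 235))))))))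
noncomputable def xc70 : XT := (XT.nd (nat_lit 1794) (nat_lit 228) (nat_lit 0) (XT.nd (nat_lit 858) (nat_lit 456) (nat_lit 0) (XT.nd (nat_lit 390) (nat_lit 304) (nat_lit 0) (XT.nd (nat_lit 156) (nat_lit 228) (nat_lit 0) (XT.nd (nat_lit 78) (nat_lit 0) (nat_lit 0) (XT.lf (nat_lit 0) (nat_lit 2749346008) (nat_lit 152) (nat_lit 58918171287) (nat_lit 76) (nat_lit 21618493688) (nat_lit 18) (nat_lit 5) (nat_lit 20) (nat_lit 5) (nat_lit 19) (nat_lit 4) (nat_lit 354) (nat_lit 312) (nat_lit 234)) (XT.lf (nat_lit 0) (nat_lit 26555433415) (nat_lit 152) (nat_lit 10127539237) (nat_lit 76) (nat_lit 51833201016) (nat_lit 18) (nat_lit 5) (nat_lit 20) (nat_lit 5) (nat_lit 19) (nat_lit 4) (nat_lit 355) (nat_lit 312) (nat_lit 233))) (XT.nd (nat_lit 78) (nat_lit 152) (nat_lit 0) (XT.lf (nat_lit 0) (nat_lit 43954412543) (nat_lit 76) (nat_lit 8987811774) (nat_lit 152) (nat_lit 41188716641) (nat_lit 17) (nat_lit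 5) (nat_lit 18) (nat_lit 5) (nat_lit 19) (nat_lit 4) (nat_lit 356) (nat_lit 312) (nat_lit 232)) (XT.nd (nat_lit 78) (nat_lit 76) (nat_lit 0) (XT.lf (nat_lit 0) (nat_lit 2263095695) (nat_lit 76) (nat_lit 79708467176) (nat_lit 76) (nat_lit 18196748778) (nat_lit 16) (nat_lit 4) (nat_lit 17) (nat_lit 5) (nat_lit 17) (nat_lit 4) (nat_lit 357) (nat_lit 312) (nat_lit 231)) (XT.lf (nat_lit 0) (nat_lit 7452740567) (nat_lit 152) (nat_lit 46242557031) (nat_lit 76) (nat_lit 52936671553) (nat_lit 15) (nat_lit 5) (nat_lit 17) (nat_lit 5) (nat_lit 16) (nat_lit 4) (nat_lit 358) (nat_lit 312) (nat_lit 230))))) (XT.nd (nat_lit 234) (nat_lit 152) (nat_lit 0) (XT.nd (nat_lit 78) (nat_lit 76) (nat_lit 0) (XT.lf (nat_lit 0) (nat_lit 9534980963) (nat_lit 76) (nat_lit 25130360251) (nat_lit 152) (nat_lit 78925030619) (nat_lit 14) (nat_lit 5) (nat_lit 15) (nat_lit 5) (nat_lit 16) (nat_lit 4) (nat_lit 359) (nat_lit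 312) (nat_lit 229)) (XT.nd (nat_lit 78) (nat_lit 76) (nat_lit 0) (XT.lf (nat_lit 0) (nat_lit 64954541947) (nat_lit 152) (nat_lit 49757715911) (nat_lit 0) (nat_lit 6348210959) (nat_lit 14) (nat_lit 5) (nat_lit 16) (nat_lit 4) (nat_lit 14) (nat_lit 4) (nat_lit 360) (nat_lit 312) (nat_lit 228)) (XT.lf (nat_lit 0) (nat_lit 8724387383) (nat_lit 76) (nat_lit 89494641421) (nat_lit 76) (nat_lit 30881538818) (nat_lit 13) (nat_lit 4) (nat_lit 14) (nat_lit 5) (nat_lit 14) (nat_lit 4) (nat_lit 361) (nat_lit 312) (nat_lit 227)))) (XT.nd (nat_lit 78) (nat_lit 152) (nat_lit 0) (XT.lf (nat_lit 0) (nat_lit 73647660688) (nat_lit 76) (nat_lit 61356311417) (nat_lit 76) (nat_lit 2736938801) (nat_lit 13) (nat_lit 4) (nat_lit 14) (nat_lit 5) (nat_lit 14) (nat_lit 4) (nat_lit 362) (nat_lit 312) (nat_lit 226)) (XT.nd (nat_lit 78) (nat_lit 76) (nat_lit 0) (XT.lf (nat_lit 0) (nat_lit 26766948790) (nat_lit 152) (nat_lit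 3752933163) (nat_lit 76) (nat_lit 116531359691) (nat_lit 12) (nat_lit 5) (nat_lit 14) (nat_lit 5) (nat_lit 13) (nat_lit 4) (nat_lit 363) (nat_lit 312) (nat_lit 225)) (XT.lf (nat_lit 0) (nat_lit 59580005898) (nat_lit 152) (nat_lit 93730530039) (nat_lit 0) (nat_lit 3741383318) (nat_lit 11) (nat_lit 5) (nat_lit 13) (nat_lit 4) (nat_lit 11) (nat_lit 4) (nat_lit 364) (nat_lit 312) (nat_lit 224)))))) (XT.nd (nat_lit 468) (nat_lit 228) (nat_lit 0) (XT.nd (nat_lit 234) (nat_lit 152) (nat_lit 0) (XT.nd (nat_lit 78) (nat_lit 76) (nat_lit 0) (XT.lf (nat_lit 0) (nat_lit 95592887855) (nat_lit 152) (nat_lit 32481500351) (nat_lit 0) (nat_lit 39749524952) (nat_lit 11) (nat_lit 5) (nat_lit 13) (nat_lit 4) (nat_lit 11) (nat_lit 4) (nat_lit 365) (nat_lit 312) (nat_lit 223)) (XT.nd (nat_lit 78) (nat_lit 0) (nat_lit 0) (XT.lf (nat_lit 0) (nat_lit 34769076788) (nat_lit 76) (nat_lit 100254745887) (nat_lit 76)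 (nat_lit 44406993797) (nat_lit 10) (nat_lit 4) (nat_lit 11) (nat_lit 5) (nat_lit 11) (nat_lit 4) (nat_lit 366) (nat_lit 312) (nat_lit 222)) (XT.lf (nat_lit 0) (nat_lit 108548888329) (nat_lit 76) (nat_lit 69620594152) (nat_lit 76) (nat_lit 13768777999) (nat_lit 10) (nat_lit 4) (nat_lit 11) (nat_lit 5) (nat_lit 11) (nat_lit 4) (nat_lit 367) (nat_lit 312) (nat_lit 221)))) (XT.nd (nat_lit 78) (nat_lit 76) (nat_lit 0) (XT.lf (nat_lit 0) (nat_lit 18696888392) (nat_lit 152) (nat_lit 17526957967) (nat_lit 76) (nat_lit 169207633632) (nat_lit 9) (nat_lit 5) (nat_lit 11) (nat_lit 5) (nat_lit 10) (nat_lit 4) (nat_lit 368) (nat_lit 312) (nat_lit 220)) (XT.nd (nat_lit 78) (nat_lit 0) (nat_lit 0) (XT.lf (nat_lit 0) (nat_lit 54155135813) (nat_lit 152) (nat_lit 164837822440) (nat_lit 0) (nat_lit 956027764) (nat_lit 8) (nat_lit 5) (nat_lit 10) (nat_lit 4) (nat_lit 8) (nat_lit 4) (nat_lit 369) (nat_lit 312)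 (nat_lit 219)) (XT.lf (nat_lit 0) (nat_lit 93366465556) (nat_lit 152) (nat_lit 102051321600) (nat_lit 0) (nat_lit 40164284950) (nat_lit 8) (nat_lit 5) (nat_lit 10) (nat_lit 4) (nat_lit 8) (nat_lit 4) (nat_lit 370) (nat_lit 312) (nat_lit 218))))) (XT.nd (nat_lit 234) (nat_lit 152) (nat_lit 0) (XT.nd (nat_lit 78) (nat_lit 76) (nat_lit 0) (XT.lf (nat_lit 0) (nat_lit 135710358118) (nat_lit 152) (nat_lit 34250332248) (nat_lit 0) (nat_lit 82505332553) (nat_lit 8) (nat_lit 5) (nat_lit 10) (nat_lit 4) (nat_lit 8) (nat_lit 4) (nat_lit 371) (nat_lit 312) (nat_lit 217)) (XT.nd (nat_lit 78) (nat_lit 0) (nat_lit 0) (XT.lf (nat_lit 0) (nat_lit 40255351916) (nat_lit 76) (nat_lit 141810887212) (nat_lit 76) (nat_lit 88603227426) (nat_lit 7) (nat_lit 4) (nat_lit 8) (nat_lit 5) (nat_lit 8) (nat_lit 4) (nat_lit 372) (nat_lit 312) (nat_lit 216)) (XT.lf (nat_lit 0) (nat_lit 121937091418) (nat_lit 76) (nat_lit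 110786277398) (nat_lit 76) (nat_lit 57576178517) (nat_lit 7) (nat_lit 4) (nat_lit 8) (nat_lit 5) (nat_lit 8) (nat_lit 4) (nat_lit 373) (nat_lit 312) (nat_lit 215)))) (XT.nd (nat_lit 78) (nat_lit 152) (nat_lit 0) (XT.lf (nat_lit 0) (nat_lit 210146455531) (nat_lit 76) (nat_lit 77283057334) (nat_lit 76) (nat_lit 24070700033) (nat_lit 7) (nat_lit 4) (nat_lit 8) (nat_lit 5) (nat_lit 8) (nat_lit 4) (nat_lit 374) (nat_lit 312) (nat_lit 214)) (XT.nd (nat_lit 78) (nat_lit 76) (nat_lit 0) (XT.lf (nat_lit 0) (nat_lit 11724107083) (nat_lit 152) (nat_lit 29180028909) (nat_lit 76) (nat_lit 293483505903) (nat_lit 6) (nat_lit 5) (nat_lit 8) (nat_lit 5) (nat_lit 7) (nat_lit 4) (nat_lit 375) (nat_lit 312) (nat_lit 213)) (XT.lf (nat_lit 0) (nat_lit 49954548363) (nat_lit 76) (nat_lit 372736039) (nat_lit 152) (nat_lit 308719645869) (nat_lit 5) (nat_lit 5) (nat_lit 6) (nat_lit 5) (nat_lit 7) (nat_lit 4) (nat_lit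 376) (nat_lit 312) (nat_lit 212))))))) (XT.nd (nat_lit 936) (nat_lit 76) (nat_lit 0) (XT.nd (nat_lit 468) (nat_lit 76) (nat_lit 0) (XT.nd (nat_lit 234) (nat_lit 76) (nat_lit 0) (XT.nd (nat_lit 78) (nat_lit 0) (nat_lit 0) (XT.lf (nat_lit 0) (nat_lit 93209956430) (nat_lit 152) (nat_lit 249883465769) (nat_lit 0) (nat_lit 42525977888) (nat_lit 5) (nat_lit 5) (nat_lit 7) (nat_lit 4) (nat_lit 5) (nat_lit 4) (nat_lit 377) (nat_lit 312) (nat_lit 211)) (XT.nd (nat_lit 78) (nat_lit 0) (nat_lit 0) (XT.lf (nat_lit 0) (nat_lit 139526746224) (nat_lit 152) (nat_lit 185949559704) (nat_lit 0) (nat_lit 88841186724) (nat_lit 5) (nat_lit 5) (nat_lit 7) (nat_lit 4) (nat_lit 5) (nat_lit 4) (nat_lit 378) (nat_lit 312) (nat_lit 210)) (XT.lf (nat_lit 0) (nat_lit 189546304197) (nat_lit 152) (nat_lit 116905976667) (nat_lit 0) (nat_lit 138859280846) (nat_lit 5) (nat_lit 5) (nat_lit 7) (nat_lit 4) (nat_lit 5) (nat_lit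 4) (nat_lit 379) (nat_lit 312) (nat_lit 209)))) (XT.nd (nat_lit 78) (nat_lit 76) (nat_lit 0) (XT.lf (nat_lit 0) (nat_lit 243565042544) (nat_lit 152) (nat_lit 42343569500) (nat_lit 0) (nat_lit 192876663776) (nat_lit 5) (nat_lit 5) (nat_lit 7) (nat_lit 4) (nat_lit 5) (nat_lit 4) (nat_lit 380) (nat_lit 312) (nat_lit 208)) (XT.nd (nat_lit 78) (nat_lit 0) (nat_lit 0) (XT.lf (nat_lit 0) (nat_lit 39441900224) (nat_lit 76) (nat_lit 263076970681) (nat_lit 76) (nat_lit 212387336897) (nat_lit 4) (nat_lit 4) (nat_lit 5) (nat_lit 5) (nat_lit 5) (nat_lit 4) (nat_lit 381) (nat_lit 312) (nat_lit 207)) (XT.lf (nat_lit 0) (nat_lit 129278153212) (nat_lit 76) (nat_lit 237646341391) (nat_lit 76) (nat_lit 186955545555) (nat_lit 4) (nat_lit 4) (nat_lit 5) (nat_lit 5) (nat_lit 5) (nat_lit 4) (nat_lit 382) (nat_lit 312) (nat_lit 206))))) (XT.nd (nat_lit 234) (nat_lit 76) (nat_lit 0) (XT.nd (nat_lit 78) (nat_lit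 0) (nat_lit 0) (XT.lf (nat_lit 0) (nat_lit 226297482806) (nat_lit 76) (nat_lit 210183132987) (nat_lit 76) (nat_lit 159491261178) (nat_lit 4) (nat_lit 4) (nat_lit 5) (nat_lit 5) (nat_lit 5) (nat_lit 4) (nat_lit 383) (nat_lit 312) (nat_lit 205)) (XT.nd (nat_lit 78) (nat_lit 0) (nat_lit 0) (XT.lf (nat_lit 0) (nat_lit 331074818366) (nat_lit 76) (nat_lit 180524600532) (nat_lit 76) (nat_lit 129831732450) (nat_lit 4) (nat_lit 4) (nat_lit 5) (nat_lit 5) (nat_lit 5) (nat_lit 4) (nat_lit 384) (nat_lit 312) (nat_lit 204)) (XT.lf (nat_lit 0) (nat_lit 444231062622) (nat_lit 76) (nat_lit 148494989758) (nat_lit 76) (nat_lit 97801199202) (nat_lit 4) (nat_lit 4) (nat_lit 5) (nat_lit 5) (nat_lit 5) (nat_lit 4) (nat_lit 385) (nat_lit 312) (nat_lit 203)))) (XT.nd (nat_lit 78) (nat_lit 76) (nat_lit 0) (XT.lf (nat_lit 0) (nat_lit 566436771096) (nat_lit 76) (nat_lit 113904495564) (nat_lit 76) (nat_lit 63209850866)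 (nat_lit 4) (nat_lit 4) (nat_lit 5) (nat_lit 5) (nat_lit 5) (nat_lit 4) (nat_lit 386) (nat_lit 312) (nat_lit 202)) (XT.nd (nat_lit 78) (nat_lit 76) (nat_lit 0) (XT.lf (nat_lit 0) (nat_lit 698416125763) (nat_lit 76) (nat_lit 76548137245) (nat_lit 76) (nat_lit 25852701674) (nat_lit 4) (nat_lit 4) (nat_lit 5) (nat_lit 5) (nat_lit 5) (nat_lit 4) (nat_lit 387) (nat_lit 312) (nat_lit 201)) (XT.lf (nat_lit 0) (nat_lit 14027801599) (nat_lit 152) (nat_lit 21939174581) (nat_lit 76) (nat_lit 826685857296) (nat_lit 3) (nat_lit 5) (nat_lit 5) (nat_lit 5) (nat_lit 4) (nat_lit 4) (nat_lit 388) (nat_lit 312) (nat_lit 200)))))) (XT.nd (nat_lit 41184) (nat_lit 0) (nat_lit 7068) (XT.nd (nat_lit 40950) (nat_lit 0) (nat_lit 8284) (XT.nd (nat_lit 78) (nat_lit 0) (nat_lit 0) (XT.lf (nat_lit 0) (nat_lit 57391427589) (nat_lit 152) (nat_lit 862854314632) (nat_lit 0) (nat_lit 9108717202) (nat_lit 2) (nat_lit 5) (nat_lit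 4) (nat_lit 4) (nat_lit 2) (nat_lit 4) (nat_lit 389) (nat_lit 312) (nat_lit 199)) (XT.nd (nat_lit 78) (nat_lit 0) (nat_lit 0) (XT.lf (nat_lit 0) (nat_lit 105217831283) (nat_lit 152) (nat_lit 839190176949) (nat_lit 0) (nat_lit 56934522972) (nat_lit 2) (nat_lit 5) (nat_lit 4) (nat_lit 4) (nat_lit 2) (nat_lit 4) (nat_lit 390) (nat_lit 312) (nat_lit 198)) (XT.lf (nat_lit 0) (nat_lit 156869224512) (nat_lit 152) (nat_lit 813635117914) (nat_lit 0) (nat_lit 108585362567) (nat_lit 2) (nat_lit 5) (nat_lit 4) (nat_lit 4) (nat_lit 2) (nat_lit 4) (nat_lit 391) (nat_lit 312) (nat_lit 197)))) (XT.nd (nat_lit 78) (nat_lit 0) (nat_lit 0) (XT.lf (nat_lit 0) (nat_lit 1340990597) (nat_lit 0) (nat_lit 1340990597) (nat_lit 684) (nat_lit 3038256117) (nat_lit 111) (nat_lit 5) (nat_lit 111) (nat_lit 3) (nat_lit 120) (nat_lit 3) (nat_lit 313) (nat_lit 313) (nat_lit 274)) (XT.nd (nat_lit 78) (nat_lit 0) (nat_lit 76)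 (XT.lf (nat_lit 0) (nat_lit 6457928652) (nat_lit 684) (nat_lit 168019328) (nat_lit 760) (nat_lit 5227278544) (nat_lit 111) (nat_lit 5) (nat_lit 120) (nat_lit 3) (nat_lit 121) (nat_lit 5) (nat_lit 314) (nat_lit 313) (nat_lit 273)) (XT.lf (nat_lit 0) (nat_lit 7775658524) (nat_lit 684) (nat_lit 2999715714) (nat_lit 760) (nat_lit 1516901738) (nat_lit 112) (nat_lit 5) (nat_lit 121) (nat_lit 5) (nat_lit 122) (nat_lit 5) (nat_lit 315) (nat_lit 313) (nat_lit 272))))) (XT.nd (nat_lit 234) (nat_lit 1292) (nat_lit 0) (XT.nd (nat_lit 78) (nat_lit 0) (nat_lit 76) (XT.lf (nat_lit 76) (nat_lit 6809054358) (nat_lit 0) (nat_lit 2537504040) (nat_lit 760) (nat_lit 3412586471) (nat_lit 113) (nat_lit 5) (nat_lit 112) (nat_lit 5) (nat_lit 122) (nat_lit 5) (nat_lit 316) (nat_lit 313) (nat_lit 271)) (XT.nd (nat_lit 78) (nat_lit 0) (nat_lit 76) (XT.lf (nat_lit 76) (nat_lit 4235689524) (nat_lit 0) (nat_lit 6957811191)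 (nat_lit 760) (nat_lit 2062420952) (nat_lit 114) (nat_lit 5) (nat_lit 113) (nat_lit 5) (nat_lit 123) (nat_lit 5) (nat_lit 317) (nat_lit 313) (nat_lit 270)) (XT.lf (nat_lit 76) (nat_lit 1587897665) (nat_lit 0) (nat_lit 11739599431) (nat_lit 760) (nat_lit 458049793) (nat_lit 115) (nat_lit 5) (nat_lit 114) (nat_lit 5) (nat_lit 124) (nat_lit 5) (nat_lit 318) (nat_lit 313) (nat_lit 269)))) (XT.nd (nat_lit 78) (nat_lit 684) (nat_lit 0) (XT.lf (nat_lit 0) (nat_lit 1450252349) (nat_lit 760) (nat_lit 1172638517) (nat_lit 836) (nat_lit 11722900071) (nat_lit 104) (nat_lit 5) (nat_lit 114) (nat_lit 5) (nat_lit 115) (nat_lit 5) (nat_lit 319) (nat_lit 313) (nat_lit 268)) (XT.nd (nat_lit 78) (nat_lit 760) (nat_lit 0) (XT.lf (nat_lit 0) (nat_lit 3727376127) (nat_lit 760) (nat_lit 4027050278) (nat_lit 76) (nat_lit 7184500535) (nat_lit 105) (nat_lit 5) (nat_lit 115) (nat_lit 5) (nat_lit 106) (nat_lit 5) (nat_lit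 320) (nat_lit 313) (nat_lit 267)) (XT.lf (nat_lit 0) (nat_lit 6369090021) (nat_lit 836) (nat_lit 6997263100) (nat_lit 76) (nat_lit 2204093536) (nat_lit 95) (nat_lit 5) (nat_lit 106) (nat_lit 5) (nat_lit 96) (nat_lit 5) (nat_lit 321) (nat_lit 313) (nat_lit 266))))))))
noncomputable def xc71 : XT := (XT.nd (nat_lit 1794) (nat_lit 1672) (nat_lit 0) (XT.nd (nat_lit 858) (nat_lit 1976) (nat_lit 0) (XT.nd (nat_lit 390) (nat_lit 1368) (nat_lit 0) (XT.nd (nat_lit 156) (nat_lit 760) (nat_lit 0) (XT.nd (nat_lit 78) (nat_lit 304) (nat_lit 0) (XT.lf (nat_lit 0) (nat_lit 6091736308) (nat_lit 380) (nat_lit 3378272123) (nat_lit 456) (nat_lit 6770136003) (nat_lit 90) (nat_lit 5) (nat_lit 95) (nat_lit 5) (nat_lit 96) (nat_lit 5) (nat_lit 322) (nat_lit 313) (nat_lit 265)) (XT.lf (nat_lit 0) (nat_lit 3465754501) (nat_lit 304) (nat_lit 9600574420) (nat_lit 380) (nat_lit 3884768842) (nat_lit 86) (nat_lit 5)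 (nat_lit 90) (nat_lit 5) (nat_lit 91) (nat_lit 5) (nat_lit 323) (nat_lit 313) (nat_lit 264))) (XT.nd (nat_lit 78) (nat_lit 380) (nat_lit 0) (XT.lf (nat_lit 0) (nat_lit 720223206) (nat_lit 380) (nat_lit 16450674244) (nat_lit 456) (nat_lit 537045531) (nat_lit 81) (nat_lit 5) (nat_lit 86) (nat_lit 5) (nat_lit 87) (nat_lit 5) (nat_lit 324) (nat_lit 313) (nat_lit 263)) (XT.nd (nat_lit 78) (nat_lit 304) (nat_lit 0) (XT.lf (nat_lit 0) (nat_lit 3338751272) (nat_lit 456) (nat_lit 2230941443) (nat_lit 76) (nat_lit 12935338259) (nat_lit 80) (nat_lit 5) (nat_lit 86) (nat_lit 5) (nat_lit 81) (nat_lit 5) (nat_lit 325) (nat_lit 313) (nat_lit 262)) (XT.lf (nat_lit 0) (nat_lit 7787706157) (nat_lit 380) (nat_lit 5351657379) (nat_lit 76) (nat_lit 6212021678) (nat_lit 76) (nat_lit 5) (nat_lit 81) (nat_lit 5) (nat_lit 77) (nat_lit 5) (nat_lit 326) (nat_lit 313) (nat_lit 261))))) (XT.nd (nat_lit 234) (nat_lit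 456) (nat_lit 0) (XT.nd (nat_lit 78) (nat_lit 608) (nat_lit 0) (XT.lf (nat_lit 0) (nat_lit 11577297869) (nat_lit 304) (nat_lit 1292825977) (nat_lit 380) (nat_lit 7381478942) (nat_lit 72) (nat_lit 5) (nat_lit 76) (nat_lit 5) (nat_lit 77) (nat_lit 5) (nat_lit 327) (nat_lit 313) (nat_lit 260)) (XT.nd (nat_lit 78) (nat_lit 380) (nat_lit 0) (XT.lf (nat_lit 0) (nat_lit 8892565415) (nat_lit 228) (nat_lit 9845053017) (nat_lit 304) (nat_lit 2467325080) (nat_lit 69) (nat_lit 5) (nat_lit 72) (nat_lit 5) (nat_lit 73) (nat_lit 5) (nat_lit 328) (nat_lit 313) (nat_lit 259)) (XT.lf (nat_lit 0) (nat_lit 3032780444) (nat_lit 380) (nat_lit 16238867141) (nat_lit 76) (nat_lit 2946527516) (nat_lit 64) (nat_lit 5) (nat_lit 69) (nat_lit 5) (nat_lit 65) (nat_lit 5) (nat_lit 329) (nat_lit 313) (nat_lit 258)))) (XT.nd (nat_lit 78) (nat_lit 228) (nat_lit 0) (XT.lf (nat_lit 0) (nat_lit 2705433705) (nat_lit 228) (nat_lit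 6576773548) (nat_lit 304) (nat_lit 14008472201) (nat_lit 61) (nat_lit 5) (nat_lit 64) (nat_lit 5) (nat_lit 65) (nat_lit 5) (nat_lit 330) (nat_lit 313) (nat_lit 257)) (XT.nd (nat_lit 78) (nat_lit 228) (nat_lit 0) (XT.lf (nat_lit 0) (nat_lit 16400385844) (nat_lit 304) (nat_lit 847498233) (nat_lit 76) (nat_lit 7182682817) (nat_lit 61) (nat_lit 5) (nat_lit 65) (nat_lit 5) (nat_lit 62) (nat_lit 5) (nat_lit 331) (nat_lit 313) (nat_lit 256)) (XT.lf (nat_lit 0) (nat_lit 20991522470) (nat_lit 228) (nat_lit 3507270758) (nat_lit 304) (nat_lit 1142334321) (nat_lit 58) (nat_lit 5) (nat_lit 61) (nat_lit 5) (nat_lit 62) (nat_lit 5) (nat_lit 332) (nat_lit 313) (nat_lit 255)))))) (XT.nd (nat_lit 468) (nat_lit 836) (nat_lit 0) (XT.nd (nat_lit 234) (nat_lit 456) (nat_lit 0) (XT.nd (nat_lit 78) (nat_lit 380) (nat_lit 0) (XT.lf (nat_lit 0) (nat_lit 6549083006) (nat_lit 304) (nat_lit 9010283135) (nat_lit 76)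 (nat_lit 11361566481) (nat_lit 54) (nat_lit 5) (nat_lit 58) (nat_lit 5) (nat_lit 55) (nat_lit 5) (nat_lit 333) (nat_lit 313) (nat_lit 254)) (XT.nd (nat_lit 78) (nat_lit 152) (nat_lit 0) (XT.lf (nat_lit 0) (nat_lit 14489305562) (nat_lit 228) (nat_lit 669126453) (nat_lit 304) (nat_lit 13126638841) (nat_lit 51) (nat_lit 5) (nat_lit 54) (nat_lit 5) (nat_lit 55) (nat_lit 5) (nat_lit 334) (nat_lit 313) (nat_lit 253)) (XT.lf (nat_lit 0) (nat_lit 10496035031) (nat_lit 152) (nat_lit 14500104607) (nat_lit 228) (nat_lit 4735235812) (nat_lit 49) (nat_lit 5) (nat_lit 51) (nat_lit 5) (nat_lit 52) (nat_lit 5) (nat_lit 335) (nat_lit 313) (nat_lit 252)))) (XT.nd (nat_lit 78) (nat_lit 152) (nat_lit 0) (XT.lf (nat_lit 0) (nat_lit 4538325424) (nat_lit 304) (nat_lit 25280958075) (nat_lit 76) (nat_lit 1453269054) (nat_lit 45) (nat_lit 5) (nat_lit 49) (nat_lit 5) (nat_lit 46) (nat_lit 5) (nat_lit 336) (nat_lit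 313) (nat_lit 251)) (XT.nd (nat_lit 78) (nat_lit 0) (nat_lit 0) (XT.lf (nat_lit 0) (nat_lit 659170687) (nat_lit 152) (nat_lit 14303733931) (nat_lit 228) (nat_lit 17941499165) (nat_lit 43) (nat_lit 5) (nat_lit 45) (nat_lit 5) (nat_lit 46) (nat_lit 5) (nat_lit 337) (nat_lit 313) (nat_lit 250)) (XT.lf (nat_lit 0) (nat_lit 26685757611) (nat_lit 228) (nat_lit 5147759605) (nat_lit 76) (nat_lit 2810082491) (nat_lit 43) (nat_lit 5) (nat_lit 46) (nat_lit 5) (nat_lit 44) (nat_lit 5) (nat_lit 338) (nat_lit 313) (nat_lit 249))))) (XT.nd (nat_lit 234) (nat_lit 304) (nat_lit 0) (XT.nd (nat_lit 78) (nat_lit 304) (nat_lit 0) (XT.lf (nat_lit 0) (nat_lit 3349806227) (nat_lit 228) (nat_lit 11913130428) (nat_lit 76) (nat_lit 21226015257) (nat_lit 40) (nat_lit 5) (nat_lit 43) (nat_lit 5) (nat_lit 41) (nat_lit 5) (nat_lit 339) (nat_lit 313) (nat_lit 248)) (XT.nd (nat_lit 78) (nat_lit 152) (nat_lit 0) (XT.lf (nat_lit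 0) (nat_lit 15702070204) (nat_lit 228) (nat_lit 19687469281) (nat_lit 76) (nat_lit 3064939371) (nat_lit 38) (nat_lit 5) (nat_lit 41) (nat_lit 5) (nat_lit 39) (nat_lit 5) (nat_lit 340) (nat_lit 313) (nat_lit 247)) (XT.lf (nat_lit 0) (nat_lit 11847744913) (nat_lit 152) (nat_lit 17829496664) (nat_lit 228) (nat_lit 10868279115) (nat_lit 36) (nat_lit 5) (nat_lit 38) (nat_lit 5) (nat_lit 39) (nat_lit 5) (nat_lit 341) (nat_lit 313) (nat_lit 246)))) (XT.nd (nat_lit 78) (nat_lit 152) (nat_lit 0) (XT.lf (nat_lit 0) (nat_lit 2319609820) (nat_lit 152) (nat_lit 38927597078) (nat_lit 76) (nat_lit 1534313171) (nat_lit 34) (nat_lit 5) (nat_lit 36) (nat_lit 5) (nat_lit 35) (nat_lit 5) (nat_lit 342) (nat_lit 313) (nat_lit 245)) (XT.nd (nat_lit 78) (nat_lit 152) (nat_lit 0) (XT.lf (nat_lit 0) (nat_lit 16978357487) (nat_lit 152) (nat_lit 5658379392) (nat_lit 76) (nat_lit 22510931525) (nat_lit 34) (nat_lit 5)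 (nat_lit 36) (nat_lit 5) (nat_lit 35) (nat_lit 5) (nat_lit 343) (nat_lit 313) (nat_lit 244)) (XT.lf (nat_lit 0) (nat_lit 31245167245) (nat_lit 152) (nat_lit 2036516973) (nat_lit 228) (nat_lit 14397837267) (nat_lit 32) (nat_lit 5) (nat_lit 34) (nat_lit 5) (nat_lit 35) (nat_lit 5) (nat_lit 344) (nat_lit 313) (nat_lit 243))))))) (XT.nd (nat_lit 936) (nat_lit 608) (nat_lit 0) (XT.nd (nat_lit 468) (nat_lit 380) (nat_lit 0) (XT.nd (nat_lit 234) (nat_lit 380) (nat_lit 0) (XT.nd (nat_lit 78) (nat_lit 152) (nat_lit 0) (XT.lf (nat_lit 0) (nat_lit 1203988215) (nat_lit 152) (nat_lit 29167047244) (nat_lit 76) (nat_lit 20005329895) (nat_lit 30) (nat_lit 5) (nat_lit 32) (nat_lit 5) (nat_lit 31) (nat_lit 5) (nat_lit 345) (nat_lit 313) (nat_lit 242)) (XT.nd (nat_lit 78) (nat_lit 0) (nat_lit 0) (XT.lf (nat_lit 0) (nat_lit 9162149007) (nat_lit 152) (nat_lit 8847631394) (nat_lit 228) (nat_lit 35244367875) (nat_lit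 28) (nat_lit 5) (nat_lit 30) (nat_lit 5) (nat_lit 31) (nat_lit 5) (nat_lit 346) (nat_lit 313) (nat_lit 241)) (XT.lf (nat_lit 0) (nat_lit 36886919709) (nat_lit 228) (nat_lit 4996052220) (nat_lit 76) (nat_lit 14442842890) (nat_lit 28) (nat_lit 5) (nat_lit 31) (nat_lit 5) (nat_lit 29) (nat_lit 4) (nat_lit 347) (nat_lit 313) (nat_lit 240)))) (XT.nd (nat_lit 78) (nat_lit 304) (nat_lit 0) (XT.lf (nat_lit 0) (nat_lit 38280054420) (nat_lit 76) (nat_lit 19727777431) (nat_lit 152) (nat_lit 1598707539) (nat_lit 27) (nat_lit 5) (nat_lit 28) (nat_lit 5) (nat_lit 29) (nat_lit 4) (nat_lit 348) (nat_lit 313) (nat_lit 239)) (XT.nd (nat_lit 78) (nat_lit 76) (nat_lit 0) (XT.lf (nat_lit 0) (nat_lit 17606775774) (nat_lit 228) (nat_lit 40721492550) (nat_lit 76) (nat_lit 4782485469) (nat_lit 24) (nat_lit 5) (nat_lit 27) (nat_lit 5) (nat_lit 25) (nat_lit 4) (nat_lit 349) (nat_lit 313) (nat_lit 238)) (XT.lf (nat_lit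 0) (nat_lit 3201470069) (nat_lit 76) (nat_lit 35839809413) (nat_lit 152) (nat_lit 27815289730) (nat_lit 23) (nat_lit 5) (nat_lit 24) (nat_lit 5) (nat_lit 25) (nat_lit 4) (nat_lit 350) (nat_lit 313) (nat_lit 237))))) (XT.nd (nat_lit 234) (nat_lit 152) (nat_lit 0) (XT.nd (nat_lit 78) (nat_lit 228) (nat_lit 0) (XT.lf (nat_lit 0) (nat_lit 52070992817) (nat_lit 76) (nat_lit 10817104438) (nat_lit 152) (nat_lit 7979078542) (nat_lit 23) (nat_lit 5) (nat_lit 24) (nat_lit 5) (nat_lit 25) (nat_lit 4) (nat_lit 351) (nat_lit 313) (nat_lit 236)) (XT.nd (nat_lit 78) (nat_lit 76) (nat_lit 0) (XT.lf (nat_lit 0) (nat_lit 13741298170) (nat_lit 152) (nat_lit 45034949655) (nat_lit 76) (nat_lit 16375513250) (nat_lit 21) (nat_lit 5) (nat_lit 23) (nat_lit 5) (nat_lit 22) (nat_lit 4) (nat_lit 352) (nat_lit 313) (nat_lit 235)) (XT.lf (nat_lit 0) (nat_lit 3625307855) (nat_lit 76) (nat_lit 33859254784) (nat_lit 152)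 (nat_lit 42259772983) (nat_lit 20) (nat_lit 5) (nat_lit 21) (nat_lit 5) (nat_lit 22) (nat_lit 4) (nat_lit 353) (nat_lit 313) (nat_lit 234)))) (XT.nd (nat_lit 78) (nat_lit 152) (nat_lit 0) (XT.lf (nat_lit 0) (nat_lit 57767698987) (nat_lit 76) (nat_lit 6133854200) (nat_lit 152) (nat_lit 20764052438) (nat_lit 20) (nat_lit 5) (nat_lit 21) (nat_lit 5) (nat_lit 22) (nat_lit 4) (nat_lit 354) (nat_lit 313) (nat_lit 233)) (XT.nd (nat_lit 78) (nat_lit 0) (nat_lit 0) (XT.lf (nat_lit 0) (nat_lit 3165073829) (nat_lit 152) (nat_lit 63265887312) (nat_lit 76) (nat_lit 23508094608) (nat_lit 18) (nat_lit 5) (nat_lit 20) (nat_lit 5) (nat_lit 19) (nat_lit 4) (nat_lit 355) (nat_lit 313) (nat_lit 232)) (XT.lf (nat_lit 0) (nat_lit 28861145996) (nat_lit 152) (nat_lit 10599096378) (nat_lit 76) (nat_lit 56128117676) (nat_lit 18) (nat_lit 5) (nat_lit 20) (nat_lit 5) (nat_lit 19) (nat_lit 4) (nat_lit 356) (nat_lit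 313) (nat_lit 231)))))) (XT.nd (nat_lit 468) (nat_lit 228) (nat_lit 0) (XT.nd (nat_lit 234) (nat_lit 152) (nat_lit 0) (XT.nd (nat_lit 78) (nat_lit 152) (nat_lit 0) (XT.lf (nat_lit 0) (nat_lit 47794694402) (nat_lit 76) (nat_lit 9555815213) (nat_lit 152) (nat_lit 44302220868) (nat_lit 17) (nat_lit 5) (nat_lit 18) (nat_lit 5) (nat_lit 19) (nat_lit 4) (nat_lit 357) (nat_lit 313) (nat_lit 230)) (XT.nd (nat_lit 78) (nat_lit 76) (nat_lit 0) (XT.lf (nat_lit 0) (nat_lit 2760047535) (nat_lit 76) (nat_lit 85936455127) (nat_lit 76) (nat_lit 19476875786) (nat_lit 16) (nat_lit 4) (nat_lit 17) (nat_lit 5) (nat_lit 17) (nat_lit 4) (nat_lit 358) (nat_lit 313) (nat_lit 229)) (XT.lf (nat_lit 0) (nat_lit 8206359983) (nat_lit 152) (nat_lit 49644220384) (nat_lit 76) (nat_lit 57304043333) (nat_lit 15) (nat_lit 5) (nat_lit 17) (nat_lit 5) (nat_lit 16) (nat_lit 4) (nat_lit 359) (nat_lit 313) (nat_lit 228)))) (XT.nd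 (nat_lit 78) (nat_lit 76) (nat_lit 0) (XT.lf (nat_lit 0) (nat_lit 10582581180) (nat_lit 76) (nat_lit 27006174783) (nat_lit 152) (nat_lit 85081305712) (nat_lit 14) (nat_lit 5) (nat_lit 15) (nat_lit 5) (nat_lit 16) (nat_lit 4) (nat_lit 360) (nat_lit 313) (nat_lit 227)) (XT.nd (nat_lit 78) (nat_lit 76) (nat_lit 0) (XT.lf (nat_lit 0) (nat_lit 70291913783) (nat_lit 152) (nat_lit 53469592500) (nat_lit 0) (nat_lit 6976721345) (nat_lit 14) (nat_lit 5) (nat_lit 16) (nat_lit 4) (nat_lit 14) (nat_lit 4) (nat_lit 361) (nat_lit 313) (nat_lit 226)) (XT.lf (nat_lit 0) (nat_lit 9679399915) (nat_lit 76) (nat_lit 96531728052) (nat_lit 76) (nat_lit 33210730046) (nat_lit 13) (nat_lit 4) (nat_lit 14) (nat_lit 5) (nat_lit 14) (nat_lit 4) (nat_lit 362) (nat_lit 313) (nat_lit 225))))) (XT.nd (nat_lit 234) (nat_lit 76) (nat_lit 0) (XT.nd (nat_lit 78) (nat_lit 152) (nat_lit 0) (XT.lf (nat_lit 0) (nat_lit 79777493489)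 (nat_lit 76) (nat_lit 66151404587) (nat_lit 76) (nat_lit 2825031055) (nat_lit 13) (nat_lit 4) (nat_lit 14) (nat_lit 5) (nat_lit 14) (nat_lit 4) (nat_lit 363) (nat_lit 313) (nat_lit 224)) (XT.nd (nat_lit 78) (nat_lit 76) (nat_lit 0) (XT.lf (nat_lit 0) (nat_lit 29025595824) (nat_lit 152) (nat_lit 3828879429) (nat_lit 76) (nat_lit 125954979792) (nat_lit 12) (nat_lit 5) (nat_lit 14) (nat_lit 5) (nat_lit 13) (nat_lit 4) (nat_lit 364) (nat_lit 313) (nat_lit 223)) (XT.lf (nat_lit 0) (nat_lit 64459960552) (nat_lit 152) (nat_lit 101010415637) (nat_lit 0) (nat_lit 4139999108) (nat_lit 11) (nat_lit 5) (nat_lit 13) (nat_lit 4) (nat_lit 11) (nat_lit 4) (nat_lit 365) (nat_lit 313) (nat_lit 222)))) (XT.nd (nat_lit 78) (nat_lit 76) (nat_lit 0) (XT.lf (nat_lit 0) (nat_lit 103345461645) (nat_lit 152) (nat_lit 34877652967) (nat_lit 0) (nat_lit 43021436137) (nat_lit 11) (nat_lit 5) (nat_lit 13) (nat_lit 4)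 (nat_lit 11) (nat_lit 4) (nat_lit 366) (nat_lit 313) (nat_lit 221)) (XT.nd (nat_lit 78) (nat_lit 0) (nat_lit 0) (XT.lf (nat_lit 0) (nat_lit 37744175702) (nat_lit 76) (nat_lit 108181929409) (nat_lit 76) (nat_lit 47854140881) (nat_lit 10) (nat_lit 4) (nat_lit 11) (nat_lit 5) (nat_lit 11) (nat_lit 4) (nat_lit 367) (nat_lit 313) (nat_lit 220)) (XT.lf (nat_lit 0) (nat_lit 117412033443) (nat_lit 76) (nat_lit 75103948953) (nat_lit 76) (nat_lit 14772676146) (nat_lit 10) (nat_lit 4) (nat_lit 11) (nat_lit 5) (nat_lit 11) (nat_lit 4) (nat_lit 368) (nat_lit 313) (nat_lit 219))))))))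
noncomputable def xc72 : XT := (XT.nd (nat_lit 42588) (nat_lit 0) (nat_lit 3572) (XT.nd (nat_lit 858) (nat_lit 228) (nat_lit 0) (XT.nd (nat_lit 390) (nat_lit 152) (nat_lit 0) (XT.nd (nat_lit 156) (nat_lit 76) (nat_lit 0) (XT.nd (nat_lit 78) (nat_lit 76) (nat_lit 0) (XT.lf (nat_lit 0) (nat_lit 20280121086) (nat_lit 152) (nat_lit 18760250762) (nat_lit 76) (nat_lit 182821238608) (nat_lit 9) (nat_lit 5) (nat_lit 11) (nat_lit 5) (nat_lit 10) (nat_lit 4) (nat_lit 369) (nat_lit 313) (nat_lit 218)) (XT.lf (nat_lit 0) (nat_lit 58572287870) (nat_lit 152) (nat_lit 177860351840) (nat_lit 0) (nat_lit 1108015300) (nat_lit 8) (nat_lit 5) (nat_lit 10) (nat_lit 4) (nat_lit 8) (nat_lit 4) (nat_lit 370) (nat_lit 313) (nat_lit 217))) (XT.nd (nat_lit 78) (nat_lit 76) (nat_lit 0) (XT.lf (nat_lit 0) (nat_lit 100914246867) (nat_lit 152) (nat_lit 110063115852) (nat_lit 0) (nat_lit 43447340076) (nat_lit 8) (nat_lit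 5) (nat_lit 10) (nat_lit 4) (nat_lit 8) (nat_lit 4) (nat_lit 371) (nat_lit 313) (nat_lit 216)) (XT.nd (nat_lit 78) (nat_lit 76) (nat_lit 0) (XT.lf (nat_lit 0) (nat_lit 146639838680) (nat_lit 152) (nat_lit 36849329684) (nat_lit 0) (nat_lit 89170492796) (nat_lit 8) (nat_lit 5) (nat_lit 10) (nat_lit 4) (nat_lit 8) (nat_lit 4) (nat_lit 372) (nat_lit 313) (nat_lit 215)) (XT.lf (nat_lit 0) (nat_lit 43610680259) (nat_lit 76) (nat_lit 153090234459) (nat_lit 76) (nat_lit 95618630154) (nat_lit 7) (nat_lit 4) (nat_lit 8) (nat_lit 5) (nat_lit 8) (nat_lit 4) (nat_lit 373) (nat_lit 313) (nat_lit 214))))) (XT.nd (nat_lit 234) (nat_lit 76) (nat_lit 0) (XT.nd (nat_lit 78) (nat_lit 76) (nat_lit 0) (XT.lf (nat_lit 0) (nat_lit 131816966315) (nat_lit 76) (nat_lit 119588509469) (nat_lit 76) (nat_lit 62114814034) (nat_lit 7) (nat_lit 4) (nat_lit 8) (nat_lit 5) (nat_lit 8) (nat_lit 4) (nat_lit 374) (nat_lit 313)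 (nat_lit 213)) (XT.nd (nat_lit 78) (nat_lit 76) (nat_lit 0) (XT.lf (nat_lit 0) (nat_lit 227073827143) (nat_lit 76) (nat_lit 83409525883) (nat_lit 76) (nat_lit 25933894216) (nat_lit 7) (nat_lit 4) (nat_lit 8) (nat_lit 5) (nat_lit 8) (nat_lit 4) (nat_lit 375) (nat_lit 313) (nat_lit 212)) (XT.lf (nat_lit 0) (nat_lit 12718019586) (nat_lit 152) (nat_lit 31405484321) (nat_lit 76) (nat_lit 317012342444) (nat_lit 6) (nat_lit 5) (nat_lit 8) (nat_lit 5) (nat_lit 7) (nat_lit 4) (nat_lit 376) (nat_lit 313) (nat_lit 211)))) (XT.nd (nat_lit 78) (nat_lit 0) (nat_lit 0) (XT.lf (nat_lit 0) (nat_lit 54055124434) (nat_lit 76) (nat_lit 351806743) (nat_lit 152) (nat_lit 333361073187) (nat_lit 5) (nat_lit 5) (nat_lit 6) (nat_lit 5) (nat_lit 7) (nat_lit 4) (nat_lit 377) (nat_lit 313) (nat_lit 210)) (XT.nd (nat_lit 78) (nat_lit 0) (nat_lit 0) (XT.lf (nat_lit 0) (nat_lit 100716990299) (nat_lit 152) (nat_lit 269775902096)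 (nat_lit 0) (nat_lit 45973541230) (nat_lit 5) (nat_lit 5) (nat_lit 7) (nat_lit 4) (nat_lit 5) (nat_lit 4) (nat_lit 378) (nat_lit 313) (nat_lit 209)) (XT.lf (nat_lit 0) (nat_lit 150735401992) (nat_lit 152) (nat_lit 200734560652) (nat_lit 0) (nat_lit 95990597505) (nat_lit 5) (nat_lit 5) (nat_lit 7) (nat_lit 4) (nat_lit 5) (nat_lit 4) (nat_lit 379) (nat_lit 313) (nat_lit 208)))))) (XT.nd (nat_lit 468) (nat_lit 152) (nat_lit 0) (XT.nd (nat_lit 234) (nat_lit 0) (nat_lit 0) (XT.nd (nat_lit 78) (nat_lit 76) (nat_lit 0) (XT.lf (nat_lit 0) (nat_lit 204753078968) (nat_lit 152) (nat_lit 126174229034) (nat_lit 0) (nat_lit 150007019465) (nat_lit 5) (nat_lit 5) (nat_lit 7) (nat_lit 4) (nat_lit 5) (nat_lit 4) (nat_lit 380) (nat_lit 313) (nat_lit 207)) (XT.nd (nat_lit 78) (nat_lit 76) (nat_lit 0) (XT.lf (nat_lit 0) (nat_lit 263090125980) (nat_lit 152) (nat_lit 45653068239) (nat_lit 0) (nat_lit 208342904426)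 (nat_lit 5) (nat_lit 5) (nat_lit 7) (nat_lit 4) (nat_lit 5) (nat_lit 4) (nat_lit 381) (nat_lit 313) (nat_lit 206)) (XT.lf (nat_lit 0) (nat_lit 42671849851) (nat_lit 76) (nat_lit 284086621360) (nat_lit 76) (nat_lit 229338323833) (nat_lit 4) (nat_lit 4) (nat_lit 5) (nat_lit 5) (nat_lit 5) (nat_lit 4) (nat_lit 382) (nat_lit 313) (nat_lit 205)))) (XT.nd (nat_lit 78) (nat_lit 0) (nat_lit 0) (XT.lf (nat_lit 0) (nat_lit 139689477329) (nat_lit 76) (nat_lit 256624245947) (nat_lit 76) (nat_lit 201874952147) (nat_lit 4) (nat_lit 4) (nat_lit 5) (nat_lit 5) (nat_lit 5) (nat_lit 4) (nat_lit 383) (nat_lit 313) (nat_lit 204)) (XT.nd (nat_lit 78) (nat_lit 0) (nat_lit 0) (XT.lf (nat_lit 0) (nat_lit 244465236856) (nat_lit 76) (nat_lit 226966484779) (nat_lit 76) (nat_lit 172216268505) (nat_lit 4) (nat_lit 4) (nat_lit 5) (nat_lit 5) (nat_lit 5) (nat_lit 4) (nat_lit 384) (nat_lit 313) (nat_lit 203)) (XT.lf (nat_lit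 0) (nat_lit 357620021823) (nat_lit 76) (nat_lit 194937588160) (nat_lit 76) (nat_lit 140186517744) (nat_lit 4) (nat_lit 4) (nat_lit 5) (nat_lit 5) (nat_lit 5) (nat_lit 4) (nat_lit 385) (nat_lit 313) (nat_lit 202))))) (XT.nd (nat_lit 234) (nat_lit 152) (nat_lit 0) (XT.nd (nat_lit 78) (nat_lit 0) (nat_lit 0) (XT.lf (nat_lit 0) (nat_lit 479824379102) (nat_lit 76) (nat_lit 160347755222) (nat_lit 76) (nat_lit 105595893932) (nat_lit 4) (nat_lit 4) (nat_lit 5) (nat_lit 5) (nat_lit 5) (nat_lit 4) (nat_lit 386) (nat_lit 313) (nat_lit 201)) (XT.nd (nat_lit 78) (nat_lit 0) (nat_lit 0) (XT.lf (nat_lit 0) (nat_lit 611802482663) (nat_lit 76) (nat_lit 122992009175) (nat_lit 76) (nat_lit 68239415596) (nat_lit 4) (nat_lit 4) (nat_lit 5) (nat_lit 5) (nat_lit 5) (nat_lit 4) (nat_lit 387) (nat_lit 313) (nat_lit 200)) (XT.lf (nat_lit 0) (nat_lit 754336424971) (nat_lit 76) (nat_lit 82648982638) (nat_lit 76) (nat_lit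 27895711013) (nat_lit 4) (nat_lit 4) (nat_lit 5) (nat_lit 5) (nat_lit 5) (nat_lit 4) (nat_lit 388) (nat_lit 313) (nat_lit 199)))) (XT.nd (nat_lit 78) (nat_lit 76) (nat_lit 0) (XT.lf (nat_lit 0) (nat_lit 15172618339) (nat_lit 152) (nat_lit 23650031849) (nat_lit 76) (nat_lit 892841277639) (nat_lit 3) (nat_lit 5) (nat_lit 5) (nat_lit 5) (nat_lit 4) (nat_lit 4) (nat_lit 389) (nat_lit 313) (nat_lit 198)) (XT.nd (nat_lit 78) (nat_lit 0) (nat_lit 0) (XT.lf (nat_lit 0) (nat_lit 62004646434) (nat_lit 152) (nat_lit 931839550115) (nat_lit 0) (nat_lit 9857521900) (nat_lit 2) (nat_lit 5) (nat_lit 4) (nat_lit 4) (nat_lit 2) (nat_lit 4) (nat_lit 390) (nat_lit 313) (nat_lit 197)) (XT.lf (nat_lit 0) (nat_lit 113655539858) (nat_lit 152) (nat_lit 906285474727) (nat_lit 0) (nat_lit 61507902700) (nat_lit 2) (nat_lit 5) (nat_lit 4) (nat_lit 4) (nat_lit 2) (nat_lit 4) (nat_lit 391) (nat_lit 313) (nat_lit 196)))))))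 (XT.nd (nat_lit 858) (nat_lit 2812) (nat_lit 0) (XT.nd (nat_lit 390) (nat_lit 1900) (nat_lit 0) (XT.nd (nat_lit 156) (nat_lit 0) (nat_lit 76) (XT.nd (nat_lit 78) (nat_lit 0) (nat_lit 0) (XT.lf (nat_lit 0) (nat_lit 1836257207) (nat_lit 0) (nat_lit 1836257207) (nat_lit 684) (nat_lit 2465668015) (nat_lit 111) (nat_lit 5) (nat_lit 111) (nat_lit 3) (nat_lit 120) (nat_lit 3) (nat_lit 314) (nat_lit 314) (nat_lit 272)) (XT.lf (nat_lit 76) (nat_lit 642279024) (nat_lit 0) (nat_lit 7768084205) (nat_lit 760) (nat_lit 4317710794) (nat_lit 112) (nat_lit 5) (nat_lit 111) (nat_lit 5) (nat_lit 121) (nat_lit 5) (nat_lit 315) (nat_lit 314) (nat_lit 271))) (XT.nd (nat_lit 78) (nat_lit 0) (nat_lit 0) (XT.lf (nat_lit 0) (nat_lit 9721062202) (nat_lit 684) (nat_lit 2394503362) (nat_lit 760) (nat_lit 1092424375) (nat_lit 112) (nat_lit 5) (nat_lit 121) (nat_lit 5) (nat_lit 122) (nat_lit 5) (nat_lit 316) (nat_lit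 314) (nat_lit 270)) (XT.nd (nat_lit 78) (nat_lit 0) (nat_lit 76) (XT.lf (nat_lit 76) (nat_lit 8162237405) (nat_lit 0) (nat_lit 3169992967) (nat_lit 760) (nat_lit 2384359310) (nat_lit 113) (nat_lit 5) (nat_lit 112) (nat_lit 5) (nat_lit 122) (nat_lit 5) (nat_lit 317) (nat_lit 314) (nat_lit 269)) (XT.lf (nat_lit 76) (nat_lit 5414819272) (nat_lit 0) (nat_lit 7827319227) (nat_lit 760) (nat_lit 1015312522) (nat_lit 114) (nat_lit 5) (nat_lit 113) (nat_lit 5) (nat_lit 123) (nat_lit 5) (nat_lit 318) (nat_lit 314) (nat_lit 268))))) (XT.nd (nat_lit 234) (nat_lit 1368) (nat_lit 0) (XT.nd (nat_lit 78) (nat_lit 0) (nat_lit 0) (XT.lf (nat_lit 0) (nat_lit 616661347) (nat_lit 760) (nat_lit 12263567542) (nat_lit 836) (nat_lit 1952637365) (nat_lit 104) (nat_lit 5) (nat_lit 114) (nat_lit 5) (nat_lit 115) (nat_lit 5) (nat_lit 319) (nat_lit 314) (nat_lit 267)) (XT.nd (nat_lit 78) (nat_lit 0) (nat_lit 76) (XT.lf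 (nat_lit 0) (nat_lit 2580644605) (nat_lit 760) (nat_lit 431106945) (nat_lit 836) (nat_lit 12429933618) (nat_lit 104) (nat_lit 5) (nat_lit 114) (nat_lit 5) (nat_lit 115) (nat_lit 5) (nat_lit 320) (nat_lit 314) (nat_lit 266)) (XT.lf (nat_lit 0) (nat_lit 4974891273) (nat_lit 760) (nat_lit 3499232971) (nat_lit 76) (nat_lit 7611477972) (nat_lit 105) (nat_lit 5) (nat_lit 115) (nat_lit 5) (nat_lit 106) (nat_lit 5) (nat_lit 321) (nat_lit 314) (nat_lit 265)))) (XT.nd (nat_lit 78) (nat_lit 684) (nat_lit 0) (XT.lf (nat_lit 0) (nat_lit 7769087724) (nat_lit 836) (nat_lit 6697288416) (nat_lit 76) (nat_lit 2304282143) (nat_lit 95) (nat_lit 5) (nat_lit 106) (nat_lit 5) (nat_lit 96) (nat_lit 5) (nat_lit 322) (nat_lit 314) (nat_lit 264)) (XT.nd (nat_lit 78) (nat_lit 304) (nat_lit 0) (XT.lf (nat_lit 0) (nat_lit 7401467008) (nat_lit 380) (nat_lit 3663491662) (nat_lit 456) (nat_lit 6431695969) (nat_lit 90) (nat_lit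 5) (nat_lit 95) (nat_lit 5) (nat_lit 96) (nat_lit 5) (nat_lit 323) (nat_lit 314) (nat_lit 263)) (XT.lf (nat_lit 0) (nat_lit 4570735496) (nat_lit 304) (nat_lit 10328930214) (nat_lit 380) (nat_lit 3367346247) (nat_lit 86) (nat_lit 5) (nat_lit 90) (nat_lit 5) (nat_lit 91) (nat_lit 5) (nat_lit 324) (nat_lit 314) (nat_lit 262)))))) (XT.nd (nat_lit 468) (nat_lit 1140) (nat_lit 0) (XT.nd (nat_lit 234) (nat_lit 912) (nat_lit 0) (XT.nd (nat_lit 78) (nat_lit 304) (nat_lit 0) (XT.lf (nat_lit 0) (nat_lit 194613861) (nat_lit 456) (nat_lit 17482418301) (nat_lit 76) (nat_lit 1409515213) (nat_lit 80) (nat_lit 5) (nat_lit 86) (nat_lit 5) (nat_lit 81) (nat_lit 5) (nat_lit 325) (nat_lit 314) (nat_lit 261)) (XT.nd (nat_lit 78) (nat_lit 304) (nat_lit 0) (XT.lf (nat_lit 0) (nat_lit 4305906114) (nat_lit 456) (nat_lit 1617506122) (nat_lit 76) (nat_lit 14026388047) (nat_lit 80) (nat_lit 5) (nat_lit 86) (nat_lit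 5) (nat_lit 81) (nat_lit 5) (nat_lit 326) (nat_lit 314) (nat_lit 260)) (XT.lf (nat_lit 0) (nat_lit 9072269881) (nat_lit 380) (nat_lit 4990231573) (nat_lit 76) (nat_lit 6803333482) (nat_lit 76) (nat_lit 5) (nat_lit 81) (nat_lit 5) (nat_lit 77) (nat_lit 5) (nat_lit 327) (nat_lit 314) (nat_lit 259)))) (XT.nd (nat_lit 78) (nat_lit 608) (nat_lit 0) (XT.lf (nat_lit 0) (nat_lit 13258726850) (nat_lit 304) (nat_lit 1265342130) (nat_lit 380) (nat_lit 7315904776) (nat_lit 72) (nat_lit 5) (nat_lit 76) (nat_lit 5) (nat_lit 77) (nat_lit 5) (nat_lit 328) (nat_lit 314) (nat_lit 258)) (XT.nd (nat_lit 78) (nat_lit 380) (nat_lit 0) (XT.lf (nat_lit 0) (nat_lit 10354815843) (nat_lit 228) (nat_lit 10473515507) (nat_lit 304) (nat_lit 2042922014) (nat_lit 69) (nat_lit 5) (nat_lit 72) (nat_lit 5) (nat_lit 73) (nat_lit 5) (nat_lit 329) (nat_lit 314) (nat_lit 257)) (XT.lf (nat_lit 0) (nat_lit 3846860966) (nat_lit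 380) (nat_lit 16774024353) (nat_lit 76) (nat_lit 3345729565) (nat_lit 64) (nat_lit 5) (nat_lit 69) (nat_lit 5) (nat_lit 65) (nat_lit 5) (nat_lit 330) (nat_lit 314) (nat_lit 256))))) (XT.nd (nat_lit 234) (nat_lit 684) (nat_lit 0) (XT.nd (nat_lit 78) (nat_lit 228) (nat_lit 0) (XT.lf (nat_lit 0) (nat_lit 3652620131) (nat_lit 228) (nat_lit 6912700642) (nat_lit 304) (nat_lit 14561177560) (nat_lit 61) (nat_lit 5) (nat_lit 64) (nat_lit 5) (nat_lit 65) (nat_lit 5) (nat_lit 331) (nat_lit 314) (nat_lit 255)) (XT.nd (nat_lit 78) (nat_lit 228) (nat_lit 0) (XT.lf (nat_lit 0) (nat_lit 18215663679) (nat_lit 304) (nat_lit 216022702) (nat_lit 76) (nat_lit 7927785154) (nat_lit 61) (nat_lit 5) (nat_lit 65) (nat_lit 5) (nat_lit 62) (nat_lit 5) (nat_lit 332) (nat_lit 314) (nat_lit 254)) (XT.lf (nat_lit 0) (nat_lit 23339730001) (nat_lit 228) (nat_lit 3595379281) (nat_lit 304) (nat_lit 733137507) (nat_lit 58)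 (nat_lit 5) (nat_lit 61) (nat_lit 5) (nat_lit 62) (nat_lit 5) (nat_lit 333) (nat_lit 314) (nat_lit 253)))) (XT.nd (nat_lit 78) (nat_lit 380) (nat_lit 0) (XT.lf (nat_lit 0) (nat_lit 7534980378) (nat_lit 304) (nat_lit 9055459161) (nat_lit 76) (nat_lit 12460760218) (nat_lit 54) (nat_lit 5) (nat_lit 58) (nat_lit 5) (nat_lit 55) (nat_lit 5) (nat_lit 334) (nat_lit 314) (nat_lit 252)) (XT.nd (nat_lit 78) (nat_lit 152) (nat_lit 0) (XT.lf (nat_lit 0) (nat_lit 16294733853) (nat_lit 228) (nat_lit 514213704) (nat_lit 304) (nat_lit 13716750867) (nat_lit 51) (nat_lit 5) (nat_lit 54) (nat_lit 5) (nat_lit 55) (nat_lit 5) (nat_lit 335) (nat_lit 314) (nat_lit 251)) (XT.lf (nat_lit 0) (nat_lit 11972016293) (nat_lit 152) (nat_lit 15442170545) (nat_lit 228) (nat_lit 4674515983) (nat_lit 49) (nat_lit 5) (nat_lit 51) (nat_lit 5) (nat_lit 52) (nat_lit 5) (nat_lit 336) (nat_lit 314) (nat_lit 250))))))))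
noncomputable def xc73 : XT := (XT.nd (nat_lit 1794) (nat_lit 912) (nat_lit 0) (XT.nd (nat_lit 858) (nat_lit 912) (nat_lit 0) (XT.nd (nat_lit 390) (nat_lit 760) (nat_lit 0) (XT.nd (nat_lit 156) (nat_lit 380) (nat_lit 0) (XT.nd (nat_lit 78) (nat_lit 152) (nat_lit 0) (XT.lf (nat_lit 0) (nat_lit 5308476442) (nat_lit 304) (nat_lit 26664088106) (nat_lit 76) (nat_lit 1781204395) (nat_lit 45) (nat_lit 5) (nat_lit 49) (nat_lit 5) (nat_lit 46) (nat_lit 5) (nat_lit 337) (nat_lit 314) (nat_lit 249)) (XT.lf (nat_lit 0) (nat_lit 1323465732) (nat_lit 152) (nat_lit 15222949982) (nat_lit 228) (nat_lit 18970800169) (nat_lit 43) (nat_lit 5) (nat_lit 45) (nat_lit 5) (nat_lit 46) (nat_lit 5) (nat_lit 338) (nat_lit 314) (nat_lit 248))) (XT.nd (nat_lit 78) (nat_lit 380) (nat_lit 0) (XT.lf (nat_lit 0) (nat_lit 29181722756) (nat_lit 228) (nat_lit 4978480910) (nat_lit 76) (nat_lit 3236628546) (nat_lit 43) (nat_lit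 5) (nat_lit 46) (nat_lit 5) (nat_lit 44) (nat_lit 5) (nat_lit 339) (nat_lit 314) (nat_lit 247)) (XT.nd (nat_lit 78) (nat_lit 152) (nat_lit 0) (XT.lf (nat_lit 0) (nat_lit 3966628076) (nat_lit 228) (nat_lit 12298624553) (nat_lit 76) (nat_lit 23125196986) (nat_lit 40) (nat_lit 5) (nat_lit 43) (nat_lit 5) (nat_lit 41) (nat_lit 5) (nat_lit 340) (nat_lit 314) (nat_lit 246)) (XT.lf (nat_lit 0) (nat_lit 17293010235) (nat_lit 228) (nat_lit 20706139454) (nat_lit 76) (nat_lit 3514785250) (nat_lit 38) (nat_lit 5) (nat_lit 41) (nat_lit 5) (nat_lit 39) (nat_lit 5) (nat_lit 341) (nat_lit 314) (nat_lit 245))))) (XT.nd (nat_lit 234) (nat_lit 456) (nat_lit 0) (XT.nd (nat_lit 78) (nat_lit 152) (nat_lit 0) (XT.lf (nat_lit 0) (nat_lit 13327714565) (nat_lit 152) (nat_lit 19041991002) (nat_lit 228) (nat_lit 11403391156) (nat_lit 36) (nat_lit 5) (nat_lit 38) (nat_lit 5) (nat_lit 39) (nat_lit 5) (nat_lit 342) (nat_lit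 314) (nat_lit 244)) (XT.nd (nat_lit 78) (nat_lit 0) (nat_lit 0) (XT.lf (nat_lit 0) (nat_lit 2816266728) (nat_lit 152) (nat_lit 41510188394) (nat_lit 76) (nat_lit 1861898646) (nat_lit 34) (nat_lit 5) (nat_lit 36) (nat_lit 5) (nat_lit 35) (nat_lit 5) (nat_lit 343) (nat_lit 314) (nat_lit 243)) (XT.lf (nat_lit 0) (nat_lit 18624670644) (nat_lit 152) (nat_lit 5618812288) (nat_lit 76) (nat_lit 24501473103) (nat_lit 34) (nat_lit 5) (nat_lit 36) (nat_lit 5) (nat_lit 35) (nat_lit 5) (nat_lit 344) (nat_lit 314) (nat_lit 242)))) (XT.nd (nat_lit 78) (nat_lit 304) (nat_lit 0) (XT.lf (nat_lit 0) (nat_lit 34215626040) (nat_lit 152) (nat_lit 2002652056) (nat_lit 228) (nat_lit 15261787694) (nat_lit 32) (nat_lit 5) (nat_lit 34) (nat_lit 5) (nat_lit 35) (nat_lit 5) (nat_lit 345) (nat_lit 314) (nat_lit 241)) (XT.nd (nat_lit 78) (nat_lit 152) (nat_lit 0) (XT.lf (nat_lit 0) (nat_lit 1568529850) (nat_lit 152) (nat_lit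 31030780333) (nat_lit 76) (nat_lit 21793652339) (nat_lit 30) (nat_lit 5) (nat_lit 32) (nat_lit 5) (nat_lit 31) (nat_lit 5) (nat_lit 346) (nat_lit 314) (nat_lit 240)) (XT.lf (nat_lit 0) (nat_lit 10344342041) (nat_lit 152) (nat_lit 9361588631) (nat_lit 228) (nat_lit 37795687619) (nat_lit 28) (nat_lit 5) (nat_lit 30) (nat_lit 5) (nat_lit 31) (nat_lit 5) (nat_lit 347) (nat_lit 314) (nat_lit 239)))))) (XT.nd (nat_lit 468) (nat_lit 380) (nat_lit 0) (XT.nd (nat_lit 234) (nat_lit 228) (nat_lit 0) (XT.nd (nat_lit 78) (nat_lit 304) (nat_lit 0) (XT.lf (nat_lit 0) (nat_lit 40077127389) (nat_lit 228) (nat_lit 4970684205) (nat_lit 76) (nat_lit 15772019172) (nat_lit 28) (nat_lit 5) (nat_lit 31) (nat_lit 5) (nat_lit 29) (nat_lit 4) (nat_lit 348) (nat_lit 314) (nat_lit 238)) (XT.nd (nat_lit 78) (nat_lit 228) (nat_lit 0) (XT.lf (nat_lit 0) (nat_lit 41749038716) (nat_lit 76) (nat_lit 21127299113) (nat_lit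 152) (nat_lit 1487250619) (nat_lit 27) (nat_lit 5) (nat_lit 28) (nat_lit 5) (nat_lit 29) (nat_lit 4) (nat_lit 349) (nat_lit 314) (nat_lit 237)) (XT.lf (nat_lit 0) (nat_lit 19238777167) (nat_lit 228) (nat_lit 43574535572) (nat_lit 76) (nat_lit 5335057736) (nat_lit 24) (nat_lit 5) (nat_lit 27) (nat_lit 5) (nat_lit 25) (nat_lit 4) (nat_lit 350) (nat_lit 314) (nat_lit 236)))) (XT.nd (nat_lit 78) (nat_lit 152) (nat_lit 0) (XT.lf (nat_lit 0) (nat_lit 3844677314) (nat_lit 76) (nat_lit 38532854868) (nat_lit 152) (nat_lit 29816849628) (nat_lit 23) (nat_lit 5) (nat_lit 24) (nat_lit 5) (nat_lit 25) (nat_lit 4) (nat_lit 351) (nat_lit 314) (nat_lit 235)) (XT.nd (nat_lit 78) (nat_lit 152) (nat_lit 0) (XT.lf (nat_lit 0) (nat_lit 56595088575) (nat_lit 76) (nat_lit 11521232702) (nat_lit 152) (nat_lit 8410309195) (nat_lit 23) (nat_lit 5) (nat_lit 24) (nat_lit 5) (nat_lit 25) (nat_lit 4) (nat_lit 352) (nat_lit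 314) (nat_lit 234)) (XT.lf (nat_lit 0) (nat_lit 15034141817) (nat_lit 152) (nat_lit 48281372618) (nat_lit 76) (nat_lit 17838657120) (nat_lit 21) (nat_lit 5) (nat_lit 23) (nat_lit 5) (nat_lit 22) (nat_lit 4) (nat_lit 353) (nat_lit 314) (nat_lit 233))))) (XT.nd (nat_lit 234) (nat_lit 152) (nat_lit 0) (XT.nd (nat_lit 78) (nat_lit 152) (nat_lit 0) (XT.lf (nat_lit 0) (nat_lit 4256217957) (nat_lit 76) (nat_lit 36411635383) (nat_lit 152) (nat_lit 45446753387) (nat_lit 20) (nat_lit 5) (nat_lit 21) (nat_lit 5) (nat_lit 22) (nat_lit 4) (nat_lit 354) (nat_lit 314) (nat_lit 232)) (XT.nd (nat_lit 78) (nat_lit 152) (nat_lit 0) (XT.lf (nat_lit 0) (nat_lit 62704749603) (nat_lit 76) (nat_lit 6479784959) (nat_lit 152) (nat_lit 22245730860) (nat_lit 20) (nat_lit 5) (nat_lit 21) (nat_lit 5) (nat_lit 22) (nat_lit 4) (nat_lit 355) (nat_lit 314) (nat_lit 231)) (XT.lf (nat_lit 0) (nat_lit 3586129651) (nat_lit 152)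 (nat_lit 68013597187) (nat_lit 76) (nat_lit 25526020490) (nat_lit 18) (nat_lit 5) (nat_lit 20) (nat_lit 5) (nat_lit 19) (nat_lit 4) (nat_lit 356) (nat_lit 314) (nat_lit 230)))) (XT.nd (nat_lit 78) (nat_lit 152) (nat_lit 0) (XT.lf (nat_lit 0) (nat_lit 31325454264) (nat_lit 152) (nat_lit 11156689727) (nat_lit 76) (nat_lit 60745476640) (nat_lit 18) (nat_lit 5) (nat_lit 20) (nat_lit 5) (nat_lit 19) (nat_lit 4) (nat_lit 357) (nat_lit 314) (nat_lit 229)) (XT.nd (nat_lit 78) (nat_lit 76) (nat_lit 0) (XT.lf (nat_lit 0) (nat_lit 51895986738) (nat_lit 76) (nat_lit 10190803832) (nat_lit 152) (nat_lit 47690711719) (nat_lit 17) (nat_lit 5) (nat_lit 18) (nat_lit 5) (nat_lit 19) (nat_lit 4) (nat_lit 358) (nat_lit 314) (nat_lit 228)) (XT.lf (nat_lit 0) (nat_lit 3251688259) (nat_lit 76) (nat_lit 92683894323) (nat_lit 76) (nat_lit 20884466098) (nat_lit 16) (nat_lit 4) (nat_lit 17) (nat_lit 5) (nat_lit 17)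 (nat_lit 4) (nat_lit 359) (nat_lit 314) (nat_lit 227))))))) (XT.nd (nat_lit 936) (nat_lit 304) (nat_lit 0) (XT.nd (nat_lit 468) (nat_lit 304) (nat_lit 0) (XT.nd (nat_lit 234) (nat_lit 152) (nat_lit 0) (XT.nd (nat_lit 78) (nat_lit 76) (nat_lit 0) (XT.lf (nat_lit 0) (nat_lit 8997814059) (nat_lit 152) (nat_lit 53360492917) (nat_lit 76) (nat_lit 62001911086) (nat_lit 15) (nat_lit 5) (nat_lit 17) (nat_lit 5) (nat_lit 16) (nat_lit 4) (nat_lit 360) (nat_lit 314) (nat_lit 226)) (XT.nd (nat_lit 78) (nat_lit 0) (nat_lit 0) (XT.lf (nat_lit 0) (nat_lit 11673359262) (nat_lit 76) (nat_lit 29051258711) (nat_lit 152) (nat_lit 91752584382) (nat_lit 14) (nat_lit 5) (nat_lit 15) (nat_lit 5) (nat_lit 16) (nat_lit 4) (nat_lit 361) (nat_lit 314) (nat_lit 225)) (XT.lf (nat_lit 0) (nat_lit 76036158930) (nat_lit 152) (nat_lit 57516758079) (nat_lit 0) (nat_lit 7638299990) (nat_lit 14) (nat_lit 5) (nat_lit 16) (nat_lit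 4) (nat_lit 14) (nat_lit 4) (nat_lit 362) (nat_lit 314) (nat_lit 224)))) (XT.nd (nat_lit 78) (nat_lit 76) (nat_lit 0) (XT.lf (nat_lit 0) (nat_lit 10674140747) (nat_lit 76) (nat_lit 104149255422) (nat_lit 76) (nat_lit 35746419144) (nat_lit 13) (nat_lit 4) (nat_lit 14) (nat_lit 5) (nat_lit 14) (nat_lit 4) (nat_lit 363) (nat_lit 314) (nat_lit 223)) (XT.nd (nat_lit 78) (nat_lit 76) (nat_lit 0) (XT.lf (nat_lit 0) (nat_lit 86363756707) (nat_lit 76) (nat_lit 71346284664) (nat_lit 76) (nat_lit 2938839738) (nat_lit 13) (nat_lit 4) (nat_lit 14) (nat_lit 5) (nat_lit 14) (nat_lit 4) (nat_lit 364) (nat_lit 314) (nat_lit 222)) (XT.lf (nat_lit 0) (nat_lit 31448201730) (nat_lit 152) (nat_lit 3942898643) (nat_lit 76) (nat_lit 136118064840) (nat_lit 12) (nat_lit 5) (nat_lit 14) (nat_lit 5) (nat_lit 13) (nat_lit 4) (nat_lit 365) (nat_lit 314) (nat_lit 221))))) (XT.nd (nat_lit 234) (nat_lit 152) (nat_lit 0)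 (XT.nd (nat_lit 78) (nat_lit 76) (nat_lit 0) (XT.lf (nat_lit 0) (nat_lit 69714111805) (nat_lit 152) (nat_lit 108903871653) (nat_lit 0) (nat_lit 4556337174) (nat_lit 11) (nat_lit 5) (nat_lit 13) (nat_lit 4) (nat_lit 11) (nat_lit 4) (nat_lit 366) (nat_lit 314) (nat_lit 220)) (XT.nd (nat_lit 78) (nat_lit 76) (nat_lit 0) (XT.lf (nat_lit 0) (nat_lit 111703241547) (nat_lit 152) (nat_lit 37494367765) (nat_lit 0) (nat_lit 46541982638) (nat_lit 11) (nat_lit 5) (nat_lit 13) (nat_lit 4) (nat_lit 11) (nat_lit 4) (nat_lit 367) (nat_lit 314) (nat_lit 219)) (XT.lf (nat_lit 0) (nat_lit 40929667210) (nat_lit 76) (nat_lit 116756583085) (nat_lit 76) (nat_lit 51592097991) (nat_lit 10) (nat_lit 4) (nat_lit 11) (nat_lit 5) (nat_lit 11) (nat_lit 4) (nat_lit 368) (nat_lit 314) (nat_lit 218)))) (XT.nd (nat_lit 78) (nat_lit 152) (nat_lit 0) (XT.lf (nat_lit 0) (nat_lit 126958660426) (nat_lit 76) (nat_lit 81038282761)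 (nat_lit 76) (nat_lit 15870810460) (nat_lit 10) (nat_lit 4) (nat_lit 11) (nat_lit 5) (nat_lit 11) (nat_lit 4) (nat_lit 369) (nat_lit 314) (nat_lit 217)) (XT.nd (nat_lit 78) (nat_lit 76) (nat_lit 0) (XT.lf (nat_lit 0) (nat_lit 21977532165) (nat_lit 152) (nat_lit 20116297295) (nat_lit 76) (nat_lit 197512947887) (nat_lit 9) (nat_lit 5) (nat_lit 11) (nat_lit 5) (nat_lit 10) (nat_lit 4) (nat_lit 370) (nat_lit 314) (nat_lit 216)) (XT.lf (nat_lit 0) (nat_lit 63330722812) (nat_lit 152) (nat_lit 191948150843) (nat_lit 0) (nat_lit 1261390163) (nat_lit 8) (nat_lit 5) (nat_lit 10) (nat_lit 4) (nat_lit 8) (nat_lit 4) (nat_lit 371) (nat_lit 314) (nat_lit 215)))))) (XT.nd (nat_lit 468) (nat_lit 152) (nat_lit 0) (XT.nd (nat_lit 234) (nat_lit 76) (nat_lit 0) (XT.nd (nat_lit 78) (nat_lit 76) (nat_lit 0) (XT.lf (nat_lit 0) (nat_lit 109054656906) (nat_lit 152) (nat_lit 118737582579) (nat_lit 0) (nat_lit 46983065836)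 (nat_lit 8) (nat_lit 5) (nat_lit 10) (nat_lit 4) (nat_lit 8) (nat_lit 4) (nat_lit 372) (nat_lit 314) (nat_lit 214)) (XT.nd (nat_lit 78) (nat_lit 76) (nat_lit 0) (XT.lf (nat_lit 0) (nat_lit 158433313080) (nat_lit 152) (nat_lit 39676366298) (nat_lit 0) (nat_lit 96359630880) (nat_lit 8) (nat_lit 5) (nat_lit 10) (nat_lit 4) (nat_lit 8) (nat_lit 4) (nat_lit 373) (nat_lit 314) (nat_lit 213)) (XT.lf (nat_lit 0) (nat_lit 47215189850) (nat_lit 76) (nat_lit 165281277179) (nat_lit 76) (nat_lit 103205658747) (nat_lit 7) (nat_lit 4) (nat_lit 8) (nat_lit 5) (nat_lit 8) (nat_lit 4) (nat_lit 374) (nat_lit 314) (nat_lit 212)))) (XT.nd (nat_lit 78) (nat_lit 76) (nat_lit 0) (XT.lf (nat_lit 0) (nat_lit 142469411740) (nat_lit 76) (nat_lit 129103575378) (nat_lit 76) (nat_lit 67026164139) (nat_lit 7) (nat_lit 4) (nat_lit 8) (nat_lit 5) (nat_lit 8) (nat_lit 4) (nat_lit 375) (nat_lit 314) (nat_lit 211)) (XT.nd (nat_lit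 78) (nat_lit 76) (nat_lit 0) (XT.lf (nat_lit 0) (nat_lit 245338888981) (nat_lit 76) (nat_lit 90034126056) (nat_lit 76) (nat_lit 27955054811) (nat_lit 7) (nat_lit 4) (nat_lit 8) (nat_lit 5) (nat_lit 8) (nat_lit 4) (nat_lit 376) (nat_lit 314) (nat_lit 210)) (XT.lf (nat_lit 0) (nat_lit 13783458354) (nat_lit 152) (nat_lit 33824518660) (nat_lit 76) (nat_lit 342416330585) (nat_lit 6) (nat_lit 5) (nat_lit 8) (nat_lit 5) (nat_lit 7) (nat_lit 4) (nat_lit 377) (nat_lit 314) (nat_lit 209))))) (XT.nd (nat_lit 234) (nat_lit 76) (nat_lit 0) (XT.nd (nat_lit 78) (nat_lit 0) (nat_lit 0) (XT.lf (nat_lit 0) (nat_lit 58468879554) (nat_lit 76) (nat_lit 336442899) (nat_lit 152) (nat_lit 359981824310) (nat_lit 5) (nat_lit 5) (nat_lit 6) (nat_lit 5) (nat_lit 7) (nat_lit 4) (nat_lit 378) (nat_lit 314) (nat_lit 208)) (XT.nd (nat_lit 78) (nat_lit 0) (nat_lit 0) (XT.lf (nat_lit 0) (nat_lit 108817419958) (nat_lit 152)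 (nat_lit 291273748497) (nat_lit 0) (nat_lit 49690420680) (nat_lit 5) (nat_lit 5) (nat_lit 7) (nat_lit 4) (nat_lit 5) (nat_lit 4) (nat_lit 379) (nat_lit 314) (nat_lit 207)) (XT.lf (nat_lit 0) (nat_lit 162834114183) (nat_lit 152) (nat_lit 216715338684) (nat_lit 0) (nat_lit 103705952853) (nat_lit 5) (nat_lit 5) (nat_lit 7) (nat_lit 4) (nat_lit 5) (nat_lit 4) (nat_lit 380) (nat_lit 314) (nat_lit 206)))) (XT.nd (nat_lit 78) (nat_lit 76) (nat_lit 0) (XT.lf (nat_lit 0) (nat_lit 221170251241) (nat_lit 152) (nat_lit 136195957337) (nat_lit 0) (nat_lit 162041013937) (nat_lit 5) (nat_lit 5) (nat_lit 7) (nat_lit 4) (nat_lit 5) (nat_lit 4) (nat_lit 381) (nat_lit 314) (nat_lit 205)) (XT.nd (nat_lit 78) (nat_lit 76) (nat_lit 0) (XT.lf (nat_lit 0) (nat_lit 284171526758) (nat_lit 152) (nat_lit 49238452569) (nat_lit 0) (nat_lit 225041293182) (nat_lit 5) (nat_lit 5) (nat_lit 7) (nat_lit 4) (nat_lit 5) (nat_lit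 4) (nat_lit 382) (nat_lit 314) (nat_lit 204)) (XT.lf (nat_lit 0) (nat_lit 46149553265) (nat_lit 76) (nat_lit 306782252222) (nat_lit 76) (nat_lit 247651096172) (nat_lit 4) (nat_lit 4) (nat_lit 5) (nat_lit 5) (nat_lit 5) (nat_lit 4) (nat_lit 383) (nat_lit 314) (nat_lit 203))))))))
noncomputable def xc74 : XT := (XT.nd (nat_lit 42666) (nat_lit 0) (nat_lit 1596) (XT.nd (nat_lit 41730) (nat_lit 0) (nat_lit 5320) (XT.nd (nat_lit 390) (nat_lit 152) (nat_lit 0) (XT.nd (nat_lit 156) (nat_lit 0) (nat_lit 0) (XT.nd (nat_lit 78) (nat_lit 0) (nat_lit 0) (XT.lf (nat_lit 0) (nat_lit 150923853502) (nat_lit 76) (nat_lit 277125205209) (nat_lit 76) (nat_lit 217993195016) (nat_lit 4) (nat_lit 4) (nat_lit 5) (nat_lit 5) (nat_lit 5) (nat_lit 4) (nat_lit 384) (nat_lit 314) (nat_lit 202)) (XT.lf (nat_lit 0) (nat_lit 264077287274) (nat_lit 76) (nat_lit 245096969845) (nat_lit 76) (nat_lit 185964168779) (nat_lit 4)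 (nat_lit 4) (nat_lit 5) (nat_lit 5) (nat_lit 5) (nat_lit 4) (nat_lit 385) (nat_lit 314) (nat_lit 201))) (XT.nd (nat_lit 78) (nat_lit 0) (nat_lit 0) (XT.lf (nat_lit 0) (nat_lit 386280393448) (nat_lit 76) (nat_lit 210507749179) (nat_lit 76) (nat_lit 151374215824) (nat_lit 4) (nat_lit 4) (nat_lit 5) (nat_lit 5) (nat_lit 5) (nat_lit 4) (nat_lit 386) (nat_lit 314) (nat_lit 200)) (XT.nd (nat_lit 78) (nat_lit 0) (nat_lit 0) (XT.lf (nat_lit 0) (nat_lit 518257338577) (nat_lit 76) (nat_lit 173152570052) (nat_lit 76) (nat_lit 114018358651) (nat_lit 4) (nat_lit 4) (nat_lit 5) (nat_lit 5) (nat_lit 5) (nat_lit 4) (nat_lit 387) (nat_lit 314) (nat_lit 199)) (XT.lf (nat_lit 0) (nat_lit 660790208264) (nat_lit 76) (nat_lit 132810068440) (nat_lit 76) (nat_lit 73675229218) (nat_lit 4) (nat_lit 4) (nat_lit 5) (nat_lit 5) (nat_lit 5) (nat_lit 4) (nat_lit 388) (nat_lit 314) (nat_lit 198))))) (XT.nd (nat_lit 41106)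 (nat_lit 0) (nat_lit 8284) (XT.nd (nat_lit 78) (nat_lit 152) (nat_lit 0) (XT.lf (nat_lit 0) (nat_lit 814723641736) (nat_lit 76) (nat_lit 89241177666) (nat_lit 76) (nat_lit 30105757129) (nat_lit 4) (nat_lit 4) (nat_lit 5) (nat_lit 5) (nat_lit 5) (nat_lit 4) (nat_lit 389) (nat_lit 314) (nat_lit 197)) (XT.nd (nat_lit 78) (nat_lit 76) (nat_lit 0) (XT.lf (nat_lit 0) (nat_lit 16405797329) (nat_lit 152) (nat_lit 25504074265) (nat_lit 76) (nat_lit 964286199672) (nat_lit 3) (nat_lit 5) (nat_lit 5) (nat_lit 5) (nat_lit 4) (nat_lit 4) (nat_lit 390) (nat_lit 314) (nat_lit 196)) (XT.lf (nat_lit 0) (nat_lit 66983797845) (nat_lit 152) (nat_lit 1006349754516) (nat_lit 0) (nat_lit 10663362440) (nat_lit 2) (nat_lit 5) (nat_lit 4) (nat_lit 4) (nat_lit 2) (nat_lit 4) (nat_lit 391) (nat_lit 314) (nat_lit 195)))) (XT.nd (nat_lit 78) (nat_lit 0) (nat_lit 0) (XT.lf (nat_lit 0) (nat_lit 2315794412) (nat_lit 0) (nat_lit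 2315794412) (nat_lit 684) (nat_lit 1963634256) (nat_lit 111) (nat_lit 5) (nat_lit 111) (nat_lit 3) (nat_lit 120) (nat_lit 3) (nat_lit 315) (nat_lit 315) (nat_lit 270)) (XT.nd (nat_lit 78) (nat_lit 0) (nat_lit 76) (XT.lf (nat_lit 76) (nat_lit 1405029501) (nat_lit 0) (nat_lit 8911639358) (nat_lit 760) (nat_lit 3366587845) (nat_lit 112) (nat_lit 5) (nat_lit 111) (nat_lit 5) (nat_lit 121) (nat_lit 5) (nat_lit 316) (nat_lit 315) (nat_lit 269)) (XT.lf (nat_lit 0) (nat_lit 11633307360) (nat_lit 684) (nat_lit 1861449769) (nat_lit 760) (nat_lit 711857504) (nat_lit 112) (nat_lit 5) (nat_lit 121) (nat_lit 5) (nat_lit 122) (nat_lit 5) (nat_lit 317) (nat_lit 315) (nat_lit 268)))))) (XT.nd (nat_lit 468) (nat_lit 1748) (nat_lit 0) (XT.nd (nat_lit 234) (nat_lit 684) (nat_lit 0) (XT.nd (nat_lit 78) (nat_lit 608) (nat_lit 0) (XT.lf (nat_lit 76) (nat_lit 9508339424) (nat_lit 0) (nat_lit 3791809657) (nat_lit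 760) (nat_lit 1459509564) (nat_lit 113) (nat_lit 5) (nat_lit 112) (nat_lit 5) (nat_lit 122) (nat_lit 5) (nat_lit 318) (nat_lit 315) (nat_lit 267)) (XT.nd (nat_lit 78) (nat_lit 684) (nat_lit 0) (XT.lf (nat_lit 76) (nat_lit 6568404836) (nat_lit 0) (nat_lit 8721751628) (nat_lit 760) (nat_lit 57355333) (nat_lit 114) (nat_lit 5) (nat_lit 113) (nat_lit 5) (nat_lit 123) (nat_lit 5) (nat_lit 319) (nat_lit 315) (nat_lit 266)) (XT.lf (nat_lit 0) (nat_lit 1605227652) (nat_lit 760) (nat_lit 12471187526) (nat_lit 836) (nat_lit 1895146078) (nat_lit 104) (nat_lit 5) (nat_lit 114) (nat_lit 5) (nat_lit 115) (nat_lit 5) (nat_lit 320) (nat_lit 315) (nat_lit 265)))) (XT.nd (nat_lit 78) (nat_lit 684) (nat_lit 0) (XT.lf (nat_lit 76) (nat_lit 258861362) (nat_lit 0) (nat_lit 3401936915) (nat_lit 836) (nat_lit 12971636019) (nat_lit 105) (nat_lit 5) (nat_lit 104) (nat_lit 5) (nat_lit 115) (nat_lit 5) (nat_lit 321)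 (nat_lit 315) (nat_lit 264)) (XT.nd (nat_lit 78) (nat_lit 760) (nat_lit 0) (XT.lf (nat_lit 0) (nat_lit 6186775798) (nat_lit 760) (nat_lit 3050449618) (nat_lit 76) (nat_lit 8093696444) (nat_lit 105) (nat_lit 5) (nat_lit 115) (nat_lit 5) (nat_lit 106) (nat_lit 5) (nat_lit 322) (nat_lit 315) (nat_lit 263)) (XT.lf (nat_lit 0) (nat_lit 9154049671) (nat_lit 836) (nat_lit 6495969524) (nat_lit 76) (nat_lit 2423347900) (nat_lit 95) (nat_lit 5) (nat_lit 106) (nat_lit 5) (nat_lit 96) (nat_lit 5) (nat_lit 323) (nat_lit 315) (nat_lit 262))))) (XT.nd (nat_lit 234) (nat_lit 608) (nat_lit 0) (XT.nd (nat_lit 78) (nat_lit 760) (nat_lit 0) (XT.lf (nat_lit 0) (nat_lit 8698652781) (nat_lit 380) (nat_lit 3969394870) (nat_lit 456) (nat_lit 6191729834) (nat_lit 90) (nat_lit 5) (nat_lit 95) (nat_lit 5) (nat_lit 96) (nat_lit 5) (nat_lit 324) (nat_lit 315) (nat_lit 261)) (XT.nd (nat_lit 78) (nat_lit 456) (nat_lit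 0) (XT.lf (nat_lit 0) (nat_lit 5646031369) (nat_lit 304) (nat_lit 11121216716) (nat_lit 380) (nat_lit 2926682419) (nat_lit 86) (nat_lit 5) (nat_lit 90) (nat_lit 5) (nat_lit 91) (nat_lit 5) (nat_lit 325) (nat_lit 315) (nat_lit 260)) (XT.lf (nat_lit 0) (nat_lit 858381803) (nat_lit 456) (nat_lit 18147761176) (nat_lit 76) (nat_lit 1574334511) (nat_lit 80) (nat_lit 5) (nat_lit 86) (nat_lit 5) (nat_lit 81) (nat_lit 5) (nat_lit 326) (nat_lit 315) (nat_lit 259)))) (XT.nd (nat_lit 78) (nat_lit 608) (nat_lit 0) (XT.lf (nat_lit 0) (nat_lit 5250562708) (nat_lit 456) (nat_lit 1067970881) (nat_lit 76) (nat_lit 15196701017) (nat_lit 80) (nat_lit 5) (nat_lit 86) (nat_lit 5) (nat_lit 81) (nat_lit 5) (nat_lit 327) (nat_lit 315) (nat_lit 258)) (XT.nd (nat_lit 78) (nat_lit 304) (nat_lit 0) (XT.lf (nat_lit 0) (nat_lit 10365221594) (nat_lit 380) (nat_lit 4712531035) (nat_lit 76) (nat_lit 7428490139) (nat_lit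 76) (nat_lit 5) (nat_lit 81) (nat_lit 5) (nat_lit 77) (nat_lit 5) (nat_lit 328) (nat_lit 315) (nat_lit 257)) (XT.lf (nat_lit 0) (nat_lit 14966925984) (nat_lit 304) (nat_lit 1254335340) (nat_lit 380) (nat_lit 7338683604) (nat_lit 72) (nat_lit 5) (nat_lit 76) (nat_lit 5) (nat_lit 77) (nat_lit 5) (nat_lit 329) (nat_lit 315) (nat_lit 256))))))) (XT.nd (nat_lit 936) (nat_lit 1292) (nat_lit 0) (XT.nd (nat_lit 468) (nat_lit 1064) (nat_lit 0) (XT.nd (nat_lit 234) (nat_lit 532) (nat_lit 0) (XT.nd (nat_lit 78) (nat_lit 608) (nat_lit 0) (XT.lf (nat_lit 0) (nat_lit 11826929844) (nat_lit 228) (nat_lit 11174958346) (nat_lit 304) (nat_lit 1673271866) (nat_lit 69) (nat_lit 5) (nat_lit 72) (nat_lit 5) (nat_lit 73) (nat_lit 5) (nat_lit 330) (nat_lit 315) (nat_lit 255)) (XT.nd (nat_lit 78) (nat_lit 228) (nat_lit 0) (XT.lf (nat_lit 0) (nat_lit 4644543044) (nat_lit 380) (nat_lit 17460980458) (nat_lit 76) (nat_lit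 3753545551) (nat_lit 64) (nat_lit 5) (nat_lit 69) (nat_lit 5) (nat_lit 65) (nat_lit 5) (nat_lit 331) (nat_lit 315) (nat_lit 254)) (XT.lf (nat_lit 0) (nat_lit 4571331567) (nat_lit 228) (nat_lit 7302638170) (nat_lit 304) (nat_lit 15239126963) (nat_lit 61) (nat_lit 5) (nat_lit 64) (nat_lit 5) (nat_lit 65) (nat_lit 5) (nat_lit 332) (nat_lit 315) (nat_lit 253)))) (XT.nd (nat_lit 78) (nat_lit 304) (nat_lit 0) (XT.lf (nat_lit 0) (nat_lit 378320021) (nat_lit 228) (nat_lit 19731956550) (nat_lit 304) (nat_lit 8335760314) (nat_lit 58) (nat_lit 5) (nat_lit 61) (nat_lit 5) (nat_lit 62) (nat_lit 5) (nat_lit 333) (nat_lit 315) (nat_lit 252)) (XT.nd (nat_lit 78) (nat_lit 304) (nat_lit 0) (XT.lf (nat_lit 0) (nat_lit 25780370107) (nat_lit 228) (nat_lit 3717994931) (nat_lit 304) (nat_lit 362618789) (nat_lit 58) (nat_lit 5) (nat_lit 61) (nat_lit 5) (nat_lit 62) (nat_lit 5) (nat_lit 334) (nat_lit 315) (nat_lit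 251)) (XT.lf (nat_lit 0) (nat_lit 8533844251) (nat_lit 304) (nat_lit 9200637814) (nat_lit 76) (nat_lit 13620745538) (nat_lit 54) (nat_lit 5) (nat_lit 58) (nat_lit 5) (nat_lit 55) (nat_lit 5) (nat_lit 335) (nat_lit 315) (nat_lit 250))))) (XT.nd (nat_lit 234) (nat_lit 380) (nat_lit 0) (XT.nd (nat_lit 78) (nat_lit 456) (nat_lit 0) (XT.lf (nat_lit 0) (nat_lit 18152396790) (nat_lit 228) (nat_lit 376644639) (nat_lit 304) (nat_lit 14419698719) (nat_lit 51) (nat_lit 5) (nat_lit 54) (nat_lit 5) (nat_lit 55) (nat_lit 5) (nat_lit 336) (nat_lit 315) (nat_lit 249)) (XT.nd (nat_lit 78) (nat_lit 304) (nat_lit 0) (XT.lf (nat_lit 0) (nat_lit 13475300967) (nat_lit 152) (nat_lit 16490693682) (nat_lit 228) (nat_lit 4671643676) (nat_lit 49) (nat_lit 5) (nat_lit 51) (nat_lit 5) (nat_lit 52) (nat_lit 5) (nat_lit 337) (nat_lit 315) (nat_lit 248)) (XT.lf (nat_lit 0) (nat_lit 6082164317) (nat_lit 304) (nat_lit 28249078482)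 (nat_lit 76) (nat_lit 2105176926) (nat_lit 45) (nat_lit 5) (nat_lit 49) (nat_lit 5) (nat_lit 46) (nat_lit 5) (nat_lit 338) (nat_lit 315) (nat_lit 247)))) (XT.nd (nat_lit 78) (nat_lit 228) (nat_lit 0) (XT.lf (nat_lit 0) (nat_lit 1953658311) (nat_lit 152) (nat_lit 16247813876) (nat_lit 228) (nat_lit 20140368394) (nat_lit 43) (nat_lit 5) (nat_lit 45) (nat_lit 5) (nat_lit 46) (nat_lit 5) (nat_lit 339) (nat_lit 315) (nat_lit 246)) (XT.nd (nat_lit 78) (nat_lit 228) (nat_lit 0) (XT.lf (nat_lit 0) (nat_lit 31825849513) (nat_lit 228) (nat_lit 4878560255) (nat_lit 76) (nat_lit 3668517897) (nat_lit 43) (nat_lit 5) (nat_lit 46) (nat_lit 5) (nat_lit 44) (nat_lit 5) (nat_lit 340) (nat_lit 315) (nat_lit 245)) (XT.lf (nat_lit 0) (nat_lit 4583030125) (nat_lit 228) (nat_lit 12795926460) (nat_lit 76) (nat_lit 25147624017) (nat_lit 40) (nat_lit 5) (nat_lit 43) (nat_lit 5) (nat_lit 41) (nat_lit 5) (nat_lit 341)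 (nat_lit 315) (nat_lit 244)))))) (XT.nd (nat_lit 468) (nat_lit 532) (nat_lit 0) (XT.nd (nat_lit 234) (nat_lit 304) (nat_lit 0) (XT.nd (nat_lit 78) (nat_lit 304) (nat_lit 0) (XT.lf (nat_lit 0) (nat_lit 18963466157) (nat_lit 228) (nat_lit 21885669561) (nat_lit 76) (nat_lit 3971423086) (nat_lit 38) (nat_lit 5) (nat_lit 41) (nat_lit 5) (nat_lit 39) (nat_lit 5) (nat_lit 342) (nat_lit 315) (nat_lit 243)) (XT.nd (nat_lit 78) (nat_lit 152) (nat_lit 0) (XT.lf (nat_lit 0) (nat_lit 14850164634) (nat_lit 152) (nat_lit 20381995177) (nat_lit 228) (nat_lit 12029010966) (nat_lit 36) (nat_lit 5) (nat_lit 38) (nat_lit 5) (nat_lit 39) (nat_lit 5) (nat_lit 343) (nat_lit 315) (nat_lit 242)) (XT.lf (nat_lit 0) (nat_lit 3308275990) (nat_lit 152) (nat_lit 44375228044) (nat_lit 76) (nat_lit 2186468182) (nat_lit 34) (nat_lit 5) (nat_lit 36) (nat_lit 5) (nat_lit 35) (nat_lit 5) (nat_lit 344) (nat_lit 315) (nat_lit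 241)))) (XT.nd (nat_lit 78) (nat_lit 304) (nat_lit 0) (XT.lf (nat_lit 0) (nat_lit 20361596077) (nat_lit 152) (nat_lit 5646302993) (nat_lit 76) (nat_lit 26624199881) (nat_lit 34) (nat_lit 5) (nat_lit 36) (nat_lit 5) (nat_lit 35) (nat_lit 5) (nat_lit 345) (nat_lit 315) (nat_lit 240)) (XT.nd (nat_lit 78) (nat_lit 152) (nat_lit 0) (XT.lf (nat_lit 0) (nat_lit 37356550175) (nat_lit 152) (nat_lit 1994151708) (nat_lit 228) (nat_lit 16235922965) (nat_lit 32) (nat_lit 5) (nat_lit 34) (nat_lit 5) (nat_lit 35) (nat_lit 5) (nat_lit 346) (nat_lit 315) (nat_lit 239)) (XT.lf (nat_lit 0) (nat_lit 1923969866) (nat_lit 152) (nat_lit 33110610137) (nat_lit 76) (nat_lit 23698235106) (nat_lit 30) (nat_lit 5) (nat_lit 32) (nat_lit 5) (nat_lit 31) (nat_lit 5) (nat_lit 347) (nat_lit 315) (nat_lit 238))))) (XT.nd (nat_lit 234) (nat_lit 304) (nat_lit 0) (XT.nd (nat_lit 78) (nat_lit 76) (nat_lit 0) (XT.lf (nat_lit 0)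 (nat_lit 11557024104) (nat_lit 152) (nat_lit 9944317784) (nat_lit 228) (nat_lit 40589378906) (nat_lit 28) (nat_lit 5) (nat_lit 30) (nat_lit 5) (nat_lit 31) (nat_lit 5) (nat_lit 348) (nat_lit 315) (nat_lit 237)) (XT.nd (nat_lit 78) (nat_lit 76) (nat_lit 0) (XT.lf (nat_lit 0) (nat_lit 43488419411) (nat_lit 228) (nat_lit 5003925197) (nat_lit 76) (nat_lit 17182742341) (nat_lit 28) (nat_lit 5) (nat_lit 31) (nat_lit 5) (nat_lit 29) (nat_lit 4) (nat_lit 349) (nat_lit 315) (nat_lit 236)) (XT.lf (nat_lit 0) (nat_lit 45437538581) (nat_lit 76) (nat_lit 22664276156) (nat_lit 152) (nat_lit 1401023600) (nat_lit 27) (nat_lit 5) (nat_lit 28) (nat_lit 5) (nat_lit 29) (nat_lit 4) (nat_lit 350) (nat_lit 315) (nat_lit 235)))) (XT.nd (nat_lit 78) (nat_lit 76) (nat_lit 0) (XT.lf (nat_lit 0) (nat_lit 20969459700) (nat_lit 228) (nat_lit 46713553646) (nat_lit 76) (nat_lit 5907587175) (nat_lit 24) (nat_lit 5) (nat_lit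 27) (nat_lit 5) (nat_lit 25) (nat_lit 4) (nat_lit 351) (nat_lit 315) (nat_lit 234)) (XT.nd (nat_lit 78) (nat_lit 0) (nat_lit 0) (XT.lf (nat_lit 0) (nat_lit 4484118474) (nat_lit 76) (nat_lit 41466186878) (nat_lit 152) (nat_lit 32010442385) (nat_lit 23) (nat_lit 5) (nat_lit 24) (nat_lit 5) (nat_lit 25) (nat_lit 4) (nat_lit 352) (nat_lit 315) (nat_lit 233)) (XT.lf (nat_lit 0) (nat_lit 61429979897) (nat_lit 76) (nat_lit 12304693929) (nat_lit 152) (nat_lit 8905582808) (nat_lit 23) (nat_lit 5) (nat_lit 24) (nat_lit 5) (nat_lit 25) (nat_lit 4) (nat_lit 353) (nat_lit 315) (nat_lit 232))))))))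
noncomputable def xc75 : XT := (XT.nd (nat_lit 1794) (nat_lit 304) (nat_lit 0) (XT.nd (nat_lit 858) (nat_lit 456) (nat_lit 0) (XT.nd (nat_lit 390) (nat_lit 380) (nat_lit 0) (XT.nd (nat_lit 156) (nat_lit 152) (nat_lit 0) (XT.nd (nat_lit 78) (nat_lit 76) (nat_lit 0) (XT.lf (nat_lit 0) (nat_lit 16402802340) (nat_lit 152) (nat_lit 51838350011) (nat_lit 76) (nat_lit 19397010671) (nat_lit 21) (nat_lit 5) (nat_lit 23) (nat_lit 5) (nat_lit 22) (nat_lit 4) (nat_lit 354) (nat_lit 315) (nat_lit 231)) (XT.lf (nat_lit 0) (nat_lit 4888969743) (nat_lit 76) (nat_lit 39190512902) (nat_lit 152) (nat_lit 48916340165) (nat_lit 20) (nat_lit 5) (nat_lit 21) (nat_lit 5) (nat_lit 22) (nat_lit 4) (nat_lit 355) (nat_lit 315) (nat_lit 230))) (XT.nd (nat_lit 78) (nat_lit 152) (nat_lit 0) (XT.lf (nat_lit 0) (nat_lit 67991735450) (nat_lit 76) (nat_lit 6874044319) (nat_lit 152) (nat_lit 23871543502) (nat_lit 20) (nat_lit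 5) (nat_lit 21) (nat_lit 5) (nat_lit 22) (nat_lit 4) (nat_lit 356) (nat_lit 315) (nat_lit 229)) (XT.nd (nat_lit 78) (nat_lit 0) (nat_lit 0) (XT.lf (nat_lit 0) (nat_lit 4016924271) (nat_lit 152) (nat_lit 73185856850) (nat_lit 76) (nat_lit 27685796157) (nat_lit 18) (nat_lit 5) (nat_lit 20) (nat_lit 5) (nat_lit 19) (nat_lit 4) (nat_lit 357) (nat_lit 315) (nat_lit 228)) (XT.lf (nat_lit 0) (nat_lit 33964735279) (nat_lit 152) (nat_lit 11800309987) (nat_lit 76) (nat_lit 65714090723) (nat_lit 18) (nat_lit 5) (nat_lit 20) (nat_lit 5) (nat_lit 19) (nat_lit 4) (nat_lit 358) (nat_lit 315) (nat_lit 227))))) (XT.nd (nat_lit 234) (nat_lit 152) (nat_lit 0) (XT.nd (nat_lit 78) (nat_lit 152) (nat_lit 0) (XT.lf (nat_lit 0) (nat_lit 56285763056) (nat_lit 76) (nat_lit 10895062825) (nat_lit 152) (nat_lit 51372492303) (nat_lit 17) (nat_lit 5) (nat_lit 18) (nat_lit 5) (nat_lit 19) (nat_lit 4) (nat_lit 359) (nat_lit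 315) (nat_lit 226)) (XT.nd (nat_lit 78) (nat_lit 76) (nat_lit 0) (XT.lf (nat_lit 0) (nat_lit 3744022326) (nat_lit 76) (nat_lit 99989314705) (nat_lit 76) (nat_lit 22426142667) (nat_lit 16) (nat_lit 4) (nat_lit 17) (nat_lit 5) (nat_lit 17) (nat_lit 4) (nat_lit 360) (nat_lit 315) (nat_lit 225)) (XT.lf (nat_lit 0) (nat_lit 9833333008) (nat_lit 152) (nat_lit 57410483672) (nat_lit 76) (nat_lit 67059409898) (nat_lit 15) (nat_lit 5) (nat_lit 17) (nat_lit 5) (nat_lit 16) (nat_lit 4) (nat_lit 361) (nat_lit 315) (nat_lit 224)))) (XT.nd (nat_lit 78) (nat_lit 76) (nat_lit 0) (XT.lf (nat_lit 0) (nat_lit 12816565784) (nat_lit 76) (nat_lit 31276413888) (nat_lit 152) (nat_lit 98976856817) (nat_lit 14) (nat_lit 5) (nat_lit 15) (nat_lit 5) (nat_lit 16) (nat_lit 4) (nat_lit 362) (nat_lit 315) (nat_lit 223)) (XT.nd (nat_lit 78) (nat_lit 76) (nat_lit 0) (XT.lf (nat_lit 0) (nat_lit 82222697087) (nat_lit 152) (nat_lit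 61920566300) (nat_lit 0) (nat_lit 8338047921) (nat_lit 14) (nat_lit 5) (nat_lit 16) (nat_lit 4) (nat_lit 14) (nat_lit 4) (nat_lit 363) (nat_lit 315) (nat_lit 222)) (XT.lf (nat_lit 0) (nat_lit 11717019914) (nat_lit 76) (nat_lit 112391165958) (nat_lit 76) (nat_lit 38502249526) (nat_lit 13) (nat_lit 4) (nat_lit 14) (nat_lit 5) (nat_lit 14) (nat_lit 4) (nat_lit 364) (nat_lit 315) (nat_lit 221)))))) (XT.nd (nat_lit 468) (nat_lit 228) (nat_lit 0) (XT.nd (nat_lit 234) (nat_lit 76) (nat_lit 0) (XT.nd (nat_lit 78) (nat_lit 152) (nat_lit 0) (XT.lf (nat_lit 0) (nat_lit 93447809009) (nat_lit 76) (nat_lit 76970626420) (nat_lit 76) (nat_lit 3077758816) (nat_lit 13) (nat_lit 4) (nat_lit 14) (nat_lit 5) (nat_lit 14) (nat_lit 4) (nat_lit 365) (nat_lit 315) (nat_lit 220)) (XT.nd (nat_lit 78) (nat_lit 76) (nat_lit 0) (XT.lf (nat_lit 0) (nat_lit 34050270351) (nat_lit 152) (nat_lit 4093471874) (nat_lit 76) (nat_lit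 147081829870) (nat_lit 12) (nat_lit 5) (nat_lit 14) (nat_lit 5) (nat_lit 13) (nat_lit 4) (nat_lit 366) (nat_lit 315) (nat_lit 219)) (XT.lf (nat_lit 0) (nat_lit 75374706464) (nat_lit 152) (nat_lit 117455535609) (nat_lit 0) (nat_lit 4993836379) (nat_lit 11) (nat_lit 5) (nat_lit 13) (nat_lit 4) (nat_lit 11) (nat_lit 4) (nat_lit 367) (nat_lit 315) (nat_lit 218)))) (XT.nd (nat_lit 78) (nat_lit 76) (nat_lit 0) (XT.lf (nat_lit 0) (nat_lit 120716783939) (nat_lit 152) (nat_lit 40345171097) (nat_lit 0) (nat_lit 50332926647) (nat_lit 11) (nat_lit 5) (nat_lit 13) (nat_lit 4) (nat_lit 11) (nat_lit 4) (nat_lit 368) (nat_lit 315) (nat_lit 217)) (XT.nd (nat_lit 78) (nat_lit 0) (nat_lit 0) (XT.lf (nat_lit 0) (nat_lit 44346322353) (nat_lit 76) (nat_lit 126028607779) (nat_lit 76) (nat_lit 55641984555) (nat_lit 10) (nat_lit 4) (nat_lit 11) (nat_lit 5) (nat_lit 11) (nat_lit 4) (nat_lit 369) (nat_lit 315) (nat_lit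 216)) (XT.lf (nat_lit 0) (nat_lit 137247095635) (nat_lit 76) (nat_lit 87457917649) (nat_lit 76) (nat_lit 17068733375) (nat_lit 10) (nat_lit 4) (nat_lit 11) (nat_lit 5) (nat_lit 11) (nat_lit 4) (nat_lit 370) (nat_lit 315) (nat_lit 215))))) (XT.nd (nat_lit 234) (nat_lit 76) (nat_lit 0) (XT.nd (nat_lit 78) (nat_lit 76) (nat_lit 0) (XT.lf (nat_lit 0) (nat_lit 23800036342) (nat_lit 152) (nat_lit 21601481112) (nat_lit 76) (nat_lit 213370576816) (nat_lit 9) (nat_lit 5) (nat_lit 11) (nat_lit 5) (nat_lit 10) (nat_lit 4) (nat_lit 371) (nat_lit 315) (nat_lit 214)) (XT.nd (nat_lit 78) (nat_lit 0) (nat_lit 0) (XT.lf (nat_lit 0) (nat_lit 68459467943) (nat_lit 152) (nat_lit 207183093150) (nat_lit 0) (nat_lit 1417800037) (nat_lit 8) (nat_lit 5) (nat_lit 10) (nat_lit 4) (nat_lit 8) (nat_lit 4) (nat_lit 372) (nat_lit 315) (nat_lit 213)) (XT.lf (nat_lit 0) (nat_lit 117836702889) (nat_lit 152) (nat_lit 128124635703)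 (nat_lit 0) (nat_lit 50793098752) (nat_lit 8) (nat_lit 5) (nat_lit 10) (nat_lit 4) (nat_lit 8) (nat_lit 4) (nat_lit 373) (nat_lit 315) (nat_lit 212)))) (XT.nd (nat_lit 78) (nat_lit 76) (nat_lit 0) (XT.lf (nat_lit 0) (nat_lit 171161379452) (nat_lit 152) (nat_lit 42746814970) (nat_lit 0) (nat_lit 104115982507) (nat_lit 8) (nat_lit 5) (nat_lit 10) (nat_lit 4) (nat_lit 8) (nat_lit 4) (nat_lit 374) (nat_lit 315) (nat_lit 211)) (XT.nd (nat_lit 78) (nat_lit 0) (nat_lit 0) (XT.lf (nat_lit 0) (nat_lit 51091560704) (nat_lit 76) (nat_lit 178455617455) (nat_lit 76) (nat_lit 111408560504) (nat_lit 7) (nat_lit 4) (nat_lit 8) (nat_lit 5) (nat_lit 8) (nat_lit 4) (nat_lit 375) (nat_lit 315) (nat_lit 210)) (XT.lf (nat_lit 0) (nat_lit 153958775482) (nat_lit 76) (nat_lit 139387267058) (nat_lit 76) (nat_lit 72338673064) (nat_lit 7) (nat_lit 4) (nat_lit 8) (nat_lit 5) (nat_lit 8) (nat_lit 4) (nat_lit 376) (nat_lit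 315) (nat_lit 209))))))) (XT.nd (nat_lit 936) (nat_lit 76) (nat_lit 0) (XT.nd (nat_lit 468) (nat_lit 76) (nat_lit 0) (XT.nd (nat_lit 234) (nat_lit 0) (nat_lit 0) (XT.nd (nat_lit 78) (nat_lit 152) (nat_lit 0) (XT.lf (nat_lit 0) (nat_lit 265051010102) (nat_lit 76) (nat_lit 97195565076) (nat_lit 76) (nat_lit 30145547894) (nat_lit 7) (nat_lit 4) (nat_lit 8) (nat_lit 5) (nat_lit 8) (nat_lit 4) (nat_lit 377) (nat_lit 315) (nat_lit 208)) (XT.nd (nat_lit 78) (nat_lit 76) (nat_lit 0) (XT.lf (nat_lit 0) (nat_lit 14927284887) (nat_lit 152) (nat_lit 36450400929) (nat_lit 76) (nat_lit 369846503240) (nat_lit 6) (nat_lit 5) (nat_lit 8) (nat_lit 5) (nat_lit 7) (nat_lit 4) (nat_lit 378) (nat_lit 315) (nat_lit 207)) (XT.lf (nat_lit 0) (nat_lit 63222988997) (nat_lit 76) (nat_lit 326056905) (nat_lit 152) (nat_lit 388739102480) (nat_lit 5) (nat_lit 5) (nat_lit 6) (nat_lit 5) (nat_lit 7) (nat_lit 4) (nat_lit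 379) (nat_lit 315) (nat_lit 206)))) (XT.nd (nat_lit 78) (nat_lit 0) (nat_lit 0) (XT.lf (nat_lit 0) (nat_lit 117559739511) (nat_lit 152) (nat_lit 314503438358) (nat_lit 0) (nat_lit 53699087248) (nat_lit 5) (nat_lit 5) (nat_lit 7) (nat_lit 4) (nat_lit 5) (nat_lit 4) (nat_lit 380) (nat_lit 315) (nat_lit 205)) (XT.nd (nat_lit 78) (nat_lit 0) (nat_lit 0) (XT.lf (nat_lit 0) (nat_lit 175895034018) (nat_lit 152) (nat_lit 233985704649) (nat_lit 0) (nat_lit 112033385484) (nat_lit 5) (nat_lit 5) (nat_lit 7) (nat_lit 4) (nat_lit 5) (nat_lit 4) (nat_lit 381) (nat_lit 315) (nat_lit 204)) (XT.lf (nat_lit 0) (nat_lit 238895529396) (nat_lit 152) (nat_lit 147029725471) (nat_lit 0) (nat_lit 175032958388) (nat_lit 5) (nat_lit 5) (nat_lit 7) (nat_lit 4) (nat_lit 5) (nat_lit 4) (nat_lit 382) (nat_lit 315) (nat_lit 203))))) (XT.nd (nat_lit 234) (nat_lit 0) (nat_lit 0) (XT.nd (nat_lit 78) (nat_lit 76) (nat_lit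 0) (XT.lf (nat_lit 0) (nat_lit 306934561913) (nat_lit 152) (nat_lit 53120206133) (nat_lit 0) (nat_lit 243071136763) (nat_lit 5) (nat_lit 5) (nat_lit 7) (nat_lit 4) (nat_lit 5) (nat_lit 4) (nat_lit 383) (nat_lit 315) (nat_lit 202)) (XT.nd (nat_lit 78) (nat_lit 0) (nat_lit 0) (XT.lf (nat_lit 0) (nat_lit 49896348996) (nat_lit 76) (nat_lit 331297998683) (nat_lit 76) (nat_lit 267433782660) (nat_lit 4) (nat_lit 4) (nat_lit 5) (nat_lit 5) (nat_lit 5) (nat_lit 4) (nat_lit 384) (nat_lit 315) (nat_lit 201)) (XT.lf (nat_lit 0) (nat_lit 163048531662) (nat_lit 76) (nat_lit 299270375592) (nat_lit 76) (nat_lit 235405427278) (nat_lit 4) (nat_lit 4) (nat_lit 5) (nat_lit 5) (nat_lit 5) (nat_lit 4) (nat_lit 385) (nat_lit 315) (nat_lit 200)))) (XT.nd (nat_lit 78) (nat_lit 0) (nat_lit 0) (XT.lf (nat_lit 0) (nat_lit 285250479404) (nat_lit 76) (nat_lit 264681721845) (nat_lit 76) (nat_lit 200816095486) (nat_lit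 4) (nat_lit 4) (nat_lit 5) (nat_lit 5) (nat_lit 5) (nat_lit 4) (nat_lit 386) (nat_lit 315) (nat_lit 199)) (XT.nd (nat_lit 78) (nat_lit 0) (nat_lit 0) (XT.lf (nat_lit 0) (nat_lit 417226351912) (nat_lit 76) (nat_lit 227327067644) (nat_lit 76) (nat_lit 163460813464) (nat_lit 4) (nat_lit 4) (nat_lit 5) (nat_lit 5) (nat_lit 5) (nat_lit 4) (nat_lit 387) (nat_lit 315) (nat_lit 198)) (XT.lf (nat_lit 0) (nat_lit 559758228430) (nat_lit 76) (nat_lit 186985052074) (nat_lit 76) (nat_lit 123118216579) (nat_lit 4) (nat_lit 4) (nat_lit 5) (nat_lit 5) (nat_lit 5) (nat_lit 4) (nat_lit 388) (nat_lit 315) (nat_lit 197)))))) (XT.nd (nat_lit 41418) (nat_lit 0) (nat_lit 6992) (XT.nd (nat_lit 41184) (nat_lit 0) (nat_lit 8208) (XT.nd (nat_lit 78) (nat_lit 76) (nat_lit 0) (XT.lf (nat_lit 0) (nat_lit 713690742302) (nat_lit 76) (nat_lit 143416611339) (nat_lit 76) (nat_lit 79549237589) (nat_lit 4) (nat_lit 4) (nat_lit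 5) (nat_lit 5) (nat_lit 5) (nat_lit 4) (nat_lit 389) (nat_lit 315) (nat_lit 196)) (XT.nd (nat_lit 78) (nat_lit 76) (nat_lit 0) (XT.lf (nat_lit 0) (nat_lit 879936086202) (nat_lit 76) (nat_lit 96363562086) (nat_lit 76) (nat_lit 32495689952) (nat_lit 4) (nat_lit 4) (nat_lit 5) (nat_lit 5) (nat_lit 5) (nat_lit 4) (nat_lit 390) (nat_lit 315) (nat_lit 195)) (XT.lf (nat_lit 0) (nat_lit 17734867360) (nat_lit 152) (nat_lit 27511855512) (nat_lit 76) (nat_lit 1041444201803) (nat_lit 3) (nat_lit 5) (nat_lit 5) (nat_lit 5) (nat_lit 4) (nat_lit 4) (nat_lit 391) (nat_lit 315) (nat_lit 194)))) (XT.nd (nat_lit 78) (nat_lit 0) (nat_lit 0) (XT.lf (nat_lit 0) (nat_lit 2786240259) (nat_lit 0) (nat_lit 2786240259) (nat_lit 684) (nat_lit 1521198933) (nat_lit 111) (nat_lit 5) (nat_lit 111) (nat_lit 3) (nat_lit 120) (nat_lit 3) (nat_lit 316) (nat_lit 316) (nat_lit 268)) (XT.nd (nat_lit 78) (nat_lit 0) (nat_lit 76)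 (XT.lf (nat_lit 76) (nat_lit 2127315396) (nat_lit 0) (nat_lit 10072194320) (nat_lit 760) (nat_lit 2524340960) (nat_lit 112) (nat_lit 5) (nat_lit 111) (nat_lit 5) (nat_lit 121) (nat_lit 5) (nat_lit 317) (nat_lit 316) (nat_lit 267)) (XT.lf (nat_lit 0) (nat_lit 13536674436) (nat_lit 684) (nat_lit 1389126157) (nat_lit 760) (nat_lit 367605126) (nat_lit 112) (nat_lit 5) (nat_lit 121) (nat_lit 5) (nat_lit 122) (nat_lit 5) (nat_lit 318) (nat_lit 316) (nat_lit 266))))) (XT.nd (nat_lit 234) (nat_lit 608) (nat_lit 0) (XT.nd (nat_lit 78) (nat_lit 684) (nat_lit 0) (XT.lf (nat_lit 76) (nat_lit 10863247856) (nat_lit 0) (nat_lit 4410841375) (nat_lit 760) (nat_lit 619824436) (nat_lit 113) (nat_lit 5) (nat_lit 112) (nat_lit 5) (nat_lit 122) (nat_lit 5) (nat_lit 319) (nat_lit 316) (nat_lit 265)) (XT.nd (nat_lit 78) (nat_lit 0) (nat_lit 76) (XT.lf (nat_lit 0) (nat_lit 802454695) (nat_lit 760) (nat_lit 8833425553)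 (nat_lit 836) (nat_lit 6895459474) (nat_lit 103) (nat_lit 5) (nat_lit 113) (nat_lit 5) (nat_lit 114) (nat_lit 5) (nat_lit 320) (nat_lit 316) (nat_lit 264)) (XT.lf (nat_lit 0) (nat_lit 2538887117) (nat_lit 760) (nat_lit 12805760598) (nat_lit 836) (nat_lit 1863542508) (nat_lit 104) (nat_lit 5) (nat_lit 114) (nat_lit 5) (nat_lit 115) (nat_lit 5) (nat_lit 321) (nat_lit 316) (nat_lit 263)))) (XT.nd (nat_lit 78) (nat_lit 684) (nat_lit 0) (XT.lf (nat_lit 76) (nat_lit 913873731) (nat_lit 0) (nat_lit 3795285417) (nat_lit 836) (nat_lit 13215322939) (nat_lit 105) (nat_lit 5) (nat_lit 104) (nat_lit 5) (nat_lit 115) (nat_lit 5) (nat_lit 322) (nat_lit 316) (nat_lit 262)) (XT.nd (nat_lit 78) (nat_lit 760) (nat_lit 0) (XT.lf (nat_lit 0) (nat_lit 7379500117) (nat_lit 760) (nat_lit 2669723936) (nat_lit 76) (nat_lit 8632567532) (nat_lit 105) (nat_lit 5) (nat_lit 115) (nat_lit 5) (nat_lit 106) (nat_lit 5) (nat_lit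 323) (nat_lit 316) (nat_lit 261)) (XT.lf (nat_lit 0) (nat_lit 10540896046) (nat_lit 836) (nat_lit 6383700957) (nat_lit 76) (nat_lit 2561251386) (nat_lit 95) (nat_lit 5) (nat_lit 106) (nat_lit 5) (nat_lit 96) (nat_lit 5) (nat_lit 324) (nat_lit 316) (nat_lit 260))))))))
noncomputable def xc76 : XT := (XT.nd (nat_lit 1794) (nat_lit 1672) (nat_lit 0) (XT.nd (nat_lit 858) (nat_lit 1976) (nat_lit 0) (XT.nd (nat_lit 390) (nat_lit 1368) (nat_lit 0) (XT.nd (nat_lit 156) (nat_lit 760) (nat_lit 0) (XT.nd (nat_lit 78) (nat_lit 304) (nat_lit 0) (XT.lf (nat_lit 0) (nat_lit 9999027524) (nat_lit 380) (nat_lit 4297940866) (nat_lit 456) (nat_lit 6040204527) (nat_lit 90) (nat_lit 5) (nat_lit 95) (nat_lit 5) (nat_lit 96) (nat_lit 5) (nat_lit 325) (nat_lit 316) (nat_lit 259)) (XT.lf (nat_lit 0) (nat_lit 6706113255) (nat_lit 304) (nat_lit 11981740601) (nat_lit 380) (nat_lit 2552062272) (nat_lit 86) (nat_lit 5)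 (nat_lit 90) (nat_lit 5) (nat_lit 91) (nat_lit 5) (nat_lit 326) (nat_lit 316) (nat_lit 258))) (XT.nd (nat_lit 78) (nat_lit 304) (nat_lit 0) (XT.lf (nat_lit 0) (nat_lit 1482778370) (nat_lit 456) (nat_lit 18970937875) (nat_lit 76) (nat_lit 1744912685) (nat_lit 80) (nat_lit 5) (nat_lit 86) (nat_lit 5) (nat_lit 81) (nat_lit 5) (nat_lit 327) (nat_lit 316) (nat_lit 257)) (XT.nd (nat_lit 78) (nat_lit 304) (nat_lit 0) (XT.lf (nat_lit 0) (nat_lit 6185168857) (nat_lit 456) (nat_lit 571330593) (nat_lit 76) (nat_lit 16453762481) (nat_lit 80) (nat_lit 5) (nat_lit 86) (nat_lit 5) (nat_lit 81) (nat_lit 5) (nat_lit 328) (nat_lit 316) (nat_lit 256)) (XT.lf (nat_lit 0) (nat_lit 11680696285) (nat_lit 380) (nat_lit 4509184525) (nat_lit 76) (nat_lit 8092119468) (nat_lit 76) (nat_lit 5) (nat_lit 81) (nat_lit 5) (nat_lit 77) (nat_lit 5) (nat_lit 329) (nat_lit 316) (nat_lit 255))))) (XT.nd (nat_lit 234) (nat_lit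 456) (nat_lit 0) (XT.nd (nat_lit 78) (nat_lit 608) (nat_lit 0) (XT.lf (nat_lit 0) (nat_lit 16719407795) (nat_lit 304) (nat_lit 1258459464) (nat_lit 380) (nat_lit 7443530732) (nat_lit 72) (nat_lit 5) (nat_lit 76) (nat_lit 5) (nat_lit 77) (nat_lit 5) (nat_lit 330) (nat_lit 316) (nat_lit 254)) (XT.nd (nat_lit 78) (nat_lit 380) (nat_lit 0) (XT.lf (nat_lit 0) (nat_lit 13324977864) (nat_lit 228) (nat_lit 11951981075) (nat_lit 304) (nat_lit 1350100085) (nat_lit 69) (nat_lit 5) (nat_lit 72) (nat_lit 5) (nat_lit 73) (nat_lit 5) (nat_lit 331) (nat_lit 316) (nat_lit 253)) (XT.lf (nat_lit 0) (nat_lit 5436145240) (nat_lit 380) (nat_lit 18296331252) (nat_lit 76) (nat_lit 4173991764) (nat_lit 64) (nat_lit 5) (nat_lit 69) (nat_lit 5) (nat_lit 65) (nat_lit 5) (nat_lit 332) (nat_lit 316) (nat_lit 252)))) (XT.nd (nat_lit 78) (nat_lit 228) (nat_lit 0) (XT.lf (nat_lit 0) (nat_lit 5474162428) (nat_lit 228) (nat_lit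 7747035675) (nat_lit 304) (nat_lit 16040780438) (nat_lit 61) (nat_lit 5) (nat_lit 64) (nat_lit 5) (nat_lit 65) (nat_lit 5) (nat_lit 333) (nat_lit 316) (nat_lit 251)) (XT.nd (nat_lit 78) (nat_lit 0) (nat_lit 0) (XT.lf (nat_lit 0) (nat_lit 939568683) (nat_lit 228) (nat_lit 21157721692) (nat_lit 304) (nat_lit 8605241770) (nat_lit 58) (nat_lit 5) (nat_lit 61) (nat_lit 5) (nat_lit 62) (nat_lit 5) (nat_lit 334) (nat_lit 316) (nat_lit 250)) (XT.lf (nat_lit 0) (nat_lit 28334450697) (nat_lit 228) (nat_lit 3873961023) (nat_lit 304) (nat_lit 23684432) (nat_lit 58) (nat_lit 5) (nat_lit 61) (nat_lit 5) (nat_lit 62) (nat_lit 5) (nat_lit 335) (nat_lit 316) (nat_lit 249)))))) (XT.nd (nat_lit 468) (nat_lit 836) (nat_lit 0) (XT.nd (nat_lit 234) (nat_lit 456) (nat_lit 0) (XT.nd (nat_lit 78) (nat_lit 380) (nat_lit 0) (XT.lf (nat_lit 0) (nat_lit 9556114070) (nat_lit 304) (nat_lit 9440068400) (nat_lit 76) (nat_lit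 14850258149) (nat_lit 54) (nat_lit 5) (nat_lit 58) (nat_lit 5) (nat_lit 55) (nat_lit 5) (nat_lit 336) (nat_lit 316) (nat_lit 248)) (XT.nd (nat_lit 78) (nat_lit 152) (nat_lit 0) (XT.lf (nat_lit 0) (nat_lit 20079626453) (nat_lit 228) (nat_lit 253564481) (nat_lit 304) (nat_lit 15235146859) (nat_lit 51) (nat_lit 5) (nat_lit 54) (nat_lit 5) (nat_lit 55) (nat_lit 5) (nat_lit 337) (nat_lit 316) (nat_lit 247)) (XT.lf (nat_lit 0) (nat_lit 15021023407) (nat_lit 152) (nat_lit 17649754984) (nat_lit 228) (nat_lit 4722301109) (nat_lit 49) (nat_lit 5) (nat_lit 51) (nat_lit 5) (nat_lit 52) (nat_lit 5) (nat_lit 338) (nat_lit 316) (nat_lit 246)))) (XT.nd (nat_lit 78) (nat_lit 152) (nat_lit 0) (XT.lf (nat_lit 0) (nat_lit 6867957077) (nat_lit 304) (nat_lit 30039065913) (nat_lit 76) (nat_lit 2429177655) (nat_lit 45) (nat_lit 5) (nat_lit 49) (nat_lit 5) (nat_lit 46) (nat_lit 5) (nat_lit 339) (nat_lit 316) (nat_lit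 245)) (XT.nd (nat_lit 78) (nat_lit 0) (nat_lit 0) (XT.lf (nat_lit 0) (nat_lit 2559466855) (nat_lit 152) (nat_lit 17382196510) (nat_lit 228) (nat_lit 21453161832) (nat_lit 43) (nat_lit 5) (nat_lit 45) (nat_lit 5) (nat_lit 46) (nat_lit 5) (nat_lit 340) (nat_lit 316) (nat_lit 244)) (XT.lf (nat_lit 0) (nat_lit 34637340088) (nat_lit 228) (nat_lit 4841719622) (nat_lit 76) (nat_lit 4110283851) (nat_lit 43) (nat_lit 5) (nat_lit 46) (nat_lit 5) (nat_lit 44) (nat_lit 5) (nat_lit 341) (nat_lit 316) (nat_lit 243))))) (XT.nd (nat_lit 234) (nat_lit 304) (nat_lit 0) (XT.nd (nat_lit 78) (nat_lit 304) (nat_lit 0) (XT.lf (nat_lit 0) (nat_lit 5206078401) (nat_lit 228) (nat_lit 13402429746) (nat_lit 76) (nat_lit 27307248816) (nat_lit 40) (nat_lit 5) (nat_lit 43) (nat_lit 5) (nat_lit 41) (nat_lit 5) (nat_lit 342) (nat_lit 316) (nat_lit 242)) (XT.nd (nat_lit 78) (nat_lit 152) (nat_lit 0) (XT.lf (nat_lit 0) (nat_lit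 20726612638) (nat_lit 228) (nat_lit 23227605902) (nat_lit 76) (nat_lit 4439561328) (nat_lit 38) (nat_lit 5) (nat_lit 41) (nat_lit 5) (nat_lit 39) (nat_lit 5) (nat_lit 343) (nat_lit 316) (nat_lit 241)) (XT.lf (nat_lit 0) (nat_lit 16429323984) (nat_lit 152) (nat_lit 21855357341) (nat_lit 228) (nat_lit 12745574399) (nat_lit 36) (nat_lit 5) (nat_lit 38) (nat_lit 5) (nat_lit 39) (nat_lit 5) (nat_lit 344) (nat_lit 316) (nat_lit 240)))) (XT.nd (nat_lit 78) (nat_lit 152) (nat_lit 0) (XT.lf (nat_lit 0) (nat_lit 3801597126) (nat_lit 152) (nat_lit 47534492326) (nat_lit 76) (nat_lit 2511949460) (nat_lit 34) (nat_lit 5) (nat_lit 36) (nat_lit 5) (nat_lit 35) (nat_lit 5) (nat_lit 345) (nat_lit 316) (nat_lit 239)) (XT.nd (nat_lit 78) (nat_lit 152) (nat_lit 0) (XT.lf (nat_lit 0) (nat_lit 22202245112) (nat_lit 152) (nat_lit 5736198008) (nat_lit 76) (nat_lit 28893546820) (nat_lit 34) (nat_lit 5) (nat_lit 36)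 (nat_lit 5) (nat_lit 35) (nat_lit 5) (nat_lit 346) (nat_lit 316) (nat_lit 238)) (XT.lf (nat_lit 0) (nat_lit 40691159625) (nat_lit 152) (nat_lit 2009040059) (nat_lit 228) (nat_lit 17323198941) (nat_lit 32) (nat_lit 5) (nat_lit 34) (nat_lit 5) (nat_lit 35) (nat_lit 5) (nat_lit 347) (nat_lit 316) (nat_lit 237))))))) (XT.nd (nat_lit 858) (nat_lit 608) (nat_lit 0) (XT.nd (nat_lit 390) (nat_lit 456) (nat_lit 0) (XT.nd (nat_lit 156) (nat_lit 304) (nat_lit 0) (XT.nd (nat_lit 78) (nat_lit 152) (nat_lit 0) (XT.lf (nat_lit 0) (nat_lit 2275039057) (nat_lit 152) (nat_lit 35414266371) (nat_lit 76) (nat_lit 25732203122) (nat_lit 30) (nat_lit 5) (nat_lit 32) (nat_lit 5) (nat_lit 31) (nat_lit 5) (nat_lit 348) (nat_lit 316) (nat_lit 236)) (XT.lf (nat_lit 0) (nat_lit 12811776961) (nat_lit 152) (nat_lit 10597375263) (nat_lit 228) (nat_lit 43639372391) (nat_lit 28) (nat_lit 5) (nat_lit 30) (nat_lit 5) (nat_lit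 31) (nat_lit 5) (nat_lit 349) (nat_lit 316) (nat_lit 235))) (XT.nd (nat_lit 78) (nat_lit 304) (nat_lit 0) (XT.lf (nat_lit 0) (nat_lit 47143351873) (nat_lit 228) (nat_lit 5091813162) (nat_lit 76) (nat_lit 18685072320) (nat_lit 28) (nat_lit 5) (nat_lit 31) (nat_lit 5) (nat_lit 29) (nat_lit 4) (nat_lit 350) (nat_lit 316) (nat_lit 234)) (XT.nd (nat_lit 78) (nat_lit 228) (nat_lit 0) (XT.lf (nat_lit 0) (nat_lit 49371390063) (nat_lit 76) (nat_lit 24346068037) (nat_lit 152) (nat_lit 1337173502) (nat_lit 27) (nat_lit 5) (nat_lit 28) (nat_lit 5) (nat_lit 29) (nat_lit 4) (nat_lit 351) (nat_lit 316) (nat_lit 233)) (XT.lf (nat_lit 0) (nat_lit 22811265755) (nat_lit 228) (nat_lit 50153188716) (nat_lit 76) (nat_lit 6505129693) (nat_lit 24) (nat_lit 5) (nat_lit 27) (nat_lit 5) (nat_lit 25) (nat_lit 4) (nat_lit 352) (nat_lit 316) (nat_lit 232))))) (XT.nd (nat_lit 234) (nat_lit 228) (nat_lit 0) (XT.nd (nat_lit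 78) (nat_lit 152) (nat_lit 0) (XT.lf (nat_lit 0) (nat_lit 5127370393) (nat_lit 76) (nat_lit 44655484246) (nat_lit 152) (nat_lit 34406878588) (nat_lit 23) (nat_lit 5) (nat_lit 24) (nat_lit 5) (nat_lit 25) (nat_lit 4) (nat_lit 353) (nat_lit 316) (nat_lit 231)) (XT.nd (nat_lit 78) (nat_lit 152) (nat_lit 0) (XT.lf (nat_lit 0) (nat_lit 66607824994) (nat_lit 76) (nat_lit 13170553164) (nat_lit 152) (nat_lit 9465807962) (nat_lit 23) (nat_lit 5) (nat_lit 24) (nat_lit 5) (nat_lit 25) (nat_lit 4) (nat_lit 354) (nat_lit 316) (nat_lit 230)) (XT.lf (nat_lit 0) (nat_lit 17857284053) (nat_lit 152) (nat_lit 55723473211) (nat_lit 76) (nat_lit 21061306661) (nat_lit 21) (nat_lit 5) (nat_lit 23) (nat_lit 5) (nat_lit 22) (nat_lit 4) (nat_lit 355) (nat_lit 316) (nat_lit 229)))) (XT.nd (nat_lit 78) (nat_lit 152) (nat_lit 0) (XT.lf (nat_lit 0) (nat_lit 5530648322) (nat_lit 76) (nat_lit 42210824825) (nat_lit 152)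 (nat_lit 52687197538) (nat_lit 20) (nat_lit 5) (nat_lit 21) (nat_lit 5) (nat_lit 22) (nat_lit 4) (nat_lit 356) (nat_lit 316) (nat_lit 228)) (XT.nd (nat_lit 78) (nat_lit 152) (nat_lit 0) (XT.lf (nat_lit 0) (nat_lit 73663075212) (nat_lit 76) (nat_lit 7317552023) (nat_lit 152) (nat_lit 25649368982) (nat_lit 20) (nat_lit 5) (nat_lit 21) (nat_lit 5) (nat_lit 22) (nat_lit 4) (nat_lit 357) (nat_lit 316) (nat_lit 227)) (XT.lf (nat_lit 0) (nat_lit 4461652911) (nat_lit 152) (nat_lit 78810248622) (nat_lit 76) (nat_lit 30001563509) (nat_lit 18) (nat_lit 5) (nat_lit 20) (nat_lit 5) (nat_lit 19) (nat_lit 4) (nat_lit 358) (nat_lit 316) (nat_lit 226)))))) (XT.nd (nat_lit 468) (nat_lit 304) (nat_lit 0) (XT.nd (nat_lit 234) (nat_lit 152) (nat_lit 0) (XT.nd (nat_lit 78) (nat_lit 152) (nat_lit 0) (XT.lf (nat_lit 0) (nat_lit 36796149934) (nat_lit 152) (nat_lit 12530930364) (nat_lit 76) (nat_lit 71064647294)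 (nat_lit 18) (nat_lit 5) (nat_lit 20) (nat_lit 5) (nat_lit 19) (nat_lit 4) (nat_lit 359) (nat_lit 316) (nat_lit 225)) (XT.nd (nat_lit 78) (nat_lit 76) (nat_lit 0) (XT.lf (nat_lit 0) (nat_lit 60992754227) (nat_lit 76) (nat_lit 11671498686) (nat_lit 152) (nat_lit 55367857228) (nat_lit 17) (nat_lit 5) (nat_lit 18) (nat_lit 5) (nat_lit 19) (nat_lit 4) (nat_lit 360) (nat_lit 316) (nat_lit 224)) (XT.lf (nat_lit 0) (nat_lit 4242617334) (nat_lit 76) (nat_lit 107894760323) (nat_lit 76) (nat_lit 24109568169) (nat_lit 16) (nat_lit 4) (nat_lit 17) (nat_lit 5) (nat_lit 17) (nat_lit 4) (nat_lit 361) (nat_lit 316) (nat_lit 223)))) (XT.nd (nat_lit 78) (nat_lit 76) (nat_lit 0) (XT.lf (nat_lit 0) (nat_lit 10719188455) (nat_lit 152) (nat_lit 61815694899) (nat_lit 76) (nat_lit 72507621130) (nat_lit 15) (nat_lit 5) (nat_lit 17) (nat_lit 5) (nat_lit 16) (nat_lit 4) (nat_lit 362) (nat_lit 316) (nat_lit 222)) (XT.nd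 (nat_lit 78) (nat_lit 0) (nat_lit 0) (XT.lf (nat_lit 0) (nat_lit 14021364453) (nat_lit 76) (nat_lit 33693697163) (nat_lit 152) (nat_lit 106795610372) (nat_lit 14) (nat_lit 5) (nat_lit 15) (nat_lit 5) (nat_lit 16) (nat_lit 4) (nat_lit 363) (nat_lit 316) (nat_lit 221)) (XT.lf (nat_lit 0) (nat_lit 88889372115) (nat_lit 152) (nat_lit 66704859387) (nat_lit 0) (nat_lit 9081123931) (nat_lit 14) (nat_lit 5) (nat_lit 16) (nat_lit 4) (nat_lit 14) (nat_lit 4) (nat_lit 364) (nat_lit 316) (nat_lit 220))))) (XT.nd (nat_lit 234) (nat_lit 152) (nat_lit 0) (XT.nd (nat_lit 78) (nat_lit 76) (nat_lit 0) (XT.lf (nat_lit 0) (nat_lit 12816373882) (nat_lit 76) (nat_lit 121305273108) (nat_lit 76) (nat_lit 41493366431) (nat_lit 13) (nat_lit 4) (nat_lit 14) (nat_lit 5) (nat_lit 14) (nat_lit 4) (nat_lit 365) (nat_lit 316) (nat_lit 219)) (XT.nd (nat_lit 78) (nat_lit 76) (nat_lit 0) (XT.lf (nat_lit 0) (nat_lit 101073626671)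 (nat_lit 76) (nat_lit 83056807897) (nat_lit 76) (nat_lit 3241513728) (nat_lit 13) (nat_lit 4) (nat_lit 14) (nat_lit 5) (nat_lit 14) (nat_lit 4) (nat_lit 366) (nat_lit 316) (nat_lit 218)) (XT.lf (nat_lit 0) (nat_lit 36848205288) (nat_lit 152) (nat_lit 4279609895) (nat_lit 76) (nat_lit 158912093546) (nat_lit 12) (nat_lit 5) (nat_lit 14) (nat_lit 5) (nat_lit 13) (nat_lit 4) (nat_lit 367) (nat_lit 316) (nat_lit 217)))) (XT.nd (nat_lit 78) (nat_lit 76) (nat_lit 0) (XT.lf (nat_lit 0) (nat_lit 81476241378) (nat_lit 152) (nat_lit 126714250597) (nat_lit 0) (nat_lit 5455922362) (nat_lit 11) (nat_lit 5) (nat_lit 13) (nat_lit 4) (nat_lit 11) (nat_lit 4) (nat_lit 368) (nat_lit 316) (nat_lit 216)) (XT.nd (nat_lit 78) (nat_lit 76) (nat_lit 0) (XT.lf (nat_lit 0) (nat_lit 130440384429) (nat_lit 152) (nat_lit 43445258987) (nat_lit 0) (nat_lit 54417504365) (nat_lit 11) (nat_lit 5) (nat_lit 13) (nat_lit 4)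 (nat_lit 11) (nat_lit 4) (nat_lit 369) (nat_lit 316) (nat_lit 215)) (XT.lf (nat_lit 0) (nat_lit 48016011823) (nat_lit 76) (nat_lit 136052167019) (nat_lit 76) (nat_lit 60026915613) (nat_lit 10) (nat_lit 4) (nat_lit 11) (nat_lit 5) (nat_lit 11) (nat_lit 4) (nat_lit 370) (nat_lit 316) (nat_lit 214))))))))
noncomputable def xc77 : XT := (XT.nd (nat_lit 42822) (nat_lit 0) (nat_lit 2964) (XT.nd (nat_lit 858) (nat_lit 76) (nat_lit 0) (XT.nd (nat_lit 390) (nat_lit 228) (nat_lit 0) (XT.nd (nat_lit 156) (nat_lit 76) (nat_lit 0) (XT.nd (nat_lit 78) (nat_lit 76) (nat_lit 0) (XT.lf (nat_lit 0) (nat_lit 148339811139) (nat_lit 76) (nat_lit 94400172002) (nat_lit 76) (nat_lit 18372724910) (nat_lit 10) (nat_lit 4) (nat_lit 11) (nat_lit 5) (nat_lit 11) (nat_lit 4) (nat_lit 371) (nat_lit 316) (nat_lit 213)) (XT.lf (nat_lit 0) (nat_lit 25759167511) (nat_lit 152) (nat_lit 23223186736) (nat_lit 76) (nat_lit 230488742422)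 (nat_lit 9) (nat_lit 5) (nat_lit 11) (nat_lit 5) (nat_lit 10) (nat_lit 4) (nat_lit 372) (nat_lit 316) (nat_lit 212))) (XT.nd (nat_lit 78) (nat_lit 0) (nat_lit 0) (XT.lf (nat_lit 0) (nat_lit 73989626703) (nat_lit 152) (nat_lit 223654079971) (nat_lit 0) (nat_lit 1578805196) (nat_lit 8) (nat_lit 5) (nat_lit 10) (nat_lit 4) (nat_lit 8) (nat_lit 4) (nat_lit 373) (nat_lit 316) (nat_lit 211)) (XT.nd (nat_lit 78) (nat_lit 0) (nat_lit 0) (XT.lf (nat_lit 0) (nat_lit 127313084792) (nat_lit 152) (nat_lit 138278624493) (nat_lit 0) (nat_lit 54900603279) (nat_lit 8) (nat_lit 5) (nat_lit 10) (nat_lit 4) (nat_lit 8) (nat_lit 4) (nat_lit 374) (nat_lit 316) (nat_lit 210)) (XT.lf (nat_lit 0) (nat_lit 184900072837) (nat_lit 152) (nat_lit 46077687884) (nat_lit 0) (nat_lit 112486054281) (nat_lit 8) (nat_lit 5) (nat_lit 10) (nat_lit 4) (nat_lit 8) (nat_lit 4) (nat_lit 375) (nat_lit 316) (nat_lit 209))))) (XT.nd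 (nat_lit 234) (nat_lit 152) (nat_lit 0) (XT.nd (nat_lit 78) (nat_lit 0) (nat_lit 0) (XT.lf (nat_lit 0) (nat_lit 55263895563) (nat_lit 76) (nat_lit 192690775787) (nat_lit 76) (nat_lit 120275334043) (nat_lit 7) (nat_lit 4) (nat_lit 8) (nat_lit 5) (nat_lit 8) (nat_lit 4) (nat_lit 376) (nat_lit 316) (nat_lit 208)) (XT.nd (nat_lit 78) (nat_lit 0) (nat_lit 0) (XT.lf (nat_lit 0) (nat_lit 166354190485) (nat_lit 76) (nat_lit 150500015956) (nat_lit 76) (nat_lit 78083256445) (nat_lit 7) (nat_lit 4) (nat_lit 8) (nat_lit 5) (nat_lit 8) (nat_lit 4) (nat_lit 377) (nat_lit 316) (nat_lit 207)) (XT.lf (nat_lit 0) (nat_lit 286327973286) (nat_lit 76) (nat_lit 104935809850) (nat_lit 76) (nat_lit 32517830185) (nat_lit 7) (nat_lit 4) (nat_lit 8) (nat_lit 5) (nat_lit 8) (nat_lit 4) (nat_lit 378) (nat_lit 316) (nat_lit 206)))) (XT.nd (nat_lit 78) (nat_lit 76) (nat_lit 0) (XT.lf (nat_lit 0) (nat_lit 16156747054)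 (nat_lit 152) (nat_lit 39297777975) (nat_lit 76) (nat_lit 399465830330) (nat_lit 6) (nat_lit 5) (nat_lit 8) (nat_lit 5) (nat_lit 7) (nat_lit 4) (nat_lit 379) (nat_lit 316) (nat_lit 205)) (XT.nd (nat_lit 78) (nat_lit 0) (nat_lit 0) (XT.lf (nat_lit 0) (nat_lit 68346499480) (nat_lit 76) (nat_lit 320161496) (nat_lit 152) (nat_lit 419802850213) (nat_lit 5) (nat_lit 5) (nat_lit 6) (nat_lit 5) (nat_lit 7) (nat_lit 4) (nat_lit 380) (nat_lit 316) (nat_lit 204)) (XT.lf (nat_lit 0) (nat_lit 126996176727) (nat_lit 152) (nat_lit 339601804973) (nat_lit 0) (nat_lit 58023677564) (nat_lit 5) (nat_lit 5) (nat_lit 7) (nat_lit 4) (nat_lit 5) (nat_lit 4) (nat_lit 381) (nat_lit 316) (nat_lit 203)))))) (XT.nd (nat_lit 468) (nat_lit 0) (nat_lit 0) (XT.nd (nat_lit 234) (nat_lit 76) (nat_lit 0) (XT.nd (nat_lit 78) (nat_lit 0) (nat_lit 0) (XT.lf (nat_lit 0) (nat_lit 189995949754) (nat_lit 152) (nat_lit 252647238379)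 (nat_lit 0) (nat_lit 121022596448) (nat_lit 5) (nat_lit 5) (nat_lit 7) (nat_lit 4) (nat_lit 5) (nat_lit 4) (nat_lit 382) (nat_lit 316) (nat_lit 202)) (XT.nd (nat_lit 78) (nat_lit 0) (nat_lit 0) (XT.lf (nat_lit 0) (nat_lit 258034313427) (nat_lit 152) (nat_lit 158739026989) (nat_lit 0) (nat_lit 189060169249) (nat_lit 5) (nat_lit 5) (nat_lit 7) (nat_lit 4) (nat_lit 5) (nat_lit 4) (nat_lit 383) (nat_lit 316) (nat_lit 201)) (XT.lf (nat_lit 0) (nat_lit 331514458052) (nat_lit 152) (nat_lit 57320677698) (nat_lit 0) (nat_lit 262539581583) (nat_lit 5) (nat_lit 5) (nat_lit 7) (nat_lit 4) (nat_lit 5) (nat_lit 4) (nat_lit 384) (nat_lit 316) (nat_lit 200)))) (XT.nd (nat_lit 78) (nat_lit 0) (nat_lit 0) (XT.lf (nat_lit 0) (nat_lit 53935066063) (nat_lit 76) (nat_lit 357778832991) (nat_lit 76) (nat_lit 288803278477) (nat_lit 4) (nat_lit 4) (nat_lit 5) (nat_lit 5) (nat_lit 5) (nat_lit 4) (nat_lit 385) (nat_lit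 316) (nat_lit 199)) (XT.nd (nat_lit 78) (nat_lit 0) (nat_lit 0) (XT.lf (nat_lit 0) (nat_lit 176135941183) (nat_lit 76) (nat_lit 323190704170) (nat_lit 76) (nat_lit 254214521835) (nat_lit 4) (nat_lit 4) (nat_lit 5) (nat_lit 5) (nat_lit 5) (nat_lit 4) (nat_lit 386) (nat_lit 316) (nat_lit 198)) (XT.lf (nat_lit 0) (nat_lit 308110820523) (nat_lit 76) (nat_lit 285836536010) (nat_lit 76) (nat_lit 216859772361) (nat_lit 4) (nat_lit 4) (nat_lit 5) (nat_lit 5) (nat_lit 5) (nat_lit 4) (nat_lit 387) (nat_lit 316) (nat_lit 197))))) (XT.nd (nat_lit 234) (nat_lit 0) (nat_lit 0) (XT.nd (nat_lit 78) (nat_lit 0) (nat_lit 0) (XT.lf (nat_lit 0) (nat_lit 450641777441) (nat_lit 76) (nat_lit 245494970479) (nat_lit 76) (nat_lit 176517668574) (nat_lit 4) (nat_lit 4) (nat_lit 5) (nat_lit 5) (nat_lit 5) (nat_lit 4) (nat_lit 388) (nat_lit 316) (nat_lit 196)) (XT.nd (nat_lit 78) (nat_lit 0) (nat_lit 0) (XT.lf (nat_lit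 0) (nat_lit 604573439832) (nat_lit 76) (nat_lit 201926946446) (nat_lit 76) (nat_lit 132949146158) (nat_lit 4) (nat_lit 4) (nat_lit 5) (nat_lit 5) (nat_lit 5) (nat_lit 4) (nat_lit 389) (nat_lit 316) (nat_lit 195)) (XT.lf (nat_lit 0) (nat_lit 770817995322) (nat_lit 76) (nat_lit 154874283030) (nat_lit 76) (nat_lit 85896021275) (nat_lit 4) (nat_lit 4) (nat_lit 5) (nat_lit 5) (nat_lit 5) (nat_lit 4) (nat_lit 390) (nat_lit 316) (nat_lit 194)))) (XT.nd (nat_lit 41106) (nat_lit 0) (nat_lit 8132) (XT.lf (nat_lit 0) (nat_lit 950360596835) (nat_lit 76) (nat_lit 104058149631) (nat_lit 76) (nat_lit 35079460592) (nat_lit 4) (nat_lit 4) (nat_lit 5) (nat_lit 5) (nat_lit 5) (nat_lit 4) (nat_lit 391) (nat_lit 316) (nat_lit 193)) (XT.nd (nat_lit 78) (nat_lit 0) (nat_lit 0) (XT.lf (nat_lit 0) (nat_lit 3253637331) (nat_lit 0) (nat_lit 3253637331) (nat_lit 684) (nat_lit 1128897880) (nat_lit 111) (nat_lit 5) (nat_lit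 111) (nat_lit 3) (nat_lit 120) (nat_lit 3) (nat_lit 317) (nat_lit 317) (nat_lit 266)) (XT.lf (nat_lit 76) (nat_lit 2820377458) (nat_lit 0) (nat_lit 11261735139) (nat_lit 760) (nat_lit 1773292769) (nat_lit 112) (nat_lit 5) (nat_lit 111) (nat_lit 5) (nat_lit 121) (nat_lit 5) (nat_lit 318) (nat_lit 317) (nat_lit 265))))))) (XT.nd (nat_lit 936) (nat_lit 2508) (nat_lit 0) (XT.nd (nat_lit 468) (nat_lit 1976) (nat_lit 0) (XT.nd (nat_lit 234) (nat_lit 0) (nat_lit 152) (XT.nd (nat_lit 78) (nat_lit 760) (nat_lit 0) (XT.lf (nat_lit 0) (nat_lit 15453543994) (nat_lit 684) (nat_lit 967643429) (nat_lit 760) (nat_lit 53048363) (nat_lit 112) (nat_lit 5) (nat_lit 121) (nat_lit 5) (nat_lit 122) (nat_lit 5) (nat_lit 319) (nat_lit 317) (nat_lit 264)) (XT.nd (nat_lit 78) (nat_lit 0) (nat_lit 76) (XT.lf (nat_lit 0) (nat_lit 145768052) (nat_lit 760) (nat_lit 4886122653) (nat_lit 836) (nat_lit 12093537096) (nat_lit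 102) (nat_lit 5) (nat_lit 112) (nat_lit 5) (nat_lit 113) (nat_lit 5) (nat_lit 320) (nat_lit 317) (nat_lit 263)) (XT.lf (nat_lit 0) (nat_lit 1606033675) (nat_lit 760) (nat_lit 8985364643) (nat_lit 836) (nat_lit 7224707349) (nat_lit 103) (nat_lit 5) (nat_lit 113) (nat_lit 5) (nat_lit 114) (nat_lit 5) (nat_lit 321) (nat_lit 317) (nat_lit 262)))) (XT.nd (nat_lit 78) (nat_lit 0) (nat_lit 0) (XT.lf (nat_lit 0) (nat_lit 3432362672) (nat_lit 760) (nat_lit 13261701273) (nat_lit 836) (nat_lit 1855548356) (nat_lit 104) (nat_lit 5) (nat_lit 114) (nat_lit 5) (nat_lit 115) (nat_lit 5) (nat_lit 322) (nat_lit 317) (nat_lit 261)) (XT.nd (nat_lit 78) (nat_lit 0) (nat_lit 76) (XT.lf (nat_lit 76) (nat_lit 1530796608) (nat_lit 0) (nat_lit 4202812183) (nat_lit 836) (nat_lit 13591784062) (nat_lit 105) (nat_lit 5) (nat_lit 104) (nat_lit 5) (nat_lit 115) (nat_lit 5) (nat_lit 323) (nat_lit 317) (nat_lit 260)) (XT.lf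 (nat_lit 0) (nat_lit 8568095943) (nat_lit 760) (nat_lit 2347669433) (nat_lit 76) (nat_lit 9230044825) (nat_lit 105) (nat_lit 5) (nat_lit 115) (nat_lit 5) (nat_lit 106) (nat_lit 5) (nat_lit 324) (nat_lit 317) (nat_lit 259))))) (XT.nd (nat_lit 234) (nat_lit 760) (nat_lit 0) (XT.nd (nat_lit 78) (nat_lit 684) (nat_lit 0) (XT.lf (nat_lit 0) (nat_lit 11945315194) (nat_lit 836) (nat_lit 6352605085) (nat_lit 76) (nat_lit 2718171090) (nat_lit 95) (nat_lit 5) (nat_lit 106) (nat_lit 5) (nat_lit 96) (nat_lit 5) (nat_lit 325) (nat_lit 317) (nat_lit 258)) (XT.nd (nat_lit 78) (nat_lit 304) (nat_lit 0) (XT.lf (nat_lit 0) (nat_lit 11317196057) (nat_lit 380) (nat_lit 4651202067) (nat_lit 456) (nat_lit 5968839533) (nat_lit 90) (nat_lit 5) (nat_lit 95) (nat_lit 5) (nat_lit 96) (nat_lit 5) (nat_lit 326) (nat_lit 317) (nat_lit 257)) (XT.lf (nat_lit 0) (nat_lit 7764206720) (nat_lit 304) (nat_lit 12915268316) (nat_lit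 380) (nat_lit 2234318184) (nat_lit 86) (nat_lit 5) (nat_lit 90) (nat_lit 5) (nat_lit 91) (nat_lit 5) (nat_lit 327) (nat_lit 317) (nat_lit 256)))) (XT.nd (nat_lit 78) (nat_lit 304) (nat_lit 0) (XT.lf (nat_lit 0) (nat_lit 2077846132) (nat_lit 456) (nat_lit 19949651832) (nat_lit 76) (nat_lit 1922769943) (nat_lit 80) (nat_lit 5) (nat_lit 86) (nat_lit 5) (nat_lit 81) (nat_lit 5) (nat_lit 328) (nat_lit 317) (nat_lit 255)) (XT.nd (nat_lit 78) (nat_lit 304) (nat_lit 0) (XT.lf (nat_lit 0) (nat_lit 7121135599) (nat_lit 456) (nat_lit 117999010) (nat_lit 76) (nat_lit 17805493335) (nat_lit 80) (nat_lit 5) (nat_lit 86) (nat_lit 5) (nat_lit 81) (nat_lit 5) (nat_lit 329) (nat_lit 317) (nat_lit 254)) (XT.lf (nat_lit 0) (nat_lit 13032038960) (nat_lit 380) (nat_lit 4372363567) (nat_lit 76) (nat_lit 8798945574) (nat_lit 76) (nat_lit 5) (nat_lit 81) (nat_lit 5) (nat_lit 77) (nat_lit 5) (nat_lit 330) (nat_lit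 317) (nat_lit 253)))))) (XT.nd (nat_lit 468) (nat_lit 1064) (nat_lit 0) (XT.nd (nat_lit 234) (nat_lit 532) (nat_lit 0) (XT.nd (nat_lit 78) (nat_lit 608) (nat_lit 0) (XT.lf (nat_lit 0) (nat_lit 18532892974) (nat_lit 304) (nat_lit 1276640762) (nat_lit 380) (nat_lit 7625563637) (nat_lit 72) (nat_lit 5) (nat_lit 76) (nat_lit 5) (nat_lit 77) (nat_lit 5) (nat_lit 331) (nat_lit 317) (nat_lit 252)) (XT.nd (nat_lit 78) (nat_lit 380) (nat_lit 0) (XT.lf (nat_lit 0) (nat_lit 14864135929) (nat_lit 228) (nat_lit 12807853263) (nat_lit 304) (nat_lit 1066275504) (nat_lit 69) (nat_lit 5) (nat_lit 72) (nat_lit 5) (nat_lit 73) (nat_lit 5) (nat_lit 332) (nat_lit 317) (nat_lit 251)) (XT.lf (nat_lit 0) (nat_lit 6231152388) (nat_lit 380) (nat_lit 19278618305) (nat_lit 76) (nat_lit 4610931141) (nat_lit 64) (nat_lit 5) (nat_lit 69) (nat_lit 5) (nat_lit 65) (nat_lit 5) (nat_lit 333) (nat_lit 317) (nat_lit 250))))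 (XT.nd (nat_lit 78) (nat_lit 304) (nat_lit 0) (XT.lf (nat_lit 0) (nat_lit 6372592967) (nat_lit 228) (nat_lit 8246930946) (nat_lit 304) (nat_lit 16966123908) (nat_lit 61) (nat_lit 5) (nat_lit 64) (nat_lit 5) (nat_lit 65) (nat_lit 5) (nat_lit 334) (nat_lit 317) (nat_lit 249)) (XT.nd (nat_lit 78) (nat_lit 76) (nat_lit 0) (XT.lf (nat_lit 0) (nat_lit 1469966569) (nat_lit 228) (nat_lit 22719345444) (nat_lit 304) (nat_lit 8952972352) (nat_lit 58) (nat_lit 5) (nat_lit 61) (nat_lit 5) (nat_lit 62) (nat_lit 5) (nat_lit 335) (nat_lit 317) (nat_lit 248)) (XT.lf (nat_lit 0) (nat_lit 280595610) (nat_lit 304) (nat_lit 3777239547) (nat_lit 76) (nat_lit 30737370593) (nat_lit 57) (nat_lit 5) (nat_lit 61) (nat_lit 5) (nat_lit 58) (nat_lit 5) (nat_lit 336) (nat_lit 317) (nat_lit 247))))) (XT.nd (nat_lit 234) (nat_lit 456) (nat_lit 0) (XT.nd (nat_lit 78) (nat_lit 380) (nat_lit 0) (XT.lf (nat_lit 0) (nat_lit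 10611723119) (nat_lit 304) (nat_lit 9769501891) (nat_lit 76) (nat_lit 16158180180) (nat_lit 54) (nat_lit 5) (nat_lit 58) (nat_lit 5) (nat_lit 55) (nat_lit 5) (nat_lit 337) (nat_lit 317) (nat_lit 246)) (XT.nd (nat_lit 78) (nat_lit 152) (nat_lit 0) (XT.lf (nat_lit 0) (nat_lit 22093265020) (nat_lit 228) (nat_lit 142495277) (nat_lit 304) (nat_lit 16164068555) (nat_lit 51) (nat_lit 5) (nat_lit 54) (nat_lit 5) (nat_lit 55) (nat_lit 5) (nat_lit 338) (nat_lit 317) (nat_lit 245)) (XT.lf (nat_lit 0) (nat_lit 16623681243) (nat_lit 152) (nat_lit 18924394682) (nat_lit 228) (nat_lit 4823101262) (nat_lit 49) (nat_lit 5) (nat_lit 51) (nat_lit 5) (nat_lit 52) (nat_lit 5) (nat_lit 339) (nat_lit 317) (nat_lit 244)))) (XT.nd (nat_lit 78) (nat_lit 152) (nat_lit 0) (XT.lf (nat_lit 0) (nat_lit 7673926236) (nat_lit 304) (nat_lit 32039294368) (nat_lit 76) (nat_lit 2756902277) (nat_lit 45) (nat_lit 5) (nat_lit 49)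 (nat_lit 5) (nat_lit 46) (nat_lit 5) (nat_lit 340) (nat_lit 317) (nat_lit 243)) (XT.nd (nat_lit 78) (nat_lit 0) (nat_lit 0) (XT.lf (nat_lit 0) (nat_lit 3149611617) (nat_lit 152) (nat_lit 18630931973) (nat_lit 228) (nat_lit 22913553982) (nat_lit 43) (nat_lit 5) (nat_lit 45) (nat_lit 5) (nat_lit 46) (nat_lit 5) (nat_lit 341) (nat_lit 317) (nat_lit 242)) (XT.lf (nat_lit 0) (nat_lit 37635884405) (nat_lit 228) (nat_lit 4862865960) (nat_lit 76) (nat_lit 4566236637) (nat_lit 43) (nat_lit 5) (nat_lit 46) (nat_lit 5) (nat_lit 44) (nat_lit 5) (nat_lit 342) (nat_lit 317) (nat_lit 241))))))))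
noncomputable def xc78 : XT := (XT.nd (nat_lit 1794) (nat_lit 760) (nat_lit 0) (XT.nd (nat_lit 858) (nat_lit 760) (nat_lit 0) (XT.nd (nat_lit 390) (nat_lit 760) (nat_lit 0) (XT.nd (nat_lit 156) (nat_lit 304) (nat_lit 0) (XT.nd (nat_lit 78) (nat_lit 152) (nat_lit 0) (XT.lf (nat_lit 0) (nat_lit 5842391377) (nat_lit 228) (nat_lit 14116967377) (nat_lit 76) (nat_lit 29618556154) (nat_lit 40) (nat_lit 5) (nat_lit 43) (nat_lit 5) (nat_lit 41) (nat_lit 5) (nat_lit 343) (nat_lit 317) (nat_lit 240)) (XT.lf (nat_lit 0) (nat_lit 22595706318) (nat_lit 228) (nat_lit 24735233764) (nat_lit 76) (nat_lit 4923690909) (nat_lit 38) (nat_lit 5) (nat_lit 41) (nat_lit 5) (nat_lit 39) (nat_lit 5) (nat_lit 344) (nat_lit 317) (nat_lit 239))) (XT.nd (nat_lit 78) (nat_lit 152) (nat_lit 0) (XT.lf (nat_lit 0) (nat_lit 18079014707) (nat_lit 152) (nat_lit 23469014453) (nat_lit 228) (nat_lit 13554522955) (nat_lit 36) (nat_lit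 5) (nat_lit 38) (nat_lit 5) (nat_lit 39) (nat_lit 5) (nat_lit 345) (nat_lit 317) (nat_lit 238)) (XT.nd (nat_lit 78) (nat_lit 0) (nat_lit 0) (XT.lf (nat_lit 0) (nat_lit 4301763182) (nat_lit 152) (nat_lit 51002243171) (nat_lit 76) (nat_lit 2841989628) (nat_lit 34) (nat_lit 5) (nat_lit 36) (nat_lit 5) (nat_lit 35) (nat_lit 5) (nat_lit 346) (nat_lit 317) (nat_lit 237)) (XT.lf (nat_lit 0) (nat_lit 24159941652) (nat_lit 152) (nat_lit 5884900756) (nat_lit 76) (nat_lit 31324552983) (nat_lit 34) (nat_lit 5) (nat_lit 36) (nat_lit 5) (nat_lit 35) (nat_lit 5) (nat_lit 347) (nat_lit 317) (nat_lit 236))))) (XT.nd (nat_lit 234) (nat_lit 304) (nat_lit 0) (XT.nd (nat_lit 78) (nat_lit 304) (nat_lit 0) (XT.lf (nat_lit 0) (nat_lit 44243164875) (nat_lit 152) (nat_lit 2045754530) (nat_lit 228) (nat_lit 18527643796) (nat_lit 32) (nat_lit 5) (nat_lit 34) (nat_lit 5) (nat_lit 35) (nat_lit 5) (nat_lit 348) (nat_lit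 317) (nat_lit 235)) (XT.nd (nat_lit 78) (nat_lit 152) (nat_lit 0) (XT.lf (nat_lit 0) (nat_lit 2626067903) (nat_lit 152) (nat_lit 37951460683) (nat_lit 76) (nat_lit 27909185758) (nat_lit 30) (nat_lit 5) (nat_lit 32) (nat_lit 5) (nat_lit 31) (nat_lit 5) (nat_lit 349) (nat_lit 317) (nat_lit 234)) (XT.lf (nat_lit 0) (nat_lit 14119804619) (nat_lit 152) (nat_lit 11323004839) (nat_lit 228) (nat_lit 46961491981) (nat_lit 28) (nat_lit 5) (nat_lit 30) (nat_lit 5) (nat_lit 31) (nat_lit 5) (nat_lit 350) (nat_lit 317) (nat_lit 233)))) (XT.nd (nat_lit 78) (nat_lit 304) (nat_lit 0) (XT.lf (nat_lit 0) (nat_lit 51065590692) (nat_lit 228) (nat_lit 5231303234) (nat_lit 76) (nat_lit 20289369354) (nat_lit 28) (nat_lit 5) (nat_lit 31) (nat_lit 5) (nat_lit 29) (nat_lit 4) (nat_lit 351) (nat_lit 317) (nat_lit 232)) (XT.nd (nat_lit 78) (nat_lit 228) (nat_lit 0) (XT.lf (nat_lit 0) (nat_lit 53577315598) (nat_lit 76)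 (nat_lit 26181141845) (nat_lit 152) (nat_lit 1293314062) (nat_lit 27) (nat_lit 5) (nat_lit 28) (nat_lit 5) (nat_lit 29) (nat_lit 4) (nat_lit 352) (nat_lit 317) (nat_lit 231)) (XT.lf (nat_lit 0) (nat_lit 24776984298) (nat_lit 228) (nat_lit 53910429049) (nat_lit 76) (nat_lit 7132652162) (nat_lit 24) (nat_lit 5) (nat_lit 27) (nat_lit 5) (nat_lit 25) (nat_lit 4) (nat_lit 353) (nat_lit 317) (nat_lit 230)))))) (XT.nd (nat_lit 468) (nat_lit 304) (nat_lit 0) (XT.nd (nat_lit 234) (nat_lit 228) (nat_lit 0) (XT.nd (nat_lit 78) (nat_lit 152) (nat_lit 0) (XT.lf (nat_lit 0) (nat_lit 5781492158) (nat_lit 76) (nat_lit 48118185689) (nat_lit 152) (nat_lit 37018483069) (nat_lit 23) (nat_lit 5) (nat_lit 24) (nat_lit 5) (nat_lit 25) (nat_lit 4) (nat_lit 354) (nat_lit 317) (nat_lit 229)) (XT.nd (nat_lit 78) (nat_lit 152) (nat_lit 0) (XT.lf (nat_lit 0) (nat_lit 72162314080) (nat_lit 76) (nat_lit 14122588809) (nat_lit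 152) (nat_lit 10092567223) (nat_lit 23) (nat_lit 5) (nat_lit 24) (nat_lit 5) (nat_lit 25) (nat_lit 4) (nat_lit 355) (nat_lit 317) (nat_lit 228)) (XT.lf (nat_lit 0) (nat_lit 19407829677) (nat_lit 152) (nat_lit 59956775622) (nat_lit 76) (nat_lit 22842691934) (nat_lit 21) (nat_lit 5) (nat_lit 23) (nat_lit 5) (nat_lit 22) (nat_lit 4) (nat_lit 356) (nat_lit 317) (nat_lit 227)))) (XT.nd (nat_lit 78) (nat_lit 152) (nat_lit 0) (XT.lf (nat_lit 0) (nat_lit 6187915859) (nat_lit 76) (nat_lit 45489157625) (nat_lit 152) (nat_lit 56780045563) (nat_lit 20) (nat_lit 5) (nat_lit 21) (nat_lit 5) (nat_lit 22) (nat_lit 4) (nat_lit 357) (nat_lit 317) (nat_lit 226)) (XT.nd (nat_lit 78) (nat_lit 152) (nat_lit 0) (XT.lf (nat_lit 0) (nat_lit 79755024628) (nat_lit 76) (nat_lit 7811721753) (nat_lit 152) (nat_lit 27588237225) (nat_lit 20) (nat_lit 5) (nat_lit 21) (nat_lit 5) (nat_lit 22) (nat_lit 4) (nat_lit 358) (nat_lit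 317) (nat_lit 225)) (XT.lf (nat_lit 0) (nat_lit 4924359062) (nat_lit 152) (nat_lit 84917471824) (nat_lit 76) (nat_lit 32488197213) (nat_lit 18) (nat_lit 5) (nat_lit 20) (nat_lit 5) (nat_lit 19) (nat_lit 4) (nat_lit 359) (nat_lit 317) (nat_lit 224))))) (XT.nd (nat_lit 234) (nat_lit 152) (nat_lit 0) (XT.nd (nat_lit 78) (nat_lit 152) (nat_lit 0) (XT.lf (nat_lit 0) (nat_lit 39837780742) (nat_lit 152) (nat_lit 13350444897) (nat_lit 76) (nat_lit 76829919656) (nat_lit 18) (nat_lit 5) (nat_lit 20) (nat_lit 5) (nat_lit 19) (nat_lit 4) (nat_lit 360) (nat_lit 317) (nat_lit 223)) (XT.nd (nat_lit 78) (nat_lit 76) (nat_lit 0) (XT.lf (nat_lit 0) (nat_lit 66047183247) (nat_lit 76) (nat_lit 12523626361) (nat_lit 152) (nat_lit 59699176702) (nat_lit 17) (nat_lit 5) (nat_lit 18) (nat_lit 5) (nat_lit 19) (nat_lit 4) (nat_lit 361) (nat_lit 317) (nat_lit 222)) (XT.lf (nat_lit 0) (nat_lit 4752699922) (nat_lit 76)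 (nat_lit 116446008880) (nat_lit 76) (nat_lit 25943455440) (nat_lit 16) (nat_lit 4) (nat_lit 17) (nat_lit 5) (nat_lit 17) (nat_lit 4) (nat_lit 362) (nat_lit 317) (nat_lit 221)))) (XT.nd (nat_lit 78) (nat_lit 76) (nat_lit 0) (XT.lf (nat_lit 0) (nat_lit 11661761946) (nat_lit 152) (nat_lit 66600090179) (nat_lit 76) (nat_lit 78379782981) (nat_lit 15) (nat_lit 5) (nat_lit 17) (nat_lit 5) (nat_lit 16) (nat_lit 4) (nat_lit 363) (nat_lit 317) (nat_lit 220)) (XT.nd (nat_lit 78) (nat_lit 0) (nat_lit 0) (XT.lf (nat_lit 0) (nat_lit 15296943128) (nat_lit 76) (nat_lit 36316465025) (nat_lit 152) (nat_lit 115254044019) (nat_lit 14) (nat_lit 5) (nat_lit 15) (nat_lit 5) (nat_lit 16) (nat_lit 4) (nat_lit 364) (nat_lit 317) (nat_lit 219)) (XT.lf (nat_lit 0) (nat_lit 96076704378) (nat_lit 152) (nat_lit 71896055908) (nat_lit 0) (nat_lit 9872799183) (nat_lit 14) (nat_lit 5) (nat_lit 16) (nat_lit 4) (nat_lit 14)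 (nat_lit 4) (nat_lit 365) (nat_lit 317) (nat_lit 218))))))) (XT.nd (nat_lit 936) (nat_lit 228) (nat_lit 0) (XT.nd (nat_lit 468) (nat_lit 228) (nat_lit 0) (XT.nd (nat_lit 234) (nat_lit 152) (nat_lit 0) (XT.nd (nat_lit 78) (nat_lit 76) (nat_lit 0) (XT.lf (nat_lit 0) (nat_lit 13980566145) (nat_lit 76) (nat_lit 130943520293) (nat_lit 76) (nat_lit 44736478530) (nat_lit 13) (nat_lit 4) (nat_lit 14) (nat_lit 5) (nat_lit 14) (nat_lit 4) (nat_lit 366) (nat_lit 317) (nat_lit 217)) (XT.nd (nat_lit 78) (nat_lit 76) (nat_lit 0) (XT.lf (nat_lit 0) (nat_lit 109288111575) (nat_lit 76) (nat_lit 89640079693) (nat_lit 76) (nat_lit 3430133700) (nat_lit 13) (nat_lit 4) (nat_lit 14) (nat_lit 5) (nat_lit 14) (nat_lit 4) (nat_lit 367) (nat_lit 317) (nat_lit 216)) (XT.lf (nat_lit 0) (nat_lit 39859430459) (nat_lit 152) (nat_lit 4500802651) (nat_lit 76) (nat_lit 171679688332) (nat_lit 12) (nat_lit 5) (nat_lit 14)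 (nat_lit 5) (nat_lit 13) (nat_lit 4) (nat_lit 368) (nat_lit 317) (nat_lit 215)))) (XT.nd (nat_lit 78) (nat_lit 76) (nat_lit 0) (XT.lf (nat_lit 0) (nat_lit 88055690479) (nat_lit 152) (nat_lit 136733311203) (nat_lit 0) (nat_lit 5946047620) (nat_lit 11) (nat_lit 5) (nat_lit 13) (nat_lit 4) (nat_lit 11) (nat_lit 4) (nat_lit 369) (nat_lit 317) (nat_lit 214)) (XT.nd (nat_lit 78) (nat_lit 76) (nat_lit 0) (XT.lf (nat_lit 0) (nat_lit 140932420546) (nat_lit 152) (nat_lit 46811546890) (nat_lit 0) (nat_lit 58820582000) (nat_lit 11) (nat_lit 5) (nat_lit 13) (nat_lit 4) (nat_lit 11) (nat_lit 4) (nat_lit 370) (nat_lit 317) (nat_lit 213)) (XT.lf (nat_lit 0) (nat_lit 51961874114) (nat_lit 76) (nat_lit 146885989401) (nat_lit 76) (nat_lit 64772117812) (nat_lit 10) (nat_lit 4) (nat_lit 11) (nat_lit 5) (nat_lit 11) (nat_lit 4) (nat_lit 371) (nat_lit 317) (nat_lit 212))))) (XT.nd (nat_lit 234) (nat_lit 76) (nat_lit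 0) (XT.nd (nat_lit 78) (nat_lit 152) (nat_lit 0) (XT.lf (nat_lit 0) (nat_lit 160303830610) (nat_lit 76) (nat_lit 101905564485) (nat_lit 76) (nat_lit 19789810449) (nat_lit 10) (nat_lit 4) (nat_lit 11) (nat_lit 5) (nat_lit 11) (nat_lit 4) (nat_lit 372) (nat_lit 317) (nat_lit 211)) (XT.nd (nat_lit 78) (nat_lit 76) (nat_lit 0) (XT.lf (nat_lit 0) (nat_lit 27867164510) (nat_lit 152) (nat_lit 24989809795) (nat_lit 76) (nat_lit 248969439432) (nat_lit 9) (nat_lit 5) (nat_lit 11) (nat_lit 5) (nat_lit 10) (nat_lit 4) (nat_lit 373) (nat_lit 317) (nat_lit 210)) (XT.lf (nat_lit 0) (nat_lit 79954579869) (nat_lit 152) (nat_lit 241457534085) (nat_lit 0) (nat_lit 1745902785) (nat_lit 8) (nat_lit 5) (nat_lit 10) (nat_lit 4) (nat_lit 8) (nat_lit 4) (nat_lit 374) (nat_lit 317) (nat_lit 209)))) (XT.nd (nat_lit 78) (nat_lit 76) (nat_lit 0) (XT.lf (nat_lit 0) (nat_lit 137540523269) (nat_lit 152) (nat_lit 149258625301)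 (nat_lit 0) (nat_lit 59330422997) (nat_lit 8) (nat_lit 5) (nat_lit 10) (nat_lit 4) (nat_lit 8) (nat_lit 4) (nat_lit 375) (nat_lit 317) (nat_lit 208)) (XT.nd (nat_lit 78) (nat_lit 76) (nat_lit 0) (XT.lf (nat_lit 0) (nat_lit 199731330232) (nat_lit 152) (nat_lit 49687709256) (nat_lit 0) (nat_lit 121519912194) (nat_lit 8) (nat_lit 5) (nat_lit 10) (nat_lit 4) (nat_lit 8) (nat_lit 4) (nat_lit 376) (nat_lit 317) (nat_lit 207)) (XT.lf (nat_lit 0) (nat_lit 59757889583) (nat_lit 76) (nat_lit 208070637418) (nat_lit 76) (nat_lit 129857999225) (nat_lit 7) (nat_lit 4) (nat_lit 8) (nat_lit 5) (nat_lit 8) (nat_lit 4) (nat_lit 377) (nat_lit 317) (nat_lit 206)))))) (XT.nd (nat_lit 468) (nat_lit 76) (nat_lit 0) (XT.nd (nat_lit 234) (nat_lit 76) (nat_lit 0) (XT.nd (nat_lit 78) (nat_lit 76) (nat_lit 0) (XT.lf (nat_lit 0) (nat_lit 179730009405) (nat_lit 76) (nat_lit 162507239054) (nat_lit 76) (nat_lit 84293471089)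 (nat_lit 7) (nat_lit 4) (nat_lit 8) (nat_lit 5) (nat_lit 8) (nat_lit 4) (nat_lit 378) (nat_lit 317) (nat_lit 205)) (XT.nd (nat_lit 78) (nat_lit 76) (nat_lit 0) (XT.lf (nat_lit 0) (nat_lit 309296696038) (nat_lit 76) (nat_lit 113300324473) (nat_lit 76) (nat_lit 35085510422) (nat_lit 7) (nat_lit 4) (nat_lit 8) (nat_lit 5) (nat_lit 8) (nat_lit 4) (nat_lit 379) (nat_lit 317) (nat_lit 204)) (XT.lf (nat_lit 0) (nat_lit 17479533197) (nat_lit 152) (nat_lit 42382739593) (nat_lit 76) (nat_lit 431450194520) (nat_lit 6) (nat_lit 5) (nat_lit 8) (nat_lit 5) (nat_lit 7) (nat_lit 4) (nat_lit 380) (nat_lit 317) (nat_lit 203)))) (XT.nd (nat_lit 78) (nat_lit 0) (nat_lit 0) (XT.lf (nat_lit 0) (nat_lit 73870522048) (nat_lit 76) (nat_lit 318356754) (nat_lit 152) (nat_lit 453356745184) (nat_lit 5) (nat_lit 5) (nat_lit 6) (nat_lit 5) (nat_lit 7) (nat_lit 4) (nat_lit 381) (nat_lit 317) (nat_lit 202)) (XT.nd (nat_lit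 78) (nat_lit 0) (nat_lit 0) (XT.lf (nat_lit 0) (nat_lit 137183012545) (nat_lit 152) (nat_lit 366716872851) (nat_lit 0) (nat_lit 62690145959) (nat_lit 5) (nat_lit 5) (nat_lit 7) (nat_lit 4) (nat_lit 5) (nat_lit 4) (nat_lit 382) (nat_lit 317) (nat_lit 201)) (XT.lf (nat_lit 0) (nat_lit 205220756919) (nat_lit 152) (nat_lit 272809872524) (nat_lit 0) (nat_lit 130727158044) (nat_lit 5) (nat_lit 5) (nat_lit 7) (nat_lit 4) (nat_lit 5) (nat_lit 4) (nat_lit 383) (nat_lit 317) (nat_lit 200))))) (XT.nd (nat_lit 234) (nat_lit 0) (nat_lit 0) (XT.nd (nat_lit 78) (nat_lit 76) (nat_lit 0) (XT.lf (nat_lit 0) (nat_lit 278700328117) (nat_lit 152) (nat_lit 171392644587) (nat_lit 0) (nat_lit 204206051196) (nat_lit 5) (nat_lit 5) (nat_lit 7) (nat_lit 4) (nat_lit 5) (nat_lit 4) (nat_lit 384) (nat_lit 317) (nat_lit 199)) (XT.nd (nat_lit 78) (nat_lit 76) (nat_lit 0) (XT.lf (nat_lit 0) (nat_lit 358057160636) (nat_lit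 152) (nat_lit 61864198061) (nat_lit 0) (nat_lit 283562255895) (nat_lit 5) (nat_lit 5) (nat_lit 7) (nat_lit 4) (nat_lit 5) (nat_lit 4) (nat_lit 385) (nat_lit 317) (nat_lit 198)) (XT.lf (nat_lit 0) (nat_lit 58290174115) (nat_lit 76) (nat_lit 386381416047) (nat_lit 76) (nat_lit 311885929991) (nat_lit 4) (nat_lit 4) (nat_lit 5) (nat_lit 5) (nat_lit 5) (nat_lit 4) (nat_lit 386) (nat_lit 317) (nat_lit 197)))) (XT.nd (nat_lit 78) (nat_lit 0) (nat_lit 0) (XT.lf (nat_lit 0) (nat_lit 190264133855) (nat_lit 76) (nat_lit 349027697927) (nat_lit 76) (nat_lit 274531673615) (nat_lit 4) (nat_lit 4) (nat_lit 5) (nat_lit 5) (nat_lit 5) (nat_lit 4) (nat_lit 387) (nat_lit 317) (nat_lit 196)) (XT.nd (nat_lit 78) (nat_lit 0) (nat_lit 0) (XT.lf (nat_lit 0) (nat_lit 332794239291) (nat_lit 76) (nat_lit 308686549098) (nat_lit 76) (nat_lit 234190026402) (nat_lit 4) (nat_lit 4) (nat_lit 5) (nat_lit 5) (nat_lit 5) (nat_lit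 4) (nat_lit 388) (nat_lit 317) (nat_lit 195)) (XT.lf (nat_lit 0) (nat_lit 486725113273) (nat_lit 76) (nat_lit 265118910901) (nat_lit 76) (nat_lit 190621926739) (nat_lit 4) (nat_lit 4) (nat_lit 5) (nat_lit 5) (nat_lit 5) (nat_lit 4) (nat_lit 389) (nat_lit 317) (nat_lit 194))))))))
noncomputable def xc79 : XT := (XT.nd (nat_lit 42900) (nat_lit 0) (nat_lit 988) (XT.nd (nat_lit 41964) (nat_lit 0) (nat_lit 3800) (XT.nd (nat_lit 41496) (nat_lit 0) (nat_lit 6916) (XT.nd (nat_lit 41262) (nat_lit 0) (nat_lit 8132) (XT.nd (nat_lit 78) (nat_lit 0) (nat_lit 0) (XT.lf (nat_lit 0) (nat_lit 652968938755) (nat_lit 76) (nat_lit 218066604740) (nat_lit 76) (nat_lit 143569193294) (nat_lit 4) (nat_lit 4) (nat_lit 5) (nat_lit 5) (nat_lit 5) (nat_lit 4) (nat_lit 390) (nat_lit 317) (nat_lit 193)) (XT.lf (nat_lit 0) (nat_lit 832510864334) (nat_lit 76) (nat_lit 167250802133) (nat_lit 76) (nat_lit 92752995053) (nat_lit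 4) (nat_lit 4) (nat_lit 5) (nat_lit 5) (nat_lit 5) (nat_lit 4) (nat_lit 391) (nat_lit 317) (nat_lit 192))) (XT.nd (nat_lit 78) (nat_lit 0) (nat_lit 0) (XT.lf (nat_lit 0) (nat_lit 3723545817) (nat_lit 0) (nat_lit 3723545817) (nat_lit 684) (nat_lit 778540156) (nat_lit 111) (nat_lit 5) (nat_lit 111) (nat_lit 3) (nat_lit 120) (nat_lit 3) (nat_lit 318) (nat_lit 318) (nat_lit 264)) (XT.nd (nat_lit 78) (nat_lit 0) (nat_lit 0) (XT.lf (nat_lit 76) (nat_lit 3494290259) (nat_lit 0) (nat_lit 12491690816) (nat_lit 760) (nat_lit 1098116181) (nat_lit 112) (nat_lit 5) (nat_lit 111) (nat_lit 5) (nat_lit 121) (nat_lit 5) (nat_lit 319) (nat_lit 318) (nat_lit 263)) (XT.lf (nat_lit 76) (nat_lit 17163166503) (nat_lit 0) (nat_lit 245458673) (nat_lit 760) (nat_lit 346798880) (nat_lit 112) (nat_lit 5) (nat_lit 111) (nat_lit 5) (nat_lit 121) (nat_lit 5) (nat_lit 320) (nat_lit 318) (nat_lit 262))))) (XT.nd (nat_lit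 234) (nat_lit 532) (nat_lit 0) (XT.nd (nat_lit 78) (nat_lit 0) (nat_lit 76) (XT.lf (nat_lit 0) (nat_lit 837944869) (nat_lit 760) (nat_lit 4817011564) (nat_lit 836) (nat_lit 12805764913) (nat_lit 102) (nat_lit 5) (nat_lit 112) (nat_lit 5) (nat_lit 113) (nat_lit 5) (nat_lit 321) (nat_lit 318) (nat_lit 261)) (XT.nd (nat_lit 78) (nat_lit 0) (nat_lit 76) (XT.lf (nat_lit 0) (nat_lit 2368417779) (nat_lit 760) (nat_lit 9228598004) (nat_lit 836) (nat_lit 7612021313) (nat_lit 103) (nat_lit 5) (nat_lit 113) (nat_lit 5) (nat_lit 114) (nat_lit 5) (nat_lit 322) (nat_lit 318) (nat_lit 260)) (XT.lf (nat_lit 0) (nat_lit 4298828045) (nat_lit 760) (nat_lit 13835222960) (nat_lit 836) (nat_lit 1869323541) (nat_lit 104) (nat_lit 5) (nat_lit 114) (nat_lit 5) (nat_lit 115) (nat_lit 5) (nat_lit 323) (nat_lit 318) (nat_lit 259)))) (XT.nd (nat_lit 78) (nat_lit 684) (nat_lit 0) (XT.lf (nat_lit 76) (nat_lit 2119492315)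 (nat_lit 0) (nat_lit 4628118034) (nat_lit 836) (nat_lit 14095480771) (nat_lit 105) (nat_lit 5) (nat_lit 104) (nat_lit 5) (nat_lit 115) (nat_lit 5) (nat_lit 324) (nat_lit 318) (nat_lit 258)) (XT.nd (nat_lit 78) (nat_lit 760) (nat_lit 0) (XT.lf (nat_lit 0) (nat_lit 9766434407) (nat_lit 760) (nat_lit 2076264523) (nat_lit 76) (nat_lit 9888606067) (nat_lit 105) (nat_lit 5) (nat_lit 115) (nat_lit 5) (nat_lit 106) (nat_lit 5) (nat_lit 325) (nat_lit 318) (nat_lit 257)) (XT.lf (nat_lit 0) (nat_lit 13382033914) (nat_lit 836) (nat_lit 6396314221) (nat_lit 76) (nat_lit 2894489311) (nat_lit 95) (nat_lit 5) (nat_lit 106) (nat_lit 5) (nat_lit 96) (nat_lit 5) (nat_lit 326) (nat_lit 318) (nat_lit 256)))))) (XT.nd (nat_lit 468) (nat_lit 1368) (nat_lit 0) (XT.nd (nat_lit 234) (nat_lit 608) (nat_lit 0) (XT.nd (nat_lit 78) (nat_lit 760) (nat_lit 0) (XT.lf (nat_lit 0) (nat_lit 12666884439) (nat_lit 380) (nat_lit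 5031379449) (nat_lit 456) (nat_lit 5970882569) (nat_lit 90) (nat_lit 5) (nat_lit 95) (nat_lit 5) (nat_lit 96) (nat_lit 5) (nat_lit 327) (nat_lit 318) (nat_lit 255)) (XT.nd (nat_lit 78) (nat_lit 456) (nat_lit 0) (XT.lf (nat_lit 0) (nat_lit 8832534962) (nat_lit 304) (nat_lit 13927046423) (nat_lit 380) (nat_lit 1965610732) (nat_lit 86) (nat_lit 5) (nat_lit 90) (nat_lit 5) (nat_lit 91) (nat_lit 5) (nat_lit 328) (nat_lit 318) (nat_lit 254)) (XT.lf (nat_lit 0) (nat_lit 2652549040) (nat_lit 456) (nat_lit 21083551728) (nat_lit 76) (nat_lit 2109396960) (nat_lit 80) (nat_lit 5) (nat_lit 86) (nat_lit 5) (nat_lit 81) (nat_lit 5) (nat_lit 329) (nat_lit 318) (nat_lit 253)))) (XT.nd (nat_lit 78) (nat_lit 304) (nat_lit 0) (XT.lf (nat_lit 0) (nat_lit 310338515) (nat_lit 304) (nat_lit 7763550979) (nat_lit 380) (nat_lit 18954814930) (nat_lit 76) (nat_lit 5) (nat_lit 80) (nat_lit 5) (nat_lit 81) (nat_lit 5)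 (nat_lit 330) (nat_lit 318) (nat_lit 252)) (XT.nd (nat_lit 78) (nat_lit 304) (nat_lit 0) (XT.lf (nat_lit 0) (nat_lit 14432015461) (nat_lit 380) (nat_lit 4295578818) (nat_lit 76) (nat_lit 9553835628) (nat_lit 76) (nat_lit 5) (nat_lit 81) (nat_lit 5) (nat_lit 77) (nat_lit 5) (nat_lit 331) (nat_lit 318) (nat_lit 251)) (XT.lf (nat_lit 0) (nat_lit 20423559867) (nat_lit 304) (nat_lit 1308045464) (nat_lit 380) (nat_lit 7881142375) (nat_lit 72) (nat_lit 5) (nat_lit 76) (nat_lit 5) (nat_lit 77) (nat_lit 5) (nat_lit 332) (nat_lit 318) (nat_lit 250))))) (XT.nd (nat_lit 234) (nat_lit 532) (nat_lit 0) (XT.nd (nat_lit 78) (nat_lit 608) (nat_lit 0) (XT.lf (nat_lit 0) (nat_lit 16458925099) (nat_lit 228) (nat_lit 13746502187) (nat_lit 304) (nat_lit 815644255) (nat_lit 69) (nat_lit 5) (nat_lit 72) (nat_lit 5) (nat_lit 73) (nat_lit 5) (nat_lit 333) (nat_lit 318) (nat_lit 249)) (XT.nd (nat_lit 78) (nat_lit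 228) (nat_lit 0) (XT.lf (nat_lit 0) (nat_lit 7038385601) (nat_lit 380) (nat_lit 20408168189) (nat_lit 76) (nat_lit 5068128707) (nat_lit 64) (nat_lit 5) (nat_lit 69) (nat_lit 5) (nat_lit 65) (nat_lit 5) (nat_lit 334) (nat_lit 318) (nat_lit 248)) (XT.lf (nat_lit 0) (nat_lit 7277202826) (nat_lit 228) (nat_lit 8803918289) (nat_lit 304) (nat_lit 18016555996) (nat_lit 61) (nat_lit 5) (nat_lit 64) (nat_lit 5) (nat_lit 65) (nat_lit 5) (nat_lit 335) (nat_lit 318) (nat_lit 247)))) (XT.nd (nat_lit 78) (nat_lit 304) (nat_lit 0) (XT.lf (nat_lit 0) (nat_lit 1977852295) (nat_lit 228) (nat_lit 24424586852) (nat_lit 304) (nat_lit 9377124441) (nat_lit 58) (nat_lit 5) (nat_lit 61) (nat_lit 5) (nat_lit 62) (nat_lit 5) (nat_lit 336) (nat_lit 318) (nat_lit 246)) (XT.nd (nat_lit 78) (nat_lit 228) (nat_lit 0) (XT.lf (nat_lit 0) (nat_lit 564836900) (nat_lit 304) (nat_lit 3709204220) (nat_lit 76) (nat_lit 33291511146)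 (nat_lit 57) (nat_lit 5) (nat_lit 61) (nat_lit 5) (nat_lit 58) (nat_lit 5) (nat_lit 337) (nat_lit 318) (nat_lit 245)) (XT.lf (nat_lit 0) (nat_lit 11710249381) (nat_lit 304) (nat_lit 10186031195) (nat_lit 76) (nat_lit 17553630701) (nat_lit 54) (nat_lit 5) (nat_lit 58) (nat_lit 5) (nat_lit 55) (nat_lit 5) (nat_lit 338) (nat_lit 318) (nat_lit 244))))))) (XT.nd (nat_lit 936) (nat_lit 988) (nat_lit 0) (XT.nd (nat_lit 468) (nat_lit 760) (nat_lit 0) (XT.nd (nat_lit 234) (nat_lit 380) (nat_lit 0) (XT.nd (nat_lit 78) (nat_lit 456) (nat_lit 0) (XT.lf (nat_lit 0) (nat_lit 24209893273) (nat_lit 228) (nat_lit 41279704) (nat_lit 304) (nat_lit 17208660044) (nat_lit 51) (nat_lit 5) (nat_lit 54) (nat_lit 5) (nat_lit 55) (nat_lit 5) (nat_lit 339) (nat_lit 318) (nat_lit 243)) (XT.nd (nat_lit 78) (nat_lit 304) (nat_lit 0) (XT.lf (nat_lit 0) (nat_lit 18297348001) (nat_lit 152) (nat_lit 20320598743) (nat_lit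 228) (nat_lit 4971480284) (nat_lit 49) (nat_lit 5) (nat_lit 51) (nat_lit 5) (nat_lit 52) (nat_lit 5) (nat_lit 340) (nat_lit 318) (nat_lit 242)) (XT.lf (nat_lit 0) (nat_lit 8507775684) (nat_lit 304) (nat_lit 34257018835) (nat_lit 76) (nat_lit 3091815236) (nat_lit 45) (nat_lit 5) (nat_lit 49) (nat_lit 5) (nat_lit 46) (nat_lit 5) (nat_lit 341) (nat_lit 318) (nat_lit 241)))) (XT.nd (nat_lit 78) (nat_lit 228) (nat_lit 0) (XT.lf (nat_lit 0) (nat_lit 3731988136) (nat_lit 152) (nat_lit 19999801372) (nat_lit 228) (nat_lit 24527278907) (nat_lit 43) (nat_lit 5) (nat_lit 45) (nat_lit 5) (nat_lit 46) (nat_lit 5) (nat_lit 342) (nat_lit 318) (nat_lit 240)) (XT.nd (nat_lit 78) (nat_lit 228) (nat_lit 0) (XT.lf (nat_lit 0) (nat_lit 40841848703) (nat_lit 228) (nat_lit 4937945278) (nat_lit 76) (nat_lit 5040529118) (nat_lit 43) (nat_lit 5) (nat_lit 46) (nat_lit 5) (nat_lit 44) (nat_lit 5) (nat_lit 343) (nat_lit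 318) (nat_lit 239)) (XT.lf (nat_lit 0) (nat_lit 6498248653) (nat_lit 228) (nat_lit 14939691753) (nat_lit 76) (nat_lit 32096688993) (nat_lit 40) (nat_lit 5) (nat_lit 43) (nat_lit 5) (nat_lit 41) (nat_lit 5) (nat_lit 344) (nat_lit 318) (nat_lit 238))))) (XT.nd (nat_lit 234) (nat_lit 304) (nat_lit 0) (XT.nd (nat_lit 78) (nat_lit 304) (nat_lit 0) (XT.lf (nat_lit 0) (nat_lit 24584231023) (nat_lit 228) (nat_lit 26413486098) (nat_lit 76) (nat_lit 5428152603) (nat_lit 38) (nat_lit 5) (nat_lit 41) (nat_lit 5) (nat_lit 39) (nat_lit 5) (nat_lit 345) (nat_lit 318) (nat_lit 237)) (XT.nd (nat_lit 78) (nat_lit 152) (nat_lit 0) (XT.lf (nat_lit 0) (nat_lit 19812840003) (nat_lit 152) (nat_lit 25230990790) (nat_lit 228) (nat_lit 14458245733) (nat_lit 36) (nat_lit 5) (nat_lit 38) (nat_lit 5) (nat_lit 39) (nat_lit 5) (nat_lit 346) (nat_lit 318) (nat_lit 236)) (XT.lf (nat_lit 0) (nat_lit 4813975469) (nat_lit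 152) (nat_lit 54795206798) (nat_lit 76) (nat_lit 3180017704) (nat_lit 34) (nat_lit 5) (nat_lit 36) (nat_lit 5) (nat_lit 35) (nat_lit 5) (nat_lit 347) (nat_lit 318) (nat_lit 235)))) (XT.nd (nat_lit 78) (nat_lit 304) (nat_lit 0) (XT.lf (nat_lit 0) (nat_lit 26248358496) (nat_lit 152) (nat_lit 6089752236) (nat_lit 76) (nat_lit 33932988431) (nat_lit 34) (nat_lit 5) (nat_lit 36) (nat_lit 5) (nat_lit 35) (nat_lit 5) (nat_lit 348) (nat_lit 318) (nat_lit 234)) (XT.nd (nat_lit 78) (nat_lit 152) (nat_lit 0) (XT.lf (nat_lit 0) (nat_lit 48037001192) (nat_lit 152) (nat_lit 2103097392) (nat_lit 228) (nat_lit 19854324555) (nat_lit 32) (nat_lit 5) (nat_lit 34) (nat_lit 5) (nat_lit 35) (nat_lit 5) (nat_lit 349) (nat_lit 318) (nat_lit 233)) (XT.lf (nat_lit 0) (nat_lit 2981065648) (nat_lit 152) (nat_lit 40733850689) (nat_lit 76) (nat_lit 30243435009) (nat_lit 30) (nat_lit 5) (nat_lit 32) (nat_lit 5) (nat_lit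 31) (nat_lit 5) (nat_lit 350) (nat_lit 318) (nat_lit 232)))))) (XT.nd (nat_lit 468) (nat_lit 456) (nat_lit 0) (XT.nd (nat_lit 234) (nat_lit 304) (nat_lit 0) (XT.nd (nat_lit 78) (nat_lit 76) (nat_lit 0) (XT.lf (nat_lit 0) (nat_lit 15492089179) (nat_lit 152) (nat_lit 12124112334) (nat_lit 228) (nat_lit 50573495186) (nat_lit 28) (nat_lit 5) (nat_lit 30) (nat_lit 5) (nat_lit 31) (nat_lit 5) (nat_lit 351) (nat_lit 318) (nat_lit 231)) (XT.nd (nat_lit 78) (nat_lit 76) (nat_lit 0) (XT.lf (nat_lit 0) (nat_lit 55280099495) (nat_lit 228) (nat_lit 5420165019) (nat_lit 76) (nat_lit 22006390000) (nat_lit 28) (nat_lit 5) (nat_lit 31) (nat_lit 5) (nat_lit 29) (nat_lit 4) (nat_lit 352) (nat_lit 318) (nat_lit 230)) (XT.lf (nat_lit 0) (nat_lit 58083163338) (nat_lit 76) (nat_lit 28179086866) (nat_lit 152) (nat_lit 1267463925) (nat_lit 27) (nat_lit 5) (nat_lit 28) (nat_lit 5) (nat_lit 29) (nat_lit 4) (nat_lit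 353) (nat_lit 318) (nat_lit 229)))) (XT.nd (nat_lit 78) (nat_lit 76) (nat_lit 0) (XT.lf (nat_lit 0) (nat_lit 26879871166) (nat_lit 228) (nat_lit 58004629315) (nat_lit 76) (nat_lit 7795095690) (nat_lit 24) (nat_lit 5) (nat_lit 27) (nat_lit 5) (nat_lit 25) (nat_lit 4) (nat_lit 354) (nat_lit 318) (nat_lit 228)) (XT.nd (nat_lit 78) (nat_lit 0) (nat_lit 0) (XT.lf (nat_lit 0) (nat_lit 6453144019) (nat_lit 76) (nat_lit 51873558500) (nat_lit 152) (nat_lit 39859123404) (nat_lit 23) (nat_lit 5) (nat_lit 24) (nat_lit 5) (nat_lit 25) (nat_lit 4) (nat_lit 355) (nat_lit 318) (nat_lit 227)) (XT.lf (nat_lit 0) (nat_lit 78128940399) (nat_lit 76) (nat_lit 15165282910) (nat_lit 152) (nat_lit 10788085276) (nat_lit 23) (nat_lit 5) (nat_lit 24) (nat_lit 5) (nat_lit 25) (nat_lit 4) (nat_lit 356) (nat_lit 318) (nat_lit 226))))) (XT.nd (nat_lit 234) (nat_lit 228) (nat_lit 0) (XT.nd (nat_lit 78) (nat_lit 76) (nat_lit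 0) (XT.lf (nat_lit 0) (nat_lit 21065019579) (nat_lit 152) (nat_lit 64560780423) (nat_lit 76) (nat_lit 24752823973) (nat_lit 21) (nat_lit 5) (nat_lit 23) (nat_lit 5) (nat_lit 22) (nat_lit 4) (nat_lit 357) (nat_lit 318) (nat_lit 225)) (XT.nd (nat_lit 78) (nat_lit 0) (nat_lit 0) (XT.lf (nat_lit 0) (nat_lit 6867118942) (nat_lit 76) (nat_lit 49043813910) (nat_lit 152) (nat_lit 61217744323) (nat_lit 20) (nat_lit 5) (nat_lit 21) (nat_lit 5) (nat_lit 22) (nat_lit 4) (nat_lit 358) (nat_lit 318) (nat_lit 224)) (XT.lf (nat_lit 0) (nat_lit 86305954204) (nat_lit 76) (nat_lit 8358440673) (nat_lit 152) (nat_lit 29698347235) (nat_lit 20) (nat_lit 5) (nat_lit 21) (nat_lit 5) (nat_lit 22) (nat_lit 4) (nat_lit 359) (nat_lit 318) (nat_lit 223)))) (XT.nd (nat_lit 78) (nat_lit 76) (nat_lit 0) (XT.lf (nat_lit 0) (nat_lit 5408991873) (nat_lit 152) (nat_lit 91541462259) (nat_lit 76) (nat_lit 35161420192) (nat_lit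 18) (nat_lit 5) (nat_lit 20) (nat_lit 5) (nat_lit 19) (nat_lit 4) (nat_lit 360) (nat_lit 318) (nat_lit 222)) (XT.nd (nat_lit 78) (nat_lit 76) (nat_lit 0) (XT.lf (nat_lit 0) (nat_lit 43108769948) (nat_lit 152) (nat_lit 14261621868) (nat_lit 76) (nat_lit 83044986563) (nat_lit 18) (nat_lit 5) (nat_lit 20) (nat_lit 5) (nat_lit 19) (nat_lit 4) (nat_lit 361) (nat_lit 318) (nat_lit 221)) (XT.lf (nat_lit 0) (nat_lit 71480999644) (nat_lit 76) (nat_lit 13455564293) (nat_lit 152) (nat_lit 64390998094) (nat_lit 17) (nat_lit 5) (nat_lit 18) (nat_lit 5) (nat_lit 19) (nat_lit 4) (nat_lit 362) (nat_lit 318) (nat_lit 220))))))))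
noncomputable def xc80 : XT := (XT.nd (nat_lit 1794) (nat_lit 76) (nat_lit 0) (XT.nd (nat_lit 858) (nat_lit 380) (nat_lit 0) (XT.nd (nat_lit 390) (nat_lit 228) (nat_lit 0) (XT.nd (nat_lit 156) (nat_lit 152) (nat_lit 0) (XT.nd (nat_lit 78) (nat_lit 76) (nat_lit 0) (XT.lf (nat_lit 0) (nat_lit 5279240677) (nat_lit 76) (nat_lit 125692817618) (nat_lit 76) (nat_lit 27937589126) (nat_lit 16) (nat_lit 4) (nat_lit 17) (nat_lit 5) (nat_lit 17) (nat_lit 4) (nat_lit 363) (nat_lit 318) (nat_lit 219)) (XT.lf (nat_lit 0) (nat_lit 12667609636) (nat_lit 152) (nat_lit 71790185604) (nat_lit 76) (nat_lit 84711510065) (nat_lit 15) (nat_lit 5) (nat_lit 17) (nat_lit 5) (nat_lit 16) (nat_lit 4) (nat_lit 364) (nat_lit 318) (nat_lit 218))) (XT.nd (nat_lit 78) (nat_lit 76) (nat_lit 0) (XT.lf (nat_lit 0) (nat_lit 16652616889) (nat_lit 76) (nat_lit 39159429766) (nat_lit 152) (nat_lit 124401309256) (nat_lit 14) (nat_lit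 5) (nat_lit 15) (nat_lit 5) (nat_lit 16) (nat_lit 4) (nat_lit 365) (nat_lit 318) (nat_lit 217)) (XT.nd (nat_lit 78) (nat_lit 76) (nat_lit 0) (XT.lf (nat_lit 0) (nat_lit 103828154938) (nat_lit 152) (nat_lit 77523261446) (nat_lit 0) (nat_lit 10718509037) (nat_lit 14) (nat_lit 5) (nat_lit 16) (nat_lit 4) (nat_lit 14) (nat_lit 4) (nat_lit 366) (nat_lit 318) (nat_lit 216)) (XT.lf (nat_lit 0) (nat_lit 15218080669) (nat_lit 76) (nat_lit 141362267809) (nat_lit 76) (nat_lit 48249932807) (nat_lit 13) (nat_lit 4) (nat_lit 14) (nat_lit 5) (nat_lit 14) (nat_lit 4) (nat_lit 367) (nat_lit 318) (nat_lit 215))))) (XT.nd (nat_lit 234) (nat_lit 76) (nat_lit 0) (XT.nd (nat_lit 78) (nat_lit 152) (nat_lit 0) (XT.lf (nat_lit 0) (nat_lit 118141409790) (nat_lit 76) (nat_lit 96758754487) (nat_lit 76) (nat_lit 3643929576) (nat_lit 13) (nat_lit 4) (nat_lit 14) (nat_lit 5) (nat_lit 14) (nat_lit 4) (nat_lit 368) (nat_lit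 318) (nat_lit 214)) (XT.nd (nat_lit 78) (nat_lit 76) (nat_lit 0) (XT.lf (nat_lit 0) (nat_lit 43102513384) (nat_lit 152) (nat_lit 4756977942) (nat_lit 76) (nat_lit 185460897507) (nat_lit 12) (nat_lit 5) (nat_lit 14) (nat_lit 5) (nat_lit 13) (nat_lit 4) (nat_lit 369) (nat_lit 318) (nat_lit 213)) (XT.lf (nat_lit 0) (nat_lit 95152743276) (nat_lit 152) (nat_lit 147570742010) (nat_lit 0) (nat_lit 6467728917) (nat_lit 11) (nat_lit 5) (nat_lit 13) (nat_lit 4) (nat_lit 11) (nat_lit 4) (nat_lit 370) (nat_lit 318) (nat_lit 212)))) (XT.nd (nat_lit 78) (nat_lit 76) (nat_lit 0) (XT.lf (nat_lit 0) (nat_lit 152255715632) (nat_lit 152) (nat_lit 50462735373) (nat_lit 0) (nat_lit 63568818826) (nat_lit 11) (nat_lit 5) (nat_lit 13) (nat_lit 4) (nat_lit 11) (nat_lit 4) (nat_lit 371) (nat_lit 318) (nat_lit 211)) (XT.nd (nat_lit 78) (nat_lit 0) (nat_lit 0) (XT.lf (nat_lit 0) (nat_lit 56208485690) (nat_lit 76) (nat_lit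 158593700703) (nat_lit 76) (nat_lit 69905060890) (nat_lit 10) (nat_lit 4) (nat_lit 11) (nat_lit 5) (nat_lit 11) (nat_lit 4) (nat_lit 372) (nat_lit 318) (nat_lit 210)) (XT.lf (nat_lit 0) (nat_lit 173211157102) (nat_lit 76) (nat_lit 110018039413) (nat_lit 76) (nat_lit 21327785705) (nat_lit 10) (nat_lit 4) (nat_lit 11) (nat_lit 5) (nat_lit 11) (nat_lit 4) (nat_lit 373) (nat_lit 318) (nat_lit 209)))))) (XT.nd (nat_lit 468) (nat_lit 152) (nat_lit 0) (XT.nd (nat_lit 234) (nat_lit 76) (nat_lit 0) (XT.nd (nat_lit 78) (nat_lit 76) (nat_lit 0) (XT.lf (nat_lit 0) (nat_lit 30137058589) (nat_lit 152) (nat_lit 26910777946) (nat_lit 76) (nat_lit 268922657838) (nat_lit 9) (nat_lit 5) (nat_lit 11) (nat_lit 5) (nat_lit 10) (nat_lit 4) (nat_lit 374) (nat_lit 318) (nat_lit 208)) (XT.nd (nat_lit 78) (nat_lit 0) (nat_lit 0) (XT.lf (nat_lit 0) (nat_lit 86390197826) (nat_lit 152) (nat_lit 260697943153) (nat_lit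 0) (nat_lit 1920548578) (nat_lit 8) (nat_lit 5) (nat_lit 10) (nat_lit 4) (nat_lit 8) (nat_lit 4) (nat_lit 375) (nat_lit 318) (nat_lit 207)) (XT.lf (nat_lit 0) (nat_lit 148580109175) (nat_lit 152) (nat_lit 161128765641) (nat_lit 0) (nat_lit 64109239773) (nat_lit 8) (nat_lit 5) (nat_lit 10) (nat_lit 4) (nat_lit 8) (nat_lit 4) (nat_lit 376) (nat_lit 318) (nat_lit 206)))) (XT.nd (nat_lit 78) (nat_lit 76) (nat_lit 0) (XT.lf (nat_lit 0) (nat_lit 215743488544) (nat_lit 152) (nat_lit 53597402216) (nat_lit 0) (nat_lit 131271489369) (nat_lit 8) (nat_lit 5) (nat_lit 10) (nat_lit 4) (nat_lit 8) (nat_lit 4) (nat_lit 377) (nat_lit 318) (nat_lit 205)) (XT.nd (nat_lit 78) (nat_lit 0) (nat_lit 0) (XT.lf (nat_lit 0) (nat_lit 64601005640) (nat_lit 76) (nat_lit 224685938246) (nat_lit 76) (nat_lit 140212892986) (nat_lit 7) (nat_lit 4) (nat_lit 8) (nat_lit 5) (nat_lit 8) (nat_lit 4) (nat_lit 378) (nat_lit 318)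 (nat_lit 204)) (XT.lf (nat_lit 0) (nat_lit 194166266536) (nat_lit 76) (nat_lit 175479716174) (nat_lit 76) (nat_lit 91005702316) (nat_lit 7) (nat_lit 4) (nat_lit 8) (nat_lit 5) (nat_lit 8) (nat_lit 4) (nat_lit 379) (nat_lit 318) (nat_lit 203))))) (XT.nd (nat_lit 234) (nat_lit 0) (nat_lit 0) (XT.nd (nat_lit 78) (nat_lit 152) (nat_lit 0) (XT.lf (nat_lit 0) (nat_lit 334094002443) (nat_lit 76) (nat_lit 122338330056) (nat_lit 76) (nat_lit 37863419348) (nat_lit 7) (nat_lit 4) (nat_lit 8) (nat_lit 5) (nat_lit 8) (nat_lit 4) (nat_lit 380) (nat_lit 318) (nat_lit 202)) (XT.nd (nat_lit 78) (nat_lit 76) (nat_lit 0) (XT.lf (nat_lit 0) (nat_lit 18903827248) (nat_lit 152) (nat_lit 45722895266) (nat_lit 76) (nat_lit 465989442046) (nat_lit 6) (nat_lit 5) (nat_lit 8) (nat_lit 5) (nat_lit 7) (nat_lit 4) (nat_lit 381) (nat_lit 318) (nat_lit 201)) (XT.lf (nat_lit 0) (nat_lit 79828434225) (nat_lit 76) (nat_lit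 320319069) (nat_lit 152) (nat_lit 489599279101) (nat_lit 5) (nat_lit 5) (nat_lit 6) (nat_lit 5) (nat_lit 7) (nat_lit 4) (nat_lit 382) (nat_lit 318) (nat_lit 200)))) (XT.nd (nat_lit 78) (nat_lit 0) (nat_lit 0) (XT.lf (nat_lit 0) (nat_lit 148180923164) (nat_lit 152) (nat_lit 396008718118) (nat_lit 0) (nat_lit 67726426043) (nat_lit 5) (nat_lit 5) (nat_lit 7) (nat_lit 4) (nat_lit 5) (nat_lit 4) (nat_lit 383) (nat_lit 318) (nat_lit 199)) (XT.nd (nat_lit 78) (nat_lit 0) (nat_lit 0) (XT.lf (nat_lit 0) (nat_lit 221659963413) (nat_lit 152) (nat_lit 294592528473) (nat_lit 0) (nat_lit 141204838472) (nat_lit 5) (nat_lit 5) (nat_lit 7) (nat_lit 4) (nat_lit 5) (nat_lit 4) (nat_lit 384) (nat_lit 318) (nat_lit 198)) (XT.lf (nat_lit 0) (nat_lit 301016304312) (nat_lit 152) (nat_lit 185065043328) (nat_lit 0) (nat_lit 220560598055) (nat_lit 5) (nat_lit 5) (nat_lit 7) (nat_lit 4) (nat_lit 5) (nat_lit 4) (nat_lit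 385) (nat_lit 318) (nat_lit 197))))))) (XT.nd (nat_lit 42120) (nat_lit 0) (nat_lit 4332) (XT.nd (nat_lit 41652) (nat_lit 0) (nat_lit 7372) (XT.nd (nat_lit 156) (nat_lit 0) (nat_lit 0) (XT.nd (nat_lit 78) (nat_lit 76) (nat_lit 0) (XT.lf (nat_lit 0) (nat_lit 386720205658) (nat_lit 152) (nat_lit 66777210918) (nat_lit 0) (nat_lit 306263961147) (nat_lit 5) (nat_lit 5) (nat_lit 7) (nat_lit 4) (nat_lit 5) (nat_lit 4) (nat_lit 386) (nat_lit 318) (nat_lit 196)) (XT.lf (nat_lit 0) (nat_lit 62987941171) (nat_lit 76) (nat_lit 417275019538) (nat_lit 76) (nat_lit 336818276643) (nat_lit 4) (nat_lit 4) (nat_lit 5) (nat_lit 5) (nat_lit 5) (nat_lit 4) (nat_lit 387) (nat_lit 318) (nat_lit 195))) (XT.nd (nat_lit 78) (nat_lit 0) (nat_lit 0) (XT.lf (nat_lit 0) (nat_lit 205517258199) (nat_lit 76) (nat_lit 376934256545) (nat_lit 76) (nat_lit 296477052183) (nat_lit 4) (nat_lit 4) (nat_lit 5) (nat_lit 5) (nat_lit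 5) (nat_lit 4) (nat_lit 388) (nat_lit 318) (nat_lit 194)) (XT.nd (nat_lit 78) (nat_lit 0) (nat_lit 0) (XT.lf (nat_lit 0) (nat_lit 359447402172) (nat_lit 76) (nat_lit 333366975604) (nat_lit 76) (nat_lit 252909343958) (nat_lit 4) (nat_lit 4) (nat_lit 5) (nat_lit 5) (nat_lit 5) (nat_lit 4) (nat_lit 389) (nat_lit 318) (nat_lit 193)) (XT.lf (nat_lit 0) (nat_lit 525690551720) (nat_lit 76) (nat_lit 286315000234) (nat_lit 76) (nat_lit 205856972955) (nat_lit 4) (nat_lit 4) (nat_lit 5) (nat_lit 5) (nat_lit 5) (nat_lit 4) (nat_lit 390) (nat_lit 318) (nat_lit 192))))) (XT.nd (nat_lit 234) (nat_lit 0) (nat_lit 76) (XT.nd (nat_lit 78) (nat_lit 760) (nat_lit 0) (XT.lf (nat_lit 0) (nat_lit 4201142702) (nat_lit 0) (nat_lit 4201142702) (nat_lit 684) (nat_lit 463020252) (nat_lit 111) (nat_lit 5) (nat_lit 111) (nat_lit 3) (nat_lit 120) (nat_lit 3) (nat_lit 319) (nat_lit 319) (nat_lit 262)) (XT.nd (nat_lit 78)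 (nat_lit 760) (nat_lit 0) (XT.lf (nat_lit 76) (nat_lit 4158163559) (nat_lit 0) (nat_lit 13773105013) (nat_lit 760) (nat_lit 485485358) (nat_lit 112) (nat_lit 5) (nat_lit 111) (nat_lit 5) (nat_lit 121) (nat_lit 5) (nat_lit 320) (nat_lit 319) (nat_lit 261)) (XT.lf (nat_lit 0) (nat_lit 265278601) (nat_lit 760) (nat_lit 256508340) (nat_lit 836) (nat_lit 18622309785) (nat_lit 101) (nat_lit 5) (nat_lit 111) (nat_lit 5) (nat_lit 112) (nat_lit 5) (nat_lit 321) (nat_lit 319) (nat_lit 260)))) (XT.nd (nat_lit 78) (nat_lit 0) (nat_lit 76) (XT.lf (nat_lit 0) (nat_lit 1488412706) (nat_lit 760) (nat_lit 4807995859) (nat_lit 836) (nat_lit 13611385956) (nat_lit 102) (nat_lit 5) (nat_lit 112) (nat_lit 5) (nat_lit 113) (nat_lit 5) (nat_lit 322) (nat_lit 319) (nat_lit 259)) (XT.nd (nat_lit 78) (nat_lit 0) (nat_lit 76) (XT.lf (nat_lit 0) (nat_lit 3101359488) (nat_lit 760) (nat_lit 9559139092) (nat_lit 836) (nat_lit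 8057520550) (nat_lit 103) (nat_lit 5) (nat_lit 113) (nat_lit 5) (nat_lit 114) (nat_lit 5) (nat_lit 323) (nat_lit 319) (nat_lit 258)) (XT.lf (nat_lit 0) (nat_lit 5150172868) (nat_lit 760) (nat_lit 14524161498) (nat_lit 836) (nat_lit 1903412734) (nat_lit 104) (nat_lit 5) (nat_lit 114) (nat_lit 5) (nat_lit 115) (nat_lit 5) (nat_lit 324) (nat_lit 319) (nat_lit 257)))))) (XT.nd (nat_lit 468) (nat_lit 1444) (nat_lit 0) (XT.nd (nat_lit 234) (nat_lit 1140) (nat_lit 0) (XT.nd (nat_lit 78) (nat_lit 684) (nat_lit 0) (XT.lf (nat_lit 76) (nat_lit 2688770474) (nat_lit 0) (nat_lit 5074739970) (nat_lit 836) (nat_lit 14722736847) (nat_lit 105) (nat_lit 5) (nat_lit 104) (nat_lit 5) (nat_lit 115) (nat_lit 5) (nat_lit 325) (nat_lit 319) (nat_lit 256)) (XT.nd (nat_lit 78) (nat_lit 760) (nat_lit 0) (XT.lf (nat_lit 0) (nat_lit 10987470343) (nat_lit 760) (nat_lit 1848659868) (nat_lit 76) (nat_lit 10611242611) (nat_lit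 105) (nat_lit 5) (nat_lit 115) (nat_lit 5) (nat_lit 106) (nat_lit 5) (nat_lit 326) (nat_lit 319) (nat_lit 255)) (XT.lf (nat_lit 0) (nat_lit 14865056764) (nat_lit 836) (nat_lit 6509786102) (nat_lit 76) (nat_lit 3090781425) (nat_lit 95) (nat_lit 5) (nat_lit 106) (nat_lit 5) (nat_lit 96) (nat_lit 5) (nat_lit 327) (nat_lit 319) (nat_lit 254)))) (XT.nd (nat_lit 78) (nat_lit 760) (nat_lit 0) (XT.lf (nat_lit 0) (nat_lit 14061161719) (nat_lit 380) (nat_lit 5440818146) (nat_lit 456) (nat_lit 6040919322) (nat_lit 90) (nat_lit 5) (nat_lit 95) (nat_lit 5) (nat_lit 96) (nat_lit 5) (nat_lit 328) (nat_lit 319) (nat_lit 253)) (XT.nd (nat_lit 78) (nat_lit 456) (nat_lit 0) (XT.lf (nat_lit 0) (nat_lit 9922532567) (nat_lit 304) (nat_lit 15022825913) (nat_lit 380) (nat_lit 1739240844) (nat_lit 86) (nat_lit 5) (nat_lit 90) (nat_lit 5) (nat_lit 91) (nat_lit 5) (nat_lit 329) (nat_lit 319) (nat_lit 252)) (XT.lf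 (nat_lit 0) (nat_lit 3214954624) (nat_lit 456) (nat_lit 22374083389) (nat_lit 76) (nat_lit 2306274078) (nat_lit 80) (nat_lit 5) (nat_lit 86) (nat_lit 5) (nat_lit 81) (nat_lit 5) (nat_lit 330) (nat_lit 319) (nat_lit 251))))) (XT.nd (nat_lit 234) (nat_lit 836) (nat_lit 0) (XT.nd (nat_lit 78) (nat_lit 304) (nat_lit 0) (XT.lf (nat_lit 0) (nat_lit 714101770) (nat_lit 304) (nat_lit 8335875936) (nat_lit 380) (nat_lit 20124222207) (nat_lit 76) (nat_lit 5) (nat_lit 80) (nat_lit 5) (nat_lit 81) (nat_lit 5) (nat_lit 331) (nat_lit 319) (nat_lit 250)) (XT.nd (nat_lit 78) (nat_lit 304) (nat_lit 0) (XT.lf (nat_lit 0) (nat_lit 15893001067) (nat_lit 380) (nat_lit 4273506816) (nat_lit 76) (nat_lit 10361844816) (nat_lit 76) (nat_lit 5) (nat_lit 81) (nat_lit 5) (nat_lit 77) (nat_lit 5) (nat_lit 332) (nat_lit 319) (nat_lit 249)) (XT.lf (nat_lit 0) (nat_lit 22407269292) (nat_lit 304) (nat_lit 1352052476) (nat_lit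 380) (nat_lit 8207736000) (nat_lit 72) (nat_lit 5) (nat_lit 76) (nat_lit 5) (nat_lit 77) (nat_lit 5) (nat_lit 333) (nat_lit 319) (nat_lit 248)))) (XT.nd (nat_lit 78) (nat_lit 608) (nat_lit 0) (XT.lf (nat_lit 0) (nat_lit 18123425711) (nat_lit 228) (nat_lit 14772508939) (nat_lit 304) (nat_lit 592887147) (nat_lit 69) (nat_lit 5) (nat_lit 72) (nat_lit 5) (nat_lit 73) (nat_lit 5) (nat_lit 334) (nat_lit 319) (nat_lit 247)) (XT.nd (nat_lit 78) (nat_lit 228) (nat_lit 0) (XT.lf (nat_lit 0) (nat_lit 7866152113) (nat_lit 380) (nat_lit 21686963979) (nat_lit 76) (nat_lit 5549301805) (nat_lit 64) (nat_lit 5) (nat_lit 69) (nat_lit 5) (nat_lit 65) (nat_lit 5) (nat_lit 335) (nat_lit 319) (nat_lit 246)) (XT.lf (nat_lit 0) (nat_lit 8197858495) (nat_lit 228) (nat_lit 9420125500) (nat_lit 304) (nat_lit 19194799351) (nat_lit 61) (nat_lit 5) (nat_lit 64) (nat_lit 5) (nat_lit 65) (nat_lit 5) (nat_lit 336) (nat_lit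 319) (nat_lit 245))))))))
noncomputable def xc81 : XT := (XT.nd (nat_lit 1794) (nat_lit 1140) (nat_lit 0) (XT.nd (nat_lit 858) (nat_lit 1216) (nat_lit 0) (XT.nd (nat_lit 390) (nat_lit 988) (nat_lit 0) (XT.nd (nat_lit 156) (nat_lit 608) (nat_lit 0) (XT.nd (nat_lit 78) (nat_lit 76) (nat_lit 0) (XT.lf (nat_lit 0) (nat_lit 2470689876) (nat_lit 228) (nat_lit 26282269312) (nat_lit 304) (nat_lit 9876877988) (nat_lit 58) (nat_lit 5) (nat_lit 61) (nat_lit 5) (nat_lit 62) (nat_lit 5) (nat_lit 337) (nat_lit 319) (nat_lit 244)) (XT.lf (nat_lit 0) (nat_lit 834469704) (nat_lit 304) (nat_lit 3688541303) (nat_lit 76) (nat_lit 36036408603) (nat_lit 57) (nat_lit 5) (nat_lit 61) (nat_lit 5) (nat_lit 58) (nat_lit 5) (nat_lit 338) (nat_lit 319) (nat_lit 243))) (XT.nd (nat_lit 78) (nat_lit 380) (nat_lit 0) (XT.lf (nat_lit 0) (nat_lit 12861051166) (nat_lit 304) (nat_lit 10687958574) (nat_lit 76) (nat_lit 19046052249)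 (nat_lit 54) (nat_lit 5) (nat_lit 58) (nat_lit 5) (nat_lit 55) (nat_lit 5) (nat_lit 339) (nat_lit 319) (nat_lit 242)) (XT.nd (nat_lit 78) (nat_lit 152) (nat_lit 0) (XT.lf (nat_lit 0) (nat_lit 26394883262) (nat_lit 304) (nat_lit 18321119063) (nat_lit 76) (nat_lit 50304018) (nat_lit 51) (nat_lit 5) (nat_lit 55) (nat_lit 5) (nat_lit 52) (nat_lit 5) (nat_lit 340) (nat_lit 319) (nat_lit 241)) (XT.lf (nat_lit 0) (nat_lit 20055865144) (nat_lit 152) (nat_lit 21845297128) (nat_lit 228) (nat_lit 5165607245) (nat_lit 49) (nat_lit 5) (nat_lit 51) (nat_lit 5) (nat_lit 52) (nat_lit 5) (nat_lit 341) (nat_lit 319) (nat_lit 240))))) (XT.nd (nat_lit 234) (nat_lit 532) (nat_lit 0) (XT.nd (nat_lit 78) (nat_lit 152) (nat_lit 0) (XT.lf (nat_lit 0) (nat_lit 9376956853) (nat_lit 304) (nat_lit 36701439153) (nat_lit 76) (nat_lit 3437206388) (nat_lit 45) (nat_lit 5) (nat_lit 49) (nat_lit 5) (nat_lit 46) (nat_lit 5)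 (nat_lit 342) (nat_lit 319) (nat_lit 239)) (XT.nd (nat_lit 78) (nat_lit 0) (nat_lit 0) (XT.lf (nat_lit 0) (nat_lit 4313818441) (nat_lit 152) (nat_lit 21495528658) (nat_lit 228) (nat_lit 26301395896) (nat_lit 43) (nat_lit 5) (nat_lit 45) (nat_lit 5) (nat_lit 46) (nat_lit 5) (nat_lit 343) (nat_lit 319) (nat_lit 238)) (XT.lf (nat_lit 0) (nat_lit 44276457868) (nat_lit 228) (nat_lit 5063819413) (nat_lit 76) (nat_lit 5537215850) (nat_lit 43) (nat_lit 5) (nat_lit 46) (nat_lit 5) (nat_lit 44) (nat_lit 5) (nat_lit 344) (nat_lit 319) (nat_lit 237)))) (XT.nd (nat_lit 78) (nat_lit 304) (nat_lit 0) (XT.lf (nat_lit 0) (nat_lit 7179687735) (nat_lit 228) (nat_lit 15871978707) (nat_lit 76) (nat_lit 34757572559) (nat_lit 40) (nat_lit 5) (nat_lit 43) (nat_lit 5) (nat_lit 41) (nat_lit 5) (nat_lit 345) (nat_lit 319) (nat_lit 236)) (XT.nd (nat_lit 78) (nat_lit 152) (nat_lit 0) (XT.lf (nat_lit 0) (nat_lit 26706034834)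 (nat_lit 228) (nat_lit 28268877772) (nat_lit 76) (nat_lit 5957197697) (nat_lit 38) (nat_lit 5) (nat_lit 41) (nat_lit 5) (nat_lit 39) (nat_lit 5) (nat_lit 346) (nat_lit 319) (nat_lit 235)) (XT.lf (nat_lit 0) (nat_lit 21644355645) (nat_lit 152) (nat_lit 27150408995) (nat_lit 228) (nat_lit 15460036516) (nat_lit 36) (nat_lit 5) (nat_lit 38) (nat_lit 5) (nat_lit 39) (nat_lit 5) (nat_lit 347) (nat_lit 319) (nat_lit 234)))))) (XT.nd (nat_lit 468) (nat_lit 608) (nat_lit 0) (XT.nd (nat_lit 234) (nat_lit 304) (nat_lit 0) (XT.nd (nat_lit 78) (nat_lit 152) (nat_lit 0) (XT.lf (nat_lit 0) (nat_lit 5343187499) (nat_lit 152) (nat_lit 58932582064) (nat_lit 76) (nat_lit 3529299869) (nat_lit 34) (nat_lit 5) (nat_lit 36) (nat_lit 5) (nat_lit 35) (nat_lit 5) (nat_lit 348) (nat_lit 319) (nat_lit 233)) (XT.nd (nat_lit 78) (nat_lit 152) (nat_lit 0) (XT.lf (nat_lit 0) (nat_lit 28481647539) (nat_lit 152) (nat_lit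 6348931231) (nat_lit 76) (nat_lit 36735480051) (nat_lit 34) (nat_lit 5) (nat_lit 36) (nat_lit 5) (nat_lit 35) (nat_lit 5) (nat_lit 349) (nat_lit 319) (nat_lit 232)) (XT.lf (nat_lit 0) (nat_lit 52098053817) (nat_lit 152) (nat_lit 2180195062) (nat_lit 228) (nat_lit 21309327974) (nat_lit 32) (nat_lit 5) (nat_lit 34) (nat_lit 5) (nat_lit 35) (nat_lit 5) (nat_lit 350) (nat_lit 319) (nat_lit 231)))) (XT.nd (nat_lit 78) (nat_lit 152) (nat_lit 0) (XT.lf (nat_lit 0) (nat_lit 3343789852) (nat_lit 152) (nat_lit 43775028866) (nat_lit 76) (nat_lit 32749942038) (nat_lit 30) (nat_lit 5) (nat_lit 32) (nat_lit 5) (nat_lit 31) (nat_lit 5) (nat_lit 351) (nat_lit 319) (nat_lit 230)) (XT.nd (nat_lit 78) (nat_lit 0) (nat_lit 0) (XT.lf (nat_lit 0) (nat_lit 16939532607) (nat_lit 152) (nat_lit 13004249746) (nat_lit 228) (nat_lit 54495132557) (nat_lit 28) (nat_lit 5) (nat_lit 30) (nat_lit 5) (nat_lit 31) (nat_lit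 5) (nat_lit 352) (nat_lit 319) (nat_lit 229)) (XT.lf (nat_lit 0) (nat_lit 59813328398) (nat_lit 228) (nat_lit 5656896813) (nat_lit 76) (nat_lit 23847380537) (nat_lit 28) (nat_lit 5) (nat_lit 31) (nat_lit 5) (nat_lit 29) (nat_lit 4) (nat_lit 353) (nat_lit 319) (nat_lit 228))))) (XT.nd (nat_lit 234) (nat_lit 228) (nat_lit 0) (XT.nd (nat_lit 78) (nat_lit 304) (nat_lit 0) (XT.lf (nat_lit 0) (nat_lit 62918141587) (nat_lit 76) (nat_lit 30350640902) (nat_lit 152) (nat_lit 1257994045) (nat_lit 27) (nat_lit 5) (nat_lit 28) (nat_lit 5) (nat_lit 29) (nat_lit 4) (nat_lit 354) (nat_lit 319) (nat_lit 227)) (XT.nd (nat_lit 78) (nat_lit 76) (nat_lit 0) (XT.lf (nat_lit 0) (nat_lit 29133765766) (nat_lit 228) (nat_lit 62457556196) (nat_lit 76) (nat_lit 8497433931) (nat_lit 24) (nat_lit 5) (nat_lit 27) (nat_lit 5) (nat_lit 25) (nat_lit 4) (nat_lit 355) (nat_lit 319) (nat_lit 226)) (XT.lf (nat_lit 0) (nat_lit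 7148692941) (nat_lit 76) (nat_lit 55942782991) (nat_lit 152) (nat_lit 42944253901) (nat_lit 23) (nat_lit 5) (nat_lit 24) (nat_lit 5) (nat_lit 25) (nat_lit 4) (nat_lit 356) (nat_lit 319) (nat_lit 225)))) (XT.nd (nat_lit 78) (nat_lit 228) (nat_lit 0) (XT.lf (nat_lit 0) (nat_lit 84545271742) (nat_lit 76) (nat_lit 16303820183) (nat_lit 152) (nat_lit 11555206751) (nat_lit 23) (nat_lit 5) (nat_lit 24) (nat_lit 5) (nat_lit 25) (nat_lit 4) (nat_lit 357) (nat_lit 319) (nat_lit 224)) (XT.nd (nat_lit 78) (nat_lit 76) (nat_lit 0) (XT.lf (nat_lit 0) (nat_lit 22839867518) (nat_lit 152) (nat_lit 69560573199) (nat_lit 76) (nat_lit 26803966115) (nat_lit 21) (nat_lit 5) (nat_lit 23) (nat_lit 5) (nat_lit 22) (nat_lit 4) (nat_lit 358) (nat_lit 319) (nat_lit 223)) (XT.lf (nat_lit 0) (nat_lit 7574384389) (nat_lit 76) (nat_lit 52894894189) (nat_lit 152) (nat_lit 66025396306) (nat_lit 20) (nat_lit 5) (nat_lit 21)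 (nat_lit 5) (nat_lit 22) (nat_lit 4) (nat_lit 359) (nat_lit 319) (nat_lit 222))))))) (XT.nd (nat_lit 936) (nat_lit 456) (nat_lit 0) (XT.nd (nat_lit 468) (nat_lit 304) (nat_lit 0) (XT.nd (nat_lit 234) (nat_lit 228) (nat_lit 0) (XT.nd (nat_lit 78) (nat_lit 152) (nat_lit 0) (XT.lf (nat_lit 0) (nat_lit 93356630477) (nat_lit 76) (nat_lit 8960055896) (nat_lit 152) (nat_lit 31991096900) (nat_lit 20) (nat_lit 5) (nat_lit 21) (nat_lit 5) (nat_lit 22) (nat_lit 4) (nat_lit 360) (nat_lit 319) (nat_lit 221)) (XT.nd (nat_lit 78) (nat_lit 0) (nat_lit 0) (XT.lf (nat_lit 0) (nat_lit 5919458211) (nat_lit 152) (nat_lit 98719539776) (nat_lit 76) (nat_lit 38037920228) (nat_lit 18) (nat_lit 5) (nat_lit 20) (nat_lit 5) (nat_lit 19) (nat_lit 4) (nat_lit 361) (nat_lit 319) (nat_lit 220)) (XT.lf (nat_lit 0) (nat_lit 46629459495) (nat_lit 152) (nat_lit 15268070632) (nat_lit 76) (nat_lit 89747461803) (nat_lit 18) (nat_lit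 5) (nat_lit 20) (nat_lit 5) (nat_lit 19) (nat_lit 4) (nat_lit 362) (nat_lit 319) (nat_lit 219)))) (XT.nd (nat_lit 78) (nat_lit 152) (nat_lit 0) (XT.lf (nat_lit 0) (nat_lit 77328116221) (nat_lit 76) (nat_lit 14472036720) (nat_lit 152) (nat_lit 69470164821) (nat_lit 17) (nat_lit 5) (nat_lit 18) (nat_lit 5) (nat_lit 19) (nat_lit 4) (nat_lit 363) (nat_lit 319) (nat_lit 218)) (XT.nd (nat_lit 78) (nat_lit 76) (nat_lit 0) (XT.lf (nat_lit 0) (nat_lit 5827029829) (nat_lit 76) (nat_lit 135689196412) (nat_lit 76) (nat_lit 30102857960) (nat_lit 16) (nat_lit 4) (nat_lit 17) (nat_lit 5) (nat_lit 17) (nat_lit 4) (nat_lit 364) (nat_lit 319) (nat_lit 217)) (XT.lf (nat_lit 0) (nat_lit 13743524181) (nat_lit 152) (nat_lit 77415163321) (nat_lit 76) (nat_lit 91541023844) (nat_lit 15) (nat_lit 5) (nat_lit 17) (nat_lit 5) (nat_lit 16) (nat_lit 4) (nat_lit 365) (nat_lit 319) (nat_lit 216))))) (XT.nd (nat_lit 234)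 (nat_lit 152) (nat_lit 0) (XT.nd (nat_lit 78) (nat_lit 76) (nat_lit 0) (XT.lf (nat_lit 0) (nat_lit 18097924930) (nat_lit 76) (nat_lit 42238726961) (nat_lit 152) (nat_lit 134290778292) (nat_lit 14) (nat_lit 5) (nat_lit 15) (nat_lit 5) (nat_lit 16) (nat_lit 4) (nat_lit 366) (nat_lit 319) (nat_lit 215)) (XT.nd (nat_lit 78) (nat_lit 76) (nat_lit 0) (XT.lf (nat_lit 0) (nat_lit 112190403741) (nat_lit 152) (nat_lit 83618401739) (nat_lit 0) (nat_lit 11623902928) (nat_lit 14) (nat_lit 5) (nat_lit 16) (nat_lit 4) (nat_lit 14) (nat_lit 4) (nat_lit 367) (nat_lit 319) (nat_lit 214)) (XT.lf (nat_lit 0) (nat_lit 16537609797) (nat_lit 76) (nat_lit 152622608881) (nat_lit 76) (nat_lit 52053802598) (nat_lit 13) (nat_lit 4) (nat_lit 14) (nat_lit 5) (nat_lit 14) (nat_lit 4) (nat_lit 368) (nat_lit 319) (nat_lit 213)))) (XT.nd (nat_lit 78) (nat_lit 152) (nat_lit 0) (XT.lf (nat_lit 0) (nat_lit 127687243568) (nat_lit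 76) (nat_lit 104454417483) (nat_lit 76) (nat_lit 3883476504) (nat_lit 13) (nat_lit 4) (nat_lit 14) (nat_lit 5) (nat_lit 14) (nat_lit 4) (nat_lit 369) (nat_lit 319) (nat_lit 212)) (XT.nd (nat_lit 78) (nat_lit 76) (nat_lit 0) (XT.lf (nat_lit 0) (nat_lit 46597292377) (nat_lit 152) (nat_lit 5048468174) (nat_lit 76) (nat_lit 200337922006) (nat_lit 12) (nat_lit 5) (nat_lit 14) (nat_lit 5) (nat_lit 13) (nat_lit 4) (nat_lit 370) (nat_lit 319) (nat_lit 211)) (XT.lf (nat_lit 0) (nat_lit 102810056666) (nat_lit 152) (nat_lit 159289609456) (nat_lit 0) (nat_lit 7024582661) (nat_lit 11) (nat_lit 5) (nat_lit 13) (nat_lit 4) (nat_lit 11) (nat_lit 4) (nat_lit 371) (nat_lit 319) (nat_lit 210)))))) (XT.nd (nat_lit 468) (nat_lit 228) (nat_lit 0) (XT.nd (nat_lit 234) (nat_lit 152) (nat_lit 0) (XT.nd (nat_lit 78) (nat_lit 76) (nat_lit 0) (XT.lf (nat_lit 0) (nat_lit 164477926520) (nat_lit 152) (nat_lit 54419391319)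 (nat_lit 0) (nat_lit 68690838620) (nat_lit 11) (nat_lit 5) (nat_lit 13) (nat_lit 4) (nat_lit 11) (nat_lit 4) (nat_lit 372) (nat_lit 319) (nat_lit 209)) (XT.nd (nat_lit 78) (nat_lit 0) (nat_lit 0) (XT.lf (nat_lit 0) (nat_lit 60782034957) (nat_lit 76) (nat_lit 171244187286) (nat_lit 76) (nat_lit 75455605039) (nat_lit 10) (nat_lit 4) (nat_lit 11) (nat_lit 5) (nat_lit 11) (nat_lit 4) (nat_lit 373) (nat_lit 319) (nat_lit 208)) (XT.lf (nat_lit 0) (nat_lit 187139225977) (nat_lit 76) (nat_lit 118785214535) (nat_lit 76) (nat_lit 22995248633) (nat_lit 10) (nat_lit 4) (nat_lit 11) (nat_lit 5) (nat_lit 11) (nat_lit 4) (nat_lit 374) (nat_lit 319) (nat_lit 207)))) (XT.nd (nat_lit 78) (nat_lit 76) (nat_lit 0) (XT.lf (nat_lit 0) (nat_lit 32582763432) (nat_lit 152) (nat_lit 28996582027) (nat_lit 76) (nat_lit 290467045956) (nat_lit 9) (nat_lit 5) (nat_lit 11) (nat_lit 5) (nat_lit 10) (nat_lit 4) (nat_lit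 375) (nat_lit 319) (nat_lit 206)) (XT.nd (nat_lit 78) (nat_lit 0) (nat_lit 0) (XT.lf (nat_lit 0) (nat_lit 93335065546) (nat_lit 152) (nat_lit 281488454824) (nat_lit 0) (nat_lit 2104176664) (nat_lit 8) (nat_lit 5) (nat_lit 10) (nat_lit 4) (nat_lit 8) (nat_lit 4) (nat_lit 376) (nat_lit 319) (nat_lit 205)) (XT.lf (nat_lit 0) (nat_lit 160497677069) (nat_lit 152) (nat_lit 173958581910) (nat_lit 0) (nat_lit 69265742102) (nat_lit 8) (nat_lit 5) (nat_lit 10) (nat_lit 4) (nat_lit 8) (nat_lit 4) (nat_lit 377) (nat_lit 319) (nat_lit 204))))) (XT.nd (nat_lit 234) (nat_lit 152) (nat_lit 0) (XT.nd (nat_lit 78) (nat_lit 76) (nat_lit 0) (XT.lf (nat_lit 0) (nat_lit 233031818702) (nat_lit 152) (nat_lit 57829189779) (nat_lit 0) (nat_lit 141798915137) (nat_lit 8) (nat_lit 5) (nat_lit 10) (nat_lit 4) (nat_lit 8) (nat_lit 4) (nat_lit 378) (nat_lit 319) (nat_lit 203)) (XT.nd (nat_lit 78) (nat_lit 0) (nat_lit 0)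 (XT.lf (nat_lit 0) (nat_lit 69822656812) (nat_lit 76) (nat_lit 242634792931) (nat_lit 76) (nat_lit 151400992517) (nat_lit 7) (nat_lit 4) (nat_lit 8) (nat_lit 5) (nat_lit 8) (nat_lit 4) (nat_lit 379) (nat_lit 319) (nat_lit 202)) (XT.lf (nat_lit 0) (nat_lit 209749170379) (nat_lit 76) (nat_lit 189494000528) (nat_lit 76) (nat_lit 98259369697) (nat_lit 7) (nat_lit 4) (nat_lit 8) (nat_lit 5) (nat_lit 8) (nat_lit 4) (nat_lit 380) (nat_lit 319) (nat_lit 201)))) (XT.nd (nat_lit 78) (nat_lit 152) (nat_lit 0) (XT.lf (nat_lit 0) (nat_lit 360867450897) (nat_lit 76) (nat_lit 132103088183) (nat_lit 76) (nat_lit 40867688448) (nat_lit 7) (nat_lit 4) (nat_lit 8) (nat_lit 5) (nat_lit 8) (nat_lit 4) (nat_lit 381) (nat_lit 319) (nat_lit 200)) (XT.nd (nat_lit 78) (nat_lit 76) (nat_lit 0) (XT.lf (nat_lit 0) (nat_lit 20438365419) (nat_lit 152) (nat_lit 49337462574) (nat_lit 76) (nat_lit 503288515075) (nat_lit 6)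 (nat_lit 5) (nat_lit 8) (nat_lit 5) (nat_lit 7) (nat_lit 4) (nat_lit 382) (nat_lit 319) (nat_lit 199)) (XT.lf (nat_lit 0) (nat_lit 86256093062) (nat_lit 76) (nat_lit 325791794) (nat_lit 152) (nat_lit 528744925734) (nat_lit 5) (nat_lit 5) (nat_lit 6) (nat_lit 5) (nat_lit 7) (nat_lit 4) (nat_lit 383) (nat_lit 319) (nat_lit 198))))))))
noncomputable def xc82 : XT := (XT.nd (nat_lit 43134) (nat_lit 0) (nat_lit 1292) (XT.nd (nat_lit 42198) (nat_lit 0) (nat_lit 4940) (XT.nd (nat_lit 390) (nat_lit 0) (nat_lit 0) (XT.nd (nat_lit 156) (nat_lit 76) (nat_lit 0) (XT.nd (nat_lit 78) (nat_lit 0) (nat_lit 0) (XT.lf (nat_lit 0) (nat_lit 160055346962) (nat_lit 152) (nat_lit 427650402741) (nat_lit 0) (nat_lit 73162602890) (nat_lit 5) (nat_lit 5) (nat_lit 7) (nat_lit 4) (nat_lit 5) (nat_lit 4) (nat_lit 384) (nat_lit 319) (nat_lit 197)) (XT.lf (nat_lit 0) (nat_lit 239411232657) (nat_lit 152) (nat_lit 318123807763)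 (nat_lit 0) (nat_lit 152517950330) (nat_lit 5) (nat_lit 5) (nat_lit 7) (nat_lit 4) (nat_lit 5) (nat_lit 4) (nat_lit 385) (nat_lit 319) (nat_lit 196))) (XT.nd (nat_lit 78) (nat_lit 76) (nat_lit 0) (XT.lf (nat_lit 0) (nat_lit 325114712519) (nat_lit 152) (nat_lit 199836799583) (nat_lit 0) (nat_lit 238220931808) (nat_lit 5) (nat_lit 5) (nat_lit 7) (nat_lit 4) (nat_lit 5) (nat_lit 4) (nat_lit 386) (nat_lit 319) (nat_lit 195)) (XT.nd (nat_lit 78) (nat_lit 76) (nat_lit 0) (XT.lf (nat_lit 0) (nat_lit 417673659021) (nat_lit 152) (nat_lit 72088418152) (nat_lit 0) (nat_lit 330779416843) (nat_lit 5) (nat_lit 5) (nat_lit 7) (nat_lit 4) (nat_lit 5) (nat_lit 4) (nat_lit 387) (nat_lit 319) (nat_lit 194)) (XT.lf (nat_lit 0) (nat_lit 68056600202) (nat_lit 76) (nat_lit 450642523679) (nat_lit 76) (nat_lit 363747854217) (nat_lit 4) (nat_lit 4) (nat_lit 5) (nat_lit 5) (nat_lit 5) (nat_lit 4) (nat_lit 388) (nat_lit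 319) (nat_lit 193))))) (XT.nd (nat_lit 41574) (nat_lit 0) (nat_lit 7372) (XT.nd (nat_lit 78) (nat_lit 0) (nat_lit 0) (XT.lf (nat_lit 0) (nat_lit 221986068241) (nat_lit 76) (nat_lit 407075573529) (nat_lit 76) (nat_lit 320180508434) (nat_lit 4) (nat_lit 4) (nat_lit 5) (nat_lit 5) (nat_lit 5) (nat_lit 4) (nat_lit 389) (nat_lit 319) (nat_lit 192)) (XT.nd (nat_lit 41418) (nat_lit 0) (nat_lit 8132) (XT.lf (nat_lit 0) (nat_lit 388228591925) (nat_lit 76) (nat_lit 360023904449) (nat_lit 76) (nat_lit 273128473027) (nat_lit 4) (nat_lit 4) (nat_lit 5) (nat_lit 5) (nat_lit 5) (nat_lit 4) (nat_lit 390) (nat_lit 319) (nat_lit 191)) (XT.lf (nat_lit 0) (nat_lit 4691309238) (nat_lit 0) (nat_lit 4691309238) (nat_lit 684) (nat_lit 176156595) (nat_lit 111) (nat_lit 5) (nat_lit 111) (nat_lit 3) (nat_lit 120) (nat_lit 3) (nat_lit 320) (nat_lit 320) (nat_lit 260)))) (XT.nd (nat_lit 78) (nat_lit 0) (nat_lit 0) (XT.lf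 (nat_lit 0) (nat_lit 73784947) (nat_lit 760) (nat_lit 15041756102) (nat_lit 836) (nat_lit 4745283210) (nat_lit 101) (nat_lit 5) (nat_lit 111) (nat_lit 5) (nat_lit 112) (nat_lit 5) (nat_lit 321) (nat_lit 320) (nat_lit 259)) (XT.nd (nat_lit 78) (nat_lit 0) (nat_lit 76) (XT.lf (nat_lit 76) (nat_lit 47964803) (nat_lit 0) (nat_lit 777551141) (nat_lit 836) (nat_lit 19822590248) (nat_lit 102) (nat_lit 5) (nat_lit 101) (nat_lit 5) (nat_lit 112) (nat_lit 5) (nat_lit 322) (nat_lit 320) (nat_lit 258)) (XT.lf (nat_lit 0) (nat_lit 2107684837) (nat_lit 760) (nat_lit 4854521133) (nat_lit 836) (nat_lit 14512676676) (nat_lit 102) (nat_lit 5) (nat_lit 112) (nat_lit 5) (nat_lit 113) (nat_lit 5) (nat_lit 323) (nat_lit 320) (nat_lit 257)))))) (XT.nd (nat_lit 468) (nat_lit 1596) (nat_lit 0) (XT.nd (nat_lit 234) (nat_lit 988) (nat_lit 0) (XT.nd (nat_lit 78) (nat_lit 0) (nat_lit 76) (XT.lf (nat_lit 0) (nat_lit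 3815404707) (nat_lit 760) (nat_lit 9974293101) (nat_lit 836) (nat_lit 8561979474) (nat_lit 103) (nat_lit 5) (nat_lit 113) (nat_lit 5) (nat_lit 114) (nat_lit 5) (nat_lit 324) (nat_lit 320) (nat_lit 256)) (XT.nd (nat_lit 78) (nat_lit 0) (nat_lit 0) (XT.lf (nat_lit 0) (nat_lit 5997233491) (nat_lit 760) (nat_lit 15327830272) (nat_lit 836) (nat_lit 1956700251) (nat_lit 104) (nat_lit 5) (nat_lit 114) (nat_lit 5) (nat_lit 115) (nat_lit 5) (nat_lit 325) (nat_lit 320) (nat_lit 255)) (XT.lf (nat_lit 76) (nat_lit 3246566535) (nat_lit 0) (nat_lit 5546196270) (nat_lit 836) (nat_lit 15471558549) (nat_lit 105) (nat_lit 5) (nat_lit 104) (nat_lit 5) (nat_lit 115) (nat_lit 5) (nat_lit 326) (nat_lit 320) (nat_lit 254)))) (XT.nd (nat_lit 78) (nat_lit 1140) (nat_lit 0) (XT.lf (nat_lit 0) (nat_lit 12243458011) (nat_lit 760) (nat_lit 1659013377) (nat_lit 76) (nat_lit 11401455514) (nat_lit 105) (nat_lit 5) (nat_lit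 115) (nat_lit 5) (nat_lit 106) (nat_lit 5) (nat_lit 327) (nat_lit 320) (nat_lit 253)) (XT.nd (nat_lit 78) (nat_lit 380) (nat_lit 0) (XT.lf (nat_lit 0) (nat_lit 16407879393) (nat_lit 836) (nat_lit 6689148160) (nat_lit 76) (nat_lit 3307808144) (nat_lit 95) (nat_lit 5) (nat_lit 106) (nat_lit 5) (nat_lit 96) (nat_lit 5) (nat_lit 328) (nat_lit 320) (nat_lit 252)) (XT.lf (nat_lit 0) (nat_lit 15512637754) (nat_lit 380) (nat_lit 5882023534) (nat_lit 456) (nat_lit 6174712542) (nat_lit 90) (nat_lit 5) (nat_lit 95) (nat_lit 5) (nat_lit 96) (nat_lit 5) (nat_lit 329) (nat_lit 320) (nat_lit 251))))) (XT.nd (nat_lit 234) (nat_lit 532) (nat_lit 0) (XT.nd (nat_lit 78) (nat_lit 760) (nat_lit 0) (XT.lf (nat_lit 0) (nat_lit 11045034425) (nat_lit 304) (nat_lit 16208890478) (nat_lit 380) (nat_lit 1549488867) (nat_lit 86) (nat_lit 5) (nat_lit 90) (nat_lit 5) (nat_lit 91) (nat_lit 5) (nat_lit 330) (nat_lit 320)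 (nat_lit 250)) (XT.nd (nat_lit 78) (nat_lit 304) (nat_lit 0) (XT.lf (nat_lit 0) (nat_lit 3772392472) (nat_lit 456) (nat_lit 23824373162) (nat_lit 76) (nat_lit 2514888968) (nat_lit 80) (nat_lit 5) (nat_lit 86) (nat_lit 5) (nat_lit 81) (nat_lit 5) (nat_lit 331) (nat_lit 320) (nat_lit 249)) (XT.lf (nat_lit 0) (nat_lit 1096106604) (nat_lit 304) (nat_lit 8960942923) (nat_lit 380) (nat_lit 21436682346) (nat_lit 76) (nat_lit 5) (nat_lit 80) (nat_lit 5) (nat_lit 81) (nat_lit 5) (nat_lit 332) (nat_lit 320) (nat_lit 248)))) (XT.nd (nat_lit 78) (nat_lit 532) (nat_lit 0) (XT.lf (nat_lit 0) (nat_lit 17427150660) (nat_lit 380) (nat_lit 4301842859) (nat_lit 76) (nat_lit 11228260112) (nat_lit 76) (nat_lit 5) (nat_lit 81) (nat_lit 5) (nat_lit 77) (nat_lit 5) (nat_lit 333) (nat_lit 320) (nat_lit 247)) (XT.nd (nat_lit 78) (nat_lit 228) (nat_lit 0) (XT.lf (nat_lit 0) (nat_lit 24499769076) (nat_lit 304) (nat_lit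 1408230542) (nat_lit 380) (nat_lit 8603811528) (nat_lit 72) (nat_lit 5) (nat_lit 76) (nat_lit 5) (nat_lit 77) (nat_lit 5) (nat_lit 334) (nat_lit 320) (nat_lit 246)) (XT.lf (nat_lit 0) (nat_lit 19871470725) (nat_lit 228) (nat_lit 15891112275) (nat_lit 304) (nat_lit 393397123) (nat_lit 69) (nat_lit 5) (nat_lit 72) (nat_lit 5) (nat_lit 73) (nat_lit 5) (nat_lit 335) (nat_lit 320) (nat_lit 245))))))) (XT.nd (nat_lit 936) (nat_lit 1292) (nat_lit 0) (XT.nd (nat_lit 468) (nat_lit 988) (nat_lit 0) (XT.nd (nat_lit 234) (nat_lit 532) (nat_lit 0) (XT.nd (nat_lit 78) (nat_lit 456) (nat_lit 0) (XT.lf (nat_lit 0) (nat_lit 8722378151) (nat_lit 380) (nat_lit 23118545184) (nat_lit 76) (nat_lit 6058166047) (nat_lit 64) (nat_lit 5) (nat_lit 69) (nat_lit 5) (nat_lit 65) (nat_lit 5) (nat_lit 336) (nat_lit 320) (nat_lit 244)) (XT.nd (nat_lit 78) (nat_lit 228) (nat_lit 0) (XT.lf (nat_lit 0) (nat_lit 9143878740)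 (nat_lit 228) (nat_lit 10098198630) (nat_lit 304) (nat_lit 20504833638) (nat_lit 61) (nat_lit 5) (nat_lit 64) (nat_lit 5) (nat_lit 65) (nat_lit 5) (nat_lit 337) (nat_lit 320) (nat_lit 243)) (XT.lf (nat_lit 0) (nat_lit 2955218692) (nat_lit 228) (nat_lit 28302302427) (nat_lit 304) (nat_lit 10452336518) (nat_lit 58) (nat_lit 5) (nat_lit 61) (nat_lit 5) (nat_lit 62) (nat_lit 5) (nat_lit 338) (nat_lit 320) (nat_lit 242)))) (XT.nd (nat_lit 78) (nat_lit 456) (nat_lit 0) (XT.lf (nat_lit 0) (nat_lit 1093653422) (nat_lit 304) (nat_lit 3711505904) (nat_lit 76) (nat_lit 38989260047) (nat_lit 57) (nat_lit 5) (nat_lit 61) (nat_lit 5) (nat_lit 58) (nat_lit 5) (nat_lit 339) (nat_lit 320) (nat_lit 241)) (XT.nd (nat_lit 78) (nat_lit 228) (nat_lit 0) (XT.lf (nat_lit 0) (nat_lit 14073390192) (nat_lit 304) (nat_lit 11274686689) (nat_lit 76) (nat_lit 20645294636) (nat_lit 54) (nat_lit 5) (nat_lit 58) (nat_lit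 5) (nat_lit 55) (nat_lit 5) (nat_lit 340) (nat_lit 320) (nat_lit 240)) (XT.lf (nat_lit 0) (nat_lit 28681638958) (nat_lit 304) (nat_lit 19522645509) (nat_lit 76) (nat_lit 134454536) (nat_lit 51) (nat_lit 5) (nat_lit 55) (nat_lit 5) (nat_lit 52) (nat_lit 5) (nat_lit 341) (nat_lit 320) (nat_lit 239))))) (XT.nd (nat_lit 234) (nat_lit 380) (nat_lit 0) (XT.nd (nat_lit 78) (nat_lit 456) (nat_lit 0) (XT.lf (nat_lit 0) (nat_lit 21913017229) (nat_lit 152) (nat_lit 23506372960) (nat_lit 228) (nat_lit 5404308962) (nat_lit 49) (nat_lit 5) (nat_lit 51) (nat_lit 5) (nat_lit 52) (nat_lit 5) (nat_lit 342) (nat_lit 320) (nat_lit 238)) (XT.nd (nat_lit 78) (nat_lit 152) (nat_lit 0) (XT.lf (nat_lit 0) (nat_lit 10288772449) (nat_lit 304) (nat_lit 39383660948) (nat_lit 76) (nat_lit 3796241484) (nat_lit 45) (nat_lit 5) (nat_lit 49) (nat_lit 5) (nat_lit 46) (nat_lit 5) (nat_lit 343) (nat_lit 320) (nat_lit 237))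 (XT.lf (nat_lit 0) (nat_lit 4901783358) (nat_lit 152) (nat_lit 23125787528) (nat_lit 228) (nat_lit 28244271865) (nat_lit 43) (nat_lit 5) (nat_lit 45) (nat_lit 5) (nat_lit 46) (nat_lit 5) (nat_lit 344) (nat_lit 320) (nat_lit 236)))) (XT.nd (nat_lit 78) (nat_lit 380) (nat_lit 0) (XT.lf (nat_lit 0) (nat_lit 47961974077) (nat_lit 228) (nat_lit 5238162374) (nat_lit 76) (nat_lit 6060306631) (nat_lit 43) (nat_lit 5) (nat_lit 46) (nat_lit 5) (nat_lit 44) (nat_lit 5) (nat_lit 345) (nat_lit 320) (nat_lit 235)) (XT.nd (nat_lit 78) (nat_lit 152) (nat_lit 0) (XT.lf (nat_lit 0) (nat_lit 7892590865) (nat_lit 228) (nat_lit 16916352584) (nat_lit 76) (nat_lit 37618038142) (nat_lit 40) (nat_lit 5) (nat_lit 43) (nat_lit 5) (nat_lit 41) (nat_lit 5) (nat_lit 346) (nat_lit 320) (nat_lit 234)) (XT.lf (nat_lit 0) (nat_lit 28975461148) (nat_lit 228) (nat_lit 30309462741) (nat_lit 76) (nat_lit 6515043133) (nat_lit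 38) (nat_lit 5) (nat_lit 41) (nat_lit 5) (nat_lit 39) (nat_lit 5) (nat_lit 347) (nat_lit 320) (nat_lit 233)))))) (XT.nd (nat_lit 468) (nat_lit 532) (nat_lit 0) (XT.nd (nat_lit 234) (nat_lit 456) (nat_lit 0) (XT.nd (nat_lit 78) (nat_lit 152) (nat_lit 0) (XT.lf (nat_lit 0) (nat_lit 23587228207) (nat_lit 152) (nat_lit 29237512824) (nat_lit 228) (nat_lit 16564064337) (nat_lit 36) (nat_lit 5) (nat_lit 38) (nat_lit 5) (nat_lit 39) (nat_lit 5) (nat_lit 348) (nat_lit 320) (nat_lit 232)) (XT.nd (nat_lit 78) (nat_lit 0) (nat_lit 0) (XT.lf (nat_lit 0) (nat_lit 5894179873) (nat_lit 152) (nat_lit 63436076422) (nat_lit 76) (nat_lit 3892988808) (nat_lit 34) (nat_lit 5) (nat_lit 36) (nat_lit 5) (nat_lit 35) (nat_lit 5) (nat_lit 349) (nat_lit 320) (nat_lit 231)) (XT.lf (nat_lit 0) (nat_lit 30874565800) (nat_lit 152) (nat_lit 6661371464) (nat_lit 76) (nat_lit 39749637852) (nat_lit 34) (nat_lit 5) (nat_lit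 36) (nat_lit 5) (nat_lit 35) (nat_lit 5) (nat_lit 350) (nat_lit 320) (nat_lit 230)))) (XT.nd (nat_lit 78) (nat_lit 304) (nat_lit 0) (XT.lf (nat_lit 0) (nat_lit 56452877315) (nat_lit 152) (nat_lit 2276464130) (nat_lit 228) (nat_lit 22899754471) (nat_lit 32) (nat_lit 5) (nat_lit 34) (nat_lit 5) (nat_lit 35) (nat_lit 5) (nat_lit 351) (nat_lit 320) (nat_lit 229)) (XT.nd (nat_lit 78) (nat_lit 152) (nat_lit 0) (XT.lf (nat_lit 0) (nat_lit 3717807916) (nat_lit 152) (nat_lit 47090534366) (nat_lit 76) (nat_lit 35444553508) (nat_lit 30) (nat_lit 5) (nat_lit 32) (nat_lit 5) (nat_lit 31) (nat_lit 5) (nat_lit 352) (nat_lit 320) (nat_lit 228)) (XT.lf (nat_lit 0) (nat_lit 18473087101) (nat_lit 152) (nat_lit 13967607924) (nat_lit 228) (nat_lit 58748225463) (nat_lit 28) (nat_lit 5) (nat_lit 30) (nat_lit 5) (nat_lit 31) (nat_lit 5) (nat_lit 353) (nat_lit 320) (nat_lit 227))))) (XT.nd (nat_lit 234) (nat_lit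 228) (nat_lit 0) (XT.nd (nat_lit 78) (nat_lit 304) (nat_lit 0) (XT.lf (nat_lit 0) (nat_lit 64693405766) (nat_lit 228) (nat_lit 5940654484) (nat_lit 76) (nat_lit 25824169039) (nat_lit 28) (nat_lit 5) (nat_lit 31) (nat_lit 5) (nat_lit 29) (nat_lit 4) (nat_lit 354) (nat_lit 320) (nat_lit 226)) (XT.nd (nat_lit 78) (nat_lit 228) (nat_lit 0) (XT.lf (nat_lit 0) (nat_lit 68113051403) (nat_lit 76) (nat_lit 32707727742) (nat_lit 152) (nat_lit 1263582991) (nat_lit 27) (nat_lit 5) (nat_lit 28) (nat_lit 5) (nat_lit 29) (nat_lit 4) (nat_lit 355) (nat_lit 320) (nat_lit 225)) (XT.lf (nat_lit 0) (nat_lit 31553205802) (nat_lit 228) (nat_lit 67293458132) (nat_lit 76) (nat_lit 9244727433) (nat_lit 24) (nat_lit 5) (nat_lit 27) (nat_lit 5) (nat_lit 25) (nat_lit 4) (nat_lit 356) (nat_lit 320) (nat_lit 224)))) (XT.nd (nat_lit 78) (nat_lit 152) (nat_lit 0) (XT.lf (nat_lit 0) (nat_lit 7874306998) (nat_lit 76) (nat_lit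 60349052520) (nat_lit 152) (nat_lit 46290974447) (nat_lit 23) (nat_lit 5) (nat_lit 24) (nat_lit 5) (nat_lit 25) (nat_lit 4) (nat_lit 357) (nat_lit 320) (nat_lit 223)) (XT.nd (nat_lit 78) (nat_lit 152) (nat_lit 0) (XT.lf (nat_lit 0) (nat_lit 91451225539) (nat_lit 76) (nat_lit 17544095139) (nat_lit 152) (nat_lit 12397382767) (nat_lit 23) (nat_lit 5) (nat_lit 24) (nat_lit 5) (nat_lit 25) (nat_lit 4) (nat_lit 358) (nat_lit 320) (nat_lit 222)) (XT.lf (nat_lit 0) (nat_lit 24743914234) (nat_lit 152) (nat_lit 74983898430) (nat_lit 76) (nat_lit 29009082637) (nat_lit 21) (nat_lit 5) (nat_lit 23) (nat_lit 5) (nat_lit 22) (nat_lit 4) (nat_lit 359) (nat_lit 320) (nat_lit 221))))))))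
noncomputable def xc83 : XT := (XT.nd (nat_lit 1794) (nat_lit 228) (nat_lit 0) (XT.nd (nat_lit 858) (nat_lit 456) (nat_lit 0) (XT.nd (nat_lit 390) (nat_lit 304) (nat_lit 0) (XT.nd (nat_lit 156) (nat_lit 228) (nat_lit 0) (XT.nd (nat_lit 78) (nat_lit 0) (nat_lit 0) (XT.lf (nat_lit 0) (nat_lit 8315705451) (nat_lit 76) (nat_lit 57064393103) (nat_lit 152) (nat_lit 71230466794) (nat_lit 20) (nat_lit 5) (nat_lit 21) (nat_lit 5) (nat_lit 22) (nat_lit 4) (nat_lit 360) (nat_lit 320) (nat_lit 220)) (XT.lf (nat_lit 0) (nat_lit 100950503796) (nat_lit 76) (nat_lit 9619367200) (nat_lit 152) (nat_lit 34479124267) (nat_lit 20) (nat_lit 5) (nat_lit 21) (nat_lit 5) (nat_lit 22) (nat_lit 4) (nat_lit 361) (nat_lit 320) (nat_lit 219))) (XT.nd (nat_lit 78) (nat_lit 76) (nat_lit 0) (XT.lf (nat_lit 0) (nat_lit 6459670378) (nat_lit 152) (nat_lit 106492583527) (nat_lit 76) (nat_lit 41135468953) (nat_lit 18) (nat_lit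 5) (nat_lit 20) (nat_lit 5) (nat_lit 19) (nat_lit 4) (nat_lit 362) (nat_lit 320) (nat_lit 218)) (XT.nd (nat_lit 78) (nat_lit 76) (nat_lit 0) (XT.lf (nat_lit 0) (nat_lit 50421534320) (nat_lit 152) (nat_lit 16374220513) (nat_lit 76) (nat_lit 96977735699) (nat_lit 18) (nat_lit 5) (nat_lit 20) (nat_lit 5) (nat_lit 19) (nat_lit 4) (nat_lit 363) (nat_lit 320) (nat_lit 217)) (XT.lf (nat_lit 0) (nat_lit 83624650674) (nat_lit 76) (nat_lit 15578382719) (nat_lit 152) (nat_lit 74965952629) (nat_lit 17) (nat_lit 5) (nat_lit 18) (nat_lit 5) (nat_lit 19) (nat_lit 4) (nat_lit 364) (nat_lit 320) (nat_lit 216))))) (XT.nd (nat_lit 234) (nat_lit 76) (nat_lit 0) (XT.nd (nat_lit 78) (nat_lit 152) (nat_lit 0) (XT.lf (nat_lit 0) (nat_lit 6400745283) (nat_lit 76) (nat_lit 146493709170) (nat_lit 76) (nat_lit 32451297249) (nat_lit 16) (nat_lit 4) (nat_lit 17) (nat_lit 5) (nat_lit 17) (nat_lit 4) (nat_lit 365) (nat_lit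 320) (nat_lit 215)) (XT.nd (nat_lit 78) (nat_lit 76) (nat_lit 0) (XT.lf (nat_lit 0) (nat_lit 14896594741) (nat_lit 152) (nat_lit 83507007104) (nat_lit 76) (nat_lit 98909395750) (nat_lit 15) (nat_lit 5) (nat_lit 17) (nat_lit 5) (nat_lit 16) (nat_lit 4) (nat_lit 366) (nat_lit 320) (nat_lit 214)) (XT.lf (nat_lit 0) (nat_lit 19642722821) (nat_lit 76) (nat_lit 45571994198) (nat_lit 152) (nat_lit 144980340536) (nat_lit 14) (nat_lit 5) (nat_lit 15) (nat_lit 5) (nat_lit 16) (nat_lit 4) (nat_lit 367) (nat_lit 320) (nat_lit 213)))) (XT.nd (nat_lit 78) (nat_lit 76) (nat_lit 0) (XT.lf (nat_lit 0) (nat_lit 121213643934) (nat_lit 152) (nat_lit 90216378145) (nat_lit 0) (nat_lit 12594892982) (nat_lit 14) (nat_lit 5) (nat_lit 16) (nat_lit 4) (nat_lit 14) (nat_lit 4) (nat_lit 368) (nat_lit 320) (nat_lit 212)) (XT.nd (nat_lit 78) (nat_lit 0) (nat_lit 0) (XT.lf (nat_lit 0) (nat_lit 17948138021) (nat_lit 76)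 (nat_lit 164790716329) (nat_lit 76) (nat_lit 56169988807) (nat_lit 13) (nat_lit 4) (nat_lit 14) (nat_lit 5) (nat_lit 14) (nat_lit 4) (nat_lit 369) (nat_lit 320) (nat_lit 211)) (XT.lf (nat_lit 0) (nat_lit 137983259572) (nat_lit 76) (nat_lit 112772158601) (nat_lit 76) (nat_lit 4149600922) (nat_lit 13) (nat_lit 4) (nat_lit 14) (nat_lit 5) (nat_lit 14) (nat_lit 4) (nat_lit 370) (nat_lit 320) (nat_lit 210)))))) (XT.nd (nat_lit 468) (nat_lit 152) (nat_lit 0) (XT.nd (nat_lit 234) (nat_lit 152) (nat_lit 0) (XT.nd (nat_lit 78) (nat_lit 76) (nat_lit 0) (XT.lf (nat_lit 0) (nat_lit 50365008828) (nat_lit 152) (nat_lit 5375984170) (nat_lit 76) (nat_lit 216399380233) (nat_lit 12) (nat_lit 5) (nat_lit 14) (nat_lit 5) (nat_lit 13) (nat_lit 4) (nat_lit 371) (nat_lit 320) (nat_lit 209)) (XT.nd (nat_lit 78) (nat_lit 0) (nat_lit 0) (XT.lf (nat_lit 0) (nat_lit 111073521974) (nat_lit 152) (nat_lit 171958368135)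 (nat_lit 0) (nat_lit 7620358800) (nat_lit 11) (nat_lit 5) (nat_lit 13) (nat_lit 4) (nat_lit 11) (nat_lit 4) (nat_lit 372) (nat_lit 320) (nat_lit 208)) (XT.lf (nat_lit 0) (nat_lit 177671957656) (nat_lit 152) (nat_lit 58704044405) (nat_lit 0) (nat_lit 74217410826) (nat_lit 11) (nat_lit 5) (nat_lit 13) (nat_lit 4) (nat_lit 11) (nat_lit 4) (nat_lit 373) (nat_lit 320) (nat_lit 207)))) (XT.nd (nat_lit 78) (nat_lit 76) (nat_lit 0) (XT.lf (nat_lit 0) (nat_lit 65710501741) (nat_lit 76) (nat_lit 184911992611) (nat_lit 76) (nat_lit 81456164620) (nat_lit 10) (nat_lit 4) (nat_lit 11) (nat_lit 5) (nat_lit 11) (nat_lit 4) (nat_lit 374) (nat_lit 320) (nat_lit 206)) (XT.nd (nat_lit 78) (nat_lit 76) (nat_lit 0) (XT.lf (nat_lit 0) (nat_lit 202171386266) (nat_lit 76) (nat_lit 128258652385) (nat_lit 76) (nat_lit 24801638132) (nat_lit 10) (nat_lit 4) (nat_lit 11) (nat_lit 5) (nat_lit 11) (nat_lit 4) (nat_lit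 375) (nat_lit 320) (nat_lit 205)) (XT.lf (nat_lit 0) (nat_lit 35219168591) (nat_lit 152) (nat_lit 31258817029) (nat_lit 76) (nat_lit 313730623187) (nat_lit 9) (nat_lit 5) (nat_lit 11) (nat_lit 5) (nat_lit 10) (nat_lit 4) (nat_lit 376) (nat_lit 320) (nat_lit 204))))) (XT.nd (nat_lit 234) (nat_lit 76) (nat_lit 0) (XT.nd (nat_lit 78) (nat_lit 0) (nat_lit 0) (XT.lf (nat_lit 0) (nat_lit 100830721864) (nat_lit 152) (nat_lit 303951526596) (nat_lit 0) (nat_lit 2298217416) (nat_lit 8) (nat_lit 5) (nat_lit 10) (nat_lit 4) (nat_lit 8) (nat_lit 4) (nat_lit 377) (nat_lit 320) (nat_lit 203)) (XT.nd (nat_lit 78) (nat_lit 0) (nat_lit 0) (XT.lf (nat_lit 0) (nat_lit 173364205193) (nat_lit 152) (nat_lit 187823412339) (nat_lit 0) (nat_lit 74830803895) (nat_lit 8) (nat_lit 5) (nat_lit 10) (nat_lit 4) (nat_lit 8) (nat_lit 4) (nat_lit 378) (nat_lit 320) (nat_lit 202)) (XT.lf (nat_lit 0) (nat_lit 251699099344)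 (nat_lit 152) (nat_lit 62407510032) (nat_lit 0) (nat_lit 153164867630) (nat_lit 8) (nat_lit 5) (nat_lit 10) (nat_lit 4) (nat_lit 8) (nat_lit 4) (nat_lit 379) (nat_lit 320) (nat_lit 201)))) (XT.nd (nat_lit 78) (nat_lit 0) (nat_lit 0) (XT.lf (nat_lit 0) (nat_lit 75454397616) (nat_lit 76) (nat_lit 262023268089) (nat_lit 76) (nat_lit 163488267471) (nat_lit 7) (nat_lit 4) (nat_lit 8) (nat_lit 5) (nat_lit 8) (nat_lit 4) (nat_lit 380) (nat_lit 320) (nat_lit 200)) (XT.nd (nat_lit 78) (nat_lit 0) (nat_lit 0) (XT.lf (nat_lit 0) (nat_lit 226571630176) (nat_lit 76) (nat_lit 204632864758) (nat_lit 76) (nat_lit 106097152192) (nat_lit 7) (nat_lit 4) (nat_lit 8) (nat_lit 5) (nat_lit 8) (nat_lit 4) (nat_lit 381) (nat_lit 320) (nat_lit 199)) (XT.lf (nat_lit 0) (nat_lit 389776223048) (nat_lit 76) (nat_lit 142652209486) (nat_lit 76) (nat_lit 44115837708) (nat_lit 7) (nat_lit 4) (nat_lit 8) (nat_lit 5) (nat_lit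 8) (nat_lit 4) (nat_lit 382) (nat_lit 320) (nat_lit 198))))))) (XT.nd (nat_lit 42354) (nat_lit 0) (nat_lit 4940) (XT.nd (nat_lit 468) (nat_lit 76) (nat_lit 0) (XT.nd (nat_lit 234) (nat_lit 0) (nat_lit 0) (XT.nd (nat_lit 78) (nat_lit 76) (nat_lit 0) (XT.lf (nat_lit 0) (nat_lit 22092495001) (nat_lit 152) (nat_lit 53247367404) (nat_lit 76) (nat_lit 543568672469) (nat_lit 6) (nat_lit 5) (nat_lit 8) (nat_lit 5) (nat_lit 7) (nat_lit 4) (nat_lit 383) (nat_lit 320) (nat_lit 197)) (XT.nd (nat_lit 78) (nat_lit 0) (nat_lit 0) (XT.lf (nat_lit 0) (nat_lit 93192060701) (nat_lit 76) (nat_lit 334577360) (nat_lit 152) (nat_lit 571025404829) (nat_lit 5) (nat_lit 5) (nat_lit 6) (nat_lit 5) (nat_lit 7) (nat_lit 4) (nat_lit 384) (nat_lit 320) (nat_lit 196)) (XT.lf (nat_lit 0) (nat_lit 172876878582) (nat_lit 152) (nat_lit 461828987750) (nat_lit 0) (nat_lit 79031097030) (nat_lit 5) (nat_lit 5) (nat_lit 7) (nat_lit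 4) (nat_lit 5) (nat_lit 4) (nat_lit 385) (nat_lit 320) (nat_lit 195)))) (XT.nd (nat_lit 78) (nat_lit 0) (nat_lit 0) (XT.lf (nat_lit 0) (nat_lit 258579968179) (nat_lit 152) (nat_lit 343542742745) (nat_lit 0) (nat_lit 164733725161) (nat_lit 5) (nat_lit 5) (nat_lit 7) (nat_lit 4) (nat_lit 5) (nat_lit 4) (nat_lit 386) (nat_lit 320) (nat_lit 194)) (XT.nd (nat_lit 78) (nat_lit 0) (nat_lit 0) (XT.lf (nat_lit 0) (nat_lit 351138553326) (nat_lit 152) (nat_lit 215795067957) (nat_lit 0) (nat_lit 257291883023) (nat_lit 5) (nat_lit 5) (nat_lit 7) (nat_lit 4) (nat_lit 5) (nat_lit 4) (nat_lit 387) (nat_lit 320) (nat_lit 193)) (XT.lf (nat_lit 0) (nat_lit 451101129340) (nat_lit 152) (nat_lit 77828940130) (nat_lit 0) (nat_lit 357254063404) (nat_lit 5) (nat_lit 5) (nat_lit 7) (nat_lit 4) (nat_lit 5) (nat_lit 4) (nat_lit 388) (nat_lit 320) (nat_lit 192))))) (XT.nd (nat_lit 41652) (nat_lit 0) (nat_lit 7372) (XT.nd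 (nat_lit 78) (nat_lit 0) (nat_lit 0) (XT.lf (nat_lit 0) (nat_lit 73526525797) (nat_lit 76) (nat_lit 486681496370) (nat_lit 76) (nat_lit 392834064107) (nat_lit 4) (nat_lit 4) (nat_lit 5) (nat_lit 5) (nat_lit 5) (nat_lit 4) (nat_lit 389) (nat_lit 320) (nat_lit 191)) (XT.nd (nat_lit 41496) (nat_lit 0) (nat_lit 7296) (XT.lf (nat_lit 0) (nat_lit 239768469977) (nat_lit 76) (nat_lit 439630110891) (nat_lit 76) (nat_lit 345782339436) (nat_lit 4) (nat_lit 4) (nat_lit 5) (nat_lit 5) (nat_lit 5) (nat_lit 4) (nat_lit 390) (nat_lit 320) (nat_lit 190)) (XT.lf (nat_lit 0) (nat_lit 84648581) (nat_lit 836) (nat_lit 5112626413) (nat_lit 836) (nat_lit 5112626413) (nat_lit 100) (nat_lit 3) (nat_lit 111) (nat_lit 3) (nat_lit 111) (nat_lit 5) (nat_lit 321) (nat_lit 321) (nat_lit 258)))) (XT.nd (nat_lit 78) (nat_lit 0) (nat_lit 0) (XT.lf (nat_lit 0) (nat_lit 578082364) (nat_lit 760) (nat_lit 15945597850) (nat_lit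 836) (nat_lit 4900564773) (nat_lit 101) (nat_lit 5) (nat_lit 111) (nat_lit 5) (nat_lit 112) (nat_lit 5) (nat_lit 322) (nat_lit 321) (nat_lit 257)) (XT.nd (nat_lit 78) (nat_lit 0) (nat_lit 76) (XT.lf (nat_lit 76) (nat_lit 338284877) (nat_lit 0) (nat_lit 1019221645) (nat_lit 836) (nat_lit 20918664145) (nat_lit 102) (nat_lit 5) (nat_lit 101) (nat_lit 5) (nat_lit 112) (nat_lit 5) (nat_lit 323) (nat_lit 321) (nat_lit 256)) (XT.lf (nat_lit 0) (nat_lit 2705139742) (nat_lit 760) (nat_lit 4953004228) (nat_lit 836) (nat_lit 15512836767) (nat_lit 102) (nat_lit 5) (nat_lit 112) (nat_lit 5) (nat_lit 113) (nat_lit 5) (nat_lit 324) (nat_lit 321) (nat_lit 255)))))) (XT.nd (nat_lit 468) (nat_lit 1596) (nat_lit 0) (XT.nd (nat_lit 234) (nat_lit 988) (nat_lit 0) (XT.nd (nat_lit 78) (nat_lit 0) (nat_lit 76) (XT.lf (nat_lit 0) (nat_lit 4520102498) (nat_lit 760) (nat_lit 10472530514) (nat_lit 836) (nat_lit 9126788038)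 (nat_lit 103) (nat_lit 5) (nat_lit 113) (nat_lit 5) (nat_lit 114) (nat_lit 5) (nat_lit 325) (nat_lit 321) (nat_lit 254)) (XT.nd (nat_lit 78) (nat_lit 0) (nat_lit 0) (XT.lf (nat_lit 0) (nat_lit 6849994675) (nat_lit 760) (nat_lit 16246902934) (nat_lit 836) (nat_lit 2028372157) (nat_lit 104) (nat_lit 5) (nat_lit 114) (nat_lit 5) (nat_lit 115) (nat_lit 5) (nat_lit 326) (nat_lit 321) (nat_lit 253)) (XT.lf (nat_lit 76) (nat_lit 3800097089) (nat_lit 0) (nat_lit 6046028034) (nat_lit 836) (nat_lit 16341487241) (nat_lit 105) (nat_lit 5) (nat_lit 104) (nat_lit 5) (nat_lit 115) (nat_lit 5) (nat_lit 327) (nat_lit 321) (nat_lit 252)))) (XT.nd (nat_lit 78) (nat_lit 1140) (nat_lit 0) (XT.lf (nat_lit 0) (nat_lit 13546142849) (nat_lit 760) (nat_lit 1502348919) (nat_lit 76) (nat_lit 12263257735) (nat_lit 105) (nat_lit 5) (nat_lit 115) (nat_lit 5) (nat_lit 106) (nat_lit 5) (nat_lit 328) (nat_lit 321) (nat_lit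 251)) (XT.nd (nat_lit 78) (nat_lit 380) (nat_lit 0) (XT.lf (nat_lit 0) (nat_lit 18023680259) (nat_lit 836) (nat_lit 6931566681) (nat_lit 76) (nat_lit 3546510474) (nat_lit 95) (nat_lit 5) (nat_lit 106) (nat_lit 5) (nat_lit 96) (nat_lit 5) (nat_lit 329) (nat_lit 321) (nat_lit 250)) (XT.lf (nat_lit 0) (nat_lit 17033641141) (nat_lit 380) (nat_lit 6357677954) (nat_lit 456) (nat_lit 6369066495) (nat_lit 90) (nat_lit 5) (nat_lit 95) (nat_lit 5) (nat_lit 96) (nat_lit 5) (nat_lit 330) (nat_lit 321) (nat_lit 249))))) (XT.nd (nat_lit 234) (nat_lit 532) (nat_lit 0) (XT.nd (nat_lit 78) (nat_lit 760) (nat_lit 0) (XT.lf (nat_lit 0) (nat_lit 12210443808) (nat_lit 304) (nat_lit 17492088763) (nat_lit 380) (nat_lit 1391476745) (nat_lit 86) (nat_lit 5) (nat_lit 90) (nat_lit 5) (nat_lit 91) (nat_lit 5) (nat_lit 331) (nat_lit 321) (nat_lit 248)) (XT.nd (nat_lit 78) (nat_lit 304) (nat_lit 0) (XT.lf (nat_lit 0)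 (nat_lit 4331592545) (nat_lit 456) (nat_lit 25439139117) (nat_lit 76) (nat_lit 2736753066) (nat_lit 80) (nat_lit 5) (nat_lit 86) (nat_lit 5) (nat_lit 81) (nat_lit 5) (nat_lit 332) (nat_lit 321) (nat_lit 247)) (XT.lf (nat_lit 0) (nat_lit 1462324532) (nat_lit 304) (nat_lit 9641978947) (nat_lit 380) (nat_lit 22896577806) (nat_lit 76) (nat_lit 5) (nat_lit 80) (nat_lit 5) (nat_lit 81) (nat_lit 5) (nat_lit 333) (nat_lit 321) (nat_lit 246)))) (XT.nd (nat_lit 78) (nat_lit 532) (nat_lit 0) (XT.lf (nat_lit 0) (nat_lit 19046553772) (nat_lit 380) (nat_lit 4377176414) (nat_lit 76) (nat_lit 12158643445) (nat_lit 76) (nat_lit 5) (nat_lit 81) (nat_lit 5) (nat_lit 77) (nat_lit 5) (nat_lit 334) (nat_lit 321) (nat_lit 245)) (XT.nd (nat_lit 78) (nat_lit 228) (nat_lit 0) (XT.lf (nat_lit 0) (nat_lit 26716882153) (nat_lit 304) (nat_lit 1476319256) (nat_lit 380) (nat_lit 9068742521) (nat_lit 72) (nat_lit 5) (nat_lit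 76) (nat_lit 5) (nat_lit 77) (nat_lit 5) (nat_lit 335) (nat_lit 321) (nat_lit 244)) (XT.lf (nat_lit 0) (nat_lit 21716821920) (nat_lit 228) (nat_lit 17108219691) (nat_lit 304) (nat_lit 213173937) (nat_lit 69) (nat_lit 5) (nat_lit 72) (nat_lit 5) (nat_lit 73) (nat_lit 5) (nat_lit 336) (nat_lit 321) (nat_lit 243))))))))
noncomputable def xc84 : XT := (XT.nd (nat_lit 1794) (nat_lit 1216) (nat_lit 0) (XT.nd (nat_lit 858) (nat_lit 1292) (nat_lit 0) (XT.nd (nat_lit 390) (nat_lit 1064) (nat_lit 0) (XT.nd (nat_lit 156) (nat_lit 532) (nat_lit 0) (XT.nd (nat_lit 78) (nat_lit 228) (nat_lit 0) (XT.lf (nat_lit 0) (nat_lit 9614727618) (nat_lit 380) (nat_lit 24707932851) (nat_lit 76) (nat_lit 6598477850) (nat_lit 64) (nat_lit 5) (nat_lit 69) (nat_lit 5) (nat_lit 65) (nat_lit 5) (nat_lit 337) (nat_lit 321) (nat_lit 242)) (XT.lf (nat_lit 0) (nat_lit 10124181534) (nat_lit 228) (nat_lit 10841293795) (nat_lit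 304) (nat_lit 21951847849) (nat_lit 61) (nat_lit 5) (nat_lit 64) (nat_lit 5) (nat_lit 65) (nat_lit 5) (nat_lit 338) (nat_lit 321) (nat_lit 241))) (XT.nd (nat_lit 78) (nat_lit 304) (nat_lit 0) (XT.lf (nat_lit 0) (nat_lit 3437584083) (nat_lit 228) (nat_lit 30495714648) (nat_lit 304) (nat_lit 11104459904) (nat_lit 58) (nat_lit 5) (nat_lit 61) (nat_lit 5) (nat_lit 62) (nat_lit 5) (nat_lit 339) (nat_lit 321) (nat_lit 240)) (XT.nd (nat_lit 78) (nat_lit 228) (nat_lit 0) (XT.lf (nat_lit 0) (nat_lit 1346120097) (nat_lit 304) (nat_lit 3775128449) (nat_lit 76) (nat_lit 42168362061) (nat_lit 57) (nat_lit 5) (nat_lit 61) (nat_lit 5) (nat_lit 58) (nat_lit 5) (nat_lit 340) (nat_lit 321) (nat_lit 239)) (XT.lf (nat_lit 0) (nat_lit 15356544444) (nat_lit 304) (nat_lit 11946630271) (nat_lit 76) (nat_lit 22361697191) (nat_lit 54) (nat_lit 5) (nat_lit 58) (nat_lit 5) (nat_lit 55) (nat_lit 5) (nat_lit 341) (nat_lit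 321) (nat_lit 238))))) (XT.nd (nat_lit 234) (nat_lit 380) (nat_lit 0) (XT.nd (nat_lit 78) (nat_lit 456) (nat_lit 0) (XT.lf (nat_lit 0) (nat_lit 31126345859) (nat_lit 304) (nat_lit 20857979888) (nat_lit 76) (nat_lit 213906197) (nat_lit 51) (nat_lit 5) (nat_lit 55) (nat_lit 5) (nat_lit 52) (nat_lit 5) (nat_lit 342) (nat_lit 321) (nat_lit 237)) (XT.nd (nat_lit 78) (nat_lit 304) (nat_lit 0) (XT.lf (nat_lit 0) (nat_lit 23882693444) (nat_lit 152) (nat_lit 25312681890) (nat_lit 228) (nat_lit 5687007878) (nat_lit 49) (nat_lit 5) (nat_lit 51) (nat_lit 5) (nat_lit 52) (nat_lit 5) (nat_lit 343) (nat_lit 321) (nat_lit 236)) (XT.lf (nat_lit 0) (nat_lit 11250470822) (nat_lit 304) (nat_lit 42316681210) (nat_lit 76) (nat_lit 4172007491) (nat_lit 45) (nat_lit 5) (nat_lit 49) (nat_lit 5) (nat_lit 46) (nat_lit 5) (nat_lit 344) (nat_lit 321) (nat_lit 235)))) (XT.nd (nat_lit 78) (nat_lit 228) (nat_lit 0) (XT.lf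 (nat_lit 0) (nat_lit 5502138855) (nat_lit 152) (nat_lit 24899218652) (nat_lit 228) (nat_lit 30365579987) (nat_lit 43) (nat_lit 5) (nat_lit 45) (nat_lit 5) (nat_lit 46) (nat_lit 5) (nat_lit 345) (nat_lit 321) (nat_lit 234)) (XT.nd (nat_lit 78) (nat_lit 228) (nat_lit 0) (XT.lf (nat_lit 0) (nat_lit 51921874030) (nat_lit 228) (nat_lit 5459373636) (nat_lit 76) (nat_lit 6613815587) (nat_lit 43) (nat_lit 5) (nat_lit 46) (nat_lit 5) (nat_lit 44) (nat_lit 5) (nat_lit 346) (nat_lit 321) (nat_lit 233)) (XT.lf (nat_lit 0) (nat_lit 8642763662) (nat_lit 228) (nat_lit 18076429978) (nat_lit 76) (nat_lit 40695948082) (nat_lit 40) (nat_lit 5) (nat_lit 43) (nat_lit 5) (nat_lit 41) (nat_lit 5) (nat_lit 347) (nat_lit 321) (nat_lit 232)))))) (XT.nd (nat_lit 468) (nat_lit 532) (nat_lit 0) (XT.nd (nat_lit 234) (nat_lit 304) (nat_lit 0) (XT.nd (nat_lit 78) (nat_lit 304) (nat_lit 0) (XT.lf (nat_lit 0) (nat_lit 31407475685)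 (nat_lit 228) (nat_lit 32544811965) (nat_lit 76) (nat_lit 7105922184) (nat_lit 38) (nat_lit 5) (nat_lit 41) (nat_lit 5) (nat_lit 39) (nat_lit 5) (nat_lit 348) (nat_lit 321) (nat_lit 231)) (XT.nd (nat_lit 78) (nat_lit 152) (nat_lit 0) (XT.lf (nat_lit 0) (nat_lit 25655382827) (nat_lit 152) (nat_lit 31503701015) (nat_lit 228) (nat_lit 17775356236) (nat_lit 36) (nat_lit 5) (nat_lit 38) (nat_lit 5) (nat_lit 39) (nat_lit 5) (nat_lit 349) (nat_lit 321) (nat_lit 230)) (XT.lf (nat_lit 0) (nat_lit 6471627649) (nat_lit 152) (nat_lit 68329967845) (nat_lit 76) (nat_lit 4274168096) (nat_lit 34) (nat_lit 5) (nat_lit 36) (nat_lit 5) (nat_lit 35) (nat_lit 5) (nat_lit 350) (nat_lit 321) (nat_lit 229)))) (XT.nd (nat_lit 78) (nat_lit 304) (nat_lit 0) (XT.lf (nat_lit 0) (nat_lit 33442599014) (nat_lit 152) (nat_lit 7026693504) (nat_lit 76) (nat_lit 42994183124) (nat_lit 34) (nat_lit 5) (nat_lit 36) (nat_lit 5)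 (nat_lit 35) (nat_lit 5) (nat_lit 351) (nat_lit 321) (nat_lit 228)) (XT.nd (nat_lit 78) (nat_lit 152) (nat_lit 0) (XT.lf (nat_lit 0) (nat_lit 61129412020) (nat_lit 152) (nat_lit 2391583201) (nat_lit 228) (nat_lit 24633724078) (nat_lit 32) (nat_lit 5) (nat_lit 34) (nat_lit 5) (nat_lit 35) (nat_lit 5) (nat_lit 352) (nat_lit 321) (nat_lit 227)) (XT.lf (nat_lit 0) (nat_lit 4106551887) (nat_lit 152) (nat_lit 50697886162) (nat_lit 76) (nat_lit 38344089075) (nat_lit 30) (nat_lit 5) (nat_lit 32) (nat_lit 5) (nat_lit 31) (nat_lit 5) (nat_lit 353) (nat_lit 321) (nat_lit 226))))) (XT.nd (nat_lit 234) (nat_lit 304) (nat_lit 0) (XT.nd (nat_lit 78) (nat_lit 76) (nat_lit 0) (XT.lf (nat_lit 0) (nat_lit 20103876357) (nat_lit 152) (nat_lit 15019017070) (nat_lit 228) (nat_lit 63356761742) (nat_lit 28) (nat_lit 5) (nat_lit 30) (nat_lit 5) (nat_lit 31) (nat_lit 5) (nat_lit 354) (nat_lit 321) (nat_lit 225)) (XT.nd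 (nat_lit 78) (nat_lit 76) (nat_lit 0) (XT.lf (nat_lit 0) (nat_lit 69950334929) (nat_lit 228) (nat_lit 6271193131) (nat_lit 76) (nat_lit 27949257277) (nat_lit 28) (nat_lit 5) (nat_lit 31) (nat_lit 5) (nat_lit 29) (nat_lit 4) (nat_lit 355) (nat_lit 321) (nat_lit 224)) (XT.lf (nat_lit 0) (nat_lit 73700520145) (nat_lit 76) (nat_lit 35263505399) (nat_lit 152) (nat_lit 1283179081) (nat_lit 27) (nat_lit 5) (nat_lit 28) (nat_lit 5) (nat_lit 29) (nat_lit 4) (nat_lit 356) (nat_lit 321) (nat_lit 223)))) (XT.nd (nat_lit 78) (nat_lit 76) (nat_lit 0) (XT.lf (nat_lit 0) (nat_lit 34153541463) (nat_lit 228) (nat_lit 72539158240) (nat_lit 76) (nat_lit 10042174958) (nat_lit 24) (nat_lit 5) (nat_lit 27) (nat_lit 5) (nat_lit 25) (nat_lit 4) (nat_lit 357) (nat_lit 321) (nat_lit 222)) (XT.nd (nat_lit 78) (nat_lit 0) (nat_lit 0) (XT.lf (nat_lit 0) (nat_lit 8636040499) (nat_lit 76) (nat_lit 65117689074) (nat_lit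 152) (nat_lit 49918103770) (nat_lit 23) (nat_lit 5) (nat_lit 24) (nat_lit 5) (nat_lit 25) (nat_lit 4) (nat_lit 358) (nat_lit 321) (nat_lit 221)) (XT.lf (nat_lit 0) (nat_lit 98889350380) (nat_lit 76) (nat_lit 18892726782) (nat_lit 152) (nat_lit 13318665395) (nat_lit 23) (nat_lit 5) (nat_lit 24) (nat_lit 5) (nat_lit 25) (nat_lit 4) (nat_lit 359) (nat_lit 321) (nat_lit 220))))))) (XT.nd (nat_lit 858) (nat_lit 456) (nat_lit 0) (XT.nd (nat_lit 390) (nat_lit 380) (nat_lit 0) (XT.nd (nat_lit 156) (nat_lit 152) (nat_lit 0) (XT.nd (nat_lit 78) (nat_lit 76) (nat_lit 0) (XT.lf (nat_lit 0) (nat_lit 26789320132) (nat_lit 152) (nat_lit 80861279178) (nat_lit 76) (nat_lit 31381934790) (nat_lit 21) (nat_lit 5) (nat_lit 23) (nat_lit 5) (nat_lit 22) (nat_lit 4) (nat_lit 360) (nat_lit 321) (nat_lit 219)) (XT.lf (nat_lit 0) (nat_lit 9097020110) (nat_lit 76) (nat_lit 61576310136) (nat_lit 152) (nat_lit 76862922300)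 (nat_lit 20) (nat_lit 5) (nat_lit 21) (nat_lit 5) (nat_lit 22) (nat_lit 4) (nat_lit 361) (nat_lit 321) (nat_lit 218))) (XT.nd (nat_lit 78) (nat_lit 152) (nat_lit 0) (XT.lf (nat_lit 0) (nat_lit 109134005418) (nat_lit 76) (nat_lit 10339625452) (nat_lit 152) (nat_lit 37176359914) (nat_lit 20) (nat_lit 5) (nat_lit 21) (nat_lit 5) (nat_lit 22) (nat_lit 4) (nat_lit 362) (nat_lit 321) (nat_lit 217)) (XT.nd (nat_lit 78) (nat_lit 0) (nat_lit 0) (XT.lf (nat_lit 0) (nat_lit 7033590366) (nat_lit 152) (nat_lit 114905234867) (nat_lit 76) (nat_lit 44473044387) (nat_lit 18) (nat_lit 5) (nat_lit 20) (nat_lit 5) (nat_lit 19) (nat_lit 4) (nat_lit 363) (nat_lit 321) (nat_lit 216)) (XT.lf (nat_lit 0) (nat_lit 54508170359) (nat_lit 152) (nat_lit 17585310615) (nat_lit 76) (nat_lit 104779230404) (nat_lit 18) (nat_lit 5) (nat_lit 20) (nat_lit 5) (nat_lit 19) (nat_lit 4) (nat_lit 364) (nat_lit 321) (nat_lit 215)))))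 (XT.nd (nat_lit 234) (nat_lit 152) (nat_lit 0) (XT.nd (nat_lit 78) (nat_lit 152) (nat_lit 0) (XT.lf (nat_lit 0) (nat_lit 90409174473) (nat_lit 76) (nat_lit 16780571599) (nat_lit 152) (nat_lit 80910223543) (nat_lit 17) (nat_lit 5) (nat_lit 18) (nat_lit 5) (nat_lit 19) (nat_lit 4) (nat_lit 365) (nat_lit 321) (nat_lit 214)) (XT.nd (nat_lit 78) (nat_lit 76) (nat_lit 0) (XT.lf (nat_lit 0) (nat_lit 7005014326) (nat_lit 76) (nat_lit 158169804878) (nat_lit 76) (nat_lit 34996141299) (nat_lit 16) (nat_lit 4) (nat_lit 17) (nat_lit 5) (nat_lit 17) (nat_lit 4) (nat_lit 366) (nat_lit 321) (nat_lit 213)) (XT.lf (nat_lit 0) (nat_lit 16134265930) (nat_lit 152) (nat_lit 90100659852) (nat_lit 76) (nat_lit 106860804816) (nat_lit 15) (nat_lit 5) (nat_lit 17) (nat_lit 5) (nat_lit 16) (nat_lit 4) (nat_lit 367) (nat_lit 321) (nat_lit 212)))) (XT.nd (nat_lit 78) (nat_lit 76) (nat_lit 0) (XT.lf (nat_lit 0) (nat_lit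 21297271560) (nat_lit 76) (nat_lit 49178461106) (nat_lit 152) (nat_lit 156532728667) (nat_lit 14) (nat_lit 5) (nat_lit 15) (nat_lit 5) (nat_lit 16) (nat_lit 4) (nat_lit 368) (nat_lit 321) (nat_lit 211)) (XT.nd (nat_lit 78) (nat_lit 76) (nat_lit 0) (XT.lf (nat_lit 0) (nat_lit 130951894480) (nat_lit 152) (nat_lit 97355245553) (nat_lit 0) (nat_lit 13637702030) (nat_lit 14) (nat_lit 5) (nat_lit 16) (nat_lit 4) (nat_lit 14) (nat_lit 4) (nat_lit 369) (nat_lit 321) (nat_lit 210)) (XT.lf (nat_lit 0) (nat_lit 19459022876) (nat_lit 76) (nat_lit 177938221524) (nat_lit 76) (nat_lit 60622334484) (nat_lit 13) (nat_lit 4) (nat_lit 14) (nat_lit 5) (nat_lit 14) (nat_lit 4) (nat_lit 370) (nat_lit 321) (nat_lit 209)))))) (XT.nd (nat_lit 468) (nat_lit 228) (nat_lit 0) (XT.nd (nat_lit 234) (nat_lit 76) (nat_lit 0) (XT.nd (nat_lit 78) (nat_lit 152) (nat_lit 0) (XT.lf (nat_lit 0) (nat_lit 149091396091) (nat_lit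 76) (nat_lit 121760827482) (nat_lit 76) (nat_lit 4443371378) (nat_lit 13) (nat_lit 4) (nat_lit 14) (nat_lit 5) (nat_lit 14) (nat_lit 4) (nat_lit 371) (nat_lit 321) (nat_lit 208)) (XT.nd (nat_lit 78) (nat_lit 76) (nat_lit 0) (XT.lf (nat_lit 0) (nat_lit 54428445697) (nat_lit 152) (nat_lit 5740595261) (nat_lit 76) (nat_lit 233740844084) (nat_lit 12) (nat_lit 5) (nat_lit 14) (nat_lit 5) (nat_lit 13) (nat_lit 4) (nat_lit 372) (nat_lit 321) (nat_lit 207)) (XT.lf (nat_lit 0) (nat_lit 119992549116) (nat_lit 152) (nat_lit 185651242937) (nat_lit 0) (nat_lit 8258973723) (nat_lit 11) (nat_lit 5) (nat_lit 13) (nat_lit 4) (nat_lit 11) (nat_lit 4) (nat_lit 373) (nat_lit 321) (nat_lit 206)))) (XT.nd (nat_lit 78) (nat_lit 76) (nat_lit 0) (XT.lf (nat_lit 0) (nat_lit 191916404438) (nat_lit 152) (nat_lit 63341298838) (nat_lit 0) (nat_lit 80181642784) (nat_lit 11) (nat_lit 5) (nat_lit 13) (nat_lit 4) (nat_lit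 11) (nat_lit 4) (nat_lit 374) (nat_lit 321) (nat_lit 205)) (XT.nd (nat_lit 78) (nat_lit 0) (nat_lit 0) (XT.lf (nat_lit 0) (nat_lit 71023843927) (nat_lit 76) (nat_lit 199677748952) (nat_lit 76) (nat_lit 87941888909) (nat_lit 10) (nat_lit 4) (nat_lit 11) (nat_lit 5) (nat_lit 11) (nat_lit 4) (nat_lit 375) (nat_lit 321) (nat_lit 204)) (XT.lf (nat_lit 0) (nat_lit 218397413877) (nat_lit 76) (nat_lit 138494156550) (nat_lit 76) (nat_lit 26757279479) (nat_lit 10) (nat_lit 4) (nat_lit 11) (nat_lit 5) (nat_lit 11) (nat_lit 4) (nat_lit 376) (nat_lit 321) (nat_lit 203))))) (XT.nd (nat_lit 234) (nat_lit 76) (nat_lit 0) (XT.nd (nat_lit 78) (nat_lit 76) (nat_lit 0) (XT.lf (nat_lit 0) (nat_lit 38062237130) (nat_lit 152) (nat_lit 33710232645) (nat_lit 76) (nat_lit 338851546940) (nat_lit 9) (nat_lit 5) (nat_lit 11) (nat_lit 5) (nat_lit 10) (nat_lit 4) (nat_lit 377) (nat_lit 321) (nat_lit 202)) (XT.nd (nat_lit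 78) (nat_lit 0) (nat_lit 0) (XT.lf (nat_lit 0) (nat_lit 108921914759) (nat_lit 152) (nat_lit 328219633794) (nat_lit 0) (nat_lit 2504114091) (nat_lit 8) (nat_lit 5) (nat_lit 10) (nat_lit 4) (nat_lit 8) (nat_lit 4) (nat_lit 378) (nat_lit 321) (nat_lit 201)) (XT.lf (nat_lit 0) (nat_lit 187256244521) (nat_lit 152) (nat_lit 202804827058) (nat_lit 0) (nat_lit 80837674949) (nat_lit 8) (nat_lit 5) (nat_lit 10) (nat_lit 4) (nat_lit 8) (nat_lit 4) (nat_lit 379) (nat_lit 321) (nat_lit 200)))) (XT.nd (nat_lit 78) (nat_lit 76) (nat_lit 0) (XT.lf (nat_lit 0) (nat_lit 271856233692) (nat_lit 152) (nat_lit 67358945772) (nat_lit 0) (nat_lit 165436952172) (nat_lit 8) (nat_lit 5) (nat_lit 10) (nat_lit 4) (nat_lit 8) (nat_lit 4) (nat_lit 380) (nat_lit 321) (nat_lit 199)) (XT.nd (nat_lit 78) (nat_lit 0) (nat_lit 0) (XT.lf (nat_lit 0) (nat_lit 81530125505) (nat_lit 76) (nat_lit 282966003784) (nat_lit 76) (nat_lit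 176546063052) (nat_lit 7) (nat_lit 4) (nat_lit 8) (nat_lit 5) (nat_lit 8) (nat_lit 4) (nat_lit 381) (nat_lit 321) (nat_lit 198)) (XT.lf (nat_lit 0) (nat_lit 244733819923) (nat_lit 76) (nat_lit 220985784909) (nat_lit 76) (nat_lit 114565233797) (nat_lit 7) (nat_lit 4) (nat_lit 8) (nat_lit 5) (nat_lit 8) (nat_lit 4) (nat_lit 382) (nat_lit 321) (nat_lit 197))))))))
noncomputable def xc85 : XT := (XT.nd (nat_lit 43290) (nat_lit 0) (nat_lit 1444) (XT.nd (nat_lit 42354) (nat_lit 0) (nat_lit 5168) (XT.nd (nat_lit 390) (nat_lit 76) (nat_lit 0) (XT.nd (nat_lit 156) (nat_lit 76) (nat_lit 0) (XT.nd (nat_lit 78) (nat_lit 76) (nat_lit 0) (XT.lf (nat_lit 0) (nat_lit 420992079534) (nat_lit 76) (nat_lit 154047988995) (nat_lit 76) (nat_lit 47626872715) (nat_lit 7) (nat_lit 4) (nat_lit 8) (nat_lit 5) (nat_lit 8) (nat_lit 4) (nat_lit 383) (nat_lit 321) (nat_lit 196)) (XT.lf (nat_lit 0) (nat_lit 23876235779)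 (nat_lit 152) (nat_lit 57475356235) (nat_lit 76) (nat_lit 587068806345) (nat_lit 6) (nat_lit 5) (nat_lit 8) (nat_lit 5) (nat_lit 7) (nat_lit 4) (nat_lit 384) (nat_lit 321) (nat_lit 195))) (XT.nd (nat_lit 78) (nat_lit 0) (nat_lit 0) (XT.lf (nat_lit 0) (nat_lit 100677844106) (nat_lit 76) (nat_lit 346530639) (nat_lit 152) (nat_lit 616691049214) (nat_lit 5) (nat_lit 5) (nat_lit 6) (nat_lit 5) (nat_lit 7) (nat_lit 4) (nat_lit 385) (nat_lit 321) (nat_lit 194)) (XT.nd (nat_lit 78) (nat_lit 0) (nat_lit 0) (XT.lf (nat_lit 0) (nat_lit 186721692673) (nat_lit 152) (nat_lit 498746631177) (nat_lit 0) (nat_lit 85366861463) (nat_lit 5) (nat_lit 5) (nat_lit 7) (nat_lit 4) (nat_lit 5) (nat_lit 4) (nat_lit 386) (nat_lit 321) (nat_lit 193)) (XT.lf (nat_lit 0) (nat_lit 279279943231) (nat_lit 152) (nat_lit 370999610690) (nat_lit 0) (nat_lit 177924716387) (nat_lit 5) (nat_lit 5) (nat_lit 7) (nat_lit 4) (nat_lit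 5) (nat_lit 4) (nat_lit 387) (nat_lit 321) (nat_lit 192))))) (XT.nd (nat_lit 41730) (nat_lit 0) (nat_lit 7296) (XT.nd (nat_lit 78) (nat_lit 76) (nat_lit 0) (XT.lf (nat_lit 0) (nat_lit 379242209441) (nat_lit 152) (nat_lit 233034088696) (nat_lit 0) (nat_lit 277886616270) (nat_lit 5) (nat_lit 5) (nat_lit 7) (nat_lit 4) (nat_lit 5) (nat_lit 4) (nat_lit 388) (nat_lit 321) (nat_lit 191)) (XT.nd (nat_lit 78) (nat_lit 76) (nat_lit 0) (XT.lf (nat_lit 0) (nat_lit 487200860288) (nat_lit 152) (nat_lit 84032491731) (nat_lit 0) (nat_lit 385844927925) (nat_lit 5) (nat_lit 5) (nat_lit 7) (nat_lit 4) (nat_lit 5) (nat_lit 4) (nat_lit 389) (nat_lit 321) (nat_lit 190)) (XT.lf (nat_lit 0) (nat_lit 79430422192) (nat_lit 76) (nat_lit 525605360042) (nat_lit 76) (nat_lit 424249113612) (nat_lit 4) (nat_lit 4) (nat_lit 5) (nat_lit 5) (nat_lit 5) (nat_lit 4) (nat_lit 390) (nat_lit 321) (nat_lit 189)))) (XT.nd (nat_lit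 78) (nat_lit 0) (nat_lit 76) (XT.lf (nat_lit 0) (nat_lit 321880467) (nat_lit 836) (nat_lit 5400523387) (nat_lit 836) (nat_lit 5400523387) (nat_lit 100) (nat_lit 3) (nat_lit 111) (nat_lit 3) (nat_lit 111) (nat_lit 5) (nat_lit 322) (nat_lit 322) (nat_lit 256)) (XT.nd (nat_lit 78) (nat_lit 0) (nat_lit 0) (XT.lf (nat_lit 0) (nat_lit 1051622009) (nat_lit 760) (nat_lit 16964473783) (nat_lit 836) (nat_lit 5100273627) (nat_lit 101) (nat_lit 5) (nat_lit 111) (nat_lit 5) (nat_lit 112) (nat_lit 5) (nat_lit 323) (nat_lit 322) (nat_lit 255)) (XT.lf (nat_lit 76) (nat_lit 610960569) (nat_lit 0) (nat_lit 1254622900) (nat_lit 836) (nat_lit 22172289887) (nat_lit 102) (nat_lit 5) (nat_lit 101) (nat_lit 5) (nat_lit 112) (nat_lit 5) (nat_lit 324) (nat_lit 322) (nat_lit 254)))))) (XT.nd (nat_lit 468) (nat_lit 1748) (nat_lit 0) (XT.nd (nat_lit 234) (nat_lit 532) (nat_lit 0) (XT.nd (nat_lit 78) (nat_lit 0) (nat_lit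 76) (XT.lf (nat_lit 0) (nat_lit 3289212203) (nat_lit 760) (nat_lit 5100720392) (nat_lit 836) (nat_lit 16615957293) (nat_lit 102) (nat_lit 5) (nat_lit 112) (nat_lit 5) (nat_lit 113) (nat_lit 5) (nat_lit 325) (nat_lit 322) (nat_lit 253)) (XT.nd (nat_lit 78) (nat_lit 0) (nat_lit 76) (XT.lf (nat_lit 0) (nat_lit 5224187905) (nat_lit 760) (nat_lit 11053383337) (nat_lit 836) (nat_lit 9753921999) (nat_lit 103) (nat_lit 5) (nat_lit 113) (nat_lit 5) (nat_lit 114) (nat_lit 5) (nat_lit 326) (nat_lit 322) (nat_lit 252)) (XT.lf (nat_lit 0) (nat_lit 7717766630) (nat_lit 760) (nat_lit 17283320327) (nat_lit 836) (nat_lit 2117884630) (nat_lit 104) (nat_lit 5) (nat_lit 114) (nat_lit 5) (nat_lit 115) (nat_lit 5) (nat_lit 327) (nat_lit 322) (nat_lit 251)))) (XT.nd (nat_lit 78) (nat_lit 684) (nat_lit 0) (XT.lf (nat_lit 76) (nat_lit 4355995487) (nat_lit 0) (nat_lit 6577837902) (nat_lit 836) (nat_lit 17333480439)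 (nat_lit 105) (nat_lit 5) (nat_lit 104) (nat_lit 5) (nat_lit 115) (nat_lit 5) (nat_lit 328) (nat_lit 322) (nat_lit 250)) (XT.nd (nat_lit 78) (nat_lit 760) (nat_lit 0) (XT.lf (nat_lit 0) (nat_lit 14906933211) (nat_lit 760) (nat_lit 1374435385) (nat_lit 76) (nat_lit 13201182020) (nat_lit 105) (nat_lit 5) (nat_lit 115) (nat_lit 5) (nat_lit 106) (nat_lit 5) (nat_lit 329) (nat_lit 322) (nat_lit 249)) (XT.lf (nat_lit 0) (nat_lit 19725494531) (nat_lit 836) (nat_lit 7235137513) (nat_lit 76) (nat_lit 3808007100) (nat_lit 95) (nat_lit 5) (nat_lit 106) (nat_lit 5) (nat_lit 96) (nat_lit 5) (nat_lit 330) (nat_lit 322) (nat_lit 248))))) (XT.nd (nat_lit 234) (nat_lit 608) (nat_lit 0) (XT.nd (nat_lit 78) (nat_lit 760) (nat_lit 0) (XT.lf (nat_lit 0) (nat_lit 18636380758) (nat_lit 380) (nat_lit 6870658220) (nat_lit 456) (nat_lit 6621713342) (nat_lit 90) (nat_lit 5) (nat_lit 95) (nat_lit 5) (nat_lit 96) (nat_lit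 5) (nat_lit 331) (nat_lit 322) (nat_lit 247)) (XT.nd (nat_lit 78) (nat_lit 456) (nat_lit 0) (XT.lf (nat_lit 0) (nat_lit 13428883076) (nat_lit 304) (nat_lit 18879870685) (nat_lit 380) (nat_lit 1261050002) (nat_lit 86) (nat_lit 5) (nat_lit 90) (nat_lit 5) (nat_lit 91) (nat_lit 5) (nat_lit 332) (nat_lit 322) (nat_lit 246)) (XT.lf (nat_lit 0) (nat_lit 4898806398) (nat_lit 456) (nat_lit 27224626987) (nat_lit 76) (nat_lit 2973417059) (nat_lit 80) (nat_lit 5) (nat_lit 86) (nat_lit 5) (nat_lit 81) (nat_lit 5) (nat_lit 333) (nat_lit 322) (nat_lit 245)))) (XT.nd (nat_lit 78) (nat_lit 304) (nat_lit 0) (XT.lf (nat_lit 0) (nat_lit 1818104562) (nat_lit 304) (nat_lit 10382610746) (nat_lit 380) (nat_lit 24509649086) (nat_lit 76) (nat_lit 5) (nat_lit 80) (nat_lit 5) (nat_lit 81) (nat_lit 5) (nat_lit 334) (nat_lit 322) (nat_lit 244)) (XT.nd (nat_lit 78) (nat_lit 304) (nat_lit 0) (XT.lf (nat_lit 0) (nat_lit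 20763377405) (nat_lit 380) (nat_lit 4496885958) (nat_lit 76) (nat_lit 13158874806) (nat_lit 76) (nat_lit 5) (nat_lit 81) (nat_lit 5) (nat_lit 77) (nat_lit 5) (nat_lit 335) (nat_lit 322) (nat_lit 243)) (XT.lf (nat_lit 0) (nat_lit 29074681585) (nat_lit 304) (nat_lit 1556213437) (nat_lit 380) (nat_lit 9602734782) (nat_lit 72) (nat_lit 5) (nat_lit 76) (nat_lit 5) (nat_lit 77) (nat_lit 5) (nat_lit 336) (nat_lit 322) (nat_lit 242))))))) (XT.nd (nat_lit 936) (nat_lit 1292) (nat_lit 0) (XT.nd (nat_lit 468) (nat_lit 1064) (nat_lit 0) (XT.nd (nat_lit 234) (nat_lit 532) (nat_lit 0) (XT.nd (nat_lit 78) (nat_lit 608) (nat_lit 0) (XT.lf (nat_lit 0) (nat_lit 23673332229) (nat_lit 228) (nat_lit 18430425306) (nat_lit 304) (nat_lit 48733549) (nat_lit 69) (nat_lit 5) (nat_lit 72) (nat_lit 5) (nat_lit 73) (nat_lit 5) (nat_lit 337) (nat_lit 322) (nat_lit 241)) (XT.nd (nat_lit 78) (nat_lit 228) (nat_lit 0) (XT.lf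 (nat_lit 0) (nat_lit 10550708995) (nat_lit 380) (nat_lit 26461577126) (nat_lit 76) (nat_lit 7174074287) (nat_lit 64) (nat_lit 5) (nat_lit 69) (nat_lit 5) (nat_lit 65) (nat_lit 5) (nat_lit 338) (nat_lit 322) (nat_lit 240)) (XT.lf (nat_lit 0) (nat_lit 11147415521) (nat_lit 228) (nat_lit 11653075415) (nat_lit 304) (nat_lit 23542209942) (nat_lit 61) (nat_lit 5) (nat_lit 64) (nat_lit 5) (nat_lit 65) (nat_lit 5) (nat_lit 339) (nat_lit 322) (nat_lit 239)))) (XT.nd (nat_lit 78) (nat_lit 304) (nat_lit 0) (XT.lf (nat_lit 0) (nat_lit 3923451489) (nat_lit 228) (nat_lit 32874696260) (nat_lit 304) (nat_lit 11835011881) (nat_lit 58) (nat_lit 5) (nat_lit 61) (nat_lit 5) (nat_lit 62) (nat_lit 5) (nat_lit 340) (nat_lit 322) (nat_lit 238)) (XT.nd (nat_lit 78) (nat_lit 228) (nat_lit 0) (XT.lf (nat_lit 0) (nat_lit 1595248664) (nat_lit 304) (nat_lit 3877123355) (nat_lit 76) (nat_lit 45593238100) (nat_lit 57)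 (nat_lit 5) (nat_lit 61) (nat_lit 5) (nat_lit 58) (nat_lit 5) (nat_lit 341) (nat_lit 322) (nat_lit 237)) (XT.lf (nat_lit 0) (nat_lit 16719912853) (nat_lit 304) (nat_lit 12705145883) (nat_lit 76) (nat_lit 24206170505) (nat_lit 54) (nat_lit 5) (nat_lit 58) (nat_lit 5) (nat_lit 55) (nat_lit 5) (nat_lit 342) (nat_lit 322) (nat_lit 236))))) (XT.nd (nat_lit 234) (nat_lit 380) (nat_lit 0) (XT.nd (nat_lit 78) (nat_lit 456) (nat_lit 0) (XT.lf (nat_lit 0) (nat_lit 33745205058) (nat_lit 304) (nat_lit 22332450531) (nat_lit 76) (nat_lit 289913839) (nat_lit 51) (nat_lit 5) (nat_lit 55) (nat_lit 5) (nat_lit 52) (nat_lit 5) (nat_lit 343) (nat_lit 322) (nat_lit 235)) (XT.nd (nat_lit 78) (nat_lit 304) (nat_lit 0) (XT.lf (nat_lit 0) (nat_lit 25979038374) (nat_lit 152) (nat_lit 27274081123) (nat_lit 228) (nat_lit 6013671353) (nat_lit 49) (nat_lit 5) (nat_lit 51) (nat_lit 5) (nat_lit 52) (nat_lit 5) (nat_lit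 344) (nat_lit 322) (nat_lit 234)) (XT.lf (nat_lit 0) (nat_lit 12269332714) (nat_lit 304) (nat_lit 45515396524) (nat_lit 76) (nat_lit 4567553660) (nat_lit 45) (nat_lit 5) (nat_lit 49) (nat_lit 5) (nat_lit 46) (nat_lit 5) (nat_lit 345) (nat_lit 322) (nat_lit 233)))) (XT.nd (nat_lit 78) (nat_lit 228) (nat_lit 0) (XT.lf (nat_lit 0) (nat_lit 6120818903) (nat_lit 152) (nat_lit 26825456661) (nat_lit 228) (nat_lit 32676313331) (nat_lit 43) (nat_lit 5) (nat_lit 45) (nat_lit 5) (nat_lit 46) (nat_lit 5) (nat_lit 346) (nat_lit 322) (nat_lit 232)) (XT.nd (nat_lit 78) (nat_lit 228) (nat_lit 0) (XT.lf (nat_lit 0) (nat_lit 56181026924) (nat_lit 228) (nat_lit 5726506133) (nat_lit 76) (nat_lit 7201806658) (nat_lit 43) (nat_lit 5) (nat_lit 46) (nat_lit 5) (nat_lit 44) (nat_lit 5) (nat_lit 347) (nat_lit 322) (nat_lit 231)) (XT.lf (nat_lit 0) (nat_lit 9436007053) (nat_lit 228) (nat_lit 19356880100) (nat_lit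 76) (nat_lit 44010323250) (nat_lit 40) (nat_lit 5) (nat_lit 43) (nat_lit 5) (nat_lit 41) (nat_lit 5) (nat_lit 348) (nat_lit 322) (nat_lit 230)))))) (XT.nd (nat_lit 468) (nat_lit 532) (nat_lit 0) (XT.nd (nat_lit 234) (nat_lit 304) (nat_lit 0) (XT.nd (nat_lit 78) (nat_lit 304) (nat_lit 0) (XT.lf (nat_lit 0) (nat_lit 34017791201) (nat_lit 228) (nat_lit 34986010266) (nat_lit 76) (nat_lit 7734131556) (nat_lit 38) (nat_lit 5) (nat_lit 41) (nat_lit 5) (nat_lit 39) (nat_lit 5) (nat_lit 349) (nat_lit 322) (nat_lit 229)) (XT.nd (nat_lit 78) (nat_lit 152) (nat_lit 0) (XT.lf (nat_lit 0) (nat_lit 27863142983) (nat_lit 152) (nat_lit 33961571826) (nat_lit 228) (nat_lit 19099791073) (nat_lit 36) (nat_lit 5) (nat_lit 38) (nat_lit 5) (nat_lit 39) (nat_lit 5) (nat_lit 350) (nat_lit 322) (nat_lit 228)) (XT.lf (nat_lit 0) (nat_lit 7080161518) (nat_lit 152) (nat_lit 73641191498) (nat_lit 76) (nat_lit 4675892510)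 (nat_lit 34) (nat_lit 5) (nat_lit 36) (nat_lit 5) (nat_lit 35) (nat_lit 5) (nat_lit 351) (nat_lit 322) (nat_lit 227)))) (XT.nd (nat_lit 78) (nat_lit 304) (nat_lit 0) (XT.lf (nat_lit 0) (nat_lit 36202084396) (nat_lit 152) (nat_lit 7445149564) (nat_lit 76) (nat_lit 46489079779) (nat_lit 34) (nat_lit 5) (nat_lit 36) (nat_lit 5) (nat_lit 35) (nat_lit 5) (nat_lit 352) (nat_lit 322) (nat_lit 226)) (XT.nd (nat_lit 78) (nat_lit 152) (nat_lit 0) (XT.lf (nat_lit 0) (nat_lit 66157200270) (nat_lit 152) (nat_lit 2525469819) (nat_lit 228) (nat_lit 26520393582) (nat_lit 32) (nat_lit 5) (nat_lit 34) (nat_lit 5) (nat_lit 35) (nat_lit 5) (nat_lit 353) (nat_lit 322) (nat_lit 225)) (XT.lf (nat_lit 0) (nat_lit 4513367652) (nat_lit 152) (nat_lit 54616636333) (nat_lit 76) (nat_lit 41466461268) (nat_lit 30) (nat_lit 5) (nat_lit 32) (nat_lit 5) (nat_lit 31) (nat_lit 5) (nat_lit 354) (nat_lit 322) (nat_lit 224)))))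 (XT.nd (nat_lit 234) (nat_lit 304) (nat_lit 0) (XT.nd (nat_lit 78) (nat_lit 76) (nat_lit 0) (XT.lf (nat_lit 0) (nat_lit 21843309826) (nat_lit 152) (nat_lit 16163954513) (nat_lit 228) (nat_lit 68347008993) (nat_lit 28) (nat_lit 5) (nat_lit 30) (nat_lit 5) (nat_lit 31) (nat_lit 5) (nat_lit 355) (nat_lit 322) (nat_lit 223)) (XT.nd (nat_lit 78) (nat_lit 76) (nat_lit 0) (XT.lf (nat_lit 0) (nat_lit 75616197715) (nat_lit 228) (nat_lit 6648819898) (nat_lit 76) (nat_lit 30235913492) (nat_lit 28) (nat_lit 5) (nat_lit 31) (nat_lit 5) (nat_lit 29) (nat_lit 4) (nat_lit 356) (nat_lit 322) (nat_lit 222)) (XT.lf (nat_lit 0) (nat_lit 79715238566) (nat_lit 76) (nat_lit 38032424855) (nat_lit 152) (nat_lit 1315968395) (nat_lit 27) (nat_lit 5) (nat_lit 28) (nat_lit 5) (nat_lit 29) (nat_lit 4) (nat_lit 357) (nat_lit 322) (nat_lit 221)))) (XT.nd (nat_lit 78) (nat_lit 76) (nat_lit 0) (XT.lf (nat_lit 0) (nat_lit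 36951050428) (nat_lit 228) (nat_lit 78224169721) (nat_lit 76) (nat_lit 10895162579) (nat_lit 24) (nat_lit 5) (nat_lit 27) (nat_lit 5) (nat_lit 25) (nat_lit 4) (nat_lit 358) (nat_lit 322) (nat_lit 220)) (XT.nd (nat_lit 78) (nat_lit 0) (nat_lit 0) (XT.lf (nat_lit 0) (nat_lit 9439911515) (nat_lit 76) (nat_lit 70276274599) (nat_lit 152) (nat_lit 53846266892) (nat_lit 23) (nat_lit 5) (nat_lit 24) (nat_lit 5) (nat_lit 25) (nat_lit 4) (nat_lit 359) (nat_lit 322) (nat_lit 219)) (XT.lf (nat_lit 0) (nat_lit 106905116721) (nat_lit 76) (nat_lit 20357080479) (nat_lit 152) (nat_lit 14323709386) (nat_lit 23) (nat_lit 5) (nat_lit 24) (nat_lit 5) (nat_lit 25) (nat_lit 4) (nat_lit 360) (nat_lit 322) (nat_lit 218))))))))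
noncomputable def xc86 : XT := (XT.nd (nat_lit 1794) (nat_lit 152) (nat_lit 0) (XT.nd (nat_lit 858) (nat_lit 456) (nat_lit 0) (XT.nd (nat_lit 390) (nat_lit 380) (nat_lit 0) (XT.nd (nat_lit 156) (nat_lit 152) (nat_lit 0) (XT.nd (nat_lit 78) (nat_lit 76) (nat_lit 0) (XT.lf (nat_lit 0) (nat_lit 28988958163) (nat_lit 152) (nat_lit 87226159628) (nat_lit 76) (nat_lit 33937178823) (nat_lit 21) (nat_lit 5) (nat_lit 23) (nat_lit 5) (nat_lit 22) (nat_lit 4) (nat_lit 361) (nat_lit 322) (nat_lit 217)) (XT.lf (nat_lit 0) (nat_lit 9924282939) (nat_lit 76) (nat_lit 66456775017) (nat_lit 152) (nat_lit 82955387292) (nat_lit 20) (nat_lit 5) (nat_lit 21) (nat_lit 5) (nat_lit 22) (nat_lit 4) (nat_lit 362) (nat_lit 322) (nat_lit 216))) (XT.nd (nat_lit 78) (nat_lit 152) (nat_lit 0) (XT.lf (nat_lit 0) (nat_lit 117956856611) (nat_lit 76) (nat_lit 11124536293) (nat_lit 152) (nat_lit 40098090196) (nat_lit 20) (nat_lit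 5) (nat_lit 21) (nat_lit 5) (nat_lit 22) (nat_lit 4) (nat_lit 363) (nat_lit 322) (nat_lit 215)) (XT.nd (nat_lit 78) (nat_lit 0) (nat_lit 0) (XT.lf (nat_lit 0) (nat_lit 7645271385) (nat_lit 152) (nat_lit 124006128158) (nat_lit 76) (nat_lit 48070958169) (nat_lit 18) (nat_lit 5) (nat_lit 20) (nat_lit 5) (nat_lit 19) (nat_lit 4) (nat_lit 364) (nat_lit 322) (nat_lit 214)) (XT.lf (nat_lit 0) (nat_lit 58914188608) (nat_lit 152) (nat_lit 18907389632) (nat_lit 76) (nat_lit 113198670903) (nat_lit 18) (nat_lit 5) (nat_lit 20) (nat_lit 5) (nat_lit 19) (nat_lit 4) (nat_lit 365) (nat_lit 322) (nat_lit 213))))) (XT.nd (nat_lit 234) (nat_lit 152) (nat_lit 0) (XT.nd (nat_lit 78) (nat_lit 152) (nat_lit 0) (XT.lf (nat_lit 0) (nat_lit 97722971313) (nat_lit 76) (nat_lit 18085224342) (nat_lit 152) (nat_lit 87337597929) (nat_lit 17) (nat_lit 5) (nat_lit 18) (nat_lit 5) (nat_lit 19) (nat_lit 4) (nat_lit 366) (nat_lit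 322) (nat_lit 212)) (XT.nd (nat_lit 78) (nat_lit 76) (nat_lit 0) (XT.lf (nat_lit 0) (nat_lit 7644470188) (nat_lit 76) (nat_lit 170786179885) (nat_lit 76) (nat_lit 37751885647) (nat_lit 16) (nat_lit 4) (nat_lit 17) (nat_lit 5) (nat_lit 17) (nat_lit 4) (nat_lit 367) (nat_lit 322) (nat_lit 211)) (XT.lf (nat_lit 0) (nat_lit 17464396444) (nat_lit 152) (nat_lit 97234203191) (nat_lit 76) (nat_lit 115442811697) (nat_lit 15) (nat_lit 5) (nat_lit 17) (nat_lit 5) (nat_lit 16) (nat_lit 4) (nat_lit 368) (nat_lit 322) (nat_lit 210)))) (XT.nd (nat_lit 78) (nat_lit 76) (nat_lit 0) (XT.lf (nat_lit 0) (nat_lit 23072324644) (nat_lit 76) (nat_lit 53079050900) (nat_lit 152) (nat_lit 169015875842) (nat_lit 14) (nat_lit 5) (nat_lit 15) (nat_lit 5) (nat_lit 16) (nat_lit 4) (nat_lit 369) (nat_lit 322) (nat_lit 209)) (XT.nd (nat_lit 78) (nat_lit 76) (nat_lit 0) (XT.lf (nat_lit 0) (nat_lit 141463333274) (nat_lit 152)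 (nat_lit 105076413102) (nat_lit 0) (nat_lit 14758911616) (nat_lit 14) (nat_lit 5) (nat_lit 16) (nat_lit 4) (nat_lit 14) (nat_lit 4) (nat_lit 370) (nat_lit 322) (nat_lit 208)) (XT.lf (nat_lit 0) (nat_lit 21080074108) (nat_lit 76) (nat_lit 192142627573) (nat_lit 76) (nat_lit 65436753078) (nat_lit 13) (nat_lit 4) (nat_lit 14) (nat_lit 5) (nat_lit 14) (nat_lit 4) (nat_lit 371) (nat_lit 322) (nat_lit 207)))))) (XT.nd (nat_lit 468) (nat_lit 228) (nat_lit 0) (XT.nd (nat_lit 234) (nat_lit 76) (nat_lit 0) (XT.nd (nat_lit 78) (nat_lit 152) (nat_lit 0) (XT.lf (nat_lit 0) (nat_lit 161078272039) (nat_lit 76) (nat_lit 131473312502) (nat_lit 76) (nat_lit 4766092787) (nat_lit 13) (nat_lit 4) (nat_lit 14) (nat_lit 5) (nat_lit 14) (nat_lit 4) (nat_lit 372) (nat_lit 322) (nat_lit 206)) (XT.nd (nat_lit 78) (nat_lit 76) (nat_lit 0) (XT.lf (nat_lit 0) (nat_lit 58812073345) (nat_lit 152) (nat_lit 6143714931) (nat_lit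 76) (nat_lit 252465414622) (nat_lit 12) (nat_lit 5) (nat_lit 14) (nat_lit 5) (nat_lit 13) (nat_lit 4) (nat_lit 373) (nat_lit 322) (nat_lit 205)) (XT.lf (nat_lit 0) (nat_lit 129620369869) (nat_lit 152) (nat_lit 200448648744) (nat_lit 0) (nat_lit 8944542632) (nat_lit 11) (nat_lit 5) (nat_lit 13) (nat_lit 4) (nat_lit 11) (nat_lit 4) (nat_lit 374) (nat_lit 322) (nat_lit 204)))) (XT.nd (nat_lit 78) (nat_lit 76) (nat_lit 0) (XT.lf (nat_lit 0) (nat_lit 207296028667) (nat_lit 152) (nat_lit 68357960497) (nat_lit 0) (nat_lit 86619184402) (nat_lit 11) (nat_lit 5) (nat_lit 13) (nat_lit 4) (nat_lit 11) (nat_lit 4) (nat_lit 375) (nat_lit 322) (nat_lit 203)) (XT.nd (nat_lit 78) (nat_lit 0) (nat_lit 0) (XT.lf (nat_lit 0) (nat_lit 76754192839) (nat_lit 76) (nat_lit 215628646623) (nat_lit 76) (nat_lit 94950860666) (nat_lit 10) (nat_lit 4) (nat_lit 11) (nat_lit 5) (nat_lit 11) (nat_lit 4) (nat_lit 376) (nat_lit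 322) (nat_lit 202)) (XT.lf (nat_lit 0) (nat_lit 235914060134) (nat_lit 76) (nat_lit 149552094402) (nat_lit 76) (nat_lit 28873436508) (nat_lit 10) (nat_lit 4) (nat_lit 11) (nat_lit 5) (nat_lit 11) (nat_lit 4) (nat_lit 377) (nat_lit 322) (nat_lit 201))))) (XT.nd (nat_lit 234) (nat_lit 76) (nat_lit 0) (XT.nd (nat_lit 78) (nat_lit 76) (nat_lit 0) (XT.lf (nat_lit 0) (nat_lit 41129108292) (nat_lit 152) (nat_lit 36364793244) (nat_lit 76) (nat_lit 365978938440) (nat_lit 9) (nat_lit 5) (nat_lit 11) (nat_lit 5) (nat_lit 10) (nat_lit 4) (nat_lit 378) (nat_lit 322) (nat_lit 200)) (XT.nd (nat_lit 78) (nat_lit 0) (nat_lit 0) (XT.lf (nat_lit 0) (nat_lit 117656874340) (nat_lit 152) (nat_lit 354436039435) (nat_lit 0) (nat_lit 2723338350) (nat_lit 8) (nat_lit 5) (nat_lit 10) (nat_lit 4) (nat_lit 8) (nat_lit 4) (nat_lit 379) (nat_lit 322) (nat_lit 199)) (XT.lf (nat_lit 0) (nat_lit 202256379639) (nat_lit 152)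 (nat_lit 218991097424) (nat_lit 0) (nat_lit 87322184438) (nat_lit 8) (nat_lit 5) (nat_lit 10) (nat_lit 4) (nat_lit 8) (nat_lit 4) (nat_lit 380) (nat_lit 322) (nat_lit 198)))) (XT.nd (nat_lit 78) (nat_lit 76) (nat_lit 0) (XT.lf (nat_lit 0) (nat_lit 293622913459) (nat_lit 152) (nat_lit 72712369027) (nat_lit 0) (nat_lit 178688107876) (nat_lit 8) (nat_lit 5) (nat_lit 10) (nat_lit 4) (nat_lit 8) (nat_lit 4) (nat_lit 381) (nat_lit 322) (nat_lit 197)) (XT.nd (nat_lit 78) (nat_lit 0) (nat_lit 0) (XT.lf (nat_lit 0) (nat_lit 88086294187) (nat_lit 76) (nat_lit 305586886837) (nat_lit 76) (nat_lit 190651516087) (nat_lit 7) (nat_lit 4) (nat_lit 8) (nat_lit 5) (nat_lit 8) (nat_lit 4) (nat_lit 382) (nat_lit 322) (nat_lit 196)) (XT.lf (nat_lit 0) (nat_lit 264343783518) (nat_lit 76) (nat_lit 238649465063) (nat_lit 76) (nat_lit 123713571010) (nat_lit 7) (nat_lit 4) (nat_lit 8) (nat_lit 5) (nat_lit 8) (nat_lit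 4) (nat_lit 383) (nat_lit 322) (nat_lit 195))))))) (XT.nd (nat_lit 42510) (nat_lit 0) (nat_lit 4484) (XT.nd (nat_lit 468) (nat_lit 0) (nat_lit 0) (XT.nd (nat_lit 234) (nat_lit 0) (nat_lit 0) (XT.nd (nat_lit 78) (nat_lit 152) (nat_lit 0) (XT.lf (nat_lit 0) (nat_lit 454700388491) (nat_lit 76) (nat_lit 166357770116) (nat_lit 76) (nat_lit 51421391522) (nat_lit 7) (nat_lit 4) (nat_lit 8) (nat_lit 5) (nat_lit 8) (nat_lit 4) (nat_lit 384) (nat_lit 322) (nat_lit 194)) (XT.nd (nat_lit 78) (nat_lit 76) (nat_lit 0) (XT.lf (nat_lit 0) (nat_lit 25800344567) (nat_lit 152) (nat_lit 62046120878) (nat_lit 76) (nat_lit 634046862360) (nat_lit 6) (nat_lit 5) (nat_lit 8) (nat_lit 5) (nat_lit 7) (nat_lit 4) (nat_lit 385) (nat_lit 322) (nat_lit 193)) (XT.lf (nat_lit 0) (nat_lit 108758150636) (nat_lit 76) (nat_lit 361553408) (nat_lit 152) (nat_lit 666012283081) (nat_lit 5) (nat_lit 5) (nat_lit 6) (nat_lit 5) (nat_lit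 7) (nat_lit 4) (nat_lit 386) (nat_lit 322) (nat_lit 192)))) (XT.nd (nat_lit 78) (nat_lit 0) (nat_lit 0) (XT.lf (nat_lit 0) (nat_lit 201671999937) (nat_lit 152) (nat_lit 538621776973) (nat_lit 0) (nat_lit 92207592984) (nat_lit 5) (nat_lit 5) (nat_lit 7) (nat_lit 4) (nat_lit 5) (nat_lit 4) (nat_lit 387) (nat_lit 322) (nat_lit 191)) (XT.nd (nat_lit 78) (nat_lit 0) (nat_lit 0) (XT.lf (nat_lit 0) (nat_lit 301633979291) (nat_lit 152) (nat_lit 400656815935) (nat_lit 0) (nat_lit 192169233147) (nat_lit 5) (nat_lit 5) (nat_lit 7) (nat_lit 4) (nat_lit 5) (nat_lit 4) (nat_lit 388) (nat_lit 322) (nat_lit 190)) (XT.lf (nat_lit 0) (nat_lit 409592364531) (nat_lit 152) (nat_lit 251655738375) (nat_lit 0) (nat_lit 300127304321) (nat_lit 5) (nat_lit 5) (nat_lit 7) (nat_lit 4) (nat_lit 5) (nat_lit 4) (nat_lit 389) (nat_lit 322) (nat_lit 189))))) (XT.nd (nat_lit 41808) (nat_lit 0) (nat_lit 7296) (XT.nd (nat_lit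 41652) (nat_lit 0) (nat_lit 7220) (XT.lf (nat_lit 0) (nat_lit 526186909051) (nat_lit 152) (nat_lit 90735574943) (nat_lit 0) (nat_lit 416721558038) (nat_lit 5) (nat_lit 5) (nat_lit 7) (nat_lit 4) (nat_lit 5) (nat_lit 4) (nat_lit 390) (nat_lit 322) (nat_lit 188)) (XT.nd (nat_lit 78) (nat_lit 0) (nat_lit 76) (XT.lf (nat_lit 0) (nat_lit 545213209) (nat_lit 836) (nat_lit 5728730262) (nat_lit 836) (nat_lit 5728730262) (nat_lit 100) (nat_lit 3) (nat_lit 111) (nat_lit 3) (nat_lit 111) (nat_lit 5) (nat_lit 323) (nat_lit 323) (nat_lit 254)) (XT.lf (nat_lit 0) (nat_lit 1502086695) (nat_lit 760) (nat_lit 18101491171) (nat_lit 836) (nat_lit 5343398116) (nat_lit 101) (nat_lit 5) (nat_lit 111) (nat_lit 5) (nat_lit 112) (nat_lit 5) (nat_lit 324) (nat_lit 323) (nat_lit 253)))) (XT.nd (nat_lit 78) (nat_lit 0) (nat_lit 76) (XT.lf (nat_lit 76) (nat_lit 870410891) (nat_lit 0) (nat_lit 1486905902) (nat_lit 836)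 (nat_lit 23586104466) (nat_lit 102) (nat_lit 5) (nat_lit 101) (nat_lit 5) (nat_lit 112) (nat_lit 5) (nat_lit 325) (nat_lit 323) (nat_lit 252)) (XT.nd (nat_lit 78) (nat_lit 0) (nat_lit 76) (XT.lf (nat_lit 0) (nat_lit 3867559469) (nat_lit 760) (nat_lit 5295708602) (nat_lit 836) (nat_lit 17827001353) (nat_lit 102) (nat_lit 5) (nat_lit 112) (nat_lit 5) (nat_lit 113) (nat_lit 5) (nat_lit 326) (nat_lit 323) (nat_lit 251)) (XT.lf (nat_lit 0) (nat_lit 5935741943) (nat_lit 760) (nat_lit 11717361121) (nat_lit 836) (nat_lit 10445922073) (nat_lit 103) (nat_lit 5) (nat_lit 113) (nat_lit 5) (nat_lit 114) (nat_lit 5) (nat_lit 327) (nat_lit 323) (nat_lit 250)))))) (XT.nd (nat_lit 468) (nat_lit 1672) (nat_lit 0) (XT.nd (nat_lit 234) (nat_lit 1368) (nat_lit 0) (XT.nd (nat_lit 78) (nat_lit 0) (nat_lit 0) (XT.lf (nat_lit 0) (nat_lit 8609341235) (nat_lit 760) (nat_lit 18440218770) (nat_lit 836) (nat_lit 2224937743)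 (nat_lit 104) (nat_lit 5) (nat_lit 114) (nat_lit 5) (nat_lit 115) (nat_lit 5) (nat_lit 328) (nat_lit 323) (nat_lit 249)) (XT.nd (nat_lit 78) (nat_lit 0) (nat_lit 76) (XT.lf (nat_lit 76) (nat_lit 4920430742) (nat_lit 0) (nat_lit 7145326616) (nat_lit 836) (nat_lit 18449817840) (nat_lit 105) (nat_lit 5) (nat_lit 104) (nat_lit 5) (nat_lit 115) (nat_lit 5) (nat_lit 329) (nat_lit 323) (nat_lit 248)) (XT.lf (nat_lit 0) (nat_lit 16337055542) (nat_lit 760) (nat_lit 1271683213) (nat_lit 76) (nat_lit 14220294127) (nat_lit 105) (nat_lit 5) (nat_lit 115) (nat_lit 5) (nat_lit 106) (nat_lit 5) (nat_lit 330) (nat_lit 323) (nat_lit 247)))) (XT.nd (nat_lit 78) (nat_lit 684) (nat_lit 0) (XT.lf (nat_lit 0) (nat_lit 21526373472) (nat_lit 836) (nat_lit 7598795477) (nat_lit 76) (nat_lit 4093593988) (nat_lit 95) (nat_lit 5) (nat_lit 106) (nat_lit 5) (nat_lit 96) (nat_lit 5) (nat_lit 331) (nat_lit 323) (nat_lit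 246)) (XT.nd (nat_lit 78) (nat_lit 304) (nat_lit 0) (XT.lf (nat_lit 0) (nat_lit 20333093967) (nat_lit 380) (nat_lit 7424054045) (nat_lit 456) (nat_lit 6931218522) (nat_lit 90) (nat_lit 5) (nat_lit 95) (nat_lit 5) (nat_lit 96) (nat_lit 5) (nat_lit 332) (nat_lit 323) (nat_lit 245)) (XT.lf (nat_lit 0) (nat_lit 14710330008) (nat_lit 304) (nat_lit 20380327916) (nat_lit 380) (nat_lit 1154676730) (nat_lit 86) (nat_lit 5) (nat_lit 90) (nat_lit 5) (nat_lit 91) (nat_lit 5) (nat_lit 333) (nat_lit 323) (nat_lit 244))))) (XT.nd (nat_lit 234) (nat_lit 912) (nat_lit 0) (XT.nd (nat_lit 78) (nat_lit 304) (nat_lit 0) (XT.lf (nat_lit 0) (nat_lit 5479913971) (nat_lit 456) (nat_lit 29188568289) (nat_lit 76) (nat_lit 3226485682) (nat_lit 80) (nat_lit 5) (nat_lit 86) (nat_lit 5) (nat_lit 81) (nat_lit 5) (nat_lit 334) (nat_lit 323) (nat_lit 243)) (XT.nd (nat_lit 78) (nat_lit 0) (nat_lit 0) (XT.lf (nat_lit 0) (nat_lit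 2168280351) (nat_lit 304) (nat_lit 11186876569) (nat_lit 380) (nat_lit 26282959640) (nat_lit 76) (nat_lit 5) (nat_lit 80) (nat_lit 5) (nat_lit 81) (nat_lit 5) (nat_lit 335) (nat_lit 323) (nat_lit 242)) (XT.lf (nat_lit 0) (nat_lit 22589999149) (nat_lit 380) (nat_lit 4659050612) (nat_lit 76) (nat_lit 14235195804) (nat_lit 76) (nat_lit 5) (nat_lit 81) (nat_lit 5) (nat_lit 77) (nat_lit 5) (nat_lit 336) (nat_lit 323) (nat_lit 241)))) (XT.nd (nat_lit 78) (nat_lit 608) (nat_lit 0) (XT.lf (nat_lit 0) (nat_lit 31589655478) (nat_lit 304) (nat_lit 1647950430) (nat_lit 380) (nat_lit 10206767058) (nat_lit 72) (nat_lit 5) (nat_lit 76) (nat_lit 5) (nat_lit 77) (nat_lit 5) (nat_lit 337) (nat_lit 323) (nat_lit 240)) (XT.nd (nat_lit 78) (nat_lit 304) (nat_lit 0) (XT.lf (nat_lit 0) (nat_lit 99674198) (nat_lit 304) (nat_lit 19763672032) (nat_lit 76) (nat_lit 25653734858) (nat_lit 68) (nat_lit 5) (nat_lit 72)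 (nat_lit 5) (nat_lit 69) (nat_lit 5) (nat_lit 338) (nat_lit 323) (nat_lit 239)) (XT.lf (nat_lit 0) (nat_lit 11537772546) (nat_lit 380) (nat_lit 28387325010) (nat_lit 76) (nat_lit 7788910904) (nat_lit 64) (nat_lit 5) (nat_lit 69) (nat_lit 5) (nat_lit 65) (nat_lit 5) (nat_lit 339) (nat_lit 323) (nat_lit 238))))))))
noncomputable def xc87 : XT := (XT.nd (nat_lit 1794) (nat_lit 1140) (nat_lit 0) (XT.nd (nat_lit 858) (nat_lit 1292) (nat_lit 0) (XT.nd (nat_lit 390) (nat_lit 988) (nat_lit 0) (XT.nd (nat_lit 156) (nat_lit 532) (nat_lit 0) (XT.nd (nat_lit 78) (nat_lit 228) (nat_lit 0) (XT.lf (nat_lit 0) (nat_lit 12222078673) (nat_lit 228) (nat_lit 12537720382) (nat_lit 304) (nat_lit 25283452192) (nat_lit 61) (nat_lit 5) (nat_lit 64) (nat_lit 5) (nat_lit 65) (nat_lit 5) (nat_lit 340) (nat_lit 323) (nat_lit 237)) (XT.lf (nat_lit 0) (nat_lit 4418106654) (nat_lit 228) (nat_lit 35452652448) (nat_lit 304)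 (nat_lit 12646520638) (nat_lit 58) (nat_lit 5) (nat_lit 61) (nat_lit 5) (nat_lit 62) (nat_lit 5) (nat_lit 341) (nat_lit 323) (nat_lit 236))) (XT.nd (nat_lit 78) (nat_lit 456) (nat_lit 0) (XT.lf (nat_lit 0) (nat_lit 1844129667) (nat_lit 304) (nat_lit 4015812282) (nat_lit 76) (nat_lit 49284770428) (nat_lit 57) (nat_lit 5) (nat_lit 61) (nat_lit 5) (nat_lit 58) (nat_lit 5) (nat_lit 342) (nat_lit 323) (nat_lit 235)) (XT.nd (nat_lit 78) (nat_lit 228) (nat_lit 0) (XT.lf (nat_lit 0) (nat_lit 18173113608) (nat_lit 304) (nat_lit 13552477642) (nat_lit 76) (nat_lit 26190278632) (nat_lit 54) (nat_lit 5) (nat_lit 58) (nat_lit 5) (nat_lit 55) (nat_lit 5) (nat_lit 343) (nat_lit 323) (nat_lit 234)) (XT.lf (nat_lit 0) (nat_lit 36555205148) (nat_lit 304) (nat_lit 23952579025) (nat_lit 76) (nat_lit 363600042) (nat_lit 51) (nat_lit 5) (nat_lit 55) (nat_lit 5) (nat_lit 52) (nat_lit 5) (nat_lit 344) (nat_lit 323)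 (nat_lit 233))))) (XT.nd (nat_lit 234) (nat_lit 380) (nat_lit 0) (XT.nd (nat_lit 78) (nat_lit 456) (nat_lit 0) (XT.lf (nat_lit 0) (nat_lit 28216594516) (nat_lit 152) (nat_lit 29401467731) (nat_lit 228) (nat_lit 6384770930) (nat_lit 49) (nat_lit 5) (nat_lit 51) (nat_lit 5) (nat_lit 52) (nat_lit 5) (nat_lit 345) (nat_lit 323) (nat_lit 232)) (XT.nd (nat_lit 78) (nat_lit 152) (nat_lit 0) (XT.lf (nat_lit 0) (nat_lit 13352751953) (nat_lit 304) (nat_lit 48996632376) (nat_lit 76) (nat_lit 4985929120) (nat_lit 45) (nat_lit 5) (nat_lit 49) (nat_lit 5) (nat_lit 46) (nat_lit 5) (nat_lit 346) (nat_lit 323) (nat_lit 231)) (XT.lf (nat_lit 0) (nat_lit 6763527060) (nat_lit 152) (nat_lit 28915166476) (nat_lit 228) (nat_lit 35188812555) (nat_lit 43) (nat_lit 5) (nat_lit 45) (nat_lit 5) (nat_lit 46) (nat_lit 5) (nat_lit 347) (nat_lit 323) (nat_lit 230)))) (XT.nd (nat_lit 78) (nat_lit 380) (nat_lit 0) (XT.lf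 (nat_lit 0) (nat_lit 60765875137) (nat_lit 228) (nat_lit 6039207047) (nat_lit 76) (nat_lit 7828436293) (nat_lit 43) (nat_lit 5) (nat_lit 46) (nat_lit 5) (nat_lit 44) (nat_lit 5) (nat_lit 348) (nat_lit 323) (nat_lit 229)) (XT.nd (nat_lit 78) (nat_lit 152) (nat_lit 0) (XT.lf (nat_lit 0) (nat_lit 10278183825) (nat_lit 228) (nat_lit 20763400092) (nat_lit 76) (nat_lit 47581474317) (nat_lit 40) (nat_lit 5) (nat_lit 43) (nat_lit 5) (nat_lit 41) (nat_lit 5) (nat_lit 349) (nat_lit 323) (nat_lit 228)) (XT.lf (nat_lit 0) (nat_lit 36822991469) (nat_lit 228) (nat_lit 37645670704) (nat_lit 76) (nat_lit 8404075727) (nat_lit 38) (nat_lit 5) (nat_lit 41) (nat_lit 5) (nat_lit 39) (nat_lit 5) (nat_lit 350) (nat_lit 323) (nat_lit 227)))))) (XT.nd (nat_lit 468) (nat_lit 532) (nat_lit 0) (XT.nd (nat_lit 234) (nat_lit 456) (nat_lit 0) (XT.nd (nat_lit 78) (nat_lit 152) (nat_lit 0) (XT.lf (nat_lit 0) (nat_lit 30225364457)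 (nat_lit 152) (nat_lit 36624977965) (nat_lit 228) (nat_lit 20544103524) (nat_lit 36) (nat_lit 5) (nat_lit 38) (nat_lit 5) (nat_lit 39) (nat_lit 5) (nat_lit 351) (nat_lit 323) (nat_lit 226)) (XT.nd (nat_lit 78) (nat_lit 0) (nat_lit 0) (XT.lf (nat_lit 0) (nat_lit 7724423940) (nat_lit 152) (nat_lit 79399450318) (nat_lit 76) (nat_lit 5101225027) (nat_lit 34) (nat_lit 5) (nat_lit 36) (nat_lit 5) (nat_lit 35) (nat_lit 5) (nat_lit 352) (nat_lit 323) (nat_lit 225)) (XT.lf (nat_lit 0) (nat_lit 39170334018) (nat_lit 152) (nat_lit 7917579584) (nat_lit 76) (nat_lit 50255670158) (nat_lit 34) (nat_lit 5) (nat_lit 36) (nat_lit 5) (nat_lit 35) (nat_lit 5) (nat_lit 353) (nat_lit 323) (nat_lit 224)))) (XT.nd (nat_lit 78) (nat_lit 304) (nat_lit 0) (XT.lf (nat_lit 0) (nat_lit 71567604900) (nat_lit 152) (nat_lit 2678261831) (nat_lit 228) (nat_lit 28569984241) (nat_lit 32) (nat_lit 5) (nat_lit 34) (nat_lit 5)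 (nat_lit 35) (nat_lit 5) (nat_lit 354) (nat_lit 323) (nat_lit 223)) (XT.nd (nat_lit 78) (nat_lit 152) (nat_lit 0) (XT.lf (nat_lit 0) (nat_lit 4941559504) (nat_lit 152) (nat_lit 58868442615) (nat_lit 76) (nat_lit 44830798974) (nat_lit 30) (nat_lit 5) (nat_lit 32) (nat_lit 5) (nat_lit 31) (nat_lit 5) (nat_lit 355) (nat_lit 323) (nat_lit 222)) (XT.lf (nat_lit 0) (nat_lit 23703191760) (nat_lit 152) (nat_lit 17408559280) (nat_lit 228) (nat_lit 73747645494) (nat_lit 28) (nat_lit 5) (nat_lit 30) (nat_lit 5) (nat_lit 31) (nat_lit 5) (nat_lit 356) (nat_lit 323) (nat_lit 221))))) (XT.nd (nat_lit 234) (nat_lit 228) (nat_lit 0) (XT.nd (nat_lit 78) (nat_lit 304) (nat_lit 0) (XT.lf (nat_lit 0) (nat_lit 81725366640) (nat_lit 228) (nat_lit 7074356591) (nat_lit 76) (nat_lit 32698267053) (nat_lit 28) (nat_lit 5) (nat_lit 31) (nat_lit 5) (nat_lit 29) (nat_lit 4) (nat_lit 357) (nat_lit 323) (nat_lit 220)) (XT.nd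 (nat_lit 78) (nat_lit 228) (nat_lit 0) (XT.lf (nat_lit 0) (nat_lit 86194203887) (nat_lit 76) (nat_lit 41030299213) (nat_lit 152) (nat_lit 1361347880) (nat_lit 27) (nat_lit 5) (nat_lit 28) (nat_lit 5) (nat_lit 29) (nat_lit 4) (nat_lit 358) (nat_lit 323) (nat_lit 219)) (XT.lf (nat_lit 0) (nat_lit 39963054943) (nat_lit 228) (nat_lit 84380833427) (nat_lit 76) (nat_lit 11809311271) (nat_lit 24) (nat_lit 5) (nat_lit 27) (nat_lit 5) (nat_lit 25) (nat_lit 4) (nat_lit 359) (nat_lit 323) (nat_lit 218)))) (XT.nd (nat_lit 78) (nat_lit 152) (nat_lit 0) (XT.lf (nat_lit 0) (nat_lit 10291973243) (nat_lit 76) (nat_lit 75854798377) (nat_lit 152) (nat_lit 58097996725) (nat_lit 23) (nat_lit 5) (nat_lit 24) (nat_lit 5) (nat_lit 25) (nat_lit 4) (nat_lit 360) (nat_lit 323) (nat_lit 217)) (XT.nd (nat_lit 78) (nat_lit 152) (nat_lit 0) (XT.lf (nat_lit 0) (nat_lit 115547219398) (nat_lit 76) (nat_lit 21945296741) (nat_lit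 152) (nat_lit 15417780656) (nat_lit 23) (nat_lit 5) (nat_lit 24) (nat_lit 5) (nat_lit 25) (nat_lit 4) (nat_lit 361) (nat_lit 323) (nat_lit 216)) (XT.lf (nat_lit 0) (nat_lit 31356507962) (nat_lit 152) (nat_lit 94115070399) (nat_lit 76) (nat_lit 36690466959) (nat_lit 21) (nat_lit 5) (nat_lit 23) (nat_lit 5) (nat_lit 22) (nat_lit 4) (nat_lit 362) (nat_lit 323) (nat_lit 215))))))) (XT.nd (nat_lit 936) (nat_lit 456) (nat_lit 0) (XT.nd (nat_lit 468) (nat_lit 304) (nat_lit 0) (XT.nd (nat_lit 234) (nat_lit 152) (nat_lit 0) (XT.nd (nat_lit 78) (nat_lit 152) (nat_lit 0) (XT.lf (nat_lit 0) (nat_lit 10803531833) (nat_lit 76) (nat_lit 71734188134) (nat_lit 152) (nat_lit 89543319655) (nat_lit 20) (nat_lit 5) (nat_lit 21) (nat_lit 5) (nat_lit 22) (nat_lit 4) (nat_lit 363) (nat_lit 323) (nat_lit 214)) (XT.nd (nat_lit 78) (nat_lit 152) (nat_lit 0) (XT.lf (nat_lit 0) (nat_lit 127472392416) (nat_lit 76) (nat_lit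 11978268749) (nat_lit 152) (nat_lit 43261031281) (nat_lit 20) (nat_lit 5) (nat_lit 21) (nat_lit 5) (nat_lit 22) (nat_lit 4) (nat_lit 364) (nat_lit 323) (nat_lit 213)) (XT.lf (nat_lit 0) (nat_lit 8298897374) (nat_lit 152) (nat_lit 133848150047) (nat_lit 76) (nat_lit 51950988588) (nat_lit 18) (nat_lit 5) (nat_lit 20) (nat_lit 5) (nat_lit 19) (nat_lit 4) (nat_lit 365) (nat_lit 323) (nat_lit 212)))) (XT.nd (nat_lit 78) (nat_lit 152) (nat_lit 0) (XT.lf (nat_lit 0) (nat_lit 63666216547) (nat_lit 152) (nat_lit 20347324911) (nat_lit 76) (nat_lit 122286373616) (nat_lit 18) (nat_lit 5) (nat_lit 20) (nat_lit 5) (nat_lit 19) (nat_lit 4) (nat_lit 366) (nat_lit 323) (nat_lit 211)) (XT.nd (nat_lit 78) (nat_lit 76) (nat_lit 0) (XT.lf (nat_lit 0) (nat_lit 105610307374) (nat_lit 76) (nat_lit 19499640897) (nat_lit 152) (nat_lit 94285645288) (nat_lit 17) (nat_lit 5) (nat_lit 18) (nat_lit 5) (nat_lit 19) (nat_lit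 4) (nat_lit 367) (nat_lit 323) (nat_lit 210)) (XT.lf (nat_lit 0) (nat_lit 8323804479) (nat_lit 76) (nat_lit 184417173227) (nat_lit 76) (nat_lit 40734359067) (nat_lit 16) (nat_lit 4) (nat_lit 17) (nat_lit 5) (nat_lit 17) (nat_lit 4) (nat_lit 368) (nat_lit 323) (nat_lit 209))))) (XT.nd (nat_lit 234) (nat_lit 152) (nat_lit 0) (XT.nd (nat_lit 78) (nat_lit 76) (nat_lit 0) (XT.lf (nat_lit 0) (nat_lit 18895318084) (nat_lit 152) (nat_lit 104949059604) (nat_lit 76) (nat_lit 124706650980) (nat_lit 15) (nat_lit 5) (nat_lit 17) (nat_lit 5) (nat_lit 16) (nat_lit 4) (nat_lit 369) (nat_lit 323) (nat_lit 208)) (XT.nd (nat_lit 78) (nat_lit 0) (nat_lit 0) (XT.lf (nat_lit 0) (nat_lit 24979214318) (nat_lit 76) (nat_lit 57296493718) (nat_lit 152) (nat_lit 182503305788) (nat_lit 14) (nat_lit 5) (nat_lit 15) (nat_lit 5) (nat_lit 16) (nat_lit 4) (nat_lit 370) (nat_lit 323) (nat_lit 207)) (XT.lf (nat_lit 0) (nat_lit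 152810653052) (nat_lit 152) (nat_lit 113424868318) (nat_lit 0) (nat_lit 15965510539) (nat_lit 14) (nat_lit 5) (nat_lit 16) (nat_lit 4) (nat_lit 14) (nat_lit 4) (nat_lit 371) (nat_lit 323) (nat_lit 206)))) (XT.nd (nat_lit 78) (nat_lit 76) (nat_lit 0) (XT.lf (nat_lit 0) (nat_lit 22821632129) (nat_lit 76) (nat_lit 207487758910) (nat_lit 76) (nat_lit 70641370823) (nat_lit 13) (nat_lit 4) (nat_lit 14) (nat_lit 5) (nat_lit 14) (nat_lit 4) (nat_lit 372) (nat_lit 323) (nat_lit 205)) (XT.nd (nat_lit 78) (nat_lit 76) (nat_lit 0) (XT.lf (nat_lit 0) (nat_lit 174015600555) (nat_lit 76) (nat_lit 141966845216) (nat_lit 76) (nat_lit 5119303820) (nat_lit 13) (nat_lit 4) (nat_lit 14) (nat_lit 5) (nat_lit 14) (nat_lit 4) (nat_lit 373) (nat_lit 323) (nat_lit 204)) (XT.lf (nat_lit 0) (nat_lit 63542203814) (nat_lit 152) (nat_lit 6587091455) (nat_lit 76) (nat_lit 272684341045) (nat_lit 12) (nat_lit 5) (nat_lit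 14) (nat_lit 5) (nat_lit 13) (nat_lit 4) (nat_lit 374) (nat_lit 323) (nat_lit 203)))))) (XT.nd (nat_lit 468) (nat_lit 152) (nat_lit 0) (XT.nd (nat_lit 234) (nat_lit 152) (nat_lit 0) (XT.nd (nat_lit 78) (nat_lit 76) (nat_lit 0) (XT.lf (nat_lit 0) (nat_lit 140014362305) (nat_lit 152) (nat_lit 216437649673) (nat_lit 0) (nat_lit 9681411779) (nat_lit 11) (nat_lit 5) (nat_lit 13) (nat_lit 4) (nat_lit 11) (nat_lit 4) (nat_lit 375) (nat_lit 323) (nat_lit 202)) (XT.nd (nat_lit 78) (nat_lit 76) (nat_lit 0) (XT.lf (nat_lit 0) (nat_lit 223902269152) (nat_lit 152) (nat_lit 73783179771) (nat_lit 0) (nat_lit 93568446688) (nat_lit 11) (nat_lit 5) (nat_lit 13) (nat_lit 4) (nat_lit 11) (nat_lit 4) (nat_lit 376) (nat_lit 323) (nat_lit 201)) (XT.lf (nat_lit 0) (nat_lit 82936058957) (nat_lit 76) (nat_lit 232858943286) (nat_lit 76) (nat_lit 102524313473) (nat_lit 10) (nat_lit 4) (nat_lit 11) (nat_lit 5) (nat_lit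 11) (nat_lit 4) (nat_lit 377) (nat_lit 323) (nat_lit 200)))) (XT.nd (nat_lit 78) (nat_lit 152) (nat_lit 0) (XT.lf (nat_lit 0) (nat_lit 254825639288) (nat_lit 76) (nat_lit 161497748003) (nat_lit 76) (nat_lit 31162370645) (nat_lit 10) (nat_lit 4) (nat_lit 11) (nat_lit 5) (nat_lit 11) (nat_lit 4) (nat_lit 378) (nat_lit 323) (nat_lit 199)) (XT.nd (nat_lit 78) (nat_lit 76) (nat_lit 0) (XT.lf (nat_lit 0) (nat_lit 44438205980) (nat_lit 152) (nat_lit 39237747269) (nat_lit 76) (nat_lit 395273772502) (nat_lit 9) (nat_lit 5) (nat_lit 11) (nat_lit 5) (nat_lit 10) (nat_lit 4) (nat_lit 379) (nat_lit 323) (nat_lit 198)) (XT.lf (nat_lit 0) (nat_lit 127087605358) (nat_lit 152) (nat_lit 382755630183) (nat_lit 0) (nat_lit 2957404949) (nat_lit 8) (nat_lit 5) (nat_lit 10) (nat_lit 4) (nat_lit 8) (nat_lit 4) (nat_lit 380) (nat_lit 323) (nat_lit 197))))) (XT.nd (nat_lit 234) (nat_lit 76) (nat_lit 0) (XT.nd (nat_lit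 78) (nat_lit 76) (nat_lit 0) (XT.lf (nat_lit 0) (nat_lit 218453724335) (nat_lit 152) (nat_lit 236477707063) (nat_lit 0) (nat_lit 94322958758) (nat_lit 8) (nat_lit 5) (nat_lit 10) (nat_lit 4) (nat_lit 8) (nat_lit 4) (nat_lit 381) (nat_lit 323) (nat_lit 196)) (XT.nd (nat_lit 78) (nat_lit 76) (nat_lit 0) (XT.lf (nat_lit 0) (nat_lit 317128333873) (nat_lit 152) (nat_lit 78499100999) (nat_lit 0) (nat_lit 192997044993) (nat_lit 8) (nat_lit 5) (nat_lit 10) (nat_lit 4) (nat_lit 8) (nat_lit 4) (nat_lit 382) (nat_lit 323) (nat_lit 195)) (XT.lf (nat_lit 0) (nat_lit 95162140316) (nat_lit 76) (nat_lit 330019779785) (nat_lit 76) (nat_lit 205888006364) (nat_lit 7) (nat_lit 4) (nat_lit 8) (nat_lit 5) (nat_lit 8) (nat_lit 4) (nat_lit 383) (nat_lit 323) (nat_lit 194)))) (XT.nd (nat_lit 78) (nat_lit 76) (nat_lit 0) (XT.lf (nat_lit 0) (nat_lit 285518084897) (nat_lit 76) (nat_lit 257728405603) (nat_lit 76) (nat_lit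 133596183534) (nat_lit 7) (nat_lit 4) (nat_lit 8) (nat_lit 5) (nat_lit 8) (nat_lit 4) (nat_lit 384) (nat_lit 323) (nat_lit 193)) (XT.nd (nat_lit 78) (nat_lit 76) (nat_lit 0) (XT.lf (nat_lit 0) (nat_lit 491101233179) (nat_lit 76) (nat_lit 179654339257) (nat_lit 76) (nat_lit 55521701773) (nat_lit 7) (nat_lit 4) (nat_lit 8) (nat_lit 5) (nat_lit 8) (nat_lit 4) (nat_lit 385) (nat_lit 323) (nat_lit 192)) (XT.lf (nat_lit 0) (nat_lit 27876383385) (nat_lit 152) (nat_lit 66986436186) (nat_lit 76) (nat_lit 684781372243) (nat_lit 6) (nat_lit 5) (nat_lit 8) (nat_lit 5) (nat_lit 7) (nat_lit 4) (nat_lit 386) (nat_lit 323) (nat_lit 191))))))))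
noncomputable def xc88 : XT := (XT.nd (nat_lit 43446) (nat_lit 0) (nat_lit 1140) (XT.nd (nat_lit 42510) (nat_lit 0) (nat_lit 4028) (XT.nd (nat_lit 42042) (nat_lit 0) (nat_lit 7296) (XT.nd (nat_lit 156) (nat_lit 0) (nat_lit 0) (XT.nd (nat_lit 78) (nat_lit 0) (nat_lit 0) (XT.lf (nat_lit 0) (nat_lit 117481161228) (nat_lit 76) (nat_lit 379589750) (nat_lit 152) (nat_lit 719281220058) (nat_lit 5) (nat_lit 5) (nat_lit 6) (nat_lit 5) (nat_lit 7) (nat_lit 4) (nat_lit 387) (nat_lit 323) (nat_lit 190)) (XT.lf (nat_lit 0) (nat_lit 217816538266) (nat_lit 152) (nat_lit 581690441715) (nat_lit 0) (nat_lit 99593959172) (nat_lit 5) (nat_lit 5) (nat_lit 7) (nat_lit 4) (nat_lit 5) (nat_lit 4) (nat_lit 388) (nat_lit 323) (nat_lit 189))) (XT.nd (nat_lit 78) (nat_lit 0) (nat_lit 0) (XT.lf (nat_lit 0) (nat_lit 325774677574) (nat_lit 152) (nat_lit 432689845084) (nat_lit 0) (nat_lit 207551807678) (nat_lit 5) (nat_lit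 5) (nat_lit 7) (nat_lit 4) (nat_lit 5) (nat_lit 4) (nat_lit 389) (nat_lit 323) (nat_lit 188)) (XT.nd (nat_lit 41730) (nat_lit 0) (nat_lit 7220) (XT.lf (nat_lit 0) (nat_lit 442368994378) (nat_lit 152) (nat_lit 271770126958) (nat_lit 0) (nat_lit 324145855221) (nat_lit 5) (nat_lit 5) (nat_lit 7) (nat_lit 4) (nat_lit 5) (nat_lit 4) (nat_lit 390) (nat_lit 323) (nat_lit 187)) (XT.lf (nat_lit 0) (nat_lit 758225246) (nat_lit 836) (nat_lit 6098006910) (nat_lit 836) (nat_lit 6098006910) (nat_lit 100) (nat_lit 3) (nat_lit 111) (nat_lit 3) (nat_lit 111) (nat_lit 5) (nat_lit 324) (nat_lit 324) (nat_lit 252))))) (XT.nd (nat_lit 234) (nat_lit 0) (nat_lit 152) (XT.nd (nat_lit 78) (nat_lit 0) (nat_lit 0) (XT.lf (nat_lit 0) (nat_lit 1936326783) (nat_lit 760) (nat_lit 19360875456) (nat_lit 836) (nat_lit 5629497023) (nat_lit 101) (nat_lit 5) (nat_lit 111) (nat_lit 5) (nat_lit 112) (nat_lit 5) (nat_lit 325)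 (nat_lit 324) (nat_lit 251)) (XT.nd (nat_lit 78) (nat_lit 0) (nat_lit 76) (XT.lf (nat_lit 76) (nat_lit 1120576577) (nat_lit 0) (nat_lit 1718952657) (nat_lit 836) (nat_lit 25164377758) (nat_lit 102) (nat_lit 5) (nat_lit 101) (nat_lit 5) (nat_lit 112) (nat_lit 5) (nat_lit 326) (nat_lit 324) (nat_lit 250)) (XT.lf (nat_lit 0) (nat_lit 4447206244) (nat_lit 760) (nat_lit 5536692603) (nat_lit 836) (nat_lit 19151796129) (nat_lit 102) (nat_lit 5) (nat_lit 112) (nat_lit 5) (nat_lit 113) (nat_lit 5) (nat_lit 327) (nat_lit 324) (nat_lit 249)))) (XT.nd (nat_lit 78) (nat_lit 0) (nat_lit 76) (XT.lf (nat_lit 0) (nat_lit 6662332270) (nat_lit 760) (nat_lit 12465884371) (nat_lit 836) (nat_lit 11205881088) (nat_lit 103) (nat_lit 5) (nat_lit 113) (nat_lit 5) (nat_lit 114) (nat_lit 5) (nat_lit 328) (nat_lit 324) (nat_lit 248)) (XT.nd (nat_lit 78) (nat_lit 0) (nat_lit 0) (XT.lf (nat_lit 0) (nat_lit 9533130780)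 (nat_lit 760) (nat_lit 19721877301) (nat_lit 836) (nat_lit 2349453976) (nat_lit 104) (nat_lit 5) (nat_lit 114) (nat_lit 5) (nat_lit 115) (nat_lit 5) (nat_lit 329) (nat_lit 324) (nat_lit 247)) (XT.lf (nat_lit 76) (nat_lit 5499212335) (nat_lit 0) (nat_lit 7752327987) (nat_lit 836) (nat_lit 19694029405) (nat_lit 105) (nat_lit 5) (nat_lit 104) (nat_lit 5) (nat_lit 115) (nat_lit 5) (nat_lit 330) (nat_lit 324) (nat_lit 246)))))) (XT.nd (nat_lit 468) (nat_lit 1368) (nat_lit 0) (XT.nd (nat_lit 234) (nat_lit 1064) (nat_lit 0) (XT.nd (nat_lit 78) (nat_lit 1140) (nat_lit 0) (XT.lf (nat_lit 0) (nat_lit 17847695974) (nat_lit 760) (nat_lit 1191055899) (nat_lit 76) (nat_lit 15326211164) (nat_lit 105) (nat_lit 5) (nat_lit 115) (nat_lit 5) (nat_lit 106) (nat_lit 5) (nat_lit 331) (nat_lit 324) (nat_lit 245)) (XT.nd (nat_lit 78) (nat_lit 380) (nat_lit 0) (XT.lf (nat_lit 0) (nat_lit 23439532200) (nat_lit 836)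 (nat_lit 8022240064) (nat_lit 76) (nat_lit 4404746048) (nat_lit 95) (nat_lit 5) (nat_lit 106) (nat_lit 5) (nat_lit 96) (nat_lit 5) (nat_lit 332) (nat_lit 324) (nat_lit 244)) (XT.lf (nat_lit 0) (nat_lit 22136184170) (nat_lit 380) (nat_lit 8021187531) (nat_lit 456) (nat_lit 7296902658) (nat_lit 90) (nat_lit 5) (nat_lit 95) (nat_lit 5) (nat_lit 96) (nat_lit 5) (nat_lit 333) (nat_lit 324) (nat_lit 243)))) (XT.nd (nat_lit 78) (nat_lit 760) (nat_lit 0) (XT.lf (nat_lit 0) (nat_lit 16064742387) (nat_lit 304) (nat_lit 22002238696) (nat_lit 380) (nat_lit 1069361162) (nat_lit 86) (nat_lit 5) (nat_lit 90) (nat_lit 5) (nat_lit 91) (nat_lit 5) (nat_lit 334) (nat_lit 324) (nat_lit 242)) (XT.nd (nat_lit 78) (nat_lit 304) (nat_lit 0) (XT.lf (nat_lit 0) (nat_lit 6080518217) (nat_lit 456) (nat_lit 31340158504) (nat_lit 76) (nat_lit 3497632020) (nat_lit 80) (nat_lit 5) (nat_lit 86) (nat_lit 5) (nat_lit 81)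 (nat_lit 5) (nat_lit 335) (nat_lit 324) (nat_lit 241)) (XT.lf (nat_lit 0) (nat_lit 2517263548) (nat_lit 304) (nat_lit 12059241787) (nat_lit 380) (nat_lit 28224878500) (nat_lit 76) (nat_lit 5) (nat_lit 80) (nat_lit 5) (nat_lit 81) (nat_lit 5) (nat_lit 336) (nat_lit 324) (nat_lit 240))))) (XT.nd (nat_lit 234) (nat_lit 760) (nat_lit 0) (XT.nd (nat_lit 78) (nat_lit 608) (nat_lit 0) (XT.lf (nat_lit 0) (nat_lit 24539132854) (nat_lit 380) (nat_lit 4862376322) (nat_lit 76) (nat_lit 15394254107) (nat_lit 76) (nat_lit 5) (nat_lit 81) (nat_lit 5) (nat_lit 77) (nat_lit 5) (nat_lit 337) (nat_lit 324) (nat_lit 239)) (XT.nd (nat_lit 78) (nat_lit 304) (nat_lit 0) (XT.lf (nat_lit 0) (nat_lit 34278864409) (nat_lit 304) (nat_lit 1751699975) (nat_lit 380) (nat_lit 10882544957) (nat_lit 72) (nat_lit 5) (nat_lit 76) (nat_lit 5) (nat_lit 77) (nat_lit 5) (nat_lit 338) (nat_lit 324) (nat_lit 238)) (XT.lf (nat_lit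 0) (nat_lit 236782113) (nat_lit 304) (nat_lit 21179301292) (nat_lit 76) (nat_lit 27735805213) (nat_lit 68) (nat_lit 5) (nat_lit 72) (nat_lit 5) (nat_lit 69) (nat_lit 5) (nat_lit 339) (nat_lit 324) (nat_lit 237)))) (XT.nd (nat_lit 78) (nat_lit 456) (nat_lit 0) (XT.lf (nat_lit 0) (nat_lit 12583399657) (nat_lit 380) (nat_lit 30494406444) (nat_lit 76) (nat_lit 8447098085) (nat_lit 64) (nat_lit 5) (nat_lit 69) (nat_lit 5) (nat_lit 65) (nat_lit 5) (nat_lit 340) (nat_lit 324) (nat_lit 236)) (XT.nd (nat_lit 78) (nat_lit 228) (nat_lit 0) (XT.lf (nat_lit 0) (nat_lit 13356626441) (nat_lit 228) (nat_lit 13499927770) (nat_lit 304) (nat_lit 27184270903) (nat_lit 61) (nat_lit 5) (nat_lit 64) (nat_lit 5) (nat_lit 65) (nat_lit 5) (nat_lit 341) (nat_lit 324) (nat_lit 235)) (XT.lf (nat_lit 0) (nat_lit 4926544080) (nat_lit 228) (nat_lit 38244266296) (nat_lit 304) (nat_lit 13542251039) (nat_lit 58) (nat_lit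 5) (nat_lit 61) (nat_lit 5) (nat_lit 62) (nat_lit 5) (nat_lit 342) (nat_lit 324) (nat_lit 234))))))) (XT.nd (nat_lit 858) (nat_lit 1064) (nat_lit 0) (XT.nd (nat_lit 390) (nat_lit 836) (nat_lit 0) (XT.nd (nat_lit 156) (nat_lit 684) (nat_lit 0) (XT.nd (nat_lit 78) (nat_lit 228) (nat_lit 0) (XT.lf (nat_lit 0) (nat_lit 2095621897) (nat_lit 304) (nat_lit 4190059997) (nat_lit 76) (nat_lit 53265337796) (nat_lit 57) (nat_lit 5) (nat_lit 61) (nat_lit 5) (nat_lit 58) (nat_lit 5) (nat_lit 343) (nat_lit 324) (nat_lit 233)) (XT.lf (nat_lit 0) (nat_lit 19726077689) (nat_lit 304) (nat_lit 14491717082) (nat_lit 76) (nat_lit 28326322671) (nat_lit 54) (nat_lit 5) (nat_lit 58) (nat_lit 5) (nat_lit 55) (nat_lit 5) (nat_lit 344) (nat_lit 324) (nat_lit 232))) (XT.nd (nat_lit 78) (nat_lit 456) (nat_lit 0) (XT.lf (nat_lit 0) (nat_lit 39574257777) (nat_lit 304) (nat_lit 25726066255) (nat_lit 76) (nat_lit 435977736)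 (nat_lit 51) (nat_lit 5) (nat_lit 55) (nat_lit 5) (nat_lit 52) (nat_lit 5) (nat_lit 345) (nat_lit 324) (nat_lit 231)) (XT.nd (nat_lit 78) (nat_lit 304) (nat_lit 0) (XT.lf (nat_lit 0) (nat_lit 30610438771) (nat_lit 152) (nat_lit 31706825992) (nat_lit 228) (nat_lit 6801250366) (nat_lit 49) (nat_lit 5) (nat_lit 51) (nat_lit 5) (nat_lit 52) (nat_lit 5) (nat_lit 346) (nat_lit 324) (nat_lit 230)) (XT.lf (nat_lit 0) (nat_lit 14508311463) (nat_lit 304) (nat_lit 52779192296) (nat_lit 76) (nat_lit 5430217687) (nat_lit 45) (nat_lit 5) (nat_lit 49) (nat_lit 5) (nat_lit 46) (nat_lit 5) (nat_lit 347) (nat_lit 324) (nat_lit 229))))) (XT.nd (nat_lit 234) (nat_lit 456) (nat_lit 0) (XT.nd (nat_lit 78) (nat_lit 228) (nat_lit 0) (XT.lf (nat_lit 0) (nat_lit 7435818624) (nat_lit 152) (nat_lit 31180088712) (nat_lit 228) (nat_lit 37916806926) (nat_lit 43) (nat_lit 5) (nat_lit 45) (nat_lit 5) (nat_lit 46) (nat_lit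 5) (nat_lit 348) (nat_lit 324) (nat_lit 228)) (XT.nd (nat_lit 78) (nat_lit 228) (nat_lit 0) (XT.lf (nat_lit 0) (nat_lit 65704619479) (nat_lit 228) (nat_lit 6397669763) (nat_lit 76) (nat_lit 8497994035) (nat_lit 43) (nat_lit 5) (nat_lit 46) (nat_lit 5) (nat_lit 44) (nat_lit 5) (nat_lit 349) (nat_lit 324) (nat_lit 227)) (XT.lf (nat_lit 0) (nat_lit 11175280960) (nat_lit 228) (nat_lit 22302703911) (nat_lit 76) (nat_lit 51431138016) (nat_lit 40) (nat_lit 5) (nat_lit 43) (nat_lit 5) (nat_lit 41) (nat_lit 5) (nat_lit 350) (nat_lit 324) (nat_lit 226)))) (XT.nd (nat_lit 78) (nat_lit 304) (nat_lit 0) (XT.lf (nat_lit 0) (nat_lit 39840656038) (nat_lit 228) (nat_lit 40537965321) (nat_lit 76) (nat_lit 9120309232) (nat_lit 38) (nat_lit 5) (nat_lit 41) (nat_lit 5) (nat_lit 39) (nat_lit 5) (nat_lit 351) (nat_lit 324) (nat_lit 225)) (XT.nd (nat_lit 78) (nat_lit 152) (nat_lit 0) (XT.lf (nat_lit 0) (nat_lit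 32757565455) (nat_lit 152) (nat_lit 39509091765) (nat_lit 228) (nat_lit 22115897551) (nat_lit 36) (nat_lit 5) (nat_lit 38) (nat_lit 5) (nat_lit 39) (nat_lit 5) (nat_lit 352) (nat_lit 324) (nat_lit 224)) (XT.lf (nat_lit 0) (nat_lit 8409121255) (nat_lit 152) (nat_lit 85637348986) (nat_lit 76) (nat_lit 5553271174) (nat_lit 34) (nat_lit 5) (nat_lit 36) (nat_lit 5) (nat_lit 35) (nat_lit 5) (nat_lit 353) (nat_lit 324) (nat_lit 223)))))) (XT.nd (nat_lit 468) (nat_lit 532) (nat_lit 0) (XT.nd (nat_lit 234) (nat_lit 228) (nat_lit 0) (XT.nd (nat_lit 78) (nat_lit 304) (nat_lit 0) (XT.lf (nat_lit 0) (nat_lit 42365760183) (nat_lit 152) (nat_lit 8445377287) (nat_lit 76) (nat_lit 54316816498) (nat_lit 34) (nat_lit 5) (nat_lit 36) (nat_lit 5) (nat_lit 35) (nat_lit 5) (nat_lit 354) (nat_lit 324) (nat_lit 222)) (XT.nd (nat_lit 78) (nat_lit 152) (nat_lit 0) (XT.lf (nat_lit 0) (nat_lit 77394032332) (nat_lit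 152) (nat_lit 2850302635) (nat_lit 228) (nat_lit 30793819581) (nat_lit 32) (nat_lit 5) (nat_lit 34) (nat_lit 5) (nat_lit 35) (nat_lit 5) (nat_lit 355) (nat_lit 324) (nat_lit 221)) (XT.lf (nat_lit 0) (nat_lit 5394430937) (nat_lit 152) (nat_lit 63477159601) (nat_lit 76) (nat_lit 48457575653) (nat_lit 30) (nat_lit 5) (nat_lit 32) (nat_lit 5) (nat_lit 31) (nat_lit 5) (nat_lit 356) (nat_lit 324) (nat_lit 220)))) (XT.nd (nat_lit 78) (nat_lit 76) (nat_lit 0) (XT.lf (nat_lit 0) (nat_lit 25695826686) (nat_lit 152) (nat_lit 18759653150) (nat_lit 228) (nat_lit 79589908935) (nat_lit 28) (nat_lit 5) (nat_lit 30) (nat_lit 5) (nat_lit 31) (nat_lit 5) (nat_lit 357) (nat_lit 324) (nat_lit 219)) (XT.nd (nat_lit 78) (nat_lit 76) (nat_lit 0) (XT.lf (nat_lit 0) (nat_lit 88314727510) (nat_lit 228) (nat_lit 7549110933) (nat_lit 76) (nat_lit 35351405921) (nat_lit 28) (nat_lit 5) (nat_lit 31) (nat_lit 5) (nat_lit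 29) (nat_lit 4) (nat_lit 358) (nat_lit 324) (nat_lit 218)) (XT.lf (nat_lit 0) (nat_lit 93176971196) (nat_lit 76) (nat_lit 44274383276) (nat_lit 152) (nat_lit 1418902840) (nat_lit 27) (nat_lit 5) (nat_lit 28) (nat_lit 5) (nat_lit 29) (nat_lit 4) (nat_lit 359) (nat_lit 324) (nat_lit 217))))) (XT.nd (nat_lit 234) (nat_lit 228) (nat_lit 0) (XT.nd (nat_lit 78) (nat_lit 76) (nat_lit 0) (XT.lf (nat_lit 0) (nat_lit 43208042137) (nat_lit 228) (nat_lit 91044477509) (nat_lit 76) (nat_lit 12790523667) (nat_lit 24) (nat_lit 5) (nat_lit 27) (nat_lit 5) (nat_lit 25) (nat_lit 4) (nat_lit 360) (nat_lit 324) (nat_lit 216)) (XT.nd (nat_lit 78) (nat_lit 0) (nat_lit 0) (XT.lf (nat_lit 0) (nat_lit 11198380491) (nat_lit 76) (nat_lit 81885820973) (nat_lit 152) (nat_lit 62697849907) (nat_lit 23) (nat_lit 5) (nat_lit 24) (nat_lit 5) (nat_lit 25) (nat_lit 4) (nat_lit 361) (nat_lit 324) (nat_lit 215)) (XT.lf (nat_lit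 0) (nat_lit 124867894532) (nat_lit 76) (nat_lit 23666326708) (nat_lit 152) (nat_lit 16606771113) (nat_lit 23) (nat_lit 5) (nat_lit 24) (nat_lit 5) (nat_lit 25) (nat_lit 4) (nat_lit 362) (nat_lit 324) (nat_lit 214)))) (XT.nd (nat_lit 78) (nat_lit 76) (nat_lit 0) (XT.lf (nat_lit 0) (nat_lit 33906552214) (nat_lit 152) (nat_lit 101567816840) (nat_lit 76) (nat_lit 39658552249) (nat_lit 21) (nat_lit 5) (nat_lit 23) (nat_lit 5) (nat_lit 22) (nat_lit 4) (nat_lit 363) (nat_lit 324) (nat_lit 213)) (XT.nd (nat_lit 78) (nat_lit 0) (nat_lit 0) (XT.lf (nat_lit 0) (nat_lit 11740950747) (nat_lit 76) (nat_lit 77439376474) (nat_lit 152) (nat_lit 96665205477) (nat_lit 20) (nat_lit 5) (nat_lit 21) (nat_lit 5) (nat_lit 22) (nat_lit 4) (nat_lit 364) (nat_lit 324) (nat_lit 212)) (XT.lf (nat_lit 0) (nat_lit 137737902668) (nat_lit 76) (nat_lit 12905468479) (nat_lit 152) (nat_lit 46683414015) (nat_lit 20) (nat_lit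 5) (nat_lit 21) (nat_lit 5) (nat_lit 22) (nat_lit 4) (nat_lit 365) (nat_lit 324) (nat_lit 211))))))))
noncomputable def xc89 : XT := (XT.nd (nat_lit 1794) (nat_lit 0) (nat_lit 0) (XT.nd (nat_lit 858) (nat_lit 456) (nat_lit 0) (XT.nd (nat_lit 390) (nat_lit 304) (nat_lit 0) (XT.nd (nat_lit 156) (nat_lit 228) (nat_lit 0) (XT.nd (nat_lit 78) (nat_lit 0) (nat_lit 0) (XT.lf (nat_lit 0) (nat_lit 8998821063) (nat_lit 152) (nat_lit 144488728077) (nat_lit 76) (nat_lit 56136520491) (nat_lit 18) (nat_lit 5) (nat_lit 20) (nat_lit 5) (nat_lit 19) (nat_lit 4) (nat_lit 366) (nat_lit 324) (nat_lit 210)) (XT.lf (nat_lit 0) (nat_lit 68792858221) (nat_lit 152) (nat_lit 21912820187) (nat_lit 76) (nat_lit 132096554632) (nat_lit 18) (nat_lit 5) (nat_lit 20) (nat_lit 5) (nat_lit 19) (nat_lit 4) (nat_lit 367) (nat_lit 324) (nat_lit 209))) (XT.nd (nat_lit 78) (nat_lit 152) (nat_lit 0) (XT.lf (nat_lit 0) (nat_lit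 114118715601) (nat_lit 76) (nat_lit 21031833197) (nat_lit 152) (nat_lit 101795094583) (nat_lit 17) (nat_lit 5) (nat_lit 18) (nat_lit 5) (nat_lit 19) (nat_lit 4) (nat_lit 368) (nat_lit 324) (nat_lit 208)) (XT.nd (nat_lit 78) (nat_lit 76) (nat_lit 0) (XT.lf (nat_lit 0) (nat_lit 9047816414) (nat_lit 76) (nat_lit 199143197077) (nat_lit 76) (nat_lit 43960805468) (nat_lit 16) (nat_lit 4) (nat_lit 17) (nat_lit 5) (nat_lit 17) (nat_lit 4) (nat_lit 369) (nat_lit 324) (nat_lit 207)) (XT.lf (nat_lit 0) (nat_lit 20435895798) (nat_lit 152) (nat_lit 113290217703) (nat_lit 76) (nat_lit 134707543781) (nat_lit 15) (nat_lit 5) (nat_lit 17) (nat_lit 5) (nat_lit 16) (nat_lit 4) (nat_lit 370) (nat_lit 324) (nat_lit 206))))) (XT.nd (nat_lit 234) (nat_lit 152) (nat_lit 0) (XT.nd (nat_lit 78) (nat_lit 76) (nat_lit 0) (XT.lf (nat_lit 0) (nat_lit 27029938040) (nat_lit 76) (nat_lit 61855452195) (nat_lit 152) (nat_lit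 197074557801) (nat_lit 14) (nat_lit 5) (nat_lit 15) (nat_lit 5) (nat_lit 16) (nat_lit 4) (nat_lit 371) (nat_lit 324) (nat_lit 205)) (XT.nd (nat_lit 78) (nat_lit 76) (nat_lit 0) (XT.lf (nat_lit 0) (nat_lit 165061442468) (nat_lit 152) (nat_lit 122449425486) (nat_lit 0) (nat_lit 17264944450) (nat_lit 14) (nat_lit 5) (nat_lit 16) (nat_lit 4) (nat_lit 14) (nat_lit 4) (nat_lit 372) (nat_lit 324) (nat_lit 204)) (XT.lf (nat_lit 0) (nat_lit 24694646730) (nat_lit 76) (nat_lit 224064249728) (nat_lit 76) (nat_lit 76266683831) (nat_lit 13) (nat_lit 4) (nat_lit 14) (nat_lit 5) (nat_lit 14) (nat_lit 4) (nat_lit 373) (nat_lit 324) (nat_lit 203)))) (XT.nd (nat_lit 78) (nat_lit 152) (nat_lit 0) (XT.lf (nat_lit 0) (nat_lit 187980630109) (nat_lit 76) (nat_lit 153303331820) (nat_lit 76) (nat_lit 5504777147) (nat_lit 13) (nat_lit 4) (nat_lit 14) (nat_lit 5) (nat_lit 14) (nat_lit 4) (nat_lit 374) (nat_lit 324)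 (nat_lit 202)) (XT.nd (nat_lit 78) (nat_lit 76) (nat_lit 0) (XT.lf (nat_lit 0) (nat_lit 68647154710) (nat_lit 152) (nat_lit 7072803051) (nat_lit 76) (nat_lit 294517686797) (nat_lit 12) (nat_lit 5) (nat_lit 14) (nat_lit 5) (nat_lit 13) (nat_lit 4) (nat_lit 375) (nat_lit 324) (nat_lit 201)) (XT.lf (nat_lit 0) (nat_lit 151236398503) (nat_lit 152) (nat_lit 233712460197) (nat_lit 0) (nat_lit 10474190956) (nat_lit 11) (nat_lit 5) (nat_lit 13) (nat_lit 4) (nat_lit 11) (nat_lit 4) (nat_lit 376) (nat_lit 324) (nat_lit 200)))))) (XT.nd (nat_lit 468) (nat_lit 228) (nat_lit 0) (XT.nd (nat_lit 234) (nat_lit 152) (nat_lit 0) (XT.nd (nat_lit 78) (nat_lit 76) (nat_lit 0) (XT.lf (nat_lit 0) (nat_lit 241833790697) (nat_lit 152) (nat_lit 79648610588) (nat_lit 0) (nat_lit 101070835604) (nat_lit 11) (nat_lit 5) (nat_lit 13) (nat_lit 4) (nat_lit 11) (nat_lit 4) (nat_lit 377) (nat_lit 324) (nat_lit 199)) (XT.nd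 (nat_lit 78) (nat_lit 0) (nat_lit 0) (XT.lf (nat_lit 0) (nat_lit 89606549548) (nat_lit 76) (nat_lit 251470516201) (nat_lit 76) (nat_lit 110706868937) (nat_lit 10) (nat_lit 4) (nat_lit 11) (nat_lit 5) (nat_lit 11) (nat_lit 4) (nat_lit 378) (nat_lit 324) (nat_lit 198)) (XT.lf (nat_lit 0) (nat_lit 275244658833) (nat_lit 76) (nat_lit 174401695115) (nat_lit 76) (nat_lit 33637406950) (nat_lit 10) (nat_lit 4) (nat_lit 11) (nat_lit 5) (nat_lit 11) (nat_lit 4) (nat_lit 379) (nat_lit 324) (nat_lit 197)))) (XT.nd (nat_lit 78) (nat_lit 76) (nat_lit 0) (XT.lf (nat_lit 0) (nat_lit 48009353873) (nat_lit 152) (nat_lit 42345706150) (nat_lit 76) (nat_lit 426909836670) (nat_lit 9) (nat_lit 5) (nat_lit 11) (nat_lit 5) (nat_lit 10) (nat_lit 4) (nat_lit 380) (nat_lit 324) (nat_lit 196)) (XT.nd (nat_lit 78) (nat_lit 0) (nat_lit 0) (XT.lf (nat_lit 0) (nat_lit 137270201125) (nat_lit 152) (nat_lit 413345823047) (nat_lit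 0) (nat_lit 3207885831) (nat_lit 8) (nat_lit 5) (nat_lit 10) (nat_lit 4) (nat_lit 8) (nat_lit 4) (nat_lit 381) (nat_lit 324) (nat_lit 195)) (XT.lf (nat_lit 0) (nat_lit 235944455002) (nat_lit 152) (nat_lit 255367907378) (nat_lit 0) (nat_lit 101881655168) (nat_lit 8) (nat_lit 5) (nat_lit 10) (nat_lit 4) (nat_lit 8) (nat_lit 4) (nat_lit 382) (nat_lit 324) (nat_lit 194))))) (XT.nd (nat_lit 234) (nat_lit 152) (nat_lit 0) (XT.nd (nat_lit 78) (nat_lit 76) (nat_lit 0) (XT.lf (nat_lit 0) (nat_lit 342511964213) (nat_lit 152) (nat_lit 84753088107) (nat_lit 0) (nat_lit 208448715730) (nat_lit 8) (nat_lit 5) (nat_lit 10) (nat_lit 4) (nat_lit 8) (nat_lit 4) (nat_lit 383) (nat_lit 324) (nat_lit 193)) (XT.nd (nat_lit 78) (nat_lit 0) (nat_lit 0) (XT.lf (nat_lit 0) (nat_lit 102799925151) (nat_lit 76) (nat_lit 356409309699) (nat_lit 76) (nat_lit 222345645802) (nat_lit 7) (nat_lit 4) (nat_lit 8) (nat_lit 5)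 (nat_lit 8) (nat_lit 4) (nat_lit 384) (nat_lit 324) (nat_lit 192)) (XT.lf (nat_lit 0) (nat_lit 308382507253) (nat_lit 76) (nat_lit 278335518358) (nat_lit 76) (nat_lit 144271469817) (nat_lit 7) (nat_lit 4) (nat_lit 8) (nat_lit 5) (nat_lit 8) (nat_lit 4) (nat_lit 385) (nat_lit 324) (nat_lit 191)))) (XT.nd (nat_lit 78) (nat_lit 152) (nat_lit 0) (XT.lf (nat_lit 0) (nat_lit 530410605504) (nat_lit 76) (nat_lit 194016353348) (nat_lit 76) (nat_lit 59951948656) (nat_lit 7) (nat_lit 4) (nat_lit 8) (nat_lit 5) (nat_lit 8) (nat_lit 4) (nat_lit 386) (nat_lit 324) (nat_lit 190)) (XT.nd (nat_lit 78) (nat_lit 76) (nat_lit 0) (XT.lf (nat_lit 0) (nat_lit 30116791770) (nat_lit 152) (nat_lit 72325311333) (nat_lit 76) (nat_lit 739573107756) (nat_lit 6) (nat_lit 5) (nat_lit 8) (nat_lit 5) (nat_lit 7) (nat_lit 4) (nat_lit 387) (nat_lit 324) (nat_lit 189)) (XT.lf (nat_lit 0) (nat_lit 126898822971) (nat_lit 76)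 (nat_lit 400622284) (nat_lit 152) (nat_lit 776813390442) (nat_lit 5) (nat_lit 5) (nat_lit 6) (nat_lit 5) (nat_lit 7) (nat_lit 4) (nat_lit 388) (nat_lit 324) (nat_lit 188))))))) (XT.nd (nat_lit 42666) (nat_lit 0) (nat_lit 3496) (XT.nd (nat_lit 42198) (nat_lit 0) (nat_lit 6460) (XT.nd (nat_lit 41964) (nat_lit 0) (nat_lit 7296) (XT.nd (nat_lit 78) (nat_lit 0) (nat_lit 0) (XT.lf (nat_lit 0) (nat_lit 235251102012) (nat_lit 152) (nat_lit 628207606565) (nat_lit 0) (nat_lit 107569842461) (nat_lit 5) (nat_lit 5) (nat_lit 7) (nat_lit 4) (nat_lit 5) (nat_lit 4) (nat_lit 389) (nat_lit 324) (nat_lit 187)) (XT.nd (nat_lit 41808) (nat_lit 0) (nat_lit 7220) (XT.lf (nat_lit 0) (nat_lit 351845207969) (nat_lit 152) (nat_lit 467288300758) (nat_lit 0) (nat_lit 224163699101) (nat_lit 5) (nat_lit 5) (nat_lit 7) (nat_lit 4) (nat_lit 5) (nat_lit 4) (nat_lit 390) (nat_lit 324) (nat_lit 186)) (XT.lf (nat_lit 0) (nat_lit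 964112158) (nat_lit 836) (nat_lit 6509525641) (nat_lit 836) (nat_lit 6509525641) (nat_lit 100) (nat_lit 3) (nat_lit 111) (nat_lit 3) (nat_lit 111) (nat_lit 5) (nat_lit 325) (nat_lit 325) (nat_lit 250)))) (XT.nd (nat_lit 78) (nat_lit 0) (nat_lit 0) (XT.lf (nat_lit 0) (nat_lit 2360500032) (nat_lit 760) (nat_lit 20747935642) (nat_lit 836) (nat_lit 5958652272) (nat_lit 101) (nat_lit 5) (nat_lit 111) (nat_lit 5) (nat_lit 112) (nat_lit 5) (nat_lit 326) (nat_lit 325) (nat_lit 249)) (XT.nd (nat_lit 78) (nat_lit 0) (nat_lit 76) (XT.lf (nat_lit 76) (nat_lit 1365000494) (nat_lit 0) (nat_lit 1953428988) (nat_lit 836) (nat_lit 26912940303) (nat_lit 102) (nat_lit 5) (nat_lit 101) (nat_lit 5) (nat_lit 112) (nat_lit 5) (nat_lit 327) (nat_lit 325) (nat_lit 248)) (XT.lf (nat_lit 0) (nat_lit 5034671716) (nat_lit 760) (nat_lit 5823015625) (nat_lit 836) (nat_lit 20597035385) (nat_lit 102) (nat_lit 5) (nat_lit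 112) (nat_lit 5) (nat_lit 113) (nat_lit 5) (nat_lit 328) (nat_lit 325) (nat_lit 247))))) (XT.nd (nat_lit 234) (nat_lit 988) (nat_lit 0) (XT.nd (nat_lit 78) (nat_lit 0) (nat_lit 76) (XT.lf (nat_lit 0) (nat_lit 7411137585) (nat_lit 760) (nat_lit 13301233275) (nat_lit 836) (nat_lit 12037438380) (nat_lit 103) (nat_lit 5) (nat_lit 113) (nat_lit 5) (nat_lit 114) (nat_lit 5) (nat_lit 329) (nat_lit 325) (nat_lit 246)) (XT.nd (nat_lit 78) (nat_lit 0) (nat_lit 0) (XT.lf (nat_lit 0) (nat_lit 10497292084) (nat_lit 760) (nat_lit 21133681866) (nat_lit 836) (nat_lit 2491560854) (nat_lit 104) (nat_lit 5) (nat_lit 114) (nat_lit 5) (nat_lit 115) (nat_lit 5) (nat_lit 330) (nat_lit 325) (nat_lit 245)) (XT.lf (nat_lit 76) (nat_lit 6097883147) (nat_lit 0) (nat_lit 8402842794) (nat_lit 836) (nat_lit 21070843027) (nat_lit 105) (nat_lit 5) (nat_lit 104) (nat_lit 5) (nat_lit 115) (nat_lit 5) (nat_lit 331) (nat_lit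 325) (nat_lit 244)))) (XT.nd (nat_lit 78) (nat_lit 1140) (nat_lit 0) (XT.lf (nat_lit 0) (nat_lit 19450130984) (nat_lit 760) (nat_lit 1129994375) (nat_lit 76) (nat_lit 16525124850) (nat_lit 105) (nat_lit 5) (nat_lit 115) (nat_lit 5) (nat_lit 106) (nat_lit 5) (nat_lit 332) (nat_lit 325) (nat_lit 243)) (XT.nd (nat_lit 78) (nat_lit 380) (nat_lit 0) (XT.lf (nat_lit 0) (nat_lit 25478488371) (nat_lit 836) (nat_lit 8505875364) (nat_lit 76) (nat_lit 4743120709) (nat_lit 95) (nat_lit 5) (nat_lit 106) (nat_lit 5) (nat_lit 96) (nat_lit 5) (nat_lit 333) (nat_lit 325) (nat_lit 242)) (XT.lf (nat_lit 0) (nat_lit 24058350068) (nat_lit 380) (nat_lit 8665633873) (nat_lit 456) (nat_lit 7718777859) (nat_lit 90) (nat_lit 5) (nat_lit 95) (nat_lit 5) (nat_lit 96) (nat_lit 5) (nat_lit 334) (nat_lit 325) (nat_lit 241)))))) (XT.nd (nat_lit 468) (nat_lit 1292) (nat_lit 0) (XT.nd (nat_lit 234) (nat_lit 608) (nat_lit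 0) (XT.nd (nat_lit 78) (nat_lit 760) (nat_lit 0) (XT.lf (nat_lit 0) (nat_lit 17502173131) (nat_lit 304) (nat_lit 23755117164) (nat_lit 380) (nat_lit 1002569773) (nat_lit 86) (nat_lit 5) (nat_lit 90) (nat_lit 5) (nat_lit 91) (nat_lit 5) (nat_lit 335) (nat_lit 325) (nat_lit 240)) (XT.nd (nat_lit 78) (nat_lit 304) (nat_lit 0) (XT.lf (nat_lit 0) (nat_lit 6706029572) (nat_lit 456) (nat_lit 33690053585) (nat_lit 76) (nat_lit 3788611550) (nat_lit 80) (nat_lit 5) (nat_lit 86) (nat_lit 5) (nat_lit 81) (nat_lit 5) (nat_lit 336) (nat_lit 325) (nat_lit 239)) (XT.lf (nat_lit 0) (nat_lit 2869125400) (nat_lit 304) (nat_lit 13004618212) (nat_lit 380) (nat_lit 30345079075) (nat_lit 76) (nat_lit 5) (nat_lit 80) (nat_lit 5) (nat_lit 81) (nat_lit 5) (nat_lit 337) (nat_lit 325) (nat_lit 238)))) (XT.nd (nat_lit 78) (nat_lit 608) (nat_lit 0) (XT.lf (nat_lit 0) (nat_lit 26623948815) (nat_lit 380) (nat_lit 5106134656)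 (nat_lit 76) (nat_lit 16643149236) (nat_lit 76) (nat_lit 5) (nat_lit 81) (nat_lit 5) (nat_lit 77) (nat_lit 5) (nat_lit 338) (nat_lit 325) (nat_lit 237)) (XT.nd (nat_lit 78) (nat_lit 304) (nat_lit 0) (XT.lf (nat_lit 0) (nat_lit 37160093738) (nat_lit 304) (nat_lit 1867756335) (nat_lit 380) (nat_lit 11632466570) (nat_lit 72) (nat_lit 5) (nat_lit 76) (nat_lit 5) (nat_lit 77) (nat_lit 5) (nat_lit 339) (nat_lit 325) (nat_lit 236)) (XT.lf (nat_lit 0) (nat_lit 366436254) (nat_lit 304) (nat_lit 22731786254) (nat_lit 76) (nat_lit 29980193949) (nat_lit 68) (nat_lit 5) (nat_lit 72) (nat_lit 5) (nat_lit 69) (nat_lit 5) (nat_lit 340) (nat_lit 325) (nat_lit 235))))) (XT.nd (nat_lit 234) (nat_lit 532) (nat_lit 0) (XT.nd (nat_lit 78) (nat_lit 456) (nat_lit 0) (XT.lf (nat_lit 0) (nat_lit 13695185920) (nat_lit 380) (nat_lit 32793437212) (nat_lit 76) (nat_lit 9152936498) (nat_lit 64) (nat_lit 5) (nat_lit 69)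 (nat_lit 5) (nat_lit 65) (nat_lit 5) (nat_lit 341) (nat_lit 325) (nat_lit 234)) (XT.nd (nat_lit 78) (nat_lit 228) (nat_lit 0) (XT.lf (nat_lit 0) (nat_lit 14559571399) (nat_lit 228) (nat_lit 14544933787) (nat_lit 304) (nat_lit 29254539441) (nat_lit 61) (nat_lit 5) (nat_lit 64) (nat_lit 5) (nat_lit 65) (nat_lit 5) (nat_lit 342) (nat_lit 325) (nat_lit 233)) (XT.lf (nat_lit 0) (nat_lit 5453545602) (nat_lit 228) (nat_lit 41265571705) (nat_lit 304) (nat_lit 14526187321) (nat_lit 58) (nat_lit 5) (nat_lit 61) (nat_lit 5) (nat_lit 62) (nat_lit 5) (nat_lit 343) (nat_lit 325) (nat_lit 232)))) (XT.nd (nat_lit 78) (nat_lit 456) (nat_lit 0) (XT.lf (nat_lit 0) (nat_lit 2352402185) (nat_lit 304) (nat_lit 4399221185) (nat_lit 76) (nat_lit 57558959996) (nat_lit 57) (nat_lit 5) (nat_lit 61) (nat_lit 5) (nat_lit 58) (nat_lit 5) (nat_lit 344) (nat_lit 325) (nat_lit 231)) (XT.nd (nat_lit 78) (nat_lit 228) (nat_lit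 0) (XT.lf (nat_lit 0) (nat_lit 21389139035) (nat_lit 304) (nat_lit 15526775665) (nat_lit 76) (nat_lit 30627426554) (nat_lit 54) (nat_lit 5) (nat_lit 58) (nat_lit 5) (nat_lit 55) (nat_lit 5) (nat_lit 345) (nat_lit 325) (nat_lit 230)) (XT.lf (nat_lit 0) (nat_lit 42821333703) (nat_lit 304) (nat_lit 27661792938) (nat_lit 76) (nat_lit 507969887) (nat_lit 51) (nat_lit 5) (nat_lit 55) (nat_lit 5) (nat_lit 52) (nat_lit 5) (nat_lit 346) (nat_lit 325) (nat_lit 229))))))))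
noncomputable def xc90 : XT := (XT.nd (nat_lit 1794) (nat_lit 912) (nat_lit 0) (XT.nd (nat_lit 858) (nat_lit 988) (nat_lit 0) (XT.nd (nat_lit 390) (nat_lit 760) (nat_lit 0) (XT.nd (nat_lit 156) (nat_lit 380) (nat_lit 0) (XT.nd (nat_lit 78) (nat_lit 304) (nat_lit 0) (XT.lf (nat_lit 0) (nat_lit 33176314934) (nat_lit 152) (nat_lit 34203283630) (nat_lit 228) (nat_lit 7264501425) (nat_lit 49) (nat_lit 5) (nat_lit 51) (nat_lit 5) (nat_lit 52) (nat_lit 5) (nat_lit 347) (nat_lit 325) (nat_lit 228)) (XT.lf (nat_lit 0) (nat_lit 15743855798) (nat_lit 304) (nat_lit 56883925939) (nat_lit 76) (nat_lit 5903570491) (nat_lit 45) (nat_lit 5) (nat_lit 49) (nat_lit 5) (nat_lit 46) (nat_lit 5) (nat_lit 348) (nat_lit 325) (nat_lit 227))) (XT.nd (nat_lit 78) (nat_lit 228) (nat_lit 0) (XT.lf (nat_lit 0) (nat_lit 8143175027) (nat_lit 152) (nat_lit 33633093990) (nat_lit 228) (nat_lit 40875468153) (nat_lit 43) (nat_lit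 5) (nat_lit 45) (nat_lit 5) (nat_lit 46) (nat_lit 5) (nat_lit 349) (nat_lit 325) (nat_lit 226)) (XT.nd (nat_lit 78) (nat_lit 228) (nat_lit 0) (XT.lf (nat_lit 0) (nat_lit 71027410789) (nat_lit 228) (nat_lit 6802595614) (nat_lit 76) (nat_lit 9214941616) (nat_lit 43) (nat_lit 5) (nat_lit 46) (nat_lit 5) (nat_lit 44) (nat_lit 5) (nat_lit 350) (nat_lit 325) (nat_lit 225)) (XT.lf (nat_lit 0) (nat_lit 12133468756) (nat_lit 228) (nat_lit 23982523628) (nat_lit 76) (nat_lit 55582619587) (nat_lit 40) (nat_lit 5) (nat_lit 43) (nat_lit 5) (nat_lit 41) (nat_lit 5) (nat_lit 351) (nat_lit 325) (nat_lit 224))))) (XT.nd (nat_lit 234) (nat_lit 304) (nat_lit 0) (XT.nd (nat_lit 78) (nat_lit 304) (nat_lit 0) (XT.lf (nat_lit 0) (nat_lit 43089487097) (nat_lit 228) (nat_lit 43678671408) (nat_lit 76) (nat_lit 9887577530) (nat_lit 38) (nat_lit 5) (nat_lit 41) (nat_lit 5) (nat_lit 39) (nat_lit 5) (nat_lit 352) (nat_lit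 325) (nat_lit 223)) (XT.nd (nat_lit 78) (nat_lit 152) (nat_lit 0) (XT.lf (nat_lit 0) (nat_lit 35476054643) (nat_lit 152) (nat_lit 42630480597) (nat_lit 228) (nat_lit 23823668793) (nat_lit 36) (nat_lit 5) (nat_lit 38) (nat_lit 5) (nat_lit 39) (nat_lit 5) (nat_lit 353) (nat_lit 325) (nat_lit 222)) (XT.lf (nat_lit 0) (nat_lit 9139072662) (nat_lit 152) (nat_lit 92390551106) (nat_lit 76) (nat_lit 6035211319) (nat_lit 34) (nat_lit 5) (nat_lit 36) (nat_lit 5) (nat_lit 35) (nat_lit 5) (nat_lit 354) (nat_lit 325) (nat_lit 221)))) (XT.nd (nat_lit 78) (nat_lit 304) (nat_lit 0) (XT.lf (nat_lit 0) (nat_lit 45808004060) (nat_lit 152) (nat_lit 9030465063) (nat_lit 76) (nat_lit 58697049272) (nat_lit 34) (nat_lit 5) (nat_lit 36) (nat_lit 5) (nat_lit 35) (nat_lit 5) (nat_lit 355) (nat_lit 325) (nat_lit 220)) (XT.nd (nat_lit 78) (nat_lit 152) (nat_lit 0) (XT.lf (nat_lit 0) (nat_lit 83672162462) (nat_lit 152)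 (nat_lit 3042129879) (nat_lit 228) (nat_lit 33204372989) (nat_lit 32) (nat_lit 5) (nat_lit 34) (nat_lit 5) (nat_lit 35) (nat_lit 5) (nat_lit 356) (nat_lit 325) (nat_lit 219)) (XT.lf (nat_lit 0) (nat_lit 5875322409) (nat_lit 152) (nat_lit 68468948262) (nat_lit 76) (nat_lit 52368743400) (nat_lit 30) (nat_lit 5) (nat_lit 32) (nat_lit 5) (nat_lit 31) (nat_lit 5) (nat_lit 357) (nat_lit 325) (nat_lit 218)))))) (XT.nd (nat_lit 468) (nat_lit 456) (nat_lit 0) (XT.nd (nat_lit 234) (nat_lit 304) (nat_lit 0) (XT.nd (nat_lit 78) (nat_lit 76) (nat_lit 0) (XT.lf (nat_lit 0) (nat_lit 27834122780) (nat_lit 152) (nat_lit 20224767933) (nat_lit 228) (nat_lit 85907763345) (nat_lit 28) (nat_lit 5) (nat_lit 30) (nat_lit 5) (nat_lit 31) (nat_lit 5) (nat_lit 358) (nat_lit 325) (nat_lit 217)) (XT.nd (nat_lit 78) (nat_lit 76) (nat_lit 0) (XT.lf (nat_lit 0) (nat_lit 95423914232) (nat_lit 228) (nat_lit 8074855492) (nat_lit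 76) (nat_lit 38211477847) (nat_lit 28) (nat_lit 5) (nat_lit 31) (nat_lit 5) (nat_lit 29) (nat_lit 4) (nat_lit 359) (nat_lit 325) (nat_lit 216)) (XT.lf (nat_lit 0) (nat_lit 100705915413) (nat_lit 76) (nat_lit 47783463675) (nat_lit 152) (nat_lit 1488388259) (nat_lit 27) (nat_lit 5) (nat_lit 28) (nat_lit 5) (nat_lit 29) (nat_lit 4) (nat_lit 360) (nat_lit 325) (nat_lit 215)))) (XT.nd (nat_lit 78) (nat_lit 76) (nat_lit 0) (XT.lf (nat_lit 0) (nat_lit 46705788731) (nat_lit 228) (nat_lit 98253599331) (nat_lit 76) (nat_lit 13845030560) (nat_lit 24) (nat_lit 5) (nat_lit 27) (nat_lit 5) (nat_lit 25) (nat_lit 4) (nat_lit 361) (nat_lit 325) (nat_lit 214)) (XT.nd (nat_lit 78) (nat_lit 0) (nat_lit 0) (XT.lf (nat_lit 0) (nat_lit 12165452394) (nat_lit 76) (nat_lit 88404655380) (nat_lit 152) (nat_lit 67672537162) (nat_lit 23) (nat_lit 5) (nat_lit 24) (nat_lit 5) (nat_lit 25) (nat_lit 4) (nat_lit 362) (nat_lit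 325) (nat_lit 213)) (XT.lf (nat_lit 0) (nat_lit 134923253377) (nat_lit 76) (nat_lit 25529974260) (nat_lit 152) (nat_lit 17897219527) (nat_lit 23) (nat_lit 5) (nat_lit 24) (nat_lit 5) (nat_lit 25) (nat_lit 4) (nat_lit 363) (nat_lit 325) (nat_lit 212))))) (XT.nd (nat_lit 234) (nat_lit 228) (nat_lit 0) (XT.nd (nat_lit 78) (nat_lit 76) (nat_lit 0) (XT.lf (nat_lit 0) (nat_lit 36654676199) (nat_lit 152) (nat_lit 109627690755) (nat_lit 76) (nat_lit 42859398237) (nat_lit 21) (nat_lit 5) (nat_lit 23) (nat_lit 5) (nat_lit 22) (nat_lit 4) (nat_lit 364) (nat_lit 325) (nat_lit 211)) (XT.nd (nat_lit 78) (nat_lit 0) (nat_lit 0) (XT.lf (nat_lit 0) (nat_lit 12742929454) (nat_lit 76) (nat_lit 83605765694) (nat_lit 152) (nat_lit 104362773981) (nat_lit 20) (nat_lit 5) (nat_lit 21) (nat_lit 5) (nat_lit 22) (nat_lit 4) (nat_lit 365) (nat_lit 325) (nat_lit 210)) (XT.lf (nat_lit 0) (nat_lit 148814992888) (nat_lit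 76) (nat_lit 13911275496) (nat_lit 152) (nat_lit 50385079790) (nat_lit 20) (nat_lit 5) (nat_lit 21) (nat_lit 5) (nat_lit 22) (nat_lit 4) (nat_lit 366) (nat_lit 325) (nat_lit 209)))) (XT.nd (nat_lit 78) (nat_lit 76) (nat_lit 0) (XT.lf (nat_lit 0) (nat_lit 9749601146) (nat_lit 152) (nat_lit 155990149734) (nat_lit 76) (nat_lit 60652693173) (nat_lit 18) (nat_lit 5) (nat_lit 20) (nat_lit 5) (nat_lit 19) (nat_lit 4) (nat_lit 367) (nat_lit 325) (nat_lit 208)) (XT.nd (nat_lit 78) (nat_lit 76) (nat_lit 0) (XT.lf (nat_lit 0) (nat_lit 74324874285) (nat_lit 152) (nat_lit 23612441553) (nat_lit 76) (nat_lit 142687659597) (nat_lit 18) (nat_lit 5) (nat_lit 20) (nat_lit 5) (nat_lit 19) (nat_lit 4) (nat_lit 368) (nat_lit 325) (nat_lit 207)) (XT.lf (nat_lit 0) (nat_lit 123299296216) (nat_lit 76) (nat_lit 22690563861) (nat_lit 152) (nat_lit 109910065037) (nat_lit 17) (nat_lit 5) (nat_lit 18) (nat_lit 5) (nat_lit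 19) (nat_lit 4) (nat_lit 369) (nat_lit 325) (nat_lit 206))))))) (XT.nd (nat_lit 936) (nat_lit 304) (nat_lit 0) (XT.nd (nat_lit 468) (nat_lit 304) (nat_lit 0) (XT.nd (nat_lit 234) (nat_lit 76) (nat_lit 0) (XT.nd (nat_lit 78) (nat_lit 152) (nat_lit 0) (XT.lf (nat_lit 0) (nat_lit 9821459607) (nat_lit 76) (nat_lit 215051204620) (nat_lit 76) (nat_lit 47449975868) (nat_lit 16) (nat_lit 4) (nat_lit 17) (nat_lit 5) (nat_lit 17) (nat_lit 4) (nat_lit 370) (nat_lit 325) (nat_lit 205)) (XT.nd (nat_lit 78) (nat_lit 76) (nat_lit 0) (XT.lf (nat_lit 0) (nat_lit 22095589365) (nat_lit 152) (nat_lit 122306481528) (nat_lit 76) (nat_lit 145505032678) (nat_lit 15) (nat_lit 5) (nat_lit 17) (nat_lit 5) (nat_lit 16) (nat_lit 4) (nat_lit 371) (nat_lit 325) (nat_lit 204)) (XT.lf (nat_lit 0) (nat_lit 29237246129) (nat_lit 76) (nat_lit 66782659787) (nat_lit 152) (nat_lit 212815648925) (nat_lit 14) (nat_lit 5) (nat_lit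 15) (nat_lit 5) (nat_lit 16) (nat_lit 4) (nat_lit 372) (nat_lit 325) (nat_lit 203)))) (XT.nd (nat_lit 78) (nat_lit 76) (nat_lit 0) (XT.lf (nat_lit 0) (nat_lit 178288594809) (nat_lit 152) (nat_lit 132202999297) (nat_lit 0) (nat_lit 18665166985) (nat_lit 14) (nat_lit 5) (nat_lit 16) (nat_lit 4) (nat_lit 14) (nat_lit 4) (nat_lit 373) (nat_lit 325) (nat_lit 202)) (XT.nd (nat_lit 78) (nat_lit 0) (nat_lit 0) (XT.lf (nat_lit 0) (nat_lit 26710756903) (nat_lit 76) (nat_lit 241970073953) (nat_lit 76) (nat_lit 82345730594) (nat_lit 13) (nat_lit 4) (nat_lit 14) (nat_lit 5) (nat_lit 14) (nat_lit 4) (nat_lit 374) (nat_lit 325) (nat_lit 201)) (XT.lf (nat_lit 0) (nat_lit 203056616105) (nat_lit 76) (nat_lit 165549713409) (nat_lit 76) (nat_lit 5924522334) (nat_lit 13) (nat_lit 4) (nat_lit 14) (nat_lit 5) (nat_lit 14) (nat_lit 4) (nat_lit 375) (nat_lit 325) (nat_lit 200))))) (XT.nd (nat_lit 234) (nat_lit 152)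 (nat_lit 0) (XT.nd (nat_lit 78) (nat_lit 76) (nat_lit 0) (XT.lf (nat_lit 0) (nat_lit 74157423820) (nat_lit 152) (nat_lit 7603257166) (nat_lit 76) (nat_lit 318095046930) (nat_lit 12) (nat_lit 5) (nat_lit 14) (nat_lit 5) (nat_lit 13) (nat_lit 4) (nat_lit 376) (nat_lit 325) (nat_lit 199)) (XT.nd (nat_lit 78) (nat_lit 0) (nat_lit 0) (XT.lf (nat_lit 0) (nat_lit 163353217802) (nat_lit 152) (nat_lit 252374990749) (nat_lit 0) (nat_lit 11327786585) (nat_lit 11) (nat_lit 5) (nat_lit 13) (nat_lit 4) (nat_lit 11) (nat_lit 4) (nat_lit 377) (nat_lit 325) (nat_lit 198)) (XT.lf (nat_lit 0) (nat_lit 261197074896) (nat_lit 152) (nat_lit 85988586228) (nat_lit 0) (nat_lit 109171002778) (nat_lit 11) (nat_lit 5) (nat_lit 13) (nat_lit 4) (nat_lit 11) (nat_lit 4) (nat_lit 378) (nat_lit 325) (nat_lit 197)))) (XT.nd (nat_lit 78) (nat_lit 76) (nat_lit 0) (XT.lf (nat_lit 0) (nat_lit 96805599810) (nat_lit 76) (nat_lit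 271573460527) (nat_lit 76) (nat_lit 119546794983) (nat_lit 10) (nat_lit 4) (nat_lit 11) (nat_lit 5) (nat_lit 11) (nat_lit 4) (nat_lit 379) (nat_lit 325) (nat_lit 196)) (XT.nd (nat_lit 78) (nat_lit 76) (nat_lit 0) (XT.lf (nat_lit 0) (nat_lit 297292496630) (nat_lit 76) (nat_lit 188340222418) (nat_lit 76) (nat_lit 36313007406) (nat_lit 10) (nat_lit 4) (nat_lit 11) (nat_lit 5) (nat_lit 11) (nat_lit 4) (nat_lit 380) (nat_lit 325) (nat_lit 195)) (XT.lf (nat_lit 0) (nat_lit 51863897977) (nat_lit 152) (nat_lit 45706732925) (nat_lit 76) (nat_lit 461074765551) (nat_lit 9) (nat_lit 5) (nat_lit 11) (nat_lit 5) (nat_lit 10) (nat_lit 4) (nat_lit 381) (nat_lit 325) (nat_lit 194)))))) (XT.nd (nat_lit 468) (nat_lit 152) (nat_lit 0) (XT.nd (nat_lit 234) (nat_lit 76) (nat_lit 0) (XT.nd (nat_lit 78) (nat_lit 0) (nat_lit 0) (XT.lf (nat_lit 0) (nat_lit 148265180844) (nat_lit 152) (nat_lit 446387547919) (nat_lit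 0) (nat_lit 3476423835) (nat_lit 8) (nat_lit 5) (nat_lit 10) (nat_lit 4) (nat_lit 8) (nat_lit 4) (nat_lit 382) (nat_lit 325) (nat_lit 193)) (XT.nd (nat_lit 78) (nat_lit 0) (nat_lit 0) (XT.lf (nat_lit 0) (nat_lit 254832385133) (nat_lit 152) (nat_lit 275773320550) (nat_lit 0) (nat_lit 110043212709) (nat_lit 8) (nat_lit 5) (nat_lit 10) (nat_lit 4) (nat_lit 8) (nat_lit 4) (nat_lit 383) (nat_lit 325) (nat_lit 192)) (XT.lf (nat_lit 0) (nat_lit 369924378508) (nat_lit 152) (nat_lit 91511094952) (nat_lit 0) (nat_lit 225134821441) (nat_lit 8) (nat_lit 5) (nat_lit 10) (nat_lit 4) (nat_lit 8) (nat_lit 4) (nat_lit 384) (nat_lit 325) (nat_lit 191)))) (XT.nd (nat_lit 78) (nat_lit 0) (nat_lit 0) (XT.lf (nat_lit 0) (nat_lit 111045192834) (nat_lit 76) (nat_lit 384911721427) (nat_lit 76) (nat_lit 240121808207) (nat_lit 7) (nat_lit 4) (nat_lit 8) (nat_lit 5) (nat_lit 8) (nat_lit 4) (nat_lit 385) (nat_lit 325)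 (nat_lit 190)) (XT.nd (nat_lit 78) (nat_lit 0) (nat_lit 0) (XT.lf (nat_lit 0) (nat_lit 333072805677) (nat_lit 76) (nat_lit 300592792189) (nat_lit 76) (nat_lit 155802549200) (nat_lit 7) (nat_lit 4) (nat_lit 8) (nat_lit 5) (nat_lit 8) (nat_lit 4) (nat_lit 386) (nat_lit 325) (nat_lit 189)) (XT.lf (nat_lit 0) (nat_lit 572861692688) (nat_lit 76) (nat_lit 209528802693) (nat_lit 76) (nat_lit 64738254361) (nat_lit 7) (nat_lit 4) (nat_lit 8) (nat_lit 5) (nat_lit 8) (nat_lit 4) (nat_lit 387) (nat_lit 325) (nat_lit 188))))) (XT.nd (nat_lit 42042) (nat_lit 0) (nat_lit 7220) (XT.nd (nat_lit 78) (nat_lit 76) (nat_lit 0) (XT.lf (nat_lit 0) (nat_lit 32534963741) (nat_lit 152) (nat_lit 78094155385) (nat_lit 76) (nat_lit 798746865955) (nat_lit 6) (nat_lit 5) (nat_lit 8) (nat_lit 5) (nat_lit 7) (nat_lit 4) (nat_lit 388) (nat_lit 325) (nat_lit 187)) (XT.nd (nat_lit 78) (nat_lit 0) (nat_lit 0) (XT.lf (nat_lit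 0) (nat_lit 137067163004) (nat_lit 76) (nat_lit 424669113) (nat_lit 152) (nat_lit 838949607750) (nat_lit 5) (nat_lit 5) (nat_lit 6) (nat_lit 5) (nat_lit 7) (nat_lit 4) (nat_lit 389) (nat_lit 325) (nat_lit 186)) (XT.lf (nat_lit 0) (nat_lit 254079112571) (nat_lit 152) (nat_lit 678448722560) (nat_lit 0) (nat_lit 116182602829) (nat_lit 5) (nat_lit 5) (nat_lit 7) (nat_lit 4) (nat_lit 5) (nat_lit 4) (nat_lit 390) (nat_lit 325) (nat_lit 185)))) (XT.nd (nat_lit 78) (nat_lit 0) (nat_lit 76) (XT.lf (nat_lit 0) (nat_lit 1165751498) (nat_lit 836) (nat_lit 6964854032) (nat_lit 836) (nat_lit 6964854032) (nat_lit 100) (nat_lit 3) (nat_lit 111) (nat_lit 3) (nat_lit 111) (nat_lit 5) (nat_lit 326) (nat_lit 326) (nat_lit 248)) (XT.nd (nat_lit 78) (nat_lit 0) (nat_lit 0) (XT.lf (nat_lit 0) (nat_lit 2780193177) (nat_lit 760) (nat_lit 22269044628) (nat_lit 836) (nat_lit 6331431120) (nat_lit 101) (nat_lit 5) (nat_lit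 111) (nat_lit 5) (nat_lit 112) (nat_lit 5) (nat_lit 327) (nat_lit 326) (nat_lit 247)) (XT.lf (nat_lit 76) (nat_lit 1606897543) (nat_lit 0) (nat_lit 2192830981) (nat_lit 836) (nat_lit 28839134241) (nat_lit 102) (nat_lit 5) (nat_lit 101) (nat_lit 5) (nat_lit 112) (nat_lit 5) (nat_lit 328) (nat_lit 326) (nat_lit 246))))))))
noncomputable def xc91 : XT := (XT.nd (nat_lit 1794) (nat_lit 2280) (nat_lit 0) (XT.nd (nat_lit 858) (nat_lit 2508) (nat_lit 0) (XT.nd (nat_lit 390) (nat_lit 1976) (nat_lit 0) (XT.nd (nat_lit 156) (nat_lit 0) (nat_lit 152) (XT.nd (nat_lit 78) (nat_lit 0) (nat_lit 76) (XT.lf (nat_lit 0) (nat_lit 5636081403) (nat_lit 760) (nat_lit 6154586997) (nat_lit 836) (nat_lit 22170291670) (nat_lit 102) (nat_lit 5) (nat_lit 112) (nat_lit 5) (nat_lit 113) (nat_lit 5) (nat_lit 329) (nat_lit 326) (nat_lit 245)) (XT.lf (nat_lit 0) (nat_lit 8189058371) (nat_lit 760) (nat_lit 14226510054) (nat_lit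 836) (nat_lit 12944780848) (nat_lit 103) (nat_lit 5) (nat_lit 113) (nat_lit 5) (nat_lit 114) (nat_lit 5) (nat_lit 330) (nat_lit 326) (nat_lit 244))) (XT.nd (nat_lit 78) (nat_lit 0) (nat_lit 0) (XT.lf (nat_lit 0) (nat_lit 11509838518) (nat_lit 760) (nat_lit 22682104794) (nat_lit 836) (nat_lit 2651577217) (nat_lit 104) (nat_lit 5) (nat_lit 114) (nat_lit 5) (nat_lit 115) (nat_lit 5) (nat_lit 331) (nat_lit 326) (nat_lit 243)) (XT.nd (nat_lit 78) (nat_lit 0) (nat_lit 76) (XT.lf (nat_lit 76) (nat_lit 6721802468) (nat_lit 0) (nat_lit 9101072076) (nat_lit 836) (nat_lit 22586149760) (nat_lit 105) (nat_lit 5) (nat_lit 104) (nat_lit 5) (nat_lit 115) (nat_lit 5) (nat_lit 332) (nat_lit 326) (nat_lit 242)) (XT.lf (nat_lit 0) (nat_lit 21155849395) (nat_lit 760) (nat_lit 1086352432) (nat_lit 76) (nat_lit 17823829619) (nat_lit 105) (nat_lit 5) (nat_lit 115) (nat_lit 5) (nat_lit 106) (nat_lit 5) (nat_lit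 333) (nat_lit 326) (nat_lit 241))))) (XT.nd (nat_lit 234) (nat_lit 760) (nat_lit 0) (XT.nd (nat_lit 78) (nat_lit 684) (nat_lit 0) (XT.lf (nat_lit 0) (nat_lit 27657194049) (nat_lit 836) (nat_lit 9050762484) (nat_lit 76) (nat_lit 5110563315) (nat_lit 95) (nat_lit 5) (nat_lit 106) (nat_lit 5) (nat_lit 96) (nat_lit 5) (nat_lit 334) (nat_lit 326) (nat_lit 240)) (XT.nd (nat_lit 78) (nat_lit 304) (nat_lit 0) (XT.lf (nat_lit 0) (nat_lit 26112708714) (nat_lit 380) (nat_lit 9361243413) (nat_lit 456) (nat_lit 8197496642) (nat_lit 90) (nat_lit 5) (nat_lit 95) (nat_lit 5) (nat_lit 96) (nat_lit 5) (nat_lit 335) (nat_lit 326) (nat_lit 239)) (XT.lf (nat_lit 0) (nat_lit 19032877977) (nat_lit 304) (nat_lit 25649267425) (nat_lit 380) (nat_lit 952168117) (nat_lit 86) (nat_lit 5) (nat_lit 90) (nat_lit 5) (nat_lit 91) (nat_lit 5) (nat_lit 336) (nat_lit 326) (nat_lit 238)))) (XT.nd (nat_lit 78) (nat_lit 304) (nat_lit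 0) (XT.lf (nat_lit 0) (nat_lit 7361741960) (nat_lit 456) (nat_lit 36250383387) (nat_lit 76) (nat_lit 4101276064) (nat_lit 80) (nat_lit 5) (nat_lit 86) (nat_lit 5) (nat_lit 81) (nat_lit 5) (nat_lit 337) (nat_lit 326) (nat_lit 237)) (XT.nd (nat_lit 78) (nat_lit 0) (nat_lit 0) (XT.lf (nat_lit 0) (nat_lit 3227668436) (nat_lit 304) (nat_lit 14028387088) (nat_lit 380) (nat_lit 32654552938) (nat_lit 76) (nat_lit 5) (nat_lit 80) (nat_lit 5) (nat_lit 81) (nat_lit 5) (nat_lit 338) (nat_lit 326) (nat_lit 236)) (XT.lf (nat_lit 0) (nat_lit 28858190280) (nat_lit 380) (nat_lit 5390112593) (nat_lit 76) (nat_lit 17989480118) (nat_lit 76) (nat_lit 5) (nat_lit 81) (nat_lit 5) (nat_lit 77) (nat_lit 5) (nat_lit 339) (nat_lit 326) (nat_lit 235)))))) (XT.nd (nat_lit 468) (nat_lit 1064) (nat_lit 0) (XT.nd (nat_lit 234) (nat_lit 532) (nat_lit 0) (XT.nd (nat_lit 78) (nat_lit 608) (nat_lit 0) (XT.lf (nat_lit 0) (nat_lit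 40252002897) (nat_lit 304) (nat_lit 1996532434) (nat_lit 380) (nat_lit 12459598546) (nat_lit 72) (nat_lit 5) (nat_lit 76) (nat_lit 5) (nat_lit 77) (nat_lit 5) (nat_lit 340) (nat_lit 326) (nat_lit 234)) (XT.nd (nat_lit 78) (nat_lit 304) (nat_lit 0) (XT.lf (nat_lit 0) (nat_lit 490668484) (nat_lit 304) (nat_lit 24428707806) (nat_lit 76) (nat_lit 32400492454) (nat_lit 68) (nat_lit 5) (nat_lit 72) (nat_lit 5) (nat_lit 69) (nat_lit 5) (nat_lit 341) (nat_lit 326) (nat_lit 233)) (XT.lf (nat_lit 0) (nat_lit 14880919355) (nat_lit 380) (nat_lit 35296437440) (nat_lit 76) (nat_lit 9910952081) (nat_lit 64) (nat_lit 5) (nat_lit 69) (nat_lit 5) (nat_lit 65) (nat_lit 5) (nat_lit 342) (nat_lit 326) (nat_lit 232)))) (XT.nd (nat_lit 78) (nat_lit 304) (nat_lit 0) (XT.lf (nat_lit 0) (nat_lit 15839576175) (nat_lit 228) (nat_lit 15678531743) (nat_lit 304) (nat_lit 31505333723) (nat_lit 61) (nat_lit 5) (nat_lit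 64) (nat_lit 5) (nat_lit 65) (nat_lit 5) (nat_lit 343) (nat_lit 326) (nat_lit 231)) (XT.nd (nat_lit 78) (nat_lit 76) (nat_lit 0) (XT.lf (nat_lit 0) (nat_lit 6003750714) (nat_lit 228) (nat_lit 44534036324) (nat_lit 304) (nat_lit 15603025275) (nat_lit 58) (nat_lit 5) (nat_lit 61) (nat_lit 5) (nat_lit 62) (nat_lit 5) (nat_lit 344) (nat_lit 326) (nat_lit 230)) (XT.lf (nat_lit 0) (nat_lit 2617009428) (nat_lit 304) (nat_lit 4643096800) (nat_lit 76) (nat_lit 62191450438) (nat_lit 57) (nat_lit 5) (nat_lit 61) (nat_lit 5) (nat_lit 58) (nat_lit 5) (nat_lit 345) (nat_lit 326) (nat_lit 229))))) (XT.nd (nat_lit 234) (nat_lit 456) (nat_lit 0) (XT.nd (nat_lit 78) (nat_lit 380) (nat_lit 0) (XT.lf (nat_lit 0) (nat_lit 23173122636) (nat_lit 304) (nat_lit 16662368694) (nat_lit 76) (nat_lit 33107625882) (nat_lit 54) (nat_lit 5) (nat_lit 58) (nat_lit 5) (nat_lit 55) (nat_lit 5) (nat_lit 346) (nat_lit 326) (nat_lit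 228)) (XT.nd (nat_lit 78) (nat_lit 152) (nat_lit 0) (XT.lf (nat_lit 0) (nat_lit 46316600845) (nat_lit 304) (nat_lit 29769833580) (nat_lit 76) (nat_lit 580426693) (nat_lit 51) (nat_lit 5) (nat_lit 55) (nat_lit 5) (nat_lit 52) (nat_lit 5) (nat_lit 347) (nat_lit 326) (nat_lit 227)) (XT.lf (nat_lit 0) (nat_lit 35930763974) (nat_lit 152) (nat_lit 36905176944) (nat_lit 228) (nat_lit 7776346578) (nat_lit 49) (nat_lit 5) (nat_lit 51) (nat_lit 5) (nat_lit 52) (nat_lit 5) (nat_lit 348) (nat_lit 326) (nat_lit 226)))) (XT.nd (nat_lit 78) (nat_lit 152) (nat_lit 0) (XT.lf (nat_lit 0) (nat_lit 17067561294) (nat_lit 304) (nat_lit 61333815477) (nat_lit 76) (nat_lit 6409236951) (nat_lit 45) (nat_lit 5) (nat_lit 49) (nat_lit 5) (nat_lit 46) (nat_lit 5) (nat_lit 349) (nat_lit 326) (nat_lit 225)) (XT.nd (nat_lit 78) (nat_lit 0) (nat_lit 0) (XT.lf (nat_lit 0) (nat_lit 8891071855) (nat_lit 152) (nat_lit 36288246123)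 (nat_lit 228) (nat_lit 44081476689) (nat_lit 43) (nat_lit 5) (nat_lit 45) (nat_lit 5) (nat_lit 46) (nat_lit 5) (nat_lit 350) (nat_lit 326) (nat_lit 224)) (XT.lf (nat_lit 0) (nat_lit 76766549598) (nat_lit 228) (nat_lit 7255164263) (nat_lit 76) (nat_lit 9983951124) (nat_lit 43) (nat_lit 5) (nat_lit 46) (nat_lit 5) (nat_lit 44) (nat_lit 5) (nat_lit 351) (nat_lit 326) (nat_lit 223))))))) (XT.nd (nat_lit 936) (nat_lit 760) (nat_lit 0) (XT.nd (nat_lit 468) (nat_lit 684) (nat_lit 0) (XT.nd (nat_lit 234) (nat_lit 304) (nat_lit 0) (XT.nd (nat_lit 78) (nat_lit 304) (nat_lit 0) (XT.lf (nat_lit 0) (nat_lit 13159157675) (nat_lit 228) (nat_lit 25811622265) (nat_lit 76) (nat_lit 60060942571) (nat_lit 40) (nat_lit 5) (nat_lit 43) (nat_lit 5) (nat_lit 41) (nat_lit 5) (nat_lit 352) (nat_lit 326) (nat_lit 222)) (XT.nd (nat_lit 78) (nat_lit 152) (nat_lit 0) (XT.lf (nat_lit 0) (nat_lit 46589439768) (nat_lit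 228) (nat_lit 47085232663) (nat_lit 76) (nat_lit 10710857017) (nat_lit 38) (nat_lit 5) (nat_lit 41) (nat_lit 5) (nat_lit 39) (nat_lit 5) (nat_lit 353) (nat_lit 326) (nat_lit 221)) (XT.lf (nat_lit 0) (nat_lit 38398058726) (nat_lit 152) (nat_lit 46007192614) (nat_lit 228) (nat_lit 25676835477) (nat_lit 36) (nat_lit 5) (nat_lit 38) (nat_lit 5) (nat_lit 39) (nat_lit 5) (nat_lit 354) (nat_lit 326) (nat_lit 220)))) (XT.nd (nat_lit 78) (nat_lit 152) (nat_lit 0) (XT.lf (nat_lit 0) (nat_lit 9919256866) (nat_lit 152) (nat_lit 99697959632) (nat_lit 76) (nat_lit 6550331423) (nat_lit 34) (nat_lit 5) (nat_lit 36) (nat_lit 5) (nat_lit 35) (nat_lit 5) (nat_lit 355) (nat_lit 326) (nat_lit 219)) (XT.nd (nat_lit 78) (nat_lit 152) (nat_lit 0) (XT.lf (nat_lit 0) (nat_lit 49518068821) (nat_lit 152) (nat_lit 9675276748) (nat_lit 76) (nat_lit 63422723583) (nat_lit 34) (nat_lit 5) (nat_lit 36) (nat_lit 5) (nat_lit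 35) (nat_lit 5) (nat_lit 356) (nat_lit 326) (nat_lit 218)) (XT.lf (nat_lit 0) (nat_lit 90440187469) (nat_lit 152) (nat_lit 3254467204) (nat_lit 228) (nat_lit 35815324886) (nat_lit 32) (nat_lit 5) (nat_lit 34) (nat_lit 5) (nat_lit 35) (nat_lit 5) (nat_lit 357) (nat_lit 326) (nat_lit 217))))) (XT.nd (nat_lit 234) (nat_lit 380) (nat_lit 0) (XT.nd (nat_lit 78) (nat_lit 152) (nat_lit 0) (XT.lf (nat_lit 0) (nat_lit 6387646725) (nat_lit 152) (nat_lit 73872403674) (nat_lit 76) (nat_lit 56587873955) (nat_lit 30) (nat_lit 5) (nat_lit 32) (nat_lit 5) (nat_lit 31) (nat_lit 5) (nat_lit 358) (nat_lit 326) (nat_lit 216)) (XT.nd (nat_lit 78) (nat_lit 0) (nat_lit 0) (XT.lf (nat_lit 0) (nat_lit 30131694474) (nat_lit 152) (nat_lit 21812178835) (nat_lit 228) (nat_lit 92738084769) (nat_lit 28) (nat_lit 5) (nat_lit 30) (nat_lit 5) (nat_lit 31) (nat_lit 5) (nat_lit 359) (nat_lit 326) (nat_lit 215)) (XT.lf (nat_lit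 0) (nat_lit 103095557584) (nat_lit 228) (nat_lit 8653813482) (nat_lit 76) (nat_lit 41295796153) (nat_lit 28) (nat_lit 5) (nat_lit 31) (nat_lit 5) (nat_lit 29) (nat_lit 4) (nat_lit 360) (nat_lit 326) (nat_lit 214)))) (XT.nd (nat_lit 78) (nat_lit 304) (nat_lit 0) (XT.lf (nat_lit 0) (nat_lit 108826506033) (nat_lit 76) (nat_lit 51577959817) (nat_lit 152) (nat_lit 1569713428) (nat_lit 27) (nat_lit 5) (nat_lit 28) (nat_lit 5) (nat_lit 29) (nat_lit 4) (nat_lit 361) (nat_lit 326) (nat_lit 213)) (XT.nd (nat_lit 78) (nat_lit 76) (nat_lit 0) (XT.lf (nat_lit 0) (nat_lit 50477491218) (nat_lit 228) (nat_lit 106050070080) (nat_lit 76) (nat_lit 14979437702) (nat_lit 24) (nat_lit 5) (nat_lit 27) (nat_lit 5) (nat_lit 25) (nat_lit 4) (nat_lit 362) (nat_lit 326) (nat_lit 212)) (XT.lf (nat_lit 0) (nat_lit 13199732366) (nat_lit 76) (nat_lit 95449566159) (nat_lit 152) (nat_lit 73051068584) (nat_lit 23) (nat_lit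 5) (nat_lit 24) (nat_lit 5) (nat_lit 25) (nat_lit 4) (nat_lit 363) (nat_lit 326) (nat_lit 211)))))) (XT.nd (nat_lit 468) (nat_lit 380) (nat_lit 0) (XT.nd (nat_lit 234) (nat_lit 152) (nat_lit 0) (XT.nd (nat_lit 78) (nat_lit 228) (nat_lit 0) (XT.lf (nat_lit 0) (nat_lit 145773635665) (nat_lit 76) (nat_lit 27546944746) (nat_lit 152) (nat_lit 19296338245) (nat_lit 23) (nat_lit 5) (nat_lit 24) (nat_lit 5) (nat_lit 25) (nat_lit 4) (nat_lit 364) (nat_lit 326) (nat_lit 210)) (XT.nd (nat_lit 78) (nat_lit 76) (nat_lit 0) (XT.lf (nat_lit 0) (nat_lit 39617571392) (nat_lit 152) (nat_lit 118341706228) (nat_lit 76) (nat_lit 46312294308) (nat_lit 21) (nat_lit 5) (nat_lit 23) (nat_lit 5) (nat_lit 22) (nat_lit 4) (nat_lit 365) (nat_lit 326) (nat_lit 209)) (XT.lf (nat_lit 0) (nat_lit 13816121223) (nat_lit 76) (nat_lit 90269569116) (nat_lit 152) (nat_lit 112681233541) (nat_lit 20) (nat_lit 5) (nat_lit 21) (nat_lit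 5) (nat_lit 22) (nat_lit 4) (nat_lit 366) (nat_lit 326) (nat_lit 208)))) (XT.nd (nat_lit 78) (nat_lit 152) (nat_lit 0) (XT.lf (nat_lit 0) (nat_lit 160769967701) (nat_lit 76) (nat_lit 15001346208) (nat_lit 152) (nat_lit 54387587694) (nat_lit 20) (nat_lit 5) (nat_lit 21) (nat_lit 5) (nat_lit 22) (nat_lit 4) (nat_lit 367) (nat_lit 326) (nat_lit 207)) (XT.nd (nat_lit 78) (nat_lit 0) (nat_lit 0) (XT.lf (nat_lit 0) (nat_lit 10556039058) (nat_lit 152) (nat_lit 168419913334) (nat_lit 76) (nat_lit 65526557326) (nat_lit 18) (nat_lit 5) (nat_lit 20) (nat_lit 5) (nat_lit 19) (nat_lit 4) (nat_lit 368) (nat_lit 326) (nat_lit 206)) (XT.lf (nat_lit 0) (nat_lit 80295373321) (nat_lit 152) (nat_lit 25455651341) (nat_lit 76) (nat_lit 154122717457) (nat_lit 18) (nat_lit 5) (nat_lit 20) (nat_lit 5) (nat_lit 19) (nat_lit 4) (nat_lit 369) (nat_lit 326) (nat_lit 205))))) (XT.nd (nat_lit 234) (nat_lit 152) (nat_lit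 0) (XT.nd (nat_lit 78) (nat_lit 152) (nat_lit 0) (XT.lf (nat_lit 0) (nat_lit 133207035666) (nat_lit 76) (nat_lit 24485390597) (nat_lit 152) (nat_lit 118678318532) (nat_lit 17) (nat_lit 5) (nat_lit 18) (nat_lit 5) (nat_lit 19) (nat_lit 4) (nat_lit 370) (nat_lit 326) (nat_lit 204)) (XT.nd (nat_lit 78) (nat_lit 76) (nat_lit 0) (XT.lf (nat_lit 0) (nat_lit 10649887179) (nat_lit 76) (nat_lit 232235197917) (nat_lit 76) (nat_lit 51222230765) (nat_lit 16) (nat_lit 4) (nat_lit 17) (nat_lit 5) (nat_lit 17) (nat_lit 4) (nat_lit 371) (nat_lit 326) (nat_lit 203)) (XT.lf (nat_lit 0) (nat_lit 23884517294) (nat_lit 152) (nat_lit 132050744913) (nat_lit 76) (nat_lit 157163341151) (nat_lit 15) (nat_lit 5) (nat_lit 17) (nat_lit 5) (nat_lit 16) (nat_lit 4) (nat_lit 372) (nat_lit 326) (nat_lit 202)))) (XT.nd (nat_lit 78) (nat_lit 76) (nat_lit 0) (XT.lf (nat_lit 0) (nat_lit 31614731517) (nat_lit 76) (nat_lit 72107072480)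 (nat_lit 152) (nat_lit 229819575822) (nat_lit 14) (nat_lit 5) (nat_lit 15) (nat_lit 5) (nat_lit 16) (nat_lit 4) (nat_lit 373) (nat_lit 326) (nat_lit 201)) (XT.nd (nat_lit 78) (nat_lit 76) (nat_lit 0) (XT.lf (nat_lit 0) (nat_lit 192570746989) (nat_lit 152) (nat_lit 142742905026) (nat_lit 0) (nat_lit 20174692911) (nat_lit 14) (nat_lit 5) (nat_lit 16) (nat_lit 4) (nat_lit 14) (nat_lit 4) (nat_lit 374) (nat_lit 326) (nat_lit 200)) (XT.lf (nat_lit 0) (nat_lit 28882372629) (nat_lit 76) (nat_lit 261311119724) (nat_lit 76) (nat_lit 88914280723) (nat_lit 13) (nat_lit 4) (nat_lit 14) (nat_lit 5) (nat_lit 14) (nat_lit 4) (nat_lit 375) (nat_lit 326) (nat_lit 199))))))))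
noncomputable def xc92 : XT := (XT.nd (nat_lit 43758) (nat_lit 0) (nat_lit 1824) (XT.nd (nat_lit 858) (nat_lit 76) (nat_lit 0) (XT.nd (nat_lit 390) (nat_lit 228) (nat_lit 0) (XT.nd (nat_lit 156) (nat_lit 152) (nat_lit 0) (XT.nd (nat_lit 78) (nat_lit 76) (nat_lit 0) (XT.lf (nat_lit 0) (nat_lit 219333326110) (nat_lit 76) (nat_lit 178778357014) (nat_lit 76) (nat_lit 6380791232) (nat_lit 13) (nat_lit 4) (nat_lit 14) (nat_lit 5) (nat_lit 14) (nat_lit 4) (nat_lit 376) (nat_lit 326) (nat_lit 198)) (XT.lf (nat_lit 0) (nat_lit 80105875693) (nat_lit 152) (nat_lit 8181193553) (nat_lit 76) (nat_lit 343556321114) (nat_lit 12) (nat_lit 5) (nat_lit 14) (nat_lit 5) (nat_lit 13) (nat_lit 4) (nat_lit 377) (nat_lit 326) (nat_lit 197))) (XT.nd (nat_lit 78) (nat_lit 76) (nat_lit 0) (XT.lf (nat_lit 0) (nat_lit 176436827952) (nat_lit 152) (nat_lit 272535440744) (nat_lit 0) (nat_lit 12247435739) (nat_lit 11) (nat_lit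 5) (nat_lit 13) (nat_lit 4) (nat_lit 11) (nat_lit 4) (nat_lit 378) (nat_lit 326) (nat_lit 196)) (XT.nd (nat_lit 78) (nat_lit 76) (nat_lit 0) (XT.lf (nat_lit 0) (nat_lit 282107056375) (nat_lit 152) (nat_lit 92840312696) (nat_lit 0) (nat_lit 117917114693) (nat_lit 11) (nat_lit 5) (nat_lit 13) (nat_lit 4) (nat_lit 11) (nat_lit 4) (nat_lit 379) (nat_lit 326) (nat_lit 195)) (XT.lf (nat_lit 0) (nat_lit 104576219175) (nat_lit 76) (nat_lit 293286737085) (nat_lit 76) (nat_lit 129096286637) (nat_lit 10) (nat_lit 4) (nat_lit 11) (nat_lit 5) (nat_lit 11) (nat_lit 4) (nat_lit 380) (nat_lit 326) (nat_lit 194))))) (XT.nd (nat_lit 234) (nat_lit 76) (nat_lit 0) (XT.nd (nat_lit 78) (nat_lit 152) (nat_lit 0) (XT.lf (nat_lit 0) (nat_lit 321100129120) (nat_lit 76) (nat_lit 203395773282) (nat_lit 76) (nat_lit 39204851753) (nat_lit 10) (nat_lit 4) (nat_lit 11) (nat_lit 5) (nat_lit 11) (nat_lit 4) (nat_lit 381)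 (nat_lit 326) (nat_lit 193)) (XT.nd (nat_lit 78) (nat_lit 76) (nat_lit 0) (XT.lf (nat_lit 0) (nat_lit 56024837484) (nat_lit 152) (nat_lit 49340440870) (nat_lit 76) (nat_lit 497971156558) (nat_lit 9) (nat_lit 5) (nat_lit 11) (nat_lit 5) (nat_lit 10) (nat_lit 4) (nat_lit 382) (nat_lit 326) (nat_lit 192)) (XT.lf (nat_lit 0) (nat_lit 160137852471) (nat_lit 152) (nat_lit 482076311550) (nat_lit 0) (nat_lit 3764746194) (nat_lit 8) (nat_lit 5) (nat_lit 10) (nat_lit 4) (nat_lit 8) (nat_lit 4) (nat_lit 383) (nat_lit 326) (nat_lit 191)))) (XT.nd (nat_lit 78) (nat_lit 76) (nat_lit 0) (XT.lf (nat_lit 0) (nat_lit 275229584424) (nat_lit 152) (nat_lit 297814593414) (nat_lit 0) (nat_lit 118856121996) (nat_lit 8) (nat_lit 5) (nat_lit 10) (nat_lit 4) (nat_lit 8) (nat_lit 4) (nat_lit 384) (nat_lit 326) (nat_lit 190)) (XT.nd (nat_lit 78) (nat_lit 76) (nat_lit 0) (XT.lf (nat_lit 0) (nat_lit 399528151456) (nat_lit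 152) (nat_lit 98812915160) (nat_lit 0) (nat_lit 243154359258) (nat_lit 8) (nat_lit 5) (nat_lit 10) (nat_lit 4) (nat_lit 8) (nat_lit 4) (nat_lit 385) (nat_lit 326) (nat_lit 189)) (XT.lf (nat_lit 0) (nat_lit 119947047004) (nat_lit 76) (nat_lit 415695800217) (nat_lit 76) (nat_lit 259321702677) (nat_lit 7) (nat_lit 4) (nat_lit 8) (nat_lit 5) (nat_lit 8) (nat_lit 4) (nat_lit 386) (nat_lit 326) (nat_lit 188)))))) (XT.nd (nat_lit 42432) (nat_lit 0) (nat_lit 6764) (XT.nd (nat_lit 42198) (nat_lit 0) (nat_lit 7144) (XT.nd (nat_lit 78) (nat_lit 76) (nat_lit 0) (XT.lf (nat_lit 0) (nat_lit 359735517857) (nat_lit 76) (nat_lit 324632012857) (nat_lit 76) (nat_lit 168257632592) (nat_lit 7) (nat_lit 4) (nat_lit 8) (nat_lit 5) (nat_lit 8) (nat_lit 4) (nat_lit 387) (nat_lit 326) (nat_lit 187)) (XT.nd (nat_lit 78) (nat_lit 76) (nat_lit 0) (XT.lf (nat_lit 0) (nat_lit 618706264886) (nat_lit 76) (nat_lit 226283511809)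 (nat_lit 76) (nat_lit 69908869762) (nat_lit 7) (nat_lit 4) (nat_lit 8) (nat_lit 5) (nat_lit 8) (nat_lit 4) (nat_lit 388) (nat_lit 326) (nat_lit 186)) (XT.lf (nat_lit 0) (nat_lit 35145329967) (nat_lit 152) (nat_lit 84326958003) (nat_lit 76) (nat_lit 862653396421) (nat_lit 6) (nat_lit 5) (nat_lit 8) (nat_lit 5) (nat_lit 7) (nat_lit 4) (nat_lit 389) (nat_lit 326) (nat_lit 185)))) (XT.nd (nat_lit 78) (nat_lit 0) (nat_lit 76) (XT.lf (nat_lit 0) (nat_lit 1365759189) (nat_lit 836) (nat_lit 7465943537) (nat_lit 836) (nat_lit 7465943537) (nat_lit 100) (nat_lit 3) (nat_lit 111) (nat_lit 3) (nat_lit 111) (nat_lit 5) (nat_lit 327) (nat_lit 327) (nat_lit 246)) (XT.nd (nat_lit 78) (nat_lit 0) (nat_lit 0) (XT.lf (nat_lit 0) (nat_lit 3200527993) (nat_lit 760) (nat_lit 23931633128) (nat_lit 836) (nat_lit 6748856675) (nat_lit 101) (nat_lit 5) (nat_lit 111) (nat_lit 5) (nat_lit 112) (nat_lit 5) (nat_lit 328)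 (nat_lit 327) (nat_lit 245)) (XT.lf (nat_lit 76) (nat_lit 1849215643) (nat_lit 0) (nat_lit 2439526041) (nat_lit 836) (nat_lit 30951785140) (nat_lit 102) (nat_lit 5) (nat_lit 101) (nat_lit 5) (nat_lit 112) (nat_lit 5) (nat_lit 329) (nat_lit 327) (nat_lit 244))))) (XT.nd (nat_lit 234) (nat_lit 532) (nat_lit 0) (XT.nd (nat_lit 78) (nat_lit 0) (nat_lit 76) (XT.lf (nat_lit 0) (nat_lit 6257266227) (nat_lit 760) (nat_lit 6531839178) (nat_lit 836) (nat_lit 23880037650) (nat_lit 102) (nat_lit 5) (nat_lit 112) (nat_lit 5) (nat_lit 113) (nat_lit 5) (nat_lit 330) (nat_lit 327) (nat_lit 243)) (XT.nd (nat_lit 78) (nat_lit 0) (nat_lit 76) (XT.lf (nat_lit 0) (nat_lit 9002816253) (nat_lit 760) (nat_lit 15245613468) (nat_lit 836) (nat_lit 13932650180) (nat_lit 103) (nat_lit 5) (nat_lit 113) (nat_lit 5) (nat_lit 114) (nat_lit 5) (nat_lit 331) (nat_lit 327) (nat_lit 242)) (XT.lf (nat_lit 0) (nat_lit 12578742084)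 (nat_lit 760) (nat_lit 24374698194) (nat_lit 836) (nat_lit 2830002687) (nat_lit 104) (nat_lit 5) (nat_lit 114) (nat_lit 5) (nat_lit 115) (nat_lit 5) (nat_lit 332) (nat_lit 327) (nat_lit 241)))) (XT.nd (nat_lit 78) (nat_lit 684) (nat_lit 0) (XT.lf (nat_lit 76) (nat_lit 7376220766) (nat_lit 0) (nat_lit 9851450244) (nat_lit 836) (nat_lit 24246984893) (nat_lit 105) (nat_lit 5) (nat_lit 104) (nat_lit 5) (nat_lit 115) (nat_lit 5) (nat_lit 333) (nat_lit 327) (nat_lit 240)) (XT.nd (nat_lit 78) (nat_lit 760) (nat_lit 0) (XT.lf (nat_lit 0) (nat_lit 22976667769) (nat_lit 760) (nat_lit 1058341652) (nat_lit 76) (nat_lit 19229755519) (nat_lit 105) (nat_lit 5) (nat_lit 115) (nat_lit 5) (nat_lit 106) (nat_lit 5) (nat_lit 334) (nat_lit 327) (nat_lit 239)) (XT.lf (nat_lit 0) (nat_lit 29990162755) (nat_lit 836) (nat_lit 9658582991) (nat_lit 76) (nat_lit 5509114270) (nat_lit 95) (nat_lit 5) (nat_lit 106) (nat_lit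 5) (nat_lit 96) (nat_lit 5) (nat_lit 335) (nat_lit 327) (nat_lit 238))))))) (XT.nd (nat_lit 936) (nat_lit 1824) (nat_lit 0) (XT.nd (nat_lit 468) (nat_lit 1368) (nat_lit 0) (XT.nd (nat_lit 234) (nat_lit 608) (nat_lit 0) (XT.nd (nat_lit 78) (nat_lit 760) (nat_lit 0) (XT.lf (nat_lit 0) (nat_lit 28312914233) (nat_lit 380) (nat_lit 10112165203) (nat_lit 456) (nat_lit 8734311937) (nat_lit 90) (nat_lit 5) (nat_lit 95) (nat_lit 5) (nat_lit 96) (nat_lit 5) (nat_lit 336) (nat_lit 327) (nat_lit 237)) (XT.nd (nat_lit 78) (nat_lit 456) (nat_lit 0) (XT.lf (nat_lit 0) (nat_lit 20667417505) (nat_lit 304) (nat_lit 27695842639) (nat_lit 380) (nat_lit 916366911) (nat_lit 86) (nat_lit 5) (nat_lit 90) (nat_lit 5) (nat_lit 91) (nat_lit 5) (nat_lit 337) (nat_lit 327) (nat_lit 236)) (XT.lf (nat_lit 0) (nat_lit 8052901843) (nat_lit 456) (nat_lit 39034780926) (nat_lit 76) (nat_lit 4437587673) (nat_lit 80) (nat_lit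 5) (nat_lit 86) (nat_lit 5) (nat_lit 81) (nat_lit 5) (nat_lit 338) (nat_lit 327) (nat_lit 235)))) (XT.nd (nat_lit 78) (nat_lit 304) (nat_lit 0) (XT.lf (nat_lit 0) (nat_lit 3596489768) (nat_lit 304) (nat_lit 15136425732) (nat_lit 380) (nat_lit 35165637626) (nat_lit 76) (nat_lit 5) (nat_lit 80) (nat_lit 5) (nat_lit 81) (nat_lit 5) (nat_lit 339) (nat_lit 327) (nat_lit 234)) (XT.nd (nat_lit 78) (nat_lit 304) (nat_lit 0) (XT.lf (nat_lit 0) (nat_lit 31256287855) (nat_lit 380) (nat_lit 5714571913) (nat_lit 76) (nat_lit 19441394823) (nat_lit 76) (nat_lit 5) (nat_lit 81) (nat_lit 5) (nat_lit 77) (nat_lit 5) (nat_lit 340) (nat_lit 327) (nat_lit 233)) (XT.lf (nat_lit 0) (nat_lit 43574273605) (nat_lit 304) (nat_lit 2138555776) (nat_lit 380) (nat_lit 13367661569) (nat_lit 72) (nat_lit 5) (nat_lit 76) (nat_lit 5) (nat_lit 77) (nat_lit 5) (nat_lit 341) (nat_lit 327) (nat_lit 232))))) (XT.nd (nat_lit 234)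 (nat_lit 532) (nat_lit 0) (XT.nd (nat_lit 78) (nat_lit 532) (nat_lit 0) (XT.lf (nat_lit 0) (nat_lit 611298273) (nat_lit 304) (nat_lit 26278733726) (nat_lit 76) (nat_lit 35011292987) (nat_lit 68) (nat_lit 5) (nat_lit 72) (nat_lit 5) (nat_lit 69) (nat_lit 5) (nat_lit 342) (nat_lit 327) (nat_lit 231)) (XT.nd (nat_lit 78) (nat_lit 228) (nat_lit 0) (XT.lf (nat_lit 0) (nat_lit 16148655044) (nat_lit 380) (nat_lit 38016864756) (nat_lit 76) (nat_lit 10725931012) (nat_lit 64) (nat_lit 5) (nat_lit 69) (nat_lit 5) (nat_lit 65) (nat_lit 5) (nat_lit 343) (nat_lit 327) (nat_lit 230)) (XT.lf (nat_lit 0) (nat_lit 17205541192) (nat_lit 228) (nat_lit 16907096908) (nat_lit 304) (nat_lit 33948969548) (nat_lit 61) (nat_lit 5) (nat_lit 64) (nat_lit 5) (nat_lit 65) (nat_lit 5) (nat_lit 344) (nat_lit 327) (nat_lit 229)))) (XT.nd (nat_lit 78) (nat_lit 304) (nat_lit 0) (XT.lf (nat_lit 0) (nat_lit 6581720064) (nat_lit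 228) (nat_lit 48068654705) (nat_lit 304) (nat_lit 16778173135) (nat_lit 58) (nat_lit 5) (nat_lit 61) (nat_lit 5) (nat_lit 62) (nat_lit 5) (nat_lit 345) (nat_lit 327) (nat_lit 228)) (XT.nd (nat_lit 78) (nat_lit 228) (nat_lit 0) (XT.lf (nat_lit 0) (nat_lit 2891883787) (nat_lit 304) (nat_lit 4921898727) (nat_lit 76) (nat_lit 67190577894) (nat_lit 57) (nat_lit 5) (nat_lit 61) (nat_lit 5) (nat_lit 58) (nat_lit 5) (nat_lit 346) (nat_lit 327) (nat_lit 227)) (XT.lf (nat_lit 0) (nat_lit 25089431705) (nat_lit 304) (nat_lit 17904009574) (nat_lit 76) (nat_lit 35781960579) (nat_lit 54) (nat_lit 5) (nat_lit 58) (nat_lit 5) (nat_lit 55) (nat_lit 5) (nat_lit 347) (nat_lit 327) (nat_lit 226)))))) (XT.nd (nat_lit 468) (nat_lit 760) (nat_lit 0) (XT.nd (nat_lit 234) (nat_lit 380) (nat_lit 0) (XT.nd (nat_lit 78) (nat_lit 456) (nat_lit 0) (XT.lf (nat_lit 0) (nat_lit 50081565783) (nat_lit 304) (nat_lit 32061483029)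 (nat_lit 76) (nat_lit 654140676) (nat_lit 51) (nat_lit 5) (nat_lit 55) (nat_lit 5) (nat_lit 52) (nat_lit 5) (nat_lit 348) (nat_lit 327) (nat_lit 225)) (XT.nd (nat_lit 78) (nat_lit 304) (nat_lit 0) (XT.lf (nat_lit 0) (nat_lit 38891253766) (nat_lit 152) (nat_lit 39828124898) (nat_lit 228) (nat_lit 8339027897) (nat_lit 49) (nat_lit 5) (nat_lit 51) (nat_lit 5) (nat_lit 52) (nat_lit 5) (nat_lit 349) (nat_lit 327) (nat_lit 224)) (XT.lf (nat_lit 0) (nat_lit 18488004805) (nat_lit 304) (nat_lit 66154079925) (nat_lit 76) (nat_lit 6950594581) (nat_lit 45) (nat_lit 5) (nat_lit 49) (nat_lit 5) (nat_lit 46) (nat_lit 5) (nat_lit 350) (nat_lit 327) (nat_lit 223)))) (XT.nd (nat_lit 78) (nat_lit 228) (nat_lit 0) (XT.lf (nat_lit 0) (nat_lit 9685041782) (nat_lit 152) (nat_lit 39160874240) (nat_lit 228) (nat_lit 47553100349) (nat_lit 43) (nat_lit 5) (nat_lit 45) (nat_lit 5) (nat_lit 46) (nat_lit 5) (nat_lit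 351) (nat_lit 327) (nat_lit 222)) (XT.nd (nat_lit 78) (nat_lit 228) (nat_lit 0) (XT.lf (nat_lit 0) (nat_lit 82956695536) (nat_lit 228) (nat_lit 7757011732) (nat_lit 76) (nat_lit 10809942744) (nat_lit 43) (nat_lit 5) (nat_lit 46) (nat_lit 5) (nat_lit 44) (nat_lit 5) (nat_lit 352) (nat_lit 327) (nat_lit 221)) (XT.lf (nat_lit 0) (nat_lit 14259053714) (nat_lit 228) (nat_lit 27799817432) (nat_lit 76) (nat_lit 64893007120) (nat_lit 40) (nat_lit 5) (nat_lit 43) (nat_lit 5) (nat_lit 41) (nat_lit 5) (nat_lit 353) (nat_lit 327) (nat_lit 220))))) (XT.nd (nat_lit 234) (nat_lit 304) (nat_lit 0) (XT.nd (nat_lit 78) (nat_lit 304) (nat_lit 0) (XT.lf (nat_lit 0) (nat_lit 50361857041) (nat_lit 228) (nat_lit 50776834835) (nat_lit 76) (nat_lit 11595394718) (nat_lit 38) (nat_lit 5) (nat_lit 41) (nat_lit 5) (nat_lit 39) (nat_lit 5) (nat_lit 354) (nat_lit 327) (nat_lit 219)) (XT.nd (nat_lit 78) (nat_lit 152) (nat_lit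 0) (XT.lf (nat_lit 0) (nat_lit 41541851051) (nat_lit 152) (nat_lit 49658853045) (nat_lit 228) (nat_lit 27685777567) (nat_lit 36) (nat_lit 5) (nat_lit 38) (nat_lit 5) (nat_lit 39) (nat_lit 5) (nat_lit 355) (nat_lit 327) (nat_lit 218)) (XT.lf (nat_lit 0) (nat_lit 10754857078) (nat_lit 152) (nat_lit 107601920921) (nat_lit 76) (nat_lit 7102052723) (nat_lit 34) (nat_lit 5) (nat_lit 36) (nat_lit 5) (nat_lit 35) (nat_lit 5) (nat_lit 356) (nat_lit 327) (nat_lit 217)))) (XT.nd (nat_lit 78) (nat_lit 304) (nat_lit 0) (XT.lf (nat_lit 0) (nat_lit 53518458458) (nat_lit 152) (nat_lit 10382747516) (nat_lit 76) (nat_lit 68522184790) (nat_lit 34) (nat_lit 5) (nat_lit 36) (nat_lit 5) (nat_lit 35) (nat_lit 5) (nat_lit 357) (nat_lit 327) (nat_lit 216)) (XT.nd (nat_lit 78) (nat_lit 152) (nat_lit 0) (XT.lf (nat_lit 0) (nat_lit 97739061598) (nat_lit 152) (nat_lit 3488218729) (nat_lit 228) (nat_lit 38641629459)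 (nat_lit 32) (nat_lit 5) (nat_lit 34) (nat_lit 5) (nat_lit 35) (nat_lit 5) (nat_lit 358) (nat_lit 327) (nat_lit 215)) (XT.lf (nat_lit 0) (nat_lit 6934922628) (nat_lit 152) (nat_lit 79718701071) (nat_lit 76) (nat_lit 61140307750) (nat_lit 30) (nat_lit 5) (nat_lit 32) (nat_lit 5) (nat_lit 31) (nat_lit 5) (nat_lit 359) (nat_lit 327) (nat_lit 214))))))))
noncomputable def xc93 : XT := (XT.nd (nat_lit 1794) (nat_lit 228) (nat_lit 0) (XT.nd (nat_lit 858) (nat_lit 608) (nat_lit 0) (XT.nd (nat_lit 390) (nat_lit 380) (nat_lit 0) (XT.nd (nat_lit 156) (nat_lit 380) (nat_lit 0) (XT.nd (nat_lit 78) (nat_lit 0) (nat_lit 0) (XT.lf (nat_lit 0) (nat_lit 32602965519) (nat_lit 152) (nat_lit 23530943837) (nat_lit 228) (nat_lit 100120866424) (nat_lit 28) (nat_lit 5) (nat_lit 30) (nat_lit 5) (nat_lit 31) (nat_lit 5) (nat_lit 360) (nat_lit 327) (nat_lit 213)) (XT.lf (nat_lit 0) (nat_lit 111375549768) (nat_lit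 228) (nat_lit 9288650755) (nat_lit 76) (nat_lit 44622950997) (nat_lit 28) (nat_lit 5) (nat_lit 31) (nat_lit 5) (nat_lit 29) (nat_lit 4) (nat_lit 361) (nat_lit 327) (nat_lit 212))) (XT.nd (nat_lit 78) (nat_lit 304) (nat_lit 0) (XT.lf (nat_lit 0) (nat_lit 117587596841) (nat_lit 76) (nat_lit 55680035978) (nat_lit 152) (nat_lit 1662929483) (nat_lit 27) (nat_lit 5) (nat_lit 28) (nat_lit 5) (nat_lit 29) (nat_lit 4) (nat_lit 362) (nat_lit 327) (nat_lit 211)) (XT.nd (nat_lit 78) (nat_lit 76) (nat_lit 0) (XT.lf (nat_lit 0) (nat_lit 54545902611) (nat_lit 228) (nat_lit 114479362726) (nat_lit 76) (nat_lit 16200773425) (nat_lit 24) (nat_lit 5) (nat_lit 27) (nat_lit 5) (nat_lit 25) (nat_lit 4) (nat_lit 363) (nat_lit 327) (nat_lit 210)) (XT.lf (nat_lit 0) (nat_lit 14308046157) (nat_lit 76) (nat_lit 103061987512) (nat_lit 152) (nat_lit 78864914401) (nat_lit 23) (nat_lit 5) (nat_lit 24) (nat_lit 5) (nat_lit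 25) (nat_lit 4) (nat_lit 364) (nat_lit 327) (nat_lit 209))))) (XT.nd (nat_lit 234) (nat_lit 152) (nat_lit 0) (XT.nd (nat_lit 78) (nat_lit 228) (nat_lit 0) (XT.lf (nat_lit 0) (nat_lit 157483985039) (nat_lit 76) (nat_lit 29728900381) (nat_lit 152) (nat_lit 20812045610) (nat_lit 23) (nat_lit 5) (nat_lit 24) (nat_lit 5) (nat_lit 25) (nat_lit 4) (nat_lit 365) (nat_lit 327) (nat_lit 208)) (XT.nd (nat_lit 78) (nat_lit 76) (nat_lit 0) (XT.lf (nat_lit 0) (nat_lit 42813144025) (nat_lit 152) (nat_lit 127760860467) (nat_lit 76) (nat_lit 50037977622) (nat_lit 21) (nat_lit 5) (nat_lit 23) (nat_lit 5) (nat_lit 22) (nat_lit 4) (nat_lit 366) (nat_lit 327) (nat_lit 207)) (XT.lf (nat_lit 0) (nat_lit 14967499238) (nat_lit 76) (nat_lit 97469994526) (nat_lit 152) (nat_lit 121669529929) (nat_lit 20) (nat_lit 5) (nat_lit 21) (nat_lit 5) (nat_lit 22) (nat_lit 4) (nat_lit 367) (nat_lit 327) (nat_lit 206)))) (XT.nd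 (nat_lit 78) (nat_lit 152) (nat_lit 0) (XT.lf (nat_lit 0) (nat_lit 173674239485) (nat_lit 76) (nat_lit 16181879721) (nat_lit 152) (nat_lit 58714333324) (nat_lit 20) (nat_lit 5) (nat_lit 21) (nat_lit 5) (nat_lit 22) (nat_lit 4) (nat_lit 368) (nat_lit 327) (nat_lit 205)) (XT.nd (nat_lit 78) (nat_lit 0) (nat_lit 0) (XT.lf (nat_lit 0) (nat_lit 11423215787) (nat_lit 152) (nat_lit 181851112385) (nat_lit 76) (nat_lit 70787242182) (nat_lit 18) (nat_lit 5) (nat_lit 20) (nat_lit 5) (nat_lit 19) (nat_lit 4) (nat_lit 369) (nat_lit 327) (nat_lit 204)) (XT.lf (nat_lit 0) (nat_lit 86740015783) (nat_lit 152) (nat_lit 27452849730) (nat_lit 76) (nat_lit 166469720289) (nat_lit 18) (nat_lit 5) (nat_lit 20) (nat_lit 5) (nat_lit 19) (nat_lit 4) (nat_lit 370) (nat_lit 327) (nat_lit 203)))))) (XT.nd (nat_lit 468) (nat_lit 228) (nat_lit 0) (XT.nd (nat_lit 234) (nat_lit 152) (nat_lit 0) (XT.nd (nat_lit 78) (nat_lit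 152) (nat_lit 0) (XT.lf (nat_lit 0) (nat_lit 143901146318) (nat_lit 76) (nat_lit 26426716380) (nat_lit 152) (nat_lit 128151534882) (nat_lit 17) (nat_lit 5) (nat_lit 18) (nat_lit 5) (nat_lit 19) (nat_lit 4) (nat_lit 371) (nat_lit 327) (nat_lit 202)) (XT.nd (nat_lit 78) (nat_lit 76) (nat_lit 0) (XT.lf (nat_lit 0) (nat_lit 11538495783) (nat_lit 76) (nat_lit 250796778606) (nat_lit 76) (nat_lit 55299653282) (nat_lit 16) (nat_lit 4) (nat_lit 17) (nat_lit 5) (nat_lit 17) (nat_lit 4) (nat_lit 372) (nat_lit 327) (nat_lit 201)) (XT.lf (nat_lit 0) (nat_lit 25813523517) (nat_lit 152) (nat_lit 142580292215) (nat_lit 76) (nat_lit 169751759831) (nat_lit 15) (nat_lit 5) (nat_lit 17) (nat_lit 5) (nat_lit 16) (nat_lit 4) (nat_lit 373) (nat_lit 327) (nat_lit 200)))) (XT.nd (nat_lit 78) (nat_lit 76) (nat_lit 0) (XT.lf (nat_lit 0) (nat_lit 34176922468) (nat_lit 76) (nat_lit 77860034636) (nat_lit 152) (nat_lit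 248186859123) (nat_lit 14) (nat_lit 5) (nat_lit 15) (nat_lit 5) (nat_lit 16) (nat_lit 4) (nat_lit 374) (nat_lit 327) (nat_lit 199)) (XT.nd (nat_lit 78) (nat_lit 76) (nat_lit 0) (XT.lf (nat_lit 0) (nat_lit 207992751566) (nat_lit 152) (nat_lit 154131186696) (nat_lit 0) (nat_lit 21802653741) (nat_lit 14) (nat_lit 5) (nat_lit 16) (nat_lit 4) (nat_lit 14) (nat_lit 4) (nat_lit 375) (nat_lit 327) (nat_lit 198)) (XT.lf (nat_lit 0) (nat_lit 31222759399) (nat_lit 76) (nat_lit 282201811646) (nat_lit 76) (nat_lit 96011040877) (nat_lit 13) (nat_lit 4) (nat_lit 14) (nat_lit 5) (nat_lit 14) (nat_lit 4) (nat_lit 376) (nat_lit 327) (nat_lit 197))))) (XT.nd (nat_lit 234) (nat_lit 76) (nat_lit 0) (XT.nd (nat_lit 78) (nat_lit 152) (nat_lit 0) (XT.lf (nat_lit 0) (nat_lit 236907581977) (nat_lit 76) (nat_lit 193067479598) (nat_lit 76) (nat_lit 6876085731) (nat_lit 13) (nat_lit 4) (nat_lit 14) (nat_lit 5) (nat_lit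 14) (nat_lit 4) (nat_lit 377) (nat_lit 327) (nat_lit 196)) (XT.nd (nat_lit 78) (nat_lit 76) (nat_lit 0) (XT.lf (nat_lit 0) (nat_lit 86527941400) (nat_lit 152) (nat_lit 8809690936) (nat_lit 76) (nat_lit 371052546993) (nat_lit 12) (nat_lit 5) (nat_lit 14) (nat_lit 5) (nat_lit 13) (nat_lit 4) (nat_lit 378) (nat_lit 327) (nat_lit 195)) (XT.lf (nat_lit 0) (nat_lit 190564936676) (nat_lit 152) (nat_lit 294312942270) (nat_lit 0) (nat_lit 13238741425) (nat_lit 11) (nat_lit 5) (nat_lit 13) (nat_lit 4) (nat_lit 11) (nat_lit 4) (nat_lit 379) (nat_lit 327) (nat_lit 194)))) (XT.nd (nat_lit 78) (nat_lit 76) (nat_lit 0) (XT.lf (nat_lit 0) (nat_lit 304687808373) (nat_lit 152) (nat_lit 100244080551) (nat_lit 0) (nat_lit 127361142041) (nat_lit 11) (nat_lit 5) (nat_lit 13) (nat_lit 4) (nat_lit 11) (nat_lit 4) (nat_lit 380) (nat_lit 327) (nat_lit 193)) (XT.nd (nat_lit 78) (nat_lit 0) (nat_lit 0) (XT.lf (nat_lit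 0) (nat_lit 112964754449) (nat_lit 76) (nat_lit 316738873339) (nat_lit 76) (nat_lit 139411770822) (nat_lit 10) (nat_lit 4) (nat_lit 11) (nat_lit 5) (nat_lit 11) (nat_lit 4) (nat_lit 381) (nat_lit 327) (nat_lit 192)) (XT.lf (nat_lit 0) (nat_lit 346808915135) (nat_lit 76) (nat_lit 219657432633) (nat_lit 76) (nat_lit 42329926239) (nat_lit 10) (nat_lit 4) (nat_lit 11) (nat_lit 5) (nat_lit 11) (nat_lit 4) (nat_lit 382) (nat_lit 327) (nat_lit 191))))))) (XT.nd (nat_lit 42978) (nat_lit 0) (nat_lit 4332) (XT.nd (nat_lit 468) (nat_lit 0) (nat_lit 0) (XT.nd (nat_lit 234) (nat_lit 76) (nat_lit 0) (XT.nd (nat_lit 78) (nat_lit 76) (nat_lit 0) (XT.lf (nat_lit 0) (nat_lit 60516964804) (nat_lit 152) (nat_lit 53268102503) (nat_lit 76) (nat_lit 537817773777) (nat_lit 9) (nat_lit 5) (nat_lit 11) (nat_lit 5) (nat_lit 10) (nat_lit 4) (nat_lit 383) (nat_lit 327) (nat_lit 190)) (XT.nd (nat_lit 78) (nat_lit 0)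 (nat_lit 0) (XT.lf (nat_lit 0) (nat_lit 172958703335) (nat_lit 152) (nat_lit 520623349085) (nat_lit 0) (nat_lit 4074677992) (nat_lit 8) (nat_lit 5) (nat_lit 10) (nat_lit 4) (nat_lit 8) (nat_lit 4) (nat_lit 384) (nat_lit 327) (nat_lit 189)) (XT.lf (nat_lit 0) (nat_lit 297257046240) (nat_lit 152) (nat_lit 321622105897) (nat_lit 0) (nat_lit 128372715554) (nat_lit 8) (nat_lit 5) (nat_lit 10) (nat_lit 4) (nat_lit 8) (nat_lit 4) (nat_lit 385) (nat_lit 327) (nat_lit 188)))) (XT.nd (nat_lit 78) (nat_lit 76) (nat_lit 0) (XT.lf (nat_lit 0) (nat_lit 431498824926) (nat_lit 152) (nat_lit 106701601159) (nat_lit 0) (nat_lit 262614211515) (nat_lit 8) (nat_lit 5) (nat_lit 10) (nat_lit 4) (nat_lit 8) (nat_lit 4) (nat_lit 386) (nat_lit 327) (nat_lit 187)) (XT.nd (nat_lit 78) (nat_lit 0) (nat_lit 0) (XT.lf (nat_lit 0) (nat_lit 129558447547) (nat_lit 76) (nat_lit 448943869135) (nat_lit 76) (nat_lit 280058993943)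 (nat_lit 7) (nat_lit 4) (nat_lit 8) (nat_lit 5) (nat_lit 8) (nat_lit 4) (nat_lit 387) (nat_lit 327) (nat_lit 186)) (XT.lf (nat_lit 0) (nat_lit 388528837788) (nat_lit 76) (nat_lit 350595541386) (nat_lit 76) (nat_lit 181710423803) (nat_lit 7) (nat_lit 4) (nat_lit 8) (nat_lit 5) (nat_lit 8) (nat_lit 4) (nat_lit 388) (nat_lit 327) (nat_lit 185))))) (XT.nd (nat_lit 42276) (nat_lit 0) (nat_lit 7144) (XT.nd (nat_lit 42120) (nat_lit 0) (nat_lit 7068) (XT.lf (nat_lit 0) (nat_lit 668216172098) (nat_lit 76) (nat_lit 244379681180) (nat_lit 76) (nat_lit 75494339161) (nat_lit 7) (nat_lit 4) (nat_lit 8) (nat_lit 5) (nat_lit 8) (nat_lit 4) (nat_lit 389) (nat_lit 327) (nat_lit 184)) (XT.nd (nat_lit 78) (nat_lit 0) (nat_lit 76) (XT.lf (nat_lit 0) (nat_lit 1566538761) (nat_lit 836) (nat_lit 8015123326) (nat_lit 836) (nat_lit 8015123326) (nat_lit 100) (nat_lit 3) (nat_lit 111) (nat_lit 3) (nat_lit 111) (nat_lit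 5) (nat_lit 328) (nat_lit 328) (nat_lit 244)) (XT.lf (nat_lit 0) (nat_lit 3626254184) (nat_lit 760) (nat_lit 25744196126) (nat_lit 836) (nat_lit 7212385807) (nat_lit 101) (nat_lit 5) (nat_lit 111) (nat_lit 5) (nat_lit 112) (nat_lit 5) (nat_lit 329) (nat_lit 328) (nat_lit 243)))) (XT.nd (nat_lit 78) (nat_lit 0) (nat_lit 76) (XT.lf (nat_lit 76) (nat_lit 2094689157) (nat_lit 0) (nat_lit 2695789446) (nat_lit 836) (nat_lit 33261192834) (nat_lit 102) (nat_lit 5) (nat_lit 101) (nat_lit 5) (nat_lit 112) (nat_lit 5) (nat_lit 330) (nat_lit 328) (nat_lit 242)) (XT.nd (nat_lit 78) (nat_lit 0) (nat_lit 76) (XT.lf (nat_lit 0) (nat_lit 6903850878) (nat_lit 760) (nat_lit 6955693944) (nat_lit 836) (nat_lit 25735676127) (nat_lit 102) (nat_lit 5) (nat_lit 112) (nat_lit 5) (nat_lit 113) (nat_lit 5) (nat_lit 331) (nat_lit 328) (nat_lit 241)) (XT.lf (nat_lit 0) (nat_lit 9859043964) (nat_lit 760) (nat_lit 16363224317)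 (nat_lit 836) (nat_lit 15006355870) (nat_lit 103) (nat_lit 5) (nat_lit 113) (nat_lit 5) (nat_lit 114) (nat_lit 5) (nat_lit 332) (nat_lit 328) (nat_lit 240)))))) (XT.nd (nat_lit 468) (nat_lit 1672) (nat_lit 0) (XT.nd (nat_lit 234) (nat_lit 1368) (nat_lit 0) (XT.nd (nat_lit 78) (nat_lit 0) (nat_lit 0) (XT.lf (nat_lit 0) (nat_lit 13712027463) (nat_lit 760) (nat_lit 26220100161) (nat_lit 836) (nat_lit 3027509978) (nat_lit 104) (nat_lit 5) (nat_lit 114) (nat_lit 5) (nat_lit 115) (nat_lit 5) (nat_lit 333) (nat_lit 328) (nat_lit 239)) (XT.nd (nat_lit 78) (nat_lit 0) (nat_lit 76) (XT.lf (nat_lit 76) (nat_lit 8066347662) (nat_lit 0) (nat_lit 10658678406) (nat_lit 836) (nat_lit 26061523478) (nat_lit 105) (nat_lit 5) (nat_lit 104) (nat_lit 5) (nat_lit 115) (nat_lit 5) (nat_lit 334) (nat_lit 328) (nat_lit 238)) (XT.lf (nat_lit 0) (nat_lit 24924840989) (nat_lit 760) (nat_lit 1044484486) (nat_lit 76)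 (nat_lit 20751005929) (nat_lit 105) (nat_lit 5) (nat_lit 115) (nat_lit 5) (nat_lit 106) (nat_lit 5) (nat_lit 335) (nat_lit 328) (nat_lit 237)))) (XT.nd (nat_lit 78) (nat_lit 684) (nat_lit 0) (XT.lf (nat_lit 0) (nat_lit 32492593525) (nat_lit 836) (nat_lit 10331612145) (nat_lit 76) (nat_lit 5941017871) (nat_lit 95) (nat_lit 5) (nat_lit 106) (nat_lit 5) (nat_lit 96) (nat_lit 5) (nat_lit 336) (nat_lit 328) (nat_lit 236)) (XT.nd (nat_lit 78) (nat_lit 304) (nat_lit 0) (XT.lf (nat_lit 0) (nat_lit 30673273865) (nat_lit 380) (nat_lit 10922872230) (nat_lit 456) (nat_lit 9331046917) (nat_lit 90) (nat_lit 5) (nat_lit 95) (nat_lit 5) (nat_lit 96) (nat_lit 5) (nat_lit 337) (nat_lit 328) (nat_lit 235)) (XT.lf (nat_lit 0) (nat_lit 22416755084) (nat_lit 304) (nat_lit 29906909416) (nat_lit 380) (nat_lit 893676044) (nat_lit 86) (nat_lit 5) (nat_lit 90) (nat_lit 5) (nat_lit 91) (nat_lit 5) (nat_lit 338) (nat_lit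 328) (nat_lit 234))))) (XT.nd (nat_lit 234) (nat_lit 912) (nat_lit 0) (XT.nd (nat_lit 78) (nat_lit 304) (nat_lit 0) (XT.lf (nat_lit 0) (nat_lit 8784771616) (nat_lit 456) (nat_lit 42058426627) (nat_lit 76) (nat_lit 4799633032) (nat_lit 80) (nat_lit 5) (nat_lit 86) (nat_lit 5) (nat_lit 81) (nat_lit 5) (nat_lit 339) (nat_lit 328) (nat_lit 233)) (XT.nd (nat_lit 78) (nat_lit 0) (nat_lit 0) (XT.lf (nat_lit 0) (nat_lit 3979037360) (nat_lit 304) (nat_lit 16335137868) (nat_lit 380) (nat_lit 37892057750) (nat_lit 76) (nat_lit 5) (nat_lit 80) (nat_lit 5) (nat_lit 81) (nat_lit 5) (nat_lit 340) (nat_lit 328) (nat_lit 232)) (XT.lf (nat_lit 0) (nat_lit 33833473285) (nat_lit 380) (nat_lit 6080217014) (nat_lit 76) (nat_lit 21007642877) (nat_lit 76) (nat_lit 5) (nat_lit 81) (nat_lit 5) (nat_lit 77) (nat_lit 5) (nat_lit 341) (nat_lit 328) (nat_lit 231)))) (XT.nd (nat_lit 78) (nat_lit 608) (nat_lit 0) (XT.lf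 (nat_lit 0) (nat_lit 47147758769) (nat_lit 304) (nat_lit 2294465981) (nat_lit 380) (nat_lit 14361024374) (nat_lit 72) (nat_lit 5) (nat_lit 76) (nat_lit 5) (nat_lit 77) (nat_lit 5) (nat_lit 342) (nat_lit 328) (nat_lit 230)) (XT.nd (nat_lit 78) (nat_lit 304) (nat_lit 0) (XT.lf (nat_lit 0) (nat_lit 729969206) (nat_lit 304) (nat_lit 28291637103) (nat_lit 76) (nat_lit 37828281077) (nat_lit 68) (nat_lit 5) (nat_lit 72) (nat_lit 5) (nat_lit 69) (nat_lit 5) (nat_lit 343) (nat_lit 328) (nat_lit 229)) (XT.lf (nat_lit 0) (nat_lit 17506787281) (nat_lit 380) (nat_lit 40969661399) (nat_lit 76) (nat_lit 11602955050) (nat_lit 64) (nat_lit 5) (nat_lit 69) (nat_lit 5) (nat_lit 65) (nat_lit 5) (nat_lit 344) (nat_lit 328) (nat_lit 228))))))))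
noncomputable def xc94 : XT := (XT.nd (nat_lit 1794) (nat_lit 1064) (nat_lit 0) (XT.nd (nat_lit 858) (nat_lit 1292) (nat_lit 0) (XT.nd (nat_lit 390) (nat_lit 988) (nat_lit 0) (XT.nd (nat_lit 156) (nat_lit 532) (nat_lit 0) (XT.nd (nat_lit 78) (nat_lit 228) (nat_lit 0) (XT.lf (nat_lit 0) (nat_lit 18666688639) (nat_lit 228) (nat_lit 18237616157) (nat_lit 304) (nat_lit 36599051316) (nat_lit 61) (nat_lit 5) (nat_lit 64) (nat_lit 5) (nat_lit 65) (nat_lit 5) (nat_lit 345) (nat_lit 328) (nat_lit 227)) (XT.lf (nat_lit 0) (nat_lit 7191993346) (nat_lit 228) (nat_lit 51890051982) (nat_lit 304) (nat_lit 18057760522) (nat_lit 58) (nat_lit 5) (nat_lit 61) (nat_lit 5) (nat_lit 62) (nat_lit 5) (nat_lit 346) (nat_lit 328) (nat_lit 226))) (XT.nd (nat_lit 78) (nat_lit 456) (nat_lit 0) (XT.lf (nat_lit 0) (nat_lit 3179401847) (nat_lit 304) (nat_lit 5236221769) (nat_lit 76) (nat_lit 72586238582) (nat_lit 57) (nat_lit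 5) (nat_lit 61) (nat_lit 5) (nat_lit 58) (nat_lit 5) (nat_lit 347) (nat_lit 328) (nat_lit 225)) (XT.nd (nat_lit 78) (nat_lit 228) (nat_lit 0) (XT.lf (nat_lit 0) (nat_lit 27150134987) (nat_lit 304) (nat_lit 19258013626) (nat_lit 76) (nat_lit 38666572145) (nat_lit 54) (nat_lit 5) (nat_lit 58) (nat_lit 5) (nat_lit 55) (nat_lit 5) (nat_lit 348) (nat_lit 328) (nat_lit 224)) (XT.lf (nat_lit 0) (nat_lit 54139220050) (nat_lit 304) (nat_lit 34549294987) (nat_lit 76) (nat_lit 729860003) (nat_lit 51) (nat_lit 5) (nat_lit 55) (nat_lit 5) (nat_lit 52) (nat_lit 5) (nat_lit 349) (nat_lit 328) (nat_lit 223))))) (XT.nd (nat_lit 234) (nat_lit 380) (nat_lit 0) (XT.nd (nat_lit 78) (nat_lit 456) (nat_lit 0) (XT.lf (nat_lit 0) (nat_lit 42076309789) (nat_lit 152) (nat_lit 42989112372) (nat_lit 228) (nat_lit 8955201564) (nat_lit 49) (nat_lit 5) (nat_lit 51) (nat_lit 5) (nat_lit 52) (nat_lit 5) (nat_lit 350) (nat_lit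 328) (nat_lit 222)) (XT.nd (nat_lit 78) (nat_lit 152) (nat_lit 0) (XT.lf (nat_lit 0) (nat_lit 20014231925) (nat_lit 304) (nat_lit 71372297274) (nat_lit 76) (nat_lit 7531178047) (nat_lit 45) (nat_lit 5) (nat_lit 49) (nat_lit 5) (nat_lit 46) (nat_lit 5) (nat_lit 351) (nat_lit 328) (nat_lit 221)) (XT.lf (nat_lit 0) (nat_lit 10530733481) (nat_lit 152) (nat_lit 42267654010) (nat_lit 228) (nat_lit 51310285212) (nat_lit 43) (nat_lit 5) (nat_lit 45) (nat_lit 5) (nat_lit 46) (nat_lit 5) (nat_lit 352) (nat_lit 328) (nat_lit 220)))) (XT.nd (nat_lit 78) (nat_lit 380) (nat_lit 0) (XT.lf (nat_lit 0) (nat_lit 89635088149) (nat_lit 228) (nat_lit 8310215270) (nat_lit 76) (nat_lit 11698122535) (nat_lit 43) (nat_lit 5) (nat_lit 46) (nat_lit 5) (nat_lit 44) (nat_lit 5) (nat_lit 353) (nat_lit 328) (nat_lit 219)) (XT.nd (nat_lit 78) (nat_lit 152) (nat_lit 0) (XT.lf (nat_lit 0) (nat_lit 15440213047) (nat_lit 228)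 (nat_lit 29958015263) (nat_lit 76) (nat_lit 70107757998) (nat_lit 40) (nat_lit 5) (nat_lit 43) (nat_lit 5) (nat_lit 41) (nat_lit 5) (nat_lit 354) (nat_lit 328) (nat_lit 218)) (XT.lf (nat_lit 0) (nat_lit 54429610552) (nat_lit 228) (nat_lit 54774495647) (nat_lit 76) (nat_lit 12546748123) (nat_lit 38) (nat_lit 5) (nat_lit 41) (nat_lit 5) (nat_lit 39) (nat_lit 5) (nat_lit 355) (nat_lit 328) (nat_lit 217)))))) (XT.nd (nat_lit 468) (nat_lit 532) (nat_lit 0) (XT.nd (nat_lit 234) (nat_lit 456) (nat_lit 0) (XT.nd (nat_lit 78) (nat_lit 152) (nat_lit 0) (XT.lf (nat_lit 0) (nat_lit 44926882628) (nat_lit 152) (nat_lit 53606771355) (nat_lit 228) (nat_lit 29861883986) (nat_lit 36) (nat_lit 5) (nat_lit 38) (nat_lit 5) (nat_lit 39) (nat_lit 5) (nat_lit 356) (nat_lit 328) (nat_lit 216)) (XT.nd (nat_lit 78) (nat_lit 0) (nat_lit 0) (XT.lf (nat_lit 0) (nat_lit 11651305026) (nat_lit 152) (nat_lit 116148452954)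 (nat_lit 76) (nat_lit 7693960756) (nat_lit 34) (nat_lit 5) (nat_lit 36) (nat_lit 5) (nat_lit 35) (nat_lit 5) (nat_lit 357) (nat_lit 328) (nat_lit 215)) (XT.lf (nat_lit 0) (nat_lit 57833323452) (nat_lit 152) (nat_lit 11156310242) (nat_lit 76) (nat_lit 74025944588) (nat_lit 34) (nat_lit 5) (nat_lit 36) (nat_lit 5) (nat_lit 35) (nat_lit 5) (nat_lit 358) (nat_lit 328) (nat_lit 214)))) (XT.nd (nat_lit 78) (nat_lit 304) (nat_lit 0) (XT.lf (nat_lit 0) (nat_lit 105612763969) (nat_lit 152) (nat_lit 3744465998) (nat_lit 228) (nat_lit 41699590973) (nat_lit 32) (nat_lit 5) (nat_lit 34) (nat_lit 5) (nat_lit 35) (nat_lit 5) (nat_lit 359) (nat_lit 328) (nat_lit 213)) (XT.nd (nat_lit 78) (nat_lit 152) (nat_lit 0) (XT.lf (nat_lit 0) (nat_lit 7520807116) (nat_lit 152) (nat_lit 86041760516) (nat_lit 76) (nat_lit 66053312100) (nat_lit 30) (nat_lit 5) (nat_lit 32) (nat_lit 5) (nat_lit 31) (nat_lit 5) (nat_lit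 360) (nat_lit 328) (nat_lit 212)) (XT.lf (nat_lit 0) (nat_lit 35263273651) (nat_lit 152) (nat_lit 25390949089) (nat_lit 228) (nat_lit 108099444237) (nat_lit 28) (nat_lit 5) (nat_lit 30) (nat_lit 5) (nat_lit 31) (nat_lit 5) (nat_lit 361) (nat_lit 328) (nat_lit 211))))) (XT.nd (nat_lit 234) (nat_lit 228) (nat_lit 0) (XT.nd (nat_lit 78) (nat_lit 304) (nat_lit 0) (XT.lf (nat_lit 0) (nat_lit 120313326582) (nat_lit 228) (nat_lit 9982473434) (nat_lit 76) (nat_lit 48212926952) (nat_lit 28) (nat_lit 5) (nat_lit 31) (nat_lit 5) (nat_lit 29) (nat_lit 4) (nat_lit 362) (nat_lit 328) (nat_lit 210)) (XT.nd (nat_lit 78) (nat_lit 228) (nat_lit 0) (XT.lf (nat_lit 0) (nat_lit 127041732782) (nat_lit 76) (nat_lit 60113725015) (nat_lit 152) (nat_lit 1768219485) (nat_lit 27) (nat_lit 5) (nat_lit 28) (nat_lit 5) (nat_lit 29) (nat_lit 4) (nat_lit 363) (nat_lit 328) (nat_lit 209)) (XT.lf (nat_lit 0) (nat_lit 58935476823)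 (nat_lit 228) (nat_lit 123590804199) (nat_lit 76) (nat_lit 17516537552) (nat_lit 24) (nat_lit 5) (nat_lit 27) (nat_lit 5) (nat_lit 25) (nat_lit 4) (nat_lit 364) (nat_lit 328) (nat_lit 208)))) (XT.nd (nat_lit 78) (nat_lit 152) (nat_lit 0) (XT.lf (nat_lit 0) (nat_lit 15497558850) (nat_lit 76) (nat_lit 111286761379) (nat_lit 152) (nat_lit 85148181910) (nat_lit 23) (nat_lit 5) (nat_lit 24) (nat_lit 5) (nat_lit 25) (nat_lit 4) (nat_lit 365) (nat_lit 328) (nat_lit 207)) (XT.nd (nat_lit 78) (nat_lit 152) (nat_lit 0) (XT.lf (nat_lit 0) (nat_lit 170124249213) (nat_lit 76) (nat_lit 32088522473) (nat_lit 152) (nat_lit 22453004034) (nat_lit 23) (nat_lit 5) (nat_lit 24) (nat_lit 5) (nat_lit 25) (nat_lit 4) (nat_lit 366) (nat_lit 328) (nat_lit 206)) (XT.lf (nat_lit 0) (nat_lit 46260629465) (nat_lit 152) (nat_lit 137940420783) (nat_lit 76) (nat_lit 54058762549) (nat_lit 21) (nat_lit 5) (nat_lit 23) (nat_lit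 5) (nat_lit 22) (nat_lit 4) (nat_lit 367) (nat_lit 328) (nat_lit 205))))))) (XT.nd (nat_lit 936) (nat_lit 380) (nat_lit 0) (XT.nd (nat_lit 468) (nat_lit 304) (nat_lit 0) (XT.nd (nat_lit 234) (nat_lit 152) (nat_lit 0) (XT.nd (nat_lit 78) (nat_lit 152) (nat_lit 0) (XT.lf (nat_lit 0) (nat_lit 16204412481) (nat_lit 76) (nat_lit 105249469844) (nat_lit 152) (nat_lit 131380628078) (nat_lit 20) (nat_lit 5) (nat_lit 21) (nat_lit 5) (nat_lit 22) (nat_lit 4) (nat_lit 368) (nat_lit 328) (nat_lit 204)) (XT.nd (nat_lit 78) (nat_lit 152) (nat_lit 0) (XT.lf (nat_lit 0) (nat_lit 187604765036) (nat_lit 76) (nat_lit 17459648391) (nat_lit 152) (nat_lit 63390679763) (nat_lit 20) (nat_lit 5) (nat_lit 21) (nat_lit 5) (nat_lit 22) (nat_lit 4) (nat_lit 369) (nat_lit 328) (nat_lit 203)) (XT.lf (nat_lit 0) (nat_lit 12356529159) (nat_lit 152) (nat_lit 196362855341) (nat_lit 76) (nat_lit 76466133997) (nat_lit 18) (nat_lit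 5) (nat_lit 20) (nat_lit 5) (nat_lit 19) (nat_lit 4) (nat_lit 370) (nat_lit 328) (nat_lit 202)))) (XT.nd (nat_lit 78) (nat_lit 152) (nat_lit 0) (XT.lf (nat_lit 0) (nat_lit 93697231961) (nat_lit 152) (nat_lit 29615423973) (nat_lit 76) (nat_lit 179802031653) (nat_lit 18) (nat_lit 5) (nat_lit 20) (nat_lit 5) (nat_lit 19) (nat_lit 4) (nat_lit 371) (nat_lit 328) (nat_lit 201)) (XT.nd (nat_lit 78) (nat_lit 76) (nat_lit 0) (XT.lf (nat_lit 0) (nat_lit 155445429209) (nat_lit 76) (nat_lit 28525845576) (nat_lit 152) (nat_lit 138385611435) (nat_lit 17) (nat_lit 5) (nat_lit 18) (nat_lit 5) (nat_lit 19) (nat_lit 4) (nat_lit 372) (nat_lit 328) (nat_lit 200)) (XT.lf (nat_lit 0) (nat_lit 12492969160) (nat_lit 76) (nat_lit 270845744537) (nat_lit 76) (nat_lit 59706173604) (nat_lit 16) (nat_lit 4) (nat_lit 17) (nat_lit 5) (nat_lit 17) (nat_lit 4) (nat_lit 373) (nat_lit 328) (nat_lit 199))))) (XT.nd (nat_lit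 234) (nat_lit 152) (nat_lit 0) (XT.nd (nat_lit 78) (nat_lit 76) (nat_lit 0) (XT.lf (nat_lit 0) (nat_lit 27894247408) (nat_lit 152) (nat_lit 153957126865) (nat_lit 76) (nat_lit 183345061958) (nat_lit 15) (nat_lit 5) (nat_lit 17) (nat_lit 5) (nat_lit 16) (nat_lit 4) (nat_lit 374) (nat_lit 328) (nat_lit 198)) (XT.nd (nat_lit 78) (nat_lit 0) (nat_lit 0) (XT.lf (nat_lit 0) (nat_lit 36939379102) (nat_lit 76) (nat_lit 84075459798) (nat_lit 152) (nat_lit 268026133329) (nat_lit 14) (nat_lit 5) (nat_lit 15) (nat_lit 5) (nat_lit 16) (nat_lit 4) (nat_lit 375) (nat_lit 328) (nat_lit 197)) (XT.lf (nat_lit 0) (nat_lit 224646184737) (nat_lit 152) (nat_lit 166434974899) (nat_lit 0) (nat_lit 23558856264) (nat_lit 14) (nat_lit 5) (nat_lit 16) (nat_lit 4) (nat_lit 14) (nat_lit 4) (nat_lit 376) (nat_lit 328) (nat_lit 196)))) (XT.nd (nat_lit 78) (nat_lit 76) (nat_lit 0) (XT.lf (nat_lit 0) (nat_lit 33746126241)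 (nat_lit 76) (nat_lit 304765784377) (nat_lit 76) (nat_lit 103677878962) (nat_lit 13) (nat_lit 4) (nat_lit 14) (nat_lit 5) (nat_lit 14) (nat_lit 4) (nat_lit 377) (nat_lit 328) (nat_lit 195)) (XT.nd (nat_lit 78) (nat_lit 76) (nat_lit 0) (XT.lf (nat_lit 0) (nat_lit 255883842322) (nat_lit 76) (nat_lit 208501607409) (nat_lit 76) (nat_lit 7413167789) (nat_lit 13) (nat_lit 4) (nat_lit 14) (nat_lit 5) (nat_lit 14) (nat_lit 4) (nat_lit 378) (nat_lit 328) (nat_lit 194)) (XT.lf (nat_lit 0) (nat_lit 93461832792) (nat_lit 152) (nat_lit 9492177030) (nat_lit 76) (nat_lit 400746798927) (nat_lit 12) (nat_lit 5) (nat_lit 14) (nat_lit 5) (nat_lit 13) (nat_lit 4) (nat_lit 379) (nat_lit 328) (nat_lit 193)))))) (XT.nd (nat_lit 468) (nat_lit 76) (nat_lit 0) (XT.nd (nat_lit 234) (nat_lit 152) (nat_lit 0) (XT.nd (nat_lit 78) (nat_lit 76) (nat_lit 0) (XT.lf (nat_lit 0) (nat_lit 205821416322) (nat_lit 152) (nat_lit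 317836258060) (nat_lit 0) (nat_lit 14307709417) (nat_lit 11) (nat_lit 5) (nat_lit 13) (nat_lit 4) (nat_lit 11) (nat_lit 4) (nat_lit 380) (nat_lit 328) (nat_lit 192)) (XT.nd (nat_lit 78) (nat_lit 76) (nat_lit 0) (XT.lf (nat_lit 0) (nat_lit 329073281850) (nat_lit 152) (nat_lit 108243496262) (nat_lit 0) (nat_lit 137559171070) (nat_lit 11) (nat_lit 5) (nat_lit 13) (nat_lit 4) (nat_lit 11) (nat_lit 4) (nat_lit 381) (nat_lit 328) (nat_lit 191)) (XT.lf (nat_lit 0) (nat_lit 122021171550) (nat_lit 76) (nat_lit 342068721622) (nat_lit 76) (nat_lit 150554236882) (nat_lit 10) (nat_lit 4) (nat_lit 11) (nat_lit 5) (nat_lit 11) (nat_lit 4) (nat_lit 382) (nat_lit 328) (nat_lit 190)))) (XT.nd (nat_lit 78) (nat_lit 152) (nat_lit 0) (XT.lf (nat_lit 0) (nat_lit 374571440147) (nat_lit 76) (nat_lit 237221451702) (nat_lit 76) (nat_lit 45706620704) (nat_lit 10) (nat_lit 4) (nat_lit 11) (nat_lit 5) (nat_lit 11) (nat_lit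 4) (nat_lit 383) (nat_lit 328) (nat_lit 189)) (XT.nd (nat_lit 78) (nat_lit 76) (nat_lit 0) (XT.lf (nat_lit 0) (nat_lit 65367015678) (nat_lit 152) (nat_lit 57512769465) (nat_lit 76) (nat_lit 580850847166) (nat_lit 9) (nat_lit 5) (nat_lit 11) (nat_lit 5) (nat_lit 10) (nat_lit 4) (nat_lit 384) (nat_lit 328) (nat_lit 188)) (XT.lf (nat_lit 0) (nat_lit 186803820956) (nat_lit 152) (nat_lit 562256869799) (nat_lit 0) (nat_lit 4408155748) (nat_lit 8) (nat_lit 5) (nat_lit 10) (nat_lit 4) (nat_lit 8) (nat_lit 4) (nat_lit 385) (nat_lit 328) (nat_lit 187))))) (XT.nd (nat_lit 234) (nat_lit 0) (nat_lit 0) (XT.nd (nat_lit 78) (nat_lit 76) (nat_lit 0) (XT.lf (nat_lit 0) (nat_lit 321045407489) (nat_lit 152) (nat_lit 347336738060) (nat_lit 0) (nat_lit 138649480499) (nat_lit 8) (nat_lit 5) (nat_lit 10) (nat_lit 4) (nat_lit 8) (nat_lit 4) (nat_lit 386) (nat_lit 328) (nat_lit 186)) (XT.nd (nat_lit 78) (nat_lit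 76) (nat_lit 0) (XT.lf (nat_lit 0) (nat_lit 466025950873) (nat_lit 152) (nat_lit 115223714152) (nat_lit 0) (nat_lit 283629781493) (nat_lit 8) (nat_lit 5) (nat_lit 10) (nat_lit 4) (nat_lit 8) (nat_lit 4) (nat_lit 387) (nat_lit 328) (nat_lit 185)) (XT.lf (nat_lit 0) (nat_lit 139936529372) (nat_lit 76) (nat_lit 484852867092) (nat_lit 76) (nat_lit 302456473276) (nat_lit 7) (nat_lit 4) (nat_lit 8) (nat_lit 5) (nat_lit 8) (nat_lit 4) (nat_lit 388) (nat_lit 328) (nat_lit 184)))) (XT.nd (nat_lit 42198) (nat_lit 0) (nat_lit 7068) (XT.lf (nat_lit 0) (nat_lit 419623557793) (nat_lit 76) (nat_lit 378637155462) (nat_lit 76) (nat_lit 196240553835) (nat_lit 7) (nat_lit 4) (nat_lit 8) (nat_lit 5) (nat_lit 8) (nat_lit 4) (nat_lit 389) (nat_lit 328) (nat_lit 183)) (XT.nd (nat_lit 78) (nat_lit 0) (nat_lit 76) (XT.lf (nat_lit 0) (nat_lit 1770324514) (nat_lit 836) (nat_lit 8615098887) (nat_lit 836) (nat_lit 8615098887)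 (nat_lit 100) (nat_lit 3) (nat_lit 111) (nat_lit 3) (nat_lit 111) (nat_lit 5) (nat_lit 329) (nat_lit 329) (nat_lit 242)) (XT.lf (nat_lit 0) (nat_lit 4061831158) (nat_lit 760) (nat_lit 27716310989) (nat_lit 836) (nat_lit 7723893645) (nat_lit 101) (nat_lit 5) (nat_lit 111) (nat_lit 5) (nat_lit 112) (nat_lit 5) (nat_lit 330) (nat_lit 329) (nat_lit 241))))))))
noncomputable def xc95 : XT := (XT.nd (nat_lit 1794) (nat_lit 2204) (nat_lit 0) (XT.nd (nat_lit 858) (nat_lit 2508) (nat_lit 0) (XT.nd (nat_lit 390) (nat_lit 1900) (nat_lit 0) (XT.nd (nat_lit 156) (nat_lit 0) (nat_lit 152) (XT.nd (nat_lit 78) (nat_lit 0) (nat_lit 76) (XT.lf (nat_lit 76) (nat_lit 2345885914) (nat_lit 0) (nat_lit 2963837137) (nat_lit 836) (nat_lit 35779139772) (nat_lit 102) (nat_lit 5) (nat_lit 101) (nat_lit 5) (nat_lit 112) (nat_lit 5) (nat_lit 331) (nat_lit 329) (nat_lit 240)) (XT.lf (nat_lit 0) (nat_lit 7581333291) (nat_lit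 760) (nat_lit 7427536660) (nat_lit 836) (nat_lit 27747578456) (nat_lit 102) (nat_lit 5) (nat_lit 112) (nat_lit 5) (nat_lit 113) (nat_lit 5) (nat_lit 332) (nat_lit 329) (nat_lit 239))) (XT.nd (nat_lit 78) (nat_lit 0) (nat_lit 76) (XT.lf (nat_lit 0) (nat_lit 10764367628) (nat_lit 760) (nat_lit 17584800928) (nat_lit 836) (nat_lit 16171793760) (nat_lit 103) (nat_lit 5) (nat_lit 113) (nat_lit 5) (nat_lit 114) (nat_lit 5) (nat_lit 333) (nat_lit 329) (nat_lit 238)) (XT.nd (nat_lit 78) (nat_lit 0) (nat_lit 0) (XT.lf (nat_lit 0) (nat_lit 14917859697) (nat_lit 760) (nat_lit 28228052919) (nat_lit 836) (nat_lit 3244939750) (nat_lit 104) (nat_lit 5) (nat_lit 114) (nat_lit 5) (nat_lit 115) (nat_lit 5) (nat_lit 334) (nat_lit 329) (nat_lit 237)) (XT.lf (nat_lit 76) (nat_lit 8797414422) (nat_lit 0) (nat_lit 11527758260) (nat_lit 836) (nat_lit 28039089212) (nat_lit 105) (nat_lit 5) (nat_lit 104) (nat_lit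 5) (nat_lit 115) (nat_lit 5) (nat_lit 335) (nat_lit 329) (nat_lit 236))))) (XT.nd (nat_lit 234) (nat_lit 1064) (nat_lit 0) (XT.nd (nat_lit 78) (nat_lit 1140) (nat_lit 0) (XT.lf (nat_lit 0) (nat_lit 27013169660) (nat_lit 760) (nat_lit 1043574367) (nat_lit 76) (nat_lit 22396400162) (nat_lit 105) (nat_lit 5) (nat_lit 115) (nat_lit 5) (nat_lit 106) (nat_lit 5) (nat_lit 336) (nat_lit 329) (nat_lit 235)) (XT.nd (nat_lit 78) (nat_lit 380) (nat_lit 0) (XT.lf (nat_lit 0) (nat_lit 35180493590) (nat_lit 836) (nat_lit 11072700885) (nat_lit 76) (nat_lit 6408732823) (nat_lit 95) (nat_lit 5) (nat_lit 106) (nat_lit 5) (nat_lit 96) (nat_lit 5) (nat_lit 337) (nat_lit 329) (nat_lit 234)) (XT.lf (nat_lit 0) (nat_lit 33208862877) (nat_lit 380) (nat_lit 11798188472) (nat_lit 456) (nat_lit 9990073558) (nat_lit 90) (nat_lit 5) (nat_lit 95) (nat_lit 5) (nat_lit 96) (nat_lit 5) (nat_lit 338) (nat_lit 329) (nat_lit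 233)))) (XT.nd (nat_lit 78) (nat_lit 760) (nat_lit 0) (XT.lf (nat_lit 0) (nat_lit 24292352160) (nat_lit 304) (nat_lit 32295517868) (nat_lit 380) (nat_lit 882865413) (nat_lit 86) (nat_lit 5) (nat_lit 90) (nat_lit 5) (nat_lit 91) (nat_lit 5) (nat_lit 339) (nat_lit 329) (nat_lit 232)) (XT.nd (nat_lit 78) (nat_lit 304) (nat_lit 0) (XT.lf (nat_lit 0) (nat_lit 9562688484) (nat_lit 456) (nat_lit 45338106953) (nat_lit 76) (nat_lit 5189637920) (nat_lit 80) (nat_lit 5) (nat_lit 86) (nat_lit 5) (nat_lit 81) (nat_lit 5) (nat_lit 340) (nat_lit 329) (nat_lit 231)) (XT.lf (nat_lit 0) (nat_lit 4378660425) (nat_lit 304) (nat_lit 17631487715) (nat_lit 380) (nat_lit 40848978879) (nat_lit 76) (nat_lit 5) (nat_lit 80) (nat_lit 5) (nat_lit 81) (nat_lit 5) (nat_lit 341) (nat_lit 329) (nat_lit 230)))))) (XT.nd (nat_lit 468) (nat_lit 1140) (nat_lit 0) (XT.nd (nat_lit 234) (nat_lit 760) (nat_lit 0) (XT.nd (nat_lit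 78) (nat_lit 608) (nat_lit 0) (XT.lf (nat_lit 0) (nat_lit 36605893947) (nat_lit 380) (nat_lit 6488170168) (nat_lit 76) (nat_lit 22697630566) (nat_lit 76) (nat_lit 5) (nat_lit 81) (nat_lit 5) (nat_lit 77) (nat_lit 5) (nat_lit 342) (nat_lit 329) (nat_lit 229)) (XT.nd (nat_lit 78) (nat_lit 304) (nat_lit 0) (XT.lf (nat_lit 0) (nat_lit 50994633719) (nat_lit 304) (nat_lit 2465013781) (nat_lit 380) (nat_lit 15444705603) (nat_lit 72) (nat_lit 5) (nat_lit 76) (nat_lit 5) (nat_lit 77) (nat_lit 5) (nat_lit 343) (nat_lit 329) (nat_lit 228)) (XT.lf (nat_lit 0) (nat_lit 848180760) (nat_lit 304) (nat_lit 30478325991) (nat_lit 76) (nat_lit 40868333558) (nat_lit 68) (nat_lit 5) (nat_lit 72) (nat_lit 5) (nat_lit 69) (nat_lit 5) (nat_lit 344) (nat_lit 329) (nat_lit 227)))) (XT.nd (nat_lit 78) (nat_lit 456) (nat_lit 0) (XT.lf (nat_lit 0) (nat_lit 18964120244) (nat_lit 380) (nat_lit 44171314784) (nat_lit 76)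 (nat_lit 12547437646) (nat_lit 64) (nat_lit 5) (nat_lit 69) (nat_lit 5) (nat_lit 65) (nat_lit 5) (nat_lit 345) (nat_lit 329) (nat_lit 226)) (XT.nd (nat_lit 78) (nat_lit 228) (nat_lit 0) (XT.lf (nat_lit 0) (nat_lit 20232643888) (nat_lit 228) (nat_lit 19677722411) (nat_lit 304) (nat_lit 39470531838) (nat_lit 61) (nat_lit 5) (nat_lit 64) (nat_lit 5) (nat_lit 65) (nat_lit 5) (nat_lit 346) (nat_lit 329) (nat_lit 225)) (XT.lf (nat_lit 0) (nat_lit 7839142660) (nat_lit 228) (nat_lit 56020598477) (nat_lit 304) (nat_lit 19448654972) (nat_lit 58) (nat_lit 5) (nat_lit 61) (nat_lit 5) (nat_lit 62) (nat_lit 5) (nat_lit 347) (nat_lit 329) (nat_lit 224))))) (XT.nd (nat_lit 234) (nat_lit 608) (nat_lit 0) (XT.nd (nat_lit 78) (nat_lit 456) (nat_lit 0) (XT.lf (nat_lit 0) (nat_lit 3481908450) (nat_lit 304) (nat_lit 5587022070) (nat_lit 76) (nat_lit 78410639774) (nat_lit 57) (nat_lit 5) (nat_lit 61) (nat_lit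 5) (nat_lit 58) (nat_lit 5) (nat_lit 348) (nat_lit 329) (nat_lit 223)) (XT.nd (nat_lit 78) (nat_lit 228) (nat_lit 0) (XT.lf (nat_lit 0) (nat_lit 29368055205) (nat_lit 304) (nat_lit 20731510757) (nat_lit 76) (nat_lit 41778806285) (nat_lit 54) (nat_lit 5) (nat_lit 58) (nat_lit 5) (nat_lit 55) (nat_lit 5) (nat_lit 349) (nat_lit 329) (nat_lit 222)) (XT.lf (nat_lit 0) (nat_lit 58514192534) (nat_lit 304) (nat_lit 37247132033) (nat_lit 76) (nat_lit 808300306) (nat_lit 51) (nat_lit 5) (nat_lit 55) (nat_lit 5) (nat_lit 52) (nat_lit 5) (nat_lit 350) (nat_lit 329) (nat_lit 221)))) (XT.nd (nat_lit 78) (nat_lit 456) (nat_lit 0) (XT.lf (nat_lit 0) (nat_lit 45505648216) (nat_lit 152) (nat_lit 46406582825) (nat_lit 228) (nat_lit 9627937506) (nat_lit 49) (nat_lit 5) (nat_lit 51) (nat_lit 5) (nat_lit 52) (nat_lit 5) (nat_lit 351) (nat_lit 329) (nat_lit 220)) (XT.nd (nat_lit 78) (nat_lit 152) (nat_lit 0) (XT.lf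 (nat_lit 0) (nat_lit 21655825499) (nat_lit 304) (nat_lit 77018544495) (nat_lit 76) (nat_lit 8154707870) (nat_lit 45) (nat_lit 5) (nat_lit 49) (nat_lit 5) (nat_lit 46) (nat_lit 5) (nat_lit 352) (nat_lit 329) (nat_lit 219)) (XT.lf (nat_lit 0) (nat_lit 11433967499) (nat_lit 152) (nat_lit 45626698216) (nat_lit 228) (nat_lit 55374758951) (nat_lit 43) (nat_lit 5) (nat_lit 45) (nat_lit 5) (nat_lit 46) (nat_lit 5) (nat_lit 353) (nat_lit 329) (nat_lit 218))))))) (XT.nd (nat_lit 936) (nat_lit 760) (nat_lit 0) (XT.nd (nat_lit 468) (nat_lit 760) (nat_lit 0) (XT.nd (nat_lit 234) (nat_lit 304) (nat_lit 0) (XT.nd (nat_lit 78) (nat_lit 380) (nat_lit 0) (XT.lf (nat_lit 0) (nat_lit 96841780807) (nat_lit 228) (nat_lit 8917284377) (nat_lit 76) (nat_lit 12654020666) (nat_lit 43) (nat_lit 5) (nat_lit 46) (nat_lit 5) (nat_lit 44) (nat_lit 5) (nat_lit 354) (nat_lit 329) (nat_lit 217)) (XT.nd (nat_lit 78) (nat_lit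 152) (nat_lit 0) (XT.lf (nat_lit 0) (nat_lit 16710096616) (nat_lit 228) (nat_lit 32298254252) (nat_lit 76) (nat_lit 75736363470) (nat_lit 40) (nat_lit 5) (nat_lit 43) (nat_lit 5) (nat_lit 41) (nat_lit 5) (nat_lit 355) (nat_lit 329) (nat_lit 216)) (XT.lf (nat_lit 0) (nat_lit 58817248385) (nat_lit 228) (nat_lit 59101168968) (nat_lit 76) (nat_lit 13570825616) (nat_lit 38) (nat_lit 5) (nat_lit 41) (nat_lit 5) (nat_lit 39) (nat_lit 5) (nat_lit 356) (nat_lit 329) (nat_lit 215)))) (XT.nd (nat_lit 78) (nat_lit 152) (nat_lit 0) (XT.lf (nat_lit 0) (nat_lit 48573916892) (nat_lit 152) (nat_lit 57874059691) (nat_lit 228) (nat_lit 32217607865) (nat_lit 36) (nat_lit 5) (nat_lit 38) (nat_lit 5) (nat_lit 39) (nat_lit 5) (nat_lit 357) (nat_lit 329) (nat_lit 214)) (XT.nd (nat_lit 78) (nat_lit 0) (nat_lit 0) (XT.lf (nat_lit 0) (nat_lit 12614324536) (nat_lit 152) (nat_lit 125387498565) (nat_lit 76) (nat_lit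 8329834111) (nat_lit 34) (nat_lit 5) (nat_lit 36) (nat_lit 5) (nat_lit 35) (nat_lit 5) (nat_lit 358) (nat_lit 329) (nat_lit 213)) (XT.lf (nat_lit 0) (nat_lit 62488614428) (nat_lit 152) (nat_lit 11999897816) (nat_lit 76) (nat_lit 79966868761) (nat_lit 34) (nat_lit 5) (nat_lit 36) (nat_lit 5) (nat_lit 35) (nat_lit 5) (nat_lit 359) (nat_lit 329) (nat_lit 212))))) (XT.nd (nat_lit 234) (nat_lit 304) (nat_lit 0) (XT.nd (nat_lit 78) (nat_lit 304) (nat_lit 0) (XT.lf (nat_lit 0) (nat_lit 114108576448) (nat_lit 152) (nat_lit 4024467183) (nat_lit 228) (nat_lit 45006949847) (nat_lit 32) (nat_lit 5) (nat_lit 34) (nat_lit 5) (nat_lit 35) (nat_lit 5) (nat_lit 360) (nat_lit 329) (nat_lit 211)) (XT.nd (nat_lit 78) (nat_lit 152) (nat_lit 0) (XT.lf (nat_lit 0) (nat_lit 8149126929) (nat_lit 152) (nat_lit 92878430712) (nat_lit 76) (nat_lit 71356249677) (nat_lit 30) (nat_lit 5) (nat_lit 32) (nat_lit 5) (nat_lit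 31) (nat_lit 5) (nat_lit 361) (nat_lit 329) (nat_lit 210)) (XT.lf (nat_lit 0) (nat_lit 38128977939) (nat_lit 152) (nat_lit 27402960395) (nat_lit 228) (nat_lit 116720743825) (nat_lit 28) (nat_lit 5) (nat_lit 30) (nat_lit 5) (nat_lit 31) (nat_lit 5) (nat_lit 362) (nat_lit 329) (nat_lit 209)))) (XT.nd (nat_lit 78) (nat_lit 304) (nat_lit 0) (XT.lf (nat_lit 0) (nat_lit 129962169144) (nat_lit 228) (nat_lit 10738830756) (nat_lit 76) (nat_lit 52087227806) (nat_lit 28) (nat_lit 5) (nat_lit 31) (nat_lit 5) (nat_lit 29) (nat_lit 4) (nat_lit 363) (nat_lit 329) (nat_lit 208)) (XT.nd (nat_lit 78) (nat_lit 228) (nat_lit 0) (XT.lf (nat_lit 0) (nat_lit 137245476235) (nat_lit 76) (nat_lit 64905064236) (nat_lit 152) (nat_lit 1885890729) (nat_lit 27) (nat_lit 5) (nat_lit 28) (nat_lit 5) (nat_lit 29) (nat_lit 4) (nat_lit 364) (nat_lit 329) (nat_lit 207)) (XT.lf (nat_lit 0) (nat_lit 63672521761) (nat_lit 228)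 (nat_lit 133437852876) (nat_lit 76) (nat_lit 18934752062) (nat_lit 24) (nat_lit 5) (nat_lit 27) (nat_lit 5) (nat_lit 25) (nat_lit 4) (nat_lit 365) (nat_lit 329) (nat_lit 206)))))) (XT.nd (nat_lit 468) (nat_lit 304) (nat_lit 0) (XT.nd (nat_lit 234) (nat_lit 228) (nat_lit 0) (XT.nd (nat_lit 78) (nat_lit 152) (nat_lit 0) (XT.lf (nat_lit 0) (nat_lit 16775831494) (nat_lit 76) (nat_lit 120172396790) (nat_lit 152) (nat_lit 91937809403) (nat_lit 23) (nat_lit 5) (nat_lit 24) (nat_lit 5) (nat_lit 25) (nat_lit 4) (nat_lit 366) (nat_lit 329) (nat_lit 205)) (XT.nd (nat_lit 78) (nat_lit 152) (nat_lit 0) (XT.lf (nat_lit 0) (nat_lit 183769807609) (nat_lit 76) (nat_lit 34639580660) (nat_lit 152) (nat_lit 24228663746) (nat_lit 23) (nat_lit 5) (nat_lit 24) (nat_lit 5) (nat_lit 25) (nat_lit 4) (nat_lit 367) (nat_lit 329) (nat_lit 204)) (XT.lf (nat_lit 0) (nat_lit 49980713290) (nat_lit 152) (nat_lit 148940239047)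 (nat_lit 76) (nat_lit 58398678501) (nat_lit 21) (nat_lit 5) (nat_lit 23) (nat_lit 5) (nat_lit 22) (nat_lit 4) (nat_lit 368) (nat_lit 329) (nat_lit 203)))) (XT.nd (nat_lit 78) (nat_lit 152) (nat_lit 0) (XT.lf (nat_lit 0) (nat_lit 17534641769) (nat_lit 76) (nat_lit 113653888814) (nat_lit 152) (nat_lit 141871818854) (nat_lit 20) (nat_lit 5) (nat_lit 21) (nat_lit 5) (nat_lit 22) (nat_lit 4) (nat_lit 369) (nat_lit 329) (nat_lit 202)) (XT.nd (nat_lit 78) (nat_lit 152) (nat_lit 0) (XT.lf (nat_lit 0) (nat_lit 202644513173) (nat_lit 76) (nat_lit 18842032653) (nat_lit 152) (nat_lit 68444101302) (nat_lit 20) (nat_lit 5) (nat_lit 21) (nat_lit 5) (nat_lit 22) (nat_lit 4) (nat_lit 370) (nat_lit 329) (nat_lit 201)) (XT.lf (nat_lit 0) (nat_lit 13361731968) (nat_lit 152) (nat_lit 212040722902) (nat_lit 76) (nat_lit 82597067069) (nat_lit 18) (nat_lit 5) (nat_lit 20) (nat_lit 5) (nat_lit 19) (nat_lit 4) (nat_lit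 371) (nat_lit 329) (nat_lit 200))))) (XT.nd (nat_lit 234) (nat_lit 152) (nat_lit 0) (XT.nd (nat_lit 78) (nat_lit 152) (nat_lit 0) (XT.lf (nat_lit 0) (nat_lit 101208455404) (nat_lit 152) (nat_lit 31955805236) (nat_lit 76) (nat_lit 194198825993) (nat_lit 18) (nat_lit 5) (nat_lit 20) (nat_lit 5) (nat_lit 19) (nat_lit 4) (nat_lit 372) (nat_lit 329) (nat_lit 199)) (XT.nd (nat_lit 78) (nat_lit 76) (nat_lit 0) (XT.lf (nat_lit 0) (nat_lit 167908662299) (nat_lit 76) (nat_lit 30795046183) (nat_lit 152) (nat_lit 149440988609) (nat_lit 17) (nat_lit 5) (nat_lit 18) (nat_lit 5) (nat_lit 19) (nat_lit 4) (nat_lit 373) (nat_lit 329) (nat_lit 198)) (XT.lf (nat_lit 0) (nat_lit 13519321744) (nat_lit 76) (nat_lit 292500735754) (nat_lit 76) (nat_lit 64467705266) (nat_lit 16) (nat_lit 4) (nat_lit 17) (nat_lit 5) (nat_lit 17) (nat_lit 4) (nat_lit 374) (nat_lit 329) (nat_lit 197)))) (XT.nd (nat_lit 78) (nat_lit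 76) (nat_lit 0) (XT.lf (nat_lit 0) (nat_lit 30139197702) (nat_lit 152) (nat_lit 166248329449) (nat_lit 76) (nat_lit 198023950643) (nat_lit 15) (nat_lit 5) (nat_lit 17) (nat_lit 5) (nat_lit 16) (nat_lit 4) (nat_lit 375) (nat_lit 329) (nat_lit 196)) (XT.nd (nat_lit 78) (nat_lit 0) (nat_lit 0) (XT.lf (nat_lit 0) (nat_lit 39918794552) (nat_lit 76) (nat_lit 90790027438) (nat_lit 152) (nat_lit 289454785617) (nat_lit 14) (nat_lit 5) (nat_lit 15) (nat_lit 5) (nat_lit 16) (nat_lit 4) (nat_lit 376) (nat_lit 329) (nat_lit 195)) (XT.lf (nat_lit 0) (nat_lit 242629893445) (nat_lit 152) (nat_lit 179726876173) (nat_lit 0) (nat_lit 25453844450) (nat_lit 14) (nat_lit 5) (nat_lit 16) (nat_lit 4) (nat_lit 14) (nat_lit 4) (nat_lit 377) (nat_lit 329) (nat_lit 194))))))))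
noncomputable def xc96 : XT := (XT.nd (nat_lit 43992) (nat_lit 0) (nat_lit 1596) (XT.nd (nat_lit 858) (nat_lit 76) (nat_lit 0) (XT.nd (nat_lit 390) (nat_lit 228) (nat_lit 0) (XT.nd (nat_lit 156) (nat_lit 152) (nat_lit 0) (XT.nd (nat_lit 78) (nat_lit 0) (nat_lit 0) (XT.lf (nat_lit 0) (nat_lit 36467717996) (nat_lit 76) (nat_lit 329136611427) (nat_lit 76) (nat_lit 111960067797) (nat_lit 13) (nat_lit 4) (nat_lit 14) (nat_lit 5) (nat_lit 14) (nat_lit 4) (nat_lit 378) (nat_lit 329) (nat_lit 193)) (XT.lf (nat_lit 0) (nat_lit 276374829018) (nat_lit 76) (nat_lit 225172073316) (nat_lit 76) (nat_lit 7995071691) (nat_lit 13) (nat_lit 4) (nat_lit 14) (nat_lit 5) (nat_lit 14) (nat_lit 4) (nat_lit 379) (nat_lit 329) (nat_lit 192))) (XT.nd (nat_lit 78) (nat_lit 76) (nat_lit 0) (XT.lf (nat_lit 0) (nat_lit 100948772625) (nat_lit 152) (nat_lit 10232441811) (nat_lit 76) (nat_lit 432815157530) (nat_lit 12) (nat_lit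 5) (nat_lit 14) (nat_lit 5) (nat_lit 13) (nat_lit 4) (nat_lit 380) (nat_lit 329) (nat_lit 191)) (XT.nd (nat_lit 78) (nat_lit 0) (nat_lit 0) (XT.lf (nat_lit 0) (nat_lit 222296804450) (nat_lit 152) (nat_lit 343244537655) (nat_lit 0) (nat_lit 15460786972) (nat_lit 11) (nat_lit 5) (nat_lit 13) (nat_lit 4) (nat_lit 11) (nat_lit 4) (nat_lit 381) (nat_lit 329) (nat_lit 190)) (XT.lf (nat_lit 0) (nat_lit 355408102567) (nat_lit 152) (nat_lit 116885734250) (nat_lit 0) (nat_lit 148571738831) (nat_lit 11) (nat_lit 5) (nat_lit 13) (nat_lit 4) (nat_lit 11) (nat_lit 4) (nat_lit 382) (nat_lit 329) (nat_lit 189))))) (XT.nd (nat_lit 234) (nat_lit 76) (nat_lit 0) (XT.nd (nat_lit 78) (nat_lit 76) (nat_lit 0) (XT.lf (nat_lit 0) (nat_lit 131799357683) (nat_lit 76) (nat_lit 369426279035) (nat_lit 76) (nat_lit 162589594690) (nat_lit 10) (nat_lit 4) (nat_lit 11) (nat_lit 5) (nat_lit 11) (nat_lit 4) (nat_lit 383)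 (nat_lit 329) (nat_lit 188)) (XT.nd (nat_lit 78) (nat_lit 76) (nat_lit 0) (XT.lf (nat_lit 0) (nat_lit 404552426108) (nat_lit 76) (nat_lit 256191815694) (nat_lit 76) (nat_lit 49354834488) (nat_lit 10) (nat_lit 4) (nat_lit 11) (nat_lit 5) (nat_lit 11) (nat_lit 4) (nat_lit 384) (nat_lit 329) (nat_lit 187)) (XT.lf (nat_lit 0) (nat_lit 70603830371) (nat_lit 152) (nat_lit 62099403816) (nat_lit 76) (nat_lit 627325474856) (nat_lit 9) (nat_lit 5) (nat_lit 11) (nat_lit 5) (nat_lit 10) (nat_lit 4) (nat_lit 385) (nat_lit 329) (nat_lit 186)))) (XT.nd (nat_lit 78) (nat_lit 0) (nat_lit 0) (XT.lf (nat_lit 0) (nat_lit 201755346585) (nat_lit 152) (nat_lit 607223404282) (nat_lit 0) (nat_lit 4767241264) (nat_lit 8) (nat_lit 5) (nat_lit 10) (nat_lit 4) (nat_lit 8) (nat_lit 4) (nat_lit 386) (nat_lit 329) (nat_lit 185)) (XT.nd (nat_lit 78) (nat_lit 0) (nat_lit 0) (XT.lf (nat_lit 0) (nat_lit 346735725230) (nat_lit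 152) (nat_lit 375110700161) (nat_lit 0) (nat_lit 149747395473) (nat_lit 8) (nat_lit 5) (nat_lit 10) (nat_lit 4) (nat_lit 8) (nat_lit 4) (nat_lit 387) (nat_lit 329) (nat_lit 184)) (XT.lf (nat_lit 0) (nat_lit 503314216889) (nat_lit 152) (nat_lit 124429595595) (nat_lit 0) (nat_lit 306325679321) (nat_lit 8) (nat_lit 5) (nat_lit 10) (nat_lit 4) (nat_lit 8) (nat_lit 4) (nat_lit 388) (nat_lit 329) (nat_lit 183)))))) (XT.nd (nat_lit 42666) (nat_lit 0) (nat_lit 6004) (XT.nd (nat_lit 42432) (nat_lit 0) (nat_lit 7144) (XT.nd (nat_lit 42276) (nat_lit 0) (nat_lit 7068) (XT.lf (nat_lit 0) (nat_lit 151142945224) (nat_lit 76) (nat_lit 523635513835) (nat_lit 76) (nat_lit 326646783849) (nat_lit 7) (nat_lit 4) (nat_lit 8) (nat_lit 5) (nat_lit 8) (nat_lit 4) (nat_lit 389) (nat_lit 329) (nat_lit 182)) (XT.nd (nat_lit 78) (nat_lit 0) (nat_lit 76) (XT.lf (nat_lit 0) (nat_lit 1979219552) (nat_lit 836) (nat_lit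 9268955027) (nat_lit 836) (nat_lit 9268955027) (nat_lit 100) (nat_lit 3) (nat_lit 111) (nat_lit 3) (nat_lit 111) (nat_lit 5) (nat_lit 330) (nat_lit 330) (nat_lit 240)) (XT.lf (nat_lit 0) (nat_lit 4511500420) (nat_lit 760) (nat_lit 29858666599) (nat_lit 836) (nat_lit 8285663996) (nat_lit 101) (nat_lit 5) (nat_lit 111) (nat_lit 5) (nat_lit 112) (nat_lit 5) (nat_lit 331) (nat_lit 330) (nat_lit 239)))) (XT.nd (nat_lit 78) (nat_lit 0) (nat_lit 76) (XT.lf (nat_lit 76) (nat_lit 2605248852) (nat_lit 0) (nat_lit 3245855403) (nat_lit 836) (nat_lit 38518915665) (nat_lit 102) (nat_lit 5) (nat_lit 101) (nat_lit 5) (nat_lit 112) (nat_lit 5) (nat_lit 332) (nat_lit 330) (nat_lit 238)) (XT.nd (nat_lit 78) (nat_lit 0) (nat_lit 76) (XT.lf (nat_lit 0) (nat_lit 8295156778) (nat_lit 760) (nat_lit 7949197756) (nat_lit 836) (nat_lit 29927131164) (nat_lit 102) (nat_lit 5) (nat_lit 112) (nat_lit 5) (nat_lit 113)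 (nat_lit 5) (nat_lit 333) (nat_lit 330) (nat_lit 237)) (XT.lf (nat_lit 0) (nat_lit 11725482871) (nat_lit 760) (nat_lit 18916583858) (nat_lit 836) (nat_lit 17435469892) (nat_lit 103) (nat_lit 5) (nat_lit 113) (nat_lit 5) (nat_lit 114) (nat_lit 5) (nat_lit 334) (nat_lit 330) (nat_lit 236))))) (XT.nd (nat_lit 234) (nat_lit 1368) (nat_lit 0) (XT.nd (nat_lit 78) (nat_lit 0) (nat_lit 0) (XT.lf (nat_lit 0) (nat_lit 16204626983) (nat_lit 760) (nat_lit 30409432222) (nat_lit 836) (nat_lit 3483297768) (nat_lit 104) (nat_lit 5) (nat_lit 114) (nat_lit 5) (nat_lit 115) (nat_lit 5) (nat_lit 335) (nat_lit 330) (nat_lit 235)) (XT.nd (nat_lit 78) (nat_lit 0) (nat_lit 76) (XT.lf (nat_lit 76) (nat_lit 9574732050) (nat_lit 0) (nat_lit 12464026916) (nat_lit 836) (nat_lit 30190175759) (nat_lit 105) (nat_lit 5) (nat_lit 104) (nat_lit 5) (nat_lit 115) (nat_lit 5) (nat_lit 336) (nat_lit 330) (nat_lit 234)) (XT.lf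 (nat_lit 0) (nat_lit 29255105771) (nat_lit 760) (nat_lit 1054641869) (nat_lit 76) (nat_lit 24175521091) (nat_lit 105) (nat_lit 5) (nat_lit 115) (nat_lit 5) (nat_lit 106) (nat_lit 5) (nat_lit 337) (nat_lit 330) (nat_lit 233)))) (XT.nd (nat_lit 78) (nat_lit 684) (nat_lit 0) (XT.lf (nat_lit 0) (nat_lit 38070801204) (nat_lit 836) (nat_lit 11885265729) (nat_lit 76) (nat_lit 6914944413) (nat_lit 95) (nat_lit 5) (nat_lit 106) (nat_lit 5) (nat_lit 96) (nat_lit 5) (nat_lit 338) (nat_lit 330) (nat_lit 232)) (XT.nd (nat_lit 78) (nat_lit 304) (nat_lit 0) (XT.lf (nat_lit 0) (nat_lit 35935639725) (nat_lit 380) (nat_lit 12743317952) (nat_lit 456) (nat_lit 10714299065) (nat_lit 90) (nat_lit 5) (nat_lit 95) (nat_lit 5) (nat_lit 96) (nat_lit 5) (nat_lit 339) (nat_lit 330) (nat_lit 231)) (XT.lf (nat_lit 0) (nat_lit 26306262168) (nat_lit 304) (nat_lit 34875777694) (nat_lit 380) (nat_lit 882931620) (nat_lit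 86) (nat_lit 5) (nat_lit 90) (nat_lit 5) (nat_lit 91) (nat_lit 5) (nat_lit 340) (nat_lit 330) (nat_lit 230))))))) (XT.nd (nat_lit 858) (nat_lit 1748) (nat_lit 0) (XT.nd (nat_lit 390) (nat_lit 1292) (nat_lit 0) (XT.nd (nat_lit 156) (nat_lit 608) (nat_lit 0) (XT.nd (nat_lit 78) (nat_lit 304) (nat_lit 0) (XT.lf (nat_lit 0) (nat_lit 10392119834) (nat_lit 456) (nat_lit 48892287022) (nat_lit 76) (nat_lit 5609982347) (nat_lit 80) (nat_lit 5) (nat_lit 86) (nat_lit 5) (nat_lit 81) (nat_lit 5) (nat_lit 341) (nat_lit 330) (nat_lit 229)) (XT.lf (nat_lit 0) (nat_lit 4798654971) (nat_lit 304) (nat_lit 19033037955) (nat_lit 380) (nat_lit 44053073896) (nat_lit 76) (nat_lit 5) (nat_lit 80) (nat_lit 5) (nat_lit 81) (nat_lit 5) (nat_lit 342) (nat_lit 330) (nat_lit 228))) (XT.nd (nat_lit 78) (nat_lit 608) (nat_lit 0) (XT.lf (nat_lit 0) (nat_lit 39590729316) (nat_lit 380) (nat_lit 6939953371) (nat_lit 76) (nat_lit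 24521479641) (nat_lit 76) (nat_lit 5) (nat_lit 81) (nat_lit 5) (nat_lit 77) (nat_lit 5) (nat_lit 343) (nat_lit 330) (nat_lit 227)) (XT.nd (nat_lit 78) (nat_lit 304) (nat_lit 0) (XT.lf (nat_lit 0) (nat_lit 55138551337) (nat_lit 304) (nat_lit 2651061352) (nat_lit 380) (nat_lit 16624382943) (nat_lit 72) (nat_lit 5) (nat_lit 76) (nat_lit 5) (nat_lit 77) (nat_lit 5) (nat_lit 344) (nat_lit 330) (nat_lit 226)) (XT.lf (nat_lit 0) (nat_lit 967316101) (nat_lit 304) (nat_lit 32850883840) (nat_lit 76) (nat_lit 44149622941) (nat_lit 68) (nat_lit 5) (nat_lit 72) (nat_lit 5) (nat_lit 69) (nat_lit 5) (nat_lit 345) (nat_lit 330) (nat_lit 225))))) (XT.nd (nat_lit 234) (nat_lit 532) (nat_lit 0) (XT.nd (nat_lit 78) (nat_lit 456) (nat_lit 0) (XT.lf (nat_lit 0) (nat_lit 20529938118) (nat_lit 380) (nat_lit 47639931208) (nat_lit 76) (nat_lit 13565161148) (nat_lit 64) (nat_lit 5) (nat_lit 69) (nat_lit 5) (nat_lit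 65) (nat_lit 5) (nat_lit 346) (nat_lit 330) (nat_lit 224)) (XT.nd (nat_lit 78) (nat_lit 228) (nat_lit 0) (XT.lf (nat_lit 0) (nat_lit 21913515479) (nat_lit 228) (nat_lit 21235733895) (nat_lit 304) (nat_lit 42579783110) (nat_lit 61) (nat_lit 5) (nat_lit 64) (nat_lit 5) (nat_lit 65) (nat_lit 5) (nat_lit 347) (nat_lit 330) (nat_lit 223)) (XT.lf (nat_lit 0) (nat_lit 8527822295) (nat_lit 228) (nat_lit 60484535737) (nat_lit 304) (nat_lit 20958485649) (nat_lit 58) (nat_lit 5) (nat_lit 61) (nat_lit 5) (nat_lit 62) (nat_lit 5) (nat_lit 348) (nat_lit 330) (nat_lit 222)))) (XT.nd (nat_lit 78) (nat_lit 456) (nat_lit 0) (XT.lf (nat_lit 0) (nat_lit 3801745809) (nat_lit 304) (nat_lit 5975601256) (nat_lit 76) (nat_lit 84698496191) (nat_lit 57) (nat_lit 5) (nat_lit 61) (nat_lit 5) (nat_lit 58) (nat_lit 5) (nat_lit 349) (nat_lit 330) (nat_lit 221)) (XT.nd (nat_lit 78) (nat_lit 228) (nat_lit 0) (XT.lf (nat_lit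 0) (nat_lit 31756859549) (nat_lit 304) (nat_lit 22332466494) (nat_lit 76) (nat_lit 45137321666) (nat_lit 54) (nat_lit 5) (nat_lit 58) (nat_lit 5) (nat_lit 55) (nat_lit 5) (nat_lit 350) (nat_lit 330) (nat_lit 220)) (XT.lf (nat_lit 0) (nat_lit 63232909281) (nat_lit 304) (nat_lit 40170226880) (nat_lit 76) (nat_lit 890155262) (nat_lit 51) (nat_lit 5) (nat_lit 55) (nat_lit 5) (nat_lit 52) (nat_lit 5) (nat_lit 351) (nat_lit 330) (nat_lit 219)))))) (XT.nd (nat_lit 468) (nat_lit 760) (nat_lit 0) (XT.nd (nat_lit 234) (nat_lit 380) (nat_lit 0) (XT.nd (nat_lit 78) (nat_lit 456) (nat_lit 0) (XT.lf (nat_lit 0) (nat_lit 49200312731) (nat_lit 152) (nat_lit 50100540746) (nat_lit 228) (nat_lit 10360723790) (nat_lit 49) (nat_lit 5) (nat_lit 51) (nat_lit 5) (nat_lit 52) (nat_lit 5) (nat_lit 352) (nat_lit 330) (nat_lit 218)) (XT.nd (nat_lit 78) (nat_lit 152) (nat_lit 0) (XT.lf (nat_lit 0) (nat_lit 23422975197)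 (nat_lit 304) (nat_lit 83125555694) (nat_lit 76) (nat_lit 8825119119) (nat_lit 45) (nat_lit 5) (nat_lit 49) (nat_lit 5) (nat_lit 46) (nat_lit 5) (nat_lit 353) (nat_lit 330) (nat_lit 217)) (XT.lf (nat_lit 0) (nat_lit 12400789957) (nat_lit 152) (nat_lit 49257657020) (nat_lit 228) (nat_lit 59770146836) (nat_lit 43) (nat_lit 5) (nat_lit 45) (nat_lit 5) (nat_lit 46) (nat_lit 5) (nat_lit 354) (nat_lit 330) (nat_lit 216)))) (XT.nd (nat_lit 78) (nat_lit 380) (nat_lit 0) (XT.lf (nat_lit 0) (nat_lit 104619889394) (nat_lit 228) (nat_lit 9581157426) (nat_lit 76) (nat_lit 13683530530) (nat_lit 43) (nat_lit 5) (nat_lit 46) (nat_lit 5) (nat_lit 44) (nat_lit 5) (nat_lit 355) (nat_lit 330) (nat_lit 215)) (XT.nd (nat_lit 78) (nat_lit 152) (nat_lit 0) (XT.lf (nat_lit 0) (nat_lit 18076625303) (nat_lit 228) (nat_lit 34833758769) (nat_lit 76) (nat_lit 81812406320) (nat_lit 40) (nat_lit 5) (nat_lit 43) (nat_lit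 5) (nat_lit 41) (nat_lit 5) (nat_lit 356) (nat_lit 330) (nat_lit 214)) (XT.lf (nat_lit 0) (nat_lit 63551151051) (nat_lit 228) (nat_lit 63781863369) (nat_lit 76) (nat_lit 14673927917) (nat_lit 38) (nat_lit 5) (nat_lit 41) (nat_lit 5) (nat_lit 39) (nat_lit 5) (nat_lit 357) (nat_lit 330) (nat_lit 213))))) (XT.nd (nat_lit 234) (nat_lit 456) (nat_lit 0) (XT.nd (nat_lit 78) (nat_lit 152) (nat_lit 0) (XT.lf (nat_lit 0) (nat_lit 52505169453) (nat_lit 152) (nat_lit 62485763125) (nat_lit 228) (nat_lit 34766529835) (nat_lit 36) (nat_lit 5) (nat_lit 38) (nat_lit 5) (nat_lit 39) (nat_lit 5) (nat_lit 358) (nat_lit 330) (nat_lit 212)) (XT.nd (nat_lit 78) (nat_lit 0) (nat_lit 0) (XT.lf (nat_lit 0) (nat_lit 13649975221) (nat_lit 152) (nat_lit 135373204705) (nat_lit 76) (nat_lit 9013673253) (nat_lit 34) (nat_lit 5) (nat_lit 36) (nat_lit 5) (nat_lit 35) (nat_lit 5) (nat_lit 359) (nat_lit 330) (nat_lit 211))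 (XT.lf (nat_lit 0) (nat_lit 67512244991) (nat_lit 152) (nat_lit 12917950989) (nat_lit 76) (nat_lit 86380377904) (nat_lit 34) (nat_lit 5) (nat_lit 36) (nat_lit 5) (nat_lit 35) (nat_lit 5) (nat_lit 360) (nat_lit 330) (nat_lit 210)))) (XT.nd (nat_lit 78) (nat_lit 304) (nat_lit 0) (XT.lf (nat_lit 0) (nat_lit 123277378615) (nat_lit 152) (nat_lit 4329658358) (nat_lit 228) (nat_lit 48582978740) (nat_lit 32) (nat_lit 5) (nat_lit 34) (nat_lit 5) (nat_lit 35) (nat_lit 5) (nat_lit 361) (nat_lit 330) (nat_lit 209)) (XT.nd (nat_lit 78) (nat_lit 152) (nat_lit 0) (XT.lf (nat_lit 0) (nat_lit 8823909659) (nat_lit 152) (nat_lit 100268692613) (nat_lit 76) (nat_lit 77080758403) (nat_lit 30) (nat_lit 5) (nat_lit 32) (nat_lit 5) (nat_lit 31) (nat_lit 5) (nat_lit 362) (nat_lit 330) (nat_lit 208)) (XT.lf (nat_lit 0) (nat_lit 41217569833) (nat_lit 152) (nat_lit 29578680919) (nat_lit 228) (nat_lit 126035550150) (nat_lit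 28) (nat_lit 5) (nat_lit 30) (nat_lit 5) (nat_lit 31) (nat_lit 5) (nat_lit 363) (nat_lit 330) (nat_lit 207))))))))
noncomputable def xc97 : XT := (XT.nd (nat_lit 1794) (nat_lit 76) (nat_lit 0) (XT.nd (nat_lit 858) (nat_lit 608) (nat_lit 0) (XT.nd (nat_lit 390) (nat_lit 456) (nat_lit 0) (XT.nd (nat_lit 156) (nat_lit 304) (nat_lit 0) (XT.nd (nat_lit 78) (nat_lit 76) (nat_lit 0) (XT.lf (nat_lit 0) (nat_lit 140379527135) (nat_lit 228) (nat_lit 11561722750) (nat_lit 76) (nat_lit 56269009440) (nat_lit 28) (nat_lit 5) (nat_lit 31) (nat_lit 5) (nat_lit 29) (nat_lit 4) (nat_lit 364) (nat_lit 330) (nat_lit 206)) (XT.lf (nat_lit 0) (nat_lit 148259754963) (nat_lit 76) (nat_lit 70082244083) (nat_lit 152) (nat_lit 2016369056) (nat_lit 27) (nat_lit 5) (nat_lit 28) (nat_lit 5) (nat_lit 29) (nat_lit 4) (nat_lit 365) (nat_lit 330) (nat_lit 205))) (XT.nd (nat_lit 78) (nat_lit 76) (nat_lit 0) (XT.lf (nat_lit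 0) (nat_lit 68785362247) (nat_lit 228) (nat_lit 144078402660) (nat_lit 76) (nat_lit 20464013971) (nat_lit 24) (nat_lit 5) (nat_lit 27) (nat_lit 5) (nat_lit 25) (nat_lit 4) (nat_lit 366) (nat_lit 330) (nat_lit 204)) (XT.nd (nat_lit 78) (nat_lit 0) (nat_lit 0) (XT.lf (nat_lit 0) (nat_lit 18150878068) (nat_lit 76) (nat_lit 129771351857) (nat_lit 152) (nat_lit 99273778033) (nat_lit 23) (nat_lit 5) (nat_lit 24) (nat_lit 5) (nat_lit 25) (nat_lit 4) (nat_lit 367) (nat_lit 330) (nat_lit 203)) (XT.lf (nat_lit 0) (nat_lit 198501929305) (nat_lit 76) (nat_lit 37397009450) (nat_lit 152) (nat_lit 26149312289) (nat_lit 23) (nat_lit 5) (nat_lit 24) (nat_lit 5) (nat_lit 25) (nat_lit 4) (nat_lit 368) (nat_lit 330) (nat_lit 202))))) (XT.nd (nat_lit 234) (nat_lit 228) (nat_lit 0) (XT.nd (nat_lit 78) (nat_lit 76) (nat_lit 0) (XT.lf (nat_lit 0) (nat_lit 53995659953) (nat_lit 152) (nat_lit 160825095174) (nat_lit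 76) (nat_lit 63083617148) (nat_lit 21) (nat_lit 5) (nat_lit 23) (nat_lit 5) (nat_lit 22) (nat_lit 4) (nat_lit 369) (nat_lit 330) (nat_lit 201)) (XT.nd (nat_lit 78) (nat_lit 0) (nat_lit 0) (XT.lf (nat_lit 0) (nat_lit 18966456568) (nat_lit 76) (nat_lit 122732878058) (nat_lit 152) (nat_lit 153205052472) (nat_lit 20) (nat_lit 5) (nat_lit 21) (nat_lit 5) (nat_lit 22) (nat_lit 4) (nat_lit 370) (nat_lit 330) (nat_lit 200)) (XT.lf (nat_lit 0) (nat_lit 218882966318) (nat_lit 76) (nat_lit 20337060209) (nat_lit 152) (nat_lit 73904340618) (nat_lit 20) (nat_lit 5) (nat_lit 21) (nat_lit 5) (nat_lit 22) (nat_lit 4) (nat_lit 371) (nat_lit 330) (nat_lit 199)))) (XT.nd (nat_lit 78) (nat_lit 76) (nat_lit 0) (XT.lf (nat_lit 0) (nat_lit 14444971346) (nat_lit 152) (nat_lit 228977265313) (nat_lit 76) (nat_lit 89216528553) (nat_lit 18) (nat_lit 5) (nat_lit 20) (nat_lit 5) (nat_lit 19) (nat_lit 4) (nat_lit 372)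 (nat_lit 330) (nat_lit 198)) (XT.nd (nat_lit 78) (nat_lit 76) (nat_lit 0) (XT.lf (nat_lit 0) (nat_lit 109318373337) (nat_lit 152) (nat_lit 34487533155) (nat_lit 76) (nat_lit 209745561812) (nat_lit 18) (nat_lit 5) (nat_lit 20) (nat_lit 5) (nat_lit 19) (nat_lit 4) (nat_lit 373) (nat_lit 330) (nat_lit 197)) (XT.lf (nat_lit 0) (nat_lit 181365016765) (nat_lit 76) (nat_lit 33247618466) (nat_lit 152) (nat_lit 161383003174) (nat_lit 17) (nat_lit 5) (nat_lit 18) (nat_lit 5) (nat_lit 19) (nat_lit 4) (nat_lit 374) (nat_lit 330) (nat_lit 196)))))) (XT.nd (nat_lit 468) (nat_lit 304) (nat_lit 0) (XT.nd (nat_lit 234) (nat_lit 76) (nat_lit 0) (XT.nd (nat_lit 78) (nat_lit 152) (nat_lit 0) (XT.lf (nat_lit 0) (nat_lit 14623942801) (nat_lit 76) (nat_lit 315889933550) (nat_lit 76) (nat_lit 69612293989) (nat_lit 16) (nat_lit 4) (nat_lit 17) (nat_lit 5) (nat_lit 17) (nat_lit 4) (nat_lit 375) (nat_lit 330) (nat_lit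 195)) (XT.nd (nat_lit 78) (nat_lit 76) (nat_lit 0) (XT.lf (nat_lit 0) (nat_lit 32561830862) (nat_lit 152) (nat_lit 179526447208) (nat_lit 76) (nat_lit 213875540672) (nat_lit 15) (nat_lit 5) (nat_lit 17) (nat_lit 5) (nat_lit 16) (nat_lit 4) (nat_lit 376) (nat_lit 330) (nat_lit 194)) (XT.lf (nat_lit 0) (nat_lit 43133101546) (nat_lit 76) (nat_lit 98043396692) (nat_lit 152) (nat_lit 312599647224) (nat_lit 14) (nat_lit 5) (nat_lit 15) (nat_lit 5) (nat_lit 16) (nat_lit 4) (nat_lit 377) (nat_lit 330) (nat_lit 193)))) (XT.nd (nat_lit 78) (nat_lit 76) (nat_lit 0) (XT.lf (nat_lit 0) (nat_lit 262050584929) (nat_lit 152) (nat_lit 194085396021) (nat_lit 0) (nat_lit 27498965178) (nat_lit 14) (nat_lit 5) (nat_lit 16) (nat_lit 4) (nat_lit 14) (nat_lit 4) (nat_lit 378) (nat_lit 330) (nat_lit 192)) (XT.nd (nat_lit 78) (nat_lit 0) (nat_lit 0) (XT.lf (nat_lit 0) (nat_lit 39403912574) (nat_lit 76) (nat_lit 355458593410)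 (nat_lit 76) (nat_lit 120906549590) (nat_lit 13) (nat_lit 4) (nat_lit 14) (nat_lit 5) (nat_lit 14) (nat_lit 4) (nat_lit 379) (nat_lit 330) (nat_lit 191)) (XT.lf (nat_lit 0) (nat_lit 298502201579) (nat_lit 76) (nat_lit 243177554986) (nat_lit 76) (nat_lit 8625118509) (nat_lit 13) (nat_lit 4) (nat_lit 14) (nat_lit 5) (nat_lit 14) (nat_lit 4) (nat_lit 380) (nat_lit 330) (nat_lit 190))))) (XT.nd (nat_lit 234) (nat_lit 152) (nat_lit 0) (XT.nd (nat_lit 78) (nat_lit 76) (nat_lit 0) (XT.lf (nat_lit 0) (nat_lit 109033242002) (nat_lit 152) (nat_lit 11034653942) (nat_lit 76) (nat_lit 467447755840) (nat_lit 12) (nat_lit 5) (nat_lit 14) (nat_lit 5) (nat_lit 13) (nat_lit 4) (nat_lit 381) (nat_lit 330) (nat_lit 189)) (XT.nd (nat_lit 78) (nat_lit 0) (nat_lit 0) (XT.lf (nat_lit 0) (nat_lit 240088843406) (nat_lit 152) (nat_lit 370688136119) (nat_lit 0) (nat_lit 16704903703) (nat_lit 11) (nat_lit 5) (nat_lit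 13) (nat_lit 4) (nat_lit 11) (nat_lit 4) (nat_lit 382) (nat_lit 330) (nat_lit 188)) (XT.lf (nat_lit 0) (nat_lit 383848430957) (nat_lit 152) (nat_lit 126221811001) (nat_lit 0) (nat_lit 160464194394) (nat_lit 11) (nat_lit 5) (nat_lit 13) (nat_lit 4) (nat_lit 11) (nat_lit 4) (nat_lit 383) (nat_lit 330) (nat_lit 187)))) (XT.nd (nat_lit 78) (nat_lit 76) (nat_lit 0) (XT.lf (nat_lit 0) (nat_lit 142357445880) (nat_lit 76) (nat_lit 398973573817) (nat_lit 76) (nat_lit 175589062383) (nat_lit 10) (nat_lit 4) (nat_lit 11) (nat_lit 5) (nat_lit 11) (nat_lit 4) (nat_lit 384) (nat_lit 330) (nat_lit 186)) (XT.nd (nat_lit 78) (nat_lit 76) (nat_lit 0) (XT.lf (nat_lit 0) (nat_lit 436929712403) (nat_lit 76) (nat_lit 276680857670) (nat_lit 76) (nat_lit 53296091726) (nat_lit 10) (nat_lit 4) (nat_lit 11) (nat_lit 5) (nat_lit 11) (nat_lit 4) (nat_lit 385) (nat_lit 330) (nat_lit 185)) (XT.lf (nat_lit 0) (nat_lit 76258526922)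 (nat_lit 152) (nat_lit 67055021410) (nat_lit 76) (nat_lit 677517136916) (nat_lit 9) (nat_lit 5) (nat_lit 11) (nat_lit 5) (nat_lit 10) (nat_lit 4) (nat_lit 386) (nat_lit 330) (nat_lit 184))))))) (XT.nd (nat_lit 43212) (nat_lit 0) (nat_lit 3496) (XT.nd (nat_lit 42744) (nat_lit 0) (nat_lit 6612) (XT.nd (nat_lit 42510) (nat_lit 0) (nat_lit 6992) (XT.nd (nat_lit 78) (nat_lit 0) (nat_lit 0) (XT.lf (nat_lit 0) (nat_lit 217901964259) (nat_lit 152) (nat_lit 655789260936) (nat_lit 0) (nat_lit 5154135874) (nat_lit 8) (nat_lit 5) (nat_lit 10) (nat_lit 4) (nat_lit 8) (nat_lit 4) (nat_lit 387) (nat_lit 330) (nat_lit 183)) (XT.nd (nat_lit 78) (nat_lit 0) (nat_lit 0) (XT.lf (nat_lit 0) (nat_lit 374480314680) (nat_lit 152) (nat_lit 405108430535) (nat_lit 0) (nat_lit 161732293878) (nat_lit 8) (nat_lit 5) (nat_lit 10) (nat_lit 4) (nat_lit 8) (nat_lit 4) (nat_lit 388) (nat_lit 330) (nat_lit 182)) (XT.lf (nat_lit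 0) (nat_lit 543584661122) (nat_lit 152) (nat_lit 134373661725) (nat_lit 0) (nat_lit 330836462156) (nat_lit 8) (nat_lit 5) (nat_lit 10) (nat_lit 4) (nat_lit 8) (nat_lit 4) (nat_lit 389) (nat_lit 330) (nat_lit 181)))) (XT.nd (nat_lit 78) (nat_lit 0) (nat_lit 76) (XT.lf (nat_lit 0) (nat_lit 2195229508) (nat_lit 836) (nat_lit 9980162984) (nat_lit 836) (nat_lit 9980162984) (nat_lit 100) (nat_lit 3) (nat_lit 111) (nat_lit 3) (nat_lit 111) (nat_lit 5) (nat_lit 331) (nat_lit 331) (nat_lit 238)) (XT.nd (nat_lit 78) (nat_lit 0) (nat_lit 0) (XT.lf (nat_lit 0) (nat_lit 4979350127) (nat_lit 760) (nat_lit 32183103010) (nat_lit 836) (nat_lit 8900385136) (nat_lit 101) (nat_lit 5) (nat_lit 111) (nat_lit 5) (nat_lit 112) (nat_lit 5) (nat_lit 332) (nat_lit 331) (nat_lit 237)) (XT.lf (nat_lit 76) (nat_lit 2875133151) (nat_lit 0) (nat_lit 3544028033) (nat_lit 836) (nat_lit 41495357512) (nat_lit 102) (nat_lit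 5) (nat_lit 101) (nat_lit 5) (nat_lit 112) (nat_lit 5) (nat_lit 333) (nat_lit 331) (nat_lit 236))))) (XT.nd (nat_lit 234) (nat_lit 532) (nat_lit 0) (XT.nd (nat_lit 78) (nat_lit 0) (nat_lit 76) (XT.lf (nat_lit 0) (nat_lit 9050776199) (nat_lit 760) (nat_lit 8522940643) (nat_lit 836) (nat_lit 32286790710) (nat_lit 102) (nat_lit 5) (nat_lit 112) (nat_lit 5) (nat_lit 113) (nat_lit 5) (nat_lit 334) (nat_lit 331) (nat_lit 235)) (XT.nd (nat_lit 78) (nat_lit 0) (nat_lit 76) (XT.lf (nat_lit 0) (nat_lit 12749226089) (nat_lit 760) (nat_lit 20365609174) (nat_lit 836) (nat_lit 18804529560) (nat_lit 103) (nat_lit 5) (nat_lit 113) (nat_lit 5) (nat_lit 114) (nat_lit 5) (nat_lit 335) (nat_lit 331) (nat_lit 234)) (XT.lf (nat_lit 0) (nat_lit 17581019869) (nat_lit 760) (nat_lit 32776287512) (nat_lit 836) (nat_lit 3743754146) (nat_lit 104) (nat_lit 5) (nat_lit 114) (nat_lit 5) (nat_lit 115) (nat_lit 5) (nat_lit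 336) (nat_lit 331) (nat_lit 233)))) (XT.nd (nat_lit 78) (nat_lit 684) (nat_lit 0) (XT.lf (nat_lit 76) (nat_lit 10403745999) (nat_lit 0) (nat_lit 13473192961) (nat_lit 836) (nat_lit 32526479849) (nat_lit 105) (nat_lit 5) (nat_lit 104) (nat_lit 5) (nat_lit 115) (nat_lit 5) (nat_lit 337) (nat_lit 331) (nat_lit 232)) (XT.nd (nat_lit 78) (nat_lit 760) (nat_lit 0) (XT.lf (nat_lit 0) (nat_lit 31664857972) (nat_lit 760) (nat_lit 1076926072) (nat_lit 76) (nat_lit 26098767952) (nat_lit 105) (nat_lit 5) (nat_lit 115) (nat_lit 5) (nat_lit 106) (nat_lit 5) (nat_lit 338) (nat_lit 331) (nat_lit 231)) (XT.lf (nat_lit 0) (nat_lit 41181509991) (nat_lit 836) (nat_lit 12773285867) (nat_lit 76) (nat_lit 7462578379) (nat_lit 95) (nat_lit 5) (nat_lit 106) (nat_lit 5) (nat_lit 96) (nat_lit 5) (nat_lit 339) (nat_lit 331) (nat_lit 230)))))) (XT.nd (nat_lit 468) (nat_lit 1368) (nat_lit 0) (XT.nd (nat_lit 234) (nat_lit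 608) (nat_lit 0) (XT.nd (nat_lit 78) (nat_lit 760) (nat_lit 0) (XT.lf (nat_lit 0) (nat_lit 38870562763) (nat_lit 380) (nat_lit 13763875983) (nat_lit 456) (nat_lit 11507159402) (nat_lit 90) (nat_lit 5) (nat_lit 95) (nat_lit 5) (nat_lit 96) (nat_lit 5) (nat_lit 340) (nat_lit 331) (nat_lit 229)) (XT.nd (nat_lit 78) (nat_lit 456) (nat_lit 0) (XT.lf (nat_lit 0) (nat_lit 28471224249) (nat_lit 304) (nat_lit 37662940729) (nat_lit 380) (nat_lit 893069727) (nat_lit 86) (nat_lit 5) (nat_lit 90) (nat_lit 5) (nat_lit 91) (nat_lit 5) (nat_lit 341) (nat_lit 331) (nat_lit 228)) (XT.lf (nat_lit 0) (nat_lit 11278715990) (nat_lit 456) (nat_lit 52741197000) (nat_lit 76) (nat_lit 6063216286) (nat_lit 80) (nat_lit 5) (nat_lit 86) (nat_lit 5) (nat_lit 81) (nat_lit 5) (nat_lit 342) (nat_lit 331) (nat_lit 227)))) (XT.nd (nat_lit 78) (nat_lit 304) (nat_lit 0) (XT.lf (nat_lit 0) (nat_lit 5242305353) (nat_lit 304)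 (nat_lit 20547991710) (nat_lit 380) (nat_lit 47522601620) (nat_lit 76) (nat_lit 5) (nat_lit 80) (nat_lit 5) (nat_lit 81) (nat_lit 5) (nat_lit 343) (nat_lit 331) (nat_lit 226)) (XT.nd (nat_lit 78) (nat_lit 304) (nat_lit 0) (XT.lf (nat_lit 0) (nat_lit 42806310582) (nat_lit 380) (nat_lit 7437476106) (nat_lit 76) (nat_lit 26490089842) (nat_lit 76) (nat_lit 5) (nat_lit 81) (nat_lit 5) (nat_lit 77) (nat_lit 5) (nat_lit 344) (nat_lit 331) (nat_lit 225)) (XT.lf (nat_lit 0) (nat_lit 59604802558) (nat_lit 304) (nat_lit 2853583904) (nat_lit 380) (nat_lit 17906409102) (nat_lit 72) (nat_lit 5) (nat_lit 76) (nat_lit 5) (nat_lit 77) (nat_lit 5) (nat_lit 345) (nat_lit 331) (nat_lit 224))))) (XT.nd (nat_lit 234) (nat_lit 532) (nat_lit 0) (XT.nd (nat_lit 78) (nat_lit 532) (nat_lit 0) (XT.lf (nat_lit 0) (nat_lit 1088666477) (nat_lit 304) (nat_lit 35422620330) (nat_lit 76) (nat_lit 47691728835) (nat_lit 68)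 (nat_lit 5) (nat_lit 72) (nat_lit 5) (nat_lit 69) (nat_lit 5) (nat_lit 346) (nat_lit 331) (nat_lit 223)) (XT.nd (nat_lit 78) (nat_lit 228) (nat_lit 0) (XT.lf (nat_lit 0) (nat_lit 22214075498) (nat_lit 380) (nat_lit 51395322585) (nat_lit 76) (nat_lit 14662315475) (nat_lit 64) (nat_lit 5) (nat_lit 69) (nat_lit 5) (nat_lit 65) (nat_lit 5) (nat_lit 347) (nat_lit 331) (nat_lit 222)) (XT.lf (nat_lit 0) (nat_lit 23719974701) (nat_lit 228) (nat_lit 22920698309) (nat_lit 304) (nat_lit 45944678039) (nat_lit 61) (nat_lit 5) (nat_lit 64) (nat_lit 5) (nat_lit 65) (nat_lit 5) (nat_lit 348) (nat_lit 331) (nat_lit 221)))) (XT.nd (nat_lit 78) (nat_lit 304) (nat_lit 0) (XT.lf (nat_lit 0) (nat_lit 9262815759) (nat_lit 228) (nat_lit 65308114596) (nat_lit 304) (nat_lit 22595673999) (nat_lit 58) (nat_lit 5) (nat_lit 61) (nat_lit 5) (nat_lit 62) (nat_lit 5) (nat_lit 349) (nat_lit 331) (nat_lit 220)) (XT.nd (nat_lit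 78) (nat_lit 228) (nat_lit 0) (XT.lf (nat_lit 0) (nat_lit 4141280436) (nat_lit 304) (nat_lit 6403595704) (nat_lit 76) (nat_lit 91487240457) (nat_lit 57) (nat_lit 5) (nat_lit 61) (nat_lit 5) (nat_lit 58) (nat_lit 5) (nat_lit 350) (nat_lit 331) (nat_lit 219)) (XT.lf (nat_lit 0) (nat_lit 34331153107) (nat_lit 304) (nat_lit 24069711000) (nat_lit 76) (nat_lit 48762205614) (nat_lit 54) (nat_lit 5) (nat_lit 58) (nat_lit 5) (nat_lit 55) (nat_lit 5) (nat_lit 351) (nat_lit 331) (nat_lit 218))))))))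
noncomputable def xc98 : XT := (XT.nd (nat_lit 1794) (nat_lit 760) (nat_lit 0) (XT.nd (nat_lit 858) (nat_lit 1064) (nat_lit 0) (XT.nd (nat_lit 390) (nat_lit 836) (nat_lit 0) (XT.nd (nat_lit 156) (nat_lit 456) (nat_lit 0) (XT.nd (nat_lit 78) (nat_lit 152) (nat_lit 0) (XT.lf (nat_lit 0) (nat_lit 68323761968) (nat_lit 304) (nat_lit 43335254740) (nat_lit 76) (nat_lit 976106137) (nat_lit 51) (nat_lit 5) (nat_lit 55) (nat_lit 5) (nat_lit 52) (nat_lit 5) (nat_lit 352) (nat_lit 331) (nat_lit 217)) (XT.lf (nat_lit 0) (nat_lit 53182816365) (nat_lit 152) (nat_lit 54092664334) (nat_lit 228) (nat_lit 11157475455) (nat_lit 49) (nat_lit 5) (nat_lit 51) (nat_lit 5) (nat_lit 52) (nat_lit 5) (nat_lit 353) (nat_lit 331) (nat_lit 216))) (XT.nd (nat_lit 78) (nat_lit 152) (nat_lit 0) (XT.lf (nat_lit 0) (nat_lit 25326548860) (nat_lit 304) (nat_lit 89728898881) (nat_lit 76) (nat_lit 9546590427) (nat_lit 45) (nat_lit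 5) (nat_lit 49) (nat_lit 5) (nat_lit 46) (nat_lit 5) (nat_lit 354) (nat_lit 331) (nat_lit 215)) (XT.nd (nat_lit 78) (nat_lit 0) (nat_lit 0) (XT.lf (nat_lit 0) (nat_lit 13437524842) (nat_lit 152) (nat_lit 53181828350) (nat_lit 228) (nat_lit 64522100806) (nat_lit 43) (nat_lit 5) (nat_lit 45) (nat_lit 5) (nat_lit 46) (nat_lit 5) (nat_lit 355) (nat_lit 331) (nat_lit 214)) (XT.lf (nat_lit 0) (nat_lit 113015857537) (nat_lit 228) (nat_lit 10305203432) (nat_lit 76) (nat_lit 14792949093) (nat_lit 43) (nat_lit 5) (nat_lit 46) (nat_lit 5) (nat_lit 44) (nat_lit 5) (nat_lit 356) (nat_lit 331) (nat_lit 213))))) (XT.nd (nat_lit 234) (nat_lit 304) (nat_lit 0) (XT.nd (nat_lit 78) (nat_lit 304) (nat_lit 0) (XT.lf (nat_lit 0) (nat_lit 19548236259) (nat_lit 228) (nat_lit 37579002146) (nat_lit 76) (nat_lit 88372088274) (nat_lit 40) (nat_lit 5) (nat_lit 43) (nat_lit 5) (nat_lit 41) (nat_lit 5) (nat_lit 357) (nat_lit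 331) (nat_lit 212)) (XT.nd (nat_lit 78) (nat_lit 152) (nat_lit 0) (XT.lf (nat_lit 0) (nat_lit 68659696834) (nat_lit 228) (nat_lit 68843775336) (nat_lit 76) (nat_lit 15862790926) (nat_lit 38) (nat_lit 5) (nat_lit 41) (nat_lit 5) (nat_lit 39) (nat_lit 5) (nat_lit 358) (nat_lit 331) (nat_lit 211)) (XT.lf (nat_lit 0) (nat_lit 56744454073) (nat_lit 152) (nat_lit 67469002311) (nat_lit 228) (nat_lit 37523429503) (nat_lit 36) (nat_lit 5) (nat_lit 38) (nat_lit 5) (nat_lit 39) (nat_lit 5) (nat_lit 359) (nat_lit 331) (nat_lit 210)))) (XT.nd (nat_lit 78) (nat_lit 152) (nat_lit 0) (XT.lf (nat_lit 0) (nat_lit 14764696766) (nat_lit 152) (nat_lit 146164228995) (nat_lit 76) (nat_lit 9749729744) (nat_lit 34) (nat_lit 5) (nat_lit 36) (nat_lit 5) (nat_lit 35) (nat_lit 5) (nat_lit 360) (nat_lit 331) (nat_lit 209)) (XT.nd (nat_lit 78) (nat_lit 152) (nat_lit 0) (XT.lf (nat_lit 0) (nat_lit 72934264893) (nat_lit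 152) (nat_lit 13915431432) (nat_lit 76) (nat_lit 93304662424) (nat_lit 34) (nat_lit 5) (nat_lit 36) (nat_lit 5) (nat_lit 35) (nat_lit 5) (nat_lit 361) (nat_lit 331) (nat_lit 208)) (XT.lf (nat_lit 0) (nat_lit 133173961951) (nat_lit 152) (nat_lit 4661656713) (nat_lit 228) (nat_lit 52448589008) (nat_lit 32) (nat_lit 5) (nat_lit 34) (nat_lit 5) (nat_lit 35) (nat_lit 5) (nat_lit 362) (nat_lit 331) (nat_lit 207)))))) (XT.nd (nat_lit 468) (nat_lit 380) (nat_lit 0) (XT.nd (nat_lit 234) (nat_lit 380) (nat_lit 0) (XT.nd (nat_lit 78) (nat_lit 152) (nat_lit 0) (XT.lf (nat_lit 0) (nat_lit 9549414832) (nat_lit 152) (nat_lit 108255883704) (nat_lit 76) (nat_lit 83260944000) (nat_lit 30) (nat_lit 5) (nat_lit 32) (nat_lit 5) (nat_lit 31) (nat_lit 5) (nat_lit 363) (nat_lit 331) (nat_lit 206)) (XT.nd (nat_lit 78) (nat_lit 0) (nat_lit 0) (XT.lf (nat_lit 0) (nat_lit 44547788914) (nat_lit 152) (nat_lit 31930815321)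 (nat_lit 228) (nat_lit 136098801242) (nat_lit 28) (nat_lit 5) (nat_lit 30) (nat_lit 5) (nat_lit 31) (nat_lit 5) (nat_lit 364) (nat_lit 331) (nat_lit 205)) (XT.lf (nat_lit 0) (nat_lit 151627365696) (nat_lit 228) (nat_lit 12455612503) (nat_lit 76) (nat_lit 60783221733) (nat_lit 28) (nat_lit 5) (nat_lit 31) (nat_lit 5) (nat_lit 29) (nat_lit 4) (nat_lit 365) (nat_lit 331) (nat_lit 204)))) (XT.nd (nat_lit 78) (nat_lit 304) (nat_lit 0) (XT.lf (nat_lit 0) (nat_lit 160150234116) (nat_lit 76) (nat_lit 75675770376) (nat_lit 152) (nat_lit 2160194929) (nat_lit 27) (nat_lit 5) (nat_lit 28) (nat_lit 5) (nat_lit 29) (nat_lit 4) (nat_lit 366) (nat_lit 331) (nat_lit 203)) (XT.nd (nat_lit 78) (nat_lit 76) (nat_lit 0) (XT.lf (nat_lit 0) (nat_lit 74304513882) (nat_lit 228) (nat_lit 155575115163) (nat_lit 76) (nat_lit 22113550850) (nat_lit 24) (nat_lit 5) (nat_lit 27) (nat_lit 5) (nat_lit 25) (nat_lit 4) (nat_lit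 367) (nat_lit 331) (nat_lit 202)) (XT.lf (nat_lit 0) (nat_lit 19631223395) (nat_lit 76) (nat_lit 140140339948) (nat_lit 152) (nat_lit 107199342723) (nat_lit 23) (nat_lit 5) (nat_lit 24) (nat_lit 5) (nat_lit 25) (nat_lit 4) (nat_lit 368) (nat_lit 331) (nat_lit 201))))) (XT.nd (nat_lit 234) (nat_lit 152) (nat_lit 0) (XT.nd (nat_lit 78) (nat_lit 228) (nat_lit 0) (XT.lf (nat_lit 0) (nat_lit 214408264280) (nat_lit 76) (nat_lit 40376992375) (nat_lit 152) (nat_lit 28226129908) (nat_lit 23) (nat_lit 5) (nat_lit 24) (nat_lit 5) (nat_lit 25) (nat_lit 4) (nat_lit 369) (nat_lit 331) (nat_lit 200)) (XT.nd (nat_lit 78) (nat_lit 76) (nat_lit 0) (XT.lf (nat_lit 0) (nat_lit 58329449923) (nat_lit 152) (nat_lit 173665071412) (nat_lit 76) (nat_lit 68141489961) (nat_lit 21) (nat_lit 5) (nat_lit 23) (nat_lit 5) (nat_lit 22) (nat_lit 4) (nat_lit 370) (nat_lit 331) (nat_lit 199)) (XT.lf (nat_lit 0) (nat_lit 20508673177)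 (nat_lit 76) (nat_lit 132540086955) (nat_lit 152) (nat_lit 165447300385) (nat_lit 20) (nat_lit 5) (nat_lit 21) (nat_lit 5) (nat_lit 22) (nat_lit 4) (nat_lit 371) (nat_lit 331) (nat_lit 198)))) (XT.nd (nat_lit 78) (nat_lit 152) (nat_lit 0) (XT.lf (nat_lit 0) (nat_lit 236416659256) (nat_lit 76) (nat_lit 21953449703) (nat_lit 152) (nat_lit 79803580196) (nat_lit 20) (nat_lit 5) (nat_lit 21) (nat_lit 5) (nat_lit 22) (nat_lit 4) (nat_lit 372) (nat_lit 331) (nat_lit 197)) (XT.nd (nat_lit 78) (nat_lit 0) (nat_lit 0) (XT.lf (nat_lit 0) (nat_lit 15612829702) (nat_lit 152) (nat_lit 247272542371) (nat_lit 76) (nat_lit 96363878374) (nat_lit 18) (nat_lit 5) (nat_lit 20) (nat_lit 5) (nat_lit 19) (nat_lit 4) (nat_lit 373) (nat_lit 331) (nat_lit 196)) (XT.lf (nat_lit 0) (nat_lit 118075195656) (nat_lit 152) (nat_lit 37225328245) (nat_lit 76) (nat_lit 226534491513) (nat_lit 18) (nat_lit 5) (nat_lit 20) (nat_lit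 5) (nat_lit 19) (nat_lit 4) (nat_lit 374) (nat_lit 331) (nat_lit 195))))))) (XT.nd (nat_lit 936) (nat_lit 152) (nat_lit 0) (XT.nd (nat_lit 468) (nat_lit 228) (nat_lit 0) (XT.nd (nat_lit 234) (nat_lit 152) (nat_lit 0) (XT.nd (nat_lit 78) (nat_lit 152) (nat_lit 0) (XT.lf (nat_lit 0) (nat_lit 195894504014) (nat_lit 76) (nat_lit 35897970286) (nat_lit 152) (nat_lit 174282271236) (nat_lit 17) (nat_lit 5) (nat_lit 18) (nat_lit 5) (nat_lit 19) (nat_lit 4) (nat_lit 375) (nat_lit 331) (nat_lit 194)) (XT.nd (nat_lit 78) (nat_lit 76) (nat_lit 0) (XT.lf (nat_lit 0) (nat_lit 15813641591) (nat_lit 76) (nat_lit 341151816622) (nat_lit 76) (nat_lit 75170279825) (nat_lit 16) (nat_lit 4) (nat_lit 17) (nat_lit 5) (nat_lit 17) (nat_lit 4) (nat_lit 376) (nat_lit 331) (nat_lit 193)) (XT.lf (nat_lit 0) (nat_lit 35176634450) (nat_lit 152) (nat_lit 193869917067) (nat_lit 76) (nat_lit 230993877803) (nat_lit 15) (nat_lit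 5) (nat_lit 17) (nat_lit 5) (nat_lit 16) (nat_lit 4) (nat_lit 377) (nat_lit 331) (nat_lit 192)))) (XT.nd (nat_lit 78) (nat_lit 76) (nat_lit 0) (XT.lf (nat_lit 0) (nat_lit 46601585258) (nat_lit 76) (nat_lit 105878438264) (nat_lit 152) (nat_lit 337597741393) (nat_lit 14) (nat_lit 5) (nat_lit 15) (nat_lit 5) (nat_lit 16) (nat_lit 4) (nat_lit 378) (nat_lit 331) (nat_lit 191)) (XT.nd (nat_lit 78) (nat_lit 76) (nat_lit 0) (XT.lf (nat_lit 0) (nat_lit 283023462319) (nat_lit 152) (nat_lit 209595397931) (nat_lit 0) (nat_lit 29706438268) (nat_lit 14) (nat_lit 5) (nat_lit 16) (nat_lit 4) (nat_lit 14) (nat_lit 4) (nat_lit 379) (nat_lit 331) (nat_lit 190)) (XT.lf (nat_lit 0) (nat_lit 42572323950) (nat_lit 76) (nat_lit 383887610331) (nat_lit 76) (nat_lit 130570222708) (nat_lit 13) (nat_lit 4) (nat_lit 14) (nat_lit 5) (nat_lit 14) (nat_lit 4) (nat_lit 380) (nat_lit 331) (nat_lit 189))))) (XT.nd (nat_lit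 234) (nat_lit 76) (nat_lit 0) (XT.nd (nat_lit 78) (nat_lit 152) (nat_lit 0) (XT.lf (nat_lit 0) (nat_lit 322397283604) (nat_lit 76) (nat_lit 262624657023) (nat_lit 76) (nat_lit 9306932760) (nat_lit 13) (nat_lit 4) (nat_lit 14) (nat_lit 5) (nat_lit 14) (nat_lit 4) (nat_lit 381) (nat_lit 331) (nat_lit 188)) (XT.nd (nat_lit 78) (nat_lit 76) (nat_lit 0) (XT.lf (nat_lit 0) (nat_lit 117763246669) (nat_lit 152) (nat_lit 11903380293) (nat_lit 76) (nat_lit 504849908362) (nat_lit 12) (nat_lit 5) (nat_lit 14) (nat_lit 5) (nat_lit 13) (nat_lit 4) (nat_lit 382) (nat_lit 331) (nat_lit 187)) (XT.lf (nat_lit 0) (nat_lit 259303062161) (nat_lit 152) (nat_lit 400329499981) (nat_lit 0) (nat_lit 18047514941) (nat_lit 11) (nat_lit 5) (nat_lit 13) (nat_lit 4) (nat_lit 11) (nat_lit 4) (nat_lit 383) (nat_lit 331) (nat_lit 186)))) (XT.nd (nat_lit 78) (nat_lit 76) (nat_lit 0) (XT.lf (nat_lit 0) (nat_lit 414562889955)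 (nat_lit 152) (nat_lit 136306882707) (nat_lit 0) (nat_lit 173307088224) (nat_lit 11) (nat_lit 5) (nat_lit 13) (nat_lit 4) (nat_lit 11) (nat_lit 4) (nat_lit 384) (nat_lit 331) (nat_lit 185)) (XT.nd (nat_lit 78) (nat_lit 0) (nat_lit 0) (XT.lf (nat_lit 0) (nat_lit 153758163964) (nat_lit 76) (nat_lit 430885623353) (nat_lit 76) (nat_lit 189629585965) (nat_lit 10) (nat_lit 4) (nat_lit 11) (nat_lit 5) (nat_lit 11) (nat_lit 4) (nat_lit 385) (nat_lit 331) (nat_lit 184)) (XT.lf (nat_lit 0) (nat_lit 471895313851) (nat_lit 76) (nat_lit 298809922238) (nat_lit 76) (nat_lit 57553666649) (nat_lit 10) (nat_lit 4) (nat_lit 11) (nat_lit 5) (nat_lit 11) (nat_lit 4) (nat_lit 386) (nat_lit 331) (nat_lit 183)))))) (XT.nd (nat_lit 42822) (nat_lit 0) (nat_lit 6612) (XT.nd (nat_lit 42588) (nat_lit 0) (nat_lit 6992) (XT.nd (nat_lit 78) (nat_lit 76) (nat_lit 0) (XT.lf (nat_lit 0) (nat_lit 82364687576) (nat_lit 152)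 (nat_lit 72408848096) (nat_lit 76) (nat_lit 731723329604) (nat_lit 9) (nat_lit 5) (nat_lit 11) (nat_lit 5) (nat_lit 10) (nat_lit 4) (nat_lit 387) (nat_lit 331) (nat_lit 182)) (XT.nd (nat_lit 78) (nat_lit 0) (nat_lit 0) (XT.lf (nat_lit 0) (nat_lit 235339428280) (nat_lit 152) (nat_lit 708242100293) (nat_lit 0) (nat_lit 5571195233) (nat_lit 8) (nat_lit 5) (nat_lit 10) (nat_lit 4) (nat_lit 8) (nat_lit 4) (nat_lit 388) (nat_lit 331) (nat_lit 181)) (XT.lf (nat_lit 0) (nat_lit 404443653634) (nat_lit 152) (nat_lit 437507566536) (nat_lit 0) (nat_lit 174675255619) (nat_lit 8) (nat_lit 5) (nat_lit 10) (nat_lit 4) (nat_lit 8) (nat_lit 4) (nat_lit 389) (nat_lit 331) (nat_lit 180)))) (XT.nd (nat_lit 78) (nat_lit 0) (nat_lit 76) (XT.lf (nat_lit 0) (nat_lit 2420292648) (nat_lit 836) (nat_lit 10752591416) (nat_lit 836) (nat_lit 10752591416) (nat_lit 100) (nat_lit 3) (nat_lit 111) (nat_lit 3) (nat_lit 111)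 (nat_lit 5) (nat_lit 332) (nat_lit 332) (nat_lit 236)) (XT.nd (nat_lit 78) (nat_lit 0) (nat_lit 0) (XT.lf (nat_lit 0) (nat_lit 5469373096) (nat_lit 760) (nat_lit 34702661301) (nat_lit 836) (nat_lit 9571150533) (nat_lit 101) (nat_lit 5) (nat_lit 111) (nat_lit 5) (nat_lit 112) (nat_lit 5) (nat_lit 333) (nat_lit 332) (nat_lit 235)) (XT.lf (nat_lit 76) (nat_lit 3157839611) (nat_lit 0) (nat_lit 3860561418) (nat_lit 836) (nat_lit 44724904317) (nat_lit 102) (nat_lit 5) (nat_lit 101) (nat_lit 5) (nat_lit 112) (nat_lit 5) (nat_lit 334) (nat_lit 332) (nat_lit 234))))) (XT.nd (nat_lit 234) (nat_lit 532) (nat_lit 0) (XT.nd (nat_lit 78) (nat_lit 0) (nat_lit 76) (XT.lf (nat_lit 0) (nat_lit 9853719364) (nat_lit 760) (nat_lit 9151455479) (nat_lit 836) (nat_lit 34840146393) (nat_lit 102) (nat_lit 5) (nat_lit 112) (nat_lit 5) (nat_lit 113) (nat_lit 5) (nat_lit 335) (nat_lit 332) (nat_lit 233)) (XT.nd (nat_lit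 78) (nat_lit 0) (nat_lit 76) (XT.lf (nat_lit 0) (nat_lit 13842642047) (nat_lit 760) (nat_lit 21939729828) (nat_lit 836) (nat_lit 20286791511) (nat_lit 103) (nat_lit 5) (nat_lit 113) (nat_lit 5) (nat_lit 114) (nat_lit 5) (nat_lit 336) (nat_lit 332) (nat_lit 232)) (XT.lf (nat_lit 0) (nat_lit 19056108050) (nat_lit 760) (nat_lit 35341892494) (nat_lit 836) (nat_lit 4027644529) (nat_lit 104) (nat_lit 5) (nat_lit 114) (nat_lit 5) (nat_lit 115) (nat_lit 5) (nat_lit 337) (nat_lit 332) (nat_lit 231)))) (XT.nd (nat_lit 78) (nat_lit 684) (nat_lit 0) (XT.lf (nat_lit 76) (nat_lit 11290088363) (nat_lit 0) (nat_lit 14561374094) (nat_lit 836) (nat_lit 35060945656) (nat_lit 105) (nat_lit 5) (nat_lit 104) (nat_lit 5) (nat_lit 115) (nat_lit 5) (nat_lit 338) (nat_lit 332) (nat_lit 230)) (XT.nd (nat_lit 78) (nat_lit 760) (nat_lit 0) (XT.lf (nat_lit 0) (nat_lit 34257497689) (nat_lit 760) (nat_lit 1109850437) (nat_lit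 76) (nat_lit 28177414565) (nat_lit 105) (nat_lit 5) (nat_lit 115) (nat_lit 5) (nat_lit 106) (nat_lit 5) (nat_lit 339) (nat_lit 332) (nat_lit 229)) (XT.lf (nat_lit 0) (nat_lit 44531796128) (nat_lit 836) (nat_lit 13741306898) (nat_lit 76) (nat_lit 8054816484) (nat_lit 95) (nat_lit 5) (nat_lit 106) (nat_lit 5) (nat_lit 96) (nat_lit 5) (nat_lit 340) (nat_lit 332) (nat_lit 228))))))))
noncomputable def xc99 : XT := (XT.nd (nat_lit 1794) (nat_lit 1672) (nat_lit 0) (XT.nd (nat_lit 858) (nat_lit 1900) (nat_lit 0) (XT.nd (nat_lit 390) (nat_lit 1444) (nat_lit 0) (XT.nd (nat_lit 156) (nat_lit 760) (nat_lit 0) (XT.nd (nat_lit 78) (nat_lit 304) (nat_lit 0) (XT.lf (nat_lit 0) (nat_lit 42031709723) (nat_lit 380) (nat_lit 14865922786) (nat_lit 456) (nat_lit 12372619338) (nat_lit 90) (nat_lit 5) (nat_lit 95) (nat_lit 5) (nat_lit 96) (nat_lit 5) (nat_lit 341) (nat_lit 332) (nat_lit 227)) (XT.lf (nat_lit 0)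 (nat_lit 30800757843) (nat_lit 304) (nat_lit 40673490408) (nat_lit 380) (nat_lit 912649374) (nat_lit 86) (nat_lit 5) (nat_lit 90) (nat_lit 5) (nat_lit 91) (nat_lit 5) (nat_lit 342) (nat_lit 332) (nat_lit 226))) (XT.nd (nat_lit 78) (nat_lit 304) (nat_lit 0) (XT.lf (nat_lit 0) (nat_lit 12228361152) (nat_lit 456) (nat_lit 56906932246) (nat_lit 76) (nat_lit 6552076187) (nat_lit 80) (nat_lit 5) (nat_lit 86) (nat_lit 5) (nat_lit 81) (nat_lit 5) (nat_lit 343) (nat_lit 332) (nat_lit 225)) (XT.nd (nat_lit 78) (nat_lit 0) (nat_lit 0) (XT.lf (nat_lit 0) (nat_lit 5712922620) (nat_lit 304) (nat_lit 22185238728) (nat_lit 380) (nat_lit 51277497723) (nat_lit 76) (nat_lit 5) (nat_lit 80) (nat_lit 5) (nat_lit 81) (nat_lit 5) (nat_lit 344) (nat_lit 332) (nat_lit 224)) (XT.lf (nat_lit 0) (nat_lit 46272244543) (nat_lit 380) (nat_lit 7983028434) (nat_lit 76) (nat_lit 28615205663) (nat_lit 76) (nat_lit 5) (nat_lit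 81) (nat_lit 5) (nat_lit 77) (nat_lit 5) (nat_lit 345) (nat_lit 332) (nat_lit 223))))) (XT.nd (nat_lit 234) (nat_lit 532) (nat_lit 0) (XT.nd (nat_lit 78) (nat_lit 608) (nat_lit 0) (XT.lf (nat_lit 0) (nat_lit 64420483670) (nat_lit 304) (nat_lit 3073672438) (nat_lit 380) (nat_lit 19297834316) (nat_lit 72) (nat_lit 5) (nat_lit 76) (nat_lit 5) (nat_lit 77) (nat_lit 5) (nat_lit 346) (nat_lit 332) (nat_lit 222)) (XT.nd (nat_lit 78) (nat_lit 304) (nat_lit 0) (XT.lf (nat_lit 0) (nat_lit 1213452773) (nat_lit 304) (nat_lit 38208132446) (nat_lit 76) (nat_lit 51515757178) (nat_lit 68) (nat_lit 5) (nat_lit 72) (nat_lit 5) (nat_lit 69) (nat_lit 5) (nat_lit 347) (nat_lit 332) (nat_lit 221)) (XT.lf (nat_lit 0) (nat_lit 24026988859) (nat_lit 380) (nat_lit 55459106212) (nat_lit 76) (nat_lit 15845538570) (nat_lit 64) (nat_lit 5) (nat_lit 69) (nat_lit 5) (nat_lit 65) (nat_lit 5) (nat_lit 348) (nat_lit 332)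 (nat_lit 220)))) (XT.nd (nat_lit 78) (nat_lit 304) (nat_lit 0) (XT.lf (nat_lit 0) (nat_lit 25663335695) (nat_lit 228) (nat_lit 24742442053) (nat_lit 304) (nat_lit 49584683250) (nat_lit 61) (nat_lit 5) (nat_lit 64) (nat_lit 5) (nat_lit 65) (nat_lit 5) (nat_lit 349) (nat_lit 332) (nat_lit 219)) (XT.nd (nat_lit 78) (nat_lit 76) (nat_lit 0) (XT.lf (nat_lit 0) (nat_lit 10049080800) (nat_lit 228) (nat_lit 70519745931) (nat_lit 304) (nat_lit 24369471179) (nat_lit 58) (nat_lit 5) (nat_lit 61) (nat_lit 5) (nat_lit 62) (nat_lit 5) (nat_lit 350) (nat_lit 332) (nat_lit 218)) (XT.lf (nat_lit 0) (nat_lit 4502928346) (nat_lit 304) (nat_lit 6872970421) (nat_lit 76) (nat_lit 98817248989) (nat_lit 57) (nat_lit 5) (nat_lit 61) (nat_lit 5) (nat_lit 58) (nat_lit 5) (nat_lit 351) (nat_lit 332) (nat_lit 217)))))) (XT.nd (nat_lit 468) (nat_lit 836) (nat_lit 0) (XT.nd (nat_lit 234) (nat_lit 456) (nat_lit 0) (XT.nd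 (nat_lit 78) (nat_lit 380) (nat_lit 0) (XT.lf (nat_lit 0) (nat_lit 37106576077) (nat_lit 304) (nat_lit 25952975796) (nat_lit 76) (nat_lit 52675097542) (nat_lit 54) (nat_lit 5) (nat_lit 58) (nat_lit 5) (nat_lit 55) (nat_lit 5) (nat_lit 352) (nat_lit 332) (nat_lit 216)) (XT.nd (nat_lit 78) (nat_lit 152) (nat_lit 0) (XT.lf (nat_lit 0) (nat_lit 73817286336) (nat_lit 304) (nat_lit 46760416777) (nat_lit 76) (nat_lit 1066830476) (nat_lit 51) (nat_lit 5) (nat_lit 55) (nat_lit 5) (nat_lit 52) (nat_lit 5) (nat_lit 353) (nat_lit 332) (nat_lit 215)) (XT.lf (nat_lit 0) (nat_lit 57477289596) (nat_lit 152) (nat_lit 58406428928) (nat_lit 228) (nat_lit 12022547567) (nat_lit 49) (nat_lit 5) (nat_lit 51) (nat_lit 5) (nat_lit 52) (nat_lit 5) (nat_lit 354) (nat_lit 332) (nat_lit 214)))) (XT.nd (nat_lit 78) (nat_lit 152) (nat_lit 0) (XT.lf (nat_lit 0) (nat_lit 27378166294) (nat_lit 304) (nat_lit 96867171980)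 (nat_lit 76) (nat_lit 10323573644) (nat_lit 45) (nat_lit 5) (nat_lit 49) (nat_lit 5) (nat_lit 46) (nat_lit 5) (nat_lit 355) (nat_lit 332) (nat_lit 213)) (XT.nd (nat_lit 78) (nat_lit 0) (nat_lit 0) (XT.lf (nat_lit 0) (nat_lit 14550825603) (nat_lit 152) (nat_lit 57422278912) (nat_lit 228) (nat_lit 69658442107) (nat_lit 43) (nat_lit 5) (nat_lit 45) (nat_lit 5) (nat_lit 46) (nat_lit 5) (nat_lit 356) (nat_lit 332) (nat_lit 212)) (XT.lf (nat_lit 0) (nat_lit 122079740158) (nat_lit 228) (nat_lit 11093228599) (nat_lit 76) (nat_lit 15989018869) (nat_lit 43) (nat_lit 5) (nat_lit 46) (nat_lit 5) (nat_lit 44) (nat_lit 5) (nat_lit 357) (nat_lit 332) (nat_lit 211))))) (XT.nd (nat_lit 234) (nat_lit 304) (nat_lit 0) (XT.nd (nat_lit 78) (nat_lit 304) (nat_lit 0) (XT.lf (nat_lit 0) (nat_lit 21133940951) (nat_lit 228) (nat_lit 40549779344) (nat_lit 76) (nat_lit 95454449170) (nat_lit 40) (nat_lit 5) (nat_lit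 43) (nat_lit 5) (nat_lit 41) (nat_lit 5) (nat_lit 358) (nat_lit 332) (nat_lit 210)) (XT.nd (nat_lit 78) (nat_lit 152) (nat_lit 0) (XT.lf (nat_lit 0) (nat_lit 74173437687) (nat_lit 228) (nat_lit 74316437597) (nat_lit 76) (nat_lit 17144630365) (nat_lit 38) (nat_lit 5) (nat_lit 41) (nat_lit 5) (nat_lit 39) (nat_lit 5) (nat_lit 359) (nat_lit 332) (nat_lit 209)) (XT.lf (nat_lit 0) (nat_lit 61317336071) (nat_lit 152) (nat_lit 72853129266) (nat_lit 228) (nat_lit 40504365318) (nat_lit 36) (nat_lit 5) (nat_lit 38) (nat_lit 5) (nat_lit 39) (nat_lit 5) (nat_lit 360) (nat_lit 332) (nat_lit 208)))) (XT.nd (nat_lit 78) (nat_lit 152) (nat_lit 0) (XT.lf (nat_lit 0) (nat_lit 15965354269) (nat_lit 152) (nat_lit 157824075060) (nat_lit 76) (nat_lit 10542536169) (nat_lit 34) (nat_lit 5) (nat_lit 36) (nat_lit 5) (nat_lit 35) (nat_lit 5) (nat_lit 361) (nat_lit 332) (nat_lit 207)) (XT.nd (nat_lit 78) (nat_lit 152)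 (nat_lit 0) (XT.lf (nat_lit 0) (nat_lit 78787044753) (nat_lit 152) (nat_lit 14997839784) (nat_lit 76) (nat_lit 100780913237) (nat_lit 34) (nat_lit 5) (nat_lit 36) (nat_lit 5) (nat_lit 35) (nat_lit 5) (nat_lit 362) (nat_lit 332) (nat_lit 206)) (XT.lf (nat_lit 0) (nat_lit 143857365402) (nat_lit 152) (nat_lit 5022265593) (nat_lit 228) (nat_lit 56626447981) (nat_lit 32) (nat_lit 5) (nat_lit 34) (nat_lit 5) (nat_lit 35) (nat_lit 5) (nat_lit 363) (nat_lit 332) (nat_lit 205))))))) (XT.nd (nat_lit 936) (nat_lit 608) (nat_lit 0) (XT.nd (nat_lit 468) (nat_lit 380) (nat_lit 0) (XT.nd (nat_lit 234) (nat_lit 380) (nat_lit 0) (XT.nd (nat_lit 78) (nat_lit 152) (nat_lit 0) (XT.lf (nat_lit 0) (nat_lit 10330165344) (nat_lit 152) (nat_lit 116886943977) (nat_lit 76) (nat_lit 89933586431) (nat_lit 30) (nat_lit 5) (nat_lit 32) (nat_lit 5) (nat_lit 31) (nat_lit 5) (nat_lit 364) (nat_lit 332) (nat_lit 204)) (XT.nd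 (nat_lit 78) (nat_lit 0) (nat_lit 0) (XT.lf (nat_lit 0) (nat_lit 48139744309) (nat_lit 152) (nat_lit 34473140568) (nat_lit 228) (nat_lit 146969907571) (nat_lit 28) (nat_lit 5) (nat_lit 30) (nat_lit 5) (nat_lit 31) (nat_lit 5) (nat_lit 365) (nat_lit 332) (nat_lit 203)) (XT.lf (nat_lit 0) (nat_lit 163772538138) (nat_lit 228) (nat_lit 13425442789) (nat_lit 76) (nat_lit 65656760420) (nat_lit 28) (nat_lit 5) (nat_lit 31) (nat_lit 5) (nat_lit 29) (nat_lit 4) (nat_lit 366) (nat_lit 332) (nat_lit 202)))) (XT.nd (nat_lit 78) (nat_lit 304) (nat_lit 0) (XT.lf (nat_lit 0) (nat_lit 172987714743) (nat_lit 76) (nat_lit 81718640962) (nat_lit 152) (nat_lit 2318021110) (nat_lit 27) (nat_lit 5) (nat_lit 28) (nat_lit 5) (nat_lit 29) (nat_lit 4) (nat_lit 367) (nat_lit 332) (nat_lit 201)) (XT.nd (nat_lit 78) (nat_lit 76) (nat_lit 0) (XT.lf (nat_lit 0) (nat_lit 80262869038) (nat_lit 228) (nat_lit 167995781689)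 (nat_lit 76) (nat_lit 23893279432) (nat_lit 24) (nat_lit 5) (nat_lit 27) (nat_lit 5) (nat_lit 25) (nat_lit 4) (nat_lit 368) (nat_lit 332) (nat_lit 200)) (XT.lf (nat_lit 0) (nat_lit 21225962591) (nat_lit 76) (nat_lit 151340661744) (nat_lit 152) (nat_lit 115761283323) (nat_lit 23) (nat_lit 5) (nat_lit 24) (nat_lit 5) (nat_lit 25) (nat_lit 4) (nat_lit 369) (nat_lit 332) (nat_lit 199))))) (XT.nd (nat_lit 234) (nat_lit 152) (nat_lit 0) (XT.nd (nat_lit 78) (nat_lit 228) (nat_lit 0) (XT.lf (nat_lit 0) (nat_lit 231583371094) (nat_lit 76) (nat_lit 43597054172) (nat_lit 152) (nat_lit 30471251025) (nat_lit 23) (nat_lit 5) (nat_lit 24) (nat_lit 5) (nat_lit 25) (nat_lit 4) (nat_lit 370) (nat_lit 332) (nat_lit 198)) (XT.nd (nat_lit 78) (nat_lit 76) (nat_lit 0) (XT.lf (nat_lit 0) (nat_lit 63007926264) (nat_lit 152) (nat_lit 187535959416) (nat_lit 76) (nat_lit 73602397157) (nat_lit 21) (nat_lit 5) (nat_lit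 23) (nat_lit 5) (nat_lit 22) (nat_lit 4) (nat_lit 371) (nat_lit 332) (nat_lit 197)) (XT.lf (nat_lit 0) (nat_lit 22170714840) (nat_lit 76) (nat_lit 143133501946) (nat_lit 152) (nat_lit 178670947683) (nat_lit 20) (nat_lit 5) (nat_lit 21) (nat_lit 5) (nat_lit 22) (nat_lit 4) (nat_lit 372) (nat_lit 332) (nat_lit 196)))) (XT.nd (nat_lit 78) (nat_lit 152) (nat_lit 0) (XT.lf (nat_lit 0) (nat_lit 255349758486) (nat_lit 76) (nat_lit 23700659045) (nat_lit 152) (nat_lit 86176628896) (nat_lit 20) (nat_lit 5) (nat_lit 21) (nat_lit 5) (nat_lit 22) (nat_lit 4) (nat_lit 373) (nat_lit 332) (nat_lit 195)) (XT.nd (nat_lit 78) (nat_lit 0) (nat_lit 0) (XT.lf (nat_lit 0) (nat_lit 16872367608) (nat_lit 152) (nat_lit 267034709129) (nat_lit 76) (nat_lit 104081585640) (nat_lit 18) (nat_lit 5) (nat_lit 20) (nat_lit 5) (nat_lit 19) (nat_lit 4) (nat_lit 374) (nat_lit 332) (nat_lit 194)) (XT.lf (nat_lit 0) (nat_lit 127530944206)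 (nat_lit 152) (nat_lit 40185172438) (nat_lit 76) (nat_lit 244665211016) (nat_lit 18) (nat_lit 5) (nat_lit 20) (nat_lit 5) (nat_lit 19) (nat_lit 4) (nat_lit 375) (nat_lit 332) (nat_lit 193)))))) (XT.nd (nat_lit 468) (nat_lit 228) (nat_lit 0) (XT.nd (nat_lit 234) (nat_lit 152) (nat_lit 0) (XT.nd (nat_lit 78) (nat_lit 152) (nat_lit 0) (XT.lf (nat_lit 0) (nat_lit 211583456231) (nat_lit 76) (nat_lit 38761699492) (nat_lit 152) (nat_lit 188215103114) (nat_lit 17) (nat_lit 5) (nat_lit 18) (nat_lit 5) (nat_lit 19) (nat_lit 4) (nat_lit 376) (nat_lit 332) (nat_lit 192)) (XT.nd (nat_lit 78) (nat_lit 76) (nat_lit 0) (XT.lf (nat_lit 0) (nat_lit 17095693966) (nat_lit 76) (nat_lit 368435978745) (nat_lit 76) (nat_lit 81174473471) (nat_lit 16) (nat_lit 4) (nat_lit 17) (nat_lit 5) (nat_lit 17) (nat_lit 4) (nat_lit 377) (nat_lit 332) (nat_lit 191)) (XT.lf (nat_lit 0) (nat_lit 37999216097) (nat_lit 152) (nat_lit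 209363524564) (nat_lit 76) (nat_lit 249480498691) (nat_lit 15) (nat_lit 5) (nat_lit 17) (nat_lit 5) (nat_lit 16) (nat_lit 4) (nat_lit 378) (nat_lit 332) (nat_lit 190)))) (XT.nd (nat_lit 78) (nat_lit 76) (nat_lit 0) (XT.lf (nat_lit 0) (nat_lit 50345003221) (nat_lit 76) (nat_lit 114341485820) (nat_lit 152) (nat_lit 364597092247) (nat_lit 14) (nat_lit 5) (nat_lit 15) (nat_lit 5) (nat_lit 16) (nat_lit 4) (nat_lit 379) (nat_lit 332) (nat_lit 189)) (XT.nd (nat_lit 78) (nat_lit 76) (nat_lit 0) (XT.lf (nat_lit 0) (nat_lit 305672910118) (nat_lit 152) (nat_lit 226348600949) (nat_lit 0) (nat_lit 32089431274) (nat_lit 14) (nat_lit 5) (nat_lit 16) (nat_lit 4) (nat_lit 14) (nat_lit 4) (nat_lit 380) (nat_lit 332) (nat_lit 188)) (XT.lf (nat_lit 0) (nat_lit 45991911624) (nat_lit 76) (nat_lit 414592042896) (nat_lit 76) (nat_lit 141008252349) (nat_lit 13) (nat_lit 4) (nat_lit 14) (nat_lit 5) (nat_lit 14) (nat_lit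 4) (nat_lit 381) (nat_lit 332) (nat_lit 187))))) (XT.nd (nat_lit 234) (nat_lit 76) (nat_lit 0) (XT.nd (nat_lit 78) (nat_lit 152) (nat_lit 0) (XT.lf (nat_lit 0) (nat_lit 348201845698) (nat_lit 76) (nat_lit 283628540453) (nat_lit 76) (nat_lit 10044461291) (nat_lit 13) (nat_lit 4) (nat_lit 14) (nat_lit 5) (nat_lit 14) (nat_lit 4) (nat_lit 382) (nat_lit 332) (nat_lit 186)) (XT.nd (nat_lit 78) (nat_lit 76) (nat_lit 0) (XT.lf (nat_lit 0) (nat_lit 127190603820) (nat_lit 152) (nat_lit 12843608565) (nat_lit 76) (nat_lit 545243329746) (nat_lit 12) (nat_lit 5) (nat_lit 14) (nat_lit 5) (nat_lit 13) (nat_lit 4) (nat_lit 383) (nat_lit 332) (nat_lit 185)) (XT.lf (nat_lit 0) (nat_lit 280053403912) (nat_lit 152) (nat_lit 432344125559) (nat_lit 0) (nat_lit 19496647876) (nat_lit 11) (nat_lit 5) (nat_lit 13) (nat_lit 4) (nat_lit 11) (nat_lit 4) (nat_lit 384) (nat_lit 332) (nat_lit 184)))) (XT.nd (nat_lit 78)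 (nat_lit 76) (nat_lit 0) (XT.lf (nat_lit 0) (nat_lit 447733566316) (nat_lit 152) (nat_lit 147200568120) (nat_lit 0) (nat_lit 187176592078) (nat_lit 11) (nat_lit 5) (nat_lit 13) (nat_lit 4) (nat_lit 11) (nat_lit 4) (nat_lit 385) (nat_lit 332) (nat_lit 183)) (XT.nd (nat_lit 78) (nat_lit 0) (nat_lit 0) (XT.lf (nat_lit 0) (nat_lit 166069210096) (nat_lit 76) (nat_lit 465351469475) (nat_lit 76) (nat_lit 204794293199) (nat_lit 10) (nat_lit 4) (nat_lit 11) (nat_lit 5) (nat_lit 11) (nat_lit 4) (nat_lit 386) (nat_lit 332) (nat_lit 182)) (XT.lf (nat_lit 0) (nat_lit 509656562122) (nat_lit 76) (nat_lit 322710082919) (nat_lit 76) (nat_lit 62152719570) (nat_lit 10) (nat_lit 4) (nat_lit 11) (nat_lit 5) (nat_lit 11) (nat_lit 4) (nat_lit 387) (nat_lit 332) (nat_lit 181))))))))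
noncomputable def xc100 : XT := (XT.nd (nat_lit 44226) (nat_lit 0) (nat_lit 760) (XT.nd (nat_lit 43290) (nat_lit 0) (nat_lit 3496) (XT.nd (nat_lit 42822) (nat_lit 0) (nat_lit 6612) (XT.nd (nat_lit 42588) (nat_lit 0) (nat_lit 6992) (XT.nd (nat_lit 78) (nat_lit 76) (nat_lit 0) (XT.lf (nat_lit 0) (nat_lit 88958559512) (nat_lit 152) (nat_lit 78192489563) (nat_lit 76) (nat_lit 790265329832) (nat_lit 9) (nat_lit 5) (nat_lit 11) (nat_lit 5) (nat_lit 10) (nat_lit 4) (nat_lit 388) (nat_lit 332) (nat_lit 180)) (XT.lf (nat_lit 0) (nat_lit 254171132338) (nat_lit 152) (nat_lit 764892636426) (nat_lit 0) (nat_lit 6020944768) (nat_lit 8) (nat_lit 5) (nat_lit 10) (nat_lit 4) (nat_lit 8) (nat_lit 4) (nat_lit 389) (nat_lit 332) (nat_lit 179))) (XT.nd (nat_lit 78) (nat_lit 0) (nat_lit 76) (XT.lf (nat_lit 0) (nat_lit 2656306989) (nat_lit 836) (nat_lit 11590521117) (nat_lit 836) (nat_lit 11590521117) (nat_lit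 100) (nat_lit 3) (nat_lit 111) (nat_lit 3) (nat_lit 111) (nat_lit 5) (nat_lit 333) (nat_lit 333) (nat_lit 234)) (XT.nd (nat_lit 78) (nat_lit 0) (nat_lit 0) (XT.lf (nat_lit 0) (nat_lit 5985519445) (nat_lit 760) (nat_lit 37431643452) (nat_lit 836) (nat_lit 10301464133) (nat_lit 101) (nat_lit 5) (nat_lit 111) (nat_lit 5) (nat_lit 112) (nat_lit 5) (nat_lit 334) (nat_lit 333) (nat_lit 233)) (XT.lf (nat_lit 76) (nat_lit 3455644941) (nat_lit 0) (nat_lit 4197708066) (nat_lit 836) (nat_lit 48225666042) (nat_lit 102) (nat_lit 5) (nat_lit 101) (nat_lit 5) (nat_lit 112) (nat_lit 5) (nat_lit 335) (nat_lit 333) (nat_lit 232))))) (XT.nd (nat_lit 234) (nat_lit 532) (nat_lit 0) (XT.nd (nat_lit 78) (nat_lit 0) (nat_lit 76) (XT.lf (nat_lit 0) (nat_lit 10709644716) (nat_lit 760) (nat_lit 9837858255) (nat_lit 836) (nat_lit 37601991528) (nat_lit 102) (nat_lit 5) (nat_lit 112) (nat_lit 5) (nat_lit 113) (nat_lit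 5) (nat_lit 336) (nat_lit 333) (nat_lit 231)) (XT.nd (nat_lit 78) (nat_lit 0) (nat_lit 76) (XT.lf (nat_lit 0) (nat_lit 15013048842) (nat_lit 760) (nat_lit 23647644771) (nat_lit 836) (nat_lit 21890787289) (nat_lit 103) (nat_lit 5) (nat_lit 113) (nat_lit 5) (nat_lit 114) (nat_lit 5) (nat_lit 337) (nat_lit 333) (nat_lit 230)) (XT.lf (nat_lit 0) (nat_lit 20639415787) (nat_lit 760) (nat_lit 38120805949) (nat_lit 836) (nat_lit 4336473077) (nat_lit 104) (nat_lit 5) (nat_lit 114) (nat_lit 5) (nat_lit 115) (nat_lit 5) (nat_lit 338) (nat_lit 333) (nat_lit 229)))) (XT.nd (nat_lit 78) (nat_lit 684) (nat_lit 0) (XT.lf (nat_lit 76) (nat_lit 12239628322) (nat_lit 0) (nat_lit 15735136641) (nat_lit 836) (nat_lit 37807820124) (nat_lit 105) (nat_lit 5) (nat_lit 104) (nat_lit 5) (nat_lit 115) (nat_lit 5) (nat_lit 339) (nat_lit 333) (nat_lit 228)) (XT.nd (nat_lit 78) (nat_lit 760) (nat_lit 0) (XT.lf (nat_lit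 0) (nat_lit 37049067223) (nat_lit 760) (nat_lit 1153002566) (nat_lit 76) (nat_lit 30423673212) (nat_lit 105) (nat_lit 5) (nat_lit 115) (nat_lit 5) (nat_lit 106) (nat_lit 5) (nat_lit 340) (nat_lit 333) (nat_lit 227)) (XT.lf (nat_lit 0) (nat_lit 48142149607) (nat_lit 836) (nat_lit 14794450751) (nat_lit 76) (nat_lit 8695113870) (nat_lit 95) (nat_lit 5) (nat_lit 106) (nat_lit 5) (nat_lit 96) (nat_lit 5) (nat_lit 341) (nat_lit 333) (nat_lit 226)))))) (XT.nd (nat_lit 468) (nat_lit 1368) (nat_lit 0) (XT.nd (nat_lit 234) (nat_lit 608) (nat_lit 0) (XT.nd (nat_lit 78) (nat_lit 760) (nat_lit 0) (XT.lf (nat_lit 0) (nat_lit 45438401111) (nat_lit 380) (nat_lit 16055999698) (nat_lit 456) (nat_lit 13315178528) (nat_lit 90) (nat_lit 5) (nat_lit 95) (nat_lit 5) (nat_lit 96) (nat_lit 5) (nat_lit 342) (nat_lit 333) (nat_lit 225)) (XT.nd (nat_lit 78) (nat_lit 456) (nat_lit 0) (XT.lf (nat_lit 0) (nat_lit 33309259190)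 (nat_lit 304) (nat_lit 43925238657) (nat_lit 380) (nat_lit 941194648) (nat_lit 86) (nat_lit 5) (nat_lit 90) (nat_lit 5) (nat_lit 91) (nat_lit 5) (nat_lit 343) (nat_lit 333) (nat_lit 224)) (XT.lf (nat_lit 0) (nat_lit 13247223221) (nat_lit 456) (nat_lit 61413567319) (nat_lit 76) (nat_lit 7079502397) (nat_lit 80) (nat_lit 5) (nat_lit 86) (nat_lit 5) (nat_lit 81) (nat_lit 5) (nat_lit 344) (nat_lit 333) (nat_lit 223)))) (XT.nd (nat_lit 78) (nat_lit 304) (nat_lit 0) (XT.lf (nat_lit 0) (nat_lit 6213880331) (nat_lit 304) (nat_lit 23954405975) (nat_lit 380) (nat_lit 55339478039) (nat_lit 76) (nat_lit 5) (nat_lit 80) (nat_lit 5) (nat_lit 81) (nat_lit 5) (nat_lit 345) (nat_lit 333) (nat_lit 222)) (XT.nd (nat_lit 78) (nat_lit 304) (nat_lit 0) (XT.lf (nat_lit 0) (nat_lit 50009542896) (nat_lit 380) (nat_lit 8579278939) (nat_lit 76) (nat_lit 30909487816) (nat_lit 76) (nat_lit 5) (nat_lit 81) (nat_lit 5)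 (nat_lit 77) (nat_lit 5) (nat_lit 346) (nat_lit 333) (nat_lit 221)) (XT.lf (nat_lit 0) (nat_lit 69614671839) (nat_lit 304) (nat_lit 3312537616) (nat_lit 380) (nat_lit 20806435141) (nat_lit 72) (nat_lit 5) (nat_lit 76) (nat_lit 5) (nat_lit 77) (nat_lit 5) (nat_lit 347) (nat_lit 333) (nat_lit 220))))) (XT.nd (nat_lit 234) (nat_lit 532) (nat_lit 0) (XT.nd (nat_lit 78) (nat_lit 532) (nat_lit 0) (XT.lf (nat_lit 0) (nat_lit 1342844648) (nat_lit 304) (nat_lit 41223375710) (nat_lit 76) (nat_lit 55644468058) (nat_lit 68) (nat_lit 5) (nat_lit 72) (nat_lit 5) (nat_lit 69) (nat_lit 5) (nat_lit 348) (nat_lit 333) (nat_lit 219)) (XT.nd (nat_lit 78) (nat_lit 228) (nat_lit 0) (XT.lf (nat_lit 0) (nat_lit 25979829826) (nat_lit 380) (nat_lit 59854817750) (nat_lit 76) (nat_lit 17121958967) (nat_lit 64) (nat_lit 5) (nat_lit 69) (nat_lit 5) (nat_lit 65) (nat_lit 5) (nat_lit 349) (nat_lit 333) (nat_lit 218)) (XT.lf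 (nat_lit 0) (nat_lit 27755636962) (nat_lit 228) (nat_lit 26711624694) (nat_lit 304) (nat_lit 53520963198) (nat_lit 61) (nat_lit 5) (nat_lit 64) (nat_lit 5) (nat_lit 65) (nat_lit 5) (nat_lit 350) (nat_lit 333) (nat_lit 217)))) (XT.nd (nat_lit 78) (nat_lit 304) (nat_lit 0) (XT.lf (nat_lit 0) (nat_lit 10891793085) (nat_lit 228) (nat_lit 76150164912) (nat_lit 304) (nat_lit 26290002176) (nat_lit 58) (nat_lit 5) (nat_lit 61) (nat_lit 5) (nat_lit 62) (nat_lit 5) (nat_lit 351) (nat_lit 333) (nat_lit 216)) (XT.nd (nat_lit 78) (nat_lit 228) (nat_lit 0) (XT.lf (nat_lit 0) (nat_lit 4889178968) (nat_lit 304) (nat_lit 7386017126) (nat_lit 76) (nat_lit 106732084751) (nat_lit 57) (nat_lit 5) (nat_lit 61) (nat_lit 5) (nat_lit 58) (nat_lit 5) (nat_lit 352) (nat_lit 333) (nat_lit 215)) (XT.lf (nat_lit 0) (nat_lit 40099905593) (nat_lit 304) (nat_lit 27992938068) (nat_lit 76) (nat_lit 56899320948) (nat_lit 54)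 (nat_lit 5) (nat_lit 58) (nat_lit 5) (nat_lit 55) (nat_lit 5) (nat_lit 353) (nat_lit 333) (nat_lit 214))))))) (XT.nd (nat_lit 858) (nat_lit 1064) (nat_lit 0) (XT.nd (nat_lit 390) (nat_lit 836) (nat_lit 0) (XT.nd (nat_lit 156) (nat_lit 456) (nat_lit 0) (XT.nd (nat_lit 78) (nat_lit 152) (nat_lit 0) (XT.lf (nat_lit 0) (nat_lit 79746351864) (nat_lit 304) (nat_lit 50465534805) (nat_lit 76) (nat_lit 1163010117) (nat_lit 51) (nat_lit 5) (nat_lit 55) (nat_lit 5) (nat_lit 52) (nat_lit 5) (nat_lit 354) (nat_lit 333) (nat_lit 213)) (XT.lf (nat_lit 0) (nat_lit 62109635934) (nat_lit 152) (nat_lit 63067241808) (nat_lit 228) (nat_lit 12960752328) (nat_lit 49) (nat_lit 5) (nat_lit 51) (nat_lit 5) (nat_lit 52) (nat_lit 5) (nat_lit 355) (nat_lit 333) (nat_lit 212))) (XT.nd (nat_lit 78) (nat_lit 152) (nat_lit 0) (XT.lf (nat_lit 0) (nat_lit 29590276186) (nat_lit 304) (nat_lit 104582218912) (nat_lit 76) (nat_lit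 11160824405) (nat_lit 45) (nat_lit 5) (nat_lit 49) (nat_lit 5) (nat_lit 46) (nat_lit 5) (nat_lit 356) (nat_lit 333) (nat_lit 211)) (XT.nd (nat_lit 78) (nat_lit 0) (nat_lit 0) (XT.lf (nat_lit 0) (nat_lit 15747726676) (nat_lit 152) (nat_lit 62003976428) (nat_lit 228) (nat_lit 75209318125) (nat_lit 43) (nat_lit 5) (nat_lit 45) (nat_lit 5) (nat_lit 46) (nat_lit 5) (nat_lit 357) (nat_lit 333) (nat_lit 210)) (XT.lf (nat_lit 0) (nat_lit 131865507247) (nat_lit 228) (nat_lit 11949487378) (nat_lit 76) (nat_lit 17278971866) (nat_lit 43) (nat_lit 5) (nat_lit 46) (nat_lit 5) (nat_lit 44) (nat_lit 5) (nat_lit 358) (nat_lit 333) (nat_lit 209))))) (XT.nd (nat_lit 234) (nat_lit 304) (nat_lit 0) (XT.nd (nat_lit 78) (nat_lit 304) (nat_lit 0) (XT.lf (nat_lit 0) (nat_lit 22843385472) (nat_lit 228) (nat_lit 43763289321) (nat_lit 76) (nat_lit 103101602287) (nat_lit 40) (nat_lit 5) (nat_lit 43) (nat_lit 5) (nat_lit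 41) (nat_lit 5) (nat_lit 359) (nat_lit 333) (nat_lit 208)) (XT.nd (nat_lit 78) (nat_lit 152) (nat_lit 0) (XT.lf (nat_lit 0) (nat_lit 80125286901) (nat_lit 228) (nat_lit 80231883121) (nat_lit 76) (nat_lit 18527188591) (nat_lit 38) (nat_lit 5) (nat_lit 41) (nat_lit 5) (nat_lit 39) (nat_lit 5) (nat_lit 360) (nat_lit 333) (nat_lit 207)) (XT.lf (nat_lit 0) (nat_lit 66251294349) (nat_lit 152) (nat_lit 78669897072) (nat_lit 228) (nat_lit 43726763115) (nat_lit 36) (nat_lit 5) (nat_lit 38) (nat_lit 5) (nat_lit 39) (nat_lit 5) (nat_lit 361) (nat_lit 333) (nat_lit 206)))) (XT.nd (nat_lit 78) (nat_lit 152) (nat_lit 0) (XT.lf (nat_lit 0) (nat_lit 17259285081) (nat_lit 152) (nat_lit 170421458322) (nat_lit 76) (nat_lit 11396937043) (nat_lit 34) (nat_lit 5) (nat_lit 36) (nat_lit 5) (nat_lit 35) (nat_lit 5) (nat_lit 362) (nat_lit 333) (nat_lit 205)) (XT.nd (nat_lit 78) (nat_lit 152) (nat_lit 0) (XT.lf (nat_lit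 0) (nat_lit 85105473584) (nat_lit 152) (nat_lit 16171238502) (nat_lit 76) (nat_lit 108853569612) (nat_lit 34) (nat_lit 5) (nat_lit 36) (nat_lit 5) (nat_lit 35) (nat_lit 5) (nat_lit 363) (nat_lit 333) (nat_lit 204)) (XT.lf (nat_lit 0) (nat_lit 155391234551) (nat_lit 152) (nat_lit 5413481291) (nat_lit 228) (nat_lit 61141107589) (nat_lit 32) (nat_lit 5) (nat_lit 34) (nat_lit 5) (nat_lit 35) (nat_lit 5) (nat_lit 364) (nat_lit 333) (nat_lit 203)))))) (XT.nd (nat_lit 468) (nat_lit 380) (nat_lit 0) (XT.nd (nat_lit 234) (nat_lit 380) (nat_lit 0) (XT.nd (nat_lit 78) (nat_lit 152) (nat_lit 0) (XT.lf (nat_lit 0) (nat_lit 11170979571) (nat_lit 152) (nat_lit 126212684798) (nat_lit 76) (nat_lit 97138361575) (nat_lit 30) (nat_lit 5) (nat_lit 32) (nat_lit 5) (nat_lit 31) (nat_lit 5) (nat_lit 365) (nat_lit 333) (nat_lit 202)) (XT.nd (nat_lit 78) (nat_lit 0) (nat_lit 0) (XT.lf (nat_lit 0) (nat_lit 52015042751)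 (nat_lit 152) (nat_lit 37220583738) (nat_lit 228) (nat_lit 158713098796) (nat_lit 28) (nat_lit 5) (nat_lit 30) (nat_lit 5) (nat_lit 31) (nat_lit 5) (nat_lit 366) (nat_lit 333) (nat_lit 201)) (XT.lf (nat_lit 0) (nat_lit 176887186857) (nat_lit 228) (nat_lit 14476656956) (nat_lit 76) (nat_lit 70918629913) (nat_lit 28) (nat_lit 5) (nat_lit 31) (nat_lit 5) (nat_lit 29) (nat_lit 4) (nat_lit 367) (nat_lit 333) (nat_lit 200)))) (XT.nd (nat_lit 78) (nat_lit 304) (nat_lit 0) (XT.lf (nat_lit 0) (nat_lit 186848561395) (nat_lit 76) (nat_lit 88246537723) (nat_lit 152) (nat_lit 2490611793) (nat_lit 27) (nat_lit 5) (nat_lit 28) (nat_lit 5) (nat_lit 29) (nat_lit 4) (nat_lit 368) (nat_lit 333) (nat_lit 199)) (XT.nd (nat_lit 78) (nat_lit 76) (nat_lit 0) (XT.lf (nat_lit 0) (nat_lit 86695896200) (nat_lit 228) (nat_lit 181413716954) (nat_lit 76) (nat_lit 25813867742) (nat_lit 24) (nat_lit 5) (nat_lit 27) (nat_lit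 5) (nat_lit 25) (nat_lit 4) (nat_lit 369) (nat_lit 333) (nat_lit 198)) (XT.lf (nat_lit 0) (nat_lit 22944822627) (nat_lit 76) (nat_lit 163438565061) (nat_lit 152) (nat_lit 125010177400) (nat_lit 23) (nat_lit 5) (nat_lit 24) (nat_lit 5) (nat_lit 25) (nat_lit 4) (nat_lit 370) (nat_lit 333) (nat_lit 197))))) (XT.nd (nat_lit 234) (nat_lit 152) (nat_lit 0) (XT.nd (nat_lit 78) (nat_lit 228) (nat_lit 0) (XT.lf (nat_lit 0) (nat_lit 250129284327) (nat_lit 76) (nat_lit 47076161448) (nat_lit 152) (nat_lit 32897832043) (nat_lit 23) (nat_lit 5) (nat_lit 24) (nat_lit 5) (nat_lit 25) (nat_lit 4) (nat_lit 371) (nat_lit 333) (nat_lit 196)) (XT.nd (nat_lit 78) (nat_lit 76) (nat_lit 0) (XT.lf (nat_lit 0) (nat_lit 68058951610) (nat_lit 152) (nat_lit 202519702332) (nat_lit 76) (nat_lit 79498809093) (nat_lit 21) (nat_lit 5) (nat_lit 23) (nat_lit 5) (nat_lit 22) (nat_lit 4) (nat_lit 372) (nat_lit 333) (nat_lit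 195)) (XT.lf (nat_lit 0) (nat_lit 23962674332) (nat_lit 76) (nat_lit 154575787070) (nat_lit 152) (nat_lit 192954218205) (nat_lit 20) (nat_lit 5) (nat_lit 21) (nat_lit 5) (nat_lit 22) (nat_lit 4) (nat_lit 373) (nat_lit 333) (nat_lit 194)))) (XT.nd (nat_lit 78) (nat_lit 152) (nat_lit 0) (XT.lf (nat_lit 0) (nat_lit 275794685744) (nat_lit 76) (nat_lit 25588938591) (nat_lit 152) (nat_lit 93061124678) (nat_lit 20) (nat_lit 5) (nat_lit 21) (nat_lit 5) (nat_lit 22) (nat_lit 4) (nat_lit 374) (nat_lit 333) (nat_lit 193)) (XT.nd (nat_lit 78) (nat_lit 0) (nat_lit 0) (XT.lf (nat_lit 0) (nat_lit 18231168960) (nat_lit 152) (nat_lit 288380650613) (nat_lit 76) (nat_lit 112415483030) (nat_lit 18) (nat_lit 5) (nat_lit 20) (nat_lit 5) (nat_lit 19) (nat_lit 4) (nat_lit 375) (nat_lit 333) (nat_lit 192)) (XT.lf (nat_lit 0) (nat_lit 137741764134) (nat_lit 152) (nat_lit 43384398042) (nat_lit 76) (nat_lit 264245252470)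 (nat_lit 18) (nat_lit 5) (nat_lit 20) (nat_lit 5) (nat_lit 19) (nat_lit 4) (nat_lit 376) (nat_lit 333) (nat_lit 191))))))))
noncomputable def xc101 : XT := (XT.nd (nat_lit 44382) (nat_lit 0) (nat_lit 1368) (XT.nd (nat_lit 858) (nat_lit 0) (nat_lit 0) (XT.nd (nat_lit 390) (nat_lit 304) (nat_lit 0) (XT.nd (nat_lit 156) (nat_lit 152) (nat_lit 0) (XT.nd (nat_lit 78) (nat_lit 76) (nat_lit 0) (XT.lf (nat_lit 0) (nat_lit 228525043477) (nat_lit 76) (nat_lit 41855683790) (nat_lit 152) (nat_lit 203263952463) (nat_lit 17) (nat_lit 5) (nat_lit 18) (nat_lit 5) (nat_lit 19) (nat_lit 4) (nat_lit 377) (nat_lit 333) (nat_lit 190)) (XT.lf (nat_lit 0) (nat_lit 18477890848) (nat_lit 76) (nat_lit 397904012732) (nat_lit 76) (nat_lit 87660347723) (nat_lit 16) (nat_lit 4) (nat_lit 17) (nat_lit 5) (nat_lit 17) (nat_lit 4) (nat_lit 378) (nat_lit 333) (nat_lit 189))) (XT.nd (nat_lit 78) (nat_lit 76) (nat_lit 0) (XT.lf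 (nat_lit 0) (nat_lit 41046398662) (nat_lit 152) (nat_lit 226098901223) (nat_lit 76) (nat_lit 269445034833) (nat_lit 15) (nat_lit 5) (nat_lit 17) (nat_lit 5) (nat_lit 16) (nat_lit 4) (nat_lit 379) (nat_lit 333) (nat_lit 188)) (XT.nd (nat_lit 78) (nat_lit 0) (nat_lit 0) (XT.lf (nat_lit 0) (nat_lit 54385713169) (nat_lit 76) (nat_lit 123482608264) (nat_lit 152) (nat_lit 393757599289) (nat_lit 14) (nat_lit 5) (nat_lit 15) (nat_lit 5) (nat_lit 16) (nat_lit 4) (nat_lit 380) (nat_lit 333) (nat_lit 187)) (XT.lf (nat_lit 0) (nat_lit 330133233679) (nat_lit 152) (nat_lit 244444118641) (nat_lit 0) (nat_lit 34662139570) (nat_lit 14) (nat_lit 5) (nat_lit 16) (nat_lit 4) (nat_lit 14) (nat_lit 4) (nat_lit 381) (nat_lit 333) (nat_lit 186))))) (XT.nd (nat_lit 234) (nat_lit 152) (nat_lit 0) (XT.nd (nat_lit 78) (nat_lit 76) (nat_lit 0) (XT.lf (nat_lit 0) (nat_lit 49683097337) (nat_lit 76) (nat_lit 447753768244)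 (nat_lit 76) (nat_lit 152282406898) (nat_lit 13) (nat_lit 4) (nat_lit 14) (nat_lit 5) (nat_lit 14) (nat_lit 4) (nat_lit 382) (nat_lit 333) (nat_lit 185)) (XT.nd (nat_lit 78) (nat_lit 76) (nat_lit 0) (XT.lf (nat_lit 0) (nat_lit 376068949634) (nat_lit 76) (nat_lit 306313603241) (nat_lit 76) (nat_lit 10841994455) (nat_lit 13) (nat_lit 4) (nat_lit 14) (nat_lit 5) (nat_lit 14) (nat_lit 4) (nat_lit 383) (nat_lit 333) (nat_lit 184)) (XT.lf (nat_lit 0) (nat_lit 137371251146) (nat_lit 152) (nat_lit 13860773046) (nat_lit 76) (nat_lit 588867450375) (nat_lit 12) (nat_lit 5) (nat_lit 14) (nat_lit 5) (nat_lit 13) (nat_lit 4) (nat_lit 384) (nat_lit 333) (nat_lit 183)))) (XT.nd (nat_lit 78) (nat_lit 76) (nat_lit 0) (XT.lf (nat_lit 0) (nat_lit 302462903230) (nat_lit 152) (nat_lit 466921595230) (nat_lit 0) (nat_lit 21060950813) (nat_lit 11) (nat_lit 5) (nat_lit 13) (nat_lit 4) (nat_lit 11) (nat_lit 4) (nat_lit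 385) (nat_lit 333) (nat_lit 182)) (XT.nd (nat_lit 78) (nat_lit 76) (nat_lit 0) (XT.lf (nat_lit 0) (nat_lit 483557091441) (nat_lit 152) (nat_lit 158967298409) (nat_lit 0) (nat_lit 202154951952) (nat_lit 11) (nat_lit 5) (nat_lit 13) (nat_lit 4) (nat_lit 11) (nat_lit 4) (nat_lit 386) (nat_lit 333) (nat_lit 181)) (XT.lf (nat_lit 0) (nat_lit 179363657239) (nat_lit 76) (nat_lit 502575297128) (nat_lit 76) (nat_lit 221172984423) (nat_lit 10) (nat_lit 4) (nat_lit 11) (nat_lit 5) (nat_lit 11) (nat_lit 4) (nat_lit 387) (nat_lit 333) (nat_lit 180)))))) (XT.nd (nat_lit 43056) (nat_lit 0) (nat_lit 5776) (XT.nd (nat_lit 42822) (nat_lit 0) (nat_lit 6916) (XT.nd (nat_lit 42666) (nat_lit 0) (nat_lit 6840) (XT.lf (nat_lit 0) (nat_lit 550437337402) (nat_lit 76) (nat_lit 348522917418) (nat_lit 76) (nat_lit 67120444328) (nat_lit 10) (nat_lit 4) (nat_lit 11) (nat_lit 5) (nat_lit 11) (nat_lit 4) (nat_lit 388) (nat_lit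 333) (nat_lit 179)) (XT.nd (nat_lit 78) (nat_lit 0) (nat_lit 76) (XT.lf (nat_lit 0) (nat_lit 2905154938) (nat_lit 836) (nat_lit 12498663345) (nat_lit 836) (nat_lit 12498663345) (nat_lit 100) (nat_lit 3) (nat_lit 111) (nat_lit 3) (nat_lit 111) (nat_lit 5) (nat_lit 334) (nat_lit 334) (nat_lit 232)) (XT.lf (nat_lit 0) (nat_lit 6531744833) (nat_lit 760) (nat_lit 40385682170) (nat_lit 836) (nat_lit 11095249953) (nat_lit 101) (nat_lit 5) (nat_lit 111) (nat_lit 5) (nat_lit 112) (nat_lit 5) (nat_lit 335) (nat_lit 334) (nat_lit 231)))) (XT.nd (nat_lit 78) (nat_lit 0) (nat_lit 76) (XT.lf (nat_lit 76) (nat_lit 3770829529) (nat_lit 0) (nat_lit 4557788887) (nat_lit 836) (nat_lit 52017506516) (nat_lit 102) (nat_lit 5) (nat_lit 101) (nat_lit 5) (nat_lit 112) (nat_lit 5) (nat_lit 336) (nat_lit 334) (nat_lit 230)) (XT.nd (nat_lit 78) (nat_lit 0) (nat_lit 76) (XT.lf (nat_lit 0) (nat_lit 11624396233) (nat_lit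 760) (nat_lit 10585694818) (nat_lit 836) (nat_lit 40588403100) (nat_lit 102) (nat_lit 5) (nat_lit 112) (nat_lit 5) (nat_lit 113) (nat_lit 5) (nat_lit 337) (nat_lit 334) (nat_lit 229)) (XT.lf (nat_lit 0) (nat_lit 16268101178) (nat_lit 760) (nat_lit 25498935568) (nat_lit 836) (nat_lit 23625805808) (nat_lit 103) (nat_lit 5) (nat_lit 113) (nat_lit 5) (nat_lit 114) (nat_lit 5) (nat_lit 338) (nat_lit 334) (nat_lit 228))))) (XT.nd (nat_lit 234) (nat_lit 1368) (nat_lit 0) (XT.nd (nat_lit 78) (nat_lit 0) (nat_lit 0) (XT.lf (nat_lit 0) (nat_lit 22340996943) (nat_lit 760) (nat_lit 41128942695) (nat_lit 836) (nat_lit 4671917145) (nat_lit 104) (nat_lit 5) (nat_lit 114) (nat_lit 5) (nat_lit 115) (nat_lit 5) (nat_lit 339) (nat_lit 334) (nat_lit 227)) (XT.nd (nat_lit 78) (nat_lit 0) (nat_lit 76) (XT.lf (nat_lit 76) (nat_lit 13258521573) (nat_lit 0) (nat_lit 17001537267) (nat_lit 836) (nat_lit 40782719067)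 (nat_lit 105) (nat_lit 5) (nat_lit 104) (nat_lit 5) (nat_lit 115) (nat_lit 5) (nat_lit 340) (nat_lit 334) (nat_lit 226)) (XT.lf (nat_lit 0) (nat_lit 40056690919) (nat_lit 760) (nat_lit 1206117338) (nat_lit 76) (nat_lit 32850764497) (nat_lit 105) (nat_lit 5) (nat_lit 115) (nat_lit 5) (nat_lit 106) (nat_lit 5) (nat_lit 341) (nat_lit 334) (nat_lit 225)))) (XT.nd (nat_lit 78) (nat_lit 684) (nat_lit 0) (XT.lf (nat_lit 0) (nat_lit 52034510764) (nat_lit 836) (nat_lit 15938431452) (nat_lit 76) (nat_lit 9387218236) (nat_lit 95) (nat_lit 5) (nat_lit 106) (nat_lit 5) (nat_lit 96) (nat_lit 5) (nat_lit 342) (nat_lit 334) (nat_lit 224)) (XT.nd (nat_lit 78) (nat_lit 304) (nat_lit 0) (XT.lf (nat_lit 0) (nat_lit 49111328662) (nat_lit 380) (nat_lit 17341168194) (nat_lit 456) (nat_lit 14339883246) (nat_lit 90) (nat_lit 5) (nat_lit 95) (nat_lit 5) (nat_lit 96) (nat_lit 5) (nat_lit 343) (nat_lit 334) (nat_lit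 223)) (XT.lf (nat_lit 0) (nat_lit 36012100678) (nat_lit 304) (nat_lit 47437430775) (nat_lit 380) (nat_lit 978367212) (nat_lit 86) (nat_lit 5) (nat_lit 90) (nat_lit 5) (nat_lit 91) (nat_lit 5) (nat_lit 344) (nat_lit 334) (nat_lit 222))))))) (XT.nd (nat_lit 936) (nat_lit 1596) (nat_lit 0) (XT.nd (nat_lit 468) (nat_lit 1140) (nat_lit 0) (XT.nd (nat_lit 234) (nat_lit 912) (nat_lit 0) (XT.nd (nat_lit 78) (nat_lit 304) (nat_lit 0) (XT.lf (nat_lit 0) (nat_lit 14341803186) (nat_lit 456) (nat_lit 66287284128) (nat_lit 76) (nat_lit 7648657612) (nat_lit 80) (nat_lit 5) (nat_lit 86) (nat_lit 5) (nat_lit 81) (nat_lit 5) (nat_lit 345) (nat_lit 334) (nat_lit 221)) (XT.nd (nat_lit 78) (nat_lit 0) (nat_lit 0) (XT.lf (nat_lit 0) (nat_lit 6748648424) (nat_lit 304) (nat_lit 25865912902) (nat_lit 380) (nat_lit 59732154543) (nat_lit 76) (nat_lit 5) (nat_lit 80) (nat_lit 5) (nat_lit 81) (nat_lit 5) (nat_lit 346)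 (nat_lit 334) (nat_lit 220)) (XT.lf (nat_lit 0) (nat_lit 54040757964) (nat_lit 380) (nat_lit 9229277144) (nat_lit 76) (nat_lit 33386589864) (nat_lit 76) (nat_lit 5) (nat_lit 81) (nat_lit 5) (nat_lit 77) (nat_lit 5) (nat_lit 347) (nat_lit 334) (nat_lit 219)))) (XT.nd (nat_lit 78) (nat_lit 608) (nat_lit 0) (XT.lf (nat_lit 0) (nat_lit 75218610225) (nat_lit 304) (nat_lit 3571514719) (nat_lit 380) (nat_lit 22440749403) (nat_lit 72) (nat_lit 5) (nat_lit 76) (nat_lit 5) (nat_lit 77) (nat_lit 5) (nat_lit 348) (nat_lit 334) (nat_lit 218)) (XT.nd (nat_lit 78) (nat_lit 304) (nat_lit 0) (XT.lf (nat_lit 0) (nat_lit 1477977683) (nat_lit 304) (nat_lit 44485745655) (nat_lit 76) (nat_lit 60102412938) (nat_lit 68) (nat_lit 5) (nat_lit 72) (nat_lit 5) (nat_lit 69) (nat_lit 5) (nat_lit 349) (nat_lit 334) (nat_lit 217)) (XT.lf (nat_lit 0) (nat_lit 28084520962) (nat_lit 380) (nat_lit 64608037739) (nat_lit 76)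 (nat_lit 18499240814) (nat_lit 64) (nat_lit 5) (nat_lit 69) (nat_lit 5) (nat_lit 65) (nat_lit 5) (nat_lit 350) (nat_lit 334) (nat_lit 216))))) (XT.nd (nat_lit 234) (nat_lit 608) (nat_lit 0) (XT.nd (nat_lit 78) (nat_lit 304) (nat_lit 0) (XT.lf (nat_lit 0) (nat_lit 30009725103) (nat_lit 228) (nat_lit 28839798905) (nat_lit 304) (nat_lit 57776495954) (nat_lit 61) (nat_lit 5) (nat_lit 64) (nat_lit 5) (nat_lit 65) (nat_lit 5) (nat_lit 351) (nat_lit 334) (nat_lit 215)) (XT.nd (nat_lit 78) (nat_lit 76) (nat_lit 0) (XT.lf (nat_lit 0) (nat_lit 11796389121) (nat_lit 228) (nat_lit 82232609610) (nat_lit 304) (nat_lit 28368316635) (nat_lit 58) (nat_lit 5) (nat_lit 61) (nat_lit 5) (nat_lit 62) (nat_lit 5) (nat_lit 352) (nat_lit 334) (nat_lit 214)) (XT.lf (nat_lit 0) (nat_lit 5302618115) (nat_lit 304) (nat_lit 7945356205) (nat_lit 76) (nat_lit 115278758393) (nat_lit 57) (nat_lit 5) (nat_lit 61) (nat_lit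 5) (nat_lit 58) (nat_lit 5) (nat_lit 353) (nat_lit 334) (nat_lit 213)))) (XT.nd (nat_lit 78) (nat_lit 380) (nat_lit 0) (XT.lf (nat_lit 0) (nat_lit 43329162985) (nat_lit 304) (nat_lit 30201272468) (nat_lit 76) (nat_lit 61460024857) (nat_lit 54) (nat_lit 5) (nat_lit 58) (nat_lit 5) (nat_lit 55) (nat_lit 5) (nat_lit 354) (nat_lit 334) (nat_lit 212)) (XT.nd (nat_lit 78) (nat_lit 152) (nat_lit 0) (XT.lf (nat_lit 0) (nat_lit 86146364045) (nat_lit 304) (nat_lit 54472157464) (nat_lit 76) (nat_lit 1265338652) (nat_lit 51) (nat_lit 5) (nat_lit 55) (nat_lit 5) (nat_lit 52) (nat_lit 5) (nat_lit 355) (nat_lit 334) (nat_lit 211)) (XT.lf (nat_lit 0) (nat_lit 67107696220) (nat_lit 152) (nat_lit 68102589060) (nat_lit 228) (nat_lit 13977380138) (nat_lit 49) (nat_lit 5) (nat_lit 51) (nat_lit 5) (nat_lit 52) (nat_lit 5) (nat_lit 356) (nat_lit 334) (nat_lit 210)))))) (XT.nd (nat_lit 468) (nat_lit 608) (nat_lit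 0) (XT.nd (nat_lit 234) (nat_lit 532) (nat_lit 0) (XT.nd (nat_lit 78) (nat_lit 152) (nat_lit 0) (XT.lf (nat_lit 0) (nat_lit 31976236783) (nat_lit 304) (nat_lit 112919366703) (nat_lit 76) (nat_lit 12063433900) (nat_lit 45) (nat_lit 5) (nat_lit 49) (nat_lit 5) (nat_lit 46) (nat_lit 5) (nat_lit 357) (nat_lit 334) (nat_lit 209)) (XT.nd (nat_lit 78) (nat_lit 0) (nat_lit 0) (XT.lf (nat_lit 0) (nat_lit 17035695552) (nat_lit 152) (nat_lit 66953933777) (nat_lit 228) (nat_lit 81207374144) (nat_lit 43) (nat_lit 5) (nat_lit 45) (nat_lit 5) (nat_lit 46) (nat_lit 5) (nat_lit 358) (nat_lit 334) (nat_lit 208)) (XT.lf (nat_lit 0) (nat_lit 142431369806) (nat_lit 228) (nat_lit 12878697817) (nat_lit 76) (nat_lit 18670575871) (nat_lit 43) (nat_lit 5) (nat_lit 46) (nat_lit 5) (nat_lit 44) (nat_lit 5) (nat_lit 359) (nat_lit 334) (nat_lit 207)))) (XT.nd (nat_lit 78) (nat_lit 304) (nat_lit 0) (XT.lf (nat_lit 0)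 (nat_lit 24686913619) (nat_lit 228) (nat_lit 47238227320) (nat_lit 76) (nat_lit 111358987314) (nat_lit 40) (nat_lit 5) (nat_lit 43) (nat_lit 5) (nat_lit 41) (nat_lit 5) (nat_lit 360) (nat_lit 334) (nat_lit 206)) (XT.nd (nat_lit 78) (nat_lit 152) (nat_lit 0) (XT.lf (nat_lit 0) (nat_lit 86550719832) (nat_lit 228) (nat_lit 86624825502) (nat_lit 76) (nat_lit 20018783942) (nat_lit 38) (nat_lit 5) (nat_lit 41) (nat_lit 5) (nat_lit 39) (nat_lit 5) (nat_lit 361) (nat_lit 334) (nat_lit 205)) (XT.lf (nat_lit 0) (nat_lit 71575893261) (nat_lit 152) (nat_lit 84953644414) (nat_lit 228) (nat_lit 47209513709) (nat_lit 36) (nat_lit 5) (nat_lit 38) (nat_lit 5) (nat_lit 39) (nat_lit 5) (nat_lit 362) (nat_lit 334) (nat_lit 204))))) (XT.nd (nat_lit 234) (nat_lit 304) (nat_lit 0) (XT.nd (nat_lit 78) (nat_lit 152) (nat_lit 0) (XT.lf (nat_lit 0) (nat_lit 18654347565) (nat_lit 152) (nat_lit 184030704186) (nat_lit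 76) (nat_lit 12318121002) (nat_lit 34) (nat_lit 5) (nat_lit 36) (nat_lit 5) (nat_lit 35) (nat_lit 5) (nat_lit 363) (nat_lit 334) (nat_lit 203)) (XT.nd (nat_lit 78) (nat_lit 152) (nat_lit 0) (XT.lf (nat_lit 0) (nat_lit 91927170431) (nat_lit 152) (nat_lit 17442279433) (nat_lit 76) (nat_lit 117570585732) (nat_lit 34) (nat_lit 5) (nat_lit 36) (nat_lit 5) (nat_lit 35) (nat_lit 5) (nat_lit 364) (nat_lit 334) (nat_lit 202)) (XT.lf (nat_lit 0) (nat_lit 167844206769) (nat_lit 152) (nat_lit 5837501538) (nat_lit 228) (nat_lit 66019144970) (nat_lit 32) (nat_lit 5) (nat_lit 34) (nat_lit 5) (nat_lit 35) (nat_lit 5) (nat_lit 365) (nat_lit 334) (nat_lit 201)))) (XT.nd (nat_lit 78) (nat_lit 152) (nat_lit 0) (XT.lf (nat_lit 0) (nat_lit 12077004472) (nat_lit 152) (nat_lit 136288082043) (nat_lit 76) (nat_lit 104918079531) (nat_lit 30) (nat_lit 5) (nat_lit 32) (nat_lit 5) (nat_lit 31) (nat_lit 5) (nat_lit 366)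 (nat_lit 334) (nat_lit 200)) (XT.nd (nat_lit 78) (nat_lit 0) (nat_lit 0) (XT.lf (nat_lit 0) (nat_lit 56196924239) (nat_lit 152) (nat_lit 40189307190) (nat_lit 228) (nat_lit 171397799837) (nat_lit 28) (nat_lit 5) (nat_lit 30) (nat_lit 5) (nat_lit 31) (nat_lit 5) (nat_lit 367) (nat_lit 334) (nat_lit 199)) (XT.lf (nat_lit 0) (nat_lit 191049174895) (nat_lit 228) (nat_lit 15615223964) (nat_lit 76) (nat_lit 76600118128) (nat_lit 28) (nat_lit 5) (nat_lit 31) (nat_lit 5) (nat_lit 29) (nat_lit 4) (nat_lit 368) (nat_lit 334) (nat_lit 198))))))))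
noncomputable def xc102 : XT := (XT.nd (nat_lit 44460) (nat_lit 0) (nat_lit 2280) (XT.nd (nat_lit 858) (nat_lit 456) (nat_lit 0) (XT.nd (nat_lit 390) (nat_lit 380) (nat_lit 0) (XT.nd (nat_lit 156) (nat_lit 228) (nat_lit 0) (XT.nd (nat_lit 78) (nat_lit 228) (nat_lit 0) (XT.lf (nat_lit 0) (nat_lit 201815161560) (nat_lit 76) (nat_lit 95298034989) (nat_lit 152) (nat_lit 2678843071) (nat_lit 27) (nat_lit 5) (nat_lit 28) (nat_lit 5) (nat_lit 29) (nat_lit 4) (nat_lit 369) (nat_lit 334) (nat_lit 197)) (XT.lf (nat_lit 0) (nat_lit 93641853938) (nat_lit 228) (nat_lit 195908186679) (nat_lit 76) (nat_lit 27886801197) (nat_lit 24) (nat_lit 5) (nat_lit 27) (nat_lit 5) (nat_lit 25) (nat_lit 4) (nat_lit 370) (nat_lit 334) (nat_lit 196))) (XT.nd (nat_lit 78) (nat_lit 152) (nat_lit 0) (XT.lf (nat_lit 0) (nat_lit 24798226535) (nat_lit 76) (nat_lit 176505634471) (nat_lit 152) (nat_lit 135000696162) (nat_lit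 23) (nat_lit 5) (nat_lit 24) (nat_lit 5) (nat_lit 25) (nat_lit 4) (nat_lit 371) (nat_lit 334) (nat_lit 195)) (XT.nd (nat_lit 78) (nat_lit 152) (nat_lit 0) (XT.lf (nat_lit 0) (nat_lit 270156125311) (nat_lit 76) (nat_lit 50834832332) (nat_lit 152) (nat_lit 35520125801) (nat_lit 23) (nat_lit 5) (nat_lit 24) (nat_lit 5) (nat_lit 25) (nat_lit 4) (nat_lit 372) (nat_lit 334) (nat_lit 194)) (XT.lf (nat_lit 0) (nat_lit 73512576556) (nat_lit 152) (nat_lit 218704874336) (nat_lit 76) (nat_lit 85865761285) (nat_lit 21) (nat_lit 5) (nat_lit 23) (nat_lit 5) (nat_lit 22) (nat_lit 4) (nat_lit 373) (nat_lit 334) (nat_lit 193))))) (XT.nd (nat_lit 234) (nat_lit 152) (nat_lit 0) (XT.nd (nat_lit 78) (nat_lit 152) (nat_lit 0) (XT.lf (nat_lit 0) (nat_lit 25895379555) (nat_lit 76) (nat_lit 166934652648) (nat_lit 152) (nat_lit 208381634801) (nat_lit 20) (nat_lit 5) (nat_lit 21) (nat_lit 5) (nat_lit 22) (nat_lit 4)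 (nat_lit 374) (nat_lit 334) (nat_lit 192)) (XT.nd (nat_lit 78) (nat_lit 152) (nat_lit 0) (XT.lf (nat_lit 0) (nat_lit 297872789563) (nat_lit 76) (nat_lit 27629389431) (nat_lit 152) (nat_lit 100497754596) (nat_lit 20) (nat_lit 5) (nat_lit 21) (nat_lit 5) (nat_lit 22) (nat_lit 4) (nat_lit 375) (nat_lit 334) (nat_lit 191)) (XT.lf (nat_lit 0) (nat_lit 19697388765) (nat_lit 152) (nat_lit 311436669151) (nat_lit 76) (nat_lit 121415040722) (nat_lit 18) (nat_lit 5) (nat_lit 20) (nat_lit 5) (nat_lit 19) (nat_lit 4) (nat_lit 376) (nat_lit 334) (nat_lit 190)))) (XT.nd (nat_lit 78) (nat_lit 152) (nat_lit 0) (XT.lf (nat_lit 0) (nat_lit 148768259235) (nat_lit 152) (nat_lit 46841785523) (nat_lit 76) (nat_lit 285390723639) (nat_lit 18) (nat_lit 5) (nat_lit 20) (nat_lit 5) (nat_lit 19) (nat_lit 4) (nat_lit 377) (nat_lit 334) (nat_lit 189)) (XT.nd (nat_lit 78) (nat_lit 76) (nat_lit 0) (XT.lf (nat_lit 0) (nat_lit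 246819830518) (nat_lit 76) (nat_lit 45198178565) (nat_lit 152) (nat_lit 219517902251) (nat_lit 17) (nat_lit 5) (nat_lit 18) (nat_lit 5) (nat_lit 19) (nat_lit 4) (nat_lit 378) (nat_lit 334) (nat_lit 188)) (XT.lf (nat_lit 0) (nat_lit 19968588992) (nat_lit 76) (nat_lit 429730465856) (nat_lit 76) (nat_lit 94666245135) (nat_lit 16) (nat_lit 4) (nat_lit 17) (nat_lit 5) (nat_lit 17) (nat_lit 4) (nat_lit 379) (nat_lit 334) (nat_lit 187)))))) (XT.nd (nat_lit 468) (nat_lit 152) (nat_lit 0) (XT.nd (nat_lit 234) (nat_lit 152) (nat_lit 0) (XT.nd (nat_lit 78) (nat_lit 76) (nat_lit 0) (XT.lf (nat_lit 0) (nat_lit 44336322212) (nat_lit 152) (nat_lit 244175063230) (nat_lit 76) (nat_lit 291005864169) (nat_lit 15) (nat_lit 5) (nat_lit 17) (nat_lit 5) (nat_lit 16) (nat_lit 4) (nat_lit 380) (nat_lit 334) (nat_lit 186)) (XT.nd (nat_lit 78) (nat_lit 0) (nat_lit 0) (XT.lf (nat_lit 0) (nat_lit 58747809668) (nat_lit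 76) (nat_lit 133355904493) (nat_lit 152) (nat_lit 425251982663) (nat_lit 14) (nat_lit 5) (nat_lit 15) (nat_lit 5) (nat_lit 16) (nat_lit 4) (nat_lit 381) (nat_lit 334) (nat_lit 185)) (XT.lf (nat_lit 0) (nat_lit 356549457147) (nat_lit 152) (nat_lit 263989042521) (nat_lit 0) (nat_lit 37439872218) (nat_lit 14) (nat_lit 5) (nat_lit 16) (nat_lit 4) (nat_lit 14) (nat_lit 4) (nat_lit 382) (nat_lit 334) (nat_lit 184)))) (XT.nd (nat_lit 78) (nat_lit 76) (nat_lit 0) (XT.lf (nat_lit 0) (nat_lit 53667889828) (nat_lit 76) (nat_lit 483569235955) (nat_lit 76) (nat_lit 164459421914) (nat_lit 13) (nat_lit 4) (nat_lit 14) (nat_lit 5) (nat_lit 14) (nat_lit 4) (nat_lit 383) (nat_lit 334) (nat_lit 183)) (XT.nd (nat_lit 78) (nat_lit 76) (nat_lit 0) (XT.lf (nat_lit 0) (nat_lit 406163858849) (nat_lit 76) (nat_lit 330814215808) (nat_lit 76) (nat_lit 11704189626) (nat_lit 13) (nat_lit 4) (nat_lit 14) (nat_lit 5) (nat_lit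 14) (nat_lit 4) (nat_lit 384) (nat_lit 334) (nat_lit 182)) (XT.lf (nat_lit 0) (nat_lit 148365580028) (nat_lit 152) (nat_lit 14960783549) (nat_lit 76) (nat_lit 635980836673) (nat_lit 12) (nat_lit 5) (nat_lit 14) (nat_lit 5) (nat_lit 13) (nat_lit 4) (nat_lit 385) (nat_lit 334) (nat_lit 181))))) (XT.nd (nat_lit 42900) (nat_lit 0) (nat_lit 6840) (XT.nd (nat_lit 78) (nat_lit 76) (nat_lit 0) (XT.lf (nat_lit 0) (nat_lit 326664416803) (nat_lit 152) (nat_lit 504266697700) (nat_lit 0) (nat_lit 22749745866) (nat_lit 11) (nat_lit 5) (nat_lit 13) (nat_lit 4) (nat_lit 11) (nat_lit 4) (nat_lit 386) (nat_lit 334) (nat_lit 180)) (XT.nd (nat_lit 78) (nat_lit 76) (nat_lit 0) (XT.lf (nat_lit 0) (nat_lit 522245808122) (nat_lit 152) (nat_lit 171676696033) (nat_lit 0) (nat_lit 218330976800) (nat_lit 11) (nat_lit 5) (nat_lit 13) (nat_lit 4) (nat_lit 11) (nat_lit 4) (nat_lit 387) (nat_lit 334) (nat_lit 179)) (XT.lf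 (nat_lit 0) (nat_lit 193720388995) (nat_lit 76) (nat_lit 542777642995) (nat_lit 76) (nat_lit 238862663170) (nat_lit 10) (nat_lit 4) (nat_lit 11) (nat_lit 5) (nat_lit 11) (nat_lit 4) (nat_lit 388) (nat_lit 334) (nat_lit 178)))) (XT.nd (nat_lit 78) (nat_lit 0) (nat_lit 76) (XT.lf (nat_lit 0) (nat_lit 3168725931) (nat_lit 836) (nat_lit 13482181702) (nat_lit 836) (nat_lit 13482181702) (nat_lit 100) (nat_lit 3) (nat_lit 111) (nat_lit 3) (nat_lit 111) (nat_lit 5) (nat_lit 335) (nat_lit 335) (nat_lit 230)) (XT.nd (nat_lit 78) (nat_lit 0) (nat_lit 0) (XT.lf (nat_lit 0) (nat_lit 7112055194) (nat_lit 760) (nat_lit 43581820731) (nat_lit 836) (nat_lit 11956865738) (nat_lit 101) (nat_lit 5) (nat_lit 111) (nat_lit 5) (nat_lit 112) (nat_lit 5) (nat_lit 336) (nat_lit 335) (nat_lit 229)) (XT.lf (nat_lit 76) (nat_lit 4105703188) (nat_lit 0) (nat_lit 4943214618) (nat_lit 836) (nat_lit 56122140226) (nat_lit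 102) (nat_lit 5) (nat_lit 101) (nat_lit 5) (nat_lit 112) (nat_lit 5) (nat_lit 337) (nat_lit 335) (nat_lit 228))))))) (XT.nd (nat_lit 936) (nat_lit 2432) (nat_lit 0) (XT.nd (nat_lit 468) (nat_lit 1748) (nat_lit 0) (XT.nd (nat_lit 234) (nat_lit 532) (nat_lit 0) (XT.nd (nat_lit 78) (nat_lit 0) (nat_lit 76) (XT.lf (nat_lit 0) (nat_lit 12604056386) (nat_lit 760) (nat_lit 11398949496) (nat_lit 836) (nat_lit 43816830158) (nat_lit 102) (nat_lit 5) (nat_lit 112) (nat_lit 5) (nat_lit 113) (nat_lit 5) (nat_lit 338) (nat_lit 335) (nat_lit 227)) (XT.nd (nat_lit 78) (nat_lit 0) (nat_lit 76) (XT.lf (nat_lit 0) (nat_lit 17615852795) (nat_lit 760) (nat_lit 27504110372) (nat_lit 836) (nat_lit 25501943263) (nat_lit 103) (nat_lit 5) (nat_lit 113) (nat_lit 5) (nat_lit 114) (nat_lit 5) (nat_lit 339) (nat_lit 335) (nat_lit 226)) (XT.lf (nat_lit 0) (nat_lit 24171510488) (nat_lit 760) (nat_lit 44383654776) (nat_lit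 836) (nat_lit 5035833602) (nat_lit 104) (nat_lit 5) (nat_lit 114) (nat_lit 5) (nat_lit 115) (nat_lit 5) (nat_lit 340) (nat_lit 335) (nat_lit 225)))) (XT.nd (nat_lit 78) (nat_lit 684) (nat_lit 0) (XT.lf (nat_lit 76) (nat_lit 14353259357) (nat_lit 0) (nat_lit 18368167188) (nat_lit 836) (nat_lit 44002703990) (nat_lit 105) (nat_lit 5) (nat_lit 104) (nat_lit 5) (nat_lit 115) (nat_lit 5) (nat_lit 341) (nat_lit 335) (nat_lit 224)) (XT.nd (nat_lit 78) (nat_lit 760) (nat_lit 0) (XT.lf (nat_lit 0) (nat_lit 43298690457) (nat_lit 760) (nat_lit 1269062972) (nat_lit 76) (nat_lit 35472993549) (nat_lit 105) (nat_lit 5) (nat_lit 115) (nat_lit 5) (nat_lit 106) (nat_lit 5) (nat_lit 342) (nat_lit 335) (nat_lit 223)) (XT.lf (nat_lit 0) (nat_lit 56232413248) (nat_lit 836) (nat_lit 17179576477) (nat_lit 76) (nat_lit 10135190942) (nat_lit 95) (nat_lit 5) (nat_lit 106) (nat_lit 5) (nat_lit 96) (nat_lit 5) (nat_lit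 343) (nat_lit 335) (nat_lit 222))))) (XT.nd (nat_lit 234) (nat_lit 608) (nat_lit 0) (XT.nd (nat_lit 78) (nat_lit 760) (nat_lit 0) (XT.lf (nat_lit 0) (nat_lit 53072689912) (nat_lit 380) (nat_lit 18729051945) (nat_lit 456) (nat_lit 15452343483) (nat_lit 90) (nat_lit 5) (nat_lit 95) (nat_lit 5) (nat_lit 96) (nat_lit 5) (nat_lit 344) (nat_lit 335) (nat_lit 221)) (XT.nd (nat_lit 78) (nat_lit 456) (nat_lit 0) (XT.lf (nat_lit 0) (nat_lit 38925733987) (nat_lit 304) (nat_lit 51230858900) (nat_lit 380) (nat_lit 1023952254) (nat_lit 86) (nat_lit 5) (nat_lit 90) (nat_lit 5) (nat_lit 91) (nat_lit 5) (nat_lit 345) (nat_lit 335) (nat_lit 220)) (XT.lf (nat_lit 0) (nat_lit 15518984638) (nat_lit 456) (nat_lit 71556514649) (nat_lit 76) (nat_lit 8262946503) (nat_lit 80) (nat_lit 5) (nat_lit 86) (nat_lit 5) (nat_lit 81) (nat_lit 5) (nat_lit 346) (nat_lit 335) (nat_lit 219)))) (XT.nd (nat_lit 78) (nat_lit 304)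 (nat_lit 0) (XT.lf (nat_lit 0) (nat_lit 7320825677) (nat_lit 304) (nat_lit 27931031654) (nat_lit 380) (nat_lit 64481164372) (nat_lit 76) (nat_lit 5) (nat_lit 80) (nat_lit 5) (nat_lit 81) (nat_lit 5) (nat_lit 347) (nat_lit 335) (nat_lit 218)) (XT.nd (nat_lit 78) (nat_lit 304) (nat_lit 0) (XT.lf (nat_lit 0) (nat_lit 58390125971) (nat_lit 380) (nat_lit 9936460099) (nat_lit 76) (nat_lit 36061240494) (nat_lit 76) (nat_lit 5) (nat_lit 81) (nat_lit 5) (nat_lit 77) (nat_lit 5) (nat_lit 348) (nat_lit 335) (nat_lit 217)) (XT.lf (nat_lit 0) (nat_lit 81265904118) (nat_lit 304) (nat_lit 3852069654) (nat_lit 380) (nat_lit 24210117252) (nat_lit 72) (nat_lit 5) (nat_lit 76) (nat_lit 5) (nat_lit 77) (nat_lit 5) (nat_lit 349) (nat_lit 335) (nat_lit 216)))))) (XT.nd (nat_lit 468) (nat_lit 1064) (nat_lit 0) (XT.nd (nat_lit 234) (nat_lit 532) (nat_lit 0) (XT.nd (nat_lit 78) (nat_lit 532) (nat_lit 0) (XT.lf (nat_lit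 0) (nat_lit 1619968867) (nat_lit 304) (nat_lit 48014169683) (nat_lit 76) (nat_lit 64916082170) (nat_lit 68) (nat_lit 5) (nat_lit 72) (nat_lit 5) (nat_lit 69) (nat_lit 5) (nat_lit 350) (nat_lit 335) (nat_lit 215)) (XT.nd (nat_lit 78) (nat_lit 228) (nat_lit 0) (XT.lf (nat_lit 0) (nat_lit 30353834721) (nat_lit 380) (nat_lit 69746532070) (nat_lit 76) (nat_lit 19985631665) (nat_lit 64) (nat_lit 5) (nat_lit 69) (nat_lit 5) (nat_lit 65) (nat_lit 5) (nat_lit 351) (nat_lit 335) (nat_lit 214)) (XT.lf (nat_lit 0) (nat_lit 32439341575) (nat_lit 228) (nat_lit 31139476161) (nat_lit 304) (nat_lit 62376201107) (nat_lit 61) (nat_lit 5) (nat_lit 64) (nat_lit 5) (nat_lit 65) (nat_lit 5) (nat_lit 352) (nat_lit 335) (nat_lit 213)))) (XT.nd (nat_lit 78) (nat_lit 304) (nat_lit 0) (XT.lf (nat_lit 0) (nat_lit 12768608986) (nat_lit 228) (nat_lit 88803014936) (nat_lit 304) (nat_lit 30616446477) (nat_lit 58) (nat_lit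 5) (nat_lit 61) (nat_lit 5) (nat_lit 62) (nat_lit 5) (nat_lit 353) (nat_lit 335) (nat_lit 212)) (XT.nd (nat_lit 78) (nat_lit 228) (nat_lit 0) (XT.lf (nat_lit 0) (nat_lit 5745950361) (nat_lit 304) (nat_lit 8553942271) (nat_lit 76) (nat_lit 124508009391) (nat_lit 57) (nat_lit 5) (nat_lit 61) (nat_lit 5) (nat_lit 58) (nat_lit 5) (nat_lit 354) (nat_lit 335) (nat_lit 211)) (XT.lf (nat_lit 0) (nat_lit 46813727286) (nat_lit 304) (nat_lit 32590710476) (nat_lit 76) (nat_lit 66384335619) (nat_lit 54) (nat_lit 5) (nat_lit 58) (nat_lit 5) (nat_lit 55) (nat_lit 5) (nat_lit 355) (nat_lit 335) (nat_lit 210))))) (XT.nd (nat_lit 234) (nat_lit 380) (nat_lit 0) (XT.nd (nat_lit 78) (nat_lit 456) (nat_lit 0) (XT.lf (nat_lit 0) (nat_lit 93055480602) (nat_lit 304) (nat_lit 58803678239) (nat_lit 76) (nat_lit 1374528471) (nat_lit 51) (nat_lit 5) (nat_lit 55) (nat_lit 5) (nat_lit 52) (nat_lit 5) (nat_lit 356) (nat_lit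 335) (nat_lit 209)) (XT.nd (nat_lit 78) (nat_lit 304) (nat_lit 0) (XT.lf (nat_lit 0) (nat_lit 72501422868) (nat_lit 152) (nat_lit 73542195281) (nat_lit 228) (nat_lit 15078224548) (nat_lit 49) (nat_lit 5) (nat_lit 51) (nat_lit 5) (nat_lit 52) (nat_lit 5) (nat_lit 357) (nat_lit 335) (nat_lit 208)) (XT.lf (nat_lit 0) (nat_lit 34550400970) (nat_lit 304) (nat_lit 121927684797) (nat_lit 76) (nat_lit 13036862130) (nat_lit 45) (nat_lit 5) (nat_lit 49) (nat_lit 5) (nat_lit 46) (nat_lit 5) (nat_lit 358) (nat_lit 335) (nat_lit 207)))) (XT.nd (nat_lit 78) (nat_lit 228) (nat_lit 0) (XT.lf (nat_lit 0) (nat_lit 18422685919) (nat_lit 152) (nat_lit 72301365794) (nat_lit 228) (nat_lit 87687940902) (nat_lit 43) (nat_lit 5) (nat_lit 45) (nat_lit 5) (nat_lit 46) (nat_lit 5) (nat_lit 359) (nat_lit 335) (nat_lit 206)) (XT.nd (nat_lit 78) (nat_lit 228) (nat_lit 0) (XT.lf (nat_lit 0) (nat_lit 153840130058) (nat_lit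 228) (nat_lit 13886061072) (nat_lit 76) (nat_lit 20172183408) (nat_lit 43) (nat_lit 5) (nat_lit 46) (nat_lit 5) (nat_lit 44) (nat_lit 5) (nat_lit 360) (nat_lit 335) (nat_lit 205)) (XT.lf (nat_lit 0) (nat_lit 26675633262) (nat_lit 228) (nat_lit 50994887403) (nat_lit 76) (nat_lit 120275642551) (nat_lit 40) (nat_lit 5) (nat_lit 43) (nat_lit 5) (nat_lit 41) (nat_lit 5) (nat_lit 361) (nat_lit 335) (nat_lit 204))))))))
noncomputable def xc103 : XT := (XT.nd (nat_lit 1794) (nat_lit 152) (nat_lit 0) (XT.nd (nat_lit 858) (nat_lit 760) (nat_lit 0) (XT.nd (nat_lit 390) (nat_lit 684) (nat_lit 0) (XT.nd (nat_lit 156) (nat_lit 304) (nat_lit 0) (XT.nd (nat_lit 78) (nat_lit 152) (nat_lit 0) (XT.lf (nat_lit 0) (nat_lit 93487988992) (nat_lit 228) (nat_lit 93532856580) (nat_lit 76) (nat_lit 21628363015) (nat_lit 38) (nat_lit 5) (nat_lit 41) (nat_lit 5) (nat_lit 39) (nat_lit 5) (nat_lit 362) (nat_lit 335) (nat_lit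 203)) (XT.lf (nat_lit 0) (nat_lit 77322965548) (nat_lit 152) (nat_lit 91741495961) (nat_lit 228) (nat_lit 50973079970) (nat_lit 36) (nat_lit 5) (nat_lit 38) (nat_lit 5) (nat_lit 39) (nat_lit 5) (nat_lit 363) (nat_lit 335) (nat_lit 202))) (XT.nd (nat_lit 78) (nat_lit 152) (nat_lit 0) (XT.lf (nat_lit 0) (nat_lit 20158972184) (nat_lit 152) (nat_lit 198732180753) (nat_lit 76) (nat_lit 13311654526) (nat_lit 34) (nat_lit 5) (nat_lit 36) (nat_lit 5) (nat_lit 35) (nat_lit 5) (nat_lit 364) (nat_lit 335) (nat_lit 201)) (XT.nd (nat_lit 78) (nat_lit 152) (nat_lit 0) (XT.lf (nat_lit 0) (nat_lit 99292711486) (nat_lit 152) (nat_lit 18818236076) (nat_lit 76) (nat_lit 126983717631) (nat_lit 34) (nat_lit 5) (nat_lit 36) (nat_lit 5) (nat_lit 35) (nat_lit 5) (nat_lit 365) (nat_lit 335) (nat_lit 200)) (XT.lf (nat_lit 0) (nat_lit 181290324804) (nat_lit 152) (nat_lit 6296735667) (nat_lit 228) (nat_lit 71289315777)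 (nat_lit 32) (nat_lit 5) (nat_lit 34) (nat_lit 5) (nat_lit 35) (nat_lit 5) (nat_lit 366) (nat_lit 335) (nat_lit 199))))) (XT.nd (nat_lit 234) (nat_lit 380) (nat_lit 0) (XT.nd (nat_lit 78) (nat_lit 152) (nat_lit 0) (XT.lf (nat_lit 0) (nat_lit 13053749995) (nat_lit 152) (nat_lit 147172595051) (nat_lit 76) (nat_lit 113318941044) (nat_lit 30) (nat_lit 5) (nat_lit 32) (nat_lit 5) (nat_lit 31) (nat_lit 5) (nat_lit 367) (nat_lit 335) (nat_lit 198)) (XT.nd (nat_lit 78) (nat_lit 0) (nat_lit 0) (XT.lf (nat_lit 0) (nat_lit 60710406287) (nat_lit 152) (nat_lit 43396801519) (nat_lit 228) (nat_lit 185099038379) (nat_lit 28) (nat_lit 5) (nat_lit 30) (nat_lit 5) (nat_lit 31) (nat_lit 5) (nat_lit 368) (nat_lit 335) (nat_lit 197)) (XT.lf (nat_lit 0) (nat_lit 206342550836) (nat_lit 228) (nat_lit 16847667576) (nat_lit 76) (nat_lit 82734984421) (nat_lit 28) (nat_lit 5) (nat_lit 31) (nat_lit 5) (nat_lit 29) (nat_lit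 4) (nat_lit 369) (nat_lit 335) (nat_lit 196)))) (XT.nd (nat_lit 78) (nat_lit 304) (nat_lit 0) (XT.lf (nat_lit 0) (nat_lit 217976419799) (nat_lit 76) (nat_lit 102914825533) (nat_lit 152) (nat_lit 2883704643) (nat_lit 27) (nat_lit 5) (nat_lit 28) (nat_lit 5) (nat_lit 29) (nat_lit 4) (nat_lit 370) (nat_lit 335) (nat_lit 195)) (XT.nd (nat_lit 78) (nat_lit 76) (nat_lit 0) (XT.lf (nat_lit 0) (nat_lit 101142020875) (nat_lit 228) (nat_lit 211564871422) (nat_lit 76) (nat_lit 30124453142) (nat_lit 24) (nat_lit 5) (nat_lit 27) (nat_lit 5) (nat_lit 25) (nat_lit 4) (nat_lit 371) (nat_lit 335) (nat_lit 194)) (XT.lf (nat_lit 0) (nat_lit 26797360804) (nat_lit 76) (nat_lit 190619212977) (nat_lit 152) (nat_lit 145791925184) (nat_lit 23) (nat_lit 5) (nat_lit 24) (nat_lit 5) (nat_lit 25) (nat_lit 4) (nat_lit 372) (nat_lit 335) (nat_lit 193)))))) (XT.nd (nat_lit 468) (nat_lit 380) (nat_lit 0) (XT.nd (nat_lit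 234) (nat_lit 152) (nat_lit 0) (XT.nd (nat_lit 78) (nat_lit 228) (nat_lit 0) (XT.lf (nat_lit 0) (nat_lit 291782759916) (nat_lit 76) (nat_lit 54895255723) (nat_lit 152) (nat_lit 38353563021) (nat_lit 23) (nat_lit 5) (nat_lit 24) (nat_lit 5) (nat_lit 25) (nat_lit 4) (nat_lit 373) (nat_lit 335) (nat_lit 192)) (XT.nd (nat_lit 78) (nat_lit 76) (nat_lit 0) (XT.lf (nat_lit 0) (nat_lit 79401220555) (nat_lit 152) (nat_lit 236187200341) (nat_lit 76) (nat_lit 92741064254) (nat_lit 21) (nat_lit 5) (nat_lit 23) (nat_lit 5) (nat_lit 22) (nat_lit 4) (nat_lit 374) (nat_lit 335) (nat_lit 191)) (XT.lf (nat_lit 0) (nat_lit 27980462660) (nat_lit 76) (nat_lit 180283254261) (nat_lit 152) (nat_lit 225044517384) (nat_lit 20) (nat_lit 5) (nat_lit 21) (nat_lit 5) (nat_lit 22) (nat_lit 4) (nat_lit 375) (nat_lit 335) (nat_lit 190)))) (XT.nd (nat_lit 78) (nat_lit 152) (nat_lit 0) (XT.lf (nat_lit 0) (nat_lit 321715068969)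 (nat_lit 76) (nat_lit 29834027068) (nat_lit 152) (nat_lit 108530493297) (nat_lit 20) (nat_lit 5) (nat_lit 21) (nat_lit 5) (nat_lit 22) (nat_lit 4) (nat_lit 376) (nat_lit 335) (nat_lit 189)) (XT.nd (nat_lit 78) (nat_lit 0) (nat_lit 0) (XT.lf (nat_lit 0) (nat_lit 21279803913) (nat_lit 152) (nat_lit 336339228275) (nat_lit 76) (nat_lit 131133661545) (nat_lit 18) (nat_lit 5) (nat_lit 20) (nat_lit 5) (nat_lit 19) (nat_lit 4) (nat_lit 377) (nat_lit 335) (nat_lit 188)) (XT.lf (nat_lit 0) (nat_lit 160675853351) (nat_lit 152) (nat_lit 50577670579) (nat_lit 76) (nat_lit 308226997795) (nat_lit 18) (nat_lit 5) (nat_lit 20) (nat_lit 5) (nat_lit 19) (nat_lit 4) (nat_lit 378) (nat_lit 335) (nat_lit 187))))) (XT.nd (nat_lit 234) (nat_lit 152) (nat_lit 0) (XT.nd (nat_lit 78) (nat_lit 152) (nat_lit 0) (XT.lf (nat_lit 0) (nat_lit 266576376804) (nat_lit 76) (nat_lit 48808923172) (nat_lit 152) (nat_lit 237073190389)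 (nat_lit 17) (nat_lit 5) (nat_lit 18) (nat_lit 5) (nat_lit 19) (nat_lit 4) (nat_lit 379) (nat_lit 335) (nat_lit 186)) (XT.nd (nat_lit 78) (nat_lit 76) (nat_lit 0) (XT.lf (nat_lit 0) (nat_lit 21576764449) (nat_lit 76) (nat_lit 464103872350) (nat_lit 76) (nat_lit 102233603040) (nat_lit 16) (nat_lit 4) (nat_lit 17) (nat_lit 5) (nat_lit 17) (nat_lit 4) (nat_lit 380) (nat_lit 335) (nat_lit 185)) (XT.lf (nat_lit 0) (nat_lit 47888553483) (nat_lit 152) (nat_lit 263698994480) (nat_lit 76) (nat_lit 314290814227) (nat_lit 15) (nat_lit 5) (nat_lit 17) (nat_lit 5) (nat_lit 16) (nat_lit 4) (nat_lit 381) (nat_lit 335) (nat_lit 184)))) (XT.nd (nat_lit 78) (nat_lit 76) (nat_lit 0) (XT.lf (nat_lit 0) (nat_lit 63457270455) (nat_lit 76) (nat_lit 144019822297) (nat_lit 152) (nat_lit 459266804711) (nat_lit 14) (nat_lit 5) (nat_lit 15) (nat_lit 5) (nat_lit 16) (nat_lit 4) (nat_lit 382) (nat_lit 335) (nat_lit 183))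 (XT.nd (nat_lit 78) (nat_lit 76) (nat_lit 0) (XT.lf (nat_lit 0) (nat_lit 385078184616) (nat_lit 152) (nat_lit 285099073321) (nat_lit 0) (nat_lit 40439144200) (nat_lit 14) (nat_lit 5) (nat_lit 16) (nat_lit 4) (nat_lit 14) (nat_lit 4) (nat_lit 383) (nat_lit 335) (nat_lit 182)) (XT.lf (nat_lit 0) (nat_lit 57970018462) (nat_lit 76) (nat_lit 522250630671) (nat_lit 76) (nat_lit 177611393829) (nat_lit 13) (nat_lit 4) (nat_lit 14) (nat_lit 5) (nat_lit 14) (nat_lit 4) (nat_lit 384) (nat_lit 335) (nat_lit 181))))))) (XT.nd (nat_lit 43680) (nat_lit 0) (nat_lit 3496) (XT.nd (nat_lit 43212) (nat_lit 0) (nat_lit 6840) (XT.nd (nat_lit 234) (nat_lit 0) (nat_lit 0) (XT.nd (nat_lit 78) (nat_lit 152) (nat_lit 0) (XT.lf (nat_lit 0) (nat_lit 438665020750) (nat_lit 76) (nat_lit 357275515887) (nat_lit 76) (nat_lit 12636097169) (nat_lit 13) (nat_lit 4) (nat_lit 14) (nat_lit 5) (nat_lit 14) (nat_lit 4) (nat_lit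 385) (nat_lit 335) (nat_lit 180)) (XT.nd (nat_lit 78) (nat_lit 76) (nat_lit 0) (XT.lf (nat_lit 0) (nat_lit 160238794871) (nat_lit 152) (nat_lit 16150057635) (nat_lit 76) (nat_lit 686862724618) (nat_lit 12) (nat_lit 5) (nat_lit 14) (nat_lit 5) (nat_lit 13) (nat_lit 4) (nat_lit 386) (nat_lit 335) (nat_lit 179)) (XT.lf (nat_lit 0) (nat_lit 352801412152) (nat_lit 152) (nat_lit 544600638841) (nat_lit 0) (nat_lit 24573085436) (nat_lit 11) (nat_lit 5) (nat_lit 13) (nat_lit 4) (nat_lit 11) (nat_lit 4) (nat_lit 387) (nat_lit 335) (nat_lit 178)))) (XT.nd (nat_lit 42822) (nat_lit 0) (nat_lit 6764) (XT.lf (nat_lit 0) (nat_lit 564029030183) (nat_lit 152) (nat_lit 185403984794) (nat_lit 0) (nat_lit 235800565963) (nat_lit 11) (nat_lit 5) (nat_lit 13) (nat_lit 4) (nat_lit 11) (nat_lit 4) (nat_lit 388) (nat_lit 335) (nat_lit 177)) (XT.nd (nat_lit 78) (nat_lit 0) (nat_lit 76) (XT.lf (nat_lit 0) (nat_lit 3448937482)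 (nat_lit 836) (nat_lit 14546717564) (nat_lit 836) (nat_lit 14546717564) (nat_lit 100) (nat_lit 3) (nat_lit 111) (nat_lit 3) (nat_lit 111) (nat_lit 5) (nat_lit 336) (nat_lit 336) (nat_lit 228)) (XT.lf (nat_lit 0) (nat_lit 7730548738) (nat_lit 760) (nat_lit 47038603004) (nat_lit 836) (nat_lit 12891120578) (nat_lit 101) (nat_lit 5) (nat_lit 111) (nat_lit 5) (nat_lit 112) (nat_lit 5) (nat_lit 337) (nat_lit 336) (nat_lit 227))))) (XT.nd (nat_lit 234) (nat_lit 0) (nat_lit 228) (XT.nd (nat_lit 78) (nat_lit 0) (nat_lit 76) (XT.lf (nat_lit 76) (nat_lit 4462629349) (nat_lit 0) (nat_lit 5356506681) (nat_lit 836) (nat_lit 60563243053) (nat_lit 102) (nat_lit 5) (nat_lit 101) (nat_lit 5) (nat_lit 112) (nat_lit 5) (nat_lit 338) (nat_lit 336) (nat_lit 226)) (XT.nd (nat_lit 78) (nat_lit 0) (nat_lit 76) (XT.lf (nat_lit 0) (nat_lit 13654997884) (nat_lit 760) (nat_lit 12282058094) (nat_lit 836) (nat_lit 47306191325)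 (nat_lit 102) (nat_lit 5) (nat_lit 112) (nat_lit 5) (nat_lit 113) (nat_lit 5) (nat_lit 339) (nat_lit 336) (nat_lit 225)) (XT.lf (nat_lit 0) (nat_lit 19064818826) (nat_lit 760) (nat_lit 29674655215) (nat_lit 836) (nat_lit 27530158558) (nat_lit 103) (nat_lit 5) (nat_lit 113) (nat_lit 5) (nat_lit 114) (nat_lit 5) (nat_lit 340) (nat_lit 336) (nat_lit 224)))) (XT.nd (nat_lit 78) (nat_lit 0) (nat_lit 0) (XT.lf (nat_lit 0) (nat_lit 26142297334) (nat_lit 760) (nat_lit 47903823037) (nat_lit 836) (nat_lit 5430266721) (nat_lit 104) (nat_lit 5) (nat_lit 114) (nat_lit 5) (nat_lit 115) (nat_lit 5) (nat_lit 341) (nat_lit 336) (nat_lit 223)) (XT.nd (nat_lit 78) (nat_lit 0) (nat_lit 76) (XT.lf (nat_lit 76) (nat_lit 15530717686) (nat_lit 0) (nat_lit 19843199215) (nat_lit 836) (nat_lit 47486369725) (nat_lit 105) (nat_lit 5) (nat_lit 104) (nat_lit 5) (nat_lit 115) (nat_lit 5) (nat_lit 342) (nat_lit 336) (nat_lit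 222)) (XT.lf (nat_lit 0) (nat_lit 46794705262) (nat_lit 760) (nat_lit 1341829647) (nat_lit 76) (nat_lit 38305832939) (nat_lit 105) (nat_lit 5) (nat_lit 115) (nat_lit 5) (nat_lit 106) (nat_lit 5) (nat_lit 343) (nat_lit 336) (nat_lit 221)))))) (XT.nd (nat_lit 468) (nat_lit 1444) (nat_lit 0) (XT.nd (nat_lit 234) (nat_lit 760) (nat_lit 0) (XT.nd (nat_lit 78) (nat_lit 684) (nat_lit 0) (XT.lf (nat_lit 0) (nat_lit 60761134585) (nat_lit 836) (nat_lit 18524853525) (nat_lit 76) (nat_lit 10943430127) (nat_lit 95) (nat_lit 5) (nat_lit 106) (nat_lit 5) (nat_lit 96) (nat_lit 5) (nat_lit 344) (nat_lit 336) (nat_lit 220)) (XT.nd (nat_lit 78) (nat_lit 304) (nat_lit 0) (XT.lf (nat_lit 0) (nat_lit 57346330000) (nat_lit 380) (nat_lit 20227882183) (nat_lit 456) (nat_lit 16658755222) (nat_lit 90) (nat_lit 5) (nat_lit 95) (nat_lit 5) (nat_lit 96) (nat_lit 5) (nat_lit 345) (nat_lit 336) (nat_lit 219)) (XT.lf (nat_lit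 0) (nat_lit 42067797897) (nat_lit 304) (nat_lit 55327984731) (nat_lit 380) (nat_lit 1077846886) (nat_lit 86) (nat_lit 5) (nat_lit 90) (nat_lit 5) (nat_lit 91) (nat_lit 5) (nat_lit 346) (nat_lit 336) (nat_lit 218)))) (XT.nd (nat_lit 78) (nat_lit 304) (nat_lit 0) (XT.lf (nat_lit 0) (nat_lit 16786083997) (nat_lit 456) (nat_lit 77252098742) (nat_lit 76) (nat_lit 8926036649) (nat_lit 80) (nat_lit 5) (nat_lit 86) (nat_lit 5) (nat_lit 81) (nat_lit 5) (nat_lit 347) (nat_lit 336) (nat_lit 217)) (XT.nd (nat_lit 78) (nat_lit 0) (nat_lit 0) (XT.lf (nat_lit 0) (nat_lit 7934171240) (nat_lit 304) (nat_lit 30161952562) (nat_lit 380) (nat_lit 69614312414) (nat_lit 76) (nat_lit 5) (nat_lit 80) (nat_lit 5) (nat_lit 81) (nat_lit 5) (nat_lit 348) (nat_lit 336) (nat_lit 216)) (XT.lf (nat_lit 0) (nat_lit 63083718911) (nat_lit 380) (nat_lit 10704662902) (nat_lit 76) (nat_lit 38949331984) (nat_lit 76) (nat_lit 5)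 (nat_lit 81) (nat_lit 5) (nat_lit 77) (nat_lit 5) (nat_lit 349) (nat_lit 336) (nat_lit 215))))) (XT.nd (nat_lit 234) (nat_lit 532) (nat_lit 0) (XT.nd (nat_lit 78) (nat_lit 608) (nat_lit 0) (XT.lf (nat_lit 0) (nat_lit 87792729495) (nat_lit 304) (nat_lit 4155806005) (nat_lit 380) (nat_lit 26124728327) (nat_lit 72) (nat_lit 5) (nat_lit 76) (nat_lit 5) (nat_lit 77) (nat_lit 5) (nat_lit 350) (nat_lit 336) (nat_lit 214)) (XT.nd (nat_lit 78) (nat_lit 304) (nat_lit 0) (XT.lf (nat_lit 0) (nat_lit 1769930719) (nat_lit 304) (nat_lit 51829209615) (nat_lit 76) (nat_lit 70114063700) (nat_lit 68) (nat_lit 5) (nat_lit 72) (nat_lit 5) (nat_lit 69) (nat_lit 5) (nat_lit 351) (nat_lit 336) (nat_lit 213)) (XT.lf (nat_lit 0) (nat_lit 32801476275) (nat_lit 380) (nat_lit 75300406994) (nat_lit 76) (nat_lit 21590013394) (nat_lit 64) (nat_lit 5) (nat_lit 69) (nat_lit 5) (nat_lit 65) (nat_lit 5) (nat_lit 352) (nat_lit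 336) (nat_lit 212)))) (XT.nd (nat_lit 78) (nat_lit 304) (nat_lit 0) (XT.lf (nat_lit 0) (nat_lit 35059213235) (nat_lit 228) (nat_lit 33624198506) (nat_lit 304) (nat_lit 67347080354) (nat_lit 61) (nat_lit 5) (nat_lit 64) (nat_lit 5) (nat_lit 65) (nat_lit 5) (nat_lit 353) (nat_lit 336) (nat_lit 211)) (XT.nd (nat_lit 78) (nat_lit 76) (nat_lit 0) (XT.lf (nat_lit 0) (nat_lit 13814539351) (nat_lit 228) (nat_lit 95900223001) (nat_lit 304) (nat_lit 33047470451) (nat_lit 58) (nat_lit 5) (nat_lit 61) (nat_lit 5) (nat_lit 62) (nat_lit 5) (nat_lit 354) (nat_lit 336) (nat_lit 210)) (XT.lf (nat_lit 0) (nat_lit 6222021106) (nat_lit 304) (nat_lit 9215073127) (nat_lit 76) (nat_lit 134474608928) (nat_lit 57) (nat_lit 5) (nat_lit 61) (nat_lit 5) (nat_lit 58) (nat_lit 5) (nat_lit 355) (nat_lit 336) (nat_lit 209))))))))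
noncomputable def xc104 : XT := (XT.nd (nat_lit 1794) (nat_lit 532) (nat_lit 0) (XT.nd (nat_lit 858) (nat_lit 1216) (nat_lit 0) (XT.nd (nat_lit 390) (nat_lit 684) (nat_lit 0) (XT.nd (nat_lit 156) (nat_lit 608) (nat_lit 0) (XT.nd (nat_lit 78) (nat_lit 228) (nat_lit 0) (XT.lf (nat_lit 0) (nat_lit 50574455837) (nat_lit 304) (nat_lit 35175107412) (nat_lit 76) (nat_lit 71701520031) (nat_lit 54) (nat_lit 5) (nat_lit 58) (nat_lit 5) (nat_lit 55) (nat_lit 5) (nat_lit 356) (nat_lit 336) (nat_lit 208)) (XT.lf (nat_lit 0) (nat_lit 100514843119) (nat_lit 304) (nat_lit 63485465792) (nat_lit 76) (nat_lit 1491317505) (nat_lit 51) (nat_lit 5) (nat_lit 55) (nat_lit 5) (nat_lit 52) (nat_lit 5) (nat_lit 357) (nat_lit 336) (nat_lit 207))) (XT.nd (nat_lit 78) (nat_lit 456) (nat_lit 0) (XT.lf (nat_lit 0) (nat_lit 78323065290) (nat_lit 152) (nat_lit 79418197016) (nat_lit 228) (nat_lit 16269611111) (nat_lit 49)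 (nat_lit 5) (nat_lit 51) (nat_lit 5) (nat_lit 52) (nat_lit 5) (nat_lit 358) (nat_lit 336) (nat_lit 206)) (XT.nd (nat_lit 78) (nat_lit 152) (nat_lit 0) (XT.lf (nat_lit 0) (nat_lit 37328206406) (nat_lit 304) (nat_lit 131660267857) (nat_lit 76) (nat_lit 14086972896) (nat_lit 45) (nat_lit 5) (nat_lit 49) (nat_lit 5) (nat_lit 46) (nat_lit 5) (nat_lit 359) (nat_lit 336) (nat_lit 205)) (XT.lf (nat_lit 0) (nat_lit 19917192428) (nat_lit 152) (nat_lit 78077859586) (nat_lit 228) (nat_lit 94689238885) (nat_lit 43) (nat_lit 5) (nat_lit 45) (nat_lit 5) (nat_lit 46) (nat_lit 5) (nat_lit 360) (nat_lit 336) (nat_lit 204))))) (XT.nd (nat_lit 234) (nat_lit 304) (nat_lit 0) (XT.nd (nat_lit 78) (nat_lit 380) (nat_lit 0) (XT.lf (nat_lit 0) (nat_lit 166159558113) (nat_lit 228) (nat_lit 14977284974) (nat_lit 76) (nat_lit 21792783756) (nat_lit 43) (nat_lit 5) (nat_lit 46) (nat_lit 5) (nat_lit 44) (nat_lit 5) (nat_lit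 361) (nat_lit 336) (nat_lit 203)) (XT.nd (nat_lit 78) (nat_lit 152) (nat_lit 0) (XT.lf (nat_lit 0) (nat_lit 28821486525) (nat_lit 228) (nat_lit 55055275633) (nat_lit 76) (nat_lit 129904498011) (nat_lit 40) (nat_lit 5) (nat_lit 43) (nat_lit 5) (nat_lit 41) (nat_lit 5) (nat_lit 362) (nat_lit 336) (nat_lit 202)) (XT.lf (nat_lit 0) (nat_lit 100978354906) (nat_lit 228) (nat_lit 100996662265) (nat_lit 76) (nat_lit 23365556232) (nat_lit 38) (nat_lit 5) (nat_lit 41) (nat_lit 5) (nat_lit 39) (nat_lit 5) (nat_lit 363) (nat_lit 336) (nat_lit 201)))) (XT.nd (nat_lit 78) (nat_lit 152) (nat_lit 0) (XT.lf (nat_lit 0) (nat_lit 83526807616) (nat_lit 152) (nat_lit 99073579692) (nat_lit 228) (nat_lit 55039613923) (nat_lit 36) (nat_lit 5) (nat_lit 38) (nat_lit 5) (nat_lit 39) (nat_lit 5) (nat_lit 364) (nat_lit 336) (nat_lit 200)) (XT.nd (nat_lit 78) (nat_lit 0) (nat_lit 0) (XT.lf (nat_lit 0) (nat_lit 21782215349)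 (nat_lit 152) (nat_lit 214612768444) (nat_lit 76) (nat_lit 14383517482) (nat_lit 34) (nat_lit 5) (nat_lit 36) (nat_lit 5) (nat_lit 35) (nat_lit 5) (nat_lit 365) (nat_lit 336) (nat_lit 199)) (XT.lf (nat_lit 0) (nat_lit 107245874137) (nat_lit 152) (nat_lit 20307040546) (nat_lit 76) (nat_lit 137148832258) (nat_lit 34) (nat_lit 5) (nat_lit 36) (nat_lit 5) (nat_lit 35) (nat_lit 5) (nat_lit 366) (nat_lit 336) (nat_lit 198)))))) (XT.nd (nat_lit 468) (nat_lit 456) (nat_lit 0) (XT.nd (nat_lit 234) (nat_lit 304) (nat_lit 0) (XT.nd (nat_lit 78) (nat_lit 304) (nat_lit 0) (XT.lf (nat_lit 0) (nat_lit 195809481424) (nat_lit 152) (nat_lit 6793816432) (nat_lit 228) (nat_lit 76982720992) (nat_lit 32) (nat_lit 5) (nat_lit 34) (nat_lit 5) (nat_lit 35) (nat_lit 5) (nat_lit 367) (nat_lit 336) (nat_lit 197)) (XT.nd (nat_lit 78) (nat_lit 152) (nat_lit 0) (XT.lf (nat_lit 0) (nat_lit 14107125066) (nat_lit 152) (nat_lit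 158930513119) (nat_lit 76) (nat_lit 122390813623) (nat_lit 30) (nat_lit 5) (nat_lit 32) (nat_lit 5) (nat_lit 31) (nat_lit 5) (nat_lit 368) (nat_lit 336) (nat_lit 196)) (XT.lf (nat_lit 0) (nat_lit 65582437787) (nat_lit 152) (nat_lit 46861986787) (nat_lit 228) (nat_lit 199897886137) (nat_lit 28) (nat_lit 5) (nat_lit 30) (nat_lit 5) (nat_lit 31) (nat_lit 5) (nat_lit 369) (nat_lit 336) (nat_lit 195)))) (XT.nd (nat_lit 78) (nat_lit 304) (nat_lit 0) (XT.lf (nat_lit 0) (nat_lit 222858049853) (nat_lit 228) (nat_lit 18181099719) (nat_lit 76) (nat_lit 89359661813) (nat_lit 28) (nat_lit 5) (nat_lit 31) (nat_lit 5) (nat_lit 29) (nat_lit 4) (nat_lit 370) (nat_lit 336) (nat_lit 194)) (XT.nd (nat_lit 78) (nat_lit 228) (nat_lit 0) (XT.lf (nat_lit 0) (nat_lit 235428289654) (nat_lit 76) (nat_lit 111141965402) (nat_lit 152) (nat_lit 3106302702) (nat_lit 27) (nat_lit 5) (nat_lit 28) (nat_lit 5) (nat_lit 29)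 (nat_lit 4) (nat_lit 371) (nat_lit 336) (nat_lit 193)) (XT.lf (nat_lit 0) (nat_lit 109240943093) (nat_lit 228) (nat_lit 228476369270) (nat_lit 76) (nat_lit 32540160293) (nat_lit 24) (nat_lit 5) (nat_lit 27) (nat_lit 5) (nat_lit 25) (nat_lit 4) (nat_lit 372) (nat_lit 336) (nat_lit 192))))) (XT.nd (nat_lit 234) (nat_lit 228) (nat_lit 0) (XT.nd (nat_lit 78) (nat_lit 152) (nat_lit 0) (XT.lf (nat_lit 0) (nat_lit 28954246502) (nat_lit 76) (nat_lit 205862858167) (nat_lit 152) (nat_lit 157447711751) (nat_lit 23) (nat_lit 5) (nat_lit 24) (nat_lit 5) (nat_lit 25) (nat_lit 4) (nat_lit 373) (nat_lit 336) (nat_lit 191)) (XT.nd (nat_lit 78) (nat_lit 152) (nat_lit 0) (XT.lf (nat_lit 0) (nat_lit 315137507407) (nat_lit 76) (nat_lit 59281420766) (nat_lit 152) (nat_lit 41414841167) (nat_lit 23) (nat_lit 5) (nat_lit 24) (nat_lit 5) (nat_lit 25) (nat_lit 4) (nat_lit 374) (nat_lit 336) (nat_lit 190)) (XT.lf (nat_lit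 0) (nat_lit 85759866446) (nat_lit 152) (nat_lit 255070118804) (nat_lit 76) (nat_lit 100165529491) (nat_lit 21) (nat_lit 5) (nat_lit 23) (nat_lit 5) (nat_lit 22) (nat_lit 4) (nat_lit 375) (nat_lit 336) (nat_lit 189)))) (XT.nd (nat_lit 78) (nat_lit 152) (nat_lit 0) (XT.lf (nat_lit 0) (nat_lit 30230433229) (nat_lit 76) (nat_lit 194700624308) (nat_lit 152) (nat_lit 243041521676) (nat_lit 20) (nat_lit 5) (nat_lit 21) (nat_lit 5) (nat_lit 22) (nat_lit 4) (nat_lit 376) (nat_lit 336) (nat_lit 188)) (XT.nd (nat_lit 78) (nat_lit 152) (nat_lit 0) (XT.lf (nat_lit 0) (nat_lit 347462953706) (nat_lit 76) (nat_lit 32215850813) (nat_lit 152) (nat_lit 117206861372) (nat_lit 20) (nat_lit 5) (nat_lit 21) (nat_lit 5) (nat_lit 22) (nat_lit 4) (nat_lit 377) (nat_lit 336) (nat_lit 187)) (XT.lf (nat_lit 0) (nat_lit 22987867278) (nat_lit 152) (nat_lit 363235757476) (nat_lit 76) (nat_lit 141628999159) (nat_lit 18)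 (nat_lit 5) (nat_lit 20) (nat_lit 5) (nat_lit 19) (nat_lit 4) (nat_lit 378) (nat_lit 336) (nat_lit 186))))))) (XT.nd (nat_lit 43680) (nat_lit 0) (nat_lit 4940) (XT.nd (nat_lit 390) (nat_lit 228) (nat_lit 0) (XT.nd (nat_lit 156) (nat_lit 228) (nat_lit 0) (XT.nd (nat_lit 78) (nat_lit 76) (nat_lit 0) (XT.lf (nat_lit 0) (nat_lit 173535180001) (nat_lit 152) (nat_lit 54614061021) (nat_lit 76) (nat_lit 332889458257) (nat_lit 18) (nat_lit 5) (nat_lit 20) (nat_lit 5) (nat_lit 19) (nat_lit 4) (nat_lit 379) (nat_lit 336) (nat_lit 185)) (XT.lf (nat_lit 0) (nat_lit 287911883249) (nat_lit 76) (nat_lit 52709256300) (nat_lit 152) (nat_lit 256033778096) (nat_lit 17) (nat_lit 5) (nat_lit 18) (nat_lit 5) (nat_lit 19) (nat_lit 4) (nat_lit 380) (nat_lit 336) (nat_lit 184))) (XT.nd (nat_lit 78) (nat_lit 152) (nat_lit 0) (XT.lf (nat_lit 0) (nat_lit 23312069131) (nat_lit 76) (nat_lit 501227869060) (nat_lit 76)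 (nat_lit 110407197228) (nat_lit 16) (nat_lit 4) (nat_lit 17) (nat_lit 5) (nat_lit 17) (nat_lit 4) (nat_lit 381) (nat_lit 336) (nat_lit 183)) (XT.nd (nat_lit 78) (nat_lit 76) (nat_lit 0) (XT.lf (nat_lit 0) (nat_lit 51724203515) (nat_lit 152) (nat_lit 284786277371) (nat_lit 76) (nat_lit 339437921035) (nat_lit 15) (nat_lit 5) (nat_lit 17) (nat_lit 5) (nat_lit 16) (nat_lit 4) (nat_lit 382) (nat_lit 336) (nat_lit 182)) (XT.lf (nat_lit 0) (nat_lit 68542113420) (nat_lit 76) (nat_lit 155537503285) (nat_lit 152) (nat_lit 496003573844) (nat_lit 14) (nat_lit 5) (nat_lit 15) (nat_lit 5) (nat_lit 16) (nat_lit 4) (nat_lit 383) (nat_lit 336) (nat_lit 181))))) (XT.nd (nat_lit 234) (nat_lit 152) (nat_lit 0) (XT.nd (nat_lit 78) (nat_lit 76) (nat_lit 0) (XT.lf (nat_lit 0) (nat_lit 415888529660) (nat_lit 152) (nat_lit 307899203746) (nat_lit 0) (nat_lit 43677775568) (nat_lit 14) (nat_lit 5) (nat_lit 16) (nat_lit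 4) (nat_lit 14) (nat_lit 4) (nat_lit 384) (nat_lit 336) (nat_lit 180)) (XT.nd (nat_lit 78) (nat_lit 0) (nat_lit 0) (XT.lf (nat_lit 0) (nat_lit 62615076600) (nat_lit 76) (nat_lit 564027128175) (nat_lit 76) (nat_lit 191816205680) (nat_lit 13) (nat_lit 4) (nat_lit 14) (nat_lit 5) (nat_lit 14) (nat_lit 4) (nat_lit 385) (nat_lit 336) (nat_lit 179)) (XT.lf (nat_lit 0) (nat_lit 473765126725) (nat_lit 76) (nat_lit 385854267390) (nat_lit 76) (nat_lit 13643188965) (nat_lit 13) (nat_lit 4) (nat_lit 14) (nat_lit 5) (nat_lit 14) (nat_lit 4) (nat_lit 386) (nat_lit 336) (nat_lit 178)))) (XT.nd (nat_lit 78) (nat_lit 76) (nat_lit 0) (XT.lf (nat_lit 0) (nat_lit 173061300759) (nat_lit 152) (nat_lit 17435556247) (nat_lit 76) (nat_lit 741814675554) (nat_lit 12) (nat_lit 5) (nat_lit 14) (nat_lit 5) (nat_lit 13) (nat_lit 4) (nat_lit 387) (nat_lit 336) (nat_lit 177)) (XT.nd (nat_lit 42900) (nat_lit 0) (nat_lit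 6764) (XT.lf (nat_lit 0) (nat_lit 381028819024) (nat_lit 152) (nat_lit 588162350206) (nat_lit 0) (nat_lit 26541812844) (nat_lit 11) (nat_lit 5) (nat_lit 13) (nat_lit 4) (nat_lit 11) (nat_lit 4) (nat_lit 388) (nat_lit 336) (nat_lit 176)) (XT.lf (nat_lit 0) (nat_lit 3747754981) (nat_lit 836) (nat_lit 15698419068) (nat_lit 836) (nat_lit 15698419068) (nat_lit 100) (nat_lit 3) (nat_lit 111) (nat_lit 3) (nat_lit 111) (nat_lit 5) (nat_lit 337) (nat_lit 337) (nat_lit 226)))))) (XT.nd (nat_lit 468) (nat_lit 1900) (nat_lit 0) (XT.nd (nat_lit 234) (nat_lit 0) (nat_lit 152) (XT.nd (nat_lit 78) (nat_lit 0) (nat_lit 0) (XT.lf (nat_lit 0) (nat_lit 8391455881) (nat_lit 760) (nat_lit 50776173938) (nat_lit 836) (nat_lit 13903296353) (nat_lit 101) (nat_lit 5) (nat_lit 111) (nat_lit 5) (nat_lit 112) (nat_lit 5) (nat_lit 338) (nat_lit 337) (nat_lit 225)) (XT.nd (nat_lit 78) (nat_lit 0) (nat_lit 76) (XT.lf (nat_lit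 76) (nat_lit 4844048052) (nat_lit 0) (nat_lit 5800317762) (nat_lit 836) (nat_lit 65366577196) (nat_lit 102) (nat_lit 5) (nat_lit 101) (nat_lit 5) (nat_lit 112) (nat_lit 5) (nat_lit 339) (nat_lit 337) (nat_lit 224)) (XT.lf (nat_lit 0) (nat_lit 14783934912) (nat_lit 760) (nat_lit 13239925073) (nat_lit 836) (nat_lit 51076981859) (nat_lit 102) (nat_lit 5) (nat_lit 112) (nat_lit 5) (nat_lit 113) (nat_lit 5) (nat_lit 340) (nat_lit 337) (nat_lit 223)))) (XT.nd (nat_lit 78) (nat_lit 0) (nat_lit 76) (XT.lf (nat_lit 0) (nat_lit 20624038803) (nat_lit 760) (nat_lit 32023092665) (nat_lit 836) (nat_lit 29722334475) (nat_lit 103) (nat_lit 5) (nat_lit 113) (nat_lit 5) (nat_lit 114) (nat_lit 5) (nat_lit 341) (nat_lit 337) (nat_lit 222)) (XT.nd (nat_lit 78) (nat_lit 0) (nat_lit 0) (XT.lf (nat_lit 0) (nat_lit 28265459247) (nat_lit 760) (nat_lit 51709959366) (nat_lit 836) (nat_lit 5857457632) (nat_lit 104)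 (nat_lit 5) (nat_lit 114) (nat_lit 5) (nat_lit 115) (nat_lit 5) (nat_lit 342) (nat_lit 337) (nat_lit 221)) (XT.lf (nat_lit 76) (nat_lit 16798207319) (nat_lit 0) (nat_lit 21435437948) (nat_lit 836) (nat_lit 51253943068) (nat_lit 105) (nat_lit 5) (nat_lit 104) (nat_lit 5) (nat_lit 115) (nat_lit 5) (nat_lit 343) (nat_lit 337) (nat_lit 220))))) (XT.nd (nat_lit 234) (nat_lit 1064) (nat_lit 0) (XT.nd (nat_lit 78) (nat_lit 1140) (nat_lit 0) (XT.lf (nat_lit 0) (nat_lit 50565819036) (nat_lit 760) (nat_lit 1424520359) (nat_lit 76) (nat_lit 41366012801) (nat_lit 105) (nat_lit 5) (nat_lit 115) (nat_lit 5) (nat_lit 106) (nat_lit 5) (nat_lit 344) (nat_lit 337) (nat_lit 219)) (XT.nd (nat_lit 78) (nat_lit 380) (nat_lit 0) (XT.lf (nat_lit 0) (nat_lit 65647855493) (nat_lit 836) (nat_lit 19981902618) (nat_lit 76) (nat_lit 11816695954) (nat_lit 95) (nat_lit 5) (nat_lit 106) (nat_lit 5) (nat_lit 96) (nat_lit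 5) (nat_lit 345) (nat_lit 337) (nat_lit 218)) (XT.lf (nat_lit 0) (nat_lit 61957891762) (nat_lit 380) (nat_lit 21846546643) (nat_lit 456) (nat_lit 17965927743) (nat_lit 90) (nat_lit 5) (nat_lit 95) (nat_lit 5) (nat_lit 96) (nat_lit 5) (nat_lit 346) (nat_lit 337) (nat_lit 217)))) (XT.nd (nat_lit 78) (nat_lit 760) (nat_lit 0) (XT.lf (nat_lit 0) (nat_lit 45457231667) (nat_lit 304) (nat_lit 59753072205) (nat_lit 380) (nat_lit 1140050675) (nat_lit 86) (nat_lit 5) (nat_lit 90) (nat_lit 5) (nat_lit 91) (nat_lit 5) (nat_lit 347) (nat_lit 337) (nat_lit 216)) (XT.nd (nat_lit 78) (nat_lit 304) (nat_lit 0) (XT.lf (nat_lit 0) (nat_lit 18150901947) (nat_lit 456) (nat_lit 83407457760) (nat_lit 76) (nat_lit 9641880920) (nat_lit 80) (nat_lit 5) (nat_lit 86) (nat_lit 5) (nat_lit 81) (nat_lit 5) (nat_lit 348) (nat_lit 337) (nat_lit 215)) (XT.lf (nat_lit 0) (nat_lit 8592635657) (nat_lit 304) (nat_lit 32571855248)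 (nat_lit 380) (nat_lit 75161728062) (nat_lit 76) (nat_lit 5) (nat_lit 80) (nat_lit 5) (nat_lit 81) (nat_lit 5) (nat_lit 349) (nat_lit 337) (nat_lit 214))))))))
noncomputable def xc105 : XT := (XT.nd (nat_lit 1794) (nat_lit 1140) (nat_lit 0) (XT.nd (nat_lit 858) (nat_lit 1368) (nat_lit 0) (XT.nd (nat_lit 390) (nat_lit 1216) (nat_lit 0) (XT.nd (nat_lit 156) (nat_lit 836) (nat_lit 0) (XT.nd (nat_lit 78) (nat_lit 304) (nat_lit 0) (XT.lf (nat_lit 0) (nat_lit 68149606120) (nat_lit 380) (nat_lit 11538132980) (nat_lit 76) (nat_lit 42068015383) (nat_lit 76) (nat_lit 5) (nat_lit 81) (nat_lit 5) (nat_lit 77) (nat_lit 5) (nat_lit 350) (nat_lit 337) (nat_lit 213)) (XT.lf (nat_lit 0) (nat_lit 94838055474) (nat_lit 304) (nat_lit 4484473143) (nat_lit 380) (nat_lit 28195675124) (nat_lit 72) (nat_lit 5) (nat_lit 76) (nat_lit 5) (nat_lit 77) (nat_lit 5) (nat_lit 351) (nat_lit 337) (nat_lit 212))) (XT.nd (nat_lit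 78) (nat_lit 532) (nat_lit 0) (XT.lf (nat_lit 0) (nat_lit 1928984319) (nat_lit 304) (nat_lit 55953175292) (nat_lit 76) (nat_lit 75727213965) (nat_lit 68) (nat_lit 5) (nat_lit 72) (nat_lit 5) (nat_lit 69) (nat_lit 5) (nat_lit 352) (nat_lit 337) (nat_lit 211)) (XT.nd (nat_lit 78) (nat_lit 228) (nat_lit 0) (XT.lf (nat_lit 0) (nat_lit 35442170831) (nat_lit 380) (nat_lit 81302279367) (nat_lit 76) (nat_lit 23321956574) (nat_lit 64) (nat_lit 5) (nat_lit 69) (nat_lit 5) (nat_lit 65) (nat_lit 5) (nat_lit 353) (nat_lit 337) (nat_lit 210)) (XT.lf (nat_lit 0) (nat_lit 37885147426) (nat_lit 228) (nat_lit 36308616770) (nat_lit 304) (nat_lit 72718371438) (nat_lit 61) (nat_lit 5) (nat_lit 64) (nat_lit 5) (nat_lit 65) (nat_lit 5) (nat_lit 354) (nat_lit 337) (nat_lit 209))))) (XT.nd (nat_lit 234) (nat_lit 684) (nat_lit 0) (XT.nd (nat_lit 78) (nat_lit 304) (nat_lit 0) (XT.lf (nat_lit 0) (nat_lit 14940657271)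 (nat_lit 228) (nat_lit 103566211066) (nat_lit 304) (nat_lit 35675585866) (nat_lit 58) (nat_lit 5) (nat_lit 61) (nat_lit 5) (nat_lit 62) (nat_lit 5) (nat_lit 355) (nat_lit 337) (nat_lit 208)) (XT.nd (nat_lit 78) (nat_lit 228) (nat_lit 0) (XT.lf (nat_lit 0) (nat_lit 6733838621) (nat_lit 304) (nat_lit 9932401983) (nat_lit 76) (nat_lit 145237686340) (nat_lit 57) (nat_lit 5) (nat_lit 61) (nat_lit 5) (nat_lit 58) (nat_lit 5) (nat_lit 356) (nat_lit 337) (nat_lit 207)) (XT.lf (nat_lit 0) (nat_lit 54633812826) (nat_lit 304) (nat_lit 37969517323) (nat_lit 76) (nat_lit 77443160806) (nat_lit 54) (nat_lit 5) (nat_lit 58) (nat_lit 5) (nat_lit 55) (nat_lit 5) (nat_lit 357) (nat_lit 337) (nat_lit 206)))) (XT.nd (nat_lit 78) (nat_lit 456) (nat_lit 0) (XT.lf (nat_lit 0) (nat_lit 108568825552) (nat_lit 304) (nat_lit 68545007183) (nat_lit 76) (nat_lit 1616475748) (nat_lit 51) (nat_lit 5) (nat_lit 55) (nat_lit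 5) (nat_lit 52) (nat_lit 5) (nat_lit 358) (nat_lit 337) (nat_lit 205)) (XT.nd (nat_lit 78) (nat_lit 304) (nat_lit 0) (XT.lf (nat_lit 0) (nat_lit 84607367811) (nat_lit 152) (nat_lit 85765330856) (nat_lit 228) (nat_lit 17558430171) (nat_lit 49) (nat_lit 5) (nat_lit 51) (nat_lit 5) (nat_lit 52) (nat_lit 5) (nat_lit 359) (nat_lit 337) (nat_lit 204)) (XT.lf (nat_lit 0) (nat_lit 40326271353) (nat_lit 304) (nat_lit 142174543569) (nat_lit 76) (nat_lit 15220070813) (nat_lit 45) (nat_lit 5) (nat_lit 49) (nat_lit 5) (nat_lit 46) (nat_lit 5) (nat_lit 360) (nat_lit 337) (nat_lit 203)))))) (XT.nd (nat_lit 468) (nat_lit 532) (nat_lit 0) (XT.nd (nat_lit 234) (nat_lit 456) (nat_lit 0) (XT.nd (nat_lit 78) (nat_lit 228) (nat_lit 0) (XT.lf (nat_lit 0) (nat_lit 21528307565) (nat_lit 152) (nat_lit 84317559313) (nat_lit 228) (nat_lit 102252600485) (nat_lit 43) (nat_lit 5) (nat_lit 45) (nat_lit 5) (nat_lit 46)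 (nat_lit 5) (nat_lit 361) (nat_lit 337) (nat_lit 202)) (XT.nd (nat_lit 78) (nat_lit 228) (nat_lit 0) (XT.lf (nat_lit 0) (nat_lit 179462797429) (nat_lit 228) (nat_lit 16158611648) (nat_lit 76) (nat_lit 23542058372) (nat_lit 43) (nat_lit 5) (nat_lit 46) (nat_lit 5) (nat_lit 44) (nat_lit 5) (nat_lit 362) (nat_lit 337) (nat_lit 201)) (XT.lf (nat_lit 0) (nat_lit 31137324275) (nat_lit 228) (nat_lit 59443234409) (nat_lit 76) (nat_lit 140302691234) (nat_lit 40) (nat_lit 5) (nat_lit 43) (nat_lit 5) (nat_lit 41) (nat_lit 5) (nat_lit 363) (nat_lit 337) (nat_lit 200)))) (XT.nd (nat_lit 78) (nat_lit 304) (nat_lit 0) (XT.lf (nat_lit 0) (nat_lit 109066334199) (nat_lit 228) (nat_lit 109060257694) (nat_lit 76) (nat_lit 25240737095) (nat_lit 38) (nat_lit 5) (nat_lit 41) (nat_lit 5) (nat_lit 39) (nat_lit 5) (nat_lit 364) (nat_lit 337) (nat_lit 199)) (XT.nd (nat_lit 78) (nat_lit 152) (nat_lit 0) (XT.lf (nat_lit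 0) (nat_lit 90224388459) (nat_lit 152) (nat_lit 106993262411) (nat_lit 228) (nat_lit 59433084440) (nat_lit 36) (nat_lit 5) (nat_lit 38) (nat_lit 5) (nat_lit 39) (nat_lit 5) (nat_lit 365) (nat_lit 337) (nat_lit 198)) (XT.lf (nat_lit 0) (nat_lit 23533816402) (nat_lit 152) (nat_lit 231766369163) (nat_lit 76) (nat_lit 15540140747) (nat_lit 34) (nat_lit 5) (nat_lit 36) (nat_lit 5) (nat_lit 35) (nat_lit 5) (nat_lit 366) (nat_lit 337) (nat_lit 197))))) (XT.nd (nat_lit 234) (nat_lit 228) (nat_lit 0) (XT.nd (nat_lit 78) (nat_lit 304) (nat_lit 0) (XT.lf (nat_lit 0) (nat_lit 115833899461) (nat_lit 152) (nat_lit 21917325312) (nat_lit 76) (nat_lit 148126240567) (nat_lit 34) (nat_lit 5) (nat_lit 36) (nat_lit 5) (nat_lit 35) (nat_lit 5) (nat_lit 367) (nat_lit 337) (nat_lit 196)) (XT.nd (nat_lit 78) (nat_lit 152) (nat_lit 0) (XT.lf (nat_lit 0) (nat_lit 211487897890) (nat_lit 152) (nat_lit 7331613508) (nat_lit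 228) (nat_lit 83132988151) (nat_lit 32) (nat_lit 5) (nat_lit 34) (nat_lit 5) (nat_lit 35) (nat_lit 5) (nat_lit 368) (nat_lit 337) (nat_lit 195)) (XT.lf (nat_lit 0) (nat_lit 15243475483) (nat_lit 152) (nat_lit 171631331452) (nat_lit 76) (nat_lit 132187529069) (nat_lit 30) (nat_lit 5) (nat_lit 32) (nat_lit 5) (nat_lit 31) (nat_lit 5) (nat_lit 369) (nat_lit 337) (nat_lit 194)))) (XT.nd (nat_lit 78) (nat_lit 76) (nat_lit 0) (XT.lf (nat_lit 0) (nat_lit 70842063500) (nat_lit 152) (nat_lit 50605322571) (nat_lit 228) (nat_lit 215881936410) (nat_lit 28) (nat_lit 5) (nat_lit 30) (nat_lit 5) (nat_lit 31) (nat_lit 5) (nat_lit 370) (nat_lit 337) (nat_lit 193)) (XT.nd (nat_lit 78) (nat_lit 76) (nat_lit 0) (XT.lf (nat_lit 0) (nat_lit 240693633956) (nat_lit 228) (nat_lit 19623258082) (nat_lit 76) (nat_lit 96513474742) (nat_lit 28) (nat_lit 5) (nat_lit 31) (nat_lit 5) (nat_lit 29) (nat_lit 4) (nat_lit 371)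 (nat_lit 337) (nat_lit 192)) (XT.lf (nat_lit 0) (nat_lit 254274346611) (nat_lit 76) (nat_lit 120028139016) (nat_lit 152) (nat_lit 3347863919) (nat_lit 27) (nat_lit 5) (nat_lit 28) (nat_lit 5) (nat_lit 29) (nat_lit 4) (nat_lit 372) (nat_lit 337) (nat_lit 191))))))) (XT.nd (nat_lit 936) (nat_lit 152) (nat_lit 0) (XT.nd (nat_lit 468) (nat_lit 456) (nat_lit 0) (XT.nd (nat_lit 234) (nat_lit 228) (nat_lit 0) (XT.nd (nat_lit 78) (nat_lit 76) (nat_lit 0) (XT.lf (nat_lit 0) (nat_lit 117986700492) (nat_lit 228) (nat_lit 246742740244) (nat_lit 76) (nat_lit 35148303586) (nat_lit 24) (nat_lit 5) (nat_lit 27) (nat_lit 5) (nat_lit 25) (nat_lit 4) (nat_lit 373) (nat_lit 337) (nat_lit 190)) (XT.nd (nat_lit 78) (nat_lit 0) (nat_lit 0) (XT.lf (nat_lit 0) (nat_lit 31281814646) (nat_lit 76) (nat_lit 222326835510) (nat_lit 152) (nat_lit 170037040824) (nat_lit 23) (nat_lit 5) (nat_lit 24) (nat_lit 5) (nat_lit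 25) (nat_lit 4) (nat_lit 374) (nat_lit 337) (nat_lit 189)) (XT.lf (nat_lit 0) (nat_lit 340358904689) (nat_lit 76) (nat_lit 64019257288) (nat_lit 152) (nat_lit 44722021176) (nat_lit 23) (nat_lit 5) (nat_lit 24) (nat_lit 5) (nat_lit 25) (nat_lit 4) (nat_lit 375) (nat_lit 337) (nat_lit 188)))) (XT.nd (nat_lit 78) (nat_lit 76) (nat_lit 0) (XT.lf (nat_lit 0) (nat_lit 92626269828) (nat_lit 152) (nat_lit 275465390891) (nat_lit 76) (nat_lit 108183212949) (nat_lit 21) (nat_lit 5) (nat_lit 23) (nat_lit 5) (nat_lit 22) (nat_lit 4) (nat_lit 376) (nat_lit 337) (nat_lit 187)) (XT.nd (nat_lit 78) (nat_lit 0) (nat_lit 0) (XT.lf (nat_lit 0) (nat_lit 32658756053) (nat_lit 76) (nat_lit 210272138678) (nat_lit 152) (nat_lit 262479221754) (nat_lit 20) (nat_lit 5) (nat_lit 21) (nat_lit 5) (nat_lit 22) (nat_lit 4) (nat_lit 377) (nat_lit 337) (nat_lit 186)) (XT.lf (nat_lit 0) (nat_lit 375269145711) (nat_lit 76)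 (nat_lit 34788919272) (nat_lit 152) (nat_lit 126578205045) (nat_lit 20) (nat_lit 5) (nat_lit 21) (nat_lit 5) (nat_lit 22) (nat_lit 4) (nat_lit 378) (nat_lit 337) (nat_lit 185))))) (XT.nd (nat_lit 234) (nat_lit 228) (nat_lit 0) (XT.nd (nat_lit 78) (nat_lit 76) (nat_lit 0) (XT.lf (nat_lit 0) (nat_lit 24831765533) (nat_lit 152) (nat_lit 392285522514) (nat_lit 76) (nat_lit 152963301164) (nat_lit 18) (nat_lit 5) (nat_lit 20) (nat_lit 5) (nat_lit 19) (nat_lit 4) (nat_lit 379) (nat_lit 337) (nat_lit 184)) (XT.nd (nat_lit 78) (nat_lit 76) (nat_lit 0) (XT.lf (nat_lit 0) (nat_lit 187422502616) (nat_lit 152) (nat_lit 58974764088) (nat_lit 76) (nat_lit 359524302022) (nat_lit 18) (nat_lit 5) (nat_lit 20) (nat_lit 5) (nat_lit 19) (nat_lit 4) (nat_lit 380) (nat_lit 337) (nat_lit 183)) (XT.lf (nat_lit 0) (nat_lit 310952889722) (nat_lit 76) (nat_lit 56922241038) (nat_lit 152) (nat_lit 276511964290) (nat_lit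 17) (nat_lit 5) (nat_lit 18) (nat_lit 5) (nat_lit 19) (nat_lit 4) (nat_lit 381) (nat_lit 337) (nat_lit 182)))) (XT.nd (nat_lit 78) (nat_lit 152) (nat_lit 0) (XT.lf (nat_lit 0) (nat_lit 25184890908) (nat_lit 76) (nat_lit 541322400815) (nat_lit 76) (nat_lit 119235405675) (nat_lit 16) (nat_lit 4) (nat_lit 17) (nat_lit 5) (nat_lit 17) (nat_lit 4) (nat_lit 382) (nat_lit 337) (nat_lit 181)) (XT.nd (nat_lit 78) (nat_lit 76) (nat_lit 0) (XT.lf (nat_lit 0) (nat_lit 55866054194) (nat_lit 152) (nat_lit 307561775010) (nat_lit 76) (nat_lit 366596248330) (nat_lit 15) (nat_lit 5) (nat_lit 17) (nat_lit 5) (nat_lit 16) (nat_lit 4) (nat_lit 383) (nat_lit 337) (nat_lit 180)) (XT.lf (nat_lit 0) (nat_lit 74032565251) (nat_lit 76) (nat_lit 167977155814) (nat_lit 152) (nat_lit 535679937217) (nat_lit 14) (nat_lit 5) (nat_lit 15) (nat_lit 5) (nat_lit 16) (nat_lit 4) (nat_lit 384) (nat_lit 337) (nat_lit 179))))))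 (XT.nd (nat_lit 43368) (nat_lit 0) (nat_lit 6764) (XT.nd (nat_lit 234) (nat_lit 76) (nat_lit 0) (XT.nd (nat_lit 78) (nat_lit 76) (nat_lit 0) (XT.lf (nat_lit 0) (nat_lit 449163118784) (nat_lit 152) (nat_lit 332524456712) (nat_lit 0) (nat_lit 47174998155) (nat_lit 14) (nat_lit 5) (nat_lit 16) (nat_lit 4) (nat_lit 14) (nat_lit 4) (nat_lit 385) (nat_lit 337) (nat_lit 178)) (XT.nd (nat_lit 78) (nat_lit 0) (nat_lit 0) (XT.lf (nat_lit 0) (nat_lit 67630675612) (nat_lit 76) (nat_lit 609146252348) (nat_lit 76) (nat_lit 207157987340) (nat_lit 13) (nat_lit 4) (nat_lit 14) (nat_lit 5) (nat_lit 14) (nat_lit 4) (nat_lit 386) (nat_lit 337) (nat_lit 177)) (XT.lf (nat_lit 0) (nat_lit 511672256200) (nat_lit 76) (nat_lit 416719788335) (nat_lit 76) (nat_lit 14731389643) (nat_lit 13) (nat_lit 4) (nat_lit 14) (nat_lit 5) (nat_lit 14) (nat_lit 4) (nat_lit 387) (nat_lit 337) (nat_lit 176)))) (XT.nd (nat_lit 42978)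 (nat_lit 0) (nat_lit 6688) (XT.lf (nat_lit 0) (nat_lit 186909121743) (nat_lit 152) (nat_lit 18824822900) (nat_lit 76) (nat_lit 801162364144) (nat_lit 12) (nat_lit 5) (nat_lit 14) (nat_lit 5) (nat_lit 13) (nat_lit 4) (nat_lit 388) (nat_lit 337) (nat_lit 175)) (XT.nd (nat_lit 78) (nat_lit 0) (nat_lit 76) (XT.lf (nat_lit 0) (nat_lit 4067210581) (nat_lit 836) (nat_lit 16943973749) (nat_lit 836) (nat_lit 16943973749) (nat_lit 100) (nat_lit 3) (nat_lit 111) (nat_lit 3) (nat_lit 111) (nat_lit 5) (nat_lit 338) (nat_lit 338) (nat_lit 224)) (XT.lf (nat_lit 0) (nat_lit 9099177739) (nat_lit 760) (nat_lit 54816390876) (nat_lit 836) (nat_lit 14999172997) (nat_lit 101) (nat_lit 5) (nat_lit 111) (nat_lit 5) (nat_lit 112) (nat_lit 5) (nat_lit 339) (nat_lit 338) (nat_lit 223))))) (XT.nd (nat_lit 234) (nat_lit 0) (nat_lit 228) (XT.nd (nat_lit 78) (nat_lit 0) (nat_lit 76) (XT.lf (nat_lit 76) (nat_lit 5252498127)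 (nat_lit 0) (nat_lit 6277452362) (nat_lit 836) (nat_lit 70560130651) (nat_lit 102) (nat_lit 5) (nat_lit 101) (nat_lit 5) (nat_lit 112) (nat_lit 5) (nat_lit 340) (nat_lit 338) (nat_lit 222)) (XT.nd (nat_lit 78) (nat_lit 0) (nat_lit 76) (XT.lf (nat_lit 0) (nat_lit 15997974463) (nat_lit 760) (nat_lit 14277944808) (nat_lit 836) (nat_lit 55151390775) (nat_lit 102) (nat_lit 5) (nat_lit 112) (nat_lit 5) (nat_lit 113) (nat_lit 5) (nat_lit 341) (nat_lit 338) (nat_lit 221)) (XT.lf (nat_lit 0) (nat_lit 22303140981) (nat_lit 760) (nat_lit 34563047959) (nat_lit 836) (nat_lit 32091344854) (nat_lit 103) (nat_lit 5) (nat_lit 113) (nat_lit 5) (nat_lit 114) (nat_lit 5) (nat_lit 342) (nat_lit 338) (nat_lit 220)))) (XT.nd (nat_lit 78) (nat_lit 0) (nat_lit 0) (XT.lf (nat_lit 0) (nat_lit 30553940608) (nat_lit 760) (nat_lit 55824319974) (nat_lit 836) (nat_lit 6319855318) (nat_lit 104) (nat_lit 5) (nat_lit 114)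 (nat_lit 5) (nat_lit 115) (nat_lit 5) (nat_lit 343) (nat_lit 338) (nat_lit 219)) (XT.nd (nat_lit 78) (nat_lit 0) (nat_lit 76) (XT.lf (nat_lit 76) (nat_lit 18163524998) (nat_lit 0) (nat_lit 23154373459) (nat_lit 836) (nat_lit 55327392743) (nat_lit 105) (nat_lit 5) (nat_lit 104) (nat_lit 5) (nat_lit 115) (nat_lit 5) (nat_lit 344) (nat_lit 338) (nat_lit 218)) (XT.lf (nat_lit 0) (nat_lit 54634693401) (nat_lit 760) (nat_lit 1517343733) (nat_lit 76) (nat_lit 44671618607) (nat_lit 105) (nat_lit 5) (nat_lit 115) (nat_lit 5) (nat_lit 106) (nat_lit 5) (nat_lit 345) (nat_lit 338) (nat_lit 217))))))))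
noncomputable def xc106 : XT := (XT.nd (nat_lit 1794) (nat_lit 1596) (nat_lit 0) (XT.nd (nat_lit 858) (nat_lit 1824) (nat_lit 0) (XT.nd (nat_lit 390) (nat_lit 1368) (nat_lit 0) (XT.nd (nat_lit 156) (nat_lit 1064) (nat_lit 0) (XT.nd (nat_lit 78) (nat_lit 380) (nat_lit 0) (XT.lf (nat_lit 0) (nat_lit 70921829115) (nat_lit 836) (nat_lit 21559073493) (nat_lit 76) (nat_lit 12760138126) (nat_lit 95) (nat_lit 5) (nat_lit 106) (nat_lit 5) (nat_lit 96) (nat_lit 5) (nat_lit 346) (nat_lit 338) (nat_lit 216)) (XT.lf (nat_lit 0) (nat_lit 66934975231) (nat_lit 380) (nat_lit 23594642360) (nat_lit 456) (nat_lit 19381315904) (nat_lit 90) (nat_lit 5) (nat_lit 95) (nat_lit 5) (nat_lit 96) (nat_lit 5) (nat_lit 347) (nat_lit 338) (nat_lit 215))) (XT.nd (nat_lit 78) (nat_lit 760) (nat_lit 0) (XT.lf (nat_lit 0) (nat_lit 49114394852) (nat_lit 304) (nat_lit 64532330924) (nat_lit 380) (nat_lit 1210658054) (nat_lit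 86) (nat_lit 5) (nat_lit 90) (nat_lit 5) (nat_lit 91) (nat_lit 5) (nat_lit 348) (nat_lit 338) (nat_lit 214)) (XT.nd (nat_lit 78) (nat_lit 304) (nat_lit 0) (XT.lf (nat_lit 0) (nat_lit 19621776598) (nat_lit 456) (nat_lit 90058784764) (nat_lit 76) (nat_lit 10414741458) (nat_lit 80) (nat_lit 5) (nat_lit 86) (nat_lit 5) (nat_lit 81) (nat_lit 5) (nat_lit 349) (nat_lit 338) (nat_lit 213)) (XT.lf (nat_lit 0) (nat_lit 9300391775) (nat_lit 304) (nat_lit 35174985767) (nat_lit 380) (nat_lit 81156036895) (nat_lit 76) (nat_lit 5) (nat_lit 80) (nat_lit 5) (nat_lit 81) (nat_lit 5) (nat_lit 350) (nat_lit 338) (nat_lit 212))))) (XT.nd (nat_lit 234) (nat_lit 760) (nat_lit 0) (XT.nd (nat_lit 78) (nat_lit 608) (nat_lit 0) (XT.lf (nat_lit 0) (nat_lit 73618026681) (nat_lit 380) (nat_lit 12441548026) (nat_lit 76) (nat_lit 45435803014) (nat_lit 76) (nat_lit 5) (nat_lit 81) (nat_lit 5) (nat_lit 77) (nat_lit 5) (nat_lit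 351) (nat_lit 338) (nat_lit 211)) (XT.nd (nat_lit 78) (nat_lit 304) (nat_lit 0) (XT.lf (nat_lit 0) (nat_lit 102443882165) (nat_lit 304) (nat_lit 4839975385) (nat_lit 380) (nat_lit 30435012717) (nat_lit 72) (nat_lit 5) (nat_lit 76) (nat_lit 5) (nat_lit 77) (nat_lit 5) (nat_lit 352) (nat_lit 338) (nat_lit 210)) (XT.lf (nat_lit 0) (nat_lit 2098271464) (nat_lit 304) (nat_lit 60410249709) (nat_lit 76) (nat_lit 81788842015) (nat_lit 68) (nat_lit 5) (nat_lit 72) (nat_lit 5) (nat_lit 69) (nat_lit 5) (nat_lit 353) (nat_lit 338) (nat_lit 209)))) (XT.nd (nat_lit 78) (nat_lit 456) (nat_lit 0) (XT.lf (nat_lit 0) (nat_lit 38291756134) (nat_lit 380) (nat_lit 87787462928) (nat_lit 76) (nat_lit 25191778693) (nat_lit 64) (nat_lit 5) (nat_lit 69) (nat_lit 5) (nat_lit 65) (nat_lit 5) (nat_lit 354) (nat_lit 338) (nat_lit 208)) (XT.nd (nat_lit 78) (nat_lit 228) (nat_lit 0) (XT.lf (nat_lit 0) (nat_lit 40934132344)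 (nat_lit 228) (nat_lit 39208575644) (nat_lit 304) (nat_lit 78521716201) (nat_lit 61) (nat_lit 5) (nat_lit 64) (nat_lit 5) (nat_lit 65) (nat_lit 5) (nat_lit 355) (nat_lit 338) (nat_lit 207)) (XT.lf (nat_lit 0) (nat_lit 16153875192) (nat_lit 228) (nat_lit 111846338391) (nat_lit 304) (nat_lit 38516187758) (nat_lit 58) (nat_lit 5) (nat_lit 61) (nat_lit 5) (nat_lit 62) (nat_lit 5) (nat_lit 356) (nat_lit 338) (nat_lit 206)))))) (XT.nd (nat_lit 468) (nat_lit 684) (nat_lit 0) (XT.nd (nat_lit 234) (nat_lit 608) (nat_lit 0) (XT.nd (nat_lit 78) (nat_lit 456) (nat_lit 0) (XT.lf (nat_lit 0) (nat_lit 7284596316) (nat_lit 304) (nat_lit 10709952823) (nat_lit 76) (nat_lit 156861081132) (nat_lit 57) (nat_lit 5) (nat_lit 61) (nat_lit 5) (nat_lit 58) (nat_lit 5) (nat_lit 357) (nat_lit 338) (nat_lit 205)) (XT.nd (nat_lit 78) (nat_lit 228) (nat_lit 0) (XT.lf (nat_lit 0) (nat_lit 59016006639) (nat_lit 304) (nat_lit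 40990275998) (nat_lit 76) (nat_lit 83643345471) (nat_lit 54) (nat_lit 5) (nat_lit 58) (nat_lit 5) (nat_lit 55) (nat_lit 5) (nat_lit 358) (nat_lit 338) (nat_lit 204)) (XT.lf (nat_lit 0) (nat_lit 117265301233) (nat_lit 304) (nat_lit 74012064656) (nat_lit 76) (nat_lit 1750811676) (nat_lit 51) (nat_lit 5) (nat_lit 55) (nat_lit 5) (nat_lit 52) (nat_lit 5) (nat_lit 359) (nat_lit 338) (nat_lit 203)))) (XT.nd (nat_lit 78) (nat_lit 456) (nat_lit 0) (XT.lf (nat_lit 0) (nat_lit 91391781394) (nat_lit 152) (nat_lit 92621137297) (nat_lit 228) (nat_lit 18952173661) (nat_lit 49) (nat_lit 5) (nat_lit 51) (nat_lit 5) (nat_lit 52) (nat_lit 5) (nat_lit 360) (nat_lit 338) (nat_lit 202)) (XT.nd (nat_lit 78) (nat_lit 152) (nat_lit 0) (XT.lf (nat_lit 0) (nat_lit 43562496891) (nat_lit 304) (nat_lit 153532607092) (nat_lit 76) (nat_lit 16442940611) (nat_lit 45) (nat_lit 5) (nat_lit 49) (nat_lit 5) (nat_lit 46) (nat_lit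 5) (nat_lit 361) (nat_lit 338) (nat_lit 201)) (XT.lf (nat_lit 0) (nat_lit 23265781140) (nat_lit 152) (nat_lit 91057366459) (nat_lit 228) (nat_lit 110422711206) (nat_lit 43) (nat_lit 5) (nat_lit 45) (nat_lit 5) (nat_lit 46) (nat_lit 5) (nat_lit 362) (nat_lit 338) (nat_lit 200))))) (XT.nd (nat_lit 234) (nat_lit 304) (nat_lit 0) (XT.nd (nat_lit 78) (nat_lit 380) (nat_lit 0) (XT.lf (nat_lit 0) (nat_lit 193828801561) (nat_lit 228) (nat_lit 17436849170) (nat_lit 76) (nat_lit 25430440117) (nat_lit 43) (nat_lit 5) (nat_lit 46) (nat_lit 5) (nat_lit 44) (nat_lit 5) (nat_lit 363) (nat_lit 338) (nat_lit 199)) (XT.nd (nat_lit 78) (nat_lit 152) (nat_lit 0) (XT.lf (nat_lit 0) (nat_lit 33636985482) (nat_lit 228) (nat_lit 64184578558) (nat_lit 76) (nat_lit 151531907718) (nat_lit 40) (nat_lit 5) (nat_lit 43) (nat_lit 5) (nat_lit 41) (nat_lit 5) (nat_lit 364) (nat_lit 338) (nat_lit 198)) (XT.lf (nat_lit 0)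 (nat_lit 117799966467) (nat_lit 228) (nat_lit 117771242959) (nat_lit 76) (nat_lit 27265085538) (nat_lit 38) (nat_lit 5) (nat_lit 41) (nat_lit 5) (nat_lit 39) (nat_lit 5) (nat_lit 365) (nat_lit 338) (nat_lit 197)))) (XT.nd (nat_lit 78) (nat_lit 152) (nat_lit 0) (XT.lf (nat_lit 0) (nat_lit 97455573619) (nat_lit 152) (nat_lit 115547404768) (nat_lit 228) (nat_lit 64179416210) (nat_lit 36) (nat_lit 5) (nat_lit 38) (nat_lit 5) (nat_lit 39) (nat_lit 5) (nat_lit 366) (nat_lit 338) (nat_lit 196)) (XT.nd (nat_lit 78) (nat_lit 0) (nat_lit 0) (XT.lf (nat_lit 0) (nat_lit 25424258190) (nat_lit 152) (nat_lit 250294457884) (nat_lit 76) (nat_lit 16788446200) (nat_lit 34) (nat_lit 5) (nat_lit 36) (nat_lit 5) (nat_lit 35) (nat_lit 5) (nat_lit 367) (nat_lit 338) (nat_lit 195)) (XT.lf (nat_lit 0) (nat_lit 125107774822) (nat_lit 152) (nat_lit 23658469844) (nat_lit 76) (nat_lit 159981056658) (nat_lit 34) (nat_lit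 5) (nat_lit 36) (nat_lit 5) (nat_lit 35) (nat_lit 5) (nat_lit 368) (nat_lit 338) (nat_lit 194))))))) (XT.nd (nat_lit 936) (nat_lit 380) (nat_lit 0) (XT.nd (nat_lit 468) (nat_lit 456) (nat_lit 0) (XT.nd (nat_lit 234) (nat_lit 304) (nat_lit 0) (XT.nd (nat_lit 78) (nat_lit 304) (nat_lit 0) (XT.lf (nat_lit 0) (nat_lit 228418639214) (nat_lit 152) (nat_lit 7913248695) (nat_lit 228) (nat_lit 89776467978) (nat_lit 32) (nat_lit 5) (nat_lit 34) (nat_lit 5) (nat_lit 35) (nat_lit 5) (nat_lit 369) (nat_lit 338) (nat_lit 193)) (XT.nd (nat_lit 78) (nat_lit 152) (nat_lit 0) (XT.lf (nat_lit 0) (nat_lit 16469623971) (nat_lit 152) (nat_lit 185350158684) (nat_lit 76) (nat_lit 142767204197) (nat_lit 30) (nat_lit 5) (nat_lit 32) (nat_lit 5) (nat_lit 31) (nat_lit 5) (nat_lit 370) (nat_lit 338) (nat_lit 192)) (XT.lf (nat_lit 0) (nat_lit 76520600296) (nat_lit 152) (nat_lit 54648927424) (nat_lit 228) (nat_lit 233145820697)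 (nat_lit 28) (nat_lit 5) (nat_lit 30) (nat_lit 5) (nat_lit 31) (nat_lit 5) (nat_lit 371) (nat_lit 338) (nat_lit 191)))) (XT.nd (nat_lit 78) (nat_lit 304) (nat_lit 0) (XT.lf (nat_lit 0) (nat_lit 259955074702) (nat_lit 228) (nat_lit 21182548071) (nat_lit 76) (nat_lit 104238873696) (nat_lit 28) (nat_lit 5) (nat_lit 31) (nat_lit 5) (nat_lit 29) (nat_lit 4) (nat_lit 372) (nat_lit 338) (nat_lit 190)) (XT.nd (nat_lit 78) (nat_lit 228) (nat_lit 0) (XT.lf (nat_lit 0) (nat_lit 274626405609) (nat_lit 76) (nat_lit 129625946020) (nat_lit 152) (nat_lit 3609740531) (nat_lit 27) (nat_lit 5) (nat_lit 28) (nat_lit 5) (nat_lit 29) (nat_lit 4) (nat_lit 373) (nat_lit 338) (nat_lit 189)) (XT.lf (nat_lit 0) (nat_lit 127431193759) (nat_lit 228) (nat_lit 266472095534) (nat_lit 76) (nat_lit 37964394956) (nat_lit 24) (nat_lit 5) (nat_lit 27) (nat_lit 5) (nat_lit 25) (nat_lit 4) (nat_lit 374) (nat_lit 338) (nat_lit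 188))))) (XT.nd (nat_lit 234) (nat_lit 228) (nat_lit 0) (XT.nd (nat_lit 78) (nat_lit 152) (nat_lit 0) (XT.lf (nat_lit 0) (nat_lit 33793986382) (nat_lit 76) (nat_lit 240108651667) (nat_lit 152) (nat_lit 183634441789) (nat_lit 23) (nat_lit 5) (nat_lit 24) (nat_lit 5) (nat_lit 25) (nat_lit 4) (nat_lit 375) (nat_lit 338) (nat_lit 187)) (XT.nd (nat_lit 78) (nat_lit 152) (nat_lit 0) (XT.lf (nat_lit 0) (nat_lit 367596530549) (nat_lit 76) (nat_lit 69136787978) (nat_lit 152) (nat_lit 48294632592) (nat_lit 23) (nat_lit 5) (nat_lit 24) (nat_lit 5) (nat_lit 25) (nat_lit 4) (nat_lit 376) (nat_lit 338) (nat_lit 186)) (XT.lf (nat_lit 0) (nat_lit 100041184571) (nat_lit 152) (nat_lit 297493759493) (nat_lit 76) (nat_lit 116841677511) (nat_lit 21) (nat_lit 5) (nat_lit 23) (nat_lit 5) (nat_lit 22) (nat_lit 4) (nat_lit 377) (nat_lit 338) (nat_lit 185)))) (XT.nd (nat_lit 78) (nat_lit 152) (nat_lit 0) (XT.lf (nat_lit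 0) (nat_lit 35279934046) (nat_lit 76) (nat_lit 227090021248) (nat_lit 152) (nat_lit 283472739831) (nat_lit 20) (nat_lit 5) (nat_lit 21) (nat_lit 5) (nat_lit 22) (nat_lit 4) (nat_lit 378) (nat_lit 338) (nat_lit 184)) (XT.nd (nat_lit 78) (nat_lit 152) (nat_lit 0) (XT.lf (nat_lit 0) (nat_lit 405298526913) (nat_lit 76) (nat_lit 37568432329) (nat_lit 152) (nat_lit 136699998798) (nat_lit 20) (nat_lit 5) (nat_lit 21) (nat_lit 5) (nat_lit 22) (nat_lit 4) (nat_lit 379) (nat_lit 338) (nat_lit 183)) (XT.lf (nat_lit 0) (nat_lit 26822481048) (nat_lit 152) (nat_lit 423660566338) (nat_lit 76) (nat_lit 165203779243) (nat_lit 18) (nat_lit 5) (nat_lit 20) (nat_lit 5) (nat_lit 19) (nat_lit 4) (nat_lit 380) (nat_lit 338) (nat_lit 182)))))) (XT.nd (nat_lit 468) (nat_lit 76) (nat_lit 0) (XT.nd (nat_lit 234) (nat_lit 152) (nat_lit 0) (XT.nd (nat_lit 78) (nat_lit 152) (nat_lit 0) (XT.lf (nat_lit 0) (nat_lit 202420167893)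 (nat_lit 152) (nat_lit 63685524866) (nat_lit 76) (nat_lit 388289407281) (nat_lit 18) (nat_lit 5) (nat_lit 20) (nat_lit 5) (nat_lit 19) (nat_lit 4) (nat_lit 381) (nat_lit 338) (nat_lit 181)) (XT.nd (nat_lit 78) (nat_lit 76) (nat_lit 0) (XT.lf (nat_lit 0) (nat_lit 335836027460) (nat_lit 76) (nat_lit 61472800357) (nat_lit 152) (nat_lit 298629049645) (nat_lit 17) (nat_lit 5) (nat_lit 18) (nat_lit 5) (nat_lit 19) (nat_lit 4) (nat_lit 382) (nat_lit 338) (nat_lit 180)) (XT.lf (nat_lit 0) (nat_lit 27206417646) (nat_lit 76) (nat_lit 584625022639) (nat_lit 76) (nat_lit 128770493846) (nat_lit 16) (nat_lit 4) (nat_lit 17) (nat_lit 5) (nat_lit 17) (nat_lit 4) (nat_lit 383) (nat_lit 338) (nat_lit 179)))) (XT.nd (nat_lit 78) (nat_lit 76) (nat_lit 0) (XT.lf (nat_lit 0) (nat_lit 60338694495) (nat_lit 152) (nat_lit 332160368803) (nat_lit 76) (nat_lit 395926771939) (nat_lit 15) (nat_lit 5) (nat_lit 17) (nat_lit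 5) (nat_lit 16) (nat_lit 4) (nat_lit 384) (nat_lit 338) (nat_lit 178)) (XT.nd (nat_lit 78) (nat_lit 0) (nat_lit 0) (XT.lf (nat_lit 0) (nat_lit 79961242794) (nat_lit 76) (nat_lit 181412458137) (nat_lit 152) (nat_lit 578530969253) (nat_lit 14) (nat_lit 5) (nat_lit 15) (nat_lit 5) (nat_lit 16) (nat_lit 4) (nat_lit 385) (nat_lit 338) (nat_lit 177)) (XT.lf (nat_lit 0) (nat_lit 485099174760) (nat_lit 152) (nat_lit 359120683367) (nat_lit 0) (nat_lit 50951570489) (nat_lit 14) (nat_lit 5) (nat_lit 16) (nat_lit 4) (nat_lit 14) (nat_lit 4) (nat_lit 386) (nat_lit 338) (nat_lit 176))))) (XT.nd (nat_lit 43212) (nat_lit 0) (nat_lit 6688) (XT.nd (nat_lit 78) (nat_lit 0) (nat_lit 0) (XT.lf (nat_lit 0) (nat_lit 73046610529) (nat_lit 76) (nat_lit 657875341012) (nat_lit 76) (nat_lit 223727612958) (nat_lit 13) (nat_lit 4) (nat_lit 14) (nat_lit 5) (nat_lit 14) (nat_lit 4) (nat_lit 387) (nat_lit 338) (nat_lit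 175)) (XT.nd (nat_lit 43056) (nat_lit 0) (nat_lit 6612) (XT.lf (nat_lit 0) (nat_lit 552611111574) (nat_lit 76) (nat_lit 450054953324) (nat_lit 76) (nat_lit 15907110658) (nat_lit 13) (nat_lit 4) (nat_lit 14) (nat_lit 5) (nat_lit 14) (nat_lit 4) (nat_lit 388) (nat_lit 338) (nat_lit 174)) (XT.lf (nat_lit 0) (nat_lit 4409421449) (nat_lit 836) (nat_lit 18290644903) (nat_lit 836) (nat_lit 18290644903) (nat_lit 100) (nat_lit 3) (nat_lit 111) (nat_lit 3) (nat_lit 111) (nat_lit 5) (nat_lit 339) (nat_lit 339) (nat_lit 222)))) (XT.nd (nat_lit 78) (nat_lit 0) (nat_lit 0) (XT.lf (nat_lit 0) (nat_lit 9858323710) (nat_lit 760) (nat_lit 59182946164) (nat_lit 836) (nat_lit 16185057571) (nat_lit 101) (nat_lit 5) (nat_lit 111) (nat_lit 5) (nat_lit 112) (nat_lit 5) (nat_lit 340) (nat_lit 339) (nat_lit 221)) (XT.nd (nat_lit 78) (nat_lit 0) (nat_lit 76) (XT.lf (nat_lit 76) (nat_lit 5690638846) (nat_lit 0) (nat_lit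 6790887559) (nat_lit 836) (nat_lit 76174271762) (nat_lit 102) (nat_lit 5) (nat_lit 101) (nat_lit 5) (nat_lit 112) (nat_lit 5) (nat_lit 341) (nat_lit 339) (nat_lit 220)) (XT.lf (nat_lit 0) (nat_lit 17304668351) (nat_lit 760) (nat_lit 15402026868) (nat_lit 836) (nat_lit 59553428621) (nat_lit 102) (nat_lit 5) (nat_lit 112) (nat_lit 5) (nat_lit 113) (nat_lit 5) (nat_lit 342) (nat_lit 339) (nat_lit 219))))))))
noncomputable def xc107 : XT := (XT.nd (nat_lit 1794) (nat_lit 1976) (nat_lit 0) (XT.nd (nat_lit 858) (nat_lit 2432) (nat_lit 0) (XT.nd (nat_lit 390) (nat_lit 1748) (nat_lit 0) (XT.nd (nat_lit 156) (nat_lit 608) (nat_lit 0) (XT.nd (nat_lit 78) (nat_lit 0) (nat_lit 76) (XT.lf (nat_lit 0) (nat_lit 24112408612) (nat_lit 760) (nat_lit 37309322832) (nat_lit 836) (nat_lit 34651128112) (nat_lit 103) (nat_lit 5) (nat_lit 113) (nat_lit 5) (nat_lit 114) (nat_lit 5) (nat_lit 343) (nat_lit 339) (nat_lit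 218)) (XT.lf (nat_lit 0) (nat_lit 33021613728) (nat_lit 760) (nat_lit 60271030198) (nat_lit 836) (nat_lit 6820129164) (nat_lit 104) (nat_lit 5) (nat_lit 114) (nat_lit 5) (nat_lit 115) (nat_lit 5) (nat_lit 344) (nat_lit 339) (nat_lit 217))) (XT.nd (nat_lit 78) (nat_lit 684) (nat_lit 0) (XT.lf (nat_lit 76) (nat_lit 19635006426) (nat_lit 0) (nat_lit 25010238833) (nat_lit 836) (nat_lit 59730551094) (nat_lit 105) (nat_lit 5) (nat_lit 104) (nat_lit 5) (nat_lit 115) (nat_lit 5) (nat_lit 345) (nat_lit 339) (nat_lit 216)) (XT.nd (nat_lit 78) (nat_lit 760) (nat_lit 0) (XT.lf (nat_lit 0) (nat_lit 59025709649) (nat_lit 760) (nat_lit 1620608586) (nat_lit 76) (nat_lit 48242197189) (nat_lit 105) (nat_lit 5) (nat_lit 115) (nat_lit 5) (nat_lit 106) (nat_lit 5) (nat_lit 346) (nat_lit 339) (nat_lit 215)) (XT.lf (nat_lit 0) (nat_lit 76614561370) (nat_lit 836) (nat_lit 23265468324) (nat_lit 76) (nat_lit 13779325802)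 (nat_lit 95) (nat_lit 5) (nat_lit 106) (nat_lit 5) (nat_lit 96) (nat_lit 5) (nat_lit 347) (nat_lit 339) (nat_lit 214))))) (XT.nd (nat_lit 234) (nat_lit 608) (nat_lit 0) (XT.nd (nat_lit 78) (nat_lit 760) (nat_lit 0) (XT.lf (nat_lit 0) (nat_lit 72307307653) (nat_lit 380) (nat_lit 25482532667) (nat_lit 456) (nat_lit 20913057410) (nat_lit 90) (nat_lit 5) (nat_lit 95) (nat_lit 5) (nat_lit 96) (nat_lit 5) (nat_lit 348) (nat_lit 339) (nat_lit 213)) (XT.nd (nat_lit 78) (nat_lit 456) (nat_lit 0) (XT.lf (nat_lit 0) (nat_lit 53061194461) (nat_lit 304) (nat_lit 69694071155) (nat_lit 380) (nat_lit 1289852370) (nat_lit 86) (nat_lit 5) (nat_lit 90) (nat_lit 5) (nat_lit 91) (nat_lit 5) (nat_lit 349) (nat_lit 339) (nat_lit 212)) (XT.lf (nat_lit 0) (nat_lit 21207638836) (nat_lit 456) (nat_lit 97245252277) (nat_lit 76) (nat_lit 11249215411) (nat_lit 80) (nat_lit 5) (nat_lit 86) (nat_lit 5) (nat_lit 81) (nat_lit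 5) (nat_lit 350) (nat_lit 339) (nat_lit 211)))) (XT.nd (nat_lit 78) (nat_lit 304) (nat_lit 0) (XT.lf (nat_lit 0) (nat_lit 10061865903) (nat_lit 304) (nat_lit 37986740200) (nat_lit 380) (nat_lit 87632548130) (nat_lit 76) (nat_lit 5) (nat_lit 80) (nat_lit 5) (nat_lit 81) (nat_lit 5) (nat_lit 351) (nat_lit 339) (nat_lit 210)) (XT.nd (nat_lit 78) (nat_lit 304) (nat_lit 0) (XT.lf (nat_lit 0) (nat_lit 79521573816) (nat_lit 380) (nat_lit 13420037513) (nat_lit 76) (nat_lit 49072678914) (nat_lit 76) (nat_lit 5) (nat_lit 81) (nat_lit 5) (nat_lit 77) (nat_lit 5) (nat_lit 352) (nat_lit 339) (nat_lit 209)) (XT.lf (nat_lit 0) (nat_lit 110655495493) (nat_lit 304) (nat_lit 5224382255) (nat_lit 380) (nat_lit 32855825037) (nat_lit 72) (nat_lit 5) (nat_lit 76) (nat_lit 5) (nat_lit 77) (nat_lit 5) (nat_lit 353) (nat_lit 339) (nat_lit 208)))))) (XT.nd (nat_lit 468) (nat_lit 1064) (nat_lit 0) (XT.nd (nat_lit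 234) (nat_lit 532) (nat_lit 0) (XT.nd (nat_lit 78) (nat_lit 532) (nat_lit 0) (XT.lf (nat_lit 0) (nat_lit 2278966172) (nat_lit 304) (nat_lit 65226626265) (nat_lit 76) (nat_lit 88334907995) (nat_lit 68) (nat_lit 5) (nat_lit 72) (nat_lit 5) (nat_lit 69) (nat_lit 5) (nat_lit 354) (nat_lit 339) (nat_lit 207)) (XT.nd (nat_lit 78) (nat_lit 228) (nat_lit 0) (XT.lf (nat_lit 0) (nat_lit 41367280814) (nat_lit 380) (nat_lit 94794171564) (nat_lit 76) (nat_lit 27210606580) (nat_lit 64) (nat_lit 5) (nat_lit 69) (nat_lit 5) (nat_lit 65) (nat_lit 5) (nat_lit 355) (nat_lit 339) (nat_lit 206)) (XT.lf (nat_lit 0) (nat_lit 44224443456) (nat_lit 228) (nat_lit 42341206083) (nat_lit 304) (nat_lit 84791343628) (nat_lit 61) (nat_lit 5) (nat_lit 64) (nat_lit 5) (nat_lit 65) (nat_lit 5) (nat_lit 356) (nat_lit 339) (nat_lit 205)))) (XT.nd (nat_lit 78) (nat_lit 304) (nat_lit 0) (XT.lf (nat_lit 0) (nat_lit 17461587590)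 (nat_lit 228) (nat_lit 120789613397) (nat_lit 304) (nat_lit 41585955878) (nat_lit 58) (nat_lit 5) (nat_lit 61) (nat_lit 5) (nat_lit 62) (nat_lit 5) (nat_lit 357) (nat_lit 339) (nat_lit 204)) (XT.nd (nat_lit 78) (nat_lit 228) (nat_lit 0) (XT.lf (nat_lit 0) (nat_lit 7877695474) (nat_lit 304) (nat_lit 11552138865) (nat_lit 76) (nat_lit 169413722668) (nat_lit 57) (nat_lit 5) (nat_lit 61) (nat_lit 5) (nat_lit 58) (nat_lit 5) (nat_lit 358) (nat_lit 339) (nat_lit 203)) (XT.lf (nat_lit 0) (nat_lit 63747136954) (nat_lit 304) (nat_lit 44255092462) (nat_lit 76) (nat_lit 90338869866) (nat_lit 54) (nat_lit 5) (nat_lit 58) (nat_lit 5) (nat_lit 55) (nat_lit 5) (nat_lit 359) (nat_lit 339) (nat_lit 202))))) (XT.nd (nat_lit 234) (nat_lit 380) (nat_lit 0) (XT.nd (nat_lit 78) (nat_lit 456) (nat_lit 0) (XT.lf (nat_lit 0) (nat_lit 126655930026) (nat_lit 304) (nat_lit 79918846786) (nat_lit 76) (nat_lit 1895178625)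 (nat_lit 51) (nat_lit 5) (nat_lit 55) (nat_lit 5) (nat_lit 52) (nat_lit 5) (nat_lit 360) (nat_lit 339) (nat_lit 201)) (XT.nd (nat_lit 78) (nat_lit 304) (nat_lit 0) (XT.lf (nat_lit 0) (nat_lit 98716690570) (nat_lit 152) (nat_lit 100026181480) (nat_lit 228) (nat_lit 20458976049) (nat_lit 49) (nat_lit 5) (nat_lit 51) (nat_lit 5) (nat_lit 52) (nat_lit 5) (nat_lit 361) (nat_lit 339) (nat_lit 200)) (XT.lf (nat_lit 0) (nat_lit 47056176194) (nat_lit 304) (nat_lit 165801584004) (nat_lit 76) (nat_lit 17762889006) (nat_lit 45) (nat_lit 5) (nat_lit 49) (nat_lit 5) (nat_lit 46) (nat_lit 5) (nat_lit 362) (nat_lit 339) (nat_lit 199)))) (XT.nd (nat_lit 78) (nat_lit 228) (nat_lit 0) (XT.lf (nat_lit 0) (nat_lit 25140082871) (nat_lit 152) (nat_lit 98337156737) (nat_lit 228) (nat_lit 119247871280) (nat_lit 43) (nat_lit 5) (nat_lit 45) (nat_lit 5) (nat_lit 46) (nat_lit 5) (nat_lit 363) (nat_lit 339) (nat_lit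 198)) (XT.nd (nat_lit 78) (nat_lit 228) (nat_lit 0) (XT.lf (nat_lit 0) (nat_lit 209342804878) (nat_lit 228) (nat_lit 18819407350) (nat_lit 76) (nat_lit 27469176660) (nat_lit 43) (nat_lit 5) (nat_lit 46) (nat_lit 5) (nat_lit 44) (nat_lit 5) (nat_lit 364) (nat_lit 339) (nat_lit 197)) (XT.lf (nat_lit 0) (nat_lit 36335381961) (nat_lit 228) (nat_lit 69307243845) (nat_lit 76) (nat_lit 163658748045) (nat_lit 40) (nat_lit 5) (nat_lit 43) (nat_lit 5) (nat_lit 41) (nat_lit 5) (nat_lit 365) (nat_lit 339) (nat_lit 196))))))) (XT.nd (nat_lit 936) (nat_lit 684) (nat_lit 0) (XT.nd (nat_lit 468) (nat_lit 532) (nat_lit 0) (XT.nd (nat_lit 234) (nat_lit 304) (nat_lit 0) (XT.nd (nat_lit 78) (nat_lit 304) (nat_lit 0) (XT.lf (nat_lit 0) (nat_lit 127231101586) (nat_lit 228) (nat_lit 127181080813) (nat_lit 76) (nat_lit 29450655786) (nat_lit 38) (nat_lit 5) (nat_lit 41) (nat_lit 5) (nat_lit 39) (nat_lit 5) (nat_lit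 366) (nat_lit 339) (nat_lit 195)) (XT.nd (nat_lit 78) (nat_lit 152) (nat_lit 0) (XT.lf (nat_lit 0) (nat_lit 105263365602) (nat_lit 152) (nat_lit 124786637276) (nat_lit 228) (nat_lit 69306640748) (nat_lit 36) (nat_lit 5) (nat_lit 38) (nat_lit 5) (nat_lit 39) (nat_lit 5) (nat_lit 367) (nat_lit 339) (nat_lit 194)) (XT.lf (nat_lit 0) (nat_lit 27464831626) (nat_lit 152) (nat_lit 270306679799) (nat_lit 76) (nat_lit 18135889345) (nat_lit 34) (nat_lit 5) (nat_lit 36) (nat_lit 5) (nat_lit 35) (nat_lit 5) (nat_lit 368) (nat_lit 339) (nat_lit 193)))) (XT.nd (nat_lit 78) (nat_lit 304) (nat_lit 0) (XT.lf (nat_lit 0) (nat_lit 135122538271) (nat_lit 152) (nat_lit 25540652324) (nat_lit 76) (nat_lit 172783585125) (nat_lit 34) (nat_lit 5) (nat_lit 36) (nat_lit 5) (nat_lit 35) (nat_lit 5) (nat_lit 369) (nat_lit 339) (nat_lit 192)) (XT.nd (nat_lit 78) (nat_lit 152) (nat_lit 0) (XT.lf (nat_lit 0) (nat_lit 246702169354)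 (nat_lit 152) (nat_lit 8542112866) (nat_lit 228) (nat_lit 96952447534) (nat_lit 32) (nat_lit 5) (nat_lit 34) (nat_lit 5) (nat_lit 35) (nat_lit 5) (nat_lit 370) (nat_lit 339) (nat_lit 191)) (XT.lf (nat_lit 0) (nat_lit 17792912724) (nat_lit 152) (nat_lit 200168158276) (nat_lit 76) (nat_lit 154192586707) (nat_lit 30) (nat_lit 5) (nat_lit 32) (nat_lit 5) (nat_lit 31) (nat_lit 5) (nat_lit 371) (nat_lit 339) (nat_lit 190))))) (XT.nd (nat_lit 234) (nat_lit 304) (nat_lit 0) (XT.nd (nat_lit 78) (nat_lit 76) (nat_lit 0) (XT.lf (nat_lit 0) (nat_lit 82651826266) (nat_lit 152) (nat_lit 59016708428) (nat_lit 228) (nat_lit 251791767366) (nat_lit 28) (nat_lit 5) (nat_lit 30) (nat_lit 5) (nat_lit 31) (nat_lit 5) (nat_lit 372) (nat_lit 339) (nat_lit 189)) (XT.nd (nat_lit 78) (nat_lit 76) (nat_lit 0) (XT.lf (nat_lit 0) (nat_lit 280756581870) (nat_lit 228) (nat_lit 22868089282) (nat_lit 76) (nat_lit 112581688131)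 (nat_lit 28) (nat_lit 5) (nat_lit 31) (nat_lit 5) (nat_lit 29) (nat_lit 4) (nat_lit 373) (nat_lit 339) (nat_lit 188)) (XT.lf (nat_lit 0) (nat_lit 296605186842) (nat_lit 76) (nat_lit 139992211587) (nat_lit 152) (nat_lit 3893416462) (nat_lit 27) (nat_lit 5) (nat_lit 28) (nat_lit 5) (nat_lit 29) (nat_lit 4) (nat_lit 374) (nat_lit 339) (nat_lit 187)))) (XT.nd (nat_lit 78) (nat_lit 76) (nat_lit 0) (XT.lf (nat_lit 0) (nat_lit 137630453687) (nat_lit 228) (nat_lit 287781234980) (nat_lit 76) (nat_lit 41005170595) (nat_lit 24) (nat_lit 5) (nat_lit 27) (nat_lit 5) (nat_lit 25) (nat_lit 4) (nat_lit 375) (nat_lit 339) (nat_lit 186)) (XT.nd (nat_lit 78) (nat_lit 0) (nat_lit 0) (XT.lf (nat_lit 0) (nat_lit 36505758519) (nat_lit 76) (nat_lit 259313630937) (nat_lit 152) (nat_lit 198320428357) (nat_lit 23) (nat_lit 5) (nat_lit 24) (nat_lit 5) (nat_lit 25) (nat_lit 4) (nat_lit 376) (nat_lit 339) (nat_lit 185))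 (XT.lf (nat_lit 0) (nat_lit 397011894869) (nat_lit 76) (nat_lit 74664293180) (nat_lit 152) (nat_lit 52153787666) (nat_lit 23) (nat_lit 5) (nat_lit 24) (nat_lit 5) (nat_lit 25) (nat_lit 4) (nat_lit 377) (nat_lit 339) (nat_lit 184)))))) (XT.nd (nat_lit 468) (nat_lit 228) (nat_lit 0) (XT.nd (nat_lit 234) (nat_lit 228) (nat_lit 0) (XT.nd (nat_lit 78) (nat_lit 76) (nat_lit 0) (XT.lf (nat_lit 0) (nat_lit 108048605843) (nat_lit 152) (nat_lit 321285661942) (nat_lit 76) (nat_lit 126192276052) (nat_lit 21) (nat_lit 5) (nat_lit 23) (nat_lit 5) (nat_lit 22) (nat_lit 4) (nat_lit 378) (nat_lit 339) (nat_lit 183)) (XT.nd (nat_lit 78) (nat_lit 0) (nat_lit 0) (XT.lf (nat_lit 0) (nat_lit 38109596867) (nat_lit 76) (nat_lit 245253889166) (nat_lit 152) (nat_lit 306146426933) (nat_lit 20) (nat_lit 5) (nat_lit 21) (nat_lit 5) (nat_lit 22) (nat_lit 4) (nat_lit 379) (nat_lit 339) (nat_lit 182)) (XT.lf (nat_lit 0)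 (nat_lit 437729138786) (nat_lit 76) (nat_lit 40570820079) (nat_lit 152) (nat_lit 147632172697) (nat_lit 20) (nat_lit 5) (nat_lit 21) (nat_lit 5) (nat_lit 22) (nat_lit 4) (nat_lit 380) (nat_lit 339) (nat_lit 181)))) (XT.nd (nat_lit 78) (nat_lit 76) (nat_lit 0) (XT.lf (nat_lit 0) (nat_lit 28971858299) (nat_lit 152) (nat_lit 457546726137) (nat_lit 76) (nat_lit 178423008524) (nat_lit 18) (nat_lit 5) (nat_lit 20) (nat_lit 5) (nat_lit 19) (nat_lit 4) (nat_lit 381) (nat_lit 339) (nat_lit 180)) (XT.nd (nat_lit 78) (nat_lit 76) (nat_lit 0) (XT.lf (nat_lit 0) (nat_lit 218617094997) (nat_lit 152) (nat_lit 68774176570) (nat_lit 76) (nat_lit 419355269996) (nat_lit 18) (nat_lit 5) (nat_lit 20) (nat_lit 5) (nat_lit 19) (nat_lit 4) (nat_lit 382) (nat_lit 339) (nat_lit 179)) (XT.lf (nat_lit 0) (nat_lit 362708830920) (nat_lit 76) (nat_lit 66387863786) (nat_lit 152) (nat_lit 322516054182) (nat_lit 17) (nat_lit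 5) (nat_lit 18) (nat_lit 5) (nat_lit 19) (nat_lit 4) (nat_lit 383) (nat_lit 339) (nat_lit 178))))) (XT.nd (nat_lit 234) (nat_lit 0) (nat_lit 0) (XT.nd (nat_lit 78) (nat_lit 152) (nat_lit 0) (XT.lf (nat_lit 0) (nat_lit 29388705634) (nat_lit 76) (nat_lit 631392306480) (nat_lit 76) (nat_lit 139068923235) (nat_lit 16) (nat_lit 4) (nat_lit 17) (nat_lit 5) (nat_lit 17) (nat_lit 4) (nat_lit 384) (nat_lit 339) (nat_lit 177)) (XT.nd (nat_lit 78) (nat_lit 76) (nat_lit 0) (XT.lf (nat_lit 0) (nat_lit 65168667254) (nat_lit 152) (nat_lit 358727755742) (nat_lit 76) (nat_lit 427603334598) (nat_lit 15) (nat_lit 5) (nat_lit 17) (nat_lit 5) (nat_lit 16) (nat_lit 4) (nat_lit 385) (nat_lit 339) (nat_lit 176)) (XT.lf (nat_lit 0) (nat_lit 86363348256) (nat_lit 76) (nat_lit 195922994104) (nat_lit 152) (nat_lit 624810563614) (nat_lit 14) (nat_lit 5) (nat_lit 15) (nat_lit 5) (nat_lit 16) (nat_lit 4) (nat_lit 386)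 (nat_lit 339) (nat_lit 175)))) (XT.nd (nat_lit 43212) (nat_lit 0) (nat_lit 6536) (XT.lf (nat_lit 0) (nat_lit 523909686308) (nat_lit 152) (nat_lit 387845425587) (nat_lit 0) (nat_lit 55029901616) (nat_lit 14) (nat_lit 5) (nat_lit 16) (nat_lit 4) (nat_lit 14) (nat_lit 4) (nat_lit 387) (nat_lit 339) (nat_lit 174)) (XT.nd (nat_lit 78) (nat_lit 0) (nat_lit 76) (XT.lf (nat_lit 0) (nat_lit 4776607625) (nat_lit 836) (nat_lit 19746311836) (nat_lit 836) (nat_lit 19746311836) (nat_lit 100) (nat_lit 3) (nat_lit 111) (nat_lit 3) (nat_lit 111) (nat_lit 5) (nat_lit 340) (nat_lit 340) (nat_lit 220)) (XT.lf (nat_lit 0) (nat_lit 10673748654) (nat_lit 760) (nat_lit 63901501626) (nat_lit 836) (nat_lit 17467817196) (nat_lit 101) (nat_lit 5) (nat_lit 111) (nat_lit 5) (nat_lit 112) (nat_lit 5) (nat_lit 341) (nat_lit 340) (nat_lit 219))))))))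
noncomputable def xc108 : XT := (XT.nd (nat_lit 1794) (nat_lit 2204) (nat_lit 0) (XT.nd (nat_lit 858) (nat_lit 2508) (nat_lit 0) (XT.nd (nat_lit 390) (nat_lit 1900) (nat_lit 0) (XT.nd (nat_lit 156) (nat_lit 0) (nat_lit 152) (XT.nd (nat_lit 78) (nat_lit 0) (nat_lit 76) (XT.lf (nat_lit 76) (nat_lit 6161271358) (nat_lit 0) (nat_lit 7343794201) (nat_lit 836) (nat_lit 82241919485) (nat_lit 102) (nat_lit 5) (nat_lit 101) (nat_lit 5) (nat_lit 112) (nat_lit 5) (nat_lit 342) (nat_lit 340) (nat_lit 218)) (XT.lf (nat_lit 0) (nat_lit 18712066451) (nat_lit 760) (nat_lit 16618625296) (nat_lit 836) (nat_lit 64309066580) (nat_lit 102) (nat_lit 5) (nat_lit 112) (nat_lit 5) (nat_lit 113) (nat_lit 5) (nat_lit 343) (nat_lit 340) (nat_lit 217))) (XT.nd (nat_lit 78) (nat_lit 0) (nat_lit 76) (XT.lf (nat_lit 0) (nat_lit 26062848791) (nat_lit 760) (nat_lit 40277977298) (nat_lit 836) (nat_lit 37416767461) (nat_lit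 103) (nat_lit 5) (nat_lit 113) (nat_lit 5) (nat_lit 114) (nat_lit 5) (nat_lit 344) (nat_lit 340) (nat_lit 216)) (XT.nd (nat_lit 78) (nat_lit 0) (nat_lit 0) (XT.lf (nat_lit 0) (nat_lit 35683368436) (nat_lit 760) (nat_lit 65076221381) (nat_lit 836) (nat_lit 7361183102) (nat_lit 104) (nat_lit 5) (nat_lit 114) (nat_lit 5) (nat_lit 115) (nat_lit 5) (nat_lit 345) (nat_lit 340) (nat_lit 215)) (XT.lf (nat_lit 76) (nat_lit 21221581484) (nat_lit 0) (nat_lit 27014071912) (nat_lit 836) (nat_lit 64489248038) (nat_lit 105) (nat_lit 5) (nat_lit 104) (nat_lit 5) (nat_lit 115) (nat_lit 5) (nat_lit 346) (nat_lit 340) (nat_lit 214))))) (XT.nd (nat_lit 234) (nat_lit 1064) (nat_lit 0) (XT.nd (nat_lit 78) (nat_lit 1140) (nat_lit 0) (XT.lf (nat_lit 0) (nat_lit 63765119625) (nat_lit 760) (nat_lit 1734720025) (nat_lit 76) (nat_lit 52098871570) (nat_lit 105) (nat_lit 5) (nat_lit 115) (nat_lit 5) (nat_lit 106) (nat_lit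 5) (nat_lit 347) (nat_lit 340) (nat_lit 213)) (XT.nd (nat_lit 78) (nat_lit 380) (nat_lit 0) (XT.lf (nat_lit 0) (nat_lit 82760003650) (nat_lit 836) (nat_lit 25110989870) (nat_lit 76) (nat_lit 14880280085) (nat_lit 95) (nat_lit 5) (nat_lit 106) (nat_lit 5) (nat_lit 96) (nat_lit 5) (nat_lit 348) (nat_lit 340) (nat_lit 212)) (XT.lf (nat_lit 0) (nat_lit 78106925190) (nat_lit 380) (nat_lit 27521408701) (nat_lit 456) (nat_lit 22570015097) (nat_lit 90) (nat_lit 5) (nat_lit 95) (nat_lit 5) (nat_lit 96) (nat_lit 5) (nat_lit 349) (nat_lit 340) (nat_lit 211)))) (XT.nd (nat_lit 78) (nat_lit 760) (nat_lit 0) (XT.lf (nat_lit 0) (nat_lit 57321220351) (nat_lit 304) (nat_lit 75268871330) (nat_lit 380) (nat_lit 1377901388) (nat_lit 86) (nat_lit 5) (nat_lit 90) (nat_lit 5) (nat_lit 91) (nat_lit 5) (nat_lit 350) (nat_lit 340) (nat_lit 210)) (XT.nd (nat_lit 78) (nat_lit 304) (nat_lit 0) (XT.lf (nat_lit 0) (nat_lit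 22918070338) (nat_lit 456) (nat_lit 105009238655) (nat_lit 76) (nat_lit 12150262586) (nat_lit 80) (nat_lit 5) (nat_lit 86) (nat_lit 5) (nat_lit 81) (nat_lit 5) (nat_lit 351) (nat_lit 340) (nat_lit 209)) (XT.lf (nat_lit 0) (nat_lit 10881769552) (nat_lit 304) (nat_lit 41023755181) (nat_lit 380) (nat_lit 94629458807) (nat_lit 76) (nat_lit 5) (nat_lit 80) (nat_lit 5) (nat_lit 81) (nat_lit 5) (nat_lit 352) (nat_lit 340) (nat_lit 208)))))) (XT.nd (nat_lit 468) (nat_lit 1140) (nat_lit 0) (XT.nd (nat_lit 234) (nat_lit 760) (nat_lit 0) (XT.nd (nat_lit 78) (nat_lit 608) (nat_lit 0) (XT.lf (nat_lit 0) (nat_lit 85895392485) (nat_lit 380) (nat_lit 14479207768) (nat_lit 76) (nat_lit 53000217901) (nat_lit 76) (nat_lit 5) (nat_lit 81) (nat_lit 5) (nat_lit 77) (nat_lit 5) (nat_lit 353) (nat_lit 340) (nat_lit 207)) (XT.nd (nat_lit 78) (nat_lit 304) (nat_lit 0) (XT.lf (nat_lit 0) (nat_lit 119521740649) (nat_lit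 304) (nat_lit 5639939866) (nat_lit 380) (nat_lit 35472297986) (nat_lit 72) (nat_lit 5) (nat_lit 76) (nat_lit 5) (nat_lit 77) (nat_lit 5) (nat_lit 354) (nat_lit 340) (nat_lit 206)) (XT.lf (nat_lit 0) (nat_lit 2472285686) (nat_lit 304) (nat_lit 70430658783) (nat_lit 76) (nat_lit 95404237173) (nat_lit 68) (nat_lit 5) (nat_lit 72) (nat_lit 5) (nat_lit 69) (nat_lit 5) (nat_lit 355) (nat_lit 340) (nat_lit 205)))) (XT.nd (nat_lit 78) (nat_lit 456) (nat_lit 0) (XT.lf (nat_lit 0) (nat_lit 44687109257) (nat_lit 380) (nat_lit 102363740612) (nat_lit 76) (nat_lit 29390443439) (nat_lit 64) (nat_lit 5) (nat_lit 69) (nat_lit 5) (nat_lit 65) (nat_lit 5) (nat_lit 356) (nat_lit 340) (nat_lit 204)) (XT.nd (nat_lit 78) (nat_lit 228) (nat_lit 0) (XT.lf (nat_lit 0) (nat_lit 47775756722) (nat_lit 228) (nat_lit 45725025535) (nat_lit 304) (nat_lit 91564268856) (nat_lit 61) (nat_lit 5) (nat_lit 64) (nat_lit 5) (nat_lit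 65) (nat_lit 5) (nat_lit 357) (nat_lit 340) (nat_lit 203)) (XT.lf (nat_lit 0) (nat_lit 18871719658) (nat_lit 228) (nat_lit 130448982688) (nat_lit 304) (nat_lit 44902949888) (nat_lit 58) (nat_lit 5) (nat_lit 61) (nat_lit 5) (nat_lit 62) (nat_lit 5) (nat_lit 358) (nat_lit 340) (nat_lit 202))))) (XT.nd (nat_lit 234) (nat_lit 608) (nat_lit 0) (XT.nd (nat_lit 78) (nat_lit 456) (nat_lit 0) (XT.lf (nat_lit 0) (nat_lit 8516768666) (nat_lit 304) (nat_lit 12463784097) (nat_lit 76) (nat_lit 182970039828) (nat_lit 57) (nat_lit 5) (nat_lit 61) (nat_lit 5) (nat_lit 58) (nat_lit 5) (nat_lit 359) (nat_lit 340) (nat_lit 201)) (XT.nd (nat_lit 78) (nat_lit 228) (nat_lit 0) (XT.lf (nat_lit 0) (nat_lit 68855352512) (nat_lit 304) (nat_lit 47783149365) (nat_lit 76) (nat_lit 97569457470) (nat_lit 54) (nat_lit 5) (nat_lit 58) (nat_lit 5) (nat_lit 55) (nat_lit 5) (nat_lit 360) (nat_lit 340) (nat_lit 200)) (XT.lf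 (nat_lit 0) (nat_lit 136796467439) (nat_lit 304) (nat_lit 86300194856) (nat_lit 76) (nat_lit 2050481198) (nat_lit 51) (nat_lit 5) (nat_lit 55) (nat_lit 5) (nat_lit 52) (nat_lit 5) (nat_lit 361) (nat_lit 340) (nat_lit 199)))) (XT.nd (nat_lit 78) (nat_lit 456) (nat_lit 0) (XT.lf (nat_lit 0) (nat_lit 106625657044) (nat_lit 152) (nat_lit 108024292116) (nat_lit 228) (nat_lit 22087659578) (nat_lit 49) (nat_lit 5) (nat_lit 51) (nat_lit 5) (nat_lit 52) (nat_lit 5) (nat_lit 362) (nat_lit 340) (nat_lit 198)) (XT.nd (nat_lit 78) (nat_lit 152) (nat_lit 0) (XT.lf (nat_lit 0) (nat_lit 50828111607) (nat_lit 304) (nat_lit 179054023777) (nat_lit 76) (nat_lit 19187789422) (nat_lit 45) (nat_lit 5) (nat_lit 49) (nat_lit 5) (nat_lit 46) (nat_lit 5) (nat_lit 363) (nat_lit 340) (nat_lit 197)) (XT.lf (nat_lit 0) (nat_lit 27162468548) (nat_lit 152) (nat_lit 106200014874) (nat_lit 228) (nat_lit 128780279153) (nat_lit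 43) (nat_lit 5) (nat_lit 45) (nat_lit 5) (nat_lit 46) (nat_lit 5) (nat_lit 364) (nat_lit 340) (nat_lit 196))))))) (XT.nd (nat_lit 936) (nat_lit 760) (nat_lit 0) (XT.nd (nat_lit 468) (nat_lit 760) (nat_lit 0) (XT.nd (nat_lit 234) (nat_lit 304) (nat_lit 0) (XT.nd (nat_lit 78) (nat_lit 380) (nat_lit 0) (XT.lf (nat_lit 0) (nat_lit 226096830085) (nat_lit 228) (nat_lit 20314337720) (nat_lit 76) (nat_lit 29670398492) (nat_lit 43) (nat_lit 5) (nat_lit 46) (nat_lit 5) (nat_lit 44) (nat_lit 5) (nat_lit 365) (nat_lit 340) (nat_lit 195)) (XT.nd (nat_lit 78) (nat_lit 152) (nat_lit 0) (XT.lf (nat_lit 0) (nat_lit 39248589096) (nat_lit 228) (nat_lit 74841448698) (nat_lit 76) (nat_lit 176755123909) (nat_lit 40) (nat_lit 5) (nat_lit 43) (nat_lit 5) (nat_lit 41) (nat_lit 5) (nat_lit 366) (nat_lit 340) (nat_lit 194)) (XT.lf (nat_lit 0) (nat_lit 137415709228) (nat_lit 228) (nat_lit 137345397882) (nat_lit 76)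 (nat_lit 31810449166) (nat_lit 38) (nat_lit 5) (nat_lit 41) (nat_lit 5) (nat_lit 39) (nat_lit 5) (nat_lit 367) (nat_lit 340) (nat_lit 193)))) (XT.nd (nat_lit 78) (nat_lit 152) (nat_lit 0) (XT.lf (nat_lit 0) (nat_lit 113694162296) (nat_lit 152) (nat_lit 134765658902) (nat_lit 228) (nat_lit 74845060246) (nat_lit 36) (nat_lit 5) (nat_lit 38) (nat_lit 5) (nat_lit 39) (nat_lit 5) (nat_lit 368) (nat_lit 340) (nat_lit 192)) (XT.nd (nat_lit 78) (nat_lit 0) (nat_lit 0) (XT.lf (nat_lit 0) (nat_lit 29667704697) (nat_lit 152) (nat_lit 291921496491) (nat_lit 76) (nat_lit 19590504877) (nat_lit 34) (nat_lit 5) (nat_lit 36) (nat_lit 5) (nat_lit 35) (nat_lit 5) (nat_lit 369) (nat_lit 340) (nat_lit 191)) (XT.lf (nat_lit 0) (nat_lit 145937606649) (nat_lit 152) (nat_lit 27574906647) (nat_lit 76) (nat_lit 186609738958) (nat_lit 34) (nat_lit 5) (nat_lit 36) (nat_lit 5) (nat_lit 35) (nat_lit 5) (nat_lit 370) (nat_lit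 340) (nat_lit 190))))) (XT.nd (nat_lit 234) (nat_lit 304) (nat_lit 0) (XT.nd (nat_lit 78) (nat_lit 304) (nat_lit 0) (XT.lf (nat_lit 0) (nat_lit 266446949729) (nat_lit 152) (nat_lit 9221884737) (nat_lit 228) (nat_lit 104703381093) (nat_lit 32) (nat_lit 5) (nat_lit 34) (nat_lit 5) (nat_lit 35) (nat_lit 5) (nat_lit 371) (nat_lit 340) (nat_lit 189)) (XT.nd (nat_lit 78) (nat_lit 152) (nat_lit 0) (XT.lf (nat_lit 0) (nat_lit 19221248721) (nat_lit 152) (nat_lit 216173026316) (nat_lit 76) (nat_lit 166531428293) (nat_lit 30) (nat_lit 5) (nat_lit 32) (nat_lit 5) (nat_lit 31) (nat_lit 5) (nat_lit 372) (nat_lit 340) (nat_lit 188)) (XT.lf (nat_lit 0) (nat_lit 89272183912) (nat_lit 152) (nat_lit 63734501558) (nat_lit 228) (nat_lit 271930205646) (nat_lit 28) (nat_lit 5) (nat_lit 30) (nat_lit 5) (nat_lit 31) (nat_lit 5) (nat_lit 373) (nat_lit 340) (nat_lit 187)))) (XT.nd (nat_lit 78) (nat_lit 304) (nat_lit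 0) (XT.lf (nat_lit 0) (nat_lit 303221481869) (nat_lit 228) (nat_lit 24689766676) (nat_lit 76) (nat_lit 121591399226) (nat_lit 28) (nat_lit 5) (nat_lit 31) (nat_lit 5) (nat_lit 29) (nat_lit 4) (nat_lit 374) (nat_lit 340) (nat_lit 186)) (XT.nd (nat_lit 78) (nat_lit 228) (nat_lit 0) (XT.lf (nat_lit 0) (nat_lit 320341033874) (nat_lit 76) (nat_lit 151188321955) (nat_lit 152) (nat_lit 4200514512) (nat_lit 27) (nat_lit 5) (nat_lit 28) (nat_lit 5) (nat_lit 29) (nat_lit 4) (nat_lit 375) (nat_lit 340) (nat_lit 185)) (XT.lf (nat_lit 0) (nat_lit 148644974711) (nat_lit 228) (nat_lit 310796336489) (nat_lit 76) (nat_lit 44288691275) (nat_lit 24) (nat_lit 5) (nat_lit 27) (nat_lit 5) (nat_lit 25) (nat_lit 4) (nat_lit 376) (nat_lit 340) (nat_lit 184)))))) (XT.nd (nat_lit 468) (nat_lit 304) (nat_lit 0) (XT.nd (nat_lit 234) (nat_lit 228) (nat_lit 0) (XT.nd (nat_lit 78) (nat_lit 152) (nat_lit 0) (XT.lf (nat_lit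 0) (nat_lit 39433295012) (nat_lit 76) (nat_lit 280055538229) (nat_lit 152) (nat_lit 214181974168) (nat_lit 23) (nat_lit 5) (nat_lit 24) (nat_lit 5) (nat_lit 25) (nat_lit 4) (nat_lit 377) (nat_lit 340) (nat_lit 183)) (XT.nd (nat_lit 78) (nat_lit 152) (nat_lit 0) (XT.lf (nat_lit 0) (nat_lit 428779398136) (nat_lit 76) (nat_lit 80634489243) (nat_lit 152) (nat_lit 56322305071) (nat_lit 23) (nat_lit 5) (nat_lit 24) (nat_lit 5) (nat_lit 25) (nat_lit 4) (nat_lit 378) (nat_lit 340) (nat_lit 182)) (XT.lf (nat_lit 0) (nat_lit 116696032125) (nat_lit 152) (nat_lit 346982000571) (nat_lit 76) (nat_lit 136290456782) (nat_lit 21) (nat_lit 5) (nat_lit 23) (nat_lit 5) (nat_lit 22) (nat_lit 4) (nat_lit 379) (nat_lit 340) (nat_lit 181)))) (XT.nd (nat_lit 78) (nat_lit 152) (nat_lit 0) (XT.lf (nat_lit 0) (nat_lit 41164595838) (nat_lit 76) (nat_lit 264871342118) (nat_lit 152) (nat_lit 330634598491) (nat_lit 20)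 (nat_lit 5) (nat_lit 21) (nat_lit 5) (nat_lit 22) (nat_lit 4) (nat_lit 380) (nat_lit 340) (nat_lit 180)) (XT.nd (nat_lit 78) (nat_lit 152) (nat_lit 0) (XT.lf (nat_lit 0) (nat_lit 472753239538) (nat_lit 76) (nat_lit 43813839222) (nat_lit 152) (nat_lit 159439466331) (nat_lit 20) (nat_lit 5) (nat_lit 21) (nat_lit 5) (nat_lit 22) (nat_lit 4) (nat_lit 381) (nat_lit 340) (nat_lit 179)) (XT.lf (nat_lit 0) (nat_lit 31292675178) (nat_lit 152) (nat_lit 494144732483) (nat_lit 76) (nat_lit 192699358588) (nat_lit 18) (nat_lit 5) (nat_lit 20) (nat_lit 5) (nat_lit 19) (nat_lit 4) (nat_lit 382) (nat_lit 340) (nat_lit 178))))) (XT.nd (nat_lit 234) (nat_lit 152) (nat_lit 0) (XT.nd (nat_lit 78) (nat_lit 152) (nat_lit 0) (XT.lf (nat_lit 0) (nat_lit 236109303537) (nat_lit 152) (nat_lit 74270803524) (nat_lit 76) (nat_lit 452906015096) (nat_lit 18) (nat_lit 5) (nat_lit 20) (nat_lit 5) (nat_lit 19) (nat_lit 4)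 (nat_lit 383) (nat_lit 340) (nat_lit 177)) (XT.nd (nat_lit 78) (nat_lit 76) (nat_lit 0) (XT.lf (nat_lit 0) (nat_lit 391730613923) (nat_lit 76) (nat_lit 71696526119) (nat_lit 152) (nat_lit 348314492637) (nat_lit 17) (nat_lit 5) (nat_lit 18) (nat_lit 5) (nat_lit 19) (nat_lit 4) (nat_lit 384) (nat_lit 340) (nat_lit 176)) (XT.lf (nat_lit 0) (nat_lit 31744752852) (nat_lit 76) (nat_lit 681901360776) (nat_lit 76) (nat_lit 150191684935) (nat_lit 16) (nat_lit 4) (nat_lit 17) (nat_lit 5) (nat_lit 17) (nat_lit 4) (nat_lit 385) (nat_lit 340) (nat_lit 175)))) (XT.nd (nat_lit 78) (nat_lit 76) (nat_lit 0) (XT.lf (nat_lit 0) (nat_lit 70384627368) (nat_lit 152) (nat_lit 387421310078) (nat_lit 76) (nat_lit 461813676900) (nat_lit 15) (nat_lit 5) (nat_lit 17) (nat_lit 5) (nat_lit 16) (nat_lit 4) (nat_lit 386) (nat_lit 340) (nat_lit 174)) (XT.nd (nat_lit 43290) (nat_lit 0) (nat_lit 6536) (XT.lf (nat_lit 0) (nat_lit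 93276879455) (nat_lit 76) (nat_lit 211594723992) (nat_lit 152) (nat_lit 674792936841) (nat_lit 14) (nat_lit 5) (nat_lit 15) (nat_lit 5) (nat_lit 16) (nat_lit 4) (nat_lit 387) (nat_lit 340) (nat_lit 173)) (XT.lf (nat_lit 0) (nat_lit 5171109743) (nat_lit 836) (nat_lit 21319514160) (nat_lit 836) (nat_lit 21319514160) (nat_lit 100) (nat_lit 3) (nat_lit 111) (nat_lit 3) (nat_lit 111) (nat_lit 5) (nat_lit 341) (nat_lit 341) (nat_lit 218))))))))
noncomputable def xc109 : XT := (XT.nd (nat_lit 1794) (nat_lit 2280) (nat_lit 0) (XT.nd (nat_lit 858) (nat_lit 2660) (nat_lit 0) (XT.nd (nat_lit 390) (nat_lit 1596) (nat_lit 0) (XT.nd (nat_lit 156) (nat_lit 0) (nat_lit 76) (XT.nd (nat_lit 78) (nat_lit 0) (nat_lit 0) (XT.lf (nat_lit 0) (nat_lit 11550590116) (nat_lit 760) (nat_lit 68999835550) (nat_lit 836) (nat_lit 18854915941) (nat_lit 101) (nat_lit 5) (nat_lit 111) (nat_lit 5) (nat_lit 112) (nat_lit 5)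 (nat_lit 342) (nat_lit 341) (nat_lit 217)) (XT.lf (nat_lit 76) (nat_lit 6667360141) (nat_lit 0) (nat_lit 7939558744) (nat_lit 836) (nat_lit 88798730162) (nat_lit 102) (nat_lit 5) (nat_lit 101) (nat_lit 5) (nat_lit 112) (nat_lit 5) (nat_lit 343) (nat_lit 341) (nat_lit 216))) (XT.nd (nat_lit 78) (nat_lit 0) (nat_lit 76) (XT.lf (nat_lit 0) (nat_lit 20228771678) (nat_lit 760) (nat_lit 17934771938) (nat_lit 836) (nat_lit 69446387644) (nat_lit 102) (nat_lit 5) (nat_lit 112) (nat_lit 5) (nat_lit 113) (nat_lit 5) (nat_lit 344) (nat_lit 341) (nat_lit 215)) (XT.nd (nat_lit 78) (nat_lit 0) (nat_lit 76) (XT.lf (nat_lit 0) (nat_lit 28166264460) (nat_lit 760) (nat_lit 43486419733) (nat_lit 836) (nat_lit 40404578251) (nat_lit 103) (nat_lit 5) (nat_lit 113) (nat_lit 5) (nat_lit 114) (nat_lit 5) (nat_lit 345) (nat_lit 341) (nat_lit 214)) (XT.lf (nat_lit 0) (nat_lit 38555206644) (nat_lit 760) (nat_lit 70268180517)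 (nat_lit 836) (nat_lit 7946171376) (nat_lit 104) (nat_lit 5) (nat_lit 114) (nat_lit 5) (nat_lit 115) (nat_lit 5) (nat_lit 346) (nat_lit 341) (nat_lit 213))))) (XT.nd (nat_lit 234) (nat_lit 1140) (nat_lit 0) (XT.nd (nat_lit 78) (nat_lit 684) (nat_lit 0) (XT.lf (nat_lit 76) (nat_lit 22932832132) (nat_lit 0) (nat_lit 29177781661) (nat_lit 836) (nat_lit 69631457888) (nat_lit 105) (nat_lit 5) (nat_lit 104) (nat_lit 5) (nat_lit 115) (nat_lit 5) (nat_lit 347) (nat_lit 341) (nat_lit 212)) (XT.nd (nat_lit 78) (nat_lit 760) (nat_lit 0) (XT.lf (nat_lit 0) (nat_lit 68881206769) (nat_lit 760) (nat_lit 1860176941) (nat_lit 76) (nat_lit 56264465285) (nat_lit 105) (nat_lit 5) (nat_lit 115) (nat_lit 5) (nat_lit 106) (nat_lit 5) (nat_lit 348) (nat_lit 341) (nat_lit 211)) (XT.lf (nat_lit 0) (nat_lit 89394759164) (nat_lit 836) (nat_lit 27106395192) (nat_lit 76) (nat_lit 16069509263) (nat_lit 95) (nat_lit 5)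 (nat_lit 106) (nat_lit 5) (nat_lit 96) (nat_lit 5) (nat_lit 349) (nat_lit 341) (nat_lit 210)))) (XT.nd (nat_lit 78) (nat_lit 760) (nat_lit 0) (XT.lf (nat_lit 0) (nat_lit 84368367515) (nat_lit 380) (nat_lit 29723355811) (nat_lit 456) (nat_lit 24361824377) (nat_lit 90) (nat_lit 5) (nat_lit 95) (nat_lit 5) (nat_lit 96) (nat_lit 5) (nat_lit 350) (nat_lit 341) (nat_lit 209)) (XT.nd (nat_lit 78) (nat_lit 456) (nat_lit 0) (XT.lf (nat_lit 0) (nat_lit 61919889801) (nat_lit 304) (nat_lit 81289759023) (nat_lit 380) (nat_lit 1475154101) (nat_lit 86) (nat_lit 5) (nat_lit 90) (nat_lit 5) (nat_lit 91) (nat_lit 5) (nat_lit 351) (nat_lit 341) (nat_lit 208)) (XT.lf (nat_lit 0) (nat_lit 24763364727) (nat_lit 456) (nat_lit 113396574281) (nat_lit 76) (nat_lit 13123235190) (nat_lit 80) (nat_lit 5) (nat_lit 86) (nat_lit 5) (nat_lit 81) (nat_lit 5) (nat_lit 352) (nat_lit 341) (nat_lit 207)))))) (XT.nd (nat_lit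 468) (nat_lit 1216) (nat_lit 0) (XT.nd (nat_lit 234) (nat_lit 836) (nat_lit 0) (XT.nd (nat_lit 78) (nat_lit 304) (nat_lit 0) (XT.lf (nat_lit 0) (nat_lit 11765132085) (nat_lit 304) (nat_lit 44304005874) (nat_lit 380) (nat_lit 102188075822) (nat_lit 76) (nat_lit 5) (nat_lit 80) (nat_lit 5) (nat_lit 81) (nat_lit 5) (nat_lit 353) (nat_lit 341) (nat_lit 206)) (XT.nd (nat_lit 78) (nat_lit 304) (nat_lit 0) (XT.lf (nat_lit 0) (nat_lit 92777391479) (nat_lit 380) (nat_lit 15625170636) (nat_lit 76) (nat_lit 57241713963) (nat_lit 76) (nat_lit 5) (nat_lit 81) (nat_lit 5) (nat_lit 77) (nat_lit 5) (nat_lit 354) (nat_lit 341) (nat_lit 205)) (XT.lf (nat_lit 0) (nat_lit 129095315906) (nat_lit 304) (nat_lit 6089083469) (nat_lit 380) (nat_lit 38299799715) (nat_lit 72) (nat_lit 5) (nat_lit 76) (nat_lit 5) (nat_lit 77) (nat_lit 5) (nat_lit 355) (nat_lit 341) (nat_lit 204)))) (XT.nd (nat_lit 78) (nat_lit 532)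 (nat_lit 0) (XT.lf (nat_lit 0) (nat_lit 2679501172) (nat_lit 304) (nat_lit 76053025080) (nat_lit 76) (nat_lit 103038750820) (nat_lit 68) (nat_lit 5) (nat_lit 72) (nat_lit 5) (nat_lit 69) (nat_lit 5) (nat_lit 356) (nat_lit 341) (nat_lit 203)) (XT.nd (nat_lit 78) (nat_lit 228) (nat_lit 0) (XT.lf (nat_lit 0) (nat_lit 48271033739) (nat_lit 380) (nat_lit 110540867402) (nat_lit 76) (nat_lit 31744240928) (nat_lit 64) (nat_lit 5) (nat_lit 69) (nat_lit 5) (nat_lit 65) (nat_lit 5) (nat_lit 357) (nat_lit 341) (nat_lit 202)) (XT.lf (nat_lit 0) (nat_lit 51609269410) (nat_lit 228) (nat_lit 49380046581) (nat_lit 304) (nat_lit 98880509249) (nat_lit 61) (nat_lit 5) (nat_lit 64) (nat_lit 5) (nat_lit 65) (nat_lit 5) (nat_lit 358) (nat_lit 341) (nat_lit 201))))) (XT.nd (nat_lit 234) (nat_lit 684) (nat_lit 0) (XT.nd (nat_lit 78) (nat_lit 304) (nat_lit 0) (XT.lf (nat_lit 0) (nat_lit 20392778442) (nat_lit 228)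 (nat_lit 140881643603) (nat_lit 304) (nat_lit 48486713263) (nat_lit 58) (nat_lit 5) (nat_lit 61) (nat_lit 5) (nat_lit 62) (nat_lit 5) (nat_lit 359) (nat_lit 341) (nat_lit 200)) (XT.nd (nat_lit 78) (nat_lit 228) (nat_lit 0) (XT.lf (nat_lit 0) (nat_lit 9205704085) (nat_lit 304) (nat_lit 13450147903) (nat_lit 76) (nat_lit 197610403084) (nat_lit 57) (nat_lit 5) (nat_lit 61) (nat_lit 5) (nat_lit 58) (nat_lit 5) (nat_lit 360) (nat_lit 341) (nat_lit 199)) (XT.lf (nat_lit 0) (nat_lit 74371020598) (nat_lit 304) (nat_lit 51595212756) (nat_lit 76) (nat_lit 105377995904) (nat_lit 54) (nat_lit 5) (nat_lit 58) (nat_lit 5) (nat_lit 55) (nat_lit 5) (nat_lit 361) (nat_lit 341) (nat_lit 198)))) (XT.nd (nat_lit 78) (nat_lit 456) (nat_lit 0) (XT.lf (nat_lit 0) (nat_lit 147747097565) (nat_lit 304) (nat_lit 93193785485) (nat_lit 76) (nat_lit 2217681803) (nat_lit 51) (nat_lit 5) (nat_lit 55) (nat_lit 5) (nat_lit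 52) (nat_lit 5) (nat_lit 362) (nat_lit 341) (nat_lit 197)) (XT.nd (nat_lit 78) (nat_lit 304) (nat_lit 0) (XT.lf (nat_lit 0) (nat_lit 115165681511) (nat_lit 152) (nat_lit 116662819949) (nat_lit 228) (nat_lit 23847784009) (nat_lit 49) (nat_lit 5) (nat_lit 51) (nat_lit 5) (nat_lit 52) (nat_lit 5) (nat_lit 363) (nat_lit 341) (nat_lit 196)) (XT.lf (nat_lit 0) (nat_lit 54900740265) (nat_lit 304) (nat_lit 193368326006) (nat_lit 76) (nat_lit 20726129872) (nat_lit 45) (nat_lit 5) (nat_lit 49) (nat_lit 5) (nat_lit 46) (nat_lit 5) (nat_lit 364) (nat_lit 341) (nat_lit 195))))))) (XT.nd (nat_lit 936) (nat_lit 912) (nat_lit 0) (XT.nd (nat_lit 468) (nat_lit 532) (nat_lit 0) (XT.nd (nat_lit 234) (nat_lit 456) (nat_lit 0) (XT.nd (nat_lit 78) (nat_lit 228) (nat_lit 0) (XT.lf (nat_lit 0) (nat_lit 29345050263) (nat_lit 152) (nat_lit 114692488627) (nat_lit 228) (nat_lit 139076338462) (nat_lit 43) (nat_lit 5)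 (nat_lit 45) (nat_lit 5) (nat_lit 46) (nat_lit 5) (nat_lit 365) (nat_lit 341) (nat_lit 194)) (XT.nd (nat_lit 78) (nat_lit 228) (nat_lit 0) (XT.lf (nat_lit 0) (nat_lit 244190235628) (nat_lit 228) (nat_lit 21930377898) (nat_lit 76) (nat_lit 32047191980) (nat_lit 43) (nat_lit 5) (nat_lit 46) (nat_lit 5) (nat_lit 44) (nat_lit 5) (nat_lit 366) (nat_lit 341) (nat_lit 193)) (XT.lf (nat_lit 0) (nat_lit 42393943112) (nat_lit 228) (nat_lit 80819869999) (nat_lit 76) (nat_lit 190898685417) (nat_lit 40) (nat_lit 5) (nat_lit 43) (nat_lit 5) (nat_lit 41) (nat_lit 5) (nat_lit 367) (nat_lit 341) (nat_lit 192)))) (XT.nd (nat_lit 78) (nat_lit 304) (nat_lit 0) (XT.lf (nat_lit 0) (nat_lit 148414212463) (nat_lit 228) (nat_lit 148324311095) (nat_lit 76) (nat_lit 34358492332) (nat_lit 38) (nat_lit 5) (nat_lit 41) (nat_lit 5) (nat_lit 39) (nat_lit 5) (nat_lit 368) (nat_lit 341) (nat_lit 191)) (XT.nd (nat_lit 78)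 (nat_lit 152) (nat_lit 0) (XT.lf (nat_lit 0) (nat_lit 122798034997) (nat_lit 152) (nat_lit 145543559972) (nat_lit 228) (nat_lit 80827425216) (nat_lit 36) (nat_lit 5) (nat_lit 38) (nat_lit 5) (nat_lit 39) (nat_lit 5) (nat_lit 369) (nat_lit 341) (nat_lit 190)) (XT.lf (nat_lit 0) (nat_lit 32045996365) (nat_lit 152) (nat_lit 315266884856) (nat_lit 76) (nat_lit 21160955473) (nat_lit 34) (nat_lit 5) (nat_lit 36) (nat_lit 5) (nat_lit 35) (nat_lit 5) (nat_lit 370) (nat_lit 341) (nat_lit 189))))) (XT.nd (nat_lit 234) (nat_lit 228) (nat_lit 0) (XT.nd (nat_lit 78) (nat_lit 304) (nat_lit 0) (XT.lf (nat_lit 0) (nat_lit 157617129340) (nat_lit 152) (nat_lit 29773184962) (nat_lit 76) (nat_lit 201541490487) (nat_lit 34) (nat_lit 5) (nat_lit 36) (nat_lit 5) (nat_lit 35) (nat_lit 5) (nat_lit 371) (nat_lit 341) (nat_lit 188)) (XT.nd (nat_lit 78) (nat_lit 152) (nat_lit 0) (XT.lf (nat_lit 0) (nat_lit 287770084674)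 (nat_lit 152) (nat_lit 9956551533) (nat_lit 228) (nat_lit 113075140054) (nat_lit 32) (nat_lit 5) (nat_lit 34) (nat_lit 5) (nat_lit 35) (nat_lit 5) (nat_lit 372) (nat_lit 341) (nat_lit 187)) (XT.lf (nat_lit 0) (nat_lit 20763152133) (nat_lit 152) (nat_lit 233459508491) (nat_lit 76) (nat_lit 179856887215) (nat_lit 30) (nat_lit 5) (nat_lit 32) (nat_lit 5) (nat_lit 31) (nat_lit 5) (nat_lit 373) (nat_lit 341) (nat_lit 186)))) (XT.nd (nat_lit 78) (nat_lit 76) (nat_lit 0) (XT.lf (nat_lit 0) (nat_lit 96420998701) (nat_lit 152) (nat_lit 68830223664) (nat_lit 228) (nat_lit 293680418472) (nat_lit 28) (nat_lit 5) (nat_lit 30) (nat_lit 5) (nat_lit 31) (nat_lit 5) (nat_lit 374) (nat_lit 341) (nat_lit 185)) (XT.nd (nat_lit 78) (nat_lit 76) (nat_lit 0) (XT.lf (nat_lit 0) (nat_lit 327482949946) (nat_lit 228) (nat_lit 26658286703) (nat_lit 76) (nat_lit 131321434111) (nat_lit 28) (nat_lit 5) (nat_lit 31) (nat_lit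 5) (nat_lit 29) (nat_lit 4) (nat_lit 375) (nat_lit 341) (nat_lit 184)) (XT.lf (nat_lit 0) (nat_lit 345974688399) (nat_lit 76) (nat_lit 163280587163) (nat_lit 152) (nat_lit 4532804587) (nat_lit 27) (nat_lit 5) (nat_lit 28) (nat_lit 5) (nat_lit 29) (nat_lit 4) (nat_lit 376) (nat_lit 341) (nat_lit 183)))))) (XT.nd (nat_lit 468) (nat_lit 380) (nat_lit 0) (XT.nd (nat_lit 234) (nat_lit 228) (nat_lit 0) (XT.nd (nat_lit 78) (nat_lit 76) (nat_lit 0) (XT.lf (nat_lit 0) (nat_lit 160540074684) (nat_lit 228) (nat_lit 335653701425) (nat_lit 76) (nat_lit 47834450356) (nat_lit 24) (nat_lit 5) (nat_lit 27) (nat_lit 5) (nat_lit 25) (nat_lit 4) (nat_lit 377) (nat_lit 341) (nat_lit 182)) (XT.nd (nat_lit 78) (nat_lit 0) (nat_lit 0) (XT.lf (nat_lit 0) (nat_lit 42594024981) (nat_lit 76) (nat_lit 302457252222) (nat_lit 152) (nat_lit 231313026909) (nat_lit 23) (nat_lit 5) (nat_lit 24) (nat_lit 5) (nat_lit 25) (nat_lit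 4) (nat_lit 378) (nat_lit 341) (nat_lit 181)) (XT.lf (nat_lit 0) (nat_lit 463087366994) (nat_lit 76) (nat_lit 87082721470) (nat_lit 152) (nat_lit 60824843928) (nat_lit 23) (nat_lit 5) (nat_lit 24) (nat_lit 5) (nat_lit 25) (nat_lit 4) (nat_lit 379) (nat_lit 341) (nat_lit 180)))) (XT.nd (nat_lit 78) (nat_lit 76) (nat_lit 0) (XT.lf (nat_lit 0) (nat_lit 126034747800) (nat_lit 152) (nat_lit 374734975632) (nat_lit 76) (nat_lit 147196092712) (nat_lit 21) (nat_lit 5) (nat_lit 23) (nat_lit 5) (nat_lit 22) (nat_lit 4) (nat_lit 380) (nat_lit 341) (nat_lit 179)) (XT.nd (nat_lit 78) (nat_lit 0) (nat_lit 0) (XT.lf (nat_lit 0) (nat_lit 44463105773) (nat_lit 76) (nat_lit 286058599057) (nat_lit 152) (nat_lit 357082329165) (nat_lit 20) (nat_lit 5) (nat_lit 21) (nat_lit 5) (nat_lit 22) (nat_lit 4) (nat_lit 381) (nat_lit 341) (nat_lit 178)) (XT.lf (nat_lit 0) (nat_lit 510578445246) (nat_lit 76) (nat_lit 47316677443)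 (nat_lit 152) (nat_lit 172191811410) (nat_lit 20) (nat_lit 5) (nat_lit 21) (nat_lit 5) (nat_lit 22) (nat_lit 4) (nat_lit 382) (nat_lit 341) (nat_lit 177))))) (XT.nd (nat_lit 234) (nat_lit 152) (nat_lit 0) (XT.nd (nat_lit 78) (nat_lit 76) (nat_lit 0) (XT.lf (nat_lit 0) (nat_lit 33798719692) (nat_lit 152) (nat_lit 533671397033) (nat_lit 76) (nat_lit 208117458665) (nat_lit 18) (nat_lit 5) (nat_lit 20) (nat_lit 5) (nat_lit 19) (nat_lit 4) (nat_lit 383) (nat_lit 341) (nat_lit 176)) (XT.nd (nat_lit 78) (nat_lit 76) (nat_lit 0) (XT.lf (nat_lit 0) (nat_lit 255000483469) (nat_lit 152) (nat_lit 80207917761) (nat_lit 76) (nat_lit 489140488332) (nat_lit 18) (nat_lit 5) (nat_lit 20) (nat_lit 5) (nat_lit 19) (nat_lit 4) (nat_lit 384) (nat_lit 341) (nat_lit 175)) (XT.lf (nat_lit 0) (nat_lit 423073415342) (nat_lit 76) (nat_lit 77430219085) (nat_lit 152) (nat_lit 376177212165) (nat_lit 17) (nat_lit 5) (nat_lit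 18) (nat_lit 5) (nat_lit 19) (nat_lit 4) (nat_lit 385) (nat_lit 341) (nat_lit 174)))) (XT.nd (nat_lit 78) (nat_lit 76) (nat_lit 0) (XT.lf (nat_lit 0) (nat_lit 34288577566) (nat_lit 76) (nat_lit 736451471849) (nat_lit 76) (nat_lit 162204660196) (nat_lit 16) (nat_lit 4) (nat_lit 17) (nat_lit 5) (nat_lit 17) (nat_lit 4) (nat_lit 386) (nat_lit 341) (nat_lit 173)) (XT.nd (nat_lit 43368) (nat_lit 0) (nat_lit 6460) (XT.lf (nat_lit 0) (nat_lit 76017512385) (nat_lit 152) (nat_lit 418411014436) (nat_lit 76) (nat_lit 498760550489) (nat_lit 15) (nat_lit 5) (nat_lit 17) (nat_lit 5) (nat_lit 16) (nat_lit 4) (nat_lit 387) (nat_lit 341) (nat_lit 172)) (XT.lf (nat_lit 0) (nat_lit 5595406812) (nat_lit 836) (nat_lit 23019500342) (nat_lit 836) (nat_lit 23019500342) (nat_lit 100) (nat_lit 3) (nat_lit 111) (nat_lit 3) (nat_lit 111) (nat_lit 5) (nat_lit 342) (nat_lit 342) (nat_lit 216))))))))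
noncomputable def xc110 : XT := (XT.nd (nat_lit 1794) (nat_lit 2204) (nat_lit 0) (XT.nd (nat_lit 858) (nat_lit 2660) (nat_lit 0) (XT.nd (nat_lit 390) (nat_lit 1596) (nat_lit 0) (XT.nd (nat_lit 156) (nat_lit 0) (nat_lit 76) (XT.nd (nat_lit 78) (nat_lit 0) (nat_lit 0) (XT.lf (nat_lit 0) (nat_lit 12494306023) (nat_lit 760) (nat_lit 74508002944) (nat_lit 836) (nat_lit 20354455796) (nat_lit 101) (nat_lit 5) (nat_lit 111) (nat_lit 5) (nat_lit 112) (nat_lit 5) (nat_lit 343) (nat_lit 342) (nat_lit 215)) (XT.lf (nat_lit 76) (nat_lit 7212054744) (nat_lit 0) (nat_lit 8581805925) (nat_lit 836) (nat_lit 95883301687) (nat_lit 102) (nat_lit 5) (nat_lit 101) (nat_lit 5) (nat_lit 112) (nat_lit 5) (nat_lit 344) (nat_lit 342) (nat_lit 214))) (XT.nd (nat_lit 78) (nat_lit 0) (nat_lit 76) (XT.lf (nat_lit 0) (nat_lit 21863997204) (nat_lit 760) (nat_lit 19358113893) (nat_lit 836) (nat_lit 74995750695) (nat_lit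 102) (nat_lit 5) (nat_lit 112) (nat_lit 5) (nat_lit 113) (nat_lit 5) (nat_lit 345) (nat_lit 342) (nat_lit 213)) (XT.nd (nat_lit 78) (nat_lit 0) (nat_lit 76) (XT.lf (nat_lit 0) (nat_lit 30435330163) (nat_lit 760) (nat_lit 46953505681) (nat_lit 836) (nat_lit 43632202907) (nat_lit 103) (nat_lit 5) (nat_lit 113) (nat_lit 5) (nat_lit 114) (nat_lit 5) (nat_lit 346) (nat_lit 342) (nat_lit 212)) (XT.lf (nat_lit 0) (nat_lit 41654342596) (nat_lit 760) (nat_lit 75877513410) (nat_lit 836) (nat_lit 8578516000) (nat_lit 104) (nat_lit 5) (nat_lit 114) (nat_lit 5) (nat_lit 115) (nat_lit 5) (nat_lit 347) (nat_lit 342) (nat_lit 211))))) (XT.nd (nat_lit 234) (nat_lit 1140) (nat_lit 0) (XT.nd (nat_lit 78) (nat_lit 684) (nat_lit 0) (XT.lf (nat_lit 76) (nat_lit 24779053464) (nat_lit 0) (nat_lit 31514219553) (nat_lit 836) (nat_lit 75187459779) (nat_lit 105) (nat_lit 5) (nat_lit 104) (nat_lit 5) (nat_lit 115) (nat_lit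 5) (nat_lit 348) (nat_lit 342) (nat_lit 210)) (XT.nd (nat_lit 78) (nat_lit 760) (nat_lit 0) (XT.lf (nat_lit 0) (nat_lit 74404458434) (nat_lit 760) (nat_lit 1997570755) (nat_lit 76) (nat_lit 60763636902) (nat_lit 105) (nat_lit 5) (nat_lit 115) (nat_lit 5) (nat_lit 106) (nat_lit 5) (nat_lit 349) (nat_lit 342) (nat_lit 209)) (XT.lf (nat_lit 0) (nat_lit 96558304250) (nat_lit 836) (nat_lit 29263355138) (nat_lit 76) (nat_lit 17354047003) (nat_lit 95) (nat_lit 5) (nat_lit 106) (nat_lit 5) (nat_lit 96) (nat_lit 5) (nat_lit 350) (nat_lit 342) (nat_lit 208)))) (XT.nd (nat_lit 78) (nat_lit 760) (nat_lit 0) (XT.lf (nat_lit 0) (nat_lit 91128886565) (nat_lit 380) (nat_lit 32101425249) (nat_lit 456) (nat_lit 26298945971) (nat_lit 90) (nat_lit 5) (nat_lit 95) (nat_lit 5) (nat_lit 96) (nat_lit 5) (nat_lit 351) (nat_lit 342) (nat_lit 207)) (XT.nd (nat_lit 78) (nat_lit 456) (nat_lit 0) (XT.lf (nat_lit 0) (nat_lit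 66884602232) (nat_lit 304) (nat_lit 87792406468) (nat_lit 380) (nat_lit 1582038686) (nat_lit 86) (nat_lit 5) (nat_lit 90) (nat_lit 5) (nat_lit 91) (nat_lit 5) (nat_lit 352) (nat_lit 342) (nat_lit 206)) (XT.lf (nat_lit 0) (nat_lit 26754592308) (nat_lit 456) (nat_lit 122456808912) (nat_lit 76) (nat_lit 14173909846) (nat_lit 80) (nat_lit 5) (nat_lit 86) (nat_lit 5) (nat_lit 81) (nat_lit 5) (nat_lit 353) (nat_lit 342) (nat_lit 205)))))) (XT.nd (nat_lit 468) (nat_lit 1216) (nat_lit 0) (XT.nd (nat_lit 234) (nat_lit 836) (nat_lit 0) (XT.nd (nat_lit 78) (nat_lit 304) (nat_lit 0) (XT.lf (nat_lit 0) (nat_lit 12717334565) (nat_lit 304) (nat_lit 47846911974) (nat_lit 380) (nat_lit 110353056997) (nat_lit 76) (nat_lit 5) (nat_lit 80) (nat_lit 5) (nat_lit 81) (nat_lit 5) (nat_lit 354) (nat_lit 342) (nat_lit 204)) (XT.nd (nat_lit 78) (nat_lit 304) (nat_lit 0) (XT.lf (nat_lit 0) (nat_lit 100208471340) (nat_lit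 380) (nat_lit 16864575788) (nat_lit 76) (nat_lit 61822318767) (nat_lit 76) (nat_lit 5) (nat_lit 81) (nat_lit 5) (nat_lit 77) (nat_lit 5) (nat_lit 355) (nat_lit 342) (nat_lit 203)) (XT.lf (nat_lit 0) (nat_lit 139433088645) (nat_lit 304) (nat_lit 6574451242) (nat_lit 380) (nat_lit 41354968440) (nat_lit 72) (nat_lit 5) (nat_lit 76) (nat_lit 5) (nat_lit 77) (nat_lit 5) (nat_lit 356) (nat_lit 342) (nat_lit 202)))) (XT.nd (nat_lit 78) (nat_lit 532) (nat_lit 0) (XT.lf (nat_lit 0) (nat_lit 2901948227) (nat_lit 304) (nat_lit 82126904943) (nat_lit 76) (nat_lit 111283715317) (nat_lit 68) (nat_lit 5) (nat_lit 72) (nat_lit 5) (nat_lit 69) (nat_lit 5) (nat_lit 357) (nat_lit 342) (nat_lit 201)) (XT.nd (nat_lit 78) (nat_lit 228) (nat_lit 0) (XT.lf (nat_lit 0) (nat_lit 52140394544) (nat_lit 380) (nat_lit 119373872340) (nat_lit 76) (nat_lit 34285976716) (nat_lit 64) (nat_lit 5) (nat_lit 69) (nat_lit 5) (nat_lit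 65) (nat_lit 5) (nat_lit 358) (nat_lit 342) (nat_lit 200)) (XT.lf (nat_lit 0) (nat_lit 55747829336) (nat_lit 228) (nat_lit 53327894583) (nat_lit 304) (nat_lit 106783318717) (nat_lit 61) (nat_lit 5) (nat_lit 64) (nat_lit 5) (nat_lit 65) (nat_lit 5) (nat_lit 359) (nat_lit 342) (nat_lit 199))))) (XT.nd (nat_lit 234) (nat_lit 684) (nat_lit 0) (XT.nd (nat_lit 78) (nat_lit 304) (nat_lit 0) (XT.lf (nat_lit 0) (nat_lit 22033906832) (nat_lit 228) (nat_lit 152149382138) (nat_lit 304) (nat_lit 52358386421) (nat_lit 58) (nat_lit 5) (nat_lit 61) (nat_lit 5) (nat_lit 62) (nat_lit 5) (nat_lit 360) (nat_lit 342) (nat_lit 198)) (XT.nd (nat_lit 78) (nat_lit 228) (nat_lit 0) (XT.lf (nat_lit 0) (nat_lit 9948670980) (nat_lit 304) (nat_lit 14516952841) (nat_lit 76) (nat_lit 213421601647) (nat_lit 57) (nat_lit 5) (nat_lit 61) (nat_lit 5) (nat_lit 58) (nat_lit 5) (nat_lit 361) (nat_lit 342) (nat_lit 197)) (XT.lf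 (nat_lit 0) (nat_lit 80326909281) (nat_lit 304) (nat_lit 55713751795) (nat_lit 76) (nat_lit 113810792021) (nat_lit 54) (nat_lit 5) (nat_lit 58) (nat_lit 5) (nat_lit 55) (nat_lit 5) (nat_lit 362) (nat_lit 342) (nat_lit 196)))) (XT.nd (nat_lit 78) (nat_lit 456) (nat_lit 0) (XT.lf (nat_lit 0) (nat_lit 159572791923) (nat_lit 304) (nat_lit 100640350601) (nat_lit 76) (nat_lit 2397807346) (nat_lit 51) (nat_lit 5) (nat_lit 55) (nat_lit 5) (nat_lit 52) (nat_lit 5) (nat_lit 363) (nat_lit 342) (nat_lit 195)) (XT.nd (nat_lit 78) (nat_lit 304) (nat_lit 0) (XT.lf (nat_lit 0) (nat_lit 124387485332) (nat_lit 152) (nat_lit 125992917272) (nat_lit 228) (nat_lit 25749701092) (nat_lit 49) (nat_lit 5) (nat_lit 51) (nat_lit 5) (nat_lit 52) (nat_lit 5) (nat_lit 364) (nat_lit 342) (nat_lit 194)) (XT.lf (nat_lit 0) (nat_lit 59298269076) (nat_lit 304) (nat_lit 208829201831) (nat_lit 76) (nat_lit 22387064309) (nat_lit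 45) (nat_lit 5) (nat_lit 49) (nat_lit 5) (nat_lit 46) (nat_lit 5) (nat_lit 365) (nat_lit 342) (nat_lit 193))))))) (XT.nd (nat_lit 936) (nat_lit 836) (nat_lit 0) (XT.nd (nat_lit 468) (nat_lit 532) (nat_lit 0) (XT.nd (nat_lit 234) (nat_lit 456) (nat_lit 0) (XT.nd (nat_lit 78) (nat_lit 228) (nat_lit 0) (XT.lf (nat_lit 0) (nat_lit 31700871217) (nat_lit 152) (nat_lit 123864863508) (nat_lit 228) (nat_lit 150196990272) (nat_lit 43) (nat_lit 5) (nat_lit 45) (nat_lit 5) (nat_lit 46) (nat_lit 5) (nat_lit 366) (nat_lit 342) (nat_lit 192)) (XT.nd (nat_lit 78) (nat_lit 228) (nat_lit 0) (XT.lf (nat_lit 0) (nat_lit 263730306275) (nat_lit 228) (nat_lit 23677000483) (nat_lit 76) (nat_lit 34613677908) (nat_lit 43) (nat_lit 5) (nat_lit 46) (nat_lit 5) (nat_lit 44) (nat_lit 5) (nat_lit 367) (nat_lit 342) (nat_lit 191)) (XT.lf (nat_lit 0) (nat_lit 45790145536) (nat_lit 228) (nat_lit 87277833917) (nat_lit 76)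 (nat_lit 206173282235) (nat_lit 40) (nat_lit 5) (nat_lit 43) (nat_lit 5) (nat_lit 41) (nat_lit 5) (nat_lit 368) (nat_lit 342) (nat_lit 190)))) (XT.nd (nat_lit 78) (nat_lit 304) (nat_lit 0) (XT.lf (nat_lit 0) (nat_lit 160291847486) (nat_lit 228) (nat_lit 160182781174) (nat_lit 76) (nat_lit 37109921404) (nat_lit 38) (nat_lit 5) (nat_lit 41) (nat_lit 5) (nat_lit 39) (nat_lit 5) (nat_lit 369) (nat_lit 342) (nat_lit 189)) (XT.nd (nat_lit 78) (nat_lit 152) (nat_lit 0) (XT.lf (nat_lit 0) (nat_lit 132629027760) (nat_lit 152) (nat_lit 157184171276) (nat_lit 228) (nat_lit 87289126905) (nat_lit 36) (nat_lit 5) (nat_lit 38) (nat_lit 5) (nat_lit 39) (nat_lit 5) (nat_lit 370) (nat_lit 342) (nat_lit 188)) (XT.lf (nat_lit 0) (nat_lit 34613855851) (nat_lit 152) (nat_lit 340481092851) (nat_lit 76) (nat_lit 22856584144) (nat_lit 34) (nat_lit 5) (nat_lit 36) (nat_lit 5) (nat_lit 35) (nat_lit 5) (nat_lit 371)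 (nat_lit 342) (nat_lit 187))))) (XT.nd (nat_lit 234) (nat_lit 228) (nat_lit 0) (XT.nd (nat_lit 78) (nat_lit 304) (nat_lit 0) (XT.lf (nat_lit 0) (nat_lit 170230369851) (nat_lit 152) (nat_lit 32148426061) (nat_lit 76) (nat_lit 217667358091) (nat_lit 34) (nat_lit 5) (nat_lit 36) (nat_lit 5) (nat_lit 35) (nat_lit 5) (nat_lit 372) (nat_lit 342) (nat_lit 186)) (XT.nd (nat_lit 78) (nat_lit 152) (nat_lit 0) (XT.lf (nat_lit 0) (nat_lit 310798017723) (nat_lit 152) (nat_lit 10750431637) (nat_lit 228) (nat_lit 122117283351) (nat_lit 32) (nat_lit 5) (nat_lit 34) (nat_lit 5) (nat_lit 35) (nat_lit 5) (nat_lit 373) (nat_lit 342) (nat_lit 185)) (XT.lf (nat_lit 0) (nat_lit 22427808140) (nat_lit 152) (nat_lit 252129959217) (nat_lit 76) (nat_lit 194247962761) (nat_lit 30) (nat_lit 5) (nat_lit 32) (nat_lit 5) (nat_lit 31) (nat_lit 5) (nat_lit 374) (nat_lit 342) (nat_lit 184)))) (XT.nd (nat_lit 78) (nat_lit 76)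 (nat_lit 0) (XT.lf (nat_lit 0) (nat_lit 104140714328) (nat_lit 152) (nat_lit 74334036947) (nat_lit 228) (nat_lit 317171248018) (nat_lit 28) (nat_lit 5) (nat_lit 30) (nat_lit 5) (nat_lit 31) (nat_lit 5) (nat_lit 375) (nat_lit 342) (nat_lit 183)) (XT.nd (nat_lit 78) (nat_lit 76) (nat_lit 0) (XT.lf (nat_lit 0) (nat_lit 353684800558) (nat_lit 228) (nat_lit 28785238642) (nat_lit 76) (nat_lit 141829483328) (nat_lit 28) (nat_lit 5) (nat_lit 31) (nat_lit 5) (nat_lit 29) (nat_lit 4) (nat_lit 376) (nat_lit 342) (nat_lit 182)) (XT.lf (nat_lit 0) (nat_lit 373658126275) (nat_lit 76) (nat_lit 176340633118) (nat_lit 152) (nat_lit 4892213002) (nat_lit 27) (nat_lit 5) (nat_lit 28) (nat_lit 5) (nat_lit 29) (nat_lit 4) (nat_lit 377) (nat_lit 342) (nat_lit 181)))))) (XT.nd (nat_lit 468) (nat_lit 304) (nat_lit 0) (XT.nd (nat_lit 234) (nat_lit 228) (nat_lit 0) (XT.nd (nat_lit 78) (nat_lit 76) (nat_lit 0) (XT.lf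 (nat_lit 0) (nat_lit 173386283057) (nat_lit 228) (nat_lit 362500560311) (nat_lit 76) (nat_lit 51663490146) (nat_lit 24) (nat_lit 5) (nat_lit 27) (nat_lit 5) (nat_lit 25) (nat_lit 4) (nat_lit 378) (nat_lit 342) (nat_lit 180)) (XT.nd (nat_lit 78) (nat_lit 0) (nat_lit 0) (XT.lf (nat_lit 0) (nat_lit 46006747913) (nat_lit 76) (nat_lit 326651492666) (nat_lit 152) (nat_lit 249815063924) (nat_lit 23) (nat_lit 5) (nat_lit 24) (nat_lit 5) (nat_lit 25) (nat_lit 4) (nat_lit 379) (nat_lit 342) (nat_lit 179)) (XT.lf (nat_lit 0) (nat_lit 500139172032) (nat_lit 76) (nat_lit 94047172767) (nat_lit 152) (nat_lit 65688048907) (nat_lit 23) (nat_lit 5) (nat_lit 24) (nat_lit 5) (nat_lit 25) (nat_lit 4) (nat_lit 380) (nat_lit 342) (nat_lit 178)))) (XT.nd (nat_lit 78) (nat_lit 76) (nat_lit 0) (XT.lf (nat_lit 0) (nat_lit 136120128023) (nat_lit 152) (nat_lit 404708985458) (nat_lit 76) (nat_lit 158973837217) (nat_lit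 21) (nat_lit 5) (nat_lit 23) (nat_lit 5) (nat_lit 22) (nat_lit 4) (nat_lit 381) (nat_lit 342) (nat_lit 177)) (XT.nd (nat_lit 78) (nat_lit 0) (nat_lit 0) (XT.lf (nat_lit 0) (nat_lit 48024734369) (nat_lit 76) (nat_lit 308941186133) (nat_lit 152) (nat_lit 385646311584) (nat_lit 20) (nat_lit 5) (nat_lit 21) (nat_lit 5) (nat_lit 22) (nat_lit 4) (nat_lit 382) (nat_lit 342) (nat_lit 176)) (XT.lf (nat_lit 0) (nat_lit 551428961731) (nat_lit 76) (nat_lit 51100066408) (nat_lit 152) (nat_lit 185964745291) (nat_lit 20) (nat_lit 5) (nat_lit 21) (nat_lit 5) (nat_lit 22) (nat_lit 4) (nat_lit 383) (nat_lit 342) (nat_lit 175))))) (XT.nd (nat_lit 234) (nat_lit 76) (nat_lit 0) (XT.nd (nat_lit 78) (nat_lit 76) (nat_lit 0) (XT.lf (nat_lit 0) (nat_lit 36504872498) (nat_lit 152) (nat_lit 576360895792) (nat_lit 76) (nat_lit 224768699828) (nat_lit 18) (nat_lit 5) (nat_lit 20) (nat_lit 5) (nat_lit 19) (nat_lit 4)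 (nat_lit 384) (nat_lit 342) (nat_lit 174)) (XT.nd (nat_lit 78) (nat_lit 76) (nat_lit 0) (XT.lf (nat_lit 0) (nat_lit 275402610322) (nat_lit 152) (nat_lit 86620650253) (nat_lit 76) (nat_lit 528273435241) (nat_lit 18) (nat_lit 5) (nat_lit 20) (nat_lit 5) (nat_lit 19) (nat_lit 4) (nat_lit 385) (nat_lit 342) (nat_lit 173)) (XT.lf (nat_lit 0) (nat_lit 456923019969) (nat_lit 76) (nat_lit 83622896965) (nat_lit 152) (nat_lit 406269297331) (nat_lit 17) (nat_lit 5) (nat_lit 18) (nat_lit 5) (nat_lit 19) (nat_lit 4) (nat_lit 386) (nat_lit 342) (nat_lit 172)))) (XT.nd (nat_lit 43446) (nat_lit 0) (nat_lit 6384) (XT.lf (nat_lit 0) (nat_lit 37035302734) (nat_lit 76) (nat_lit 795365876814) (nat_lit 76) (nat_lit 175179010093) (nat_lit 16) (nat_lit 4) (nat_lit 17) (nat_lit 5) (nat_lit 17) (nat_lit 4) (nat_lit 387) (nat_lit 342) (nat_lit 171)) (XT.nd (nat_lit 78) (nat_lit 0) (nat_lit 76) (XT.lf (nat_lit 0) (nat_lit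 6052134255) (nat_lit 836) (nat_lit 24856280748) (nat_lit 836) (nat_lit 24856280748) (nat_lit 100) (nat_lit 3) (nat_lit 111) (nat_lit 3) (nat_lit 111) (nat_lit 5) (nat_lit 343) (nat_lit 343) (nat_lit 214)) (XT.lf (nat_lit 0) (nat_lit 13510713244) (nat_lit 760) (nat_lit 80458509906) (nat_lit 836) (nat_lit 21975221878) (nat_lit 101) (nat_lit 5) (nat_lit 111) (nat_lit 5) (nat_lit 112) (nat_lit 5) (nat_lit 344) (nat_lit 343) (nat_lit 213))))))))
noncomputable def xc111 : XT := (XT.nd (nat_lit 1794) (nat_lit 1976) (nat_lit 0) (XT.nd (nat_lit 858) (nat_lit 2508) (nat_lit 0) (XT.nd (nat_lit 390) (nat_lit 1900) (nat_lit 0) (XT.nd (nat_lit 156) (nat_lit 0) (nat_lit 152) (XT.nd (nat_lit 78) (nat_lit 0) (nat_lit 76) (XT.lf (nat_lit 76) (nat_lit 7798712017) (nat_lit 0) (nat_lit 9274422485) (nat_lit 836) (nat_lit 103537396131) (nat_lit 102) (nat_lit 5) (nat_lit 101) (nat_lit 5) (nat_lit 112) (nat_lit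 5) (nat_lit 345) (nat_lit 343) (nat_lit 212)) (XT.lf (nat_lit 0) (nat_lit 23627626404) (nat_lit 760) (nat_lit 20896955220) (nat_lit 836) (nat_lit 80989968397) (nat_lit 102) (nat_lit 5) (nat_lit 112) (nat_lit 5) (nat_lit 113) (nat_lit 5) (nat_lit 346) (nat_lit 343) (nat_lit 211))) (XT.nd (nat_lit 78) (nat_lit 0) (nat_lit 76) (XT.lf (nat_lit 0) (nat_lit 32883672133) (nat_lit 760) (nat_lit 50699645849) (nat_lit 836) (nat_lit 47118713978) (nat_lit 103) (nat_lit 5) (nat_lit 113) (nat_lit 5) (nat_lit 114) (nat_lit 5) (nat_lit 347) (nat_lit 343) (nat_lit 210)) (XT.nd (nat_lit 78) (nat_lit 0) (nat_lit 0) (XT.lf (nat_lit 0) (nat_lit 44999309535) (nat_lit 760) (nat_lit 81937322209) (nat_lit 836) (nat_lit 9261925978) (nat_lit 104) (nat_lit 5) (nat_lit 114) (nat_lit 5) (nat_lit 115) (nat_lit 5) (nat_lit 348) (nat_lit 343) (nat_lit 209)) (XT.lf (nat_lit 76) (nat_lit 26771318379) (nat_lit 0) (nat_lit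 34037256431) (nat_lit 836) (nat_lit 81190012512) (nat_lit 105) (nat_lit 5) (nat_lit 104) (nat_lit 5) (nat_lit 115) (nat_lit 5) (nat_lit 349) (nat_lit 343) (nat_lit 208))))) (XT.nd (nat_lit 234) (nat_lit 1064) (nat_lit 0) (XT.nd (nat_lit 78) (nat_lit 1140) (nat_lit 0) (XT.lf (nat_lit 0) (nat_lit 80367750570) (nat_lit 760) (nat_lit 2147585313) (nat_lit 76) (nat_lit 65623025517) (nat_lit 105) (nat_lit 5) (nat_lit 115) (nat_lit 5) (nat_lit 106) (nat_lit 5) (nat_lit 350) (nat_lit 343) (nat_lit 207)) (XT.nd (nat_lit 78) (nat_lit 380) (nat_lit 0) (XT.lf (nat_lit 0) (nat_lit 104293226095) (nat_lit 836) (nat_lit 31594519854) (nat_lit 76) (nat_lit 18741493704) (nat_lit 95) (nat_lit 5) (nat_lit 106) (nat_lit 5) (nat_lit 96) (nat_lit 5) (nat_lit 351) (nat_lit 343) (nat_lit 206)) (XT.lf (nat_lit 0) (nat_lit 98428670783) (nat_lit 380) (nat_lit 34669711570) (nat_lit 456) (nat_lit 28392724169) (nat_lit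 90) (nat_lit 5) (nat_lit 95) (nat_lit 5) (nat_lit 96) (nat_lit 5) (nat_lit 352) (nat_lit 343) (nat_lit 205)))) (XT.nd (nat_lit 78) (nat_lit 760) (nat_lit 0) (XT.lf (nat_lit 0) (nat_lit 72244905087) (nat_lit 304) (nat_lit 94815341787) (nat_lit 380) (nat_lit 1699061535) (nat_lit 86) (nat_lit 5) (nat_lit 90) (nat_lit 5) (nat_lit 91) (nat_lit 5) (nat_lit 353) (nat_lit 343) (nat_lit 204)) (XT.nd (nat_lit 78) (nat_lit 304) (nat_lit 0) (XT.lf (nat_lit 0) (nat_lit 28903668886) (nat_lit 456) (nat_lit 132243501677) (nat_lit 76) (nat_lit 15308522085) (nat_lit 80) (nat_lit 5) (nat_lit 86) (nat_lit 5) (nat_lit 81) (nat_lit 5) (nat_lit 354) (nat_lit 343) (nat_lit 203)) (XT.lf (nat_lit 0) (nat_lit 13744145125) (nat_lit 304) (nat_lit 51673452337) (nat_lit 380) (nat_lit 119172672535) (nat_lit 76) (nat_lit 5) (nat_lit 80) (nat_lit 5) (nat_lit 81) (nat_lit 5) (nat_lit 355) (nat_lit 343) (nat_lit 202))))))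 (XT.nd (nat_lit 468) (nat_lit 1140) (nat_lit 0) (XT.nd (nat_lit 234) (nat_lit 760) (nat_lit 0) (XT.nd (nat_lit 78) (nat_lit 608) (nat_lit 0) (XT.lf (nat_lit 0) (nat_lit 108232769540) (nat_lit 380) (nat_lit 18204646773) (nat_lit 76) (nat_lit 66769191105) (nat_lit 76) (nat_lit 5) (nat_lit 81) (nat_lit 5) (nat_lit 77) (nat_lit 5) (nat_lit 356) (nat_lit 343) (nat_lit 201)) (XT.nd (nat_lit 78) (nat_lit 304) (nat_lit 0) (XT.lf (nat_lit 0) (nat_lit 150596435554) (nat_lit 304) (nat_lit 7098899364) (nat_lit 380) (nat_lit 44655808257) (nat_lit 72) (nat_lit 5) (nat_lit 76) (nat_lit 5) (nat_lit 77) (nat_lit 5) (nat_lit 357) (nat_lit 343) (nat_lit 200)) (XT.lf (nat_lit 0) (nat_lit 3141037350) (nat_lit 304) (nat_lit 88688173469) (nat_lit 76) (nat_lit 120188010993) (nat_lit 68) (nat_lit 5) (nat_lit 72) (nat_lit 5) (nat_lit 69) (nat_lit 5) (nat_lit 358) (nat_lit 343) (nat_lit 199)))) (XT.nd (nat_lit 78)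 (nat_lit 456) (nat_lit 0) (XT.lf (nat_lit 0) (nat_lit 56318208846) (nat_lit 380) (nat_lit 128914982013) (nat_lit 76) (nat_lit 37030738010) (nat_lit 64) (nat_lit 5) (nat_lit 69) (nat_lit 5) (nat_lit 65) (nat_lit 5) (nat_lit 359) (nat_lit 343) (nat_lit 198)) (XT.nd (nat_lit 78) (nat_lit 228) (nat_lit 0) (XT.lf (nat_lit 0) (nat_lit 60216073356) (nat_lit 228) (nat_lit 57591935029) (nat_lit 304) (nat_lit 115319441629) (nat_lit 61) (nat_lit 5) (nat_lit 64) (nat_lit 5) (nat_lit 65) (nat_lit 5) (nat_lit 360) (nat_lit 343) (nat_lit 197)) (XT.lf (nat_lit 0) (nat_lit 23804940806) (nat_lit 228) (nat_lit 164318938203) (nat_lit 304) (nat_lit 56540829709) (nat_lit 58) (nat_lit 5) (nat_lit 61) (nat_lit 5) (nat_lit 62) (nat_lit 5) (nat_lit 361) (nat_lit 343) (nat_lit 196))))) (XT.nd (nat_lit 234) (nat_lit 608) (nat_lit 0) (XT.nd (nat_lit 78) (nat_lit 456) (nat_lit 0) (XT.lf (nat_lit 0) (nat_lit 10750146420)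 (nat_lit 304) (nat_lit 15670415641) (nat_lit 76) (nat_lit 230497358513) (nat_lit 57) (nat_lit 5) (nat_lit 61) (nat_lit 5) (nat_lit 58) (nat_lit 5) (nat_lit 362) (nat_lit 343) (nat_lit 195)) (XT.nd (nat_lit 78) (nat_lit 228) (nat_lit 0) (XT.lf (nat_lit 0) (nat_lit 86758383555) (nat_lit 304) (nat_lit 60163069033) (nat_lit 76) (nat_lit 122917847122) (nat_lit 54) (nat_lit 5) (nat_lit 58) (nat_lit 5) (nat_lit 55) (nat_lit 5) (nat_lit 363) (nat_lit 343) (nat_lit 194)) (XT.lf (nat_lit 0) (nat_lit 172343696341) (nat_lit 304) (nat_lit 108683915993) (nat_lit 76) (nat_lit 2591956178) (nat_lit 51) (nat_lit 5) (nat_lit 55) (nat_lit 5) (nat_lit 52) (nat_lit 5) (nat_lit 364) (nat_lit 343) (nat_lit 193)))) (XT.nd (nat_lit 78) (nat_lit 456) (nat_lit 0) (XT.lf (nat_lit 0) (nat_lit 134345813806) (nat_lit 152) (nat_lit 136069840132) (nat_lit 228) (nat_lit 27804614047) (nat_lit 49) (nat_lit 5) (nat_lit 51) (nat_lit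 5) (nat_lit 52) (nat_lit 5) (nat_lit 365) (nat_lit 343) (nat_lit 192)) (XT.nd (nat_lit 78) (nat_lit 152) (nat_lit 0) (XT.lf (nat_lit 0) (nat_lit 64046819894) (nat_lit 304) (nat_lit 225528173218) (nat_lit 76) (nat_lit 24180467766) (nat_lit 45) (nat_lit 5) (nat_lit 49) (nat_lit 5) (nat_lit 46) (nat_lit 5) (nat_lit 366) (nat_lit 343) (nat_lit 191)) (XT.lf (nat_lit 0) (nat_lit 34243985610) (nat_lit 152) (nat_lit 133771459818) (nat_lit 228) (nat_lit 162208072483) (nat_lit 43) (nat_lit 5) (nat_lit 45) (nat_lit 5) (nat_lit 46) (nat_lit 5) (nat_lit 367) (nat_lit 343) (nat_lit 190))))))) (XT.nd (nat_lit 936) (nat_lit 532) (nat_lit 0) (XT.nd (nat_lit 468) (nat_lit 760) (nat_lit 0) (XT.nd (nat_lit 234) (nat_lit 304) (nat_lit 0) (XT.nd (nat_lit 78) (nat_lit 380) (nat_lit 0) (XT.lf (nat_lit 0) (nat_lit 284832890411) (nat_lit 228) (nat_lit 25564466723) (nat_lit 76) (nat_lit 37385096017) (nat_lit 43) (nat_lit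 5) (nat_lit 46) (nat_lit 5) (nat_lit 44) (nat_lit 5) (nat_lit 368) (nat_lit 343) (nat_lit 189)) (XT.nd (nat_lit 78) (nat_lit 152) (nat_lit 0) (XT.lf (nat_lit 0) (nat_lit 49457375505) (nat_lit 228) (nat_lit 94253522838) (nat_lit 76) (nat_lit 222669461330) (nat_lit 40) (nat_lit 5) (nat_lit 43) (nat_lit 5) (nat_lit 41) (nat_lit 5) (nat_lit 369) (nat_lit 343) (nat_lit 188)) (XT.lf (nat_lit 0) (nat_lit 173119051618) (nat_lit 228) (nat_lit 172990995223) (nat_lit 76) (nat_lit 40081072528) (nat_lit 38) (nat_lit 5) (nat_lit 41) (nat_lit 5) (nat_lit 39) (nat_lit 5) (nat_lit 370) (nat_lit 343) (nat_lit 187)))) (XT.nd (nat_lit 78) (nat_lit 152) (nat_lit 0) (XT.lf (nat_lit 0) (nat_lit 143245479921) (nat_lit 152) (nat_lit 169756441421) (nat_lit 228) (nat_lit 94268405611) (nat_lit 36) (nat_lit 5) (nat_lit 38) (nat_lit 5) (nat_lit 39) (nat_lit 5) (nat_lit 371) (nat_lit 343) (nat_lit 186)) (XT.nd (nat_lit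 78) (nat_lit 0) (nat_lit 0) (XT.lf (nat_lit 0) (nat_lit 37386547804) (nat_lit 152) (nat_lit 367713456484) (nat_lit 76) (nat_lit 24687470473) (nat_lit 34) (nat_lit 5) (nat_lit 36) (nat_lit 5) (nat_lit 35) (nat_lit 5) (nat_lit 372) (nat_lit 343) (nat_lit 185)) (XT.lf (nat_lit 0) (nat_lit 183852117481) (nat_lit 152) (nat_lit 34714629966) (nat_lit 76) (nat_lit 235082931550) (nat_lit 34) (nat_lit 5) (nat_lit 36) (nat_lit 5) (nat_lit 35) (nat_lit 5) (nat_lit 373) (nat_lit 343) (nat_lit 184))))) (XT.nd (nat_lit 234) (nat_lit 304) (nat_lit 0) (XT.nd (nat_lit 78) (nat_lit 304) (nat_lit 0) (XT.lf (nat_lit 0) (nat_lit 335667282902) (nat_lit 152) (nat_lit 11608199348) (nat_lit 228) (nat_lit 131883349913) (nat_lit 32) (nat_lit 5) (nat_lit 34) (nat_lit 5) (nat_lit 35) (nat_lit 5) (nat_lit 374) (nat_lit 343) (nat_lit 183)) (XT.nd (nat_lit 78) (nat_lit 152) (nat_lit 0) (XT.lf (nat_lit 0) (nat_lit 24225122499)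 (nat_lit 152) (nat_lit 272294946186) (nat_lit 76) (nat_lit 209789964194) (nat_lit 30) (nat_lit 5) (nat_lit 32) (nat_lit 5) (nat_lit 31) (nat_lit 5) (nat_lit 375) (nat_lit 343) (nat_lit 182)) (XT.lf (nat_lit 0) (nat_lit 112477146141) (nat_lit 152) (nat_lit 80278526869) (nat_lit 228) (nat_lit 342541858069) (nat_lit 28) (nat_lit 5) (nat_lit 30) (nat_lit 5) (nat_lit 31) (nat_lit 5) (nat_lit 376) (nat_lit 343) (nat_lit 181)))) (XT.nd (nat_lit 78) (nat_lit 304) (nat_lit 0) (XT.lf (nat_lit 0) (nat_lit 381982340618) (nat_lit 228) (nat_lit 31083161474) (nat_lit 76) (nat_lit 153177843441) (nat_lit 28) (nat_lit 5) (nat_lit 31) (nat_lit 5) (nat_lit 29) (nat_lit 4) (nat_lit 377) (nat_lit 343) (nat_lit 180)) (XT.nd (nat_lit 78) (nat_lit 228) (nat_lit 0) (XT.lf (nat_lit 0) (nat_lit 403555459851) (nat_lit 76) (nat_lit 190445825281) (nat_lit 152) (nat_lit 5280832882) (nat_lit 27) (nat_lit 5) (nat_lit 28)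 (nat_lit 5) (nat_lit 29) (nat_lit 4) (nat_lit 378) (nat_lit 343) (nat_lit 179)) (XT.lf (nat_lit 0) (nat_lit 187259759773) (nat_lit 228) (nat_lit 391495943590) (nat_lit 76) (nat_lit 55798527315) (nat_lit 24) (nat_lit 5) (nat_lit 27) (nat_lit 5) (nat_lit 25) (nat_lit 4) (nat_lit 379) (nat_lit 343) (nat_lit 178)))))) (XT.nd (nat_lit 468) (nat_lit 76) (nat_lit 0) (XT.nd (nat_lit 234) (nat_lit 228) (nat_lit 0) (XT.nd (nat_lit 78) (nat_lit 152) (nat_lit 0) (XT.lf (nat_lit 0) (nat_lit 49691746707) (nat_lit 76) (nat_lit 352781606134) (nat_lit 152) (nat_lit 269797692617) (nat_lit 23) (nat_lit 5) (nat_lit 24) (nat_lit 5) (nat_lit 25) (nat_lit 4) (nat_lit 380) (nat_lit 343) (nat_lit 177)) (XT.nd (nat_lit 78) (nat_lit 152) (nat_lit 0) (XT.lf (nat_lit 0) (nat_lit 540154434463) (nat_lit 76) (nat_lit 101569089232) (nat_lit 152) (nat_lit 70940707245) (nat_lit 23) (nat_lit 5) (nat_lit 24) (nat_lit 5) (nat_lit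 25) (nat_lit 4) (nat_lit 381) (nat_lit 343) (nat_lit 176)) (XT.lf (nat_lit 0) (nat_lit 147011967688) (nat_lit 152) (nat_lit 437081599164) (nat_lit 76) (nat_lit 171693507816) (nat_lit 21) (nat_lit 5) (nat_lit 23) (nat_lit 5) (nat_lit 22) (nat_lit 4) (nat_lit 382) (nat_lit 343) (nat_lit 175)))) (XT.nd (nat_lit 78) (nat_lit 152) (nat_lit 0) (XT.lf (nat_lit 0) (nat_lit 51870639846) (nat_lit 76) (nat_lit 333654679885) (nat_lit 152) (nat_lit 416495784074) (nat_lit 20) (nat_lit 5) (nat_lit 21) (nat_lit 5) (nat_lit 22) (nat_lit 4) (nat_lit 383) (nat_lit 343) (nat_lit 174)) (XT.nd (nat_lit 78) (nat_lit 152) (nat_lit 0) (XT.lf (nat_lit 0) (nat_lit 595546914527) (nat_lit 76) (nat_lit 55186404000) (nat_lit 152) (nat_lit 200839857843) (nat_lit 20) (nat_lit 5) (nat_lit 21) (nat_lit 5) (nat_lit 22) (nat_lit 4) (nat_lit 384) (nat_lit 343) (nat_lit 173)) (XT.lf (nat_lit 0) (nat_lit 39427195794) (nat_lit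 152) (nat_lit 622466155483) (nat_lit 76) (nat_lit 242751777150) (nat_lit 18) (nat_lit 5) (nat_lit 20) (nat_lit 5) (nat_lit 19) (nat_lit 4) (nat_lit 385) (nat_lit 343) (nat_lit 172))))) (XT.nd (nat_lit 43680) (nat_lit 0) (nat_lit 6384) (XT.nd (nat_lit 78) (nat_lit 76) (nat_lit 0) (XT.lf (nat_lit 0) (nat_lit 297436609422) (nat_lit 152) (nat_lit 93546957854) (nat_lit 76) (nat_lit 570536774261) (nat_lit 18) (nat_lit 5) (nat_lit 20) (nat_lit 5) (nat_lit 19) (nat_lit 4) (nat_lit 386) (nat_lit 343) (nat_lit 171)) (XT.nd (nat_lit 43524) (nat_lit 0) (nat_lit 6308) (XT.lf (nat_lit 0) (nat_lit 493480060641) (nat_lit 76) (nat_lit 90311237256) (nat_lit 152) (nat_lit 438769047731) (nat_lit 17) (nat_lit 5) (nat_lit 18) (nat_lit 5) (nat_lit 19) (nat_lit 4) (nat_lit 387) (nat_lit 343) (nat_lit 170)) (XT.lf (nat_lit 0) (nat_lit 6544102404) (nat_lit 836) (nat_lit 26840685452) (nat_lit 836) (nat_lit 26840685452)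 (nat_lit 100) (nat_lit 3) (nat_lit 111) (nat_lit 3) (nat_lit 111) (nat_lit 5) (nat_lit 344) (nat_lit 344) (nat_lit 212)))) (XT.nd (nat_lit 78) (nat_lit 0) (nat_lit 0) (XT.lf (nat_lit 0) (nat_lit 14606027384) (nat_lit 760) (nat_lit 86886503050) (nat_lit 836) (nat_lit 23726732100) (nat_lit 101) (nat_lit 5) (nat_lit 111) (nat_lit 5) (nat_lit 112) (nat_lit 5) (nat_lit 345) (nat_lit 344) (nat_lit 211)) (XT.nd (nat_lit 78) (nat_lit 0) (nat_lit 76) (XT.lf (nat_lit 76) (nat_lit 8430919073) (nat_lit 0) (nat_lit 10021582120) (nat_lit 836) (nat_lit 111806181982) (nat_lit 102) (nat_lit 5) (nat_lit 101) (nat_lit 5) (nat_lit 112) (nat_lit 5) (nat_lit 346) (nat_lit 344) (nat_lit 210)) (XT.lf (nat_lit 0) (nat_lit 25530276009) (nat_lit 760) (nat_lit 22560303044) (nat_lit 836) (nat_lit 87464499928) (nat_lit 102) (nat_lit 5) (nat_lit 112) (nat_lit 5) (nat_lit 113) (nat_lit 5) (nat_lit 347) (nat_lit 344) (nat_lit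 209))))))))
noncomputable def xc112 : XT := (XT.nd (nat_lit 1794) (nat_lit 1672) (nat_lit 0) (XT.nd (nat_lit 858) (nat_lit 2432) (nat_lit 0) (XT.nd (nat_lit 390) (nat_lit 1748) (nat_lit 0) (XT.nd (nat_lit 156) (nat_lit 608) (nat_lit 0) (XT.nd (nat_lit 78) (nat_lit 0) (nat_lit 76) (XT.lf (nat_lit 0) (nat_lit 35525953315) (nat_lit 760) (nat_lit 54746923855) (nat_lit 836) (nat_lit 50884725876) (nat_lit 103) (nat_lit 5) (nat_lit 113) (nat_lit 5) (nat_lit 114) (nat_lit 5) (nat_lit 348) (nat_lit 344) (nat_lit 208)) (XT.lf (nat_lit 0) (nat_lit 48610073512) (nat_lit 760) (nat_lit 88483398286) (nat_lit 836) (nat_lit 10000418378) (nat_lit 104) (nat_lit 5) (nat_lit 114) (nat_lit 5) (nat_lit 115) (nat_lit 5) (nat_lit 349) (nat_lit 344) (nat_lit 207))) (XT.nd (nat_lit 78) (nat_lit 684) (nat_lit 0) (XT.lf (nat_lit 76) (nat_lit 28921546345) (nat_lit 0) (nat_lit 36761865301) (nat_lit 836) (nat_lit 87674544745)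 (nat_lit 105) (nat_lit 5) (nat_lit 104) (nat_lit 5) (nat_lit 115) (nat_lit 5) (nat_lit 350) (nat_lit 344) (nat_lit 206)) (XT.nd (nat_lit 78) (nat_lit 760) (nat_lit 0) (XT.lf (nat_lit 0) (nat_lit 86806546012) (nat_lit 760) (nat_lit 2310997847) (nat_lit 76) (nat_lit 70871408079) (nat_lit 105) (nat_lit 5) (nat_lit 115) (nat_lit 5) (nat_lit 106) (nat_lit 5) (nat_lit 351) (nat_lit 344) (nat_lit 205)) (XT.lf (nat_lit 0) (nat_lit 112645478339) (nat_lit 836) (nat_lit 34113590620) (nat_lit 76) (nat_lit 20240061264) (nat_lit 95) (nat_lit 5) (nat_lit 106) (nat_lit 5) (nat_lit 96) (nat_lit 5) (nat_lit 352) (nat_lit 344) (nat_lit 204))))) (XT.nd (nat_lit 234) (nat_lit 608) (nat_lit 0) (XT.nd (nat_lit 78) (nat_lit 760) (nat_lit 0) (XT.lf (nat_lit 0) (nat_lit 106311086267) (nat_lit 380) (nat_lit 37443436216) (nat_lit 456) (nat_lit 30655450848) (nat_lit 90) (nat_lit 5) (nat_lit 95) (nat_lit 5) (nat_lit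 96) (nat_lit 5) (nat_lit 353) (nat_lit 344) (nat_lit 203)) (XT.nd (nat_lit 78) (nat_lit 456) (nat_lit 0) (XT.lf (nat_lit 0) (nat_lit 78032671943) (nat_lit 304) (nat_lit 102400177155) (nat_lit 380) (nat_lit 1826807235) (nat_lit 86) (nat_lit 5) (nat_lit 90) (nat_lit 5) (nat_lit 91) (nat_lit 5) (nat_lit 354) (nat_lit 344) (nat_lit 202)) (XT.lf (nat_lit 0) (nat_lit 31223429127) (nat_lit 456) (nat_lit 142814535353) (nat_lit 76) (nat_lit 16533803519) (nat_lit 80) (nat_lit 5) (nat_lit 86) (nat_lit 5) (nat_lit 81) (nat_lit 5) (nat_lit 355) (nat_lit 344) (nat_lit 201)))) (XT.nd (nat_lit 78) (nat_lit 304) (nat_lit 0) (XT.lf (nat_lit 0) (nat_lit 14851756120) (nat_lit 304) (nat_lit 55806288920) (nat_lit 380) (nat_lit 128699088342) (nat_lit 76) (nat_lit 5) (nat_lit 80) (nat_lit 5) (nat_lit 81) (nat_lit 5) (nat_lit 356) (nat_lit 344) (nat_lit 200)) (XT.nd (nat_lit 78) (nat_lit 304) (nat_lit 0) (XT.lf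 (nat_lit 0) (nat_lit 116897924447) (nat_lit 380) (nat_lit 19653220951) (nat_lit 76) (nat_lit 72111658181) (nat_lit 76) (nat_lit 5) (nat_lit 81) (nat_lit 5) (nat_lit 77) (nat_lit 5) (nat_lit 357) (nat_lit 344) (nat_lit 199)) (XT.lf (nat_lit 0) (nat_lit 162651609089) (nat_lit 304) (nat_lit 7665518466) (nat_lit 380) (nat_lit 48221793444) (nat_lit 72) (nat_lit 5) (nat_lit 76) (nat_lit 5) (nat_lit 77) (nat_lit 5) (nat_lit 358) (nat_lit 344) (nat_lit 198)))))) (XT.nd (nat_lit 468) (nat_lit 1064) (nat_lit 0) (XT.nd (nat_lit 234) (nat_lit 532) (nat_lit 0) (XT.nd (nat_lit 78) (nat_lit 532) (nat_lit 0) (XT.lf (nat_lit 0) (nat_lit 3398264496) (nat_lit 304) (nat_lit 95775610861) (nat_lit 76) (nat_lit 129804422285) (nat_lit 68) (nat_lit 5) (nat_lit 72) (nat_lit 5) (nat_lit 69) (nat_lit 5) (nat_lit 359) (nat_lit 344) (nat_lit 197)) (XT.nd (nat_lit 78) (nat_lit 228) (nat_lit 0) (XT.lf (nat_lit 0) (nat_lit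 60829309190) (nat_lit 380) (nat_lit 139220635894) (nat_lit 76) (nat_lit 39994811554) (nat_lit 64) (nat_lit 5) (nat_lit 69) (nat_lit 5) (nat_lit 65) (nat_lit 5) (nat_lit 360) (nat_lit 344) (nat_lit 196)) (XT.lf (nat_lit 0) (nat_lit 65040576022) (nat_lit 228) (nat_lit 62197411298) (nat_lit 304) (nat_lit 124539387746) (nat_lit 61) (nat_lit 5) (nat_lit 64) (nat_lit 5) (nat_lit 65) (nat_lit 5) (nat_lit 361) (nat_lit 344) (nat_lit 195)))) (XT.nd (nat_lit 78) (nat_lit 304) (nat_lit 0) (XT.lf (nat_lit 0) (nat_lit 25716470354) (nat_lit 228) (nat_lit 177462400355) (nat_lit 304) (nat_lit 61058756900) (nat_lit 58) (nat_lit 5) (nat_lit 61) (nat_lit 5) (nat_lit 62) (nat_lit 5) (nat_lit 362) (nat_lit 344) (nat_lit 194)) (XT.nd (nat_lit 78) (nat_lit 228) (nat_lit 0) (XT.lf (nat_lit 0) (nat_lit 11614943595) (nat_lit 304) (nat_lit 16917281550) (nat_lit 76) (nat_lit 248938886506) (nat_lit 57) (nat_lit 5) (nat_lit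 61) (nat_lit 5) (nat_lit 58) (nat_lit 5) (nat_lit 363) (nat_lit 344) (nat_lit 193)) (XT.lf (nat_lit 0) (nat_lit 93703616595) (nat_lit 304) (nat_lit 64969441968) (nat_lit 76) (nat_lit 132753153955) (nat_lit 54) (nat_lit 5) (nat_lit 58) (nat_lit 5) (nat_lit 55) (nat_lit 5) (nat_lit 364) (nat_lit 344) (nat_lit 192))))) (XT.nd (nat_lit 234) (nat_lit 380) (nat_lit 0) (XT.nd (nat_lit 78) (nat_lit 456) (nat_lit 0) (XT.lf (nat_lit 0) (nat_lit 186135548242) (nat_lit 304) (nat_lit 117372059779) (nat_lit 76) (nat_lit 2801305337) (nat_lit 51) (nat_lit 5) (nat_lit 55) (nat_lit 5) (nat_lit 52) (nat_lit 5) (nat_lit 365) (nat_lit 344) (nat_lit 191)) (XT.nd (nat_lit 78) (nat_lit 304) (nat_lit 0) (XT.lf (nat_lit 0) (nat_lit 145099762901) (nat_lit 152) (nat_lit 146953274975) (nat_lit 228) (nat_lit 30024642350) (nat_lit 49) (nat_lit 5) (nat_lit 51) (nat_lit 5) (nat_lit 52) (nat_lit 5) (nat_lit 366) (nat_lit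 344) (nat_lit 190)) (XT.lf (nat_lit 0) (nat_lit 69174585798) (nat_lit 304) (nat_lit 243564112982) (nat_lit 76) (nat_lit 26116995648) (nat_lit 45) (nat_lit 5) (nat_lit 49) (nat_lit 5) (nat_lit 46) (nat_lit 5) (nat_lit 367) (nat_lit 344) (nat_lit 189)))) (XT.nd (nat_lit 78) (nat_lit 228) (nat_lit 0) (XT.lf (nat_lit 0) (nat_lit 36989544150) (nat_lit 152) (nat_lit 144470953720) (nat_lit 228) (nat_lit 175180708497) (nat_lit 43) (nat_lit 5) (nat_lit 45) (nat_lit 5) (nat_lit 46) (nat_lit 5) (nat_lit 368) (nat_lit 344) (nat_lit 188)) (XT.nd (nat_lit 78) (nat_lit 228) (nat_lit 0) (XT.lf (nat_lit 0) (nat_lit 307623087860) (nat_lit 228) (nat_lit 27603885208) (nat_lit 76) (nat_lit 40377896048) (nat_lit 43) (nat_lit 5) (nat_lit 46) (nat_lit 5) (nat_lit 44) (nat_lit 5) (nat_lit 369) (nat_lit 344) (nat_lit 187)) (XT.lf (nat_lit 0) (nat_lit 53417410613) (nat_lit 228) (nat_lit 101788199562) (nat_lit 76)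 (nat_lit 240485004275) (nat_lit 40) (nat_lit 5) (nat_lit 43) (nat_lit 5) (nat_lit 41) (nat_lit 5) (nat_lit 370) (nat_lit 344) (nat_lit 186))))))) (XT.nd (nat_lit 858) (nat_lit 380) (nat_lit 0) (XT.nd (nat_lit 390) (nat_lit 684) (nat_lit 0) (XT.nd (nat_lit 156) (nat_lit 304) (nat_lit 0) (XT.nd (nat_lit 78) (nat_lit 152) (nat_lit 0) (XT.lf (nat_lit 0) (nat_lit 186971881930) (nat_lit 228) (nat_lit 186824780633) (nat_lit 76) (nat_lit 43289579431) (nat_lit 38) (nat_lit 5) (nat_lit 41) (nat_lit 5) (nat_lit 39) (nat_lit 5) (nat_lit 371) (nat_lit 344) (nat_lit 185)) (XT.lf (nat_lit 0) (nat_lit 154710373752) (nat_lit 152) (nat_lit 183334844631) (nat_lit 228) (nat_lit 101806576066) (nat_lit 36) (nat_lit 5) (nat_lit 38) (nat_lit 5) (nat_lit 39) (nat_lit 5) (nat_lit 372) (nat_lit 344) (nat_lit 184))) (XT.nd (nat_lit 78) (nat_lit 152) (nat_lit 0) (XT.lf (nat_lit 0) (nat_lit 40380543890) (nat_lit 152)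 (nat_lit 397125282837) (nat_lit 76) (nat_lit 26664491085) (nat_lit 34) (nat_lit 5) (nat_lit 36) (nat_lit 5) (nat_lit 35) (nat_lit 5) (nat_lit 373) (nat_lit 344) (nat_lit 183)) (XT.nd (nat_lit 78) (nat_lit 152) (nat_lit 0) (XT.lf (nat_lit 0) (nat_lit 198563131566) (nat_lit 152) (nat_lit 37486939098) (nat_lit 76) (nat_lit 253891439198) (nat_lit 34) (nat_lit 5) (nat_lit 36) (nat_lit 5) (nat_lit 35) (nat_lit 5) (nat_lit 374) (nat_lit 344) (nat_lit 182)) (XT.lf (nat_lit 0) (nat_lit 362525315534) (nat_lit 152) (nat_lit 12534911864) (nat_lit 228) (nat_lit 142431174879) (nat_lit 32) (nat_lit 5) (nat_lit 34) (nat_lit 5) (nat_lit 35) (nat_lit 5) (nat_lit 375) (nat_lit 344) (nat_lit 181))))) (XT.nd (nat_lit 234) (nat_lit 380) (nat_lit 0) (XT.nd (nat_lit 78) (nat_lit 152) (nat_lit 0) (XT.lf (nat_lit 0) (nat_lit 26165781227) (nat_lit 152) (nat_lit 294073903877) (nat_lit 76) (nat_lit 226575016963) (nat_lit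 30) (nat_lit 5) (nat_lit 32) (nat_lit 5) (nat_lit 31) (nat_lit 5) (nat_lit 376) (nat_lit 344) (nat_lit 180)) (XT.nd (nat_lit 78) (nat_lit 0) (nat_lit 0) (XT.lf (nat_lit 0) (nat_lit 121479754274) (nat_lit 152) (nat_lit 86698894551) (nat_lit 228) (nat_lit 369942557718) (nat_lit 28) (nat_lit 5) (nat_lit 30) (nat_lit 5) (nat_lit 31) (nat_lit 5) (nat_lit 377) (nat_lit 344) (nat_lit 179)) (XT.lf (nat_lit 0) (nat_lit 412543290706) (nat_lit 228) (nat_lit 33565616638) (nat_lit 76) (nat_lit 165433786835) (nat_lit 28) (nat_lit 5) (nat_lit 31) (nat_lit 5) (nat_lit 29) (nat_lit 4) (nat_lit 378) (nat_lit 344) (nat_lit 178)))) (XT.nd (nat_lit 78) (nat_lit 304) (nat_lit 0) (XT.lf (nat_lit 0) (nat_lit 435843911964) (nat_lit 76) (nat_lit 205679726484) (nat_lit 152) (nat_lit 5700935692) (nat_lit 27) (nat_lit 5) (nat_lit 28) (nat_lit 5) (nat_lit 29) (nat_lit 4) (nat_lit 379) (nat_lit 344) (nat_lit 177)) (XT.nd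 (nat_lit 78) (nat_lit 76) (nat_lit 0) (XT.lf (nat_lit 0) (nat_lit 202242747407) (nat_lit 228) (nat_lit 422811622552) (nat_lit 76) (nat_lit 60264088134) (nat_lit 24) (nat_lit 5) (nat_lit 27) (nat_lit 5) (nat_lit 25) (nat_lit 4) (nat_lit 380) (nat_lit 344) (nat_lit 176)) (XT.lf (nat_lit 0) (nat_lit 53670909285) (nat_lit 76) (nat_lit 381002414851) (nat_lit 152) (nat_lit 291379299160) (nat_lit 23) (nat_lit 5) (nat_lit 24) (nat_lit 5) (nat_lit 25) (nat_lit 4) (nat_lit 381) (nat_lit 344) (nat_lit 175)))))) (XT.nd (nat_lit 43992) (nat_lit 0) (nat_lit 6232) (XT.nd (nat_lit 234) (nat_lit 152) (nat_lit 0) (XT.nd (nat_lit 78) (nat_lit 228) (nat_lit 0) (XT.lf (nat_lit 0) (nat_lit 583370328888) (nat_lit 76) (nat_lit 109693023987) (nat_lit 152) (nat_lit 76613918578) (nat_lit 23) (nat_lit 5) (nat_lit 24) (nat_lit 5) (nat_lit 25) (nat_lit 4) (nat_lit 382) (nat_lit 344) (nat_lit 174)) (XT.nd (nat_lit 78)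 (nat_lit 76) (nat_lit 0) (XT.lf (nat_lit 0) (nat_lit 158774836473) (nat_lit 152) (nat_lit 472044607610) (nat_lit 76) (nat_lit 185430500462) (nat_lit 21) (nat_lit 5) (nat_lit 23) (nat_lit 5) (nat_lit 22) (nat_lit 4) (nat_lit 383) (nat_lit 344) (nat_lit 173)) (XT.lf (nat_lit 0) (nat_lit 56023657569) (nat_lit 76) (nat_lit 360345510089) (nat_lit 152) (nat_lit 449813532845) (nat_lit 20) (nat_lit 5) (nat_lit 21) (nat_lit 5) (nat_lit 22) (nat_lit 4) (nat_lit 384) (nat_lit 344) (nat_lit 172)))) (XT.nd (nat_lit 78) (nat_lit 152) (nat_lit 0) (XT.lf (nat_lit 0) (nat_lit 643193784852) (nat_lit 76) (nat_lit 59599886517) (nat_lit 152) (nat_lit 216905274291) (nat_lit 20) (nat_lit 5) (nat_lit 21) (nat_lit 5) (nat_lit 22) (nat_lit 4) (nat_lit 385) (nat_lit 344) (nat_lit 171)) (XT.nd (nat_lit 78) (nat_lit 0) (nat_lit 0) (XT.lf (nat_lit 0) (nat_lit 42583029119) (nat_lit 152) (nat_lit 672260351238) (nat_lit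 76) (nat_lit 262173275063) (nat_lit 18) (nat_lit 5) (nat_lit 20) (nat_lit 5) (nat_lit 19) (nat_lit 4) (nat_lit 386) (nat_lit 344) (nat_lit 170)) (XT.lf (nat_lit 0) (nat_lit 321233073047) (nat_lit 152) (nat_lit 101027847183) (nat_lit 76) (nat_lit 616180971517) (nat_lit 18) (nat_lit 5) (nat_lit 20) (nat_lit 5) (nat_lit 19) (nat_lit 4) (nat_lit 387) (nat_lit 344) (nat_lit 169))))) (XT.nd (nat_lit 234) (nat_lit 0) (nat_lit 152) (XT.nd (nat_lit 78) (nat_lit 0) (nat_lit 76) (XT.lf (nat_lit 0) (nat_lit 7074315618) (nat_lit 836) (nat_lit 28984427124) (nat_lit 836) (nat_lit 28984427124) (nat_lit 100) (nat_lit 3) (nat_lit 111) (nat_lit 3) (nat_lit 111) (nat_lit 5) (nat_lit 345) (nat_lit 345) (nat_lit 210)) (XT.nd (nat_lit 78) (nat_lit 0) (nat_lit 0) (XT.lf (nat_lit 0) (nat_lit 15786904191) (nat_lit 760) (nat_lit 93829975035) (nat_lit 836) (nat_lit 25619291512) (nat_lit 101) (nat_lit 5) (nat_lit 111)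 (nat_lit 5) (nat_lit 112) (nat_lit 5) (nat_lit 346) (nat_lit 345) (nat_lit 209)) (XT.lf (nat_lit 76) (nat_lit 9112517165) (nat_lit 0) (nat_lit 10827771854) (nat_lit 836) (nat_lit 120738497323) (nat_lit 102) (nat_lit 5) (nat_lit 101) (nat_lit 5) (nat_lit 112) (nat_lit 5) (nat_lit 347) (nat_lit 345) (nat_lit 208)))) (XT.nd (nat_lit 78) (nat_lit 0) (nat_lit 76) (XT.lf (nat_lit 0) (nat_lit 27583362949) (nat_lit 760) (nat_lit 24357918273) (nat_lit 836) (nat_lit 94457659630) (nat_lit 102) (nat_lit 5) (nat_lit 112) (nat_lit 5) (nat_lit 113) (nat_lit 5) (nat_lit 348) (nat_lit 345) (nat_lit 207)) (XT.nd (nat_lit 78) (nat_lit 0) (nat_lit 76) (XT.lf (nat_lit 0) (nat_lit 38377963918) (nat_lit 760) (nat_lit 59119224350) (nat_lit 836) (nat_lit 54952515931) (nat_lit 103) (nat_lit 5) (nat_lit 113) (nat_lit 5) (nat_lit 114) (nat_lit 5) (nat_lit 349) (nat_lit 345) (nat_lit 206)) (XT.lf (nat_lit 0) (nat_lit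 52508155125) (nat_lit 760) (nat_lit 95554431517) (nat_lit 836) (nat_lit 10798341355) (nat_lit 104) (nat_lit 5) (nat_lit 114) (nat_lit 5) (nat_lit 115) (nat_lit 5) (nat_lit 350) (nat_lit 345) (nat_lit 205))))))))
noncomputable def xc113 : XT := (XT.nd (nat_lit 1794) (nat_lit 1216) (nat_lit 0) (XT.nd (nat_lit 858) (nat_lit 2128) (nat_lit 0) (XT.nd (nat_lit 390) (nat_lit 1672) (nat_lit 0) (XT.nd (nat_lit 156) (nat_lit 1368) (nat_lit 0) (XT.nd (nat_lit 78) (nat_lit 0) (nat_lit 76) (XT.lf (nat_lit 76) (nat_lit 31242576719) (nat_lit 0) (nat_lit 39704210577) (nat_lit 836) (nat_lit 94679361577) (nat_lit 105) (nat_lit 5) (nat_lit 104) (nat_lit 5) (nat_lit 115) (nat_lit 5) (nat_lit 351) (nat_lit 345) (nat_lit 204)) (XT.lf (nat_lit 0) (nat_lit 93759107583) (nat_lit 760) (nat_lit 2488680922) (nat_lit 76) (nat_lit 76539869457) (nat_lit 105) (nat_lit 5) (nat_lit 115) (nat_lit 5) (nat_lit 106) (nat_lit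 5) (nat_lit 352) (nat_lit 345) (nat_lit 203))) (XT.nd (nat_lit 78) (nat_lit 684) (nat_lit 0) (XT.lf (nat_lit 0) (nat_lit 121664656179) (nat_lit 836) (nat_lit 36835398358) (nat_lit 76) (nat_lit 21858621501) (nat_lit 95) (nat_lit 5) (nat_lit 106) (nat_lit 5) (nat_lit 96) (nat_lit 5) (nat_lit 353) (nat_lit 345) (nat_lit 202)) (XT.nd (nat_lit 78) (nat_lit 304) (nat_lit 0) (XT.lf (nat_lit 0) (nat_lit 114822936321) (nat_lit 380) (nat_lit 40439037761) (nat_lit 456) (nat_lit 33100435566) (nat_lit 90) (nat_lit 5) (nat_lit 95) (nat_lit 5) (nat_lit 96) (nat_lit 5) (nat_lit 354) (nat_lit 345) (nat_lit 201)) (XT.lf (nat_lit 0) (nat_lit 84282293970) (nat_lit 304) (nat_lit 110591855273) (nat_lit 380) (nat_lit 1965939449) (nat_lit 86) (nat_lit 5) (nat_lit 90) (nat_lit 5) (nat_lit 91) (nat_lit 5) (nat_lit 355) (nat_lit 345) (nat_lit 200))))) (XT.nd (nat_lit 234) (nat_lit 912) (nat_lit 0) (XT.nd (nat_lit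 78) (nat_lit 304) (nat_lit 0) (XT.lf (nat_lit 0) (nat_lit 33727704974) (nat_lit 456) (nat_lit 154232456706) (nat_lit 76) (nat_lit 17857021919) (nat_lit 80) (nat_lit 5) (nat_lit 86) (nat_lit 5) (nat_lit 81) (nat_lit 5) (nat_lit 356) (nat_lit 345) (nat_lit 199)) (XT.nd (nat_lit 78) (nat_lit 0) (nat_lit 0) (XT.lf (nat_lit 0) (nat_lit 16046823380) (nat_lit 304) (nat_lit 60269900740) (nat_lit 380) (nat_lit 138988672821) (nat_lit 76) (nat_lit 5) (nat_lit 80) (nat_lit 5) (nat_lit 81) (nat_lit 5) (nat_lit 357) (nat_lit 345) (nat_lit 198)) (XT.lf (nat_lit 0) (nat_lit 126255359692) (nat_lit 380) (nat_lit 21218793473) (nat_lit 76) (nat_lit 77881389693) (nat_lit 76) (nat_lit 5) (nat_lit 81) (nat_lit 5) (nat_lit 77) (nat_lit 5) (nat_lit 358) (nat_lit 345) (nat_lit 197)))) (XT.nd (nat_lit 78) (nat_lit 608) (nat_lit 0) (XT.lf (nat_lit 0) (nat_lit 175670132442) (nat_lit 304) (nat_lit 8277651535) (nat_lit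 380) (nat_lit 52073981815) (nat_lit 72) (nat_lit 5) (nat_lit 76) (nat_lit 5) (nat_lit 77) (nat_lit 5) (nat_lit 359) (nat_lit 345) (nat_lit 196)) (XT.nd (nat_lit 78) (nat_lit 304) (nat_lit 0) (XT.lf (nat_lit 0) (nat_lit 3675221812) (nat_lit 304) (nat_lit 103431129822) (nat_lit 76) (nat_lit 140189950976) (nat_lit 68) (nat_lit 5) (nat_lit 72) (nat_lit 5) (nat_lit 69) (nat_lit 5) (nat_lit 360) (nat_lit 345) (nat_lit 195)) (XT.lf (nat_lit 0) (nat_lit 65700492434) (nat_lit 380) (nat_lit 150351818418) (nat_lit 76) (nat_lit 43195780654) (nat_lit 64) (nat_lit 5) (nat_lit 69) (nat_lit 5) (nat_lit 65) (nat_lit 5) (nat_lit 361) (nat_lit 345) (nat_lit 194)))))) (XT.nd (nat_lit 468) (nat_lit 988) (nat_lit 0) (XT.nd (nat_lit 234) (nat_lit 608) (nat_lit 0) (XT.nd (nat_lit 78) (nat_lit 304) (nat_lit 0) (XT.lf (nat_lit 0) (nat_lit 70250009344) (nat_lit 228) (nat_lit 67171593662) (nat_lit 304) (nat_lit 134497729770)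 (nat_lit 61) (nat_lit 5) (nat_lit 64) (nat_lit 5) (nat_lit 65) (nat_lit 5) (nat_lit 362) (nat_lit 345) (nat_lit 193)) (XT.nd (nat_lit 78) (nat_lit 76) (nat_lit 0) (XT.lf (nat_lit 0) (nat_lit 27779904481) (nat_lit 228) (nat_lit 191657632350) (nat_lit 304) (nat_lit 65938879961) (nat_lit 58) (nat_lit 5) (nat_lit 61) (nat_lit 5) (nat_lit 62) (nat_lit 5) (nat_lit 363) (nat_lit 345) (nat_lit 192)) (XT.lf (nat_lit 0) (nat_lit 12548241844) (nat_lit 304) (nat_lit 18264862169) (nat_lit 76) (nat_lit 268855488607) (nat_lit 57) (nat_lit 5) (nat_lit 61) (nat_lit 5) (nat_lit 58) (nat_lit 5) (nat_lit 364) (nat_lit 345) (nat_lit 191)))) (XT.nd (nat_lit 78) (nat_lit 380) (nat_lit 0) (XT.lf (nat_lit 0) (nat_lit 101203817407) (nat_lit 304) (nat_lit 70161276657) (nat_lit 76) (nat_lit 143375017266) (nat_lit 54) (nat_lit 5) (nat_lit 58) (nat_lit 5) (nat_lit 55) (nat_lit 5) (nat_lit 365) (nat_lit 345) (nat_lit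 190)) (XT.nd (nat_lit 78) (nat_lit 152) (nat_lit 0) (XT.lf (nat_lit 0) (nat_lit 201030126835) (nat_lit 304) (nat_lit 126756192280) (nat_lit 76) (nat_lit 3027118153) (nat_lit 51) (nat_lit 5) (nat_lit 55) (nat_lit 5) (nat_lit 52) (nat_lit 5) (nat_lit 366) (nat_lit 345) (nat_lit 189)) (XT.lf (nat_lit 0) (nat_lit 156713131443) (nat_lit 152) (nat_lit 158707691665) (nat_lit 228) (nat_lit 32422892185) (nat_lit 49) (nat_lit 5) (nat_lit 51) (nat_lit 5) (nat_lit 52) (nat_lit 5) (nat_lit 367) (nat_lit 345) (nat_lit 188))))) (XT.nd (nat_lit 234) (nat_lit 532) (nat_lit 0) (XT.nd (nat_lit 78) (nat_lit 152) (nat_lit 0) (XT.lf (nat_lit 0) (nat_lit 74711999431) (nat_lit 304) (nat_lit 263043828703) (nat_lit 76) (nat_lit 28208147532) (nat_lit 45) (nat_lit 5) (nat_lit 49) (nat_lit 5) (nat_lit 46) (nat_lit 5) (nat_lit 368) (nat_lit 345) (nat_lit 187)) (XT.nd (nat_lit 78) (nat_lit 0) (nat_lit 0) (XT.lf (nat_lit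 0) (nat_lit 39953885744) (nat_lit 152) (nat_lit 156026724253) (nat_lit 228) (nat_lit 189191727434) (nat_lit 43) (nat_lit 5) (nat_lit 45) (nat_lit 5) (nat_lit 46) (nat_lit 5) (nat_lit 369) (nat_lit 345) (nat_lit 186)) (XT.lf (nat_lit 0) (nat_lit 332235992344) (nat_lit 228) (nat_lit 29807275882) (nat_lit 76) (nat_lit 43609835850) (nat_lit 43) (nat_lit 5) (nat_lit 46) (nat_lit 5) (nat_lit 44) (nat_lit 5) (nat_lit 370) (nat_lit 345) (nat_lit 185)))) (XT.nd (nat_lit 78) (nat_lit 304) (nat_lit 0) (XT.lf (nat_lit 0) (nat_lit 57693757051) (nat_lit 228) (nat_lit 109926450054) (nat_lit 76) (nat_lit 259725507326) (nat_lit 40) (nat_lit 5) (nat_lit 43) (nat_lit 5) (nat_lit 41) (nat_lit 5) (nat_lit 371) (nat_lit 345) (nat_lit 184)) (XT.nd (nat_lit 78) (nat_lit 152) (nat_lit 0) (XT.lf (nat_lit 0) (nat_lit 201932467004) (nat_lit 228) (nat_lit 201766052686) (nat_lit 76) (nat_lit 46754478554) (nat_lit 38)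 (nat_lit 5) (nat_lit 41) (nat_lit 5) (nat_lit 39) (nat_lit 5) (nat_lit 372) (nat_lit 345) (nat_lit 183)) (XT.lf (nat_lit 0) (nat_lit 167091709341) (nat_lit 152) (nat_lit 197999821413) (nat_lit 228) (nat_lit 109948271223) (nat_lit 36) (nat_lit 5) (nat_lit 38) (nat_lit 5) (nat_lit 39) (nat_lit 5) (nat_lit 373) (nat_lit 345) (nat_lit 182))))))) (XT.nd (nat_lit 936) (nat_lit 0) (nat_lit 0) (XT.nd (nat_lit 468) (nat_lit 608) (nat_lit 0) (XT.nd (nat_lit 234) (nat_lit 304) (nat_lit 0) (XT.nd (nat_lit 78) (nat_lit 152) (nat_lit 0) (XT.lf (nat_lit 0) (nat_lit 43613621370) (nat_lit 152) (nat_lit 428890804292) (nat_lit 76) (nat_lit 28799384746) (nat_lit 34) (nat_lit 5) (nat_lit 36) (nat_lit 5) (nat_lit 35) (nat_lit 5) (nat_lit 374) (nat_lit 345) (nat_lit 181)) (XT.nd (nat_lit 78) (nat_lit 152) (nat_lit 0) (XT.lf (nat_lit 0) (nat_lit 214450620951) (nat_lit 152) (nat_lit 40481726475) (nat_lit 76) (nat_lit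 274204360236) (nat_lit 34) (nat_lit 5) (nat_lit 36) (nat_lit 5) (nat_lit 35) (nat_lit 5) (nat_lit 375) (nat_lit 345) (nat_lit 180)) (XT.lf (nat_lit 0) (nat_lit 391531327403) (nat_lit 152) (nat_lit 13536038633) (nat_lit 228) (nat_lit 153823231432) (nat_lit 32) (nat_lit 5) (nat_lit 34) (nat_lit 5) (nat_lit 35) (nat_lit 5) (nat_lit 376) (nat_lit 345) (nat_lit 179)))) (XT.nd (nat_lit 78) (nat_lit 152) (nat_lit 0) (XT.lf (nat_lit 0) (nat_lit 28261314753) (nat_lit 152) (nat_lit 317595839846) (nat_lit 76) (nat_lit 244702609228) (nat_lit 30) (nat_lit 5) (nat_lit 32) (nat_lit 5) (nat_lit 31) (nat_lit 5) (nat_lit 377) (nat_lit 345) (nat_lit 178)) (XT.nd (nat_lit 78) (nat_lit 0) (nat_lit 0) (XT.lf (nat_lit 0) (nat_lit 131201938150) (nat_lit 152) (nat_lit 93633164769) (nat_lit 228) (nat_lit 399535691247) (nat_lit 28) (nat_lit 5) (nat_lit 30) (nat_lit 5) (nat_lit 31) (nat_lit 5) (nat_lit 378) (nat_lit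 345) (nat_lit 177)) (XT.lf (nat_lit 0) (nat_lit 445548779716) (nat_lit 228) (nat_lit 36247267072) (nat_lit 76) (nat_lit 178669960905) (nat_lit 28) (nat_lit 5) (nat_lit 31) (nat_lit 5) (nat_lit 29) (nat_lit 4) (nat_lit 379) (nat_lit 345) (nat_lit 176))))) (XT.nd (nat_lit 234) (nat_lit 228) (nat_lit 0) (XT.nd (nat_lit 78) (nat_lit 304) (nat_lit 0) (XT.lf (nat_lit 0) (nat_lit 470714867414) (nat_lit 76) (nat_lit 222132591554) (nat_lit 152) (nat_lit 6154983953) (nat_lit 27) (nat_lit 5) (nat_lit 28) (nat_lit 5) (nat_lit 29) (nat_lit 4) (nat_lit 380) (nat_lit 345) (nat_lit 175)) (XT.nd (nat_lit 78) (nat_lit 76) (nat_lit 0) (XT.lf (nat_lit 0) (nat_lit 218424059219) (nat_lit 228) (nat_lit 456633125980) (nat_lit 76) (nat_lit 65086654341) (nat_lit 24) (nat_lit 5) (nat_lit 27) (nat_lit 5) (nat_lit 25) (nat_lit 4) (nat_lit 381) (nat_lit 345) (nat_lit 174)) (XT.lf (nat_lit 0) (nat_lit 57967859497) (nat_lit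 76) (nat_lit 411481133610) (nat_lit 152) (nat_lit 314687749347) (nat_lit 23) (nat_lit 5) (nat_lit 24) (nat_lit 5) (nat_lit 25) (nat_lit 4) (nat_lit 382) (nat_lit 345) (nat_lit 173)))) (XT.nd (nat_lit 78) (nat_lit 228) (nat_lit 0) (XT.lf (nat_lit 0) (nat_lit 630042989893) (nat_lit 76) (nat_lit 118467100694) (nat_lit 152) (nat_lit 82741278596) (nat_lit 23) (nat_lit 5) (nat_lit 24) (nat_lit 5) (nat_lit 25) (nat_lit 4) (nat_lit 383) (nat_lit 345) (nat_lit 172)) (XT.nd (nat_lit 78) (nat_lit 76) (nat_lit 0) (XT.lf (nat_lit 0) (nat_lit 171478462084) (nat_lit 152) (nat_lit 509805158825) (nat_lit 76) (nat_lit 200266236813) (nat_lit 21) (nat_lit 5) (nat_lit 23) (nat_lit 5) (nat_lit 22) (nat_lit 4) (nat_lit 384) (nat_lit 345) (nat_lit 171)) (XT.lf (nat_lit 0) (nat_lit 60508436436) (nat_lit 76) (nat_lit 389171827006) (nat_lit 152) (nat_lit 485796974565) (nat_lit 20) (nat_lit 5) (nat_lit 21) (nat_lit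 5) (nat_lit 22) (nat_lit 4) (nat_lit 385) (nat_lit 345) (nat_lit 170)))))) (XT.nd (nat_lit 44148) (nat_lit 0) (nat_lit 5016) (XT.nd (nat_lit 43914) (nat_lit 0) (nat_lit 6156) (XT.nd (nat_lit 43758) (nat_lit 0) (nat_lit 6080) (XT.lf (nat_lit 0) (nat_lit 694651960104) (nat_lit 76) (nat_lit 64366651614) (nat_lit 152) (nat_lit 234256176875) (nat_lit 20) (nat_lit 5) (nat_lit 21) (nat_lit 5) (nat_lit 22) (nat_lit 4) (nat_lit 386) (nat_lit 345) (nat_lit 169)) (XT.nd (nat_lit 78) (nat_lit 0) (nat_lit 76) (XT.lf (nat_lit 0) (nat_lit 7645992196) (nat_lit 836) (nat_lit 31300169321) (nat_lit 836) (nat_lit 31300169321) (nat_lit 100) (nat_lit 3) (nat_lit 111) (nat_lit 3) (nat_lit 111) (nat_lit 5) (nat_lit 346) (nat_lit 346) (nat_lit 208)) (XT.lf (nat_lit 0) (nat_lit 17060482912) (nat_lit 760) (nat_lit 101329987357) (nat_lit 836) (nat_lit 27664051605) (nat_lit 101) (nat_lit 5) (nat_lit 111) (nat_lit 5)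 (nat_lit 112) (nat_lit 5) (nat_lit 347) (nat_lit 346) (nat_lit 207)))) (XT.nd (nat_lit 78) (nat_lit 0) (nat_lit 76) (XT.lf (nat_lit 76) (nat_lit 9847626705) (nat_lit 0) (nat_lit 11697820047) (nat_lit 836) (nat_lit 130387135393) (nat_lit 102) (nat_lit 5) (nat_lit 101) (nat_lit 5) (nat_lit 112) (nat_lit 5) (nat_lit 348) (nat_lit 346) (nat_lit 206)) (XT.nd (nat_lit 78) (nat_lit 0) (nat_lit 76) (XT.lf (nat_lit 0) (nat_lit 29799175383) (nat_lit 760) (nat_lit 26300371167) (nat_lit 836) (nat_lit 102010842795) (nat_lit 102) (nat_lit 5) (nat_lit 112) (nat_lit 5) (nat_lit 113) (nat_lit 5) (nat_lit 349) (nat_lit 346) (nat_lit 205)) (XT.lf (nat_lit 0) (nat_lit 41456718125) (nat_lit 760) (nat_lit 63842372197) (nat_lit 836) (nat_lit 59346155464) (nat_lit 103) (nat_lit 5) (nat_lit 113) (nat_lit 5) (nat_lit 114) (nat_lit 5) (nat_lit 350) (nat_lit 346) (nat_lit 204))))) (XT.nd (nat_lit 234) (nat_lit 1368)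 (nat_lit 0) (XT.nd (nat_lit 78) (nat_lit 0) (nat_lit 0) (XT.lf (nat_lit 0) (nat_lit 56716759981) (nat_lit 760) (nat_lit 103192237143) (nat_lit 836) (nat_lit 11660399257) (nat_lit 104) (nat_lit 5) (nat_lit 114) (nat_lit 5) (nat_lit 115) (nat_lit 5) (nat_lit 351) (nat_lit 346) (nat_lit 203)) (XT.nd (nat_lit 78) (nat_lit 0) (nat_lit 76) (XT.lf (nat_lit 76) (nat_lit 33748247145) (nat_lit 0) (nat_lit 42881744313) (nat_lit 836) (nat_lit 102245868640) (nat_lit 105) (nat_lit 5) (nat_lit 104) (nat_lit 5) (nat_lit 115) (nat_lit 5) (nat_lit 352) (nat_lit 346) (nat_lit 202)) (XT.lf (nat_lit 0) (nat_lit 101266727386) (nat_lit 760) (nat_lit 2681605341) (nat_lit 76) (nat_lit 82661986253) (nat_lit 105) (nat_lit 5) (nat_lit 115) (nat_lit 5) (nat_lit 106) (nat_lit 5) (nat_lit 353) (nat_lit 346) (nat_lit 201)))) (XT.nd (nat_lit 78) (nat_lit 684) (nat_lit 0) (XT.lf (nat_lit 0) (nat_lit 131404292641) (nat_lit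 836) (nat_lit 39775989219) (nat_lit 76) (nat_lit 23606758525) (nat_lit 95) (nat_lit 5) (nat_lit 106) (nat_lit 5) (nat_lit 96) (nat_lit 5) (nat_lit 354) (nat_lit 346) (nat_lit 200)) (XT.nd (nat_lit 78) (nat_lit 304) (nat_lit 0) (XT.lf (nat_lit 0) (nat_lit 124014741008) (nat_lit 380) (nat_lit 43674269361) (nat_lit 456) (nat_lit 35742082080) (nat_lit 90) (nat_lit 5) (nat_lit 95) (nat_lit 5) (nat_lit 96) (nat_lit 5) (nat_lit 355) (nat_lit 346) (nat_lit 199)) (XT.lf (nat_lit 0) (nat_lit 91030885951) (nat_lit 304) (nat_lit 119438915582) (nat_lit 380) (nat_lit 2117202632) (nat_lit 86) (nat_lit 5) (nat_lit 90) (nat_lit 5) (nat_lit 91) (nat_lit 5) (nat_lit 356) (nat_lit 346) (nat_lit 198))))))))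
noncomputable def xc114 : XT := (XT.nd (nat_lit 1794) (nat_lit 608) (nat_lit 0) (XT.nd (nat_lit 858) (nat_lit 1748) (nat_lit 0) (XT.nd (nat_lit 390) (nat_lit 1292) (nat_lit 0) (XT.nd (nat_lit 156) (nat_lit 608) (nat_lit 0) (XT.nd (nat_lit 78) (nat_lit 304) (nat_lit 0) (XT.lf (nat_lit 0) (nat_lit 36431409641) (nat_lit 456) (nat_lit 166564844844) (nat_lit 76) (nat_lit 19286024446) (nat_lit 80) (nat_lit 5) (nat_lit 86) (nat_lit 5) (nat_lit 81) (nat_lit 5) (nat_lit 357) (nat_lit 346) (nat_lit 197)) (XT.lf (nat_lit 0) (nat_lit 17336507839) (nat_lit 304) (nat_lit 65090728659) (nat_lit 380) (nat_lit 150102328899) (nat_lit 76) (nat_lit 5) (nat_lit 80) (nat_lit 5) (nat_lit 81) (nat_lit 5) (nat_lit 358) (nat_lit 346) (nat_lit 196))) (XT.nd (nat_lit 78) (nat_lit 608) (nat_lit 0) (XT.lf (nat_lit 0) (nat_lit 136360590671) (nat_lit 380) (nat_lit 22910565509) (nat_lit 76) (nat_lit 84112585760) (nat_lit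 76) (nat_lit 5) (nat_lit 81) (nat_lit 5) (nat_lit 77) (nat_lit 5) (nat_lit 359) (nat_lit 346) (nat_lit 195)) (XT.nd (nat_lit 78) (nat_lit 304) (nat_lit 0) (XT.lf (nat_lit 0) (nat_lit 189729225398) (nat_lit 304) (nat_lit 8938913376) (nat_lit 380) (nat_lit 56235137753) (nat_lit 72) (nat_lit 5) (nat_lit 76) (nat_lit 5) (nat_lit 77) (nat_lit 5) (nat_lit 360) (nat_lit 346) (nat_lit 194)) (XT.lf (nat_lit 0) (nat_lit 3973608691) (nat_lit 304) (nat_lit 111700021863) (nat_lit 76) (nat_lit 151406154349) (nat_lit 68) (nat_lit 5) (nat_lit 72) (nat_lit 5) (nat_lit 69) (nat_lit 5) (nat_lit 361) (nat_lit 346) (nat_lit 193))))) (XT.nd (nat_lit 234) (nat_lit 532) (nat_lit 0) (XT.nd (nat_lit 78) (nat_lit 456) (nat_lit 0) (XT.lf (nat_lit 0) (nat_lit 70960680070) (nat_lit 380) (nat_lit 162374418326) (nat_lit 76) (nat_lit 46652629815) (nat_lit 64) (nat_lit 5) (nat_lit 69) (nat_lit 5) (nat_lit 65) (nat_lit 5)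 (nat_lit 362) (nat_lit 346) (nat_lit 192)) (XT.nd (nat_lit 78) (nat_lit 228) (nat_lit 0) (XT.lf (nat_lit 0) (nat_lit 75875314654) (nat_lit 228) (nat_lit 72543940376) (nat_lit 304) (nat_lit 145253425213) (nat_lit 61) (nat_lit 5) (nat_lit 64) (nat_lit 5) (nat_lit 65) (nat_lit 5) (nat_lit 363) (nat_lit 346) (nat_lit 191)) (XT.lf (nat_lit 0) (nat_lit 30007540751) (nat_lit 228) (nat_lit 206988733992) (nat_lit 304) (nat_lit 71210065897) (nat_lit 58) (nat_lit 5) (nat_lit 61) (nat_lit 5) (nat_lit 62) (nat_lit 5) (nat_lit 364) (nat_lit 346) (nat_lit 190)))) (XT.nd (nat_lit 78) (nat_lit 456) (nat_lit 0) (XT.lf (nat_lit 0) (nat_lit 13555618649) (nat_lit 304) (nat_lit 19721076944) (nat_lit 76) (nat_lit 290365206142) (nat_lit 57) (nat_lit 5) (nat_lit 61) (nat_lit 5) (nat_lit 58) (nat_lit 5) (nat_lit 365) (nat_lit 346) (nat_lit 189)) (XT.nd (nat_lit 78) (nat_lit 228) (nat_lit 0) (XT.lf (nat_lit 0) (nat_lit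 109303476267) (nat_lit 304) (nat_lit 75769274238) (nat_lit 76) (nat_lit 154846399815) (nat_lit 54) (nat_lit 5) (nat_lit 58) (nat_lit 5) (nat_lit 55) (nat_lit 5) (nat_lit 366) (nat_lit 346) (nat_lit 188)) (XT.lf (nat_lit 0) (nat_lit 217115738915) (nat_lit 304) (nat_lit 136891858889) (nat_lit 76) (nat_lit 3270752273) (nat_lit 51) (nat_lit 5) (nat_lit 55) (nat_lit 5) (nat_lit 52) (nat_lit 5) (nat_lit 367) (nat_lit 346) (nat_lit 187)))))) (XT.nd (nat_lit 468) (nat_lit 760) (nat_lit 0) (XT.nd (nat_lit 234) (nat_lit 380) (nat_lit 0) (XT.nd (nat_lit 78) (nat_lit 456) (nat_lit 0) (XT.lf (nat_lit 0) (nat_lit 169254800879) (nat_lit 152) (nat_lit 171402724944) (nat_lit 228) (nat_lit 35013532927) (nat_lit 49) (nat_lit 5) (nat_lit 51) (nat_lit 5) (nat_lit 52) (nat_lit 5) (nat_lit 368) (nat_lit 346) (nat_lit 186)) (XT.nd (nat_lit 78) (nat_lit 152) (nat_lit 0) (XT.lf (nat_lit 0) (nat_lit 80691914435) (nat_lit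 304) (nat_lit 284082693951) (nat_lit 76) (nat_lit 30466335885) (nat_lit 45) (nat_lit 5) (nat_lit 49) (nat_lit 5) (nat_lit 46) (nat_lit 5) (nat_lit 369) (nat_lit 346) (nat_lit 185)) (XT.lf (nat_lit 0) (nat_lit 43154635957) (nat_lit 152) (nat_lit 168507228307) (nat_lit 228) (nat_lit 204324118318) (nat_lit 43) (nat_lit 5) (nat_lit 45) (nat_lit 5) (nat_lit 46) (nat_lit 5) (nat_lit 370) (nat_lit 346) (nat_lit 184)))) (XT.nd (nat_lit 78) (nat_lit 380) (nat_lit 0) (XT.lf (nat_lit 0) (nat_lit 358817493007) (nat_lit 228) (nat_lit 32187639724) (nat_lit 76) (nat_lit 47100087154) (nat_lit 43) (nat_lit 5) (nat_lit 46) (nat_lit 5) (nat_lit 44) (nat_lit 5) (nat_lit 371) (nat_lit 346) (nat_lit 183)) (XT.nd (nat_lit 78) (nat_lit 152) (nat_lit 0) (XT.lf (nat_lit 0) (nat_lit 62311789842) (nat_lit 228) (nat_lit 118716446140) (nat_lit 76) (nat_lit 280505007710) (nat_lit 40) (nat_lit 5) (nat_lit 43) (nat_lit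 5) (nat_lit 41) (nat_lit 5) (nat_lit 372) (nat_lit 346) (nat_lit 182)) (XT.lf (nat_lit 0) (nat_lit 218089494508) (nat_lit 228) (nat_lit 217903298494) (nat_lit 76) (nat_lit 50496322408) (nat_lit 38) (nat_lit 5) (nat_lit 41) (nat_lit 5) (nat_lit 39) (nat_lit 5) (nat_lit 373) (nat_lit 346) (nat_lit 181))))) (XT.nd (nat_lit 234) (nat_lit 456) (nat_lit 0) (XT.nd (nat_lit 78) (nat_lit 152) (nat_lit 0) (XT.lf (nat_lit 0) (nat_lit 180462908991) (nat_lit 152) (nat_lit 213838254667) (nat_lit 228) (nat_lit 118741705856) (nat_lit 36) (nat_lit 5) (nat_lit 38) (nat_lit 5) (nat_lit 39) (nat_lit 5) (nat_lit 374) (nat_lit 346) (nat_lit 180)) (XT.nd (nat_lit 78) (nat_lit 0) (nat_lit 0) (XT.lf (nat_lit 0) (nat_lit 47104969283) (nat_lit 152) (nat_lit 463198209606) (nat_lit 76) (nat_lit 31104822472) (nat_lit 34) (nat_lit 5) (nat_lit 36) (nat_lit 5) (nat_lit 35) (nat_lit 5) (nat_lit 375) (nat_lit 346) (nat_lit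 179)) (XT.lf (nat_lit 0) (nat_lit 231608761556) (nat_lit 152) (nat_lit 43716691417) (nat_lit 76) (nat_lit 296142085857) (nat_lit 34) (nat_lit 5) (nat_lit 36) (nat_lit 5) (nat_lit 35) (nat_lit 5) (nat_lit 376) (nat_lit 346) (nat_lit 178)))) (XT.nd (nat_lit 78) (nat_lit 304) (nat_lit 0) (XT.lf (nat_lit 0) (nat_lit 422857251485) (nat_lit 152) (nat_lit 14617493242) (nat_lit 228) (nat_lit 166127000237) (nat_lit 32) (nat_lit 5) (nat_lit 34) (nat_lit 5) (nat_lit 35) (nat_lit 5) (nat_lit 377) (nat_lit 346) (nat_lit 177)) (XT.nd (nat_lit 78) (nat_lit 152) (nat_lit 0) (XT.lf (nat_lit 0) (nat_lit 30524166973) (nat_lit 152) (nat_lit 343000097962) (nat_lit 76) (nat_lit 264280181912) (nat_lit 30) (nat_lit 5) (nat_lit 32) (nat_lit 5) (nat_lit 31) (nat_lit 5) (nat_lit 378) (nat_lit 346) (nat_lit 176)) (XT.lf (nat_lit 0) (nat_lit 141701354120) (nat_lit 152) (nat_lit 101122410760) (nat_lit 228) (nat_lit 431496599455)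 (nat_lit 28) (nat_lit 5) (nat_lit 30) (nat_lit 5) (nat_lit 31) (nat_lit 5) (nat_lit 379) (nat_lit 346) (nat_lit 175))))))) (XT.nd (nat_lit 44694) (nat_lit 0) (nat_lit 3344) (XT.nd (nat_lit 468) (nat_lit 76) (nat_lit 0) (XT.nd (nat_lit 234) (nat_lit 228) (nat_lit 0) (XT.nd (nat_lit 78) (nat_lit 304) (nat_lit 0) (XT.lf (nat_lit 0) (nat_lit 481194418850) (nat_lit 228) (nat_lit 39143962964) (nat_lit 76) (nat_lit 192964819029) (nat_lit 28) (nat_lit 5) (nat_lit 31) (nat_lit 5) (nat_lit 29) (nat_lit 4) (nat_lit 380) (nat_lit 346) (nat_lit 174)) (XT.nd (nat_lit 78) (nat_lit 228) (nat_lit 0) (XT.lf (nat_lit 0) (nat_lit 508375008191) (nat_lit 76) (nat_lit 239901901682) (nat_lit 152) (nat_lit 6645645190) (nat_lit 27) (nat_lit 5) (nat_lit 28) (nat_lit 5) (nat_lit 29) (nat_lit 4) (nat_lit 381) (nat_lit 346) (nat_lit 173)) (XT.lf (nat_lit 0) (nat_lit 235899606058) (nat_lit 228) (nat_lit 493160838493)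 (nat_lit 76) (nat_lit 70294820534) (nat_lit 24) (nat_lit 5) (nat_lit 27) (nat_lit 5) (nat_lit 25) (nat_lit 4) (nat_lit 382) (nat_lit 346) (nat_lit 172)))) (XT.nd (nat_lit 78) (nat_lit 152) (nat_lit 0) (XT.lf (nat_lit 0) (nat_lit 62608098159) (nat_lit 76) (nat_lit 444398360213) (nat_lit 152) (nat_lit 339861145712) (nat_lit 23) (nat_lit 5) (nat_lit 24) (nat_lit 5) (nat_lit 25) (nat_lit 4) (nat_lit 383) (nat_lit 346) (nat_lit 171)) (XT.nd (nat_lit 78) (nat_lit 152) (nat_lit 0) (XT.lf (nat_lit 0) (nat_lit 680449030846) (nat_lit 76) (nat_lit 127943298300) (nat_lit 152) (nat_lit 89359077566) (nat_lit 23) (nat_lit 5) (nat_lit 24) (nat_lit 5) (nat_lit 25) (nat_lit 4) (nat_lit 384) (nat_lit 346) (nat_lit 170)) (XT.lf (nat_lit 0) (nat_lit 185198143965) (nat_lit 152) (nat_lit 550586984602) (nat_lit 76) (nat_lit 216288647139) (nat_lit 21) (nat_lit 5) (nat_lit 23) (nat_lit 5) (nat_lit 22) (nat_lit 4)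 (nat_lit 385) (nat_lit 346) (nat_lit 169))))) (XT.nd (nat_lit 43992) (nat_lit 0) (nat_lit 6156) (XT.nd (nat_lit 43836) (nat_lit 0) (nat_lit 6080) (XT.lf (nat_lit 0) (nat_lit 65351585854) (nat_lit 76) (nat_lit 420304438143) (nat_lit 152) (nat_lit 524659325716) (nat_lit 20) (nat_lit 5) (nat_lit 21) (nat_lit 5) (nat_lit 22) (nat_lit 4) (nat_lit 386) (nat_lit 346) (nat_lit 168)) (XT.nd (nat_lit 78) (nat_lit 0) (nat_lit 76) (XT.lf (nat_lit 0) (nat_lit 8262585262) (nat_lit 836) (nat_lit 33801600586) (nat_lit 836) (nat_lit 33801600586) (nat_lit 100) (nat_lit 3) (nat_lit 111) (nat_lit 3) (nat_lit 111) (nat_lit 5) (nat_lit 347) (nat_lit 347) (nat_lit 206)) (XT.lf (nat_lit 0) (nat_lit 18434431958) (nat_lit 760) (nat_lit 109430911654) (nat_lit 836) (nat_lit 29873074886) (nat_lit 101) (nat_lit 5) (nat_lit 111) (nat_lit 5) (nat_lit 112) (nat_lit 5) (nat_lit 348) (nat_lit 347) (nat_lit 205)))) (XT.nd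 (nat_lit 78) (nat_lit 0) (nat_lit 76) (XT.lf (nat_lit 76) (nat_lit 10640673610) (nat_lit 0) (nat_lit 12636926210) (nat_lit 836) (nat_lit 140809154136) (nat_lit 102) (nat_lit 5) (nat_lit 101) (nat_lit 5) (nat_lit 112) (nat_lit 5) (nat_lit 349) (nat_lit 347) (nat_lit 204)) (XT.nd (nat_lit 78) (nat_lit 0) (nat_lit 76) (XT.lf (nat_lit 0) (nat_lit 32190948404) (nat_lit 760) (nat_lit 28399102020) (nat_lit 836) (nat_lit 110168769884) (nat_lit 102) (nat_lit 5) (nat_lit 112) (nat_lit 5) (nat_lit 113) (nat_lit 5) (nat_lit 350) (nat_lit 347) (nat_lit 203)) (XT.lf (nat_lit 0) (nat_lit 44780557609) (nat_lit 760) (nat_lit 68944283491) (nat_lit 836) (nat_lit 64091651621) (nat_lit 103) (nat_lit 5) (nat_lit 113) (nat_lit 5) (nat_lit 114) (nat_lit 5) (nat_lit 351) (nat_lit 347) (nat_lit 202)))))) (XT.nd (nat_lit 468) (nat_lit 1672) (nat_lit 0) (XT.nd (nat_lit 234) (nat_lit 1368) (nat_lit 0) (XT.nd (nat_lit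 78) (nat_lit 0) (nat_lit 0) (XT.lf (nat_lit 0) (nat_lit 61260918719) (nat_lit 760) (nat_lit 111442001492) (nat_lit 836) (nat_lit 12591679922) (nat_lit 104) (nat_lit 5) (nat_lit 114) (nat_lit 5) (nat_lit 115) (nat_lit 5) (nat_lit 352) (nat_lit 347) (nat_lit 201)) (XT.nd (nat_lit 78) (nat_lit 0) (nat_lit 76) (XT.lf (nat_lit 76) (nat_lit 36453477534) (nat_lit 0) (nat_lit 46313309999) (nat_lit 836) (nat_lit 110418814999) (nat_lit 105) (nat_lit 5) (nat_lit 104) (nat_lit 5) (nat_lit 115) (nat_lit 5) (nat_lit 353) (nat_lit 347) (nat_lit 200)) (XT.lf (nat_lit 0) (nat_lit 109373973667) (nat_lit 760) (nat_lit 2890843941) (nat_lit 76) (nat_lit 89274025434) (nat_lit 105) (nat_lit 5) (nat_lit 115) (nat_lit 5) (nat_lit 106) (nat_lit 5) (nat_lit 354) (nat_lit 347) (nat_lit 199)))) (XT.nd (nat_lit 78) (nat_lit 684) (nat_lit 0) (XT.lf (nat_lit 0) (nat_lit 141922177863) (nat_lit 836) (nat_lit 42952717698)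 (nat_lit 76) (nat_lit 25494825360) (nat_lit 95) (nat_lit 5) (nat_lit 106) (nat_lit 5) (nat_lit 96) (nat_lit 5) (nat_lit 355) (nat_lit 347) (nat_lit 198)) (XT.nd (nat_lit 78) (nat_lit 304) (nat_lit 0) (XT.lf (nat_lit 0) (nat_lit 133941038414) (nat_lit 380) (nat_lit 47168303999) (nat_lit 456) (nat_lit 38595971682) (nat_lit 90) (nat_lit 5) (nat_lit 95) (nat_lit 5) (nat_lit 96) (nat_lit 5) (nat_lit 356) (nat_lit 347) (nat_lit 197)) (XT.lf (nat_lit 0) (nat_lit 98318508116) (nat_lit 304) (nat_lit 128993781819) (nat_lit 380) (nat_lit 2281424544) (nat_lit 86) (nat_lit 5) (nat_lit 90) (nat_lit 5) (nat_lit 91) (nat_lit 5) (nat_lit 357) (nat_lit 347) (nat_lit 196))))) (XT.nd (nat_lit 234) (nat_lit 912) (nat_lit 0) (XT.nd (nat_lit 78) (nat_lit 304) (nat_lit 0) (XT.lf (nat_lit 0) (nat_lit 39350627719) (nat_lit 456) (nat_lit 179884709730) (nat_lit 76) (nat_lit 20829284294) (nat_lit 80) (nat_lit 5) (nat_lit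 86) (nat_lit 5) (nat_lit 81) (nat_lit 5) (nat_lit 358) (nat_lit 347) (nat_lit 195)) (XT.nd (nat_lit 78) (nat_lit 0) (nat_lit 0) (XT.lf (nat_lit 0) (nat_lit 18728519849) (nat_lit 304) (nat_lit 70297331825) (nat_lit 380) (nat_lit 162105853219) (nat_lit 76) (nat_lit 5) (nat_lit 80) (nat_lit 5) (nat_lit 81) (nat_lit 5) (nat_lit 359) (nat_lit 347) (nat_lit 194)) (XT.lf (nat_lit 0) (nat_lit 147273555039) (nat_lit 380) (nat_lit 24738496962) (nat_lit 76) (nat_lit 90842179805) (nat_lit 76) (nat_lit 5) (nat_lit 81) (nat_lit 5) (nat_lit 77) (nat_lit 5) (nat_lit 360) (nat_lit 347) (nat_lit 193)))) (XT.nd (nat_lit 78) (nat_lit 608) (nat_lit 0) (XT.lf (nat_lit 0) (nat_lit 204912263670) (nat_lit 304) (nat_lit 9653211733) (nat_lit 380) (nat_lit 60729865606) (nat_lit 72) (nat_lit 5) (nat_lit 76) (nat_lit 5) (nat_lit 77) (nat_lit 5) (nat_lit 361) (nat_lit 347) (nat_lit 192)) (XT.nd (nat_lit 78) (nat_lit 304)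 (nat_lit 0) (XT.lf (nat_lit 0) (nat_lit 4295243213) (nat_lit 304) (nat_lit 120631223935) (nat_lit 76) (nat_lit 163519510289) (nat_lit 68) (nat_lit 5) (nat_lit 72) (nat_lit 5) (nat_lit 69) (nat_lit 5) (nat_lit 362) (nat_lit 347) (nat_lit 191)) (XT.lf (nat_lit 0) (nat_lit 76641090924) (nat_lit 380) (nat_lit 175359617364) (nat_lit 76) (nat_lit 50385857611) (nat_lit 64) (nat_lit 5) (nat_lit 69) (nat_lit 5) (nat_lit 65) (nat_lit 5) (nat_lit 363) (nat_lit 347) (nat_lit 190))))))))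
noncomputable def xc115 : XT := (XT.nd (nat_lit 45630) (nat_lit 0) (nat_lit 1824) (XT.nd (nat_lit 858) (nat_lit 1292) (nat_lit 0) (XT.nd (nat_lit 390) (nat_lit 988) (nat_lit 0) (XT.nd (nat_lit 156) (nat_lit 532) (nat_lit 0) (XT.nd (nat_lit 78) (nat_lit 228) (nat_lit 0) (XT.lf (nat_lit 0) (nat_lit 81949887633) (nat_lit 228) (nat_lit 78346271812) (nat_lit 304) (nat_lit 156870164475) (nat_lit 61) (nat_lit 5) (nat_lit 64) (nat_lit 5) (nat_lit 65) (nat_lit 5) (nat_lit 364) (nat_lit 347) (nat_lit 189)) (XT.lf (nat_lit 0) (nat_lit 32412639819) (nat_lit 228) (nat_lit 223546539034) (nat_lit 304) (nat_lit 76903506577) (nat_lit 58) (nat_lit 5) (nat_lit 61) (nat_lit 5) (nat_lit 62) (nat_lit 5) (nat_lit 365) (nat_lit 347) (nat_lit 188))) (XT.nd (nat_lit 78) (nat_lit 456) (nat_lit 0) (XT.lf (nat_lit 0) (nat_lit 14643083793) (nat_lit 304) (nat_lit 21294498527) (nat_lit 76) (nat_lit 313595518696) (nat_lit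 57) (nat_lit 5) (nat_lit 61) (nat_lit 5) (nat_lit 58) (nat_lit 5) (nat_lit 366) (nat_lit 347) (nat_lit 187)) (XT.nd (nat_lit 78) (nat_lit 228) (nat_lit 0) (XT.lf (nat_lit 0) (nat_lit 118050629427) (nat_lit 304) (nat_lit 81826611315) (nat_lit 76) (nat_lit 167235295928) (nat_lit 54) (nat_lit 5) (nat_lit 58) (nat_lit 5) (nat_lit 55) (nat_lit 5) (nat_lit 367) (nat_lit 347) (nat_lit 186)) (XT.lf (nat_lit 0) (nat_lit 234487743169) (nat_lit 304) (nat_lit 147839067706) (nat_lit 76) (nat_lit 3533668172) (nat_lit 51) (nat_lit 5) (nat_lit 55) (nat_lit 5) (nat_lit 52) (nat_lit 5) (nat_lit 368) (nat_lit 347) (nat_lit 185))))) (XT.nd (nat_lit 234) (nat_lit 380) (nat_lit 0) (XT.nd (nat_lit 78) (nat_lit 456) (nat_lit 0) (XT.lf (nat_lit 0) (nat_lit 182799144930) (nat_lit 152) (nat_lit 185113586582) (nat_lit 228) (nat_lit 37811880109) (nat_lit 49) (nat_lit 5) (nat_lit 51) (nat_lit 5) (nat_lit 52) (nat_lit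 5) (nat_lit 369) (nat_lit 347) (nat_lit 184)) (XT.nd (nat_lit 78) (nat_lit 152) (nat_lit 0) (XT.lf (nat_lit 0) (nat_lit 87149801069) (nat_lit 304) (nat_lit 306805330517) (nat_lit 76) (nat_lit 32904960100) (nat_lit 45) (nat_lit 5) (nat_lit 49) (nat_lit 5) (nat_lit 46) (nat_lit 5) (nat_lit 370) (nat_lit 347) (nat_lit 183)) (XT.lf (nat_lit 0) (nat_lit 46610812863) (nat_lit 152) (nat_lit 181986405778) (nat_lit 228) (nat_lit 220667520940) (nat_lit 43) (nat_lit 5) (nat_lit 45) (nat_lit 5) (nat_lit 46) (nat_lit 5) (nat_lit 371) (nat_lit 347) (nat_lit 182)))) (XT.nd (nat_lit 78) (nat_lit 380) (nat_lit 0) (XT.lf (nat_lit 0) (nat_lit 387525139768) (nat_lit 228) (nat_lit 34759034451) (nat_lit 76) (nat_lit 50869349645) (nat_lit 43) (nat_lit 5) (nat_lit 46) (nat_lit 5) (nat_lit 44) (nat_lit 5) (nat_lit 372) (nat_lit 347) (nat_lit 181)) (XT.nd (nat_lit 78) (nat_lit 152) (nat_lit 0) (XT.lf (nat_lit 0)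 (nat_lit 67298904006) (nat_lit 228) (nat_lit 128210229666) (nat_lit 76) (nat_lit 302946659869) (nat_lit 40) (nat_lit 5) (nat_lit 43) (nat_lit 5) (nat_lit 41) (nat_lit 5) (nat_lit 373) (nat_lit 347) (nat_lit 180)) (XT.lf (nat_lit 0) (nat_lit 235538737525) (nat_lit 228) (nat_lit 235332100091) (nat_lit 76) (nat_lit 54537301837) (nat_lit 38) (nat_lit 5) (nat_lit 41) (nat_lit 5) (nat_lit 39) (nat_lit 5) (nat_lit 374) (nat_lit 347) (nat_lit 179)))))) (XT.nd (nat_lit 468) (nat_lit 532) (nat_lit 0) (XT.nd (nat_lit 234) (nat_lit 456) (nat_lit 0) (XT.nd (nat_lit 78) (nat_lit 152) (nat_lit 0) (XT.lf (nat_lit 0) (nat_lit 194903253527) (nat_lit 152) (nat_lit 230943984057) (nat_lit 228) (nat_lit 128238961507) (nat_lit 36) (nat_lit 5) (nat_lit 38) (nat_lit 5) (nat_lit 39) (nat_lit 5) (nat_lit 375) (nat_lit 347) (nat_lit 178)) (XT.nd (nat_lit 78) (nat_lit 0) (nat_lit 0) (XT.lf (nat_lit 0) (nat_lit 50875302871)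 (nat_lit 152) (nat_lit 500250757879) (nat_lit 76) (nat_lit 33594483087) (nat_lit 34) (nat_lit 5) (nat_lit 36) (nat_lit 5) (nat_lit 35) (nat_lit 5) (nat_lit 376) (nat_lit 347) (nat_lit 177)) (XT.lf (nat_lit 0) (nat_lit 250139255115) (nat_lit 152) (nat_lit 47210963309) (nat_lit 76) (nat_lit 319834633112) (nat_lit 34) (nat_lit 5) (nat_lit 36) (nat_lit 5) (nat_lit 35) (nat_lit 5) (nat_lit 377) (nat_lit 347) (nat_lit 176)))) (XT.nd (nat_lit 78) (nat_lit 304) (nat_lit 0) (XT.lf (nat_lit 0) (nat_lit 456688761893) (nat_lit 152) (nat_lit 15785668010) (nat_lit 228) (nat_lit 179415368667) (nat_lit 32) (nat_lit 5) (nat_lit 34) (nat_lit 5) (nat_lit 35) (nat_lit 5) (nat_lit 378) (nat_lit 347) (nat_lit 175)) (XT.nd (nat_lit 78) (nat_lit 152) (nat_lit 0) (XT.lf (nat_lit 0) (nat_lit 32967769605) (nat_lit 152) (nat_lit 370437183069) (nat_lit 76) (nat_lit 285423765829) (nat_lit 30) (nat_lit 5) (nat_lit 32)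 (nat_lit 5) (nat_lit 31) (nat_lit 5) (nat_lit 379) (nat_lit 347) (nat_lit 174)) (XT.lf (nat_lit 0) (nat_lit 153040258161) (nat_lit 152) (nat_lit 109210997182) (nat_lit 228) (nat_lit 466014658093) (nat_lit 28) (nat_lit 5) (nat_lit 30) (nat_lit 5) (nat_lit 31) (nat_lit 5) (nat_lit 380) (nat_lit 347) (nat_lit 173))))) (XT.nd (nat_lit 234) (nat_lit 228) (nat_lit 0) (XT.nd (nat_lit 78) (nat_lit 304) (nat_lit 0) (XT.lf (nat_lit 0) (nat_lit 519691461347) (nat_lit 228) (nat_lit 42272834704) (nat_lit 76) (nat_lit 208403085871) (nat_lit 28) (nat_lit 5) (nat_lit 31) (nat_lit 5) (nat_lit 29) (nat_lit 4) (nat_lit 381) (nat_lit 347) (nat_lit 172)) (XT.nd (nat_lit 78) (nat_lit 228) (nat_lit 0) (XT.lf (nat_lit 0) (nat_lit 549047539181) (nat_lit 76) (nat_lit 259092941681) (nat_lit 152) (nat_lit 7175807198) (nat_lit 27) (nat_lit 5) (nat_lit 28) (nat_lit 5) (nat_lit 29) (nat_lit 4) (nat_lit 382) (nat_lit 347)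 (nat_lit 171)) (XT.lf (nat_lit 0) (nat_lit 254772965234) (nat_lit 228) (nat_lit 532611187084) (nat_lit 76) (nat_lit 75919464000) (nat_lit 24) (nat_lit 5) (nat_lit 27) (nat_lit 5) (nat_lit 25) (nat_lit 4) (nat_lit 383) (nat_lit 347) (nat_lit 170)))) (XT.nd (nat_lit 78) (nat_lit 152) (nat_lit 0) (XT.lf (nat_lit 0) (nat_lit 67619155050) (nat_lit 76) (nat_lit 479949145281) (nat_lit 152) (nat_lit 367048645409) (nat_lit 23) (nat_lit 5) (nat_lit 24) (nat_lit 5) (nat_lit 25) (nat_lit 4) (nat_lit 384) (nat_lit 347) (nat_lit 169)) (XT.nd (nat_lit 78) (nat_lit 152) (nat_lit 0) (XT.lf (nat_lit 0) (nat_lit 734887183904) (nat_lit 76) (nat_lit 138177758692) (nat_lit 152) (nat_lit 96506514919) (nat_lit 23) (nat_lit 5) (nat_lit 24) (nat_lit 5) (nat_lit 25) (nat_lit 4) (nat_lit 385) (nat_lit 347) (nat_lit 168)) (XT.lf (nat_lit 0) (nat_lit 200015199970) (nat_lit 152) (nat_lit 594631725496) (nat_lit 76) (nat_lit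 233592691740) (nat_lit 21) (nat_lit 5) (nat_lit 23) (nat_lit 5) (nat_lit 22) (nat_lit 4) (nat_lit 386) (nat_lit 347) (nat_lit 167))))))) (XT.nd (nat_lit 936) (nat_lit 2660) (nat_lit 0) (XT.nd (nat_lit 468) (nat_lit 1520) (nat_lit 0) (XT.nd (nat_lit 234) (nat_lit 0) (nat_lit 152) (XT.nd (nat_lit 78) (nat_lit 0) (nat_lit 76) (XT.lf (nat_lit 0) (nat_lit 8927804780) (nat_lit 836) (nat_lit 36503514743) (nat_lit 836) (nat_lit 36503514743) (nat_lit 100) (nat_lit 3) (nat_lit 111) (nat_lit 3) (nat_lit 111) (nat_lit 5) (nat_lit 348) (nat_lit 348) (nat_lit 204)) (XT.nd (nat_lit 78) (nat_lit 0) (nat_lit 0) (XT.lf (nat_lit 0) (nat_lit 19916997225) (nat_lit 760) (nat_lit 118180690920) (nat_lit 836) (nat_lit 32259405062) (nat_lit 101) (nat_lit 5) (nat_lit 111) (nat_lit 5) (nat_lit 112) (nat_lit 5) (nat_lit 349) (nat_lit 348) (nat_lit 203)) (XT.lf (nat_lit 76) (nat_lit 11496417184) (nat_lit 0) (nat_lit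 13650692858) (nat_lit 836) (nat_lit 152066211493) (nat_lit 102) (nat_lit 5) (nat_lit 101) (nat_lit 5) (nat_lit 112) (nat_lit 5) (nat_lit 350) (nat_lit 348) (nat_lit 202)))) (XT.nd (nat_lit 78) (nat_lit 0) (nat_lit 76) (XT.lf (nat_lit 0) (nat_lit 34772944947) (nat_lit 760) (nat_lit 30666487279) (nat_lit 836) (nat_lit 118979750612) (nat_lit 102) (nat_lit 5) (nat_lit 112) (nat_lit 5) (nat_lit 113) (nat_lit 5) (nat_lit 351) (nat_lit 348) (nat_lit 201)) (XT.nd (nat_lit 78) (nat_lit 0) (nat_lit 76) (XT.lf (nat_lit 0) (nat_lit 48369262536) (nat_lit 760) (nat_lit 74455129256) (nat_lit 836) (nat_lit 69217100795) (nat_lit 103) (nat_lit 5) (nat_lit 113) (nat_lit 5) (nat_lit 114) (nat_lit 5) (nat_lit 352) (nat_lit 348) (nat_lit 200)) (XT.lf (nat_lit 0) (nat_lit 66167637501) (nat_lit 760) (nat_lit 120352547978) (nat_lit 836) (nat_lit 13597684348) (nat_lit 104) (nat_lit 5) (nat_lit 114) (nat_lit 5) (nat_lit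 115) (nat_lit 5) (nat_lit 353) (nat_lit 348) (nat_lit 199))))) (XT.nd (nat_lit 234) (nat_lit 1140) (nat_lit 0) (XT.nd (nat_lit 78) (nat_lit 684) (nat_lit 0) (XT.lf (nat_lit 76) (nat_lit 39374360176) (nat_lit 0) (nat_lit 50019254548) (nat_lit 836) (nat_lit 119246556196) (nat_lit 105) (nat_lit 5) (nat_lit 104) (nat_lit 5) (nat_lit 115) (nat_lit 5) (nat_lit 354) (nat_lit 348) (nat_lit 198)) (XT.nd (nat_lit 78) (nat_lit 760) (nat_lit 0) (XT.lf (nat_lit 0) (nat_lit 118128956795) (nat_lit 760) (nat_lit 3117576282) (nat_lit 76) (nat_lit 96415158957) (nat_lit 105) (nat_lit 5) (nat_lit 115) (nat_lit 5) (nat_lit 106) (nat_lit 5) (nat_lit 355) (nat_lit 348) (nat_lit 197)) (XT.lf (nat_lit 0) (nat_lit 153280703301) (nat_lit 836) (nat_lit 46384347787) (nat_lit 76) (nat_lit 27534005141) (nat_lit 95) (nat_lit 5) (nat_lit 106) (nat_lit 5) (nat_lit 96) (nat_lit 5) (nat_lit 356) (nat_lit 348) (nat_lit 196))))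 (XT.nd (nat_lit 78) (nat_lit 760) (nat_lit 0) (XT.lf (nat_lit 0) (nat_lit 144660709455) (nat_lit 380) (nat_lit 50941848127) (nat_lit 456) (nat_lit 41678953802) (nat_lit 90) (nat_lit 5) (nat_lit 95) (nat_lit 5) (nat_lit 96) (nat_lit 5) (nat_lit 357) (nat_lit 348) (nat_lit 195)) (XT.nd (nat_lit 78) (nat_lit 456) (nat_lit 0) (XT.lf (nat_lit 0) (nat_lit 106188405166) (nat_lit 304) (nat_lit 139313072593) (nat_lit 380) (nat_lit 2459519528) (nat_lit 86) (nat_lit 5) (nat_lit 90) (nat_lit 5) (nat_lit 91) (nat_lit 5) (nat_lit 358) (nat_lit 348) (nat_lit 194)) (XT.lf (nat_lit 0) (nat_lit 42502711978) (nat_lit 456) (nat_lit 194270923151) (nat_lit 76) (nat_lit 22495951019) (nat_lit 80) (nat_lit 5) (nat_lit 86) (nat_lit 5) (nat_lit 81) (nat_lit 5) (nat_lit 359) (nat_lit 348) (nat_lit 193)))))) (XT.nd (nat_lit 468) (nat_lit 1216) (nat_lit 0) (XT.nd (nat_lit 234) (nat_lit 836) (nat_lit 0) (XT.nd (nat_lit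 78) (nat_lit 304) (nat_lit 0) (XT.lf (nat_lit 0) (nat_lit 20231166477) (nat_lit 304) (nat_lit 75920556705) (nat_lit 380) (nat_lit 175070324570) (nat_lit 76) (nat_lit 5) (nat_lit 80) (nat_lit 5) (nat_lit 81) (nat_lit 5) (nat_lit 360) (nat_lit 348) (nat_lit 192)) (XT.nd (nat_lit 78) (nat_lit 304) (nat_lit 0) (XT.lf (nat_lit 0) (nat_lit 159058969205) (nat_lit 380) (nat_lit 26713363938) (nat_lit 76) (nat_lit 98110057606) (nat_lit 76) (nat_lit 5) (nat_lit 81) (nat_lit 5) (nat_lit 77) (nat_lit 5) (nat_lit 361) (nat_lit 348) (nat_lit 191)) (XT.lf (nat_lit 0) (nat_lit 221309274463) (nat_lit 304) (nat_lit 10424770187) (nat_lit 380) (nat_lit 65584754197) (nat_lit 72) (nat_lit 5) (nat_lit 76) (nat_lit 5) (nat_lit 77) (nat_lit 5) (nat_lit 362) (nat_lit 348) (nat_lit 190)))) (XT.nd (nat_lit 78) (nat_lit 532) (nat_lit 0) (XT.lf (nat_lit 0) (nat_lit 4642074114) (nat_lit 304) (nat_lit 130277606899) (nat_lit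 76) (nat_lit 176601811504) (nat_lit 68) (nat_lit 5) (nat_lit 72) (nat_lit 5) (nat_lit 69) (nat_lit 5) (nat_lit 363) (nat_lit 348) (nat_lit 189)) (XT.nd (nat_lit 78) (nat_lit 228) (nat_lit 0) (XT.lf (nat_lit 0) (nat_lit 82775427280) (nat_lit 380) (nat_lit 189384310597) (nat_lit 76) (nat_lit 54417598485) (nat_lit 64) (nat_lit 5) (nat_lit 69) (nat_lit 5) (nat_lit 65) (nat_lit 5) (nat_lit 364) (nat_lit 348) (nat_lit 188)) (XT.lf (nat_lit 0) (nat_lit 88509777654) (nat_lit 228) (nat_lit 84612958643) (nat_lit 304) (nat_lit 169416747149) (nat_lit 61) (nat_lit 5) (nat_lit 64) (nat_lit 5) (nat_lit 65) (nat_lit 5) (nat_lit 365) (nat_lit 348) (nat_lit 187))))) (XT.nd (nat_lit 234) (nat_lit 684) (nat_lit 0) (XT.nd (nat_lit 78) (nat_lit 304) (nat_lit 0) (XT.lf (nat_lit 0) (nat_lit 35009505436) (nat_lit 228) (nat_lit 241429153037) (nat_lit 304) (nat_lit 83052902507) (nat_lit 58) (nat_lit 5) (nat_lit 61)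 (nat_lit 5) (nat_lit 62) (nat_lit 5) (nat_lit 366) (nat_lit 348) (nat_lit 186)) (XT.nd (nat_lit 78) (nat_lit 228) (nat_lit 0) (XT.lf (nat_lit 0) (nat_lit 15817115933) (nat_lit 304) (nat_lit 22994402224) (nat_lit 76) (nat_lit 338684099888) (nat_lit 57) (nat_lit 5) (nat_lit 61) (nat_lit 5) (nat_lit 58) (nat_lit 5) (nat_lit 367) (nat_lit 348) (nat_lit 185)) (XT.lf (nat_lit 0) (nat_lit 127497144680) (nat_lit 304) (nat_lit 88369135229) (nat_lit 76) (nat_lit 180615134802) (nat_lit 54) (nat_lit 5) (nat_lit 58) (nat_lit 5) (nat_lit 55) (nat_lit 5) (nat_lit 368) (nat_lit 348) (nat_lit 184)))) (XT.nd (nat_lit 78) (nat_lit 456) (nat_lit 0) (XT.lf (nat_lit 0) (nat_lit 253249116138) (nat_lit 304) (nat_lit 159662643829) (nat_lit 76) (nat_lit 3817438200) (nat_lit 51) (nat_lit 5) (nat_lit 55) (nat_lit 5) (nat_lit 52) (nat_lit 5) (nat_lit 369) (nat_lit 348) (nat_lit 183)) (XT.nd (nat_lit 78) (nat_lit 304)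 (nat_lit 0) (XT.lf (nat_lit 0) (nat_lit 197426471569) (nat_lit 152) (nat_lit 199921510652) (nat_lit 228) (nat_lit 40834485307) (nat_lit 49) (nat_lit 5) (nat_lit 51) (nat_lit 5) (nat_lit 52) (nat_lit 5) (nat_lit 370) (nat_lit 348) (nat_lit 182)) (XT.lf (nat_lit 0) (nat_lit 94123957204) (nat_lit 304) (nat_lit 331346345650) (nat_lit 76) (nat_lit 35538486318) (nat_lit 45) (nat_lit 5) (nat_lit 49) (nat_lit 5) (nat_lit 46) (nat_lit 5) (nat_lit 371) (nat_lit 348) (nat_lit 181))))))))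
noncomputable def xc116 : XT := (XT.nd (nat_lit 45708) (nat_lit 0) (nat_lit 836) (XT.nd (nat_lit 858) (nat_lit 380) (nat_lit 0) (XT.nd (nat_lit 390) (nat_lit 608) (nat_lit 0) (XT.nd (nat_lit 156) (nat_lit 532) (nat_lit 0) (XT.nd (nat_lit 78) (nat_lit 0) (nat_lit 0) (XT.lf (nat_lit 0) (nat_lit 50342940949) (nat_lit 152) (nat_lit 196544117286) (nat_lit 228) (nat_lit 238318756253) (nat_lit 43) (nat_lit 5) (nat_lit 45) (nat_lit 5) (nat_lit 46) (nat_lit 5) (nat_lit 372) (nat_lit 348) (nat_lit 180)) (XT.lf (nat_lit 0) (nat_lit 418529077665) (nat_lit 228) (nat_lit 37536656683) (nat_lit 76) (nat_lit 54939974021) (nat_lit 43) (nat_lit 5) (nat_lit 46) (nat_lit 5) (nat_lit 44) (nat_lit 5) (nat_lit 373) (nat_lit 348) (nat_lit 179))) (XT.nd (nat_lit 78) (nat_lit 304) (nat_lit 0) (XT.lf (nat_lit 0) (nat_lit 72684677589) (nat_lit 228) (nat_lit 138464019776) (nat_lit 76) (nat_lit 327183465654) (nat_lit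 40) (nat_lit 5) (nat_lit 43) (nat_lit 5) (nat_lit 41) (nat_lit 5) (nat_lit 374) (nat_lit 348) (nat_lit 178)) (XT.nd (nat_lit 78) (nat_lit 152) (nat_lit 0) (XT.lf (nat_lit 0) (nat_lit 254383622755) (nat_lit 228) (nat_lit 254155699748) (nat_lit 76) (nat_lit 58901377921) (nat_lit 38) (nat_lit 5) (nat_lit 41) (nat_lit 5) (nat_lit 39) (nat_lit 5) (nat_lit 375) (nat_lit 348) (nat_lit 177)) (XT.lf (nat_lit 0) (nat_lit 210498353158) (nat_lit 152) (nat_lit 249418361678) (nat_lit 228) (nat_lit 138496294463) (nat_lit 36) (nat_lit 5) (nat_lit 38) (nat_lit 5) (nat_lit 39) (nat_lit 5) (nat_lit 376) (nat_lit 348) (nat_lit 176))))) (XT.nd (nat_lit 234) (nat_lit 304) (nat_lit 0) (XT.nd (nat_lit 78) (nat_lit 152) (nat_lit 0) (XT.lf (nat_lit 0) (nat_lit 54946986948) (nat_lit 152) (nat_lit 540267982008) (nat_lit 76) (nat_lit 36283134684) (nat_lit 34) (nat_lit 5) (nat_lit 36) (nat_lit 5) (nat_lit 35) (nat_lit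 5) (nat_lit 377) (nat_lit 348) (nat_lit 175)) (XT.nd (nat_lit 78) (nat_lit 152) (nat_lit 0) (XT.lf (nat_lit 0) (nat_lit 270151932420) (nat_lit 152) (nat_lit 50985213983) (nat_lit 76) (nat_lit 345422415752) (nat_lit 34) (nat_lit 5) (nat_lit 36) (nat_lit 5) (nat_lit 35) (nat_lit 5) (nat_lit 378) (nat_lit 348) (nat_lit 174)) (XT.lf (nat_lit 0) (nat_lit 493226375095) (nat_lit 152) (nat_lit 17047471474) (nat_lit 228) (nat_lit 193767062162) (nat_lit 32) (nat_lit 5) (nat_lit 34) (nat_lit 5) (nat_lit 35) (nat_lit 5) (nat_lit 379) (nat_lit 348) (nat_lit 173)))) (XT.nd (nat_lit 78) (nat_lit 152) (nat_lit 0) (XT.lf (nat_lit 0) (nat_lit 35606622306) (nat_lit 152) (nat_lit 400069651946) (nat_lit 76) (nat_lit 308258669637) (nat_lit 30) (nat_lit 5) (nat_lit 32) (nat_lit 5) (nat_lit 31) (nat_lit 5) (nat_lit 380) (nat_lit 348) (nat_lit 172)) (XT.nd (nat_lit 78) (nat_lit 0) (nat_lit 0) (XT.lf (nat_lit 0)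 (nat_lit 165285875685) (nat_lit 152) (nat_lit 117946842630) (nat_lit 228) (nat_lit 503294399570) (nat_lit 28) (nat_lit 5) (nat_lit 30) (nat_lit 5) (nat_lit 31) (nat_lit 5) (nat_lit 381) (nat_lit 348) (nat_lit 171)) (XT.lf (nat_lit 0) (nat_lit 561268054823) (nat_lit 228) (nat_lit 45652393565) (nat_lit 76) (nat_lit 225076259798) (nat_lit 28) (nat_lit 5) (nat_lit 31) (nat_lit 5) (nat_lit 29) (nat_lit 4) (nat_lit 382) (nat_lit 348) (nat_lit 170)))))) (XT.nd (nat_lit 44382) (nat_lit 0) (nat_lit 5928) (XT.nd (nat_lit 234) (nat_lit 0) (nat_lit 0) (XT.nd (nat_lit 78) (nat_lit 304) (nat_lit 0) (XT.lf (nat_lit 0) (nat_lit 592973511671) (nat_lit 76) (nat_lit 279819423538) (nat_lit 152) (nat_lit 7748594675) (nat_lit 27) (nat_lit 5) (nat_lit 28) (nat_lit 5) (nat_lit 29) (nat_lit 4) (nat_lit 383) (nat_lit 348) (nat_lit 169)) (XT.nd (nat_lit 78) (nat_lit 76) (nat_lit 0) (XT.lf (nat_lit 0) (nat_lit 275155994746)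 (nat_lit 228) (nat_lit 575217922853) (nat_lit 76) (nat_lit 81993928033) (nat_lit 24) (nat_lit 5) (nat_lit 27) (nat_lit 5) (nat_lit 25) (nat_lit 4) (nat_lit 384) (nat_lit 348) (nat_lit 168)) (XT.lf (nat_lit 0) (nat_lit 73030752816) (nat_lit 76) (nat_lit 518344147763) (nat_lit 152) (nat_lit 396411343660) (nat_lit 23) (nat_lit 5) (nat_lit 24) (nat_lit 5) (nat_lit 25) (nat_lit 4) (nat_lit 385) (nat_lit 348) (nat_lit 167)))) (XT.nd (nat_lit 43992) (nat_lit 0) (nat_lit 5852) (XT.lf (nat_lit 0) (nat_lit 793680070989) (nat_lit 76) (nat_lit 149231119072) (nat_lit 152) (nat_lit 104225931130) (nat_lit 23) (nat_lit 5) (nat_lit 24) (nat_lit 5) (nat_lit 25) (nat_lit 4) (nat_lit 386) (nat_lit 348) (nat_lit 166)) (XT.nd (nat_lit 78) (nat_lit 0) (nat_lit 76) (XT.lf (nat_lit 0) (nat_lit 9645640872) (nat_lit 836) (nat_lit 39421897869) (nat_lit 836) (nat_lit 39421897869) (nat_lit 100) (nat_lit 3) (nat_lit 111)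 (nat_lit 3) (nat_lit 111) (nat_lit 5) (nat_lit 349) (nat_lit 349) (nat_lit 202)) (XT.lf (nat_lit 0) (nat_lit 21517053428) (nat_lit 760) (nat_lit 127631122131) (nat_lit 836) (nat_lit 34837143222) (nat_lit 101) (nat_lit 5) (nat_lit 111) (nat_lit 5) (nat_lit 112) (nat_lit 5) (nat_lit 350) (nat_lit 349) (nat_lit 201))))) (XT.nd (nat_lit 234) (nat_lit 0) (nat_lit 228) (XT.nd (nat_lit 78) (nat_lit 0) (nat_lit 76) (XT.lf (nat_lit 76) (nat_lit 12419979740) (nat_lit 0) (nat_lit 14745159595) (nat_lit 836) (nat_lit 164224928361) (nat_lit 102) (nat_lit 5) (nat_lit 101) (nat_lit 5) (nat_lit 112) (nat_lit 5) (nat_lit 351) (nat_lit 349) (nat_lit 200)) (XT.nd (nat_lit 78) (nat_lit 0) (nat_lit 76) (XT.lf (nat_lit 0) (nat_lit 37560542435) (nat_lit 760) (nat_lit 33115911456) (nat_lit 836) (nat_lit 128495969428) (nat_lit 102) (nat_lit 5) (nat_lit 112) (nat_lit 5) (nat_lit 113) (nat_lit 5) (nat_lit 352) (nat_lit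 349) (nat_lit 199)) (XT.lf (nat_lit 0) (nat_lit 52244170753) (nat_lit 760) (nat_lit 80407512749) (nat_lit 836) (nat_lit 74752854527) (nat_lit 103) (nat_lit 5) (nat_lit 113) (nat_lit 5) (nat_lit 114) (nat_lit 5) (nat_lit 353) (nat_lit 349) (nat_lit 198)))) (XT.nd (nat_lit 78) (nat_lit 0) (nat_lit 0) (XT.lf (nat_lit 0) (nat_lit 71466059891) (nat_lit 760) (nat_lit 129976624901) (nat_lit 836) (nat_lit 14684358862) (nat_lit 104) (nat_lit 5) (nat_lit 114) (nat_lit 5) (nat_lit 115) (nat_lit 5) (nat_lit 354) (nat_lit 349) (nat_lit 197)) (XT.nd (nat_lit 78) (nat_lit 0) (nat_lit 76) (XT.lf (nat_lit 76) (nat_lit 42528256555) (nat_lit 0) (nat_lit 54021549156) (nat_lit 836) (nat_lit 128781338988) (nat_lit 105) (nat_lit 5) (nat_lit 104) (nat_lit 5) (nat_lit 115) (nat_lit 5) (nat_lit 355) (nat_lit 349) (nat_lit 196)) (XT.lf (nat_lit 0) (nat_lit 127583615961) (nat_lit 760) (nat_lit 3363094203) (nat_lit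 76) (nat_lit 104127695652) (nat_lit 105) (nat_lit 5) (nat_lit 115) (nat_lit 5) (nat_lit 106) (nat_lit 5) (nat_lit 356) (nat_lit 349) (nat_lit 195))))))) (XT.nd (nat_lit 858) (nat_lit 1824) (nat_lit 0) (XT.nd (nat_lit 390) (nat_lit 1368) (nat_lit 0) (XT.nd (nat_lit 156) (nat_lit 1064) (nat_lit 0) (XT.nd (nat_lit 78) (nat_lit 380) (nat_lit 0) (XT.lf (nat_lit 0) (nat_lit 165547232961) (nat_lit 836) (nat_lit 50091162716) (nat_lit 76) (nat_lit 29736377260) (nat_lit 95) (nat_lit 5) (nat_lit 106) (nat_lit 5) (nat_lit 96) (nat_lit 5) (nat_lit 357) (nat_lit 349) (nat_lit 194)) (XT.lf (nat_lit 0) (nat_lit 156237328186) (nat_lit 380) (nat_lit 55017264401) (nat_lit 456) (nat_lit 45009244374) (nat_lit 90) (nat_lit 5) (nat_lit 95) (nat_lit 5) (nat_lit 96) (nat_lit 5) (nat_lit 358) (nat_lit 349) (nat_lit 193))) (XT.nd (nat_lit 78) (nat_lit 760) (nat_lit 0) (XT.lf (nat_lit 0) (nat_lit 114687263930) (nat_lit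 304) (nat_lit 150457936840) (nat_lit 380) (nat_lit 2652492528) (nat_lit 86) (nat_lit 5) (nat_lit 90) (nat_lit 5) (nat_lit 91) (nat_lit 5) (nat_lit 359) (nat_lit 349) (nat_lit 192)) (XT.nd (nat_lit 78) (nat_lit 304) (nat_lit 0) (XT.lf (nat_lit 0) (nat_lit 45906387477) (nat_lit 456) (nat_lit 209808684659) (nat_lit 76) (nat_lit 24295904862) (nat_lit 80) (nat_lit 5) (nat_lit 86) (nat_lit 5) (nat_lit 81) (nat_lit 5) (nat_lit 360) (nat_lit 349) (nat_lit 191)) (XT.lf (nat_lit 0) (nat_lit 21853402114) (nat_lit 304) (nat_lit 81993719704) (nat_lit 380) (nat_lit 189072523832) (nat_lit 76) (nat_lit 5) (nat_lit 80) (nat_lit 5) (nat_lit 81) (nat_lit 5) (nat_lit 361) (nat_lit 349) (nat_lit 190))))) (XT.nd (nat_lit 234) (nat_lit 760) (nat_lit 0) (XT.nd (nat_lit 78) (nat_lit 608) (nat_lit 0) (XT.lf (nat_lit 0) (nat_lit 171786712944) (nat_lit 380) (nat_lit 28846821273) (nat_lit 76) (nat_lit 105959293812)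 (nat_lit 76) (nat_lit 5) (nat_lit 81) (nat_lit 5) (nat_lit 77) (nat_lit 5) (nat_lit 362) (nat_lit 349) (nat_lit 189)) (XT.nd (nat_lit 78) (nat_lit 304) (nat_lit 0) (XT.lf (nat_lit 0) (nat_lit 239017471237) (nat_lit 304) (nat_lit 11258152963) (nat_lit 380) (nat_lit 70828533282) (nat_lit 72) (nat_lit 5) (nat_lit 76) (nat_lit 5) (nat_lit 77) (nat_lit 5) (nat_lit 363) (nat_lit 349) (nat_lit 188)) (XT.lf (nat_lit 0) (nat_lit 5016193338) (nat_lit 304) (nat_lit 140696287545) (nat_lit 76) (nat_lit 190730591190) (nat_lit 68) (nat_lit 5) (nat_lit 72) (nat_lit 5) (nat_lit 69) (nat_lit 5) (nat_lit 364) (nat_lit 349) (nat_lit 187)))) (XT.nd (nat_lit 78) (nat_lit 456) (nat_lit 0) (XT.lf (nat_lit 0) (nat_lit 89400075558) (nat_lit 380) (nat_lit 204531560798) (nat_lit 76) (nat_lit 58771754192) (nat_lit 64) (nat_lit 5) (nat_lit 69) (nat_lit 5) (nat_lit 65) (nat_lit 5) (nat_lit 365) (nat_lit 349) (nat_lit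 186)) (XT.nd (nat_lit 78) (nat_lit 228) (nat_lit 0) (XT.lf (nat_lit 0) (nat_lit 95593902640) (nat_lit 228) (nat_lit 91381125211) (nat_lit 304) (nat_lit 182967488771) (nat_lit 61) (nat_lit 5) (nat_lit 64) (nat_lit 5) (nat_lit 65) (nat_lit 5) (nat_lit 366) (nat_lit 349) (nat_lit 185)) (XT.lf (nat_lit 0) (nat_lit 37813570425) (nat_lit 228) (nat_lit 260742534389) (nat_lit 304) (nat_lit 89694661632) (nat_lit 58) (nat_lit 5) (nat_lit 61) (nat_lit 5) (nat_lit 62) (nat_lit 5) (nat_lit 367) (nat_lit 349) (nat_lit 184)))))) (XT.nd (nat_lit 468) (nat_lit 684) (nat_lit 0) (XT.nd (nat_lit 234) (nat_lit 608) (nat_lit 0) (XT.nd (nat_lit 78) (nat_lit 456) (nat_lit 0) (XT.lf (nat_lit 0) (nat_lit 17084701802) (nat_lit 304) (nat_lit 24830819814) (nat_lit 76) (nat_lit 365779633517) (nat_lit 57) (nat_lit 5) (nat_lit 61) (nat_lit 5) (nat_lit 58) (nat_lit 5) (nat_lit 368) (nat_lit 349) (nat_lit 183)) (XT.nd (nat_lit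 78) (nat_lit 228) (nat_lit 0) (XT.lf (nat_lit 0) (nat_lit 137699029507) (nat_lit 304) (nat_lit 95435575349) (nat_lit 76) (nat_lit 195065215956) (nat_lit 54) (nat_lit 5) (nat_lit 58) (nat_lit 5) (nat_lit 55) (nat_lit 5) (nat_lit 369) (nat_lit 349) (nat_lit 182)) (XT.lf (nat_lit 0) (nat_lit 273511063189) (nat_lit 304) (nat_lit 172432612389) (nat_lit 76) (nat_lit 4123756246) (nat_lit 51) (nat_lit 5) (nat_lit 55) (nat_lit 5) (nat_lit 52) (nat_lit 5) (nat_lit 370) (nat_lit 349) (nat_lit 181)))) (XT.nd (nat_lit 78) (nat_lit 456) (nat_lit 0) (XT.lf (nat_lit 0) (nat_lit 213223499998) (nat_lit 152) (nat_lit 215914234541) (nat_lit 228) (nat_lit 44099233492) (nat_lit 49) (nat_lit 5) (nat_lit 51) (nat_lit 5) (nat_lit 52) (nat_lit 5) (nat_lit 371) (nat_lit 349) (nat_lit 180)) (XT.nd (nat_lit 78) (nat_lit 152) (nat_lit 0) (XT.lf (nat_lit 0) (nat_lit 101655735962) (nat_lit 304) (nat_lit 357851128655) (nat_lit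 76) (nat_lit 38382533511) (nat_lit 45) (nat_lit 5) (nat_lit 49) (nat_lit 5) (nat_lit 46) (nat_lit 5) (nat_lit 372) (nat_lit 349) (nat_lit 179)) (XT.lf (nat_lit 0) (nat_lit 54373173771) (nat_lit 152) (nat_lit 212266617043) (nat_lit 228) (nat_lit 257382399448) (nat_lit 43) (nat_lit 5) (nat_lit 45) (nat_lit 5) (nat_lit 46) (nat_lit 5) (nat_lit 373) (nat_lit 349) (nat_lit 178))))) (XT.nd (nat_lit 234) (nat_lit 304) (nat_lit 0) (XT.nd (nat_lit 78) (nat_lit 380) (nat_lit 0) (XT.lf (nat_lit 0) (nat_lit 452013055726) (nat_lit 228) (nat_lit 40536931018) (nat_lit 76) (nat_lit 59336094786) (nat_lit 43) (nat_lit 5) (nat_lit 46) (nat_lit 5) (nat_lit 44) (nat_lit 5) (nat_lit 374) (nat_lit 349) (nat_lit 177)) (XT.nd (nat_lit 78) (nat_lit 152) (nat_lit 0) (XT.lf (nat_lit 0) (nat_lit 78501047529) (nat_lit 228) (nat_lit 149538545111) (nat_lit 76) (nat_lit 353359062826) (nat_lit 40) (nat_lit 5) (nat_lit 43)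 (nat_lit 5) (nat_lit 41) (nat_lit 5) (nat_lit 375) (nat_lit 349) (nat_lit 176)) (XT.lf (nat_lit 0) (nat_lit 274735843978) (nat_lit 228) (nat_lit 274485610847) (nat_lit 76) (nat_lit 63614424316) (nat_lit 38) (nat_lit 5) (nat_lit 41) (nat_lit 5) (nat_lit 39) (nat_lit 5) (nat_lit 376) (nat_lit 349) (nat_lit 175)))) (XT.nd (nat_lit 78) (nat_lit 152) (nat_lit 0) (XT.lf (nat_lit 0) (nat_lit 227340655695) (nat_lit 152) (nat_lit 269370852300) (nat_lit 228) (nat_lit 149574468558) (nat_lit 36) (nat_lit 5) (nat_lit 38) (nat_lit 5) (nat_lit 39) (nat_lit 5) (nat_lit 377) (nat_lit 349) (nat_lit 174)) (XT.nd (nat_lit 78) (nat_lit 0) (nat_lit 0) (XT.lf (nat_lit 0) (nat_lit 59344168955) (nat_lit 152) (nat_lit 583486988726) (nat_lit 76) (nat_lit 39186722487) (nat_lit 34) (nat_lit 5) (nat_lit 36) (nat_lit 5) (nat_lit 35) (nat_lit 5) (nat_lit 378) (nat_lit 349) (nat_lit 173)) (XT.lf (nat_lit 0) (nat_lit 291765404653)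 (nat_lit 152) (nat_lit 55061779396) (nat_lit 76) (nat_lit 373057076631) (nat_lit 34) (nat_lit 5) (nat_lit 36) (nat_lit 5) (nat_lit 35) (nat_lit 5) (nat_lit 379) (nat_lit 349) (nat_lit 172))))))))
noncomputable def xc117 : XT := (XT.nd (nat_lit 45864) (nat_lit 0) (nat_lit 228) (XT.nd (nat_lit 44928) (nat_lit 0) (nat_lit 3040) (XT.nd (nat_lit 390) (nat_lit 228) (nat_lit 0) (XT.nd (nat_lit 156) (nat_lit 228) (nat_lit 0) (XT.nd (nat_lit 78) (nat_lit 152) (nat_lit 0) (XT.lf (nat_lit 0) (nat_lit 532686638953) (nat_lit 152) (nat_lit 18410369007) (nat_lit 228) (nat_lit 209267110263) (nat_lit 32) (nat_lit 5) (nat_lit 34) (nat_lit 5) (nat_lit 35) (nat_lit 5) (nat_lit 380) (nat_lit 349) (nat_lit 171)) (XT.lf (nat_lit 0) (nat_lit 38456379056) (nat_lit 152) (nat_lit 432073075808) (nat_lit 76) (nat_lit 332920222726) (nat_lit 30) (nat_lit 5) (nat_lit 32) (nat_lit 5) (nat_lit 31) (nat_lit 5) (nat_lit 381)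 (nat_lit 349) (nat_lit 170))) (XT.nd (nat_lit 78) (nat_lit 76) (nat_lit 0) (XT.lf (nat_lit 0) (nat_lit 178510800671) (nat_lit 152) (nat_lit 127381703272) (nat_lit 228) (nat_lit 543556724537) (nat_lit 28) (nat_lit 5) (nat_lit 30) (nat_lit 5) (nat_lit 31) (nat_lit 5) (nat_lit 382) (nat_lit 349) (nat_lit 169)) (XT.nd (nat_lit 78) (nat_lit 76) (nat_lit 0) (XT.lf (nat_lit 0) (nat_lit 606170593661) (nat_lit 228) (nat_lit 49302640678) (nat_lit 76) (nat_lit 243083155384) (nat_lit 28) (nat_lit 5) (nat_lit 31) (nat_lit 5) (nat_lit 29) (nat_lit 4) (nat_lit 383) (nat_lit 349) (nat_lit 168)) (XT.lf (nat_lit 0) (nat_lit 640413252476) (nat_lit 76) (nat_lit 302204159968) (nat_lit 152) (nat_lit 8367387342) (nat_lit 27) (nat_lit 5) (nat_lit 28) (nat_lit 5) (nat_lit 29) (nat_lit 4) (nat_lit 384) (nat_lit 349) (nat_lit 167))))) (XT.nd (nat_lit 44304) (nat_lit 0) (nat_lit 5852) (XT.nd (nat_lit 44148) (nat_lit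 0) (nat_lit 5776) (XT.lf (nat_lit 0) (nat_lit 297169496525) (nat_lit 228) (nat_lit 621233505517) (nat_lit 76) (nat_lit 88554219808) (nat_lit 24) (nat_lit 5) (nat_lit 27) (nat_lit 5) (nat_lit 25) (nat_lit 4) (nat_lit 385) (nat_lit 349) (nat_lit 166)) (XT.nd (nat_lit 78) (nat_lit 0) (nat_lit 76) (XT.lf (nat_lit 0) (nat_lit 10420388600) (nat_lit 836) (nat_lit 42574022424) (nat_lit 836) (nat_lit 42574022424) (nat_lit 100) (nat_lit 3) (nat_lit 111) (nat_lit 3) (nat_lit 111) (nat_lit 5) (nat_lit 350) (nat_lit 350) (nat_lit 200)) (XT.lf (nat_lit 0) (nat_lit 23244158808) (nat_lit 760) (nat_lit 137838161917) (nat_lit 836) (nat_lit 37621530451) (nat_lit 101) (nat_lit 5) (nat_lit 111) (nat_lit 5) (nat_lit 112) (nat_lit 5) (nat_lit 351) (nat_lit 350) (nat_lit 199)))) (XT.nd (nat_lit 78) (nat_lit 0) (nat_lit 76) (XT.lf (nat_lit 76) (nat_lit 13416878172) (nat_lit 0) (nat_lit 15926839672) (nat_lit 836)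 (nat_lit 177357281295) (nat_lit 102) (nat_lit 5) (nat_lit 101) (nat_lit 5) (nat_lit 112) (nat_lit 5) (nat_lit 352) (nat_lit 350) (nat_lit 198)) (XT.nd (nat_lit 78) (nat_lit 0) (nat_lit 76) (XT.lf (nat_lit 0) (nat_lit 40570325723) (nat_lit 760) (nat_lit 35761845204) (nat_lit 836) (nat_lit 138773794073) (nat_lit 102) (nat_lit 5) (nat_lit 112) (nat_lit 5) (nat_lit 113) (nat_lit 5) (nat_lit 353) (nat_lit 350) (nat_lit 197)) (XT.lf (nat_lit 0) (nat_lit 56428305933) (nat_lit 760) (nat_lit 86836661396) (nat_lit 836) (nat_lit 80731698860) (nat_lit 103) (nat_lit 5) (nat_lit 113) (nat_lit 5) (nat_lit 114) (nat_lit 5) (nat_lit 354) (nat_lit 350) (nat_lit 196)))))) (XT.nd (nat_lit 468) (nat_lit 1672) (nat_lit 0) (XT.nd (nat_lit 234) (nat_lit 1368) (nat_lit 0) (XT.nd (nat_lit 78) (nat_lit 0) (nat_lit 0) (XT.lf (nat_lit 0) (nat_lit 77187641141) (nat_lit 760) (nat_lit 140371216728) (nat_lit 836) (nat_lit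 15858130005) (nat_lit 104) (nat_lit 5) (nat_lit 114) (nat_lit 5) (nat_lit 115) (nat_lit 5) (nat_lit 355) (nat_lit 350) (nat_lit 195)) (XT.nd (nat_lit 78) (nat_lit 0) (nat_lit 76) (XT.lf (nat_lit 76) (nat_lit 45933901479) (nat_lit 0) (nat_lit 58343919731) (nat_lit 836) (nat_lit 139079609393) (nat_lit 105) (nat_lit 5) (nat_lit 104) (nat_lit 5) (nat_lit 115) (nat_lit 5) (nat_lit 356) (nat_lit 350) (nat_lit 194)) (XT.lf (nat_lit 0) (nat_lit 137794028336) (nat_lit 760) (nat_lit 3628808251) (nat_lit 76) (nat_lit 112457331725) (nat_lit 105) (nat_lit 5) (nat_lit 115) (nat_lit 5) (nat_lit 106) (nat_lit 5) (nat_lit 357) (nat_lit 350) (nat_lit 193)))) (XT.nd (nat_lit 78) (nat_lit 684) (nat_lit 0) (XT.lf (nat_lit 0) (nat_lit 178794503879) (nat_lit 836) (nat_lit 54095083911) (nat_lit 76) (nat_lit 32114988837) (nat_lit 95) (nat_lit 5) (nat_lit 106) (nat_lit 5) (nat_lit 96) (nat_lit 5) (nat_lit 358) (nat_lit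 350) (nat_lit 192)) (XT.nd (nat_lit 78) (nat_lit 304) (nat_lit 0) (XT.lf (nat_lit 0) (nat_lit 168739539728) (nat_lit 380) (nat_lit 59418704215) (nat_lit 456) (nat_lit 48606532507) (nat_lit 90) (nat_lit 5) (nat_lit 95) (nat_lit 5) (nat_lit 96) (nat_lit 5) (nat_lit 359) (nat_lit 350) (nat_lit 191)) (XT.lf (nat_lit 0) (nat_lit 123865491231) (nat_lit 304) (nat_lit 162494416129) (nat_lit 380) (nat_lit 2861443848) (nat_lit 86) (nat_lit 5) (nat_lit 90) (nat_lit 5) (nat_lit 91) (nat_lit 5) (nat_lit 360) (nat_lit 350) (nat_lit 190))))) (XT.nd (nat_lit 234) (nat_lit 912) (nat_lit 0) (XT.nd (nat_lit 78) (nat_lit 304) (nat_lit 0) (XT.lf (nat_lit 0) (nat_lit 49581863616) (nat_lit 456) (nat_lit 226590025227) (nat_lit 76) (nat_lit 26239815388) (nat_lit 80) (nat_lit 5) (nat_lit 86) (nat_lit 5) (nat_lit 81) (nat_lit 5) (nat_lit 361) (nat_lit 350) (nat_lit 189)) (XT.nd (nat_lit 78) (nat_lit 0) (nat_lit 0)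 (XT.lf (nat_lit 0) (nat_lit 23604882718) (nat_lit 304) (nat_lit 88552804439) (nat_lit 380) (nat_lit 204195387893) (nat_lit 76) (nat_lit 5) (nat_lit 80) (nat_lit 5) (nat_lit 81) (nat_lit 5) (nat_lit 362) (nat_lit 350) (nat_lit 188)) (XT.lf (nat_lit 0) (nat_lit 185532244460) (nat_lit 380) (nat_lit 31151470455) (nat_lit 76) (nat_lit 114436407343) (nat_lit 76) (nat_lit 5) (nat_lit 81) (nat_lit 5) (nat_lit 77) (nat_lit 5) (nat_lit 363) (nat_lit 350) (nat_lit 187)))) (XT.nd (nat_lit 78) (nat_lit 608) (nat_lit 0) (XT.lf (nat_lit 0) (nat_lit 258141830885) (nat_lit 304) (nat_lit 12158291793) (nat_lit 380) (nat_lit 76492242857) (nat_lit 72) (nat_lit 5) (nat_lit 76) (nat_lit 5) (nat_lit 77) (nat_lit 5) (nat_lit 364) (nat_lit 350) (nat_lit 186)) (XT.nd (nat_lit 78) (nat_lit 304) (nat_lit 0) (XT.lf (nat_lit 0) (nat_lit 5419849312) (nat_lit 304) (nat_lit 151948965937) (nat_lit 76) (nat_lit 205989582696)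 (nat_lit 68) (nat_lit 5) (nat_lit 72) (nat_lit 5) (nat_lit 69) (nat_lit 5) (nat_lit 365) (nat_lit 350) (nat_lit 185)) (XT.lf (nat_lit 0) (nat_lit 96554322769) (nat_lit 380) (nat_lit 220891089566) (nat_lit 76) (nat_lit 63474135668) (nat_lit 64) (nat_lit 5) (nat_lit 69) (nat_lit 5) (nat_lit 65) (nat_lit 5) (nat_lit 366) (nat_lit 350) (nat_lit 184))))))) (XT.nd (nat_lit 936) (nat_lit 684) (nat_lit 0) (XT.nd (nat_lit 468) (nat_lit 988) (nat_lit 0) (XT.nd (nat_lit 234) (nat_lit 608) (nat_lit 0) (XT.nd (nat_lit 78) (nat_lit 304) (nat_lit 0) (XT.lf (nat_lit 0) (nat_lit 103244280741) (nat_lit 228) (nat_lit 98690869236) (nat_lit 304) (nat_lit 197602660377) (nat_lit 61) (nat_lit 5) (nat_lit 64) (nat_lit 5) (nat_lit 65) (nat_lit 5) (nat_lit 367) (nat_lit 350) (nat_lit 183)) (XT.nd (nat_lit 78) (nat_lit 76) (nat_lit 0) (XT.lf (nat_lit 0) (nat_lit 40841489181) (nat_lit 228) (nat_lit 281601121904) (nat_lit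 304) (nat_lit 96868114298) (nat_lit 58) (nat_lit 5) (nat_lit 61) (nat_lit 5) (nat_lit 62) (nat_lit 5) (nat_lit 368) (nat_lit 350) (nat_lit 182)) (XT.lf (nat_lit 0) (nat_lit 18453378318) (nat_lit 304) (nat_lit 26814597994) (nat_lit 76) (nat_lit 395042694904) (nat_lit 57) (nat_lit 5) (nat_lit 61) (nat_lit 5) (nat_lit 58) (nat_lit 5) (nat_lit 369) (nat_lit 350) (nat_lit 181)))) (XT.nd (nat_lit 78) (nat_lit 380) (nat_lit 0) (XT.lf (nat_lit 0) (nat_lit 148716763642) (nat_lit 304) (nat_lit 103067771600) (nat_lit 76) (nat_lit 210671179434) (nat_lit 54) (nat_lit 5) (nat_lit 58) (nat_lit 5) (nat_lit 55) (nat_lit 5) (nat_lit 370) (nat_lit 350) (nat_lit 180)) (XT.nd (nat_lit 78) (nat_lit 152) (nat_lit 0) (XT.lf (nat_lit 0) (nat_lit 295393678149) (nat_lit 304) (nat_lit 186224612544) (nat_lit 76) (nat_lit 4454448060) (nat_lit 51) (nat_lit 5) (nat_lit 55) (nat_lit 5) (nat_lit 52) (nat_lit 5) (nat_lit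 371) (nat_lit 350) (nat_lit 179)) (XT.lf (nat_lit 0) (nat_lit 230283875457) (nat_lit 152) (nat_lit 233186518570) (nat_lit 228) (nat_lit 47625448372) (nat_lit 49) (nat_lit 5) (nat_lit 51) (nat_lit 5) (nat_lit 52) (nat_lit 5) (nat_lit 372) (nat_lit 350) (nat_lit 178))))) (XT.nd (nat_lit 234) (nat_lit 532) (nat_lit 0) (XT.nd (nat_lit 78) (nat_lit 152) (nat_lit 0) (XT.lf (nat_lit 0) (nat_lit 109789791360) (nat_lit 304) (nat_lit 386476711534) (nat_lit 76) (nat_lit 41453966342) (nat_lit 45) (nat_lit 5) (nat_lit 49) (nat_lit 5) (nat_lit 46) (nat_lit 5) (nat_lit 373) (nat_lit 350) (nat_lit 177)) (XT.nd (nat_lit 78) (nat_lit 0) (nat_lit 0) (XT.lf (nat_lit 0) (nat_lit 58725426117) (nat_lit 152) (nat_lit 229247063669) (nat_lit 228) (nat_lit 277971399063) (nat_lit 43) (nat_lit 5) (nat_lit 45) (nat_lit 5) (nat_lit 46) (nat_lit 5) (nat_lit 374) (nat_lit 350) (nat_lit 176)) (XT.lf (nat_lit 0) (nat_lit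 488175516378) (nat_lit 228) (nat_lit 43777606522) (nat_lit 76) (nat_lit 64083773558) (nat_lit 43) (nat_lit 5) (nat_lit 46) (nat_lit 5) (nat_lit 44) (nat_lit 5) (nat_lit 375) (nat_lit 350) (nat_lit 175)))) (XT.nd (nat_lit 78) (nat_lit 304) (nat_lit 0) (XT.lf (nat_lit 0) (nat_lit 84782499415) (nat_lit 228) (nat_lit 161499402856) (nat_lit 76) (nat_lit 381628576536) (nat_lit 40) (nat_lit 5) (nat_lit 43) (nat_lit 5) (nat_lit 41) (nat_lit 5) (nat_lit 376) (nat_lit 350) (nat_lit 174)) (XT.nd (nat_lit 78) (nat_lit 152) (nat_lit 0) (XT.lf (nat_lit 0) (nat_lit 296716024427) (nat_lit 228) (nat_lit 296442277889) (nat_lit 76) (nat_lit 68704380868) (nat_lit 38) (nat_lit 5) (nat_lit 41) (nat_lit 5) (nat_lit 39) (nat_lit 5) (nat_lit 377) (nat_lit 350) (nat_lit 173)) (XT.lf (nat_lit 0) (nat_lit 245529995156) (nat_lit 152) (nat_lit 290919681739) (nat_lit 228) (nat_lit 161539114775) (nat_lit 36) (nat_lit 5)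 (nat_lit 38) (nat_lit 5) (nat_lit 39) (nat_lit 5) (nat_lit 378) (nat_lit 350) (nat_lit 172)))))) (XT.nd (nat_lit 468) (nat_lit 76) (nat_lit 0) (XT.nd (nat_lit 234) (nat_lit 304) (nat_lit 0) (XT.nd (nat_lit 78) (nat_lit 152) (nat_lit 0) (XT.lf (nat_lit 0) (nat_lit 64092922508) (nat_lit 152) (nat_lit 630163862910) (nat_lit 76) (nat_lit 42322463637) (nat_lit 34) (nat_lit 5) (nat_lit 36) (nat_lit 5) (nat_lit 35) (nat_lit 5) (nat_lit 379) (nat_lit 350) (nat_lit 171)) (XT.nd (nat_lit 78) (nat_lit 152) (nat_lit 0) (XT.lf (nat_lit 0) (nat_lit 315107766690) (nat_lit 152) (nat_lit 59464791272) (nat_lit 76) (nat_lit 402902386605) (nat_lit 34) (nat_lit 5) (nat_lit 36) (nat_lit 5) (nat_lit 35) (nat_lit 5) (nat_lit 380) (nat_lit 350) (nat_lit 170)) (XT.lf (nat_lit 0) (nat_lit 575303416648) (nat_lit 152) (nat_lit 19882426764) (nat_lit 228) (nat_lit 226007350079) (nat_lit 32) (nat_lit 5) (nat_lit 34) (nat_lit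 5) (nat_lit 35) (nat_lit 5) (nat_lit 381) (nat_lit 350) (nat_lit 169)))) (XT.nd (nat_lit 78) (nat_lit 152) (nat_lit 0) (XT.lf (nat_lit 0) (nat_lit 41533941306) (nat_lit 152) (nat_lit 466637080057) (nat_lit 76) (nat_lit 359554577442) (nat_lit 30) (nat_lit 5) (nat_lit 32) (nat_lit 5) (nat_lit 31) (nat_lit 5) (nat_lit 382) (nat_lit 350) (nat_lit 168)) (XT.nd (nat_lit 78) (nat_lit 0) (nat_lit 0) (XT.lf (nat_lit 0) (nat_lit 192793426497) (nat_lit 152) (nat_lit 137571479273) (nat_lit 228) (nat_lit 587040210547) (nat_lit 28) (nat_lit 5) (nat_lit 30) (nat_lit 5) (nat_lit 31) (nat_lit 5) (nat_lit 383) (nat_lit 350) (nat_lit 167)) (XT.lf (nat_lit 0) (nat_lit 654665179469) (nat_lit 228) (nat_lit 53245184947) (nat_lit 76) (nat_lit 262530489229) (nat_lit 28) (nat_lit 5) (nat_lit 31) (nat_lit 5) (nat_lit 29) (nat_lit 4) (nat_lit 384) (nat_lit 350) (nat_lit 166))))) (XT.nd (nat_lit 44382) (nat_lit 0) (nat_lit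 5624) (XT.nd (nat_lit 44226) (nat_lit 0) (nat_lit 5548) (XT.lf (nat_lit 0) (nat_lit 691647907215) (nat_lit 76) (nat_lit 326379791931) (nat_lit 152) (nat_lit 9035839624) (nat_lit 27) (nat_lit 5) (nat_lit 28) (nat_lit 5) (nat_lit 29) (nat_lit 4) (nat_lit 385) (nat_lit 350) (nat_lit 165)) (XT.nd (nat_lit 78) (nat_lit 0) (nat_lit 76) (XT.lf (nat_lit 0) (nat_lit 11256674402) (nat_lit 836) (nat_lit 45978549092) (nat_lit 836) (nat_lit 45978549092) (nat_lit 100) (nat_lit 3) (nat_lit 111) (nat_lit 3) (nat_lit 111) (nat_lit 5) (nat_lit 351) (nat_lit 351) (nat_lit 198)) (XT.lf (nat_lit 0) (nat_lit 25108613585) (nat_lit 760) (nat_lit 148862257064) (nat_lit 836) (nat_lit 40629037327) (nat_lit 101) (nat_lit 5) (nat_lit 111) (nat_lit 5) (nat_lit 112) (nat_lit 5) (nat_lit 352) (nat_lit 351) (nat_lit 197)))) (XT.nd (nat_lit 78) (nat_lit 0) (nat_lit 76) (XT.lf (nat_lit 76) (nat_lit 14493057689) (nat_lit 0)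 (nat_lit 17202759230) (nat_lit 836) (nat_lit 191541027264) (nat_lit 102) (nat_lit 5) (nat_lit 101) (nat_lit 5) (nat_lit 112) (nat_lit 5) (nat_lit 353) (nat_lit 351) (nat_lit 196)) (XT.nd (nat_lit 78) (nat_lit 0) (nat_lit 76) (XT.lf (nat_lit 0) (nat_lit 43820186943) (nat_lit 760) (nat_lit 38619930021) (nat_lit 836) (nat_lit 149874109028) (nat_lit 102) (nat_lit 5) (nat_lit 112) (nat_lit 5) (nat_lit 113) (nat_lit 5) (nat_lit 354) (nat_lit 351) (nat_lit 195)) (XT.lf (nat_lit 0) (nat_lit 60946515470) (nat_lit 760) (nat_lit 93780634455) (nat_lit 836) (nat_lit 87189048187) (nat_lit 103) (nat_lit 5) (nat_lit 113) (nat_lit 5) (nat_lit 114) (nat_lit 5) (nat_lit 355) (nat_lit 351) (nat_lit 194))))))))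
noncomputable def xc118 : XT := (XT.nd (nat_lit 1794) (nat_lit 760) (nat_lit 0) (XT.nd (nat_lit 858) (nat_lit 2280) (nat_lit 0) (XT.nd (nat_lit 390) (nat_lit 1672) (nat_lit 0) (XT.nd (nat_lit 156) (nat_lit 1064) (nat_lit 0) (XT.nd (nat_lit 78) (nat_lit 0) (nat_lit 0) (XT.lf (nat_lit 0) (nat_lit 83366335953) (nat_lit 760) (nat_lit 151597880661) (nat_lit 836) (nat_lit 17125942300) (nat_lit 104) (nat_lit 5) (nat_lit 114) (nat_lit 5) (nat_lit 115) (nat_lit 5) (nat_lit 356) (nat_lit 351) (nat_lit 193)) (XT.lf (nat_lit 76) (nat_lit 49611515175) (nat_lit 0) (nat_lit 63011987701) (nat_lit 836) (nat_lit 150202345845) (nat_lit 105) (nat_lit 5) (nat_lit 104) (nat_lit 5) (nat_lit 115) (nat_lit 5) (nat_lit 357) (nat_lit 351) (nat_lit 192))) (XT.nd (nat_lit 78) (nat_lit 1140) (nat_lit 0) (XT.lf (nat_lit 0) (nat_lit 148820742560) (nat_lit 760) (nat_lit 3916254981) (nat_lit 76) (nat_lit 121453421367) (nat_lit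 105) (nat_lit 5) (nat_lit 115) (nat_lit 5) (nat_lit 106) (nat_lit 5) (nat_lit 358) (nat_lit 351) (nat_lit 191)) (XT.nd (nat_lit 78) (nat_lit 380) (nat_lit 0) (XT.lf (nat_lit 0) (nat_lit 193101058257) (nat_lit 836) (nat_lit 58419799830) (nat_lit 76) (nat_lit 34683931938) (nat_lit 95) (nat_lit 5) (nat_lit 106) (nat_lit 5) (nat_lit 96) (nat_lit 5) (nat_lit 359) (nat_lit 351) (nat_lit 190)) (XT.lf (nat_lit 0) (nat_lit 182241468070) (nat_lit 380) (nat_lit 64172250845) (nat_lit 456) (nat_lit 52492096074) (nat_lit 90) (nat_lit 5) (nat_lit 95) (nat_lit 5) (nat_lit 96) (nat_lit 5) (nat_lit 360) (nat_lit 351) (nat_lit 189))))) (XT.nd (nat_lit 234) (nat_lit 608) (nat_lit 0) (XT.nd (nat_lit 78) (nat_lit 760) (nat_lit 0) (XT.lf (nat_lit 0) (nat_lit 133777513610) (nat_lit 304) (nat_lit 175493835967) (nat_lit 380) (nat_lit 3087574649) (nat_lit 86) (nat_lit 5) (nat_lit 90) (nat_lit 5) (nat_lit 91) (nat_lit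 5) (nat_lit 361) (nat_lit 351) (nat_lit 188)) (XT.nd (nat_lit 78) (nat_lit 304) (nat_lit 0) (XT.lf (nat_lit 0) (nat_lit 53550954836) (nat_lit 456) (nat_lit 244714351555) (nat_lit 76) (nat_lit 28339204782) (nat_lit 80) (nat_lit 5) (nat_lit 86) (nat_lit 5) (nat_lit 81) (nat_lit 5) (nat_lit 362) (nat_lit 351) (nat_lit 187)) (XT.lf (nat_lit 0) (nat_lit 25496024051) (nat_lit 304) (nat_lit 95636674849) (nat_lit 380) (nat_lit 220528500195) (nat_lit 76) (nat_lit 5) (nat_lit 80) (nat_lit 5) (nat_lit 81) (nat_lit 5) (nat_lit 363) (nat_lit 351) (nat_lit 186)))) (XT.nd (nat_lit 78) (nat_lit 608) (nat_lit 0) (XT.lf (nat_lit 0) (nat_lit 200377048366) (nat_lit 380) (nat_lit 33640933324) (nat_lit 76) (nat_lit 123591637167) (nat_lit 76) (nat_lit 5) (nat_lit 81) (nat_lit 5) (nat_lit 77) (nat_lit 5) (nat_lit 364) (nat_lit 351) (nat_lit 185)) (XT.nd (nat_lit 78) (nat_lit 304) (nat_lit 0) (XT.lf (nat_lit 0)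 (nat_lit 278795716749) (nat_lit 304) (nat_lit 13130514972) (nat_lit 380) (nat_lit 82609416277) (nat_lit 72) (nat_lit 5) (nat_lit 76) (nat_lit 5) (nat_lit 77) (nat_lit 5) (nat_lit 365) (nat_lit 351) (nat_lit 184)) (XT.lf (nat_lit 0) (nat_lit 5855461011) (nat_lit 304) (nat_lit 164102290096) (nat_lit 76) (nat_lit 222469215884) (nat_lit 68) (nat_lit 5) (nat_lit 72) (nat_lit 5) (nat_lit 69) (nat_lit 5) (nat_lit 366) (nat_lit 351) (nat_lit 183)))))) (XT.nd (nat_lit 468) (nat_lit 988) (nat_lit 0) (XT.nd (nat_lit 234) (nat_lit 532) (nat_lit 0) (XT.nd (nat_lit 78) (nat_lit 456) (nat_lit 0) (XT.lf (nat_lit 0) (nat_lit 104280590028) (nat_lit 380) (nat_lit 238559808062) (nat_lit 76) (nat_lit 68552616197) (nat_lit 64) (nat_lit 5) (nat_lit 69) (nat_lit 5) (nat_lit 65) (nat_lit 5) (nat_lit 367) (nat_lit 351) (nat_lit 182)) (XT.nd (nat_lit 78) (nat_lit 228) (nat_lit 0) (XT.lf (nat_lit 0) (nat_lit 111506280239)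 (nat_lit 228) (nat_lit 106585499207) (nat_lit 304) (nat_lit 213408963488) (nat_lit 61) (nat_lit 5) (nat_lit 64) (nat_lit 5) (nat_lit 65) (nat_lit 5) (nat_lit 368) (nat_lit 351) (nat_lit 181)) (XT.lf (nat_lit 0) (nat_lit 44111237261) (nat_lit 228) (nat_lit 304128512722) (nat_lit 304) (nat_lit 104615745658) (nat_lit 58) (nat_lit 5) (nat_lit 61) (nat_lit 5) (nat_lit 62) (nat_lit 5) (nat_lit 369) (nat_lit 351) (nat_lit 180)))) (XT.nd (nat_lit 78) (nat_lit 456) (nat_lit 0) (XT.lf (nat_lit 0) (nat_lit 19931277847) (nat_lit 304) (nat_lit 28957461817) (nat_lit 76) (nat_lit 426646702664) (nat_lit 57) (nat_lit 5) (nat_lit 61) (nat_lit 5) (nat_lit 58) (nat_lit 5) (nat_lit 370) (nat_lit 351) (nat_lit 179)) (XT.nd (nat_lit 78) (nat_lit 228) (nat_lit 0) (XT.lf (nat_lit 0) (nat_lit 160615658038) (nat_lit 304) (nat_lit 111310921572) (nat_lit 76) (nat_lit 227525513537) (nat_lit 54) (nat_lit 5) (nat_lit 58)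 (nat_lit 5) (nat_lit 55) (nat_lit 5) (nat_lit 371) (nat_lit 351) (nat_lit 178)) (XT.lf (nat_lit 0) (nat_lit 319026655515) (nat_lit 304) (nat_lit 201120344892) (nat_lit 76) (nat_lit 4811482330) (nat_lit 51) (nat_lit 5) (nat_lit 55) (nat_lit 5) (nat_lit 52) (nat_lit 5) (nat_lit 372) (nat_lit 351) (nat_lit 177))))) (XT.nd (nat_lit 234) (nat_lit 380) (nat_lit 0) (XT.nd (nat_lit 78) (nat_lit 456) (nat_lit 0) (XT.lf (nat_lit 0) (nat_lit 248708724948) (nat_lit 152) (nat_lit 251840707258) (nat_lit 228) (nat_lit 51434006362) (nat_lit 49) (nat_lit 5) (nat_lit 51) (nat_lit 5) (nat_lit 52) (nat_lit 5) (nat_lit 373) (nat_lit 351) (nat_lit 176)) (XT.nd (nat_lit 78) (nat_lit 152) (nat_lit 0) (XT.lf (nat_lit 0) (nat_lit 118574343429) (nat_lit 304) (nat_lit 417392698754) (nat_lit 76) (nat_lit 44770995370) (nat_lit 45) (nat_lit 5) (nat_lit 49) (nat_lit 5) (nat_lit 46) (nat_lit 5) (nat_lit 374) (nat_lit 351)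 (nat_lit 175)) (XT.lf (nat_lit 0) (nat_lit 63425516486) (nat_lit 152) (nat_lit 247586071958) (nat_lit 228) (nat_lit 300207745813) (nat_lit 43) (nat_lit 5) (nat_lit 45) (nat_lit 5) (nat_lit 46) (nat_lit 5) (nat_lit 375) (nat_lit 351) (nat_lit 174)))) (XT.nd (nat_lit 78) (nat_lit 380) (nat_lit 0) (XT.lf (nat_lit 0) (nat_lit 527230771846) (nat_lit 228) (nat_lit 47277861187) (nat_lit 76) (nat_lit 69211153760) (nat_lit 43) (nat_lit 5) (nat_lit 46) (nat_lit 5) (nat_lit 44) (nat_lit 5) (nat_lit 376) (nat_lit 351) (nat_lit 173)) (XT.nd (nat_lit 78) (nat_lit 152) (nat_lit 0) (XT.lf (nat_lit 0) (nat_lit 91566272279) (nat_lit 228) (nat_lit 174417446765) (nat_lit 76) (nat_lit 412159538828) (nat_lit 40) (nat_lit 5) (nat_lit 43) (nat_lit 5) (nat_lit 41) (nat_lit 5) (nat_lit 377) (nat_lit 351) (nat_lit 172)) (XT.lf (nat_lit 0) (nat_lit 320454432008) (nat_lit 228) (nat_lit 320155789557) (nat_lit 76) (nat_lit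 74201419444) (nat_lit 38) (nat_lit 5) (nat_lit 41) (nat_lit 5) (nat_lit 39) (nat_lit 5) (nat_lit 378) (nat_lit 351) (nat_lit 171))))))) (XT.nd (nat_lit 45162) (nat_lit 0) (nat_lit 2736) (XT.nd (nat_lit 468) (nat_lit 0) (nat_lit 0) (XT.nd (nat_lit 234) (nat_lit 456) (nat_lit 0) (XT.nd (nat_lit 78) (nat_lit 152) (nat_lit 0) (XT.lf (nat_lit 0) (nat_lit 265174184040) (nat_lit 152) (nat_lit 314192537189) (nat_lit 228) (nat_lit 174461119756) (nat_lit 36) (nat_lit 5) (nat_lit 38) (nat_lit 5) (nat_lit 39) (nat_lit 5) (nat_lit 379) (nat_lit 351) (nat_lit 170)) (XT.nd (nat_lit 78) (nat_lit 0) (nat_lit 0) (XT.lf (nat_lit 0) (nat_lit 69221402294) (nat_lit 152) (nat_lit 680575184466) (nat_lit 76) (nat_lit 45708949472) (nat_lit 34) (nat_lit 5) (nat_lit 36) (nat_lit 5) (nat_lit 35) (nat_lit 5) (nat_lit 380) (nat_lit 351) (nat_lit 169)) (XT.lf (nat_lit 0) (nat_lit 340317356530) (nat_lit 152) (nat_lit 64220319502)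 (nat_lit 76) (nat_lit 435135215259) (nat_lit 34) (nat_lit 5) (nat_lit 36) (nat_lit 5) (nat_lit 35) (nat_lit 5) (nat_lit 381) (nat_lit 351) (nat_lit 168)))) (XT.nd (nat_lit 78) (nat_lit 304) (nat_lit 0) (XT.lf (nat_lit 0) (nat_lit 621329273124) (nat_lit 152) (nat_lit 21472359242) (nat_lit 228) (nat_lit 244086970145) (nat_lit 32) (nat_lit 5) (nat_lit 34) (nat_lit 5) (nat_lit 35) (nat_lit 5) (nat_lit 382) (nat_lit 351) (nat_lit 167)) (XT.nd (nat_lit 78) (nat_lit 152) (nat_lit 0) (XT.lf (nat_lit 0) (nat_lit 44857558467) (nat_lit 152) (nat_lit 503966467402) (nat_lit 76) (nat_lit 388319575408) (nat_lit 30) (nat_lit 5) (nat_lit 32) (nat_lit 5) (nat_lit 31) (nat_lit 5) (nat_lit 383) (nat_lit 351) (nat_lit 166)) (XT.lf (nat_lit 0) (nat_lit 208218411053) (nat_lit 152) (nat_lit 148576545814) (nat_lit 228) (nat_lit 634002525511) (nat_lit 28) (nat_lit 5) (nat_lit 30) (nat_lit 5) (nat_lit 31) (nat_lit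 5) (nat_lit 384) (nat_lit 351) (nat_lit 165))))) (XT.nd (nat_lit 44460) (nat_lit 0) (nat_lit 5548) (XT.nd (nat_lit 44304) (nat_lit 0) (nat_lit 5472) (XT.lf (nat_lit 0) (nat_lit 707039198281) (nat_lit 228) (nat_lit 57503370571) (nat_lit 76) (nat_lit 283533512571) (nat_lit 28) (nat_lit 5) (nat_lit 31) (nat_lit 5) (nat_lit 29) (nat_lit 4) (nat_lit 385) (nat_lit 351) (nat_lit 164)) (XT.nd (nat_lit 78) (nat_lit 0) (nat_lit 76) (XT.lf (nat_lit 0) (nat_lit 12159484344) (nat_lit 836) (nat_lit 49655636924) (nat_lit 836) (nat_lit 49655636924) (nat_lit 100) (nat_lit 3) (nat_lit 111) (nat_lit 3) (nat_lit 111) (nat_lit 5) (nat_lit 352) (nat_lit 352) (nat_lit 196)) (XT.lf (nat_lit 0) (nat_lit 27121522556) (nat_lit 760) (nat_lit 160768701788) (nat_lit 836) (nat_lit 43877460828) (nat_lit 101) (nat_lit 5) (nat_lit 111) (nat_lit 5) (nat_lit 112) (nat_lit 5) (nat_lit 353) (nat_lit 352) (nat_lit 195)))) (XT.nd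 (nat_lit 78) (nat_lit 0) (nat_lit 76) (XT.lf (nat_lit 76) (nat_lit 15654927942) (nat_lit 0) (nat_lit 18580499502) (nat_lit 836) (nat_lit 206860162896) (nat_lit 102) (nat_lit 5) (nat_lit 101) (nat_lit 5) (nat_lit 112) (nat_lit 5) (nat_lit 354) (nat_lit 352) (nat_lit 194)) (XT.nd (nat_lit 78) (nat_lit 0) (nat_lit 76) (XT.lf (nat_lit 0) (nat_lit 47329432868) (nat_lit 760) (nat_lit 41707070034) (nat_lit 836) (nat_lit 161862675806) (nat_lit 102) (nat_lit 5) (nat_lit 112) (nat_lit 5) (nat_lit 113) (nat_lit 5) (nat_lit 355) (nat_lit 352) (nat_lit 193)) (XT.lf (nat_lit 0) (nat_lit 65825618963) (nat_lit 760) (nat_lit 101280547614) (nat_lit 836) (nat_lit 94163154739) (nat_lit 103) (nat_lit 5) (nat_lit 113) (nat_lit 5) (nat_lit 114) (nat_lit 5) (nat_lit 356) (nat_lit 352) (nat_lit 192)))))) (XT.nd (nat_lit 468) (nat_lit 1672) (nat_lit 0) (XT.nd (nat_lit 234) (nat_lit 1368) (nat_lit 0) (XT.nd (nat_lit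 78) (nat_lit 0) (nat_lit 0) (XT.lf (nat_lit 0) (nat_lit 90038800855) (nat_lit 760) (nat_lit 163723110457) (nat_lit 836) (nat_lit 18495299143) (nat_lit 104) (nat_lit 5) (nat_lit 114) (nat_lit 5) (nat_lit 115) (nat_lit 5) (nat_lit 357) (nat_lit 352) (nat_lit 191)) (XT.nd (nat_lit 78) (nat_lit 0) (nat_lit 76) (XT.lf (nat_lit 76) (nat_lit 53582924024) (nat_lit 0) (nat_lit 68053422018) (nat_lit 836) (nat_lit 162215419401) (nat_lit 105) (nat_lit 5) (nat_lit 104) (nat_lit 5) (nat_lit 115) (nat_lit 5) (nat_lit 358) (nat_lit 352) (nat_lit 190)) (XT.lf (nat_lit 0) (nat_lit 160729138554) (nat_lit 760) (nat_lit 4227105166) (nat_lit 76) (nat_lit 131169269068) (nat_lit 105) (nat_lit 5) (nat_lit 115) (nat_lit 5) (nat_lit 106) (nat_lit 5) (nat_lit 359) (nat_lit 352) (nat_lit 189)))) (XT.nd (nat_lit 78) (nat_lit 684) (nat_lit 0) (XT.lf (nat_lit 0) (nat_lit 208551709848) (nat_lit 836) (nat_lit 63090905426)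 (nat_lit 76) (nat_lit 37458427011) (nat_lit 95) (nat_lit 5) (nat_lit 106) (nat_lit 5) (nat_lit 96) (nat_lit 5) (nat_lit 360) (nat_lit 352) (nat_lit 188)) (XT.nd (nat_lit 78) (nat_lit 304) (nat_lit 0) (XT.lf (nat_lit 0) (nat_lit 196823156198) (nat_lit 380) (nat_lit 69306074031) (nat_lit 456) (nat_lit 56688926866) (nat_lit 90) (nat_lit 5) (nat_lit 95) (nat_lit 5) (nat_lit 96) (nat_lit 5) (nat_lit 361) (nat_lit 352) (nat_lit 187)) (XT.lf (nat_lit 0) (nat_lit 144482100743) (nat_lit 304) (nat_lit 189533228431) (nat_lit 380) (nat_lit 3332193184) (nat_lit 86) (nat_lit 5) (nat_lit 90) (nat_lit 5) (nat_lit 91) (nat_lit 5) (nat_lit 362) (nat_lit 352) (nat_lit 186))))) (XT.nd (nat_lit 234) (nat_lit 912) (nat_lit 0) (XT.nd (nat_lit 78) (nat_lit 304) (nat_lit 0) (XT.lf (nat_lit 0) (nat_lit 57837210690) (nat_lit 456) (nat_lit 264289034239) (nat_lit 76) (nat_lit 30606516202) (nat_lit 80) (nat_lit 5) (nat_lit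 86) (nat_lit 5) (nat_lit 81) (nat_lit 5) (nat_lit 363) (nat_lit 352) (nat_lit 185)) (XT.nd (nat_lit 78) (nat_lit 0) (nat_lit 0) (XT.lf (nat_lit 0) (nat_lit 27538064271) (nat_lit 304) (nat_lit 103287305386) (nat_lit 380) (nat_lit 238168620806) (nat_lit 76) (nat_lit 5) (nat_lit 80) (nat_lit 5) (nat_lit 81) (nat_lit 5) (nat_lit 364) (nat_lit 352) (nat_lit 184)) (XT.lf (nat_lit 0) (nat_lit 216409119256) (nat_lit 380) (nat_lit 36329931956) (nat_lit 76) (nat_lit 133479240121) (nat_lit 76) (nat_lit 5) (nat_lit 81) (nat_lit 5) (nat_lit 77) (nat_lit 5) (nat_lit 365) (nat_lit 352) (nat_lit 183)))) (XT.nd (nat_lit 78) (nat_lit 608) (nat_lit 0) (XT.lf (nat_lit 0) (nat_lit 301101551210) (nat_lit 304) (nat_lit 14180578800) (nat_lit 380) (nat_lit 89216278283) (nat_lit 72) (nat_lit 5) (nat_lit 76) (nat_lit 5) (nat_lit 77) (nat_lit 5) (nat_lit 366) (nat_lit 352) (nat_lit 182)) (XT.nd (nat_lit 78) (nat_lit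 304) (nat_lit 0) (XT.lf (nat_lit 0) (nat_lit 6325632935) (nat_lit 304) (nat_lit 177228250124) (nat_lit 76) (nat_lit 240267153165) (nat_lit 68) (nat_lit 5) (nat_lit 72) (nat_lit 5) (nat_lit 69) (nat_lit 5) (nat_lit 367) (nat_lit 352) (nat_lit 181)) (XT.lf (nat_lit 0) (nat_lit 112624684555) (nat_lit 380) (nat_lit 257642390486) (nat_lit 76) (nat_lit 74037296751) (nat_lit 64) (nat_lit 5) (nat_lit 69) (nat_lit 5) (nat_lit 65) (nat_lit 5) (nat_lit 368) (nat_lit 352) (nat_lit 180))))))))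
noncomputable def xc119 : XT := (XT.nd (nat_lit 46098) (nat_lit 0) (nat_lit 456) (XT.nd (nat_lit 858) (nat_lit 760) (nat_lit 0) (XT.nd (nat_lit 390) (nat_lit 988) (nat_lit 0) (XT.nd (nat_lit 156) (nat_lit 532) (nat_lit 0) (XT.nd (nat_lit 78) (nat_lit 228) (nat_lit 0) (XT.lf (nat_lit 0) (nat_lit 120428889173) (nat_lit 228) (nat_lit 115111790818) (nat_lit 304) (nat_lit 230480043292) (nat_lit 61) (nat_lit 5) (nat_lit 64) (nat_lit 5) (nat_lit 65) (nat_lit 5) (nat_lit 369) (nat_lit 352) (nat_lit 179)) (XT.lf (nat_lit 0) (nat_lit 47642218671) (nat_lit 228) (nat_lit 328458194517) (nat_lit 304) (nat_lit 112983446853) (nat_lit 58) (nat_lit 5) (nat_lit 61) (nat_lit 5) (nat_lit 62) (nat_lit 5) (nat_lit 370) (nat_lit 352) (nat_lit 178))) (XT.nd (nat_lit 78) (nat_lit 456) (nat_lit 0) (XT.lf (nat_lit 0) (nat_lit 21527176905) (nat_lit 304) (nat_lit 31272083440) (nat_lit 76) (nat_lit 460778946566) (nat_lit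 57) (nat_lit 5) (nat_lit 61) (nat_lit 5) (nat_lit 58) (nat_lit 5) (nat_lit 371) (nat_lit 352) (nat_lit 177)) (XT.nd (nat_lit 78) (nat_lit 228) (nat_lit 0) (XT.lf (nat_lit 0) (nat_lit 173466242389) (nat_lit 304) (nat_lit 120213847633) (nat_lit 76) (nat_lit 245728103100) (nat_lit 54) (nat_lit 5) (nat_lit 58) (nat_lit 5) (nat_lit 55) (nat_lit 5) (nat_lit 372) (nat_lit 352) (nat_lit 176)) (XT.lf (nat_lit 0) (nat_lit 344550059488) (nat_lit 304) (nat_lit 217208054911) (nat_lit 76) (nat_lit 5196982556) (nat_lit 51) (nat_lit 5) (nat_lit 55) (nat_lit 5) (nat_lit 52) (nat_lit 5) (nat_lit 373) (nat_lit 352) (nat_lit 175))))) (XT.nd (nat_lit 234) (nat_lit 380) (nat_lit 0) (XT.nd (nat_lit 78) (nat_lit 456) (nat_lit 0) (XT.lf (nat_lit 0) (nat_lit 268607257181) (nat_lit 152) (nat_lit 271987335583) (nat_lit 228) (nat_lit 55547459827) (nat_lit 49) (nat_lit 5) (nat_lit 51) (nat_lit 5) (nat_lit 52) (nat_lit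 5) (nat_lit 374) (nat_lit 352) (nat_lit 174)) (XT.nd (nat_lit 78) (nat_lit 152) (nat_lit 0) (XT.lf (nat_lit 0) (nat_lit 128061464394) (nat_lit 304) (nat_lit 450782271630) (nat_lit 76) (nat_lit 48353285185) (nat_lit 45) (nat_lit 5) (nat_lit 49) (nat_lit 5) (nat_lit 46) (nat_lit 5) (nat_lit 375) (nat_lit 352) (nat_lit 173)) (XT.lf (nat_lit 0) (nat_lit 68501320733) (nat_lit 152) (nat_lit 267392308876) (nat_lit 228) (nat_lit 324223195061) (nat_lit 43) (nat_lit 5) (nat_lit 45) (nat_lit 5) (nat_lit 46) (nat_lit 5) (nat_lit 376) (nat_lit 352) (nat_lit 172)))) (XT.nd (nat_lit 78) (nat_lit 380) (nat_lit 0) (XT.lf (nat_lit 0) (nat_lit 569410274538) (nat_lit 228) (nat_lit 51058414966) (nat_lit 76) (nat_lit 74748627609) (nat_lit 43) (nat_lit 5) (nat_lit 46) (nat_lit 5) (nat_lit 44) (nat_lit 5) (nat_lit 377) (nat_lit 352) (nat_lit 171)) (XT.nd (nat_lit 78) (nat_lit 152) (nat_lit 0) (XT.lf (nat_lit 0)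 (nat_lit 98892579643) (nat_lit 228) (nat_lit 188369206430) (nat_lit 76) (nat_lit 445132881640) (nat_lit 40) (nat_lit 5) (nat_lit 43) (nat_lit 5) (nat_lit 41) (nat_lit 5) (nat_lit 378) (nat_lit 352) (nat_lit 170)) (XT.lf (nat_lit 0) (nat_lit 346091751612) (nat_lit 228) (nat_lit 345766649014) (nat_lit 76) (nat_lit 80138122939) (nat_lit 38) (nat_lit 5) (nat_lit 41) (nat_lit 5) (nat_lit 39) (nat_lit 5) (nat_lit 379) (nat_lit 352) (nat_lit 169)))))) (XT.nd (nat_lit 44772) (nat_lit 0) (nat_lit 5472) (XT.nd (nat_lit 234) (nat_lit 456) (nat_lit 0) (XT.nd (nat_lit 78) (nat_lit 152) (nat_lit 0) (XT.lf (nat_lit 0) (nat_lit 286389652775) (nat_lit 152) (nat_lit 339327323661) (nat_lit 228) (nat_lit 188417045516) (nat_lit 36) (nat_lit 5) (nat_lit 38) (nat_lit 5) (nat_lit 39) (nat_lit 5) (nat_lit 380) (nat_lit 352) (nat_lit 168)) (XT.nd (nat_lit 78) (nat_lit 0) (nat_lit 0) (XT.lf (nat_lit 0) (nat_lit 74760011241)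 (nat_lit 152) (nat_lit 735019666750) (nat_lit 76) (nat_lit 49366255917) (nat_lit 34) (nat_lit 5) (nat_lit 36) (nat_lit 5) (nat_lit 35) (nat_lit 5) (nat_lit 381) (nat_lit 352) (nat_lit 167)) (XT.lf (nat_lit 0) (nat_lit 367543575389) (nat_lit 152) (nat_lit 69356526106) (nat_lit 76) (nat_lit 469946579227) (nat_lit 34) (nat_lit 5) (nat_lit 36) (nat_lit 5) (nat_lit 35) (nat_lit 5) (nat_lit 382) (nat_lit 352) (nat_lit 166)))) (XT.nd (nat_lit 78) (nat_lit 304) (nat_lit 0) (XT.lf (nat_lit 0) (nat_lit 671036972265) (nat_lit 152) (nat_lit 23189580712) (nat_lit 228) (nat_lit 263613097905) (nat_lit 32) (nat_lit 5) (nat_lit 34) (nat_lit 5) (nat_lit 35) (nat_lit 5) (nat_lit 383) (nat_lit 352) (nat_lit 165)) (XT.nd (nat_lit 78) (nat_lit 152) (nat_lit 0) (XT.lf (nat_lit 0) (nat_lit 48446936341) (nat_lit 152) (nat_lit 544282431005) (nat_lit 76) (nat_lit 419385683083) (nat_lit 30) (nat_lit 5) (nat_lit 32)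 (nat_lit 5) (nat_lit 31) (nat_lit 5) (nat_lit 384) (nat_lit 352) (nat_lit 164)) (XT.lf (nat_lit 0) (nat_lit 224877178893) (nat_lit 152) (nat_lit 160462110664) (nat_lit 228) (nat_lit 684721954335) (nat_lit 28) (nat_lit 5) (nat_lit 30) (nat_lit 5) (nat_lit 31) (nat_lit 5) (nat_lit 385) (nat_lit 352) (nat_lit 163))))) (XT.nd (nat_lit 234) (nat_lit 0) (nat_lit 152) (XT.nd (nat_lit 78) (nat_lit 0) (nat_lit 76) (XT.lf (nat_lit 0) (nat_lit 13134194385) (nat_lit 836) (nat_lit 53627062418) (nat_lit 836) (nat_lit 53627062418) (nat_lit 100) (nat_lit 3) (nat_lit 111) (nat_lit 3) (nat_lit 111) (nat_lit 5) (nat_lit 353) (nat_lit 353) (nat_lit 194)) (XT.nd (nat_lit 78) (nat_lit 0) (nat_lit 0) (XT.lf (nat_lit 0) (nat_lit 29294862231) (nat_lit 760) (nat_lit 173628023855) (nat_lit 836) (nat_lit 47386029192) (nat_lit 101) (nat_lit 5) (nat_lit 111) (nat_lit 5) (nat_lit 112) (nat_lit 5) (nat_lit 354) (nat_lit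 353) (nat_lit 193)) (XT.lf (nat_lit 76) (nat_lit 16909401770) (nat_lit 0) (nat_lit 20068242217) (nat_lit 836) (nat_lit 223405420930) (nat_lit 102) (nat_lit 5) (nat_lit 101) (nat_lit 5) (nat_lit 112) (nat_lit 5) (nat_lit 355) (nat_lit 353) (nat_lit 192)))) (XT.nd (nat_lit 78) (nat_lit 0) (nat_lit 76) (XT.lf (nat_lit 0) (nat_lit 51118900468) (nat_lit 760) (nat_lit 45041531395) (nat_lit 836) (nat_lit 174810522223) (nat_lit 102) (nat_lit 5) (nat_lit 112) (nat_lit 5) (nat_lit 113) (nat_lit 5) (nat_lit 356) (nat_lit 353) (nat_lit 191)) (XT.nd (nat_lit 78) (nat_lit 0) (nat_lit 76) (XT.lf (nat_lit 0) (nat_lit 71094568219) (nat_lit 760) (nat_lit 109380815843) (nat_lit 836) (nat_lit 101695334945) (nat_lit 103) (nat_lit 5) (nat_lit 113) (nat_lit 5) (nat_lit 114) (nat_lit 5) (nat_lit 357) (nat_lit 353) (nat_lit 190)) (XT.lf (nat_lit 0) (nat_lit 97244612421) (nat_lit 760) (nat_lit 176818729650) (nat_lit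 836) (nat_lit 19974307042) (nat_lit 104) (nat_lit 5) (nat_lit 114) (nat_lit 5) (nat_lit 115) (nat_lit 5) (nat_lit 358) (nat_lit 353) (nat_lit 189))))))) (XT.nd (nat_lit 936) (nat_lit 2052) (nat_lit 0) (XT.nd (nat_lit 468) (nat_lit 1444) (nat_lit 0) (XT.nd (nat_lit 234) (nat_lit 1140) (nat_lit 0) (XT.nd (nat_lit 78) (nat_lit 684) (nat_lit 0) (XT.lf (nat_lit 76) (nat_lit 57871690692) (nat_lit 0) (nat_lit 73498103274) (nat_lit 836) (nat_lit 175189983104) (nat_lit 105) (nat_lit 5) (nat_lit 104) (nat_lit 5) (nat_lit 115) (nat_lit 5) (nat_lit 359) (nat_lit 353) (nat_lit 188)) (XT.nd (nat_lit 78) (nat_lit 760) (nat_lit 0) (XT.lf (nat_lit 0) (nat_lit 173589815822) (nat_lit 760) (nat_lit 4563172916) (nat_lit 76) (nat_lit 141662445360) (nat_lit 105) (nat_lit 5) (nat_lit 115) (nat_lit 5) (nat_lit 106) (nat_lit 5) (nat_lit 360) (nat_lit 353) (nat_lit 187)) (XT.lf (nat_lit 0) (nat_lit 225238047365) (nat_lit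 836) (nat_lit 68136053040) (nat_lit 76) (nat_lit 40454913000) (nat_lit 95) (nat_lit 5) (nat_lit 106) (nat_lit 5) (nat_lit 96) (nat_lit 5) (nat_lit 361) (nat_lit 353) (nat_lit 186)))) (XT.nd (nat_lit 78) (nat_lit 760) (nat_lit 0) (XT.lf (nat_lit 0) (nat_lit 212571041172) (nat_lit 380) (nat_lit 74850596921) (nat_lit 456) (nat_lit 61221866037) (nat_lit 90) (nat_lit 5) (nat_lit 95) (nat_lit 5) (nat_lit 96) (nat_lit 5) (nat_lit 362) (nat_lit 353) (nat_lit 185)) (XT.nd (nat_lit 78) (nat_lit 456) (nat_lit 0) (XT.lf (nat_lit 0) (nat_lit 156042714450) (nat_lit 304) (nat_lit 204695788615) (nat_lit 380) (nat_lit 3596721796) (nat_lit 86) (nat_lit 5) (nat_lit 90) (nat_lit 5) (nat_lit 91) (nat_lit 5) (nat_lit 363) (nat_lit 353) (nat_lit 184)) (XT.lf (nat_lit 0) (nat_lit 62466056087) (nat_lit 456) (nat_lit 285430043261) (nat_lit 76) (nat_lit 33055187564) (nat_lit 80) (nat_lit 5) (nat_lit 86) (nat_lit 5)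 (nat_lit 81) (nat_lit 5) (nat_lit 364) (nat_lit 353) (nat_lit 183))))) (XT.nd (nat_lit 234) (nat_lit 836) (nat_lit 0) (XT.nd (nat_lit 78) (nat_lit 304) (nat_lit 0) (XT.lf (nat_lit 0) (nat_lit 29743131270) (nat_lit 304) (nat_lit 111550029657) (nat_lit 380) (nat_lit 257220259130) (nat_lit 76) (nat_lit 5) (nat_lit 80) (nat_lit 5) (nat_lit 81) (nat_lit 5) (nat_lit 365) (nat_lit 353) (nat_lit 182)) (XT.nd (nat_lit 78) (nat_lit 304) (nat_lit 0) (XT.lf (nat_lit 0) (nat_lit 233723483760) (nat_lit 380) (nat_lit 39234375180) (nat_lit 76) (nat_lit 144157812509) (nat_lit 76) (nat_lit 5) (nat_lit 81) (nat_lit 5) (nat_lit 77) (nat_lit 5) (nat_lit 366) (nat_lit 353) (nat_lit 181)) (XT.lf (nat_lit 0) (nat_lit 325191541837) (nat_lit 304) (nat_lit 15314701570) (nat_lit 380) (nat_lit 96351959063) (nat_lit 72) (nat_lit 5) (nat_lit 76) (nat_lit 5) (nat_lit 77) (nat_lit 5) (nat_lit 367) (nat_lit 353) (nat_lit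 180)))) (XT.nd (nat_lit 78) (nat_lit 532) (nat_lit 0) (XT.lf (nat_lit 0) (nat_lit 6833171089) (nat_lit 304) (nat_lit 191404604116) (nat_lit 76) (nat_lit 259488868362) (nat_lit 68) (nat_lit 5) (nat_lit 72) (nat_lit 5) (nat_lit 69) (nat_lit 5) (nat_lit 368) (nat_lit 353) (nat_lit 179)) (XT.nd (nat_lit 78) (nat_lit 228) (nat_lit 0) (XT.lf (nat_lit 0) (nat_lit 121636071634) (nat_lit 380) (nat_lit 278251893677) (nat_lit 76) (nat_lit 79960684519) (nat_lit 64) (nat_lit 5) (nat_lit 69) (nat_lit 5) (nat_lit 65) (nat_lit 5) (nat_lit 369) (nat_lit 353) (nat_lit 178)) (XT.lf (nat_lit 0) (nat_lit 130065006303) (nat_lit 228) (nat_lit 124320263982) (nat_lit 304) (nat_lit 248917043055) (nat_lit 61) (nat_lit 5) (nat_lit 64) (nat_lit 5) (nat_lit 65) (nat_lit 5) (nat_lit 370) (nat_lit 353) (nat_lit 177)))))) (XT.nd (nat_lit 468) (nat_lit 836) (nat_lit 0) (XT.nd (nat_lit 234) (nat_lit 684) (nat_lit 0) (XT.nd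 (nat_lit 78) (nat_lit 304) (nat_lit 0) (XT.lf (nat_lit 0) (nat_lit 51455381513) (nat_lit 228) (nat_lit 354734336341) (nat_lit 304) (nat_lit 122020786475) (nat_lit 58) (nat_lit 5) (nat_lit 61) (nat_lit 5) (nat_lit 62) (nat_lit 5) (nat_lit 371) (nat_lit 353) (nat_lit 176)) (XT.nd (nat_lit 78) (nat_lit 228) (nat_lit 0) (XT.lf (nat_lit 0) (nat_lit 23250548615) (nat_lit 304) (nat_lit 33772156595) (nat_lit 76) (nat_lit 497641697553) (nat_lit 57) (nat_lit 5) (nat_lit 61) (nat_lit 5) (nat_lit 58) (nat_lit 5) (nat_lit 372) (nat_lit 353) (nat_lit 175)) (XT.lf (nat_lit 0) (nat_lit 187344683505) (nat_lit 304) (nat_lit 129829285635) (nat_lit 76) (nat_lit 265386821582) (nat_lit 54) (nat_lit 5) (nat_lit 58) (nat_lit 5) (nat_lit 55) (nat_lit 5) (nat_lit 373) (nat_lit 353) (nat_lit 174)))) (XT.nd (nat_lit 78) (nat_lit 456) (nat_lit 0) (XT.lf (nat_lit 0) (nat_lit 372115154380) (nat_lit 304) (nat_lit 234583055294)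 (nat_lit 76) (nat_lit 5613239823) (nat_lit 51) (nat_lit 5) (nat_lit 55) (nat_lit 5) (nat_lit 52) (nat_lit 5) (nat_lit 374) (nat_lit 353) (nat_lit 173)) (XT.nd (nat_lit 78) (nat_lit 304) (nat_lit 0) (XT.lf (nat_lit 0) (nat_lit 290097410318) (nat_lit 152) (nat_lit 293745783802) (nat_lit 228) (nat_lit 59990170327) (nat_lit 49) (nat_lit 5) (nat_lit 51) (nat_lit 5) (nat_lit 52) (nat_lit 5) (nat_lit 375) (nat_lit 353) (nat_lit 172)) (XT.lf (nat_lit 0) (nat_lit 138307387625) (nat_lit 304) (nat_lit 486843273265) (nat_lit 76) (nat_lit 52222071135) (nat_lit 45) (nat_lit 5) (nat_lit 49) (nat_lit 5) (nat_lit 46) (nat_lit 5) (nat_lit 376) (nat_lit 353) (nat_lit 171))))) (XT.nd (nat_lit 234) (nat_lit 456) (nat_lit 0) (XT.nd (nat_lit 78) (nat_lit 228) (nat_lit 0) (XT.lf (nat_lit 0) (nat_lit 73982937819) (nat_lit 152) (nat_lit 288783137311) (nat_lit 228) (nat_lit 350160047221) (nat_lit 43) (nat_lit 5) (nat_lit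 45) (nat_lit 5) (nat_lit 46) (nat_lit 5) (nat_lit 377) (nat_lit 353) (nat_lit 170)) (XT.nd (nat_lit 78) (nat_lit 228) (nat_lit 0) (XT.lf (nat_lit 0) (nat_lit 614963988943) (nat_lit 228) (nat_lit 55141652021) (nat_lit 76) (nat_lit 80729016401) (nat_lit 43) (nat_lit 5) (nat_lit 46) (nat_lit 5) (nat_lit 44) (nat_lit 5) (nat_lit 378) (nat_lit 353) (nat_lit 169)) (XT.lf (nat_lit 0) (nat_lit 106804848140) (nat_lit 228) (nat_lit 203437340273) (nat_lit 76) (nat_lit 480744009176) (nat_lit 40) (nat_lit 5) (nat_lit 43) (nat_lit 5) (nat_lit 41) (nat_lit 5) (nat_lit 379) (nat_lit 353) (nat_lit 168)))) (XT.nd (nat_lit 78) (nat_lit 304) (nat_lit 0) (XT.lf (nat_lit 0) (nat_lit 373779919110) (nat_lit 228) (nat_lit 373426606015) (nat_lit 76) (nat_lit 86549678553) (nat_lit 38) (nat_lit 5) (nat_lit 41) (nat_lit 5) (nat_lit 39) (nat_lit 5) (nat_lit 380) (nat_lit 353) (nat_lit 167)) (XT.nd (nat_lit 78) (nat_lit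 152) (nat_lit 0) (XT.lf (nat_lit 0) (nat_lit 309302140165) (nat_lit 152) (nat_lit 366472981002) (nat_lit 228) (nat_lit 203489582836) (nat_lit 36) (nat_lit 5) (nat_lit 38) (nat_lit 5) (nat_lit 39) (nat_lit 5) (nat_lit 381) (nat_lit 353) (nat_lit 166)) (XT.lf (nat_lit 0) (nat_lit 80741580971) (nat_lit 152) (nat_lit 793819926241) (nat_lit 76) (nat_lit 53316062637) (nat_lit 34) (nat_lit 5) (nat_lit 36) (nat_lit 5) (nat_lit 35) (nat_lit 5) (nat_lit 382) (nat_lit 353) (nat_lit 165))))))))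
noncomputable def xc120 : XT := (XT.nd (nat_lit 46176) (nat_lit 0) (nat_lit 304) (XT.nd (nat_lit 45240) (nat_lit 0) (nat_lit 2052) (XT.nd (nat_lit 44772) (nat_lit 0) (nat_lit 5396) (XT.nd (nat_lit 156) (nat_lit 152) (nat_lit 0) (XT.nd (nat_lit 78) (nat_lit 152) (nat_lit 0) (XT.lf (nat_lit 0) (nat_lit 396947773300) (nat_lit 152) (nat_lit 74903831667) (nat_lit 76) (nat_lit 507542774313) (nat_lit 34) (nat_lit 5) (nat_lit 36) (nat_lit 5) (nat_lit 35) (nat_lit 5) (nat_lit 383) (nat_lit 353) (nat_lit 164)) (XT.lf (nat_lit 0) (nat_lit 724721093705) (nat_lit 152) (nat_lit 25044260827) (nat_lit 228) (nat_lit 284701434272) (nat_lit 32) (nat_lit 5) (nat_lit 34) (nat_lit 5) (nat_lit 35) (nat_lit 5) (nat_lit 384) (nat_lit 353) (nat_lit 163))) (XT.nd (nat_lit 44460) (nat_lit 0) (nat_lit 5320) (XT.lf (nat_lit 0) (nat_lit 52323354140) (nat_lit 152) (nat_lit 587823864830) (nat_lit 76) (nat_lit 452937002100)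 (nat_lit 30) (nat_lit 5) (nat_lit 32) (nat_lit 5) (nat_lit 31) (nat_lit 5) (nat_lit 385) (nat_lit 353) (nat_lit 162)) (XT.nd (nat_lit 78) (nat_lit 0) (nat_lit 76) (XT.lf (nat_lit 0) (nat_lit 14186602856) (nat_lit 836) (nat_lit 57916348246) (nat_lit 836) (nat_lit 57916348246) (nat_lit 100) (nat_lit 3) (nat_lit 111) (nat_lit 3) (nat_lit 111) (nat_lit 5) (nat_lit 354) (nat_lit 354) (nat_lit 192)) (XT.lf (nat_lit 0) (nat_lit 31641552950) (nat_lit 760) (nat_lit 187516401844) (nat_lit 836) (nat_lit 51175515348) (nat_lit 101) (nat_lit 5) (nat_lit 111) (nat_lit 5) (nat_lit 112) (nat_lit 5) (nat_lit 355) (nat_lit 354) (nat_lit 191))))) (XT.nd (nat_lit 234) (nat_lit 0) (nat_lit 228) (XT.nd (nat_lit 78) (nat_lit 0) (nat_lit 76) (XT.lf (nat_lit 76) (nat_lit 18263936828) (nat_lit 0) (nat_lit 21674818497) (nat_lit 836) (nat_lit 241274806767) (nat_lit 102) (nat_lit 5) (nat_lit 101) (nat_lit 5) (nat_lit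 112) (nat_lit 5) (nat_lit 356) (nat_lit 354) (nat_lit 190)) (XT.nd (nat_lit 78) (nat_lit 0) (nat_lit 76) (XT.lf (nat_lit 0) (nat_lit 55211081377) (nat_lit 760) (nat_lit 48643049858) (nat_lit 836) (nat_lit 188794362932) (nat_lit 102) (nat_lit 5) (nat_lit 112) (nat_lit 5) (nat_lit 113) (nat_lit 5) (nat_lit 357) (nat_lit 354) (nat_lit 189)) (XT.lf (nat_lit 0) (nat_lit 76784619734) (nat_lit 760) (nat_lit 118129415901) (nat_lit 836) (nat_lit 109830213993) (nat_lit 103) (nat_lit 5) (nat_lit 113) (nat_lit 5) (nat_lit 114) (nat_lit 5) (nat_lit 358) (nat_lit 354) (nat_lit 188)))) (XT.nd (nat_lit 78) (nat_lit 0) (nat_lit 0) (XT.lf (nat_lit 0) (nat_lit 105026502658) (nat_lit 760) (nat_lit 190962316462) (nat_lit 836) (nat_lit 21571723457) (nat_lit 104) (nat_lit 5) (nat_lit 114) (nat_lit 5) (nat_lit 115) (nat_lit 5) (nat_lit 359) (nat_lit 354) (nat_lit 187)) (XT.nd (nat_lit 78) (nat_lit 0) (nat_lit 76)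 (XT.lf (nat_lit 76) (nat_lit 62503254434) (nat_lit 0) (nat_lit 79378300897) (nat_lit 836) (nat_lit 189202892788) (nat_lit 105) (nat_lit 5) (nat_lit 104) (nat_lit 5) (nat_lit 115) (nat_lit 5) (nat_lit 360) (nat_lit 354) (nat_lit 186)) (XT.lf (nat_lit 0) (nat_lit 187479012562) (nat_lit 760) (nat_lit 4926425769) (nat_lit 76) (nat_lit 152995127861) (nat_lit 105) (nat_lit 5) (nat_lit 115) (nat_lit 5) (nat_lit 106) (nat_lit 5) (nat_lit 361) (nat_lit 354) (nat_lit 185)))))) (XT.nd (nat_lit 468) (nat_lit 1444) (nat_lit 0) (XT.nd (nat_lit 234) (nat_lit 760) (nat_lit 0) (XT.nd (nat_lit 78) (nat_lit 684) (nat_lit 0) (XT.lf (nat_lit 0) (nat_lit 243258977925) (nat_lit 836) (nat_lit 73585115593) (nat_lit 76) (nat_lit 43691144713) (nat_lit 95) (nat_lit 5) (nat_lit 106) (nat_lit 5) (nat_lit 96) (nat_lit 5) (nat_lit 362) (nat_lit 354) (nat_lit 184)) (XT.nd (nat_lit 78) (nat_lit 304) (nat_lit 0) (XT.lf (nat_lit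 0) (nat_lit 229578466988) (nat_lit 380) (nat_lit 80838676368) (nat_lit 456) (nat_lit 66117750627) (nat_lit 90) (nat_lit 5) (nat_lit 95) (nat_lit 5) (nat_lit 96) (nat_lit 5) (nat_lit 363) (nat_lit 354) (nat_lit 183)) (XT.lf (nat_lit 0) (nat_lit 168527885419) (nat_lit 304) (nat_lit 221071367606) (nat_lit 380) (nat_lit 3882704702) (nat_lit 86) (nat_lit 5) (nat_lit 90) (nat_lit 5) (nat_lit 91) (nat_lit 5) (nat_lit 364) (nat_lit 354) (nat_lit 182)))) (XT.nd (nat_lit 78) (nat_lit 304) (nat_lit 0) (XT.lf (nat_lit 0) (nat_lit 67464942548) (nat_lit 456) (nat_lit 308262634549) (nat_lit 76) (nat_lit 35699731227) (nat_lit 80) (nat_lit 5) (nat_lit 86) (nat_lit 5) (nat_lit 81) (nat_lit 5) (nat_lit 365) (nat_lit 354) (nat_lit 181)) (XT.nd (nat_lit 78) (nat_lit 0) (nat_lit 0) (XT.lf (nat_lit 0) (nat_lit 32124315190) (nat_lit 304) (nat_lit 120473808985) (nat_lit 380) (nat_lit 277796292634) (nat_lit 76) (nat_lit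 5) (nat_lit 80) (nat_lit 5) (nat_lit 81) (nat_lit 5) (nat_lit 366) (nat_lit 354) (nat_lit 180)) (XT.lf (nat_lit 0) (nat_lit 252422764178) (nat_lit 380) (nat_lit 42371452241) (nat_lit 76) (nat_lit 155690637423) (nat_lit 76) (nat_lit 5) (nat_lit 81) (nat_lit 5) (nat_lit 77) (nat_lit 5) (nat_lit 367) (nat_lit 354) (nat_lit 179))))) (XT.nd (nat_lit 234) (nat_lit 532) (nat_lit 0) (XT.nd (nat_lit 78) (nat_lit 608) (nat_lit 0) (XT.lf (nat_lit 0) (nat_lit 351208465433) (nat_lit 304) (nat_lit 16539600318) (nat_lit 380) (nat_lit 104058725629) (nat_lit 72) (nat_lit 5) (nat_lit 76) (nat_lit 5) (nat_lit 77) (nat_lit 5) (nat_lit 368) (nat_lit 354) (nat_lit 178)) (XT.nd (nat_lit 78) (nat_lit 304) (nat_lit 0) (XT.lf (nat_lit 0) (nat_lit 7381100085) (nat_lit 304) (nat_lit 206715338342) (nat_lit 76) (nat_lit 280248271851) (nat_lit 68) (nat_lit 5) (nat_lit 72) (nat_lit 5) (nat_lit 69) (nat_lit 5) (nat_lit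 369) (nat_lit 354) (nat_lit 177)) (XT.lf (nat_lit 0) (nat_lit 131368168196) (nat_lit 380) (nat_lit 300510426473) (nat_lit 76) (nat_lit 86357885670) (nat_lit 64) (nat_lit 5) (nat_lit 69) (nat_lit 5) (nat_lit 65) (nat_lit 5) (nat_lit 370) (nat_lit 354) (nat_lit 176)))) (XT.nd (nat_lit 78) (nat_lit 304) (nat_lit 0) (XT.lf (nat_lit 0) (nat_lit 140471755158) (nat_lit 228) (nat_lit 134265482065) (nat_lit 304) (nat_lit 268829203053) (nat_lit 61) (nat_lit 5) (nat_lit 64) (nat_lit 5) (nat_lit 65) (nat_lit 5) (nat_lit 371) (nat_lit 354) (nat_lit 175)) (XT.nd (nat_lit 78) (nat_lit 76) (nat_lit 0) (XT.lf (nat_lit 0) (nat_lit 55573342682) (nat_lit 228) (nat_lit 383112642802) (nat_lit 304) (nat_lit 131781303881) (nat_lit 58) (nat_lit 5) (nat_lit 61) (nat_lit 5) (nat_lit 62) (nat_lit 5) (nat_lit 372) (nat_lit 354) (nat_lit 174)) (XT.lf (nat_lit 0) (nat_lit 25111619216) (nat_lit 304) (nat_lit 36472477201)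 (nat_lit 76) (nat_lit 537453406523) (nat_lit 57) (nat_lit 5) (nat_lit 61) (nat_lit 5) (nat_lit 58) (nat_lit 5) (nat_lit 373) (nat_lit 354) (nat_lit 173))))))) (XT.nd (nat_lit 45396) (nat_lit 0) (nat_lit 3496) (XT.nd (nat_lit 390) (nat_lit 684) (nat_lit 0) (XT.nd (nat_lit 156) (nat_lit 608) (nat_lit 0) (XT.nd (nat_lit 78) (nat_lit 228) (nat_lit 0) (XT.lf (nat_lit 0) (nat_lit 202333237031) (nat_lit 304) (nat_lit 140214196895) (nat_lit 76) (nat_lit 286618170459) (nat_lit 54) (nat_lit 5) (nat_lit 58) (nat_lit 5) (nat_lit 55) (nat_lit 5) (nat_lit 374) (nat_lit 354) (nat_lit 172)) (XT.lf (nat_lit 0) (nat_lit 401885301344) (nat_lit 304) (nat_lit 253348290245) (nat_lit 76) (nat_lit 6062726532) (nat_lit 51) (nat_lit 5) (nat_lit 55) (nat_lit 5) (nat_lit 52) (nat_lit 5) (nat_lit 375) (nat_lit 354) (nat_lit 171))) (XT.nd (nat_lit 78) (nat_lit 456) (nat_lit 0) (XT.lf (nat_lit 0) (nat_lit 313306551362)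 (nat_lit 152) (nat_lit 317244984720) (nat_lit 228) (nat_lit 64788452638) (nat_lit 49) (nat_lit 5) (nat_lit 51) (nat_lit 5) (nat_lit 52) (nat_lit 5) (nat_lit 376) (nat_lit 354) (nat_lit 170)) (XT.nd (nat_lit 78) (nat_lit 152) (nat_lit 0) (XT.lf (nat_lit 0) (nat_lit 149372841185) (nat_lit 304) (nat_lit 525789380448) (nat_lit 76) (nat_lit 56400285330) (nat_lit 45) (nat_lit 5) (nat_lit 49) (nat_lit 5) (nat_lit 46) (nat_lit 5) (nat_lit 377) (nat_lit 354) (nat_lit 169)) (XT.lf (nat_lit 0) (nat_lit 79902868649) (nat_lit 152) (nat_lit 311885311381) (nat_lit 228) (nat_lit 378171990707) (nat_lit 43) (nat_lit 5) (nat_lit 45) (nat_lit 5) (nat_lit 46) (nat_lit 5) (nat_lit 378) (nat_lit 354) (nat_lit 168))))) (XT.nd (nat_lit 234) (nat_lit 304) (nat_lit 0) (XT.nd (nat_lit 78) (nat_lit 380) (nat_lit 0) (XT.lf (nat_lit 0) (nat_lit 664161873183) (nat_lit 228) (nat_lit 59551752922) (nat_lit 76) (nat_lit 87187765168)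 (nat_lit 43) (nat_lit 5) (nat_lit 46) (nat_lit 5) (nat_lit 44) (nat_lit 5) (nat_lit 379) (nat_lit 354) (nat_lit 167)) (XT.nd (nat_lit 78) (nat_lit 152) (nat_lit 0) (XT.lf (nat_lit 0) (nat_lit 115349975124) (nat_lit 228) (nat_lit 219711124930) (nat_lit 76) (nat_lit 519203956011) (nat_lit 40) (nat_lit 5) (nat_lit 43) (nat_lit 5) (nat_lit 41) (nat_lit 5) (nat_lit 380) (nat_lit 354) (nat_lit 166)) (XT.lf (nat_lit 0) (nat_lit 403683021975) (nat_lit 228) (nat_lit 403299555724) (nat_lit 76) (nat_lit 93474086461) (nat_lit 38) (nat_lit 5) (nat_lit 41) (nat_lit 5) (nat_lit 39) (nat_lit 5) (nat_lit 381) (nat_lit 354) (nat_lit 165)))) (XT.nd (nat_lit 78) (nat_lit 152) (nat_lit 0) (XT.lf (nat_lit 0) (nat_lit 334047438923) (nat_lit 152) (nat_lit 395790366334) (nat_lit 228) (nat_lit 219768041026) (nat_lit 36) (nat_lit 5) (nat_lit 38) (nat_lit 5) (nat_lit 39) (nat_lit 5) (nat_lit 382) (nat_lit 354) (nat_lit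 164)) (XT.nd (nat_lit 78) (nat_lit 0) (nat_lit 0) (XT.lf (nat_lit 0) (nat_lit 87201566597) (nat_lit 152) (nat_lit 857324393926) (nat_lit 76) (nat_lit 57581781674) (nat_lit 34) (nat_lit 5) (nat_lit 36) (nat_lit 5) (nat_lit 35) (nat_lit 5) (nat_lit 383) (nat_lit 354) (nat_lit 163)) (XT.lf (nat_lit 0) (nat_lit 428704205486) (nat_lit 152) (nat_lit 80895095225) (nat_lit 76) (nat_lit 548146598133) (nat_lit 34) (nat_lit 5) (nat_lit 36) (nat_lit 5) (nat_lit 35) (nat_lit 5) (nat_lit 384) (nat_lit 354) (nat_lit 162)))))) (XT.nd (nat_lit 468) (nat_lit 1520) (nat_lit 0) (XT.nd (nat_lit 234) (nat_lit 0) (nat_lit 152) (XT.nd (nat_lit 78) (nat_lit 0) (nat_lit 76) (XT.lf (nat_lit 0) (nat_lit 15322965344) (nat_lit 836) (nat_lit 62548902362) (nat_lit 836) (nat_lit 62548902362) (nat_lit 100) (nat_lit 3) (nat_lit 111) (nat_lit 3) (nat_lit 111) (nat_lit 5) (nat_lit 355) (nat_lit 355) (nat_lit 190)) (XT.nd (nat_lit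 78) (nat_lit 0) (nat_lit 0) (XT.lf (nat_lit 0) (nat_lit 34175536429) (nat_lit 760) (nat_lit 202516115981) (nat_lit 836) (nat_lit 55268359578) (nat_lit 101) (nat_lit 5) (nat_lit 111) (nat_lit 5) (nat_lit 112) (nat_lit 5) (nat_lit 356) (nat_lit 355) (nat_lit 189)) (XT.lf (nat_lit 76) (nat_lit 19726580337) (nat_lit 0) (nat_lit 23409761541) (nat_lit 836) (nat_lit 260574178279) (nat_lit 102) (nat_lit 5) (nat_lit 101) (nat_lit 5) (nat_lit 112) (nat_lit 5) (nat_lit 357) (nat_lit 355) (nat_lit 188)))) (XT.nd (nat_lit 78) (nat_lit 0) (nat_lit 76) (XT.lf (nat_lit 0) (nat_lit 59630256013) (nat_lit 760) (nat_lit 52532947165) (nat_lit 836) (nat_lit 203897053711) (nat_lit 102) (nat_lit 5) (nat_lit 112) (nat_lit 5) (nat_lit 113) (nat_lit 5) (nat_lit 358) (nat_lit 355) (nat_lit 187)) (XT.nd (nat_lit 78) (nat_lit 0) (nat_lit 76) (XT.lf (nat_lit 0) (nat_lit 82929520708) (nat_lit 760) (nat_lit 127578170057)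 (nat_lit 836) (nat_lit 118615990040) (nat_lit 103) (nat_lit 5) (nat_lit 113) (nat_lit 5) (nat_lit 114) (nat_lit 5) (nat_lit 359) (nat_lit 355) (nat_lit 186)) (XT.lf (nat_lit 0) (nat_lit 113430612962) (nat_lit 760) (nat_lit 206237662924) (nat_lit 836) (nat_lit 23297008531) (nat_lit 104) (nat_lit 5) (nat_lit 114) (nat_lit 5) (nat_lit 115) (nat_lit 5) (nat_lit 360) (nat_lit 355) (nat_lit 185))))) (XT.nd (nat_lit 234) (nat_lit 1140) (nat_lit 0) (XT.nd (nat_lit 78) (nat_lit 684) (nat_lit 0) (XT.lf (nat_lit 76) (nat_lit 67505082421) (nat_lit 0) (nat_lit 85728864489) (nat_lit 836) (nat_lit 204337161792) (nat_lit 105) (nat_lit 5) (nat_lit 104) (nat_lit 5) (nat_lit 115) (nat_lit 5) (nat_lit 361) (nat_lit 355) (nat_lit 184)) (XT.nd (nat_lit 78) (nat_lit 760) (nat_lit 0) (XT.lf (nat_lit 0) (nat_lit 202479058082) (nat_lit 760) (nat_lit 5318995781) (nat_lit 76) (nat_lit 165234469632) (nat_lit 105) (nat_lit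 5) (nat_lit 115) (nat_lit 5) (nat_lit 106) (nat_lit 5) (nat_lit 362) (nat_lit 355) (nat_lit 183)) (XT.lf (nat_lit 0) (nat_lit 262721313761) (nat_lit 836) (nat_lit 79470363034) (nat_lit 76) (nat_lit 47186297979) (nat_lit 95) (nat_lit 5) (nat_lit 106) (nat_lit 5) (nat_lit 96) (nat_lit 5) (nat_lit 363) (nat_lit 355) (nat_lit 182)))) (XT.nd (nat_lit 78) (nat_lit 760) (nat_lit 0) (XT.lf (nat_lit 0) (nat_lit 247946238279) (nat_lit 380) (nat_lit 87305797649) (nat_lit 456) (nat_lit 71405572004) (nat_lit 90) (nat_lit 5) (nat_lit 95) (nat_lit 5) (nat_lit 96) (nat_lit 5) (nat_lit 364) (nat_lit 355) (nat_lit 181)) (XT.nd (nat_lit 78) (nat_lit 456) (nat_lit 0) (XT.lf (nat_lit 0) (nat_lit 182011619865) (nat_lit 304) (nat_lit 238757004915) (nat_lit 380) (nat_lit 4191816588) (nat_lit 86) (nat_lit 5) (nat_lit 90) (nat_lit 5) (nat_lit 91) (nat_lit 5) (nat_lit 365) (nat_lit 355) (nat_lit 180)) (XT.lf (nat_lit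 0) (nat_lit 72863511386) (nat_lit 456) (nat_lit 332922091668) (nat_lit 76) (nat_lit 38555820028) (nat_lit 80) (nat_lit 5) (nat_lit 86) (nat_lit 5) (nat_lit 81) (nat_lit 5) (nat_lit 366) (nat_lit 355) (nat_lit 179))))))))
noncomputable def xc121 : XT := (XT.nd (nat_lit 46410) (nat_lit 0) (nat_lit 152) (XT.nd (nat_lit 858) (nat_lit 1140) (nat_lit 0) (XT.nd (nat_lit 390) (nat_lit 1140) (nat_lit 0) (XT.nd (nat_lit 156) (nat_lit 912) (nat_lit 0) (XT.nd (nat_lit 78) (nat_lit 0) (nat_lit 0) (XT.lf (nat_lit 0) (nat_lit 34695746531) (nat_lit 304) (nat_lit 130111522478) (nat_lit 380) (nat_lit 300018635253) (nat_lit 76) (nat_lit 5) (nat_lit 80) (nat_lit 5) (nat_lit 81) (nat_lit 5) (nat_lit 367) (nat_lit 355) (nat_lit 178)) (XT.lf (nat_lit 0) (nat_lit 272617787059) (nat_lit 380) (nat_lit 45759734132) (nat_lit 76) (nat_lit 168146059811) (nat_lit 76) (nat_lit 5) (nat_lit 81) (nat_lit 5) (nat_lit 77) (nat_lit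 5) (nat_lit 368) (nat_lit 355) (nat_lit 177))) (XT.nd (nat_lit 78) (nat_lit 608) (nat_lit 0) (XT.lf (nat_lit 0) (nat_lit 379306514623) (nat_lit 304) (nat_lit 17862530536) (nat_lit 380) (nat_lit 112382231842) (nat_lit 72) (nat_lit 5) (nat_lit 76) (nat_lit 5) (nat_lit 77) (nat_lit 5) (nat_lit 369) (nat_lit 355) (nat_lit 176)) (XT.nd (nat_lit 78) (nat_lit 304) (nat_lit 0) (XT.lf (nat_lit 0) (nat_lit 7972681463) (nat_lit 304) (nat_lit 223251164429) (nat_lit 76) (nat_lit 302668385674) (nat_lit 68) (nat_lit 5) (nat_lit 72) (nat_lit 5) (nat_lit 69) (nat_lit 5) (nat_lit 370) (nat_lit 355) (nat_lit 175)) (XT.lf (nat_lit 0) (nat_lit 141878659746) (nat_lit 380) (nat_lit 324549872819) (nat_lit 76) (nat_lit 93266813496) (nat_lit 64) (nat_lit 5) (nat_lit 69) (nat_lit 5) (nat_lit 65) (nat_lit 5) (nat_lit 371) (nat_lit 355) (nat_lit 174))))) (XT.nd (nat_lit 234) (nat_lit 608) (nat_lit 0) (XT.nd (nat_lit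 78) (nat_lit 304) (nat_lit 0) (XT.lf (nat_lit 0) (nat_lit 151710823032) (nat_lit 228) (nat_lit 145006375092) (nat_lit 304) (nat_lit 290334507536) (nat_lit 61) (nat_lit 5) (nat_lit 64) (nat_lit 5) (nat_lit 65) (nat_lit 5) (nat_lit 372) (nat_lit 355) (nat_lit 173)) (XT.nd (nat_lit 78) (nat_lit 76) (nat_lit 0) (XT.lf (nat_lit 0) (nat_lit 60020522380) (nat_lit 228) (nat_lit 413761276614) (nat_lit 304) (nat_lit 142322826099) (nat_lit 58) (nat_lit 5) (nat_lit 61) (nat_lit 5) (nat_lit 62) (nat_lit 5) (nat_lit 373) (nat_lit 355) (nat_lit 172)) (XT.lf (nat_lit 0) (nat_lit 27121428994) (nat_lit 304) (nat_lit 39389030589) (nat_lit 76) (nat_lit 580449998975) (nat_lit 57) (nat_lit 5) (nat_lit 61) (nat_lit 5) (nat_lit 58) (nat_lit 5) (nat_lit 374) (nat_lit 355) (nat_lit 171)))) (XT.nd (nat_lit 78) (nat_lit 380) (nat_lit 0) (XT.lf (nat_lit 0) (nat_lit 218520735196) (nat_lit 304) (nat_lit 151430105287)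 (nat_lit 76) (nat_lit 309547969731) (nat_lit 54) (nat_lit 5) (nat_lit 58) (nat_lit 5) (nat_lit 55) (nat_lit 5) (nat_lit 375) (nat_lit 355) (nat_lit 170)) (XT.nd (nat_lit 78) (nat_lit 152) (nat_lit 0) (XT.lf (nat_lit 0) (nat_lit 434036926732) (nat_lit 304) (nat_lit 273614945069) (nat_lit 76) (nat_lit 6548111186) (nat_lit 51) (nat_lit 5) (nat_lit 55) (nat_lit 5) (nat_lit 52) (nat_lit 5) (nat_lit 376) (nat_lit 355) (nat_lit 169)) (XT.lf (nat_lit 0) (nat_lit 338372231351) (nat_lit 152) (nat_lit 342624187590) (nat_lit 228) (nat_lit 69970730397) (nat_lit 49) (nat_lit 5) (nat_lit 51) (nat_lit 5) (nat_lit 52) (nat_lit 5) (nat_lit 377) (nat_lit 355) (nat_lit 168)))))) (XT.nd (nat_lit 468) (nat_lit 152) (nat_lit 0) (XT.nd (nat_lit 234) (nat_lit 532) (nat_lit 0) (XT.nd (nat_lit 78) (nat_lit 152) (nat_lit 0) (XT.lf (nat_lit 0) (nat_lit 161323407978) (nat_lit 304) (nat_lit 567851369467) (nat_lit 76)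 (nat_lit 60912692677) (nat_lit 45) (nat_lit 5) (nat_lit 49) (nat_lit 5) (nat_lit 46) (nat_lit 5) (nat_lit 378) (nat_lit 355) (nat_lit 167)) (XT.nd (nat_lit 78) (nat_lit 0) (nat_lit 0) (XT.lf (nat_lit 0) (nat_lit 86296209085) (nat_lit 152) (nat_lit 336835727413) (nat_lit 228) (nat_lit 408425012402) (nat_lit 43) (nat_lit 5) (nat_lit 45) (nat_lit 5) (nat_lit 46) (nat_lit 5) (nat_lit 379) (nat_lit 355) (nat_lit 166)) (XT.lf (nat_lit 0) (nat_lit 717295479010) (nat_lit 228) (nat_lit 64314837548) (nat_lit 76) (nat_lit 94163152856) (nat_lit 43) (nat_lit 5) (nat_lit 46) (nat_lit 5) (nat_lit 44) (nat_lit 5) (nat_lit 380) (nat_lit 355) (nat_lit 165)))) (XT.nd (nat_lit 78) (nat_lit 304) (nat_lit 0) (XT.lf (nat_lit 0) (nat_lit 124578606821) (nat_lit 228) (nat_lit 237286983919) (nat_lit 76) (nat_lit 560740637805) (nat_lit 40) (nat_lit 5) (nat_lit 43) (nat_lit 5) (nat_lit 41) (nat_lit 5) (nat_lit 381)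 (nat_lit 355) (nat_lit 164)) (XT.nd (nat_lit 78) (nat_lit 152) (nat_lit 0) (XT.lf (nat_lit 0) (nat_lit 435978271874) (nat_lit 228) (nat_lit 435562509575) (nat_lit 76) (nat_lit 100952385140) (nat_lit 38) (nat_lit 5) (nat_lit 41) (nat_lit 5) (nat_lit 39) (nat_lit 5) (nat_lit 382) (nat_lit 355) (nat_lit 163)) (XT.lf (nat_lit 0) (nat_lit 360772200725) (nat_lit 152) (nat_lit 427453207140) (nat_lit 228) (nat_lit 237348876938) (nat_lit 36) (nat_lit 5) (nat_lit 38) (nat_lit 5) (nat_lit 39) (nat_lit 5) (nat_lit 383) (nat_lit 355) (nat_lit 162))))) (XT.nd (nat_lit 44850) (nat_lit 0) (nat_lit 5092) (XT.nd (nat_lit 44694) (nat_lit 0) (nat_lit 5016) (XT.lf (nat_lit 0) (nat_lit 94178257038) (nat_lit 152) (nat_lit 925909379722) (nat_lit 76) (nat_lit 62188696315) (nat_lit 34) (nat_lit 5) (nat_lit 36) (nat_lit 5) (nat_lit 35) (nat_lit 5) (nat_lit 384) (nat_lit 355) (nat_lit 161)) (XT.nd (nat_lit 78) (nat_lit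 0) (nat_lit 76) (XT.lf (nat_lit 0) (nat_lit 16550032218) (nat_lit 836) (nat_lit 67552168338) (nat_lit 836) (nat_lit 67552168338) (nat_lit 100) (nat_lit 3) (nat_lit 111) (nat_lit 3) (nat_lit 111) (nat_lit 5) (nat_lit 356) (nat_lit 356) (nat_lit 188)) (XT.lf (nat_lit 0) (nat_lit 36911859215) (nat_lit 760) (nat_lit 218716035223) (nat_lit 836) (nat_lit 59688802111) (nat_lit 101) (nat_lit 5) (nat_lit 111) (nat_lit 5) (nat_lit 112) (nat_lit 5) (nat_lit 357) (nat_lit 356) (nat_lit 187)))) (XT.nd (nat_lit 78) (nat_lit 0) (nat_lit 76) (XT.lf (nat_lit 76) (nat_lit 21306017260) (nat_lit 0) (nat_lit 25283363421) (nat_lit 836) (nat_lit 281417872290) (nat_lit 102) (nat_lit 5) (nat_lit 101) (nat_lit 5) (nat_lit 112) (nat_lit 5) (nat_lit 358) (nat_lit 356) (nat_lit 186)) (XT.nd (nat_lit 78) (nat_lit 0) (nat_lit 76) (XT.lf (nat_lit 0) (nat_lit 64402638194) (nat_lit 760) (nat_lit 56734256909) (nat_lit 836)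 (nat_lit 220208082192) (nat_lit 102) (nat_lit 5) (nat_lit 112) (nat_lit 5) (nat_lit 113) (nat_lit 5) (nat_lit 359) (nat_lit 356) (nat_lit 185)) (XT.lf (nat_lit 0) (nat_lit 89565709691) (nat_lit 760) (nat_lit 137783052676) (nat_lit 836) (nat_lit 128104719626) (nat_lit 103) (nat_lit 5) (nat_lit 113) (nat_lit 5) (nat_lit 114) (nat_lit 5) (nat_lit 360) (nat_lit 356) (nat_lit 184))))))) (XT.nd (nat_lit 936) (nat_lit 2128) (nat_lit 0) (XT.nd (nat_lit 468) (nat_lit 1672) (nat_lit 0) (XT.nd (nat_lit 234) (nat_lit 1368) (nat_lit 0) (XT.nd (nat_lit 78) (nat_lit 0) (nat_lit 0) (XT.lf (nat_lit 0) (nat_lit 122506768182) (nat_lit 760) (nat_lit 222735270905) (nat_lit 836) (nat_lit 25160381008) (nat_lit 104) (nat_lit 5) (nat_lit 114) (nat_lit 5) (nat_lit 115) (nat_lit 5) (nat_lit 361) (nat_lit 356) (nat_lit 183)) (XT.nd (nat_lit 78) (nat_lit 0) (nat_lit 76) (XT.lf (nat_lit 76) (nat_lit 72906833006) (nat_lit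 0) (nat_lit 92587430439) (nat_lit 836) (nat_lit 220682452278) (nat_lit 105) (nat_lit 5) (nat_lit 104) (nat_lit 5) (nat_lit 115) (nat_lit 5) (nat_lit 362) (nat_lit 356) (nat_lit 182)) (XT.lf (nat_lit 0) (nat_lit 218678861222) (nat_lit 760) (nat_lit 5743191669) (nat_lit 76) (nat_lit 178452997044) (nat_lit 105) (nat_lit 5) (nat_lit 115) (nat_lit 5) (nat_lit 106) (nat_lit 5) (nat_lit 363) (nat_lit 356) (nat_lit 181)))) (XT.nd (nat_lit 78) (nat_lit 684) (nat_lit 0) (XT.lf (nat_lit 0) (nat_lit 283740405695) (nat_lit 836) (nat_lit 85826653080) (nat_lit 76) (nat_lit 50961083237) (nat_lit 95) (nat_lit 5) (nat_lit 106) (nat_lit 5) (nat_lit 96) (nat_lit 5) (nat_lit 364) (nat_lit 356) (nat_lit 180)) (XT.nd (nat_lit 78) (nat_lit 304) (nat_lit 0) (XT.lf (nat_lit 0) (nat_lit 267783218147) (nat_lit 380) (nat_lit 94290284756) (nat_lit 456) (nat_lit 77116647159) (nat_lit 90) (nat_lit 5) (nat_lit 95) (nat_lit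 5) (nat_lit 96) (nat_lit 5) (nat_lit 365) (nat_lit 356) (nat_lit 179)) (XT.lf (nat_lit 0) (nat_lit 196573838559) (nat_lit 304) (nat_lit 257857503494) (nat_lit 380) (nat_lit 4525872057) (nat_lit 86) (nat_lit 5) (nat_lit 90) (nat_lit 5) (nat_lit 91) (nat_lit 5) (nat_lit 366) (nat_lit 356) (nat_lit 178))))) (XT.nd (nat_lit 234) (nat_lit 912) (nat_lit 0) (XT.nd (nat_lit 78) (nat_lit 304) (nat_lit 0) (XT.lf (nat_lit 0) (nat_lit 78693769795) (nat_lit 456) (nat_lit 359554527000) (nat_lit 76) (nat_lit 41640380197) (nat_lit 80) (nat_lit 5) (nat_lit 86) (nat_lit 5) (nat_lit 81) (nat_lit 5) (nat_lit 367) (nat_lit 356) (nat_lit 177)) (XT.nd (nat_lit 78) (nat_lit 0) (nat_lit 0) (XT.lf (nat_lit 0) (nat_lit 37472680367) (nat_lit 304) (nat_lit 140520280332) (nat_lit 380) (nat_lit 324018959415) (nat_lit 76) (nat_lit 5) (nat_lit 80) (nat_lit 5) (nat_lit 81) (nat_lit 5) (nat_lit 368) (nat_lit 356) (nat_lit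 176)) (XT.lf (nat_lit 0) (nat_lit 294428240328) (nat_lit 380) (nat_lit 49419283192) (nat_lit 76) (nat_lit 181597891538) (nat_lit 76) (nat_lit 5) (nat_lit 81) (nat_lit 5) (nat_lit 77) (nat_lit 5) (nat_lit 369) (nat_lit 356) (nat_lit 175)))) (XT.nd (nat_lit 78) (nat_lit 608) (nat_lit 0) (XT.lf (nat_lit 0) (nat_lit 409652212023) (nat_lit 304) (nat_lit 19291329098) (nat_lit 380) (nat_lit 121371788580) (nat_lit 72) (nat_lit 5) (nat_lit 76) (nat_lit 5) (nat_lit 77) (nat_lit 5) (nat_lit 370) (nat_lit 356) (nat_lit 174)) (XT.nd (nat_lit 78) (nat_lit 304) (nat_lit 0) (XT.lf (nat_lit 0) (nat_lit 8611433370) (nat_lit 304) (nat_lit 241110056469) (nat_lit 76) (nat_lit 326882072641) (nat_lit 68) (nat_lit 5) (nat_lit 72) (nat_lit 5) (nat_lit 69) (nat_lit 5) (nat_lit 371) (nat_lit 356) (nat_lit 173)) (XT.lf (nat_lit 0) (nat_lit 153229842523) (nat_lit 380) (nat_lit 350512672853) (nat_lit 76) (nat_lit 100728413181)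 (nat_lit 64) (nat_lit 5) (nat_lit 69) (nat_lit 5) (nat_lit 65) (nat_lit 5) (nat_lit 372) (nat_lit 356) (nat_lit 172)))))) (XT.nd (nat_lit 468) (nat_lit 988) (nat_lit 0) (XT.nd (nat_lit 234) (nat_lit 608) (nat_lit 0) (XT.nd (nat_lit 78) (nat_lit 304) (nat_lit 0) (XT.lf (nat_lit 0) (nat_lit 163848826959) (nat_lit 228) (nat_lit 156606588855) (nat_lit 304) (nat_lit 313560383570) (nat_lit 61) (nat_lit 5) (nat_lit 64) (nat_lit 5) (nat_lit 65) (nat_lit 5) (nat_lit 373) (nat_lit 356) (nat_lit 171)) (XT.nd (nat_lit 78) (nat_lit 76) (nat_lit 0) (XT.lf (nat_lit 0) (nat_lit 64823289242) (nat_lit 228) (nat_lit 446861855001) (nat_lit 304) (nat_lit 153707810200) (nat_lit 58) (nat_lit 5) (nat_lit 61) (nat_lit 5) (nat_lit 62) (nat_lit 5) (nat_lit 374) (nat_lit 356) (nat_lit 170)) (XT.lf (nat_lit 0) (nat_lit 29291897977) (nat_lit 304) (nat_lit 42539085831) (nat_lit 76) (nat_lit 626886273182) (nat_lit 57)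 (nat_lit 5) (nat_lit 61) (nat_lit 5) (nat_lit 58) (nat_lit 5) (nat_lit 375) (nat_lit 356) (nat_lit 169)))) (XT.nd (nat_lit 78) (nat_lit 380) (nat_lit 0) (XT.lf (nat_lit 0) (nat_lit 236003113492) (nat_lit 304) (nat_lit 163543461447) (nat_lit 76) (nat_lit 334312103637) (nat_lit 54) (nat_lit 5) (nat_lit 58) (nat_lit 5) (nat_lit 55) (nat_lit 5) (nat_lit 376) (nat_lit 356) (nat_lit 168)) (XT.nd (nat_lit 78) (nat_lit 152) (nat_lit 0) (XT.lf (nat_lit 0) (nat_lit 468760567839) (nat_lit 304) (nat_lit 295503104670) (nat_lit 76) (nat_lit 7072274323) (nat_lit 51) (nat_lit 5) (nat_lit 55) (nat_lit 5) (nat_lit 52) (nat_lit 5) (nat_lit 377) (nat_lit 356) (nat_lit 167)) (XT.lf (nat_lit 0) (nat_lit 365443000841) (nat_lit 152) (nat_lit 370033783170) (nat_lit 228) (nat_lit 75567704284) (nat_lit 49) (nat_lit 5) (nat_lit 51) (nat_lit 5) (nat_lit 52) (nat_lit 5) (nat_lit 378) (nat_lit 356) (nat_lit 166))))) (XT.nd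 (nat_lit 234) (nat_lit 532) (nat_lit 0) (XT.nd (nat_lit 78) (nat_lit 152) (nat_lit 0) (XT.lf (nat_lit 0) (nat_lit 174229914617) (nat_lit 304) (nat_lit 613278483296) (nat_lit 76) (nat_lit 65786037755) (nat_lit 45) (nat_lit 5) (nat_lit 49) (nat_lit 5) (nat_lit 46) (nat_lit 5) (nat_lit 379) (nat_lit 356) (nat_lit 165)) (XT.nd (nat_lit 78) (nat_lit 0) (nat_lit 0) (XT.lf (nat_lit 0) (nat_lit 93200858267) (nat_lit 152) (nat_lit 363782235059) (nat_lit 228) (nat_lit 441098381054) (nat_lit 43) (nat_lit 5) (nat_lit 45) (nat_lit 5) (nat_lit 46) (nat_lit 5) (nat_lit 380) (nat_lit 356) (nat_lit 164)) (XT.lf (nat_lit 0) (nat_lit 774679679720) (nat_lit 228) (nat_lit 69459119538) (nat_lit 76) (nat_lit 101696519276) (nat_lit 43) (nat_lit 5) (nat_lit 46) (nat_lit 5) (nat_lit 44) (nat_lit 5) (nat_lit 381) (nat_lit 356) (nat_lit 163)))) (XT.nd (nat_lit 78) (nat_lit 304) (nat_lit 0) (XT.lf (nat_lit 0) (nat_lit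 134545438651) (nat_lit 228) (nat_lit 256269058711) (nat_lit 76) (nat_lit 605600202027) (nat_lit 40) (nat_lit 5) (nat_lit 43) (nat_lit 5) (nat_lit 41) (nat_lit 5) (nat_lit 382) (nat_lit 356) (nat_lit 162)) (XT.nd (nat_lit 78) (nat_lit 152) (nat_lit 0) (XT.lf (nat_lit 0) (nat_lit 470857055007) (nat_lit 228) (nat_lit 470406643908) (nat_lit 76) (nat_lit 109028894677) (nat_lit 38) (nat_lit 5) (nat_lit 41) (nat_lit 5) (nat_lit 39) (nat_lit 5) (nat_lit 383) (nat_lit 356) (nat_lit 161)) (XT.lf (nat_lit 0) (nat_lit 389634805561) (nat_lit 152) (nat_lit 461649130634) (nat_lit 228) (nat_lit 256336266371) (nat_lit 36) (nat_lit 5) (nat_lit 38) (nat_lit 5) (nat_lit 39) (nat_lit 5) (nat_lit 384) (nat_lit 356) (nat_lit 160))))))))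
noncomputable def xc122 : XT := (XT.nd (nat_lit 1794) (nat_lit 836) (nat_lit 0) (XT.nd (nat_lit 858) (nat_lit 2812) (nat_lit 0) (XT.nd (nat_lit 390) (nat_lit 1064) (nat_lit 0) (XT.nd (nat_lit 156) (nat_lit 0) (nat_lit 76) (XT.nd (nat_lit 78) (nat_lit 0) (nat_lit 76) (XT.lf (nat_lit 0) (nat_lit 17875089019) (nat_lit 836) (nat_lit 72955787781) (nat_lit 836) (nat_lit 72955787781) (nat_lit 100) (nat_lit 3) (nat_lit 111) (nat_lit 3) (nat_lit 111) (nat_lit 5) (nat_lit 357) (nat_lit 357) (nat_lit 186)) (XT.lf (nat_lit 0) (nat_lit 39866762575) (nat_lit 760) (nat_lit 236212143456) (nat_lit 836) (nat_lit 64463026451) (nat_lit 101) (nat_lit 5) (nat_lit 111) (nat_lit 5) (nat_lit 112) (nat_lit 5) (nat_lit 358) (nat_lit 357) (nat_lit 185))) (XT.nd (nat_lit 78) (nat_lit 0) (nat_lit 76) (XT.lf (nat_lit 76) (nat_lit 23011622180) (nat_lit 0) (nat_lit 27306736333) (nat_lit 836) (nat_lit 303929381419) (nat_lit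 102) (nat_lit 5) (nat_lit 101) (nat_lit 5) (nat_lit 112) (nat_lit 5) (nat_lit 359) (nat_lit 357) (nat_lit 184)) (XT.nd (nat_lit 78) (nat_lit 0) (nat_lit 76) (XT.lf (nat_lit 0) (nat_lit 69556531091) (nat_lit 760) (nat_lit 61271860605) (nat_lit 836) (nat_lit 237824097924) (nat_lit 102) (nat_lit 5) (nat_lit 112) (nat_lit 5) (nat_lit 113) (nat_lit 5) (nat_lit 360) (nat_lit 357) (nat_lit 183)) (XT.lf (nat_lit 0) (nat_lit 96732533105) (nat_lit 760) (nat_lit 148804521492) (nat_lit 836) (nat_lit 138352625988) (nat_lit 103) (nat_lit 5) (nat_lit 113) (nat_lit 5) (nat_lit 114) (nat_lit 5) (nat_lit 361) (nat_lit 357) (nat_lit 182))))) (XT.nd (nat_lit 234) (nat_lit 1368) (nat_lit 0) (XT.nd (nat_lit 78) (nat_lit 0) (nat_lit 0) (XT.lf (nat_lit 0) (nat_lit 132308772413) (nat_lit 760) (nat_lit 240552887970) (nat_lit 836) (nat_lit 27172878666) (nat_lit 104) (nat_lit 5) (nat_lit 114) (nat_lit 5) (nat_lit 115)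 (nat_lit 5) (nat_lit 362) (nat_lit 357) (nat_lit 181)) (XT.nd (nat_lit 78) (nat_lit 0) (nat_lit 76) (XT.lf (nat_lit 76) (nat_lit 78740531903) (nat_lit 0) (nat_lit 99994645030) (nat_lit 836) (nat_lit 238335606024) (nat_lit 105) (nat_lit 5) (nat_lit 104) (nat_lit 5) (nat_lit 115) (nat_lit 5) (nat_lit 363) (nat_lit 357) (nat_lit 180)) (XT.lf (nat_lit 0) (nat_lit 236174437690) (nat_lit 760) (nat_lit 6201512079) (nat_lit 76) (nat_lit 192729039483) (nat_lit 105) (nat_lit 5) (nat_lit 115) (nat_lit 5) (nat_lit 106) (nat_lit 5) (nat_lit 364) (nat_lit 357) (nat_lit 179)))) (XT.nd (nat_lit 78) (nat_lit 684) (nat_lit 0) (XT.lf (nat_lit 0) (nat_lit 306440827136) (nat_lit 836) (nat_lit 92691637352) (nat_lit 76) (nat_lit 55037868233) (nat_lit 95) (nat_lit 5) (nat_lit 106) (nat_lit 5) (nat_lit 96) (nat_lit 5) (nat_lit 365) (nat_lit 357) (nat_lit 178)) (XT.nd (nat_lit 78) (nat_lit 304) (nat_lit 0) (XT.lf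 (nat_lit 0) (nat_lit 289206973683) (nat_lit 380) (nat_lit 101833527509) (nat_lit 456) (nat_lit 83284803859) (nat_lit 90) (nat_lit 5) (nat_lit 95) (nat_lit 5) (nat_lit 96) (nat_lit 5) (nat_lit 366) (nat_lit 357) (nat_lit 177)) (XT.lf (nat_lit 0) (nat_lit 212300850844) (nat_lit 304) (nat_lit 278486050778) (nat_lit 380) (nat_lit 4886835976) (nat_lit 86) (nat_lit 5) (nat_lit 90) (nat_lit 5) (nat_lit 91) (nat_lit 5) (nat_lit 367) (nat_lit 357) (nat_lit 176)))))) (XT.nd (nat_lit 468) (nat_lit 1140) (nat_lit 0) (XT.nd (nat_lit 234) (nat_lit 912) (nat_lit 0) (XT.nd (nat_lit 78) (nat_lit 304) (nat_lit 0) (XT.lf (nat_lit 0) (nat_lit 84990280894) (nat_lit 456) (nat_lit 388317747184) (nat_lit 76) (nat_lit 44971691689) (nat_lit 80) (nat_lit 5) (nat_lit 86) (nat_lit 5) (nat_lit 81) (nat_lit 5) (nat_lit 368) (nat_lit 357) (nat_lit 175)) (XT.nd (nat_lit 78) (nat_lit 0) (nat_lit 0) (XT.lf (nat_lit 0) (nat_lit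 40471587144) (nat_lit 304) (nat_lit 151761762202) (nat_lit 380) (nat_lit 349939475946) (nat_lit 76) (nat_lit 5) (nat_lit 80) (nat_lit 5) (nat_lit 81) (nat_lit 5) (nat_lit 369) (nat_lit 357) (nat_lit 174)) (XT.lf (nat_lit 0) (nat_lit 317983382873) (nat_lit 380) (nat_lit 53371771603) (nat_lit 76) (nat_lit 196125848840) (nat_lit 76) (nat_lit 5) (nat_lit 81) (nat_lit 5) (nat_lit 77) (nat_lit 5) (nat_lit 370) (nat_lit 357) (nat_lit 173)))) (XT.nd (nat_lit 78) (nat_lit 608) (nat_lit 0) (XT.lf (nat_lit 0) (nat_lit 442425397413) (nat_lit 304) (nat_lit 20834460631) (nat_lit 380) (nat_lit 131080655630) (nat_lit 72) (nat_lit 5) (nat_lit 76) (nat_lit 5) (nat_lit 77) (nat_lit 5) (nat_lit 371) (nat_lit 357) (nat_lit 172)) (XT.nd (nat_lit 78) (nat_lit 304) (nat_lit 0) (XT.lf (nat_lit 0) (nat_lit 9301151700) (nat_lit 304) (nat_lit 260397831224) (nat_lit 76) (nat_lit 353032823734) (nat_lit 68) (nat_lit 5)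 (nat_lit 72) (nat_lit 5) (nat_lit 69) (nat_lit 5) (nat_lit 372) (nat_lit 357) (nat_lit 171)) (XT.lf (nat_lit 0) (nat_lit 165488992955) (nat_lit 380) (nat_lit 378552666627) (nat_lit 76) (nat_lit 108786904520) (nat_lit 64) (nat_lit 5) (nat_lit 69) (nat_lit 5) (nat_lit 65) (nat_lit 5) (nat_lit 373) (nat_lit 357) (nat_lit 170))))) (XT.nd (nat_lit 234) (nat_lit 608) (nat_lit 0) (XT.nd (nat_lit 78) (nat_lit 304) (nat_lit 0) (XT.lf (nat_lit 0) (nat_lit 176957708840) (nat_lit 228) (nat_lit 169134861983) (nat_lit 304) (nat_lit 338644455880) (nat_lit 61) (nat_lit 5) (nat_lit 64) (nat_lit 5) (nat_lit 65) (nat_lit 5) (nat_lit 374) (nat_lit 357) (nat_lit 169)) (XT.nd (nat_lit 78) (nat_lit 76) (nat_lit 0) (XT.lf (nat_lit 0) (nat_lit 70010116949) (nat_lit 228) (nat_lit 482610525845) (nat_lit 304) (nat_lit 166003713149) (nat_lit 58) (nat_lit 5) (nat_lit 61) (nat_lit 5) (nat_lit 62) (nat_lit 5) (nat_lit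 375) (nat_lit 357) (nat_lit 168)) (XT.lf (nat_lit 0) (nat_lit 31635896818) (nat_lit 304) (nat_lit 45941297741) (nat_lit 76) (nat_lit 677037410195) (nat_lit 57) (nat_lit 5) (nat_lit 61) (nat_lit 5) (nat_lit 58) (nat_lit 5) (nat_lit 376) (nat_lit 357) (nat_lit 167)))) (XT.nd (nat_lit 78) (nat_lit 380) (nat_lit 0) (XT.lf (nat_lit 0) (nat_lit 254883979410) (nat_lit 304) (nat_lit 176626036218) (nat_lit 76) (nat_lit 361057325980) (nat_lit 54) (nat_lit 5) (nat_lit 58) (nat_lit 5) (nat_lit 55) (nat_lit 5) (nat_lit 377) (nat_lit 357) (nat_lit 166)) (XT.nd (nat_lit 78) (nat_lit 152) (nat_lit 0) (XT.lf (nat_lit 0) (nat_lit 506262002231) (nat_lit 304) (nat_lit 319142464836) (nat_lit 76) (nat_lit 7638325681) (nat_lit 51) (nat_lit 5) (nat_lit 55) (nat_lit 5) (nat_lit 52) (nat_lit 5) (nat_lit 378) (nat_lit 357) (nat_lit 165)) (XT.lf (nat_lit 0) (nat_lit 394679290515) (nat_lit 152) (nat_lit 399636194820)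 (nat_lit 228) (nat_lit 81612533740) (nat_lit 49) (nat_lit 5) (nat_lit 51) (nat_lit 5) (nat_lit 52) (nat_lit 5) (nat_lit 379) (nat_lit 357) (nat_lit 164))))))) (XT.nd (nat_lit 45786) (nat_lit 0) (nat_lit 1444) (XT.nd (nat_lit 45318) (nat_lit 0) (nat_lit 4788) (XT.nd (nat_lit 312) (nat_lit 152) (nat_lit 0) (XT.nd (nat_lit 78) (nat_lit 380) (nat_lit 0) (XT.lf (nat_lit 0) (nat_lit 188168851340) (nat_lit 304) (nat_lit 662339908283) (nat_lit 76) (nat_lit 71049203409) (nat_lit 45) (nat_lit 5) (nat_lit 49) (nat_lit 5) (nat_lit 46) (nat_lit 5) (nat_lit 380) (nat_lit 357) (nat_lit 163)) (XT.nd (nat_lit 156) (nat_lit 228) (nat_lit 0) (XT.lf (nat_lit 0) (nat_lit 100657743505) (nat_lit 152) (nat_lit 392884513325) (nat_lit 228) (nat_lit 476385709409) (nat_lit 43) (nat_lit 5) (nat_lit 45) (nat_lit 5) (nat_lit 46) (nat_lit 5) (nat_lit 381) (nat_lit 357) (nat_lit 162)) (XT.lf (nat_lit 0) (nat_lit 145309539523)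 (nat_lit 228) (nat_lit 276769825588) (nat_lit 76) (nat_lit 654048486705) (nat_lit 40) (nat_lit 5) (nat_lit 43) (nat_lit 5) (nat_lit 41) (nat_lit 5) (nat_lit 383) (nat_lit 357) (nat_lit 160)))) (XT.nd (nat_lit 44850) (nat_lit 0) (nat_lit 4712) (XT.lf (nat_lit 0) (nat_lit 508526066409) (nat_lit 228) (nat_lit 508038432594) (nat_lit 76) (nat_lit 117751479508) (nat_lit 38) (nat_lit 5) (nat_lit 41) (nat_lit 5) (nat_lit 39) (nat_lit 5) (nat_lit 384) (nat_lit 357) (nat_lit 159)) (XT.nd (nat_lit 78) (nat_lit 0) (nat_lit 76) (XT.lf (nat_lit 0) (nat_lit 19305999967) (nat_lit 836) (nat_lit 78791775818) (nat_lit 836) (nat_lit 78791775818) (nat_lit 100) (nat_lit 3) (nat_lit 111) (nat_lit 3) (nat_lit 111) (nat_lit 5) (nat_lit 358) (nat_lit 358) (nat_lit 184)) (XT.lf (nat_lit 0) (nat_lit 43057779356) (nat_lit 760) (nat_lit 255108107915) (nat_lit 836) (nat_lit 69619314255) (nat_lit 101) (nat_lit 5) (nat_lit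 111) (nat_lit 5) (nat_lit 112) (nat_lit 5) (nat_lit 359) (nat_lit 358) (nat_lit 183))))) (XT.nd (nat_lit 234) (nat_lit 0) (nat_lit 228) (XT.nd (nat_lit 78) (nat_lit 0) (nat_lit 76) (XT.lf (nat_lit 76) (nat_lit 24853515209) (nat_lit 0) (nat_lit 29491878667) (nat_lit 836) (nat_lit 328242085281) (nat_lit 102) (nat_lit 5) (nat_lit 101) (nat_lit 5) (nat_lit 112) (nat_lit 5) (nat_lit 360) (nat_lit 358) (nat_lit 182)) (XT.nd (nat_lit 78) (nat_lit 0) (nat_lit 76) (XT.lf (nat_lit 0) (nat_lit 75122495486) (nat_lit 760) (nat_lit 66172634781) (nat_lit 836) (nat_lit 256849484912) (nat_lit 102) (nat_lit 5) (nat_lit 112) (nat_lit 5) (nat_lit 113) (nat_lit 5) (nat_lit 361) (nat_lit 358) (nat_lit 181)) (XT.lf (nat_lit 0) (nat_lit 104472478894) (nat_lit 760) (nat_lit 160707875497) (nat_lit 836) (nat_lit 149420432082) (nat_lit 103) (nat_lit 5) (nat_lit 113) (nat_lit 5) (nat_lit 114) (nat_lit 5) (nat_lit 362)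 (nat_lit 358) (nat_lit 180)))) (XT.nd (nat_lit 78) (nat_lit 0) (nat_lit 0) (XT.lf (nat_lit 0) (nat_lit 142894728302) (nat_lit 760) (nat_lit 259796086251) (nat_lit 836) (nat_lit 29346423617) (nat_lit 104) (nat_lit 5) (nat_lit 114) (nat_lit 5) (nat_lit 115) (nat_lit 5) (nat_lit 363) (nat_lit 358) (nat_lit 179)) (XT.nd (nat_lit 78) (nat_lit 0) (nat_lit 76) (XT.lf (nat_lit 76) (nat_lit 85040762330) (nat_lit 0) (nat_lit 107994405381) (nat_lit 836) (nat_lit 257401217850) (nat_lit 105) (nat_lit 5) (nat_lit 104) (nat_lit 5) (nat_lit 115) (nat_lit 5) (nat_lit 364) (nat_lit 358) (nat_lit 178)) (XT.lf (nat_lit 0) (nat_lit 255069479442) (nat_lit 760) (nat_lit 6696660032) (nat_lit 76) (nat_lit 208147193468) (nat_lit 105) (nat_lit 5) (nat_lit 115) (nat_lit 5) (nat_lit 106) (nat_lit 5) (nat_lit 365) (nat_lit 358) (nat_lit 177)))))) (XT.nd (nat_lit 468) (nat_lit 1444) (nat_lit 0) (XT.nd (nat_lit 234) (nat_lit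 760) (nat_lit 0) (XT.nd (nat_lit 78) (nat_lit 684) (nat_lit 0) (XT.lf (nat_lit 0) (nat_lit 330957112670) (nat_lit 836) (nat_lit 100105984137) (nat_lit 76) (nat_lit 59440810532) (nat_lit 95) (nat_lit 5) (nat_lit 106) (nat_lit 5) (nat_lit 96) (nat_lit 5) (nat_lit 366) (nat_lit 358) (nat_lit 176)) (XT.nd (nat_lit 78) (nat_lit 304) (nat_lit 0) (XT.lf (nat_lit 0) (nat_lit 312344473009) (nat_lit 380) (nat_lit 109980226833) (nat_lit 456) (nat_lit 89946580732) (nat_lit 90) (nat_lit 5) (nat_lit 95) (nat_lit 5) (nat_lit 96) (nat_lit 5) (nat_lit 367) (nat_lit 358) (nat_lit 175)) (XT.lf (nat_lit 0) (nat_lit 229285866442) (nat_lit 304) (nat_lit 300764889405) (nat_lit 380) (nat_lit 5276834770) (nat_lit 86) (nat_lit 5) (nat_lit 90) (nat_lit 5) (nat_lit 91) (nat_lit 5) (nat_lit 368) (nat_lit 358) (nat_lit 174)))) (XT.nd (nat_lit 78) (nat_lit 304) (nat_lit 0) (XT.lf (nat_lit 0) (nat_lit 91790368861) (nat_lit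 456) (nat_lit 419382187899) (nat_lit 76) (nat_lit 48569496534) (nat_lit 80) (nat_lit 5) (nat_lit 86) (nat_lit 5) (nat_lit 81) (nat_lit 5) (nat_lit 369) (nat_lit 358) (nat_lit 173)) (XT.nd (nat_lit 78) (nat_lit 0) (nat_lit 0) (XT.lf (nat_lit 0) (nat_lit 43710250627) (nat_lit 304) (nat_lit 163902582674) (nat_lit 380) (nat_lit 377933776492) (nat_lit 76) (nat_lit 5) (nat_lit 80) (nat_lit 5) (nat_lit 81) (nat_lit 5) (nat_lit 370) (nat_lit 358) (nat_lit 172)) (XT.lf (nat_lit 0) (nat_lit 343422810808) (nat_lit 380) (nat_lit 57640609487) (nat_lit 76) (nat_lit 211816024755) (nat_lit 76) (nat_lit 5) (nat_lit 81) (nat_lit 5) (nat_lit 77) (nat_lit 5) (nat_lit 371) (nat_lit 358) (nat_lit 171))))) (XT.nd (nat_lit 234) (nat_lit 532) (nat_lit 0) (XT.nd (nat_lit 78) (nat_lit 608) (nat_lit 0) (XT.lf (nat_lit 0) (nat_lit 477820293771) (nat_lit 304) (nat_lit 22501067622) (nat_lit 380) (nat_lit 141566357021)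 (nat_lit 72) (nat_lit 5) (nat_lit 76) (nat_lit 5) (nat_lit 77) (nat_lit 5) (nat_lit 372) (nat_lit 358) (nat_lit 170)) (XT.nd (nat_lit 78) (nat_lit 304) (nat_lit 0) (XT.lf (nat_lit 0) (nat_lit 10045932846) (nat_lit 304) (nat_lit 281228774867) (nat_lit 76) (nat_lit 381275608483) (nat_lit 68) (nat_lit 5) (nat_lit 72) (nat_lit 5) (nat_lit 69) (nat_lit 5) (nat_lit 373) (nat_lit 358) (nat_lit 169)) (XT.lf (nat_lit 0) (nat_lit 178728766566) (nat_lit 380) (nat_lit 408836005426) (nat_lit 76) (nat_lit 117490044024) (nat_lit 64) (nat_lit 5) (nat_lit 69) (nat_lit 5) (nat_lit 65) (nat_lit 5) (nat_lit 374) (nat_lit 358) (nat_lit 168)))) (XT.nd (nat_lit 78) (nat_lit 304) (nat_lit 0) (XT.lf (nat_lit 0) (nat_lit 191115162073) (nat_lit 228) (nat_lit 182665433194) (nat_lit 304) (nat_lit 365735362166) (nat_lit 61) (nat_lit 5) (nat_lit 64) (nat_lit 5) (nat_lit 65) (nat_lit 5) (nat_lit 375) (nat_lit 358) (nat_lit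 167)) (XT.nd (nat_lit 78) (nat_lit 76) (nat_lit 0) (XT.lf (nat_lit 0) (nat_lit 75611753266) (nat_lit 228) (nat_lit 521219129953) (nat_lit 304) (nat_lit 179283391316) (nat_lit 58) (nat_lit 5) (nat_lit 61) (nat_lit 5) (nat_lit 62) (nat_lit 5) (nat_lit 376) (nat_lit 358) (nat_lit 166)) (XT.lf (nat_lit 0) (nat_lit 34167323265) (nat_lit 304) (nat_lit 49615817132) (nat_lit 76) (nat_lit 731200604620) (nat_lit 57) (nat_lit 5) (nat_lit 61) (nat_lit 5) (nat_lit 58) (nat_lit 5) (nat_lit 377) (nat_lit 358) (nat_lit 165))))))))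
noncomputable def xc123 : XT := (XT.nd (nat_lit 46800) (nat_lit 0) (nat_lit 0) (XT.nd (nat_lit 45864) (nat_lit 0) (nat_lit 1368) (XT.nd (nat_lit 45396) (nat_lit 0) (nat_lit 4332) (XT.nd (nat_lit 156) (nat_lit 608) (nat_lit 0) (XT.nd (nat_lit 78) (nat_lit 228) (nat_lit 0) (XT.lf (nat_lit 0) (nat_lit 275275226602) (nat_lit 304) (nat_lit 190755345671) (nat_lit 76) (nat_lit 389942129868) (nat_lit 54) (nat_lit 5) (nat_lit 58) (nat_lit 5) (nat_lit 55) (nat_lit 5) (nat_lit 378) (nat_lit 358) (nat_lit 164)) (XT.lf (nat_lit 0) (nat_lit 546763467352) (nat_lit 304) (nat_lit 344673100529) (nat_lit 76) (nat_lit 8249622712) (nat_lit 51) (nat_lit 5) (nat_lit 55) (nat_lit 5) (nat_lit 52) (nat_lit 5) (nat_lit 379) (nat_lit 358) (nat_lit 163))) (XT.nd (nat_lit 78) (nat_lit 456) (nat_lit 0) (XT.lf (nat_lit 0) (nat_lit 426254362157) (nat_lit 152) (nat_lit 431606840916) (nat_lit 228) (nat_lit 88141033279) (nat_lit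 49) (nat_lit 5) (nat_lit 51) (nat_lit 5) (nat_lit 52) (nat_lit 5) (nat_lit 380) (nat_lit 358) (nat_lit 162)) (XT.nd (nat_lit 156) (nat_lit 152) (nat_lit 0) (XT.lf (nat_lit 0) (nat_lit 203222825456) (nat_lit 304) (nat_lit 715326369055) (nat_lit 76) (nat_lit 76733381995) (nat_lit 45) (nat_lit 5) (nat_lit 49) (nat_lit 5) (nat_lit 46) (nat_lit 5) (nat_lit 381) (nat_lit 358) (nat_lit 161)) (XT.lf (nat_lit 0) (nat_lit 903587312531) (nat_lit 228) (nat_lit 81015613842) (nat_lit 76) (nat_lit 118619341943) (nat_lit 43) (nat_lit 5) (nat_lit 46) (nat_lit 5) (nat_lit 44) (nat_lit 5) (nat_lit 383) (nat_lit 358) (nat_lit 159))))) (XT.nd (nat_lit 234) (nat_lit 0) (nat_lit 152) (XT.nd (nat_lit 78) (nat_lit 0) (nat_lit 76) (XT.lf (nat_lit 0) (nat_lit 20851254850) (nat_lit 836) (nat_lit 85094710659) (nat_lit 836) (nat_lit 85094710659) (nat_lit 100) (nat_lit 3) (nat_lit 111) (nat_lit 3) (nat_lit 111) (nat_lit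 5) (nat_lit 359) (nat_lit 359) (nat_lit 182)) (XT.nd (nat_lit 78) (nat_lit 0) (nat_lit 0) (XT.lf (nat_lit 0) (nat_lit 46503838410) (nat_lit 760) (nat_lit 275515893193) (nat_lit 836) (nat_lit 75188212695) (nat_lit 101) (nat_lit 5) (nat_lit 111) (nat_lit 5) (nat_lit 112) (nat_lit 5) (nat_lit 360) (nat_lit 359) (nat_lit 181)) (XT.lf (nat_lit 76) (nat_lit 26842622260) (nat_lit 0) (nat_lit 31851746303) (nat_lit 836) (nat_lit 354500040365) (nat_lit 102) (nat_lit 5) (nat_lit 101) (nat_lit 5) (nat_lit 112) (nat_lit 5) (nat_lit 361) (nat_lit 359) (nat_lit 180)))) (XT.nd (nat_lit 78) (nat_lit 0) (nat_lit 76) (XT.lf (nat_lit 0) (nat_lit 81133531329) (nat_lit 760) (nat_lit 71465609940) (nat_lit 836) (nat_lit 277396980016) (nat_lit 102) (nat_lit 5) (nat_lit 112) (nat_lit 5) (nat_lit 113) (nat_lit 5) (nat_lit 362) (nat_lit 359) (nat_lit 179)) (XT.nd (nat_lit 78) (nat_lit 0) (nat_lit 76) (XT.lf (nat_lit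 0) (nat_lit 112831428731) (nat_lit 760) (nat_lit 173563641584) (nat_lit 836) (nat_lit 161373720297) (nat_lit 103) (nat_lit 5) (nat_lit 113) (nat_lit 5) (nat_lit 114) (nat_lit 5) (nat_lit 363) (nat_lit 359) (nat_lit 178)) (XT.lf (nat_lit 0) (nat_lit 154327381750) (nat_lit 760) (nat_lit 280578887729) (nat_lit 836) (nat_lit 31693892871) (nat_lit 104) (nat_lit 5) (nat_lit 114) (nat_lit 5) (nat_lit 115) (nat_lit 5) (nat_lit 364) (nat_lit 359) (nat_lit 177)))))) (XT.nd (nat_lit 468) (nat_lit 1444) (nat_lit 0) (XT.nd (nat_lit 234) (nat_lit 1140) (nat_lit 0) (XT.nd (nat_lit 78) (nat_lit 684) (nat_lit 0) (XT.lf (nat_lit 76) (nat_lit 91844870259) (nat_lit 0) (nat_lit 116634119634) (nat_lit 836) (nat_lit 277992255044) (nat_lit 105) (nat_lit 5) (nat_lit 104) (nat_lit 5) (nat_lit 115) (nat_lit 5) (nat_lit 365) (nat_lit 359) (nat_lit 176)) (XT.nd (nat_lit 78) (nat_lit 760) (nat_lit 0) (XT.lf (nat_lit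 0) (nat_lit 275475969500) (nat_lit 760) (nat_lit 7231558632) (nat_lit 76) (nat_lit 224798823907) (nat_lit 105) (nat_lit 5) (nat_lit 115) (nat_lit 5) (nat_lit 106) (nat_lit 5) (nat_lit 366) (nat_lit 359) (nat_lit 175)) (XT.lf (nat_lit 0) (nat_lit 357434555624) (nat_lit 836) (nat_lit 108113619073) (nat_lit 76) (nat_lit 64196000650) (nat_lit 95) (nat_lit 5) (nat_lit 106) (nat_lit 5) (nat_lit 96) (nat_lit 5) (nat_lit 367) (nat_lit 359) (nat_lit 174)))) (XT.nd (nat_lit 78) (nat_lit 760) (nat_lit 0) (XT.lf (nat_lit 0) (nat_lit 337332837974) (nat_lit 380) (nat_lit 118778659660) (nat_lit 456) (nat_lit 97141443477) (nat_lit 90) (nat_lit 5) (nat_lit 95) (nat_lit 5) (nat_lit 96) (nat_lit 5) (nat_lit 368) (nat_lit 359) (nat_lit 173)) (XT.nd (nat_lit 78) (nat_lit 456) (nat_lit 0) (XT.lf (nat_lit 0) (nat_lit 247629548113) (nat_lit 304) (nat_lit 324826041604) (nat_lit 380) (nat_lit 5698168722) (nat_lit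 86) (nat_lit 5) (nat_lit 90) (nat_lit 5) (nat_lit 91) (nat_lit 5) (nat_lit 369) (nat_lit 359) (nat_lit 172)) (XT.lf (nat_lit 0) (nat_lit 99134340394) (nat_lit 456) (nat_lit 452931923544) (nat_lit 76) (nat_lit 52455115850) (nat_lit 80) (nat_lit 5) (nat_lit 86) (nat_lit 5) (nat_lit 81) (nat_lit 5) (nat_lit 370) (nat_lit 359) (nat_lit 171))))) (XT.nd (nat_lit 234) (nat_lit 836) (nat_lit 0) (XT.nd (nat_lit 78) (nat_lit 304) (nat_lit 0) (XT.lf (nat_lit 0) (nat_lit 47207873584) (nat_lit 304) (nat_lit 177014685974) (nat_lit 380) (nat_lit 408167743419) (nat_lit 76) (nat_lit 5) (nat_lit 80) (nat_lit 5) (nat_lit 81) (nat_lit 5) (nat_lit 371) (nat_lit 359) (nat_lit 170)) (XT.nd (nat_lit 78) (nat_lit 304) (nat_lit 0) (XT.lf (nat_lit 0) (nat_lit 370897284939) (nat_lit 380) (nat_lit 62251083345) (nat_lit 76) (nat_lit 228761399334) (nat_lit 76) (nat_lit 5) (nat_lit 81) (nat_lit 5) (nat_lit 77) (nat_lit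 5) (nat_lit 372) (nat_lit 359) (nat_lit 169)) (XT.lf (nat_lit 0) (nat_lit 516046658498) (nat_lit 304) (nat_lit 24301024553) (nat_lit 380) (nat_lit 152891021670) (nat_lit 72) (nat_lit 5) (nat_lit 76) (nat_lit 5) (nat_lit 77) (nat_lit 5) (nat_lit 373) (nat_lit 359) (nat_lit 168)))) (XT.nd (nat_lit 78) (nat_lit 532) (nat_lit 0) (XT.lf (nat_lit 0) (nat_lit 10850198188) (nat_lit 304) (nat_lit 303726319950) (nat_lit 76) (nat_lit 411777793350) (nat_lit 68) (nat_lit 5) (nat_lit 72) (nat_lit 5) (nat_lit 69) (nat_lit 5) (nat_lit 374) (nat_lit 359) (nat_lit 167)) (XT.nd (nat_lit 78) (nat_lit 228) (nat_lit 0) (XT.lf (nat_lit 0) (nat_lit 193027628741) (nat_lit 380) (nat_lit 441542136090) (nat_lit 76) (nat_lit 126889407991) (nat_lit 64) (nat_lit 5) (nat_lit 69) (nat_lit 5) (nat_lit 65) (nat_lit 5) (nat_lit 375) (nat_lit 359) (nat_lit 166)) (XT.lf (nat_lit 0) (nat_lit 206405092225) (nat_lit 228) (nat_lit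 197278481166) (nat_lit 304) (nat_lit 394993633710) (nat_lit 61) (nat_lit 5) (nat_lit 64) (nat_lit 5) (nat_lit 65) (nat_lit 5) (nat_lit 376) (nat_lit 359) (nat_lit 165))))))) (XT.nd (nat_lit 46020) (nat_lit 0) (nat_lit 1368) (XT.nd (nat_lit 45552) (nat_lit 0) (nat_lit 4332) (XT.nd (nat_lit 234) (nat_lit 836) (nat_lit 0) (XT.nd (nat_lit 78) (nat_lit 304) (nat_lit 0) (XT.lf (nat_lit 0) (nat_lit 81661402514) (nat_lit 228) (nat_lit 562916456338) (nat_lit 304) (nat_lit 193625532028) (nat_lit 58) (nat_lit 5) (nat_lit 61) (nat_lit 5) (nat_lit 62) (nat_lit 5) (nat_lit 377) (nat_lit 359) (nat_lit 164)) (XT.nd (nat_lit 78) (nat_lit 228) (nat_lit 0) (XT.lf (nat_lit 0) (nat_lit 36901184692) (nat_lit 304) (nat_lit 53584409982) (nat_lit 76) (nat_lit 789696825838) (nat_lit 57) (nat_lit 5) (nat_lit 61) (nat_lit 5) (nat_lit 58) (nat_lit 5) (nat_lit 378) (nat_lit 359) (nat_lit 163)) (XT.lf (nat_lit 0) (nat_lit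 297297698125) (nat_lit 304) (nat_lit 206015110220) (nat_lit 76) (nat_lit 421137686994) (nat_lit 54) (nat_lit 5) (nat_lit 58) (nat_lit 5) (nat_lit 55) (nat_lit 5) (nat_lit 379) (nat_lit 359) (nat_lit 162)))) (XT.nd (nat_lit 78) (nat_lit 608) (nat_lit 0) (XT.lf (nat_lit 0) (nat_lit 590504977647) (nat_lit 304) (nat_lit 372246295712) (nat_lit 76) (nat_lit 8909790555) (nat_lit 51) (nat_lit 5) (nat_lit 55) (nat_lit 5) (nat_lit 52) (nat_lit 5) (nat_lit 380) (nat_lit 359) (nat_lit 161)) (XT.nd (nat_lit 156) (nat_lit 456) (nat_lit 0) (XT.lf (nat_lit 0) (nat_lit 460355335616) (nat_lit 152) (nat_lit 466135174293) (nat_lit 228) (nat_lit 95191884562) (nat_lit 49) (nat_lit 5) (nat_lit 51) (nat_lit 5) (nat_lit 52) (nat_lit 5) (nat_lit 381) (nat_lit 359) (nat_lit 160)) (XT.lf (nat_lit 0) (nat_lit 117408548323) (nat_lit 152) (nat_lit 458259997163) (nat_lit 228) (nat_lit 555655391001) (nat_lit 43) (nat_lit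 5) (nat_lit 45) (nat_lit 5) (nat_lit 46) (nat_lit 5) (nat_lit 383) (nat_lit 359) (nat_lit 158))))) (XT.nd (nat_lit 234) (nat_lit 0) (nat_lit 152) (XT.nd (nat_lit 78) (nat_lit 0) (nat_lit 76) (XT.lf (nat_lit 0) (nat_lit 22520019578) (nat_lit 836) (nat_lit 91901938383) (nat_lit 836) (nat_lit 91901938383) (nat_lit 100) (nat_lit 3) (nat_lit 111) (nat_lit 3) (nat_lit 111) (nat_lit 5) (nat_lit 360) (nat_lit 360) (nat_lit 180)) (XT.nd (nat_lit 78) (nat_lit 0) (nat_lit 0) (XT.lf (nat_lit 0) (nat_lit 50225377227) (nat_lit 760) (nat_lit 297556424460) (nat_lit 836) (nat_lit 81202715269) (nat_lit 101) (nat_lit 5) (nat_lit 111) (nat_lit 5) (nat_lit 112) (nat_lit 5) (nat_lit 361) (nat_lit 360) (nat_lit 179)) (XT.lf (nat_lit 76) (nat_lit 28990740062) (nat_lit 0) (nat_lit 34400329545) (nat_lit 836) (nat_lit 382858833256) (nat_lit 102) (nat_lit 5) (nat_lit 101) (nat_lit 5) (nat_lit 112) (nat_lit 5) (nat_lit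 362) (nat_lit 360) (nat_lit 178)))) (XT.nd (nat_lit 78) (nat_lit 0) (nat_lit 76) (XT.lf (nat_lit 0) (nat_lit 87625273680) (nat_lit 760) (nat_lit 77182142323) (nat_lit 836) (nat_lit 299588340879) (nat_lit 102) (nat_lit 5) (nat_lit 112) (nat_lit 5) (nat_lit 113) (nat_lit 5) (nat_lit 363) (nat_lit 360) (nat_lit 177)) (XT.nd (nat_lit 78) (nat_lit 0) (nat_lit 76) (XT.lf (nat_lit 0) (nat_lit 121858930278) (nat_lit 760) (nat_lit 187447992210) (nat_lit 836) (nat_lit 174283320980) (nat_lit 103) (nat_lit 5) (nat_lit 113) (nat_lit 5) (nat_lit 114) (nat_lit 5) (nat_lit 364) (nat_lit 360) (nat_lit 176)) (XT.lf (nat_lit 0) (nat_lit 166674494088) (nat_lit 760) (nat_lit 303024439640) (nat_lit 836) (nat_lit 34229194566) (nat_lit 104) (nat_lit 5) (nat_lit 114) (nat_lit 5) (nat_lit 115) (nat_lit 5) (nat_lit 365) (nat_lit 360) (nat_lit 175)))))) (XT.nd (nat_lit 468) (nat_lit 1444) (nat_lit 0) (XT.nd (nat_lit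 234) (nat_lit 1140) (nat_lit 0) (XT.nd (nat_lit 78) (nat_lit 684) (nat_lit 0) (XT.lf (nat_lit 76) (nat_lit 99193185997) (nat_lit 0) (nat_lit 125964987940) (nat_lit 836) (nat_lit 300230726468) (nat_lit 105) (nat_lit 5) (nat_lit 104) (nat_lit 5) (nat_lit 115) (nat_lit 5) (nat_lit 366) (nat_lit 360) (nat_lit 174)) (XT.nd (nat_lit 78) (nat_lit 760) (nat_lit 0) (XT.lf (nat_lit 0) (nat_lit 297514845844) (nat_lit 760) (nat_lit 7809368129) (nat_lit 76) (nat_lit 242782605471) (nat_lit 105) (nat_lit 5) (nat_lit 115) (nat_lit 5) (nat_lit 106) (nat_lit 5) (nat_lit 367) (nat_lit 360) (nat_lit 173)) (XT.lf (nat_lit 0) (nat_lit 386030069336) (nat_lit 836) (nat_lit 116761985180) (nat_lit 76) (nat_lit 69331616637) (nat_lit 95) (nat_lit 5) (nat_lit 106) (nat_lit 5) (nat_lit 96) (nat_lit 5) (nat_lit 368) (nat_lit 360) (nat_lit 172)))) (XT.nd (nat_lit 78) (nat_lit 760) (nat_lit 0) (XT.lf (nat_lit 0) (nat_lit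 364320156992) (nat_lit 380) (nat_lit 128280965018) (nat_lit 456) (nat_lit 104912018460) (nat_lit 90) (nat_lit 5) (nat_lit 95) (nat_lit 5) (nat_lit 96) (nat_lit 5) (nat_lit 369) (nat_lit 360) (nat_lit 171)) (XT.nd (nat_lit 78) (nat_lit 456) (nat_lit 0) (XT.lf (nat_lit 0) (nat_lit 267440608425) (nat_lit 304) (nat_lit 350812091537) (nat_lit 380) (nat_lit 6153325350) (nat_lit 86) (nat_lit 5) (nat_lit 90) (nat_lit 5) (nat_lit 91) (nat_lit 5) (nat_lit 370) (nat_lit 360) (nat_lit 170)) (XT.lf (nat_lit 0) (nat_lit 107065723791) (nat_lit 456) (nat_lit 489165757789) (nat_lit 76) (nat_lit 56651576210) (nat_lit 80) (nat_lit 5) (nat_lit 86) (nat_lit 5) (nat_lit 81) (nat_lit 5) (nat_lit 371) (nat_lit 360) (nat_lit 169))))) (XT.nd (nat_lit 234) (nat_lit 836) (nat_lit 0) (XT.nd (nat_lit 78) (nat_lit 304) (nat_lit 0) (XT.lf (nat_lit 0) (nat_lit 50985191835) (nat_lit 304) (nat_lit 191175772278) (nat_lit 380)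 (nat_lit 440820532583) (nat_lit 76) (nat_lit 5) (nat_lit 80) (nat_lit 5) (nat_lit 81) (nat_lit 5) (nat_lit 372) (nat_lit 360) (nat_lit 168)) (XT.nd (nat_lit 78) (nat_lit 304) (nat_lit 0) (XT.lf (nat_lit 0) (nat_lit 400569624375) (nat_lit 380) (nat_lit 67230505660) (nat_lit 76) (nat_lit 247062390669) (nat_lit 76) (nat_lit 5) (nat_lit 81) (nat_lit 5) (nat_lit 77) (nat_lit 5) (nat_lit 373) (nat_lit 360) (nat_lit 167)) (XT.lf (nat_lit 0) (nat_lit 557331026658) (nat_lit 304) (nat_lit 26244996366) (nat_lit 380) (nat_lit 165121751352) (nat_lit 72) (nat_lit 5) (nat_lit 76) (nat_lit 5) (nat_lit 77) (nat_lit 5) (nat_lit 374) (nat_lit 360) (nat_lit 166)))) (XT.nd (nat_lit 78) (nat_lit 532) (nat_lit 0) (XT.lf (nat_lit 0) (nat_lit 11718720485) (nat_lit 304) (nat_lit 328023776621) (nat_lit 76) (nat_lit 444720133577) (nat_lit 68) (nat_lit 5) (nat_lit 72) (nat_lit 5) (nat_lit 69) (nat_lit 5) (nat_lit 375)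 (nat_lit 360) (nat_lit 165)) (XT.nd (nat_lit 78) (nat_lit 228) (nat_lit 0) (XT.lf (nat_lit 0) (nat_lit 208470319878) (nat_lit 380) (nat_lit 476864864170) (nat_lit 76) (nat_lit 137040698186) (nat_lit 64) (nat_lit 5) (nat_lit 69) (nat_lit 5) (nat_lit 65) (nat_lit 5) (nat_lit 376) (nat_lit 360) (nat_lit 164)) (XT.lf (nat_lit 0) (nat_lit 222918114474) (nat_lit 228) (nat_lit 213060599608) (nat_lit 304) (nat_lit 426592646502) (nat_lit 61) (nat_lit 5) (nat_lit 64) (nat_lit 5) (nat_lit 65) (nat_lit 5) (nat_lit 377) (nat_lit 360) (nat_lit 163))))))))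
noncomputable def xc124 : XT := (XT.nd (nat_lit 46878) (nat_lit 0) (nat_lit 456) (XT.nd (nat_lit 45942) (nat_lit 0) (nat_lit 1444) (XT.nd (nat_lit 390) (nat_lit 304) (nat_lit 0) (XT.nd (nat_lit 156) (nat_lit 608) (nat_lit 0) (XT.nd (nat_lit 78) (nat_lit 76) (nat_lit 0) (XT.lf (nat_lit 0) (nat_lit 88194922556) (nat_lit 228) (nat_lit 607949597937) (nat_lit 304) (nat_lit 209115119691) (nat_lit 58) (nat_lit 5) (nat_lit 61) (nat_lit 5) (nat_lit 62) (nat_lit 5) (nat_lit 378) (nat_lit 360) (nat_lit 162)) (XT.lf (nat_lit 0) (nat_lit 39853687189) (nat_lit 304) (nat_lit 57870586203) (nat_lit 76) (nat_lit 852872720095) (nat_lit 57) (nat_lit 5) (nat_lit 61) (nat_lit 5) (nat_lit 58) (nat_lit 5) (nat_lit 379) (nat_lit 360) (nat_lit 161))) (XT.nd (nat_lit 78) (nat_lit 380) (nat_lit 0) (XT.lf (nat_lit 0) (nat_lit 321081902688) (nat_lit 304) (nat_lit 222495750533) (nat_lit 76) (nat_lit 454828862050) (nat_lit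 54) (nat_lit 5) (nat_lit 58) (nat_lit 5) (nat_lit 55) (nat_lit 5) (nat_lit 380) (nat_lit 360) (nat_lit 160)) (XT.nd (nat_lit 78) (nat_lit 152) (nat_lit 0) (XT.lf (nat_lit 0) (nat_lit 637745747007) (nat_lit 304) (nat_lit 402025439648) (nat_lit 76) (nat_lit 9622743574) (nat_lit 51) (nat_lit 5) (nat_lit 55) (nat_lit 5) (nat_lit 52) (nat_lit 5) (nat_lit 381) (nat_lit 360) (nat_lit 159)) (XT.lf (nat_lit 0) (nat_lit 497184297861) (nat_lit 152) (nat_lit 503425804855) (nat_lit 228) (nat_lit 102806865489) (nat_lit 49) (nat_lit 5) (nat_lit 51) (nat_lit 5) (nat_lit 52) (nat_lit 5) (nat_lit 382) (nat_lit 360) (nat_lit 158))))) (XT.nd (nat_lit 45318) (nat_lit 0) (nat_lit 4256) (XT.nd (nat_lit 45162) (nat_lit 0) (nat_lit 4180) (XT.lf (nat_lit 0) (nat_lit 237039877633) (nat_lit 304) (nat_lit 834355461229) (nat_lit 76) (nat_lit 89502219230) (nat_lit 45) (nat_lit 5) (nat_lit 49) (nat_lit 5) (nat_lit 46)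 (nat_lit 5) (nat_lit 383) (nat_lit 360) (nat_lit 157)) (XT.nd (nat_lit 78) (nat_lit 0) (nat_lit 76) (XT.lf (nat_lit 0) (nat_lit 24322190708) (nat_lit 836) (nat_lit 99253794132) (nat_lit 836) (nat_lit 99253794132) (nat_lit 100) (nat_lit 3) (nat_lit 111) (nat_lit 3) (nat_lit 111) (nat_lit 5) (nat_lit 361) (nat_lit 361) (nat_lit 178)) (XT.lf (nat_lit 0) (nat_lit 54244463427) (nat_lit 760) (nat_lit 321360303825) (nat_lit 836) (nat_lit 87698457146) (nat_lit 101) (nat_lit 5) (nat_lit 111) (nat_lit 5) (nat_lit 112) (nat_lit 5) (nat_lit 362) (nat_lit 361) (nat_lit 177)))) (XT.nd (nat_lit 78) (nat_lit 0) (nat_lit 76) (XT.lf (nat_lit 76) (nat_lit 31310606280) (nat_lit 0) (nat_lit 37152736170) (nat_lit 836) (nat_lit 413486502246) (nat_lit 102) (nat_lit 5) (nat_lit 101) (nat_lit 5) (nat_lit 112) (nat_lit 5) (nat_lit 363) (nat_lit 361) (nat_lit 176)) (XT.nd (nat_lit 78) (nat_lit 0) (nat_lit 76) (XT.lf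 (nat_lit 0) (nat_lit 94636204221) (nat_lit 760) (nat_lit 83356099501) (nat_lit 836) (nat_lit 323555067324) (nat_lit 102) (nat_lit 5) (nat_lit 112) (nat_lit 5) (nat_lit 113) (nat_lit 5) (nat_lit 364) (nat_lit 361) (nat_lit 175)) (XT.lf (nat_lit 0) (nat_lit 131608491106) (nat_lit 760) (nat_lit 202443196556) (nat_lit 836) (nat_lit 188225732079) (nat_lit 103) (nat_lit 5) (nat_lit 113) (nat_lit 5) (nat_lit 114) (nat_lit 5) (nat_lit 365) (nat_lit 361) (nat_lit 174)))))) (XT.nd (nat_lit 468) (nat_lit 1672) (nat_lit 0) (XT.nd (nat_lit 234) (nat_lit 1368) (nat_lit 0) (XT.nd (nat_lit 78) (nat_lit 0) (nat_lit 0) (XT.lf (nat_lit 0) (nat_lit 180009243908) (nat_lit 760) (nat_lit 327265744000) (nat_lit 836) (nat_lit 36967350317) (nat_lit 104) (nat_lit 5) (nat_lit 114) (nat_lit 5) (nat_lit 115) (nat_lit 5) (nat_lit 366) (nat_lit 361) (nat_lit 173)) (XT.nd (nat_lit 78) (nat_lit 0) (nat_lit 76) (XT.lf (nat_lit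 76) (nat_lit 107129263405) (nat_lit 0) (nat_lit 136042305919) (nat_lit 836) (nat_lit 324248405282) (nat_lit 105) (nat_lit 5) (nat_lit 104) (nat_lit 5) (nat_lit 115) (nat_lit 5) (nat_lit 367) (nat_lit 361) (nat_lit 172)) (XT.lf (nat_lit 0) (nat_lit 321316718340) (nat_lit 760) (nat_lit 8433504416) (nat_lit 76) (nat_lit 262205107301) (nat_lit 105) (nat_lit 5) (nat_lit 115) (nat_lit 5) (nat_lit 106) (nat_lit 5) (nat_lit 368) (nat_lit 361) (nat_lit 171)))) (XT.nd (nat_lit 78) (nat_lit 684) (nat_lit 0) (XT.lf (nat_lit 0) (nat_lit 416913117255) (nat_lit 836) (nat_lit 126102323780) (nat_lit 76) (nat_lit 74878091042) (nat_lit 95) (nat_lit 5) (nat_lit 106) (nat_lit 5) (nat_lit 96) (nat_lit 5) (nat_lit 369) (nat_lit 361) (nat_lit 170)) (XT.nd (nat_lit 78) (nat_lit 304) (nat_lit 0) (XT.lf (nat_lit 0) (nat_lit 393466362812) (nat_lit 380) (nat_lit 138543453010) (nat_lit 456) (nat_lit 113304345081) (nat_lit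 90) (nat_lit 5) (nat_lit 95) (nat_lit 5) (nat_lit 96) (nat_lit 5) (nat_lit 370) (nat_lit 361) (nat_lit 169)) (XT.lf (nat_lit 0) (nat_lit 288836454204) (nat_lit 304) (nat_lit 378877030228) (nat_lit 380) (nat_lit 6644993924) (nat_lit 86) (nat_lit 5) (nat_lit 90) (nat_lit 5) (nat_lit 91) (nat_lit 5) (nat_lit 371) (nat_lit 361) (nat_lit 168))))) (XT.nd (nat_lit 234) (nat_lit 912) (nat_lit 0) (XT.nd (nat_lit 78) (nat_lit 304) (nat_lit 0) (XT.lf (nat_lit 0) (nat_lit 115631527104) (nat_lit 456) (nat_lit 528298401438) (nat_lit 76) (nat_lit 61183746110) (nat_lit 80) (nat_lit 5) (nat_lit 86) (nat_lit 5) (nat_lit 81) (nat_lit 5) (nat_lit 372) (nat_lit 361) (nat_lit 167)) (XT.nd (nat_lit 78) (nat_lit 0) (nat_lit 0) (XT.lf (nat_lit 0) (nat_lit 55064597343) (nat_lit 304) (nat_lit 206469758122) (nat_lit 380) (nat_lit 476085634800) (nat_lit 76) (nat_lit 5) (nat_lit 80) (nat_lit 5) (nat_lit 81) (nat_lit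 5) (nat_lit 373) (nat_lit 361) (nat_lit 166)) (XT.lf (nat_lit 0) (nat_lit 432615671555) (nat_lit 380) (nat_lit 72608376537) (nat_lit 76) (nat_lit 266827449985) (nat_lit 76) (nat_lit 5) (nat_lit 81) (nat_lit 5) (nat_lit 77) (nat_lit 5) (nat_lit 374) (nat_lit 361) (nat_lit 165)))) (XT.nd (nat_lit 78) (nat_lit 608) (nat_lit 0) (XT.lf (nat_lit 0) (nat_lit 601918053613) (nat_lit 304) (nat_lit 28344501639) (nat_lit 380) (nat_lit 178331018165) (nat_lit 72) (nat_lit 5) (nat_lit 76) (nat_lit 5) (nat_lit 77) (nat_lit 5) (nat_lit 375) (nat_lit 361) (nat_lit 164)) (XT.nd (nat_lit 78) (nat_lit 304) (nat_lit 0) (XT.lf (nat_lit 0) (nat_lit 12656652317) (nat_lit 304) (nat_lit 354265122402) (nat_lit 76) (nat_lit 480297844365) (nat_lit 68) (nat_lit 5) (nat_lit 72) (nat_lit 5) (nat_lit 69) (nat_lit 5) (nat_lit 376) (nat_lit 361) (nat_lit 163)) (XT.lf (nat_lit 0) (nat_lit 225148357710) (nat_lit 380) (nat_lit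 515013502200) (nat_lit 76) (nat_lit 148004071973) (nat_lit 64) (nat_lit 5) (nat_lit 69) (nat_lit 5) (nat_lit 65) (nat_lit 5) (nat_lit 377) (nat_lit 361) (nat_lit 162))))))) (XT.nd (nat_lit 46254) (nat_lit 0) (nat_lit 228) (XT.nd (nat_lit 45786) (nat_lit 0) (nat_lit 3800) (XT.nd (nat_lit 312) (nat_lit 456) (nat_lit 0) (XT.nd (nat_lit 78) (nat_lit 304) (nat_lit 0) (XT.lf (nat_lit 0) (nat_lit 240752090786) (nat_lit 228) (nat_lit 230105310358) (nat_lit 304) (nat_lit 460719648495) (nat_lit 61) (nat_lit 5) (nat_lit 64) (nat_lit 5) (nat_lit 65) (nat_lit 5) (nat_lit 378) (nat_lit 361) (nat_lit 161)) (XT.nd (nat_lit 78) (nat_lit 76) (nat_lit 0) (XT.lf (nat_lit 0) (nat_lit 95251037487) (nat_lit 228) (nat_lit 656585415817) (nat_lit 304) (nat_lit 225843939264) (nat_lit 58) (nat_lit 5) (nat_lit 61) (nat_lit 5) (nat_lit 62) (nat_lit 5) (nat_lit 379) (nat_lit 361) (nat_lit 160)) (XT.lf (nat_lit 0) (nat_lit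 43042331720) (nat_lit 304) (nat_lit 62499738777) (nat_lit 76) (nat_lit 921102664751) (nat_lit 57) (nat_lit 5) (nat_lit 61) (nat_lit 5) (nat_lit 58) (nat_lit 5) (nat_lit 380) (nat_lit 361) (nat_lit 159)))) (XT.nd (nat_lit 45318) (nat_lit 0) (nat_lit 3724) (XT.lf (nat_lit 0) (nat_lit 688765724967) (nat_lit 304) (nat_lit 434186994950) (nat_lit 76) (nat_lit 10392708615) (nat_lit 51) (nat_lit 5) (nat_lit 55) (nat_lit 5) (nat_lit 52) (nat_lit 5) (nat_lit 382) (nat_lit 361) (nat_lit 157)) (XT.nd (nat_lit 78) (nat_lit 0) (nat_lit 76) (XT.lf (nat_lit 0) (nat_lit 26268454274) (nat_lit 836) (nat_lit 107193841042) (nat_lit 836) (nat_lit 107193841042) (nat_lit 100) (nat_lit 3) (nat_lit 111) (nat_lit 3) (nat_lit 111) (nat_lit 5) (nat_lit 362) (nat_lit 362) (nat_lit 176)) (XT.lf (nat_lit 0) (nat_lit 58584925870) (nat_lit 760) (nat_lit 347068584071) (nat_lit 836) (nat_lit 94713926187) (nat_lit 101) (nat_lit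 5) (nat_lit 111) (nat_lit 5) (nat_lit 112) (nat_lit 5) (nat_lit 363) (nat_lit 362) (nat_lit 175))))) (XT.nd (nat_lit 234) (nat_lit 0) (nat_lit 228) (XT.nd (nat_lit 78) (nat_lit 0) (nat_lit 76) (XT.lf (nat_lit 76) (nat_lit 33815975198) (nat_lit 0) (nat_lit 40125281077) (nat_lit 836) (nat_lit 446564532791) (nat_lit 102) (nat_lit 5) (nat_lit 101) (nat_lit 5) (nat_lit 112) (nat_lit 5) (nat_lit 364) (nat_lit 362) (nat_lit 174)) (XT.nd (nat_lit 78) (nat_lit 0) (nat_lit 76) (XT.lf (nat_lit 0) (nat_lit 102207879577) (nat_lit 760) (nat_lit 90024060876) (nat_lit 836) (nat_lit 349439180508) (nat_lit 102) (nat_lit 5) (nat_lit 112) (nat_lit 5) (nat_lit 113) (nat_lit 5) (nat_lit 365) (nat_lit 362) (nat_lit 173)) (XT.lf (nat_lit 0) (nat_lit 142137896051) (nat_lit 760) (nat_lit 218638107844) (nat_lit 836) (nat_lit 203283572385) (nat_lit 103) (nat_lit 5) (nat_lit 113) (nat_lit 5) (nat_lit 114) (nat_lit 5)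 (nat_lit 366) (nat_lit 362) (nat_lit 172)))) (XT.nd (nat_lit 78) (nat_lit 0) (nat_lit 0) (XT.lf (nat_lit 0) (nat_lit 194410660969) (nat_lit 760) (nat_lit 353446445554) (nat_lit 836) (nat_lit 39924584181) (nat_lit 104) (nat_lit 5) (nat_lit 114) (nat_lit 5) (nat_lit 115) (nat_lit 5) (nat_lit 367) (nat_lit 362) (nat_lit 171)) (XT.nd (nat_lit 78) (nat_lit 0) (nat_lit 76) (XT.lf (nat_lit 76) (nat_lit 115700138195) (nat_lit 0) (nat_lit 146925792368) (nat_lit 836) (nat_lit 350187609578) (nat_lit 105) (nat_lit 5) (nat_lit 104) (nat_lit 5) (nat_lit 115) (nat_lit 5) (nat_lit 368) (nat_lit 362) (nat_lit 170)) (XT.lf (nat_lit 0) (nat_lit 347022642937) (nat_lit 760) (nat_lit 9107659080) (nat_lit 76) (nat_lit 283181424486) (nat_lit 105) (nat_lit 5) (nat_lit 115) (nat_lit 5) (nat_lit 106) (nat_lit 5) (nat_lit 369) (nat_lit 362) (nat_lit 169)))))) (XT.nd (nat_lit 468) (nat_lit 1672) (nat_lit 0) (XT.nd (nat_lit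 234) (nat_lit 760) (nat_lit 0) (XT.nd (nat_lit 78) (nat_lit 684) (nat_lit 0) (XT.lf (nat_lit 0) (nat_lit 450266717366) (nat_lit 836) (nat_lit 136189977948) (nat_lit 76) (nat_lit 80868291236) (nat_lit 95) (nat_lit 5) (nat_lit 106) (nat_lit 5) (nat_lit 96) (nat_lit 5) (nat_lit 370) (nat_lit 362) (nat_lit 168)) (XT.nd (nat_lit 78) (nat_lit 304) (nat_lit 0) (XT.lf (nat_lit 0) (nat_lit 424944180463) (nat_lit 380) (nat_lit 149626938502) (nat_lit 456) (nat_lit 122368148401) (nat_lit 90) (nat_lit 5) (nat_lit 95) (nat_lit 5) (nat_lit 96) (nat_lit 5) (nat_lit 371) (nat_lit 362) (nat_lit 167)) (XT.lf (nat_lit 0) (nat_lit 311943882462) (nat_lit 304) (nat_lit 409187168099) (nat_lit 380) (nat_lit 7176081218) (nat_lit 86) (nat_lit 5) (nat_lit 90) (nat_lit 5) (nat_lit 91) (nat_lit 5) (nat_lit 372) (nat_lit 362) (nat_lit 166)))) (XT.nd (nat_lit 78) (nat_lit 304) (nat_lit 0) (XT.lf (nat_lit 0) (nat_lit 124882516873)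 (nat_lit 456) (nat_lit 570561744598) (nat_lit 76) (nat_lit 66078483352) (nat_lit 80) (nat_lit 5) (nat_lit 86) (nat_lit 5) (nat_lit 81) (nat_lit 5) (nat_lit 373) (nat_lit 362) (nat_lit 165)) (XT.nd (nat_lit 78) (nat_lit 0) (nat_lit 0) (XT.lf (nat_lit 0) (nat_lit 59470271099) (nat_lit 304) (nat_lit 222987273667) (nat_lit 380) (nat_lit 514172022288) (nat_lit 76) (nat_lit 5) (nat_lit 80) (nat_lit 5) (nat_lit 81) (nat_lit 5) (nat_lit 374) (nat_lit 362) (nat_lit 164)) (XT.lf (nat_lit 0) (nat_lit 467225334427) (nat_lit 380) (nat_lit 78416558341) (nat_lit 76) (nat_lit 288173704337) (nat_lit 76) (nat_lit 5) (nat_lit 81) (nat_lit 5) (nat_lit 77) (nat_lit 5) (nat_lit 375) (nat_lit 362) (nat_lit 163))))) (XT.nd (nat_lit 234) (nat_lit 760) (nat_lit 0) (XT.nd (nat_lit 78) (nat_lit 608) (nat_lit 0) (XT.lf (nat_lit 0) (nat_lit 650071965000) (nat_lit 304) (nat_lit 30611980806) (nat_lit 380) (nat_lit 192597093844)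 (nat_lit 72) (nat_lit 5) (nat_lit 76) (nat_lit 5) (nat_lit 77) (nat_lit 5) (nat_lit 376) (nat_lit 362) (nat_lit 162)) (XT.nd (nat_lit 78) (nat_lit 304) (nat_lit 0) (XT.lf (nat_lit 0) (nat_lit 13669556753) (nat_lit 304) (nat_lit 382605855216) (nat_lit 76) (nat_lit 518721757736) (nat_lit 68) (nat_lit 5) (nat_lit 72) (nat_lit 5) (nat_lit 69) (nat_lit 5) (nat_lit 377) (nat_lit 362) (nat_lit 161)) (XT.lf (nat_lit 0) (nat_lit 243160579757) (nat_lit 380) (nat_lit 556214109893) (nat_lit 76) (nat_lit 159844498839) (nat_lit 64) (nat_lit 5) (nat_lit 69) (nat_lit 5) (nat_lit 65) (nat_lit 5) (nat_lit 378) (nat_lit 362) (nat_lit 160)))) (XT.nd (nat_lit 78) (nat_lit 532) (nat_lit 0) (XT.lf (nat_lit 0) (nat_lit 260012709997) (nat_lit 228) (nat_lit 248513617545) (nat_lit 304) (nat_lit 497576869101) (nat_lit 61) (nat_lit 5) (nat_lit 64) (nat_lit 5) (nat_lit 65) (nat_lit 5) (nat_lit 379) (nat_lit 362) (nat_lit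 159)) (XT.nd (nat_lit 156) (nat_lit 304) (nat_lit 0) (XT.lf (nat_lit 0) (nat_lit 102871567267) (nat_lit 228) (nat_lit 709112120520) (nat_lit 304) (nat_lit 243911120041) (nat_lit 58) (nat_lit 5) (nat_lit 61) (nat_lit 5) (nat_lit 62) (nat_lit 5) (nat_lit 380) (nat_lit 362) (nat_lit 158)) (XT.lf (nat_lit 0) (nat_lit 374510576930) (nat_lit 304) (nat_lit 259518099161) (nat_lit 76) (nat_lit 530512650607) (nat_lit 54) (nat_lit 5) (nat_lit 58) (nat_lit 5) (nat_lit 55) (nat_lit 5) (nat_lit 382) (nat_lit 362) (nat_lit 156))))))))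
noncomputable def xc125 : XT := (XT.nd (nat_lit 47268) (nat_lit 0) (nat_lit 76) (XT.nd (nat_lit 858) (nat_lit 2204) (nat_lit 0) (XT.nd (nat_lit 390) (nat_lit 1064) (nat_lit 0) (XT.nd (nat_lit 156) (nat_lit 0) (nat_lit 76) (XT.nd (nat_lit 78) (nat_lit 0) (nat_lit 76) (XT.lf (nat_lit 0) (nat_lit 28370349263) (nat_lit 836) (nat_lit 115769128315) (nat_lit 836) (nat_lit 115769128315) (nat_lit 100) (nat_lit 3) (nat_lit 111) (nat_lit 3) (nat_lit 111) (nat_lit 5) (nat_lit 363) (nat_lit 363) (nat_lit 174)) (XT.lf (nat_lit 0) (nat_lit 63272496147) (nat_lit 760) (nat_lit 374833604352) (nat_lit 836) (nat_lit 102290690889) (nat_lit 101) (nat_lit 5) (nat_lit 111) (nat_lit 5) (nat_lit 112) (nat_lit 5) (nat_lit 364) (nat_lit 363) (nat_lit 173))) (XT.nd (nat_lit 78) (nat_lit 0) (nat_lit 76) (XT.lf (nat_lit 76) (nat_lit 36521699387) (nat_lit 0) (nat_lit 43335583067) (nat_lit 836) (nat_lit 482288932696) (nat_lit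 102) (nat_lit 5) (nat_lit 101) (nat_lit 5) (nat_lit 112) (nat_lit 5) (nat_lit 365) (nat_lit 363) (nat_lit 172)) (XT.nd (nat_lit 78) (nat_lit 0) (nat_lit 76) (XT.lf (nat_lit 0) (nat_lit 110385177826) (nat_lit 760) (nat_lit 97225534285) (nat_lit 836) (nat_lit 377394064432) (nat_lit 102) (nat_lit 5) (nat_lit 112) (nat_lit 5) (nat_lit 113) (nat_lit 5) (nat_lit 366) (nat_lit 363) (nat_lit 171)) (XT.lf (nat_lit 0) (nat_lit 153509549869) (nat_lit 760) (nat_lit 236128689704) (nat_lit 836) (nat_lit 219546071052) (nat_lit 103) (nat_lit 5) (nat_lit 113) (nat_lit 5) (nat_lit 114) (nat_lit 5) (nat_lit 367) (nat_lit 363) (nat_lit 170))))) (XT.nd (nat_lit 234) (nat_lit 1368) (nat_lit 0) (XT.nd (nat_lit 78) (nat_lit 0) (nat_lit 0) (XT.lf (nat_lit 0) (nat_lit 209964094736) (nat_lit 760) (nat_lit 381721682832) (nat_lit 836) (nat_lit 43118418746) (nat_lit 104) (nat_lit 5) (nat_lit 114) (nat_lit 5) (nat_lit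 115) (nat_lit 5) (nat_lit 368) (nat_lit 363) (nat_lit 169)) (XT.nd (nat_lit 78) (nat_lit 0) (nat_lit 76) (XT.lf (nat_lit 76) (nat_lit 124956606828) (nat_lit 0) (nat_lit 158679943185) (nat_lit 836) (nat_lit 378202045533) (nat_lit 105) (nat_lit 5) (nat_lit 104) (nat_lit 5) (nat_lit 115) (nat_lit 5) (nat_lit 369) (nat_lit 363) (nat_lit 168)) (XT.lf (nat_lit 0) (nat_lit 374784957742) (nat_lit 760) (nat_lit 9835821113) (nat_lit 76) (nat_lit 305835860085) (nat_lit 105) (nat_lit 5) (nat_lit 115) (nat_lit 5) (nat_lit 106) (nat_lit 5) (nat_lit 370) (nat_lit 363) (nat_lit 167)))) (XT.nd (nat_lit 78) (nat_lit 684) (nat_lit 0) (XT.lf (nat_lit 0) (nat_lit 486288526918) (nat_lit 836) (nat_lit 147084720308) (nat_lit 76) (nat_lit 87337714163) (nat_lit 95) (nat_lit 5) (nat_lit 106) (nat_lit 5) (nat_lit 96) (nat_lit 5) (nat_lit 371) (nat_lit 363) (nat_lit 166)) (XT.nd (nat_lit 78) (nat_lit 304) (nat_lit 0)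 (XT.lf (nat_lit 0) (nat_lit 458940150964) (nat_lit 380) (nat_lit 161597101513) (nat_lit 456) (nat_lit 132157133636) (nat_lit 90) (nat_lit 5) (nat_lit 95) (nat_lit 5) (nat_lit 96) (nat_lit 5) (nat_lit 372) (nat_lit 363) (nat_lit 165)) (XT.lf (nat_lit 0) (nat_lit 336899831949) (nat_lit 304) (nat_lit 441922120501) (nat_lit 380) (nat_lit 7749728569) (nat_lit 86) (nat_lit 5) (nat_lit 90) (nat_lit 5) (nat_lit 91) (nat_lit 5) (nat_lit 373) (nat_lit 363) (nat_lit 164)))))) (XT.nd (nat_lit 468) (nat_lit 532) (nat_lit 0) (XT.nd (nat_lit 234) (nat_lit 912) (nat_lit 0) (XT.nd (nat_lit 78) (nat_lit 304) (nat_lit 0) (XT.lf (nat_lit 0) (nat_lit 134873519116) (nat_lit 456) (nat_lit 616206230671) (nat_lit 76) (nat_lit 71364794217) (nat_lit 80) (nat_lit 5) (nat_lit 86) (nat_lit 5) (nat_lit 81) (nat_lit 5) (nat_lit 374) (nat_lit 363) (nat_lit 163)) (XT.nd (nat_lit 78) (nat_lit 0) (nat_lit 0) (XT.lf (nat_lit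 0) (nat_lit 64228326573) (nat_lit 304) (nat_lit 240826199744) (nat_lit 380) (nat_lit 555305386869) (nat_lit 76) (nat_lit 5) (nat_lit 80) (nat_lit 5) (nat_lit 81) (nat_lit 5) (nat_lit 375) (nat_lit 363) (nat_lit 162)) (XT.lf (nat_lit 0) (nat_lit 504603711960) (nat_lit 380) (nat_lit 84689464354) (nat_lit 76) (nat_lit 311227650712) (nat_lit 76) (nat_lit 5) (nat_lit 81) (nat_lit 5) (nat_lit 77) (nat_lit 5) (nat_lit 376) (nat_lit 363) (nat_lit 161)))) (XT.nd (nat_lit 78) (nat_lit 608) (nat_lit 0) (XT.lf (nat_lit 0) (nat_lit 702078122660) (nat_lit 304) (nat_lit 33060869857) (nat_lit 380) (nat_lit 208004513466) (nat_lit 72) (nat_lit 5) (nat_lit 76) (nat_lit 5) (nat_lit 77) (nat_lit 5) (nat_lit 377) (nat_lit 363) (nat_lit 160)) (XT.nd (nat_lit 78) (nat_lit 304) (nat_lit 0) (XT.lf (nat_lit 0) (nat_lit 14763440438) (nat_lit 304) (nat_lit 413213914700) (nat_lit 76) (nat_lit 560219571933) (nat_lit 68)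 (nat_lit 5) (nat_lit 72) (nat_lit 5) (nat_lit 69) (nat_lit 5) (nat_lit 378) (nat_lit 363) (nat_lit 159)) (XT.lf (nat_lit 0) (nat_lit 262613729147) (nat_lit 380) (nat_lit 600710833607) (nat_lit 76) (nat_lit 172632145429) (nat_lit 64) (nat_lit 5) (nat_lit 69) (nat_lit 5) (nat_lit 65) (nat_lit 5) (nat_lit 379) (nat_lit 363) (nat_lit 158))))) (XT.nd (nat_lit 45708) (nat_lit 0) (nat_lit 3344) (XT.nd (nat_lit 156) (nat_lit 304) (nat_lit 0) (XT.lf (nat_lit 0) (nat_lit 280814114270) (nat_lit 228) (nat_lit 268394606089) (nat_lit 304) (nat_lit 537382717467) (nat_lit 61) (nat_lit 5) (nat_lit 64) (nat_lit 5) (nat_lit 65) (nat_lit 5) (nat_lit 380) (nat_lit 363) (nat_lit 157)) (XT.nd (nat_lit 45474) (nat_lit 0) (nat_lit 3268) (XT.lf (nat_lit 0) (nat_lit 50205156314) (nat_lit 304) (nat_lit 72898874262) (nat_lit 76) (nat_lit 1074374359188) (nat_lit 57) (nat_lit 5) (nat_lit 61) (nat_lit 5) (nat_lit 58) (nat_lit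 5) (nat_lit 382) (nat_lit 363) (nat_lit 155)) (XT.lf (nat_lit 0) (nat_lit 30640336126) (nat_lit 836) (nat_lit 125030469957) (nat_lit 836) (nat_lit 125030469957) (nat_lit 100) (nat_lit 3) (nat_lit 111) (nat_lit 3) (nat_lit 111) (nat_lit 5) (nat_lit 364) (nat_lit 364) (nat_lit 172)))) (XT.nd (nat_lit 78) (nat_lit 0) (nat_lit 0) (XT.lf (nat_lit 0) (nat_lit 68334961311) (nat_lit 760) (nat_lit 404819892800) (nat_lit 836) (nat_lit 110473646613) (nat_lit 101) (nat_lit 5) (nat_lit 111) (nat_lit 5) (nat_lit 112) (nat_lit 5) (nat_lit 365) (nat_lit 364) (nat_lit 171)) (XT.nd (nat_lit 78) (nat_lit 0) (nat_lit 76) (XT.lf (nat_lit 76) (nat_lit 39443817860) (nat_lit 0) (nat_lit 46802669342) (nat_lit 836) (nat_lit 520871393404) (nat_lit 102) (nat_lit 5) (nat_lit 101) (nat_lit 5) (nat_lit 112) (nat_lit 5) (nat_lit 366) (nat_lit 364) (nat_lit 170)) (XT.lf (nat_lit 0) (nat_lit 119216564653) (nat_lit 760) (nat_lit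 105003189972) (nat_lit 836) (nat_lit 407585374809) (nat_lit 102) (nat_lit 5) (nat_lit 112) (nat_lit 5) (nat_lit 113) (nat_lit 5) (nat_lit 367) (nat_lit 364) (nat_lit 169))))))) (XT.nd (nat_lit 1092) (nat_lit 760) (nat_lit 0) (XT.nd (nat_lit 468) (nat_lit 1672) (nat_lit 0) (XT.nd (nat_lit 234) (nat_lit 988) (nat_lit 0) (XT.nd (nat_lit 78) (nat_lit 0) (nat_lit 76) (XT.lf (nat_lit 0) (nat_lit 165790847238) (nat_lit 760) (nat_lit 255018584703) (nat_lit 836) (nat_lit 237109596309) (nat_lit 103) (nat_lit 5) (nat_lit 113) (nat_lit 5) (nat_lit 114) (nat_lit 5) (nat_lit 368) (nat_lit 364) (nat_lit 168)) (XT.nd (nat_lit 78) (nat_lit 0) (nat_lit 0) (XT.lf (nat_lit 0) (nat_lit 226761720333) (nat_lit 760) (nat_lit 412259007337) (nat_lit 836) (nat_lit 46567778933) (nat_lit 104) (nat_lit 5) (nat_lit 114) (nat_lit 5) (nat_lit 115) (nat_lit 5) (nat_lit 369) (nat_lit 364) (nat_lit 167)) (XT.lf (nat_lit 76)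 (nat_lit 134953527672) (nat_lit 0) (nat_lit 171374413594) (nat_lit 836) (nat_lit 408457718082) (nat_lit 105) (nat_lit 5) (nat_lit 104) (nat_lit 5) (nat_lit 115) (nat_lit 5) (nat_lit 370) (nat_lit 364) (nat_lit 166)))) (XT.nd (nat_lit 78) (nat_lit 1140) (nat_lit 0) (XT.lf (nat_lit 0) (nat_lit 404768185919) (nat_lit 760) (nat_lit 10622300405) (nat_lit 76) (nat_lit 330302661710) (nat_lit 105) (nat_lit 5) (nat_lit 115) (nat_lit 5) (nat_lit 106) (nat_lit 5) (nat_lit 371) (nat_lit 364) (nat_lit 165)) (XT.nd (nat_lit 78) (nat_lit 380) (nat_lit 0) (XT.lf (nat_lit 0) (nat_lit 525192013874) (nat_lit 836) (nat_lit 158851107092) (nat_lit 76) (nat_lit 94324696684) (nat_lit 95) (nat_lit 5) (nat_lit 106) (nat_lit 5) (nat_lit 96) (nat_lit 5) (nat_lit 372) (nat_lit 364) (nat_lit 164)) (XT.lf (nat_lit 0) (nat_lit 495655736897) (nat_lit 380) (nat_lit 174524876434) (nat_lit 456) (nat_lit 142729304260) (nat_lit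 90) (nat_lit 5) (nat_lit 95) (nat_lit 5) (nat_lit 96) (nat_lit 5) (nat_lit 373) (nat_lit 364) (nat_lit 163))))) (XT.nd (nat_lit 234) (nat_lit 608) (nat_lit 0) (XT.nd (nat_lit 78) (nat_lit 760) (nat_lit 0) (XT.lf (nat_lit 0) (nat_lit 363852194783) (nat_lit 304) (nat_lit 477275872099) (nat_lit 380) (nat_lit 8369330357) (nat_lit 86) (nat_lit 5) (nat_lit 90) (nat_lit 5) (nat_lit 91) (nat_lit 5) (nat_lit 374) (nat_lit 364) (nat_lit 162)) (XT.nd (nat_lit 78) (nat_lit 304) (nat_lit 0) (XT.lf (nat_lit 0) (nat_lit 145663744345) (nat_lit 456) (nat_lit 665502340327) (nat_lit 76) (nat_lit 77074005358) (nat_lit 80) (nat_lit 5) (nat_lit 86) (nat_lit 5) (nat_lit 81) (nat_lit 5) (nat_lit 375) (nat_lit 364) (nat_lit 161)) (XT.lf (nat_lit 0) (nat_lit 69366964600) (nat_lit 304) (nat_lit 260092247869) (nat_lit 380) (nat_lit 599729477282) (nat_lit 76) (nat_lit 5) (nat_lit 80) (nat_lit 5) (nat_lit 81) (nat_lit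 5) (nat_lit 376) (nat_lit 364) (nat_lit 160)))) (XT.nd (nat_lit 78) (nat_lit 608) (nat_lit 0) (XT.lf (nat_lit 0) (nat_lit 544972309653) (nat_lit 380) (nat_lit 91464262573) (nat_lit 76) (nat_lit 336125905660) (nat_lit 76) (nat_lit 5) (nat_lit 81) (nat_lit 5) (nat_lit 77) (nat_lit 5) (nat_lit 377) (nat_lit 364) (nat_lit 159)) (XT.nd (nat_lit 78) (nat_lit 304) (nat_lit 0) (XT.lf (nat_lit 0) (nat_lit 758244715804) (nat_lit 304) (nat_lit 35705679935) (nat_lit 380) (nat_lit 224644576287) (nat_lit 72) (nat_lit 5) (nat_lit 76) (nat_lit 5) (nat_lit 77) (nat_lit 5) (nat_lit 378) (nat_lit 364) (nat_lit 158)) (XT.lf (nat_lit 0) (nat_lit 15944789288) (nat_lit 304) (nat_lit 446270677282) (nat_lit 76) (nat_lit 605037200769) (nat_lit 68) (nat_lit 5) (nat_lit 72) (nat_lit 5) (nat_lit 69) (nat_lit 5) (nat_lit 379) (nat_lit 364) (nat_lit 157)))))) (XT.nd (nat_lit 45942) (nat_lit 0) (nat_lit 2128) (XT.nd (nat_lit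 45708) (nat_lit 0) (nat_lit 3268) (XT.nd (nat_lit 45552) (nat_lit 0) (nat_lit 3192) (XT.lf (nat_lit 0) (nat_lit 119990138145) (nat_lit 228) (nat_lit 827108163839) (nat_lit 304) (nat_lit 284497375052) (nat_lit 58) (nat_lit 5) (nat_lit 61) (nat_lit 5) (nat_lit 62) (nat_lit 5) (nat_lit 382) (nat_lit 364) (nat_lit 154)) (XT.nd (nat_lit 78) (nat_lit 0) (nat_lit 76) (XT.lf (nat_lit 0) (nat_lit 33091870734) (nat_lit 836) (nat_lit 135032745839) (nat_lit 836) (nat_lit 135032745839) (nat_lit 100) (nat_lit 3) (nat_lit 111) (nat_lit 3) (nat_lit 111) (nat_lit 5) (nat_lit 365) (nat_lit 365) (nat_lit 170)) (XT.lf (nat_lit 0) (nat_lit 73802328752) (nat_lit 760) (nat_lit 437205141374) (nat_lit 836) (nat_lit 119311281528) (nat_lit 101) (nat_lit 5) (nat_lit 111) (nat_lit 5) (nat_lit 112) (nat_lit 5) (nat_lit 366) (nat_lit 365) (nat_lit 169)))) (XT.nd (nat_lit 78) (nat_lit 0) (nat_lit 76) (XT.lf (nat_lit 76)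 (nat_lit 42599651239) (nat_lit 0) (nat_lit 50547088333) (nat_lit 836) (nat_lit 562540544256) (nat_lit 102) (nat_lit 5) (nat_lit 101) (nat_lit 5) (nat_lit 112) (nat_lit 5) (nat_lit 367) (nat_lit 365) (nat_lit 168)) (XT.nd (nat_lit 78) (nat_lit 0) (nat_lit 76) (XT.lf (nat_lit 0) (nat_lit 128754380739) (nat_lit 760) (nat_lit 113403113332) (nat_lit 836) (nat_lit 440192020656) (nat_lit 102) (nat_lit 5) (nat_lit 112) (nat_lit 5) (nat_lit 113) (nat_lit 5) (nat_lit 368) (nat_lit 365) (nat_lit 167)) (XT.lf (nat_lit 0) (nat_lit 179054572304) (nat_lit 760) (nat_lit 275419728392) (nat_lit 836) (nat_lit 256078226472) (nat_lit 103) (nat_lit 5) (nat_lit 113) (nat_lit 5) (nat_lit 114) (nat_lit 5) (nat_lit 369) (nat_lit 365) (nat_lit 166))))) (XT.nd (nat_lit 234) (nat_lit 1368) (nat_lit 0) (XT.nd (nat_lit 78) (nat_lit 0) (nat_lit 0) (XT.lf (nat_lit 0) (nat_lit 244903084930) (nat_lit 760) (nat_lit 445239376311)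 (nat_lit 836) (nat_lit 50293104100) (nat_lit 104) (nat_lit 5) (nat_lit 114) (nat_lit 5) (nat_lit 115) (nat_lit 5) (nat_lit 370) (nat_lit 365) (nat_lit 165)) (XT.nd (nat_lit 78) (nat_lit 0) (nat_lit 76) (XT.lf (nat_lit 76) (nat_lit 145750146219) (nat_lit 0) (nat_lit 185084430943) (nat_lit 836) (nat_lit 441133914496) (nat_lit 105) (nat_lit 5) (nat_lit 104) (nat_lit 5) (nat_lit 115) (nat_lit 5) (nat_lit 371) (nat_lit 365) (nat_lit 164)) (XT.lf (nat_lit 0) (nat_lit 437150010785) (nat_lit 760) (nat_lit 11471753164) (nat_lit 76) (nat_lit 356726817050) (nat_lit 105) (nat_lit 5) (nat_lit 115) (nat_lit 5) (nat_lit 106) (nat_lit 5) (nat_lit 372) (nat_lit 365) (nat_lit 163)))) (XT.nd (nat_lit 78) (nat_lit 684) (nat_lit 0) (XT.lf (nat_lit 0) (nat_lit 567207722038) (nat_lit 836) (nat_lit 171558860577) (nat_lit 76) (nat_lit 101870642744) (nat_lit 95) (nat_lit 5) (nat_lit 106) (nat_lit 5) (nat_lit 96)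 (nat_lit 5) (nat_lit 373) (nat_lit 365) (nat_lit 162)) (XT.nd (nat_lit 78) (nat_lit 304) (nat_lit 0) (XT.lf (nat_lit 0) (nat_lit 535308516369) (nat_lit 380) (nat_lit 188486872378) (nat_lit 456) (nat_lit 154147305609) (nat_lit 90) (nat_lit 5) (nat_lit 95) (nat_lit 5) (nat_lit 96) (nat_lit 5) (nat_lit 374) (nat_lit 365) (nat_lit 161)) (XT.lf (nat_lit 0) (nat_lit 392960692962) (nat_lit 304) (nat_lit 515457926398) (nat_lit 380) (nat_lit 9038554000) (nat_lit 86) (nat_lit 5) (nat_lit 90) (nat_lit 5) (nat_lit 91) (nat_lit 5) (nat_lit 375) (nat_lit 365) (nat_lit 160))))))))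
noncomputable def xc126 : XT := (XT.nd (nat_lit 93288) (nat_lit 0) (nat_lit 608) (XT.nd (nat_lit 46566) (nat_lit 0) (nat_lit 304) (XT.nd (nat_lit 46098) (nat_lit 0) (nat_lit 2736) (XT.nd (nat_lit 156) (nat_lit 912) (nat_lit 0) (XT.nd (nat_lit 78) (nat_lit 304) (nat_lit 0) (XT.lf (nat_lit 0) (nat_lit 157317138561) (nat_lit 456) (nat_lit 718742194221) (nat_lit 76) (nat_lit 83239949452) (nat_lit 80) (nat_lit 5) (nat_lit 86) (nat_lit 5) (nat_lit 81) (nat_lit 5) (nat_lit 376) (nat_lit 365) (nat_lit 159)) (XT.lf (nat_lit 0) (nat_lit 74916640614) (nat_lit 304) (nat_lit 280899586672) (nat_lit 380) (nat_lit 647707543510) (nat_lit 76) (nat_lit 5) (nat_lit 80) (nat_lit 5) (nat_lit 81) (nat_lit 5) (nat_lit 377) (nat_lit 365) (nat_lit 158))) (XT.nd (nat_lit 78) (nat_lit 912) (nat_lit 0) (XT.lf (nat_lit 0) (nat_lit 588570352258) (nat_lit 380) (nat_lit 98781095855) (nat_lit 76) (nat_lit 363016014885) (nat_lit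 76) (nat_lit 5) (nat_lit 81) (nat_lit 5) (nat_lit 77) (nat_lit 5) (nat_lit 378) (nat_lit 365) (nat_lit 157)) (XT.nd (nat_lit 156) (nat_lit 608) (nat_lit 0) (XT.lf (nat_lit 0) (nat_lit 818904587419) (nat_lit 304) (nat_lit 38562083309) (nat_lit 380) (nat_lit 242615886683) (nat_lit 72) (nat_lit 5) (nat_lit 76) (nat_lit 5) (nat_lit 77) (nat_lit 5) (nat_lit 379) (nat_lit 365) (nat_lit 156)) (XT.lf (nat_lit 0) (nat_lit 306313156963) (nat_lit 380) (nat_lit 700668443504) (nat_lit 76) (nat_lit 201358278406) (nat_lit 64) (nat_lit 5) (nat_lit 69) (nat_lit 5) (nat_lit 65) (nat_lit 5) (nat_lit 381) (nat_lit 365) (nat_lit 154))))) (XT.nd (nat_lit 234) (nat_lit 0) (nat_lit 152) (XT.nd (nat_lit 78) (nat_lit 0) (nat_lit 76) (XT.lf (nat_lit 0) (nat_lit 35739484211) (nat_lit 836) (nat_lit 145835226863) (nat_lit 836) (nat_lit 145835226863) (nat_lit 100) (nat_lit 3) (nat_lit 111) (nat_lit 3) (nat_lit 111) (nat_lit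 5) (nat_lit 366) (nat_lit 366) (nat_lit 168)) (XT.nd (nat_lit 78) (nat_lit 0) (nat_lit 0) (XT.lf (nat_lit 0) (nat_lit 79707004195) (nat_lit 760) (nat_lit 472181258745) (nat_lit 836) (nat_lit 128855963874) (nat_lit 101) (nat_lit 5) (nat_lit 111) (nat_lit 5) (nat_lit 112) (nat_lit 5) (nat_lit 367) (nat_lit 366) (nat_lit 167)) (XT.lf (nat_lit 76) (nat_lit 46007904503) (nat_lit 0) (nat_lit 54591031534) (nat_lit 836) (nat_lit 607543307154) (nat_lit 102) (nat_lit 5) (nat_lit 101) (nat_lit 5) (nat_lit 112) (nat_lit 5) (nat_lit 368) (nat_lit 366) (nat_lit 166)))) (XT.nd (nat_lit 78) (nat_lit 0) (nat_lit 76) (XT.lf (nat_lit 0) (nat_lit 139055152077) (nat_lit 760) (nat_lit 122475077901) (nat_lit 836) (nat_lit 475407224441) (nat_lit 102) (nat_lit 5) (nat_lit 112) (nat_lit 5) (nat_lit 113) (nat_lit 5) (nat_lit 369) (nat_lit 366) (nat_lit 165)) (XT.nd (nat_lit 78) (nat_lit 0) (nat_lit 76) (XT.lf (nat_lit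 0) (nat_lit 193379330138) (nat_lit 760) (nat_lit 297453012521) (nat_lit 836) (nat_lit 276564366671) (nat_lit 103) (nat_lit 5) (nat_lit 113) (nat_lit 5) (nat_lit 114) (nat_lit 5) (nat_lit 370) (nat_lit 366) (nat_lit 164)) (XT.lf (nat_lit 0) (nat_lit 264495697783) (nat_lit 760) (nat_lit 480858224964) (nat_lit 836) (nat_lit 54316469139) (nat_lit 104) (nat_lit 5) (nat_lit 114) (nat_lit 5) (nat_lit 115) (nat_lit 5) (nat_lit 371) (nat_lit 366) (nat_lit 163)))))) (XT.nd (nat_lit 468) (nat_lit 912) (nat_lit 0) (XT.nd (nat_lit 234) (nat_lit 1140) (nat_lit 0) (XT.nd (nat_lit 78) (nat_lit 684) (nat_lit 0) (XT.lf (nat_lit 76) (nat_lit 157410446267) (nat_lit 0) (nat_lit 199891240513) (nat_lit 836) (nat_lit 476424266687) (nat_lit 105) (nat_lit 5) (nat_lit 104) (nat_lit 5) (nat_lit 115) (nat_lit 5) (nat_lit 372) (nat_lit 366) (nat_lit 162)) (XT.nd (nat_lit 78) (nat_lit 760) (nat_lit 0) (XT.lf (nat_lit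 0) (nat_lit 472122328856) (nat_lit 760) (nat_lit 12389209404) (nat_lit 76) (nat_lit 385264913034) (nat_lit 105) (nat_lit 5) (nat_lit 115) (nat_lit 5) (nat_lit 106) (nat_lit 5) (nat_lit 373) (nat_lit 366) (nat_lit 161)) (XT.lf (nat_lit 0) (nat_lit 612584637343) (nat_lit 836) (nat_lit 185283282144) (nat_lit 76) (nat_lit 110020268722) (nat_lit 95) (nat_lit 5) (nat_lit 106) (nat_lit 5) (nat_lit 96) (nat_lit 5) (nat_lit 374) (nat_lit 366) (nat_lit 160)))) (XT.nd (nat_lit 78) (nat_lit 760) (nat_lit 0) (XT.lf (nat_lit 0) (nat_lit 578133472473) (nat_lit 380) (nat_lit 203565827167) (nat_lit 456) (nat_lit 166478795996) (nat_lit 90) (nat_lit 5) (nat_lit 95) (nat_lit 5) (nat_lit 96) (nat_lit 5) (nat_lit 375) (nat_lit 366) (nat_lit 159)) (XT.nd (nat_lit 78) (nat_lit 456) (nat_lit 0) (XT.lf (nat_lit 0) (nat_lit 424397824975) (nat_lit 304) (nat_lit 556694547247) (nat_lit 380) (nat_lit 9761361583) (nat_lit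 86) (nat_lit 5) (nat_lit 90) (nat_lit 5) (nat_lit 91) (nat_lit 5) (nat_lit 376) (nat_lit 366) (nat_lit 158)) (XT.lf (nat_lit 0) (nat_lit 169902762276) (nat_lit 456) (nat_lit 776241283980) (nat_lit 76) (nat_lit 89899165697) (nat_lit 80) (nat_lit 5) (nat_lit 86) (nat_lit 5) (nat_lit 81) (nat_lit 5) (nat_lit 377) (nat_lit 366) (nat_lit 157))))) (XT.nd (nat_lit 46020) (nat_lit 0) (nat_lit 2432) (XT.nd (nat_lit 78) (nat_lit 608) (nat_lit 0) (XT.lf (nat_lit 0) (nat_lit 80910245222) (nat_lit 304) (nat_lit 303371518432) (nat_lit 380) (nat_lit 699523896686) (nat_lit 76) (nat_lit 5) (nat_lit 80) (nat_lit 5) (nat_lit 81) (nat_lit 5) (nat_lit 378) (nat_lit 366) (nat_lit 156)) (XT.nd (nat_lit 156) (nat_lit 608) (nat_lit 0) (XT.lf (nat_lit 0) (nat_lit 635656201488) (nat_lit 380) (nat_lit 106683319700) (nat_lit 76) (nat_lit 392057327602) (nat_lit 76) (nat_lit 5) (nat_lit 81) (nat_lit 5) (nat_lit 77) (nat_lit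 5) (nat_lit 379) (nat_lit 366) (nat_lit 155)) (XT.lf (nat_lit 0) (nat_lit 18598456688) (nat_lit 304) (nat_lit 520529535661) (nat_lit 76) (nat_lit 705715495753) (nat_lit 68) (nat_lit 5) (nat_lit 72) (nat_lit 5) (nat_lit 69) (nat_lit 5) (nat_lit 381) (nat_lit 366) (nat_lit 153)))) (XT.nd (nat_lit 78) (nat_lit 0) (nat_lit 76) (XT.lf (nat_lit 0) (nat_lit 38598869130) (nat_lit 836) (nat_lit 157501926147) (nat_lit 836) (nat_lit 157501926147) (nat_lit 100) (nat_lit 3) (nat_lit 111) (nat_lit 3) (nat_lit 111) (nat_lit 5) (nat_lit 367) (nat_lit 367) (nat_lit 166)) (XT.nd (nat_lit 78) (nat_lit 0) (nat_lit 0) (XT.lf (nat_lit 0) (nat_lit 86083983891) (nat_lit 760) (nat_lit 509955507439) (nat_lit 836) (nat_lit 139164252218) (nat_lit 101) (nat_lit 5) (nat_lit 111) (nat_lit 5) (nat_lit 112) (nat_lit 5) (nat_lit 368) (nat_lit 367) (nat_lit 165)) (XT.lf (nat_lit 76) (nat_lit 49688777916) (nat_lit 0) (nat_lit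 58958465064) (nat_lit 836) (nat_lit 656146359654) (nat_lit 102) (nat_lit 5) (nat_lit 101) (nat_lit 5) (nat_lit 112) (nat_lit 5) (nat_lit 369) (nat_lit 367) (nat_lit 164))))))) (XT.nd (nat_lit 46878) (nat_lit 0) (nat_lit 304) (XT.nd (nat_lit 468) (nat_lit 1748) (nat_lit 0) (XT.nd (nat_lit 234) (nat_lit 532) (nat_lit 0) (XT.nd (nat_lit 78) (nat_lit 0) (nat_lit 76) (XT.lf (nat_lit 0) (nat_lit 150179925079) (nat_lit 760) (nat_lit 132272840223) (nat_lit 836) (nat_lit 513439667050) (nat_lit 102) (nat_lit 5) (nat_lit 112) (nat_lit 5) (nat_lit 113) (nat_lit 5) (nat_lit 370) (nat_lit 367) (nat_lit 163)) (XT.nd (nat_lit 78) (nat_lit 0) (nat_lit 76) (XT.lf (nat_lit 0) (nat_lit 208850012669) (nat_lit 760) (nat_lit 321249001343) (nat_lit 836) (nat_lit 298689414908) (nat_lit 103) (nat_lit 5) (nat_lit 113) (nat_lit 5) (nat_lit 114) (nat_lit 5) (nat_lit 371) (nat_lit 367) (nat_lit 162)) (XT.lf (nat_lit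 0) (nat_lit 285655667442) (nat_lit 760) (nat_lit 519326624514) (nat_lit 836) (nat_lit 58661715263) (nat_lit 104) (nat_lit 5) (nat_lit 114) (nat_lit 5) (nat_lit 115) (nat_lit 5) (nat_lit 372) (nat_lit 367) (nat_lit 161)))) (XT.nd (nat_lit 78) (nat_lit 684) (nat_lit 0) (XT.lf (nat_lit 76) (nat_lit 170003529183) (nat_lit 0) (nat_lit 215882586988) (nat_lit 836) (nat_lit 514537898550) (nat_lit 105) (nat_lit 5) (nat_lit 104) (nat_lit 5) (nat_lit 115) (nat_lit 5) (nat_lit 373) (nat_lit 367) (nat_lit 160)) (XT.nd (nat_lit 78) (nat_lit 760) (nat_lit 0) (XT.lf (nat_lit 0) (nat_lit 509892387119) (nat_lit 760) (nat_lit 13380102661) (nat_lit 76) (nat_lit 416086063741) (nat_lit 105) (nat_lit 5) (nat_lit 115) (nat_lit 5) (nat_lit 106) (nat_lit 5) (nat_lit 374) (nat_lit 367) (nat_lit 159)) (XT.lf (nat_lit 0) (nat_lit 661591663426) (nat_lit 836) (nat_lit 200105698419) (nat_lit 76) (nat_lit 118821868408)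 (nat_lit 95) (nat_lit 5) (nat_lit 106) (nat_lit 5) (nat_lit 96) (nat_lit 5) (nat_lit 375) (nat_lit 367) (nat_lit 158))))) (XT.nd (nat_lit 390) (nat_lit 608) (nat_lit 0) (XT.nd (nat_lit 78) (nat_lit 760) (nat_lit 0) (XT.lf (nat_lit 0) (nat_lit 624384385863) (nat_lit 380) (nat_lit 219851097625) (nat_lit 456) (nat_lit 179796847566) (nat_lit 90) (nat_lit 5) (nat_lit 95) (nat_lit 5) (nat_lit 96) (nat_lit 5) (nat_lit 376) (nat_lit 367) (nat_lit 157)) (XT.nd (nat_lit 78) (nat_lit 456) (nat_lit 0) (XT.lf (nat_lit 0) (nat_lit 458349888091) (nat_lit 304) (nat_lit 601230099657) (nat_lit 380) (nat_lit 10542033252) (nat_lit 86) (nat_lit 5) (nat_lit 90) (nat_lit 5) (nat_lit 91) (nat_lit 5) (nat_lit 377) (nat_lit 367) (nat_lit 156)) (XT.lf (nat_lit 0) (nat_lit 183495199848) (nat_lit 456) (nat_lit 838340341690) (nat_lit 76) (nat_lit 97091116347) (nat_lit 80) (nat_lit 5) (nat_lit 86) (nat_lit 5) (nat_lit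 81) (nat_lit 5) (nat_lit 378) (nat_lit 367) (nat_lit 155)))) (XT.nd (nat_lit 45864) (nat_lit 0) (nat_lit 2128) (XT.lf (nat_lit 0) (nat_lit 955170799669) (nat_lit 304) (nat_lit 44978729227) (nat_lit 380) (nat_lit 282986745510) (nat_lit 72) (nat_lit 5) (nat_lit 76) (nat_lit 5) (nat_lit 77) (nat_lit 5) (nat_lit 381) (nat_lit 367) (nat_lit 152)) (XT.nd (nat_lit 78) (nat_lit 0) (nat_lit 76) (XT.lf (nat_lit 0) (nat_lit 41686972575) (nat_lit 836) (nat_lit 170101978331) (nat_lit 836) (nat_lit 170101978331) (nat_lit 100) (nat_lit 3) (nat_lit 111) (nat_lit 3) (nat_lit 111) (nat_lit 5) (nat_lit 368) (nat_lit 368) (nat_lit 164)) (XT.lf (nat_lit 0) (nat_lit 92971062137) (nat_lit 760) (nat_lit 550751731980) (nat_lit 836) (nat_lit 150297230559) (nat_lit 101) (nat_lit 5) (nat_lit 111) (nat_lit 5) (nat_lit 112) (nat_lit 5) (nat_lit 369) (nat_lit 368) (nat_lit 163)))))) (XT.nd (nat_lit 468) (nat_lit 1900)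 (nat_lit 0) (XT.nd (nat_lit 234) (nat_lit 0) (nat_lit 228) (XT.nd (nat_lit 78) (nat_lit 0) (nat_lit 76) (XT.lf (nat_lit 76) (nat_lit 53664086814) (nat_lit 0) (nat_lit 63675271734) (nat_lit 836) (nat_lit 708637715140) (nat_lit 102) (nat_lit 5) (nat_lit 101) (nat_lit 5) (nat_lit 112) (nat_lit 5) (nat_lit 370) (nat_lit 368) (nat_lit 162)) (XT.nd (nat_lit 78) (nat_lit 0) (nat_lit 76) (XT.lf (nat_lit 0) (nat_lit 162194628445) (nat_lit 760) (nat_lit 142854458327) (nat_lit 836) (nat_lit 554514724376) (nat_lit 102) (nat_lit 5) (nat_lit 112) (nat_lit 5) (nat_lit 113) (nat_lit 5) (nat_lit 371) (nat_lit 368) (nat_lit 161)) (XT.lf (nat_lit 0) (nat_lit 225558301851) (nat_lit 760) (nat_lit 346948705247) (nat_lit 836) (nat_lit 322584481426) (nat_lit 103) (nat_lit 5) (nat_lit 113) (nat_lit 5) (nat_lit 114) (nat_lit 5) (nat_lit 372) (nat_lit 368) (nat_lit 160)))) (XT.nd (nat_lit 78) (nat_lit 0) (nat_lit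 0) (XT.lf (nat_lit 0) (nat_lit 308508389901) (nat_lit 760) (nat_lit 560872532900) (nat_lit 836) (nat_lit 63354591265) (nat_lit 104) (nat_lit 5) (nat_lit 114) (nat_lit 5) (nat_lit 115) (nat_lit 5) (nat_lit 373) (nat_lit 368) (nat_lit 159)) (XT.nd (nat_lit 78) (nat_lit 0) (nat_lit 76) (XT.lf (nat_lit 76) (nat_lit 183604023465) (nat_lit 0) (nat_lit 233153234443) (nat_lit 836) (nat_lit 555700665112) (nat_lit 105) (nat_lit 5) (nat_lit 104) (nat_lit 5) (nat_lit 115) (nat_lit 5) (nat_lit 374) (nat_lit 368) (nat_lit 158)) (XT.lf (nat_lit 0) (nat_lit 550684011246) (nat_lit 760) (nat_lit 14450302115) (nat_lit 76) (nat_lit 449372912544) (nat_lit 105) (nat_lit 5) (nat_lit 115) (nat_lit 5) (nat_lit 106) (nat_lit 5) (nat_lit 375) (nat_lit 368) (nat_lit 157))))) (XT.nd (nat_lit 312) (nat_lit 760) (nat_lit 0) (XT.nd (nat_lit 78) (nat_lit 684) (nat_lit 0) (XT.lf (nat_lit 0) (nat_lit 714519215202) (nat_lit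 836) (nat_lit 216113943134) (nat_lit 76) (nat_lit 128327599181) (nat_lit 95) (nat_lit 5) (nat_lit 106) (nat_lit 5) (nat_lit 96) (nat_lit 5) (nat_lit 376) (nat_lit 368) (nat_lit 156)) (XT.nd (nat_lit 78) (nat_lit 304) (nat_lit 0) (XT.lf (nat_lit 0) (nat_lit 674335338714) (nat_lit 380) (nat_lit 237439189109) (nat_lit 456) (nat_lit 194180379228) (nat_lit 90) (nat_lit 5) (nat_lit 95) (nat_lit 5) (nat_lit 96) (nat_lit 5) (nat_lit 377) (nat_lit 368) (nat_lit 155)) (XT.lf (nat_lit 0) (nat_lit 495018082430) (nat_lit 304) (nat_lit 649328497882) (nat_lit 380) (nat_lit 11385192503) (nat_lit 86) (nat_lit 5) (nat_lit 90) (nat_lit 5) (nat_lit 91) (nat_lit 5) (nat_lit 378) (nat_lit 368) (nat_lit 154)))) (XT.nd (nat_lit 46020) (nat_lit 0) (nat_lit 1824) (XT.lf (nat_lit 0) (nat_lit 94374164064) (nat_lit 304) (nat_lit 353852480676) (nat_lit 380) (nat_lit 815924257350) (nat_lit 76) (nat_lit 5) (nat_lit 80)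 (nat_lit 5) (nat_lit 81) (nat_lit 5) (nat_lit 380) (nat_lit 368) (nat_lit 152)) (XT.nd (nat_lit 78) (nat_lit 0) (nat_lit 76) (XT.lf (nat_lit 0) (nat_lit 45022096631) (nat_lit 836) (nat_lit 183710049229) (nat_lit 836) (nat_lit 183710049229) (nat_lit 100) (nat_lit 3) (nat_lit 111) (nat_lit 3) (nat_lit 111) (nat_lit 5) (nat_lit 369) (nat_lit 369) (nat_lit 162)) (XT.lf (nat_lit 0) (nat_lit 100409055351) (nat_lit 760) (nat_lit 594811685308) (nat_lit 836) (nat_lit 162320870256) (nat_lit 101) (nat_lit 5) (nat_lit 111) (nat_lit 5) (nat_lit 112) (nat_lit 5) (nat_lit 370) (nat_lit 369) (nat_lit 161))))))))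
noncomputable def xc127 : XT := (XT.nd (nat_lit 94068) (nat_lit 0) (nat_lit 1140) (XT.nd (nat_lit 46956) (nat_lit 0) (nat_lit 456) (XT.nd (nat_lit 390) (nat_lit 1596) (nat_lit 0) (XT.nd (nat_lit 156) (nat_lit 0) (nat_lit 152) (XT.nd (nat_lit 78) (nat_lit 0) (nat_lit 76) (XT.lf (nat_lit 76) (nat_lit 57957390941) (nat_lit 0) (nat_lit 68769404467) (nat_lit 836) (nat_lit 765328429465) (nat_lit 102) (nat_lit 5) (nat_lit 101) (nat_lit 5) (nat_lit 112) (nat_lit 5) (nat_lit 371) (nat_lit 369) (nat_lit 160)) (XT.lf (nat_lit 0) (nat_lit 175170463945) (nat_lit 760) (nat_lit 154282635712) (nat_lit 836) (nat_lit 598875802843) (nat_lit 102) (nat_lit 5) (nat_lit 112) (nat_lit 5) (nat_lit 113) (nat_lit 5) (nat_lit 372) (nat_lit 369) (nat_lit 159))) (XT.nd (nat_lit 78) (nat_lit 0) (nat_lit 76) (XT.lf (nat_lit 0) (nat_lit 243603213056) (nat_lit 760) (nat_lit 374704416307) (nat_lit 836) (nat_lit 348391165631)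 (nat_lit 103) (nat_lit 5) (nat_lit 113) (nat_lit 5) (nat_lit 114) (nat_lit 5) (nat_lit 373) (nat_lit 369) (nat_lit 158)) (XT.nd (nat_lit 78) (nat_lit 0) (nat_lit 0) (XT.lf (nat_lit 0) (nat_lit 333189291772) (nat_lit 760) (nat_lit 605742145566) (nat_lit 836) (nat_lit 68422906080) (nat_lit 104) (nat_lit 5) (nat_lit 114) (nat_lit 5) (nat_lit 115) (nat_lit 5) (nat_lit 374) (nat_lit 369) (nat_lit 157)) (XT.lf (nat_lit 76) (nat_lit 198292527052) (nat_lit 0) (nat_lit 251805527917) (nat_lit 836) (nat_lit 600156490849) (nat_lit 105) (nat_lit 5) (nat_lit 104) (nat_lit 5) (nat_lit 115) (nat_lit 5) (nat_lit 375) (nat_lit 369) (nat_lit 156))))) (XT.nd (nat_lit 312) (nat_lit 760) (nat_lit 0) (XT.nd (nat_lit 78) (nat_lit 1140) (nat_lit 0) (XT.lf (nat_lit 0) (nat_lit 594738932041) (nat_lit 760) (nat_lit 15606147308) (nat_lit 76) (nat_lit 485322714430) (nat_lit 105) (nat_lit 5) (nat_lit 115) (nat_lit 5)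 (nat_lit 106) (nat_lit 5) (nat_lit 376) (nat_lit 369) (nat_lit 155)) (XT.nd (nat_lit 78) (nat_lit 380) (nat_lit 0) (XT.lf (nat_lit 0) (nat_lit 771680939921) (nat_lit 836) (nat_lit 233402877550) (nat_lit 76) (nat_lit 138593791083) (nat_lit 95) (nat_lit 5) (nat_lit 106) (nat_lit 5) (nat_lit 96) (nat_lit 5) (nat_lit 377) (nat_lit 369) (nat_lit 154)) (XT.lf (nat_lit 0) (nat_lit 728282338979) (nat_lit 380) (nat_lit 256434327387) (nat_lit 456) (nat_lit 209714624258) (nat_lit 90) (nat_lit 5) (nat_lit 95) (nat_lit 5) (nat_lit 96) (nat_lit 5) (nat_lit 378) (nat_lit 369) (nat_lit 153)))) (XT.nd (nat_lit 46098) (nat_lit 0) (nat_lit 1520) (XT.lf (nat_lit 0) (nat_lit 214029160848) (nat_lit 456) (nat_lit 977839767598) (nat_lit 76) (nat_lit 113247107000) (nat_lit 80) (nat_lit 5) (nat_lit 86) (nat_lit 5) (nat_lit 81) (nat_lit 5) (nat_lit 380) (nat_lit 369) (nat_lit 151)) (XT.nd (nat_lit 78) (nat_lit 0)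 (nat_lit 76) (XT.lf (nat_lit 0) (nat_lit 48624006895) (nat_lit 836) (nat_lit 198406778262) (nat_lit 836) (nat_lit 198406778262) (nat_lit 100) (nat_lit 3) (nat_lit 111) (nat_lit 3) (nat_lit 111) (nat_lit 5) (nat_lit 370) (nat_lit 370) (nat_lit 160)) (XT.lf (nat_lit 0) (nat_lit 108442044047) (nat_lit 760) (nat_lit 642396461326) (nat_lit 836) (nat_lit 175306420922) (nat_lit 101) (nat_lit 5) (nat_lit 111) (nat_lit 5) (nat_lit 112) (nat_lit 5) (nat_lit 371) (nat_lit 370) (nat_lit 159)))))) (XT.nd (nat_lit 546) (nat_lit 1140) (nat_lit 0) (XT.nd (nat_lit 234) (nat_lit 0) (nat_lit 228) (XT.nd (nat_lit 78) (nat_lit 0) (nat_lit 76) (XT.lf (nat_lit 76) (nat_lit 62594134120) (nat_lit 0) (nat_lit 74271051985) (nat_lit 836) (nat_lit 826554444146) (nat_lit 102) (nat_lit 5) (nat_lit 101) (nat_lit 5) (nat_lit 112) (nat_lit 5) (nat_lit 372) (nat_lit 370) (nat_lit 158)) (XT.nd (nat_lit 78) (nat_lit 0) (nat_lit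 76) (XT.lf (nat_lit 0) (nat_lit 189184328449) (nat_lit 760) (nat_lit 166625092863) (nat_lit 836) (nat_lit 646785781779) (nat_lit 102) (nat_lit 5) (nat_lit 112) (nat_lit 5) (nat_lit 113) (nat_lit 5) (nat_lit 373) (nat_lit 370) (nat_lit 157)) (XT.lf (nat_lit 0) (nat_lit 263091681913) (nat_lit 760) (nat_lit 404680610696) (nat_lit 836) (nat_lit 376262395174) (nat_lit 103) (nat_lit 5) (nat_lit 113) (nat_lit 5) (nat_lit 114) (nat_lit 5) (nat_lit 374) (nat_lit 370) (nat_lit 156)))) (XT.nd (nat_lit 78) (nat_lit 0) (nat_lit 0) (XT.lf (nat_lit 0) (nat_lit 359844632884) (nat_lit 760) (nat_lit 654201354346) (nat_lit 836) (nat_lit 73896693568) (nat_lit 104) (nat_lit 5) (nat_lit 114) (nat_lit 5) (nat_lit 115) (nat_lit 5) (nat_lit 375) (nat_lit 370) (nat_lit 155)) (XT.nd (nat_lit 78) (nat_lit 0) (nat_lit 76) (XT.lf (nat_lit 76) (nat_lit 214156085003) (nat_lit 0) (nat_lit 271949999916) (nat_lit 836) (nat_lit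 648168815097) (nat_lit 105) (nat_lit 5) (nat_lit 104) (nat_lit 5) (nat_lit 115) (nat_lit 5) (nat_lit 376) (nat_lit 370) (nat_lit 154)) (XT.lf (nat_lit 0) (nat_lit 642318217982) (nat_lit 760) (nat_lit 16854485649) (nat_lit 76) (nat_lit 524148504906) (nat_lit 105) (nat_lit 5) (nat_lit 115) (nat_lit 5) (nat_lit 106) (nat_lit 5) (nat_lit 377) (nat_lit 370) (nat_lit 153))))) (XT.nd (nat_lit 46332) (nat_lit 0) (nat_lit 1140) (XT.nd (nat_lit 78) (nat_lit 304) (nat_lit 0) (XT.lf (nat_lit 0) (nat_lit 786545074560) (nat_lit 380) (nat_lit 276949076278) (nat_lit 456) (nat_lit 226491635327) (nat_lit 90) (nat_lit 5) (nat_lit 95) (nat_lit 5) (nat_lit 96) (nat_lit 5) (nat_lit 379) (nat_lit 370) (nat_lit 151)) (XT.nd (nat_lit 46176) (nat_lit 0) (nat_lit 1064) (XT.lf (nat_lit 0) (nat_lit 577389429004) (nat_lit 304) (nat_lit 757376743738) (nat_lit 380) (nat_lit 13279350681) (nat_lit 86) (nat_lit 5) (nat_lit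 90) (nat_lit 5) (nat_lit 91) (nat_lit 5) (nat_lit 380) (nat_lit 370) (nat_lit 150)) (XT.lf (nat_lit 0) (nat_lit 52514049645) (nat_lit 836) (nat_lit 214279256304) (nat_lit 836) (nat_lit 214279256304) (nat_lit 100) (nat_lit 3) (nat_lit 111) (nat_lit 3) (nat_lit 111) (nat_lit 5) (nat_lit 371) (nat_lit 371) (nat_lit 158)))) (XT.nd (nat_lit 78) (nat_lit 0) (nat_lit 0) (XT.lf (nat_lit 0) (nat_lit 117117634139) (nat_lit 760) (nat_lit 693788042082) (nat_lit 836) (nat_lit 189330832611) (nat_lit 101) (nat_lit 5) (nat_lit 111) (nat_lit 5) (nat_lit 112) (nat_lit 5) (nat_lit 372) (nat_lit 371) (nat_lit 157)) (XT.nd (nat_lit 78) (nat_lit 0) (nat_lit 76) (XT.lf (nat_lit 76) (nat_lit 67601795084) (nat_lit 0) (nat_lit 80212817728) (nat_lit 836) (nat_lit 892678577048) (nat_lit 102) (nat_lit 5) (nat_lit 101) (nat_lit 5) (nat_lit 112) (nat_lit 5) (nat_lit 373) (nat_lit 371) (nat_lit 156)) (XT.lf (nat_lit 0)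 (nat_lit 204319269673) (nat_lit 760) (nat_lit 179954968515) (nat_lit 836) (nat_lit 698528571198) (nat_lit 102) (nat_lit 5) (nat_lit 112) (nat_lit 5) (nat_lit 113) (nat_lit 5) (nat_lit 374) (nat_lit 371) (nat_lit 155))))))) (XT.nd (nat_lit 93678) (nat_lit 0) (nat_lit 456) (XT.nd (nat_lit 46800) (nat_lit 0) (nat_lit 380) (XT.nd (nat_lit 312) (nat_lit 608) (nat_lit 0) (XT.nd (nat_lit 78) (nat_lit 0) (nat_lit 76) (XT.lf (nat_lit 0) (nat_lit 284139198061) (nat_lit 760) (nat_lit 437054923307) (nat_lit 836) (nat_lit 406363332168) (nat_lit 103) (nat_lit 5) (nat_lit 113) (nat_lit 5) (nat_lit 114) (nat_lit 5) (nat_lit 375) (nat_lit 371) (nat_lit 154)) (XT.nd (nat_lit 78) (nat_lit 0) (nat_lit 0) (XT.lf (nat_lit 0) (nat_lit 388632373071) (nat_lit 760) (nat_lit 706537323063) (nat_lit 836) (nat_lit 79808390475) (nat_lit 104) (nat_lit 5) (nat_lit 114) (nat_lit 5) (nat_lit 115) (nat_lit 5) (nat_lit 376)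 (nat_lit 371) (nat_lit 153)) (XT.lf (nat_lit 76) (nat_lit 231288705366) (nat_lit 0) (nat_lit 293706025428) (nat_lit 836) (nat_lit 700022153107) (nat_lit 105) (nat_lit 5) (nat_lit 104) (nat_lit 5) (nat_lit 115) (nat_lit 5) (nat_lit 377) (nat_lit 371) (nat_lit 152)))) (XT.nd (nat_lit 46332) (nat_lit 0) (nat_lit 380) (XT.lf (nat_lit 0) (nat_lit 900088959756) (nat_lit 836) (nat_lit 272240815684) (nat_lit 76) (nat_lit 161655771291) (nat_lit 95) (nat_lit 5) (nat_lit 106) (nat_lit 5) (nat_lit 96) (nat_lit 5) (nat_lit 379) (nat_lit 371) (nat_lit 150)) (XT.nd (nat_lit 78) (nat_lit 0) (nat_lit 76) (XT.lf (nat_lit 0) (nat_lit 56715278383) (nat_lit 836) (nat_lit 231421541751) (nat_lit 836) (nat_lit 231421541751) (nat_lit 100) (nat_lit 3) (nat_lit 111) (nat_lit 3) (nat_lit 111) (nat_lit 5) (nat_lit 372) (nat_lit 372) (nat_lit 156)) (XT.lf (nat_lit 0) (nat_lit 126487239115) (nat_lit 760) (nat_lit 749290968721)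 (nat_lit 836) (nat_lit 204477211785) (nat_lit 101) (nat_lit 5) (nat_lit 111) (nat_lit 5) (nat_lit 112) (nat_lit 5) (nat_lit 373) (nat_lit 372) (nat_lit 155))))) (XT.nd (nat_lit 312) (nat_lit 76) (nat_lit 0) (XT.nd (nat_lit 78) (nat_lit 0) (nat_lit 76) (XT.lf (nat_lit 76) (nat_lit 73010050345) (nat_lit 0) (nat_lit 86629913092) (nat_lit 836) (nat_lit 964092672342) (nat_lit 102) (nat_lit 5) (nat_lit 101) (nat_lit 5) (nat_lit 112) (nat_lit 5) (nat_lit 374) (nat_lit 372) (nat_lit 154)) (XT.nd (nat_lit 78) (nat_lit 0) (nat_lit 76) (XT.lf (nat_lit 0) (nat_lit 220664978384) (nat_lit 760) (nat_lit 194351253019) (nat_lit 836) (nat_lit 754410794202) (nat_lit 102) (nat_lit 5) (nat_lit 112) (nat_lit 5) (nat_lit 113) (nat_lit 5) (nat_lit 375) (nat_lit 372) (nat_lit 153)) (XT.lf (nat_lit 0) (nat_lit 306870489595) (nat_lit 760) (nat_lit 472019200364) (nat_lit 836) (nat_lit 438872351914) (nat_lit 103) (nat_lit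 5) (nat_lit 113) (nat_lit 5) (nat_lit 114) (nat_lit 5) (nat_lit 376) (nat_lit 372) (nat_lit 152)))) (XT.nd (nat_lit 78) (nat_lit 304) (nat_lit 0) (XT.lf (nat_lit 76) (nat_lit 249791916303) (nat_lit 0) (nat_lit 317202529341) (nat_lit 836) (nat_lit 756023782010) (nat_lit 105) (nat_lit 5) (nat_lit 104) (nat_lit 5) (nat_lit 115) (nat_lit 5) (nat_lit 378) (nat_lit 372) (nat_lit 150)) (XT.nd (nat_lit 46410) (nat_lit 380) (nat_lit 0) (XT.lf (nat_lit 0) (nat_lit 749200254105) (nat_lit 760) (nat_lit 19658817198) (nat_lit 76) (nat_lit 611366771810) (nat_lit 105) (nat_lit 5) (nat_lit 115) (nat_lit 5) (nat_lit 106) (nat_lit 5) (nat_lit 379) (nat_lit 372) (nat_lit 149)) (XT.lf (nat_lit 0) (nat_lit 61252590473) (nat_lit 836) (nat_lit 249935217888) (nat_lit 836) (nat_lit 249935217888) (nat_lit 100) (nat_lit 3) (nat_lit 111) (nat_lit 3) (nat_lit 111) (nat_lit 5) (nat_lit 373) (nat_lit 373) (nat_lit 154))))))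 (XT.nd (nat_lit 47112) (nat_lit 0) (nat_lit 0) (XT.nd (nat_lit 312) (nat_lit 0) (nat_lit 0) (XT.nd (nat_lit 78) (nat_lit 0) (nat_lit 0) (XT.lf (nat_lit 0) (nat_lit 136606384778) (nat_lit 760) (nat_lit 809234146144) (nat_lit 836) (nat_lit 220835313766) (nat_lit 101) (nat_lit 5) (nat_lit 111) (nat_lit 5) (nat_lit 112) (nat_lit 5) (nat_lit 374) (nat_lit 373) (nat_lit 153)) (XT.nd (nat_lit 78) (nat_lit 0) (nat_lit 76) (XT.lf (nat_lit 76) (nat_lit 78850950098) (nat_lit 0) (nat_lit 93560366107) (nat_lit 836) (nat_lit 1041219922490) (nat_lit 102) (nat_lit 5) (nat_lit 101) (nat_lit 5) (nat_lit 112) (nat_lit 5) (nat_lit 375) (nat_lit 373) (nat_lit 152)) (XT.lf (nat_lit 0) (nat_lit 238318319948) (nat_lit 760) (nat_lit 209899256400) (nat_lit 836) (nat_lit 814763603991) (nat_lit 102) (nat_lit 5) (nat_lit 112) (nat_lit 5) (nat_lit 113) (nat_lit 5) (nat_lit 376) (nat_lit 373) (nat_lit 151)))) (XT.nd (nat_lit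 78) (nat_lit 228) (nat_lit 0) (XT.lf (nat_lit 0) (nat_lit 453301081575) (nat_lit 760) (nat_lit 824104901701) (nat_lit 836) (nat_lit 93088442572) (nat_lit 104) (nat_lit 5) (nat_lit 114) (nat_lit 5) (nat_lit 115) (nat_lit 5) (nat_lit 378) (nat_lit 373) (nat_lit 149)) (XT.nd (nat_lit 46566) (nat_lit 228) (nat_lit 0) (XT.lf (nat_lit 76) (nat_lit 269775367780) (nat_lit 0) (nat_lit 342578750446) (nat_lit 836) (nat_lit 816505561675) (nat_lit 105) (nat_lit 5) (nat_lit 104) (nat_lit 5) (nat_lit 115) (nat_lit 5) (nat_lit 379) (nat_lit 373) (nat_lit 148)) (XT.lf (nat_lit 0) (nat_lit 147535038336) (nat_lit 760) (nat_lit 873972792038) (nat_lit 836) (nat_lit 238502074600) (nat_lit 101) (nat_lit 5) (nat_lit 111) (nat_lit 5) (nat_lit 112) (nat_lit 5) (nat_lit 375) (nat_lit 374) (nat_lit 151))))) (XT.nd (nat_lit 46878) (nat_lit 0) (nat_lit 0) (XT.nd (nat_lit 78) (nat_lit 76) (nat_lit 0) (XT.lf (nat_lit 0)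 (nat_lit 257383908394) (nat_lit 760) (nat_lit 226691113870) (nat_lit 836) (nat_lit 879944646230) (nat_lit 102) (nat_lit 5) (nat_lit 112) (nat_lit 5) (nat_lit 113) (nat_lit 5) (nat_lit 377) (nat_lit 374) (nat_lit 149)) (XT.nd (nat_lit 46722) (nat_lit 152) (nat_lit 0) (XT.lf (nat_lit 0) (nat_lit 357933997655) (nat_lit 760) (nat_lit 550563001291) (nat_lit 836) (nat_lit 511900633494) (nat_lit 103) (nat_lit 5) (nat_lit 113) (nat_lit 5) (nat_lit 114) (nat_lit 5) (nat_lit 378) (nat_lit 374) (nat_lit 148)) (XT.lf (nat_lit 0) (nat_lit 159337963811) (nat_lit 760) (nat_lit 943890541843) (nat_lit 836) (nat_lit 257582185469) (nat_lit 101) (nat_lit 5) (nat_lit 111) (nat_lit 5) (nat_lit 112) (nat_lit 5) (nat_lit 376) (nat_lit 375) (nat_lit 149)))) (XT.nd (nat_lit 78) (nat_lit 0) (nat_lit 0) (XT.lf (nat_lit 76) (nat_lit 91971907190) (nat_lit 0) (nat_lit 109128910629) (nat_lit 836) (nat_lit 1214478645794)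 (nat_lit 102) (nat_lit 5) (nat_lit 101) (nat_lit 5) (nat_lit 112) (nat_lit 5) (nat_lit 377) (nat_lit 375) (nat_lit 148)) (XT.nd (nat_lit 46800) (nat_lit 76) (nat_lit 0) (XT.lf (nat_lit 0) (nat_lit 277974726391) (nat_lit 760) (nat_lit 244826331785) (nat_lit 836) (nat_lit 950340178422) (nat_lit 102) (nat_lit 5) (nat_lit 112) (nat_lit 5) (nat_lit 113) (nat_lit 5) (nat_lit 378) (nat_lit 375) (nat_lit 147)) (XT.lf (nat_lit 0) (nat_lit 172085105860) (nat_lit 760) (nat_lit 1019401722126) (nat_lit 836) (nat_lit 278188713068) (nat_lit 101) (nat_lit 5) (nat_lit 111) (nat_lit 5) (nat_lit 112) (nat_lit 5) (nat_lit 377) (nat_lit 376) (nat_lit 147))))))))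

set_option maxRecDepth 10000000 in
noncomputable def Tp : PT := (PT.nd (nat_lit 7183566) (PT.nd (nat_lit 6809010) (PT.nd (nat_lit 6387732) pc0 pc1) (PT.nd (nat_lit 234000) pc2 pc3)) (PT.nd (nat_lit 188370) (PT.nd (nat_lit 94224) pc4 pc5) (PT.nd (nat_lit 185484) pc6 pc7)))

set_option maxRecDepth 10000000 in
noncomputable def Tx : XT := (XT.nd (nat_lit 11890866) (nat_lit 0) (nat_lit 76) XT.nil (XT.nd (nat_lit 5764746) (nat_lit 0) (nat_lit 0) (XT.nd (nat_lit 2619162) (nat_lit 0) (nat_lit 76) (XT.nd (nat_lit 1780350) (nat_lit 0) (nat_lit 0) (XT.nd (nat_lit 1262976) (nat_lit 0) (nat_lit 0) (XT.nd (nat_lit 888732) (nat_lit 0) (nat_lit 0) (XT.nd (nat_lit 608790) (nat_lit 0) (nat_lit 0) (XT.nd (nat_lit 421434) (nat_lit 0) (nat_lit 0) (XT.nd (nat_lit 281112) (nat_lit 0) (nat_lit 0) xc0 xc1) (XT.nd (nat_lit 93990) (nat_lit 0) (nat_lit 0) xc2 xc3)) (XT.nd (nat_lit 140634) (nat_lit 0) (nat_lit 0)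 (XT.nd (nat_lit 92664) (nat_lit 0) (nat_lit 0) xc4 xc5) (XT.nd (nat_lit 91806) (nat_lit 0) (nat_lit 0) xc6 xc7))) (XT.nd (nat_lit 188370) (nat_lit 0) (nat_lit 0) (XT.nd (nat_lit 94458) (nat_lit 0) (nat_lit 0) (XT.nd (nat_lit 47268) (nat_lit 0) (nat_lit 0) xc8 xc9) (XT.nd (nat_lit 47034) (nat_lit 0) (nat_lit 0) xc10 xc11)) (XT.nd (nat_lit 93210) (nat_lit 0) (nat_lit 0) (XT.nd (nat_lit 46644) (nat_lit 0) (nat_lit 0) xc12 xc13) (XT.nd (nat_lit 46410) (nat_lit 0) (nat_lit 0) xc14 xc15)))) (XT.nd (nat_lit 281814) (nat_lit 0) (nat_lit 0) (XT.nd (nat_lit 141570) (nat_lit 0) (nat_lit 0) (XT.nd (nat_lit 92040) (nat_lit 0) (nat_lit 0) (XT.nd (nat_lit 46020) (nat_lit 0) (nat_lit 0) xc16 xc17) (XT.nd (nat_lit 3666) (nat_lit 0) (nat_lit 0) xc18 xc19)) (XT.nd (nat_lit 91182) (nat_lit 0) (nat_lit 0) (XT.nd (nat_lit 45630) (nat_lit 0) (nat_lit 0) xc20 xc21) (XT.nd (nat_lit 3666) (nat_lit 0) (nat_lit 0)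 xc22 xc23))) (XT.nd (nat_lit 138840) (nat_lit 0) (nat_lit 0) (XT.nd (nat_lit 48828) (nat_lit 0) (nat_lit 0) (XT.nd (nat_lit 45162) (nat_lit 0) (nat_lit 0) xc24 xc25) (XT.nd (nat_lit 45084) (nat_lit 0) (nat_lit 0) xc26 xc27)) (XT.nd (nat_lit 48438) (nat_lit 0) (nat_lit 0) (XT.nd (nat_lit 3666) (nat_lit 0) (nat_lit 0) xc28 xc29) (XT.nd (nat_lit 44616) (nat_lit 0) (nat_lit 76) xc30 xc31))))) (XT.nd (nat_lit 420186) (nat_lit 0) (nat_lit 76) (XT.nd (nat_lit 231582) (nat_lit 0) (nat_lit 0) (XT.nd (nat_lit 136500) (nat_lit 0) (nat_lit 0) (XT.nd (nat_lit 88686) (nat_lit 0) (nat_lit 0) (XT.nd (nat_lit 44382) (nat_lit 0) (nat_lit 0) xc32 xc33) (XT.nd (nat_lit 3666) (nat_lit 228) (nat_lit 0) xc34 xc35)) (XT.nd (nat_lit 47580) (nat_lit 0) (nat_lit 0) (XT.nd (nat_lit 3588) (nat_lit 76) (nat_lit 0) xc36 xc37) (XT.nd (nat_lit 3666) (nat_lit 76) (nat_lit 0) xc38 xc39))) (XT.nd (nat_lit 94536) (nat_lit 0)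 (nat_lit 76) (XT.nd (nat_lit 47268) (nat_lit 0) (nat_lit 0) (XT.nd (nat_lit 3588) (nat_lit 76) (nat_lit 0) xc40 xc41) (XT.nd (nat_lit 43602) (nat_lit 0) (nat_lit 608) xc42 xc43)) (XT.nd (nat_lit 47112) (nat_lit 0) (nat_lit 0) (XT.nd (nat_lit 43446) (nat_lit 0) (nat_lit 456) xc44 xc45) (XT.nd (nat_lit 43290) (nat_lit 0) (nat_lit 456) xc46 xc47)))) (XT.nd (nat_lit 188448) (nat_lit 0) (nat_lit 0) (XT.nd (nat_lit 94068) (nat_lit 0) (nat_lit 0) (XT.nd (nat_lit 46956) (nat_lit 0) (nat_lit 0) (XT.nd (nat_lit 43290) (nat_lit 0) (nat_lit 456) xc48 xc49) (XT.nd (nat_lit 43446) (nat_lit 0) (nat_lit 380) xc50 xc51)) (XT.nd (nat_lit 47112) (nat_lit 0) (nat_lit 0) (XT.nd (nat_lit 43446) (nat_lit 0) (nat_lit 380) xc52 xc53) (XT.nd (nat_lit 43602) (nat_lit 0) (nat_lit 228) xc54 xc55))) (XT.nd (nat_lit 94692) (nat_lit 0) (nat_lit 0) (XT.nd (nat_lit 47268) (nat_lit 0) (nat_lit 0) (XT.nd (nat_lit 43602) (nat_lit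 0) (nat_lit 152) xc56 xc57) (XT.nd (nat_lit 43758) (nat_lit 0) (nat_lit 76) xc58 xc59)) (XT.nd (nat_lit 47502) (nat_lit 0) (nat_lit 0) (XT.nd (nat_lit 43836) (nat_lit 0) (nat_lit 0) xc60 xc61) (XT.nd (nat_lit 43914) (nat_lit 0) (nat_lit 0) xc62 xc63)))))) (XT.nd (nat_lit 942318) (nat_lit 0) (nat_lit 380) (XT.nd (nat_lit 425490) (nat_lit 0) (nat_lit 152) (XT.nd (nat_lit 191568) (nat_lit 0) (nat_lit 0) (XT.nd (nat_lit 95628) (nat_lit 0) (nat_lit 0) (XT.nd (nat_lit 47736) (nat_lit 0) (nat_lit 0) (XT.nd (nat_lit 3588) (nat_lit 684) (nat_lit 0) xc64 xc65) (XT.nd (nat_lit 3666) (nat_lit 228) (nat_lit 0) xc66 xc67)) (XT.nd (nat_lit 47892) (nat_lit 0) (nat_lit 0) (XT.nd (nat_lit 3588) (nat_lit 152) (nat_lit 0) xc68 xc69) (XT.nd (nat_lit 44382) (nat_lit 0) (nat_lit 608) xc70 xc71))) (XT.nd (nat_lit 137202) (nat_lit 0) (nat_lit 152) (XT.nd (nat_lit 48048) (nat_lit 0) (nat_lit 0) (XT.nd (nat_lit 44382)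 (nat_lit 0) (nat_lit 152) xc72 xc73) (XT.nd (nat_lit 44538) (nat_lit 0) (nat_lit 76) xc74 xc75)) (XT.nd (nat_lit 48282) (nat_lit 0) (nat_lit 0) (XT.nd (nat_lit 3588) (nat_lit 456) (nat_lit 0) xc76 xc77) (XT.nd (nat_lit 3666) (nat_lit 0) (nat_lit 0) xc78 xc79)))) (XT.nd (nat_lit 236262) (nat_lit 0) (nat_lit 76) (XT.nd (nat_lit 138606) (nat_lit 0) (nat_lit 0) (XT.nd (nat_lit 48516) (nat_lit 0) (nat_lit 0) (XT.nd (nat_lit 44850) (nat_lit 0) (nat_lit 76) xc80 xc81) (XT.nd (nat_lit 45006) (nat_lit 0) (nat_lit 0) xc82 xc83)) (XT.nd (nat_lit 48750) (nat_lit 0) (nat_lit 76) (XT.nd (nat_lit 3588) (nat_lit 228) (nat_lit 0) xc84 xc85) (XT.nd (nat_lit 45240) (nat_lit 0) (nat_lit 76) xc86 xc87))) (XT.nd (nat_lit 139776) (nat_lit 0) (nat_lit 76) (XT.nd (nat_lit 90636) (nat_lit 0) (nat_lit 0) (XT.nd (nat_lit 45240) (nat_lit 0) (nat_lit 0) xc88 xc89) (XT.nd (nat_lit 45474) (nat_lit 0) (nat_lit 608) xc90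 xc91)) (XT.nd (nat_lit 91338) (nat_lit 0) (nat_lit 76) (XT.nd (nat_lit 45630) (nat_lit 0) (nat_lit 76) xc92 xc93) (XT.nd (nat_lit 45786) (nat_lit 0) (nat_lit 532) xc94 xc95))))) (XT.nd (nat_lit 700830) (nat_lit 0) (nat_lit 836) (XT.nd (nat_lit 326430) (nat_lit 0) (nat_lit 304) (XT.nd (nat_lit 141414) (nat_lit 0) (nat_lit 76) (XT.nd (nat_lit 91728) (nat_lit 0) (nat_lit 76) (XT.nd (nat_lit 45786) (nat_lit 0) (nat_lit 76) xc96 xc97) (XT.nd (nat_lit 46020) (nat_lit 0) (nat_lit 152) xc98 xc99)) (XT.nd (nat_lit 92274) (nat_lit 0) (nat_lit 152) (XT.nd (nat_lit 46020) (nat_lit 0) (nat_lit 152) xc100 xc101) (XT.nd (nat_lit 46332) (nat_lit 0) (nat_lit 76) xc102 xc103))) (XT.nd (nat_lit 186420) (nat_lit 0) (nat_lit 228) (XT.nd (nat_lit 92976) (nat_lit 0) (nat_lit 152) (XT.nd (nat_lit 46410) (nat_lit 0) (nat_lit 76) xc104 xc105) (XT.nd (nat_lit 46644) (nat_lit 0) (nat_lit 76) xc106 xc107)) (XT.nd (nat_lit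 93834) (nat_lit 0) (nat_lit 152) (XT.nd (nat_lit 46878) (nat_lit 0) (nat_lit 76) xc108 xc109) (XT.nd (nat_lit 47034) (nat_lit 0) (nat_lit 76) xc110 xc111)))) (XT.nd (nat_lit 424632) (nat_lit 0) (nat_lit 912) (XT.nd (nat_lit 189384) (nat_lit 0) (nat_lit 380) (XT.nd (nat_lit 94458) (nat_lit 0) (nat_lit 152) (XT.nd (nat_lit 47112) (nat_lit 0) (nat_lit 152) xc112 xc113) (XT.nd (nat_lit 47424) (nat_lit 0) (nat_lit 76) xc114 xc115)) (XT.nd (nat_lit 139386) (nat_lit 0) (nat_lit 380) (XT.nd (nat_lit 47502) (nat_lit 0) (nat_lit 76) xc116 xc117) (XT.nd (nat_lit 47892) (nat_lit 0) (nat_lit 0) xc118 xc119))) (XT.nd (nat_lit 327756) (nat_lit 0) (nat_lit 1140) (XT.nd (nat_lit 185484) (nat_lit 0) (nat_lit 608) (XT.nd (nat_lit 92508) (nat_lit 0) (nat_lit 304) xc120 xc121) (XT.nd (nat_lit 48516) (nat_lit 0) (nat_lit 380) xc122 xc123)) (XT.nd (nat_lit 234234) (nat_lit 0) (nat_lit 1444) (XT.nd (nat_lit 139464)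 (nat_lit 0) (nat_lit 912) xc124 xc125) (XT.nd (nat_lit 187122) (nat_lit 0) (nat_lit 1216) xc126 xc127))))))) XT.nil))

set_option maxRecDepth 10000000 in
noncomputable def Te : XT := XT.nil

set_option maxRecDepth 10000000 in
noncomputable def Tz : ZL := (ZL.cons (nat_lit 76) (nat_lit 3) (nat_lit 127966637731746346119) (ZL.cons (nat_lit 152) (nat_lit 6) (nat_lit 246822150922375818230) (ZL.cons (nat_lit 228) (nat_lit 6) (nat_lit 238424668909358442916) (ZL.cons (nat_lit 304) (nat_lit 3) (nat_lit 118865571836556902079) (ZL.cons (nat_lit 380) (nat_lit 6) (nat_lit 229355388335299677578) (ZL.cons (nat_lit 456) (nat_lit 6) (nat_lit 221645250803227873292) (ZL.cons (nat_lit 532) (nat_lit 3) (nat_lit 110501548903352529814) (ZL.cons (nat_lit 608) (nat_lit 6) (nat_lit 213318302268590324664) (ZL.cons (nat_lit 684) (nat_lit 6) (nat_lit 206255462191840718698) (ZL.cons (nat_lit 760) (nat_lit 3) (nat_lit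 102830438041974612283) (ZL.cons (nat_lit 836) (nat_lit 6) (nat_lit 198627594908951144256) (ZL.cons (nat_lit 912) (nat_lit 6) (nat_lit 192176780040336835856) (ZL.cons (nat_lit 988) (nat_lit 3) (nat_lit 95813118673922355828) (ZL.cons (nat_lit 1064) (nat_lit 6) (nat_lit 185209899982233382782) (ZL.cons (nat_lit 1140) (nat_lit 6) (nat_lit 179340560072172794198) (ZL.cons (nat_lit 1216) (nat_lit 3) (nat_lit 89415399159932635897) (ZL.cons (nat_lit 1292) (nat_lit 6) (nat_lit 173001672969307358530) (ZL.cons (nat_lit 1368) (nat_lit 6) (nat_lit 167687980965519299798) (ZL.cons (nat_lit 1444) (nat_lit 3) (nat_lit 83607989671506167304) (ZL.cons (nat_lit 1520) (nat_lit 6) (nat_lit 161949193601428196370) (ZL.cons (nat_lit 1596) (nat_lit 6) (nat_lit 157170105162382593364) (ZL.cons (nat_lit 1672) (nat_lit 3) (nat_lit 78366533311512146131) (ZL.cons (nat_lit 1748) (nat_lit 6) (nat_lit 152850393501792292390)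 (ZL.cons (nat_lit 1824) (nat_lit 6) (nat_lit 152008689648213342118) (ZL.cons (nat_lit 1900) (nat_lit 6) (nat_lit 147748066368996466234) (ZL.cons (nat_lit 1976) (nat_lit 3) (nat_lit 73671700527387908532) (ZL.cons (nat_lit 2052) (nat_lit 6) (nat_lit 143925948647422749786) (ZL.cons (nat_lit 2128) (nat_lit 6) (nat_lit 143146593227442240276) (ZL.cons (nat_lit 2204) (nat_lit 6) (nat_lit 140519686896993978162) (ZL.cons (nat_lit 2280) (nat_lit 6) (nat_lit 139393396193902486856) (ZL.cons (nat_lit 2356) (nat_lit 3) (nat_lit 69509353044071313258) (ZL.cons (nat_lit 2432) (nat_lit 6) (nat_lit 136061568786550395298) (ZL.cons (nat_lit 2508) (nat_lit 6) (nat_lit 135339943397679553162) (ZL.cons (nat_lit 2584) (nat_lit 6) (nat_lit 133131366842972027286) (ZL.cons (nat_lit 2660) (nat_lit 6) (nat_lit 132088505080850276076) (ZL.cons (nat_lit 2736) (nat_lit 3) (nat_lit 65870784898869647140) (ZL.cons (nat_lit 2812)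 (nat_lit 6) (nat_lit 130585426203501733230) (ZL.cons (nat_lit 2888) (nat_lit 6) (nat_lit 129245123355036547696) (ZL.cons (nat_lit 2964) (nat_lit 6) (nat_lit 128576951698674656826) (ZL.cons (nat_lit 3040) (nat_lit 6) (nat_lit 126792948550752064442) (ZL.cons (nat_lit 3116) (nat_lit 6) (nat_lit 125827335808046739248) (ZL.cons (nat_lit 3192) (nat_lit 3) (nat_lit 62753049717397915087) (ZL.cons (nat_lit 3268) (nat_lit 6) (nat_lit 124717449261749214560) (ZL.cons (nat_lit 3344) (nat_lit 6) (nat_lit 123476428105762931658) (ZL.cons (nat_lit 3420) (nat_lit 6) (nat_lit 122857750646168588260) (ZL.cons (nat_lit 3496) (nat_lit 6) (nat_lit 123006326232982055240) (ZL.cons (nat_lit 3572) (nat_lit 6) (nat_lit 121510297286920811494) (ZL.cons (nat_lit 3648) (nat_lit 6) (nat_lit 120616211414045510388) (ZL.cons (nat_lit 3724) (nat_lit 3) (nat_lit 60159385163851038032) (ZL.cons (nat_lit 3800) (nat_lit 6) (nat_lit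 121649439476131966276) (ZL.cons (nat_lit 3876) (nat_lit 6) (nat_lit 119917292205927240270) (ZL.cons (nat_lit 3952) (nat_lit 6) (nat_lit 118768198542976978320) (ZL.cons (nat_lit 4028) (nat_lit 6) (nat_lit 118195349043352586288) (ZL.cons (nat_lit 4104) (nat_lit 3) (nat_lit 58559904887605864442) (ZL.cons (nat_lit 4180) (nat_lit 6) (nat_lit 117293363792249457920) (ZL.cons (nat_lit 4256) (nat_lit 6) (nat_lit 117815054311611757506) (ZL.cons (nat_lit 4332) (nat_lit 6) (nat_lit 118687972832672626450) (ZL.cons (nat_lit 4408) (nat_lit 6) (nat_lit 117302760845578882240) (ZL.cons (nat_lit 4484) (nat_lit 6) (nat_lit 116474903555879529364) (ZL.cons (nat_lit 4560) (nat_lit 3) (nat_lit 58099747571299285828) (ZL.cons (nat_lit 4636) (nat_lit 6) (nat_lit 115126097966333798438) (ZL.cons (nat_lit 4712) (nat_lit 6) (nat_lit 115487090321772274838) (ZL.cons (nat_lit 4788) (nat_lit 6) (nat_lit 116211214246607381574)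 (ZL.cons (nat_lit 4864) (nat_lit 6) (nat_lit 115147238632764546438) (ZL.cons (nat_lit 4940) (nat_lit 6) (nat_lit 114616822429408627886) (ZL.cons (nat_lit 5016) (nat_lit 3) (nat_lit 56726811265353388533) (ZL.cons (nat_lit 5092) (nat_lit 6) (nat_lit 113641060869107524430) (ZL.cons (nat_lit 5168) (nat_lit 6) (nat_lit 114204486630018807980) (ZL.cons (nat_lit 5244) (nat_lit 6) (nat_lit 113437952102519407168) (ZL.cons (nat_lit 5320) (nat_lit 3) (nat_lit 56591472156222223162) (ZL.cons (nat_lit 5396) (nat_lit 6) (nat_lit 112266026519823937382) (ZL.cons (nat_lit 5472) (nat_lit 6) (nat_lit 112655898263697491896) (ZL.cons (nat_lit 5548) (nat_lit 6) (nat_lit 112164772149479048792) (ZL.cons (nat_lit 5624) (nat_lit 3) (nat_lit 55676919461111027703) (ZL.cons (nat_lit 5700) (nat_lit 6) (nat_lit 111556272327694862556) (ZL.cons (nat_lit 5776) (nat_lit 3) (nat_lit 55660077001775690148) (ZL.cons (nat_lit 5852)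 (nat_lit 6) (nat_lit 110899092520167941424) (ZL.cons (nat_lit 5928) (nat_lit 1) (nat_lit 18446744073709551617) ZL.nil))))))))))))))))))))))))))))))))))))))))))))))))))))))))))))))))))))))))))))))

noncomputable def vl : XL := ⟨(nat_lit 0), (nat_lit 76), (nat_lit 161852951), (nat_lit 152), (nat_lit 157461008), (nat_lit 152), (nat_lit 157461008), (nat_lit 1), (nat_lit 4), (nat_lit 2), (nat_lit 5), (nat_lit 2), (nat_lit 4), (nat_lit 0), (nat_lit 0), (nat_lit 0)⟩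

noncomputable def cp0 : Nat := (nat_lit 151391456831434990277385256714619481974113550598342160334646058238842878064184565386511971840703302867623816249256707334470070900486251183232597443423063389410275074444375703306788588882884360333742063542205879204202984738342693779455303552120296566556129271380510021377362284294884911708935695944455708965449912024929074056697578088909887544933944954598265356247579269408791332882874482305138724584804864414141572023588010183360908905307718923581143301718049232411102568291297632020565769974388910066563518747878407248066075728263190926566585990457577259844076837401204115875436333490817582708178992313571803298633741512842425343087652055666725698842426033720092451198401884313251777642733069967526201630493310815230400088081661475946540610116216814061479042889797716810970781251922220581963428093868872802594987000319866228495007211101522416041306380739641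2061620239587199243661706694272941870605119233659254679677801579801872456633455096875642652652696737416436274579055026042302324543546628974567706401409904668069357415994470956447712382315497420325489415689928251972729093532323334640964669037930542558369263256122613246105946618141798070363104250154229598793907802078795195257372078590571571026329307596068744493640806255767578321115788941781499106755758849722879852456826183434619666710281939319494609782458863114705663647829216021425433425208720781032317886149886978439438697675290778763487757555470955311129856301919532854959921781349470398400612361088557344602700635931109940844523650292132941994323828648637926341810665116861193534710803200260541699472626638238400306105993761902638986183268163913845036888243351686226069103378609504484931215267757458135366143636158122265111641498460807633389934950891245340282757053979779234936176871471111512562404621379127443912401807825222457119530287104)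

noncomputable def cp1 : Nat := (nat_lit 148509128140939349935747211770546833589506163874091270491706088590601856577483660109060075903191458799250312252483414035727249719107573138352531482006587123440145653887558584812834453754680900408385342399448984927901709611727363287534807408879215963328823573881889802535756578096152428198515263140934354219364506331415051979435677473192632544518709168032968593081825011522154003344430053975216483975234511164321300711550006244917396492389863315037358771850940536404905147219481689194998746043192049368796454153764930500539795483174267790615723141091230118696711169294384752069979268444031123386661886789207153600670837749264755175191867532932566153573632719623692137266205197279419433596023082652590854899109646852989787100322882368102768818966699937605274098585033662947395143566288681631792865284983797974496062364349372377768952370478692129994503515786501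524129132554471809874710482284393807097749539626752269588614311147419979345201724627451190148462102614979775699091417626622734467758053987114197702419231624270003592528123868222198612725916176981531206601850963038179360600561423728447550793344146220162573283078631881965760786353740163791503529039598214138173532617399079456047705749699142245354712207499145842384129349801834780747202685115500716381133058802518330822803578577233718850061381448952431842512917346415604065564403039209484202883388487154983023335142624375316926061097769586050807827555839814809642352743430800222757008878050175797012518885395093139858887853822304861521543369968924017519739685990943603945799279750594149262204149464883103331294037355039810039360956409166693430275990269193939237021685438621553709073883437831787118484553418531411547620023468216395315125852893279187838046198702890345635849701539990229815047759311214896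950816804822981648549639337491473963238294719587655178754404179306680650138975167939362704279104425661897761833556495451776112887323583869728634368493992551675849111923343331946304891386945724071878225845574991679352107382736871057738482997577278470107694982728366564652897320543250581817429799166838362999380889115874679752713887418421722819339132154743783746103258423178971555063253665650965917521506935473262231271405035211329876525207142283940546242134253976948532535253548859513844191027140565974073562127214646420633599353438096877670385170189616188458482361799879720633468105094658767452883456127901788809619590574801395117269730058050596515726129362021109282475273793146150105893574858212408718845542505330438283307527704453947748505954086294100442594499670304695065792993129311266913556237132125006764224140250704765298024143057792568490743585106667902641858316522574015390601483179836539218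43727640674771728499792941915680571089297171932693047118281247320520767121221000488387522972105835347977844385742979853354760962265414221991669314798871859045244093731646767075088679291526700160667876605379852860043155604144361871262510482317996920333510380105807361845070560266528254187735760290775232833448481280249928397668539565145575078479818423681721776618700742862590337771387792622190834579568053513551893022144489981994193028839975081149868208315450704406136451229918034439996196243781627472915901009917688179980554836302165872058564381649899788783086324120542859906446532841688592300291613697679462063676521804687871270027340691527271315760987185428497719017363979481605605455172433803992352586488616477577999249006344141485503455922198748436987363600486508475275601040248787716255255531061799138959242980332735836452254052048425532857990544065687588524153786265634057185119663409610813988707081394858042216461831637990361961826150945298513117826274396249553426800381734150333802690366749926325267309251054796800)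

noncomputable def rc0 : Nat := (nat_lit 148509128140939349935747211770546833589506163874091270491706088590601856577483660109060075903191458799250312252483414035727249719107573138352531482006587123440145653887558584812834453754680900408385342399448984927901709611727363287534807408879215963328823573881889802535756578096152428198515263140934354219364506331415051979435677473192632544518709168032968593081825011522154003344430053975216483975234511164321300711550006244917396492389863315037358771850940536404905147219481689194998746043192049368796454153764930500539795483174267790615723141091230118696711169294384752069979268444031123386661886789207153600670837749264755175191867532932566153573632719623692137266205197279419433596023082652590854899109646852989787100322882368102768818966699937605274098585033662947395143566288681631792865284983797974496062364349372377768952370478692129994503515786501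524129132554471809874710482284393807097749539626752269588614311147419979345201724627451190148462102614979775699091417626622734467758053987114197702419231624270003592528123868222198612725916176981531206601850963038179360600561423728447550793344146220162573283078631881965760786353740163791503529039598214138173532617399079456047705749699142245354712207499145842384129349801834780747202685115500716381133058802518330822803578577233718850061381448952431842512917346415604065564403039209484202883388487154983023335142624375316926061097769586050807827555839814809642352743430800222757008878050175797012518885395093139858887853822304861521543369968924017519739685990943603945799279750594149262204149464883103331294037355039810039360956409166693430275990269193939237021685438621553709073883437831787118484553418531411547620023468216395315125852893279187838046198702890345635849701539990229815047759311214896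950816804822981648549639337491473963238294719587655178754404179306680650138975167939362704279104425661897761833556495451776112887323583869728634368493992551675849111923343331946304891386945724071878225845574991679352107382736871057738482997577278470107694982728366564652897320543250581817429799166838362999380889115874679752713887418421722819339132154743783746103258423178971555063253665650965917521506935473262231271405035211329876525207142283940546242134253976948532535253548859513844191027140565974073562127214646420633599353438096877670385170189616188458482361799879720633468105094658767452883456127901788809619590574801395117269730058050596515726129362021109282475273793146150105893574858212408718845542505330438283307527704453947748505954086294100442594499670304695065792993129311266913556237132125006764224140250704765298024143057792568490743585106667902641858316522574015390601483179836539218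43727640674771728499792941915680571089297171932693047118281247320520767121221000488387522972105835347977844385742979853354760962265414221991669314798871859045244093731646767075088679291526700160667876605379852860043155604144361871262510482317996920333510380105807361845070560266528254187735760290775232833448481280249928397668539565145575078479818423681721776618700742862590337771387792622190834579568053513551893022144489981994193028839975081149868208315450704406136451229918034439996196243781627472915901009917688179980554836302165872058564381649899788783086324120542859906446532841688592300291613697679462063676521804687871270027340691527271315760987185428497719017363979481605605455172433803992352586488616477577999249006344141485503455922198748436987363600486508475275601040248787716255255531061799138959242980332735836452254052048425532857990544065687588524153786265634057185119663409610813988707081394858042216461831637990361961826150945298513117826274396249553426800381734150333802690366749926325267309251054796800)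

end Vale.Agent.Lib.P154.PChain.BI.S3
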